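/-
LIB-BU (row273), part 1: Ky Fan's alternating label sets, pure combinatorics of finite sets of
nonzero integers.  `buPos L`: sorted by absolute value the signs of `L` alternate, starting with
`+`; `buNeg L`: the same, starting with `-`.
Main results: `bu_fan_parity` (the number of elements whose removal leaves a positive
alternating set is odd iff the set is alternating) and its version for labelled simplices
`bu_simplex_parity`.
-/
import Mathlib

set_option autoImplicit false

namespace Claimed.Agent.R273

open Finset
open scoped Classical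

/-- number of labels of `L` of smaller absolute value. -/
def buRank (L : Finset ℤ) (a : ℤ) : ℕ := (L.filter (fun b => |b| < |a|)).card
/-- positive alternating label set. -/
def buPos (L : Finset ℤ) : Prop := ∀ a ∈ L, (0 < a ↔ Even (buRank L a))
/-- negative alternating label set. -/
def buNeg (L : Finset ℤ) : Prop := ∀ a ∈ L, (0 < a ↔ ¬ Even (buRank L a))
/-- no complementary pair (in particular `0 ∉ L`). -/
def buAdm (L : Finset ℤ) : Prop := ∀ a ∈ L, -a ∉ L

theorem bu_pos_neg_excl {L : Finset ℤ} (hne : L.Nonempty) (h1 : buPos L) (h2 : buNeg L) : False := by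
  obtain ⟨a, ha⟩ := hne
  have := (h1 a ha).symm.trans (h2 a ha)
  tauto

theorem bu_rank_insert_of_mem {L : Finset ℤ} {m a : ℤ} (hm : ∀ b ∈ L, |b| < |m|) (ha : a ∈ L) :
    buRank (insert m L) a = buRank L a := by
  unfold buRank
  rw [filter_insert, if_neg (not_lt.2 (hm a ha).le)]

theorem bu_rank_insert_self {L : Finset ℤ} {m : ℤ} (hm : ∀ b ∈ L, |b| < |m|) :
    buRank (insert m L) m = L.card := by
  unfold buRank
  rw [filter_insert, if_neg (lt_irrefl _), filter_true_of_mem hm]

theorem bu_pos_insert {L : Finset ℤ} {m : ℤ} (hm : ∀ b ∈ L, |b| < |m|) :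
    buPos (insert m L) ↔ buPos L ∧ (0 < m ↔ Even L.card) := by
  unfold buPos
  constructor
  · intro h
    refine ⟨fun a ha => ?_, ?_⟩
    · rw [← bu_rank_insert_of_mem hm ha]; exact h a (mem_insert_of_mem ha)
    · rw [← bu_rank_insert_self hm]; exact h m (mem_insert_self _ _)
  · rintro ⟨h1, h2⟩ a ha
    rcases mem_insert.1 ha with rfl | ha
    · rw [bu_rank_insert_self hm]; exact h2
    · rw [bu_rank_insert_of_mem hm ha]; exact h1 a ha

theorem bu_neg_insert {L : Finset ℤ} {m : ℤ} (hm : ∀ b ∈ L, |b| < |m|) :
    buNeg (insert m L) ↔ buNeg L ∧ (0 < m ↔ ¬ Even L.card) := by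
  unfold buNeg
  constructor
  · intro h
    refine ⟨fun a ha => ?_, ?_⟩
    · rw [← bu_rank_insert_of_mem hm ha]; exact h a (mem_insert_of_mem ha)
    · rw [← bu_rank_insert_self hm]; exact h m (mem_insert_self _ _)
  · rintro ⟨h1, h2⟩ a ha
    rcases mem_insert.1 ha with rfl | ha
    · rw [bu_rank_insert_self hm]; exact h2
    · rw [bu_rank_insert_of_mem hm ha]; exact h1 a ha

theorem bu_adm_subset {L L' : Finset ℤ} (h : buAdm L) (hs : L' ⊆ L) : buAdm L' :=
  fun a ha hna => h a (hs ha) (hs hna)

/-- the count of the Fan parity lemma for `insert m L`, `m` of maximal absolute value. -/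
theorem bu_fan_count_insert {L : Finset ℤ} {m : ℤ} (hm : ∀ b ∈ L, |b| < |m|) :
    ((insert m L).filter (fun c => buPos ((insert m L).erase c))).card =
      (if buPos L then 1 else 0) +
        (if (0 < m ↔ Even (L.card - 1)) then (L.filter (fun c => buPos (L.erase c))).card
          else 0) := by
  have hmL : m ∉ L := fun h => lt_irrefl _ (hm m h)
  rw [filter_insert, erase_insert hmL]
  have h2 : L.filter (fun c => buPos ((insert m L).erase c)) =
      if (0 < m ↔ Even (L.card - 1)) then L.filter (fun c => buPos (L.erase c)) else ∅ := by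
    have h3 : ∀ c ∈ L, (buPos ((insert m L).erase c) ↔
        (buPos (L.erase c) ∧ (0 < m ↔ Even (L.card - 1)))) := by
      intro c hc
      have hcm : m ≠ c := fun h => hmL (h ▸ hc)
      rw [erase_insert_of_ne hcm, bu_pos_insert (fun b hb => hm b (mem_of_mem_erase hb)),
        card_erase_of_mem hc]
    split_ifs with h4
    · apply filter_congr
      intro c hc
      rw [h3 c hc]; exact and_iff_left h4
    · apply filter_false_of_mem
      intro c hc
      rw [h3 c hc]; tauto
  rw [h2]
  have hmem : ∀ T : Finset ℤ, T ⊆ L → m ∉ T := fun T hT h => hmL (hT h)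
  by_cases h5 : buPos L
  · rw [if_pos h5, if_pos h5]
    split_ifs with h4
    · rw [card_insert_of_notMem (hmem _ (filter_subset _ _))]; ring
    · simp
  · rw [if_neg h5, if_neg h5]
    split_ifs with h4 <;> simp

/-- **Fan parity lemma.** -/
theorem bu_fan_parity {L : Finset ℤ} (h : buAdm L) (hne : L.Nonempty) :
    Odd (L.filter (fun c => buPos (L.erase c))).card ↔ (buPos L ∨ buNeg L) := by
  induction hn : L.card using Nat.strong_induction_on generalizing L with
  | _ n ih =>
    obtain ⟨m, hmL, hmax⟩ := exists_max_image L (fun a => |a|) hne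
    set L' := L.erase m with hL'
    have hins : L = insert m L' := (insert_erase hmL).symm
    have hm : ∀ b ∈ L', |b| < |m| := by
      intro b hb
      have hb1 := mem_of_mem_erase hb
      have hb2 := ne_of_mem_erase hb
      refine lt_of_le_of_ne (hmax b hb1) (fun heq => ?_)
      rcases abs_eq_abs.1 heq with h1 | h1
      · exact hb2 h1
      · exact h m hmL (h1 ▸ hb1)
    have hcard : L'.card < n := by
      rw [← hn, hL', card_erase_of_mem hmL]
      have := card_pos.2 hne
      omega
    rw [hins, bu_fan_count_insert hm, bu_pos_insert hm, bu_neg_insert hm]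
    rcases L'.eq_empty_or_nonempty with he | hne'
    · rw [he]
      have h0 : buPos (∅ : Finset ℤ) := fun a ha => absurd ha (notMem_empty a)
      have h0' : buNeg (∅ : Finset ℤ) := fun a ha => absurd ha (notMem_empty a)
      simp only [h0, h0', if_true, filter_empty, card_empty, ite_self, add_zero, true_and]
      simp only [odd_one, true_iff]
      tauto
    · have ih' := ih L'.card hcard (bu_adm_subset h (erase_subset _ _)) hne' rfl
      have hex : ¬ (buPos L' ∧ buNeg L') := fun hh => bu_pos_neg_excl hne' hh.1 hh.2
      obtain ⟨e, he⟩ : ∃ e, L'.card = e + 1 := ⟨L'.card - 1, by have := card_pos.2 hne'; omega⟩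
      rw [he] at *
      simp only [Nat.add_sub_cancel]
      have hpar : Even (e + 1) ↔ ¬ Even e := Nat.even_add_one
      by_cases hμ : (0 < m ↔ Even e)
      · rw [if_pos hμ]
        by_cases hp : buPos L'
        · rw [if_pos hp]
          have hodd : Odd (L'.filter (fun c => buPos (L'.erase c))).card := ih'.2 (Or.inl hp)
          have : ¬ Odd (1 + (L'.filter (fun c => buPos (L'.erase c))).card) := by
            rw [Nat.not_odd_iff_even]; exact odd_one.add_odd hodd
          have hn' : ¬ buNeg L' := fun hh => hex ⟨hp, hh⟩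
          tauto
        · rw [if_neg hp, zero_add, ih']
          tauto
      · rw [if_neg hμ, add_zero]
        by_cases hp : buPos L'
        · rw [if_pos hp]
          simp only [odd_one, true_iff]
          tauto
        · rw [if_neg hp]
          have : ¬ Odd 0 := by decide
          tauto


theorem bu_adm_ne_zero {L : Finset ℤ} (h : buAdm L) {a : ℤ} (ha : a ∈ L) : a ≠ 0 := by
  rintro rfl
  exact h 0 ha (by simpa using ha)

theorem bu_adm_image_neg {L : Finset ℤ} (h : buAdm L) : buAdm (L.image (fun a => -a)) := by
  intro a ha hna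
  obtain ⟨b, hb, rfl⟩ := mem_image.1 ha
  obtain ⟨c, hc, hcb⟩ := mem_image.1 hna
  have : c = -b := by
    have h1 : -c = - -b := hcb
    omega
  exact h b hb (this ▸ hc)

theorem bu_rank_image_neg (L : Finset ℤ) (a : ℤ) :
    buRank (L.image (fun a => -a)) (-a) = buRank L a := by
  unfold buRank
  rw [filter_image, card_image_of_injective _ neg_injective]
  simp only [abs_neg]

theorem bu_pos_image_neg {L : Finset ℤ} (h : buAdm L) :
    buPos (L.image (fun a => -a)) ↔ buNeg L := by
  unfold buPos buNeg
  constructor
  · intro h1 a ha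
    have h2 := h1 (-a) (mem_image_of_mem _ ha)
    rw [bu_rank_image_neg] at h2
    have h3 := bu_adm_ne_zero h ha
    have h4 : 0 < -a ↔ ¬ 0 < a := by
      constructor
      · intro h5; omega
      · intro h5; omega
    tauto
  · intro h1 a ha
    obtain ⟨b, hb, rfl⟩ := mem_image.1 ha
    have h2 := h1 b hb
    rw [bu_rank_image_neg]
    have h3 := bu_adm_ne_zero h hb
    have h4 : 0 < -b ↔ ¬ 0 < b := by
      constructor
      · intro h5; omega
      · intro h5; omega
    tauto

section simplex
variable {α : Type*} [DecidableEq α]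

/-- positive alternating labelled simplex. -/
def buAltP (l : α → ℤ) (s : Finset α) : Prop := Set.InjOn l s ∧ buPos (s.image l)

/-- negative alternating labelled simplex. -/
def buAltN (l : α → ℤ) (s : Finset α) : Prop := Set.InjOn l s ∧ buNeg (s.image l)

theorem bu_image_erase_of_injOn {l : α → ℤ} {s : Finset α} (hinj : Set.InjOn l s) {x : α}
    (hx : x ∈ s) : (s.erase x).image l = (s.image l).erase (l x) := by
  ext c
  simp only [mem_image, mem_erase]
  constructor
  · rintro ⟨y, ⟨hyx, hy⟩, rfl⟩
    exact ⟨fun h => hyx (hinj hy hx h), y, hy, rfl⟩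
  · rintro ⟨hc, y, hy, rfl⟩
    exact ⟨y, ⟨fun h => hc (h ▸ rfl), hy⟩, rfl⟩

theorem bu_altP_erase_swap {l : α → ℤ} {s : Finset α} {x x' : α} (hx : x ∈ s) (hx' : x' ∈ s)
    (hne : x ≠ x') (hl : l x = l x') (h : buAltP l (s.erase x)) : buAltP l (s.erase x') := by
  obtain ⟨h1, h2⟩ := h
  have himg : ∀ y y' : α, y ∈ s → y' ∈ s → y ≠ y' → l y = l y' → (s.erase y).image l = s.image l := by
    intro y y' hy hy' hyy hly
    apply Subset.antisymm (image_subset_image (erase_subset _ _))
    intro c hc
    obtain ⟨z, hz, rfl⟩ := mem_image.1 hc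
    by_cases hzy : z = y
    · subst hzy
      rw [hly]
      exact mem_image_of_mem _ (mem_erase.2 ⟨hyy.symm, hy'⟩)
    · exact mem_image_of_mem _ (mem_erase.2 ⟨hzy, hz⟩)
  refine ⟨?_, ?_⟩
  · -- injectivity
    have key : ∀ u ∈ s.erase x', ∀ v ∈ s.erase x', u ≠ x → l u = l v → u = v := by
      intro u hu v hv hux huv
      have hu' : u ∈ s.erase x := mem_erase.2 ⟨hux, mem_of_mem_erase hu⟩
      by_cases hvx : v = x
      · subst hvx
        have hx'' : x' ∈ s.erase v := mem_erase.2 ⟨hne.symm, hx'⟩
        have := h1 hu' hx'' (huv.trans hl)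
        exact absurd this (ne_of_mem_erase hu)
      · exact h1 hu' (mem_erase.2 ⟨hvx, mem_of_mem_erase hv⟩) huv
    intro u hu v hv huv
    by_cases hux : u = x
    · by_cases hvx : v = x
      · rw [hux, hvx]
      · exact (key v hv u hu hvx huv.symm).symm
    · exact key u hu v hv hux huv
  · rw [himg x' x hx' hx hne.symm hl.symm, ← himg x x' hx hx' hne hl]
    exact h2

/-- **Fan parity for a labelled simplex** (labels may repeat, no complementary pair). -/
theorem bu_simplex_parity (l : α → ℤ) (s : Finset α) (hne : s.Nonempty)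
    (hc : ∀ x ∈ s, ∀ y ∈ s, l x ≠ - l y) :
    Odd (s.filter (fun x => buAltP l (s.erase x))).card ↔ (buAltP l s ∨ buAltN l s) := by
  by_cases hinj : Set.InjOn l s
  · have hadm : buAdm (s.image l) := by
      intro a ha hna
      obtain ⟨x, hx, rfl⟩ := mem_image.1 ha
      obtain ⟨y, hy, hxy⟩ := mem_image.1 hna
      exact hc y hy x hx hxy
    have h1 := bu_fan_parity hadm (hne.image l)
    have h2 : ((s.image l).filter (fun c => buPos ((s.image l).erase c))).card =
        (s.filter (fun x => buAltP l (s.erase x))).card := by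
      rw [filter_image, card_image_of_injOn (hinj.mono (by
        intro x hx; exact (mem_filter.1 hx).1))]
      congr 1
      apply filter_congr
      intro x hx
      unfold buAltP
      rw [bu_image_erase_of_injOn hinj hx]
      constructor
      · intro h; exact ⟨hinj.mono (by intro y hy; exact mem_of_mem_erase hy), h⟩
      · intro h; exact h.2
    rw [← h2, h1]
    unfold buAltP buAltN
    tauto
  · have hR : ¬ (buAltP l s ∨ buAltN l s) := by
      rintro (h | h) <;> exact hinj h.1
    have hex : ∃ x ∈ s, ∃ x' ∈ s, x ≠ x' ∧ l x = l x' := by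
      by_contra hcon
      push Not at hcon
      apply hinj
      intro x hx y hy hxy
      by_contra hne'
      exact hcon x hx y hy hne' hxy
    obtain ⟨x, hx, x', hx', hxx, hl⟩ := hex
    have hsub : s.filter (fun y => buAltP l (s.erase y)) ⊆ {x, x'} := by
      intro y hy
      obtain ⟨hy1, hy2⟩ := mem_filter.1 hy
      by_contra hcon
      simp only [mem_insert, mem_singleton, not_or] at hcon
      have := hy2.1 (mem_coe.2 (mem_erase.2 ⟨Ne.symm hcon.1, hx⟩))
        (mem_coe.2 (mem_erase.2 ⟨Ne.symm hcon.2, hx'⟩)) hl
      exact hxx this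
    have hiff : buAltP l (s.erase x) ↔ buAltP l (s.erase x') :=
      ⟨bu_altP_erase_swap hx hx' hxx hl, bu_altP_erase_swap hx' hx hxx.symm hl.symm⟩
    have heven : ¬ Odd (s.filter (fun y => buAltP l (s.erase y))).card := by
      by_cases hP : buAltP l (s.erase x)
      · have : s.filter (fun y => buAltP l (s.erase y)) = {x, x'} := by
          apply Subset.antisymm hsub
          intro y hy
          rcases mem_insert.1 hy with rfl | hy
          · exact mem_filter.2 ⟨hx, hP⟩
          · rw [mem_singleton.1 hy]; exact mem_filter.2 ⟨hx', hiff.1 hP⟩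
        rw [this, card_pair hxx]; decide
      · have : s.filter (fun y => buAltP l (s.erase y)) = ∅ := by
          apply filter_false_of_mem
          intro y hy hy2
          have hy3 := hsub (mem_filter.2 ⟨hy, hy2⟩)
          rcases mem_insert.1 hy3 with rfl | hy3
          · exact hP hy2
          · rw [mem_singleton.1 hy3] at hy2; exact hP (hiff.2 hy2)
        rw [this]; simp
    tauto

omit [DecidableEq α] in
theorem bu_alt_excl (l : α → ℤ) (s : Finset α) (hne : s.Nonempty) (h1 : buAltP l s)
    (h2 : buAltN l s) : False :=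
  bu_pos_neg_excl (hne.image l) h1.2 h2.2

end simplex

end Claimed.Agent.R273
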