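/-
LIB-BU (row273), part 2: Kuhn (Freudenthal) simplices of the integer lattice, as SETS of lattice
points: chains for the coordinatewise order of sup-diameter at most one.
Main result `bu_ext_card`: inside a box of dimension `k`, a Kuhn chain with `k` points extends to
a Kuhn chain with `k+1` points in exactly two ways, or in exactly one way if it lies in a facet
of the box (pseudomanifold property).
-/
import Mathlib

set_option autoImplicit false

namespace Claimed.Agent.R273

open Finset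
open scoped Classical

variable {n : ℕ}

/-- Kuhn chain: totally ordered, sup-diameter `≤ 1`. -/
def buK (s : Finset (Fin n → ℤ)) : Prop :=
  (∀ x ∈ s, ∀ y ∈ s, x ≤ y ∨ y ≤ x) ∧ (∀ x ∈ s, ∀ y ∈ s, ∀ j, y j ≤ x j + 1)

/-- dimension of the box `Icc a b`. -/
def buDim (a b : Fin n → ℤ) : ℕ := (univ.filter (fun j => a j < b j)).card

/-- Kuhn chains with `r` points in the box `Icc a b`. -/
noncomputable def buSimp (a b : Fin n → ℤ) (r : ℕ) : Finset (Finset (Fin n → ℤ)) :=
  ((Icc a b).powersetCard r).filter buK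

theorem bu_mem_simp {a b : Fin n → ℤ} {r : ℕ} {s : Finset (Fin n → ℤ)} :
    s ∈ buSimp a b r ↔ (∀ x ∈ s, a ≤ x ∧ x ≤ b) ∧ s.card = r ∧ buK s := by
  unfold buSimp
  rw [mem_filter, mem_powersetCard]
  constructor
  · rintro ⟨⟨h1, h2⟩, h3⟩
    exact ⟨fun x hx => mem_Icc.1 (h1 hx), h2, h3⟩
  · rintro ⟨h1, h2, h3⟩
    exact ⟨⟨fun x hx => mem_Icc.2 (h1 x hx), h2⟩, h3⟩

theorem buK_subset {s t : Finset (Fin n → ℤ)} (h : buK t) (hst : s ⊆ t) : buK s :=
  ⟨fun x hx y hy => h.1 x (hst hx) y (hst hy), fun x hx y hy => h.2 x (hst hx) y (hst hy)⟩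

/-- the chain `τ` lies in a facet of the box. -/
def buInFacet (a b : Fin n → ℤ) (τ : Finset (Fin n → ℤ)) : Prop :=
  ∃ j, a j < b j ∧ ((∀ x ∈ τ, x j = a j) ∨ (∀ x ∈ τ, x j = b j))

/-- height of a lattice point. -/
def buH (x : Fin n → ℤ) : ℤ := ∑ j, x j

theorem buH_mono {x y : Fin n → ℤ} (h : x ≤ y) : buH x ≤ buH y :=
  sum_le_sum (fun j _ => h j)

theorem buH_lt {x y : Fin n → ℤ} (h : x ≤ y) (hne : x ≠ y) : buH x < buH y := by
  apply sum_lt_sum (fun j _ => h j)
  by_contra hcon
  push Not at hcon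
  exact hne (funext fun j => le_antisymm (h j) (hcon j (mem_univ j)))

theorem buH_sub {x y : Fin n → ℤ} (h : x ≤ y) (h1 : ∀ j, y j ≤ x j + 1) :
    buH y - buH x = ((univ.filter (fun j => x j < y j)).card : ℤ) := by
  unfold buH
  rw [← sum_sub_distrib, card_filter]
  push_cast
  apply sum_congr rfl
  intro j _
  have e1 : x j ≤ y j := h j
  have e2 := h1 j
  split_ifs <;> omega

theorem buK_le_of_H {s : Finset (Fin n → ℤ)} (hK : buK s) {x y : Fin n → ℤ} (hx : x ∈ s)
    (hy : y ∈ s) (h : buH x ≤ buH y) : x ≤ y := by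
  rcases hK.1 x hx y hy with h1 | h1
  · exact h1
  · by_cases hxy : y = x
    · rw [hxy]
    · exact absurd (buH_lt h1 hxy) (not_lt.2 h)

theorem buK_H_injOn {s : Finset (Fin n → ℤ)} (hK : buK s) : Set.InjOn buH (s : Set (Fin n → ℤ)) := by
  intro x hx y hy hxy
  exact le_antisymm (buK_le_of_H hK hx hy hxy.le) (buK_le_of_H hK hy hx hxy.ge)

theorem bu_diff_subset {a b x y : Fin n → ℤ} (hx : a ≤ x) (hy : y ≤ b) :
    univ.filter (fun j => x j < y j) ⊆ univ.filter (fun j => a j < b j) := by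
  intro j hj
  rw [mem_filter] at hj ⊢
  exact ⟨mem_univ _, lt_of_le_of_lt (hx j) (lt_of_lt_of_le hj.2 (hy j))⟩

/-- extremal points of a nonempty Kuhn chain. -/
theorem buK_exists_lo_hi {s : Finset (Fin n → ℤ)} (hK : buK s) (hne : s.Nonempty) :
    ∃ lo ∈ s, ∃ hi ∈ s, ∀ x ∈ s, lo ≤ x ∧ x ≤ hi := by
  obtain ⟨lo, hlo, hlo'⟩ := exists_min_image s buH hne
  obtain ⟨hi, hhi, hhi'⟩ := exists_max_image s buH hne
  exact ⟨lo, hlo, hi, hhi, fun x hx =>
    ⟨buK_le_of_H hK hlo hx (hlo' x hx), buK_le_of_H hK hx hhi (hhi' x hx)⟩⟩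

/-- a Kuhn chain between `lo` and `hi` has at most `H hi - H lo + 1` points. -/
theorem buK_card_le_H {s : Finset (Fin n → ℤ)} (hK : buK s) (hne : s.Nonempty)
    {lo hi : Fin n → ℤ}
    (h : ∀ x ∈ s, lo ≤ x ∧ x ≤ hi) : (s.card : ℤ) ≤ buH hi - buH lo + 1 := by
  obtain ⟨x0, hx0⟩ := hne
  have h0 : buH lo ≤ buH hi := buH_mono ((h x0 hx0).1.trans (h x0 hx0).2)
  have h1 : s.card ≤ (Icc (buH lo) (buH hi)).card := by
    apply card_le_card_of_injOn buH
    · intro x hx
      exact mem_coe.2 (mem_Icc.2 ⟨buH_mono (h x hx).1, buH_mono (h x hx).2⟩)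
    · exact buK_H_injOn hK
  rw [Int.card_Icc] at h1
  omega

/-- a Kuhn chain in a box of dimension `k` has at most `k+1` points. -/
theorem bu_card_le (a b : Fin n → ℤ) (s : Finset (Fin n → ℤ)) (hs : ∀ x ∈ s, a ≤ x ∧ x ≤ b)
    (hK : buK s) : s.card ≤ buDim a b + 1 := by
  rcases s.eq_empty_or_nonempty with rfl | hne
  · simp
  obtain ⟨lo, hlo, hi, hhi, hall⟩ := buK_exists_lo_hi hK hne
  have h1 := buK_card_le_H hK hne hall
  have h2 := buH_sub (hall hi hhi).1 (hK.2 lo hlo hi hhi)
  have h3 := card_le_card (bu_diff_subset (hs lo hlo).1 (hs hi hhi).2)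
  unfold buDim
  omega


/-- indicator vector of the free coordinates of the box. -/
def buOne (a b : Fin n → ℤ) : Fin n → ℤ := fun j => if a j < b j then 1 else 0

theorem buH_add_one (a b x : Fin n → ℤ) : buH (x + buOne a b) = buH x + buDim a b := by
  unfold buH buOne buDim
  simp only [Pi.add_apply]
  rw [sum_add_distrib, card_filter]
  push_cast
  rfl

theorem buH_sub_one (a b x : Fin n → ℤ) : buH (x - buOne a b) = buH x - buDim a b := by
  have := buH_add_one a b (x - buOne a b)
  rw [sub_add_cancel] at this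
  omega

/-- a point at full height above `lo` is `lo + 1_J`. -/
theorem bu_eq_add_one {a b lo y : Fin n → ℤ} (h1 : lo ≤ y) (h2 : ∀ j, y j ≤ lo j + 1)
    (ha : a ≤ lo) (hb : y ≤ b) (hH : (buDim a b : ℤ) ≤ buH y - buH lo) : y = lo + buOne a b := by
  have e1 := buH_sub h1 h2
  have e2 : univ.filter (fun j => lo j < y j) = univ.filter (fun j => a j < b j) := by
    apply eq_of_subset_of_card_le (bu_diff_subset ha hb)
    unfold buDim at hH
    omega
  funext j
  have e3 : lo j ≤ y j := h1 j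
  have e4 := h2 j
  simp only [Pi.add_apply, buOne]
  by_cases hj : a j < b j
  · have : j ∈ univ.filter (fun j => lo j < y j) := by rw [e2]; exact mem_filter.2 ⟨mem_univ _, hj⟩
    have := (mem_filter.1 this).2
    rw [if_pos hj]; omega
  · have : j ∉ univ.filter (fun j => lo j < y j) := by
      rw [e2]; intro h; exact hj (mem_filter.1 h).2
    have : ¬ lo j < y j := fun h => this (mem_filter.2 ⟨mem_univ _, h⟩)
    rw [if_neg hj]; omega

theorem buK_insert {τ : Finset (Fin n → ℤ)} (hK : buK τ) {y : Fin n → ℤ}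
    (h : ∀ x ∈ τ, (x ≤ y ∨ y ≤ x) ∧ ∀ j, y j ≤ x j + 1 ∧ x j ≤ y j + 1) : buK (insert y τ) := by
  constructor
  · intro x hx z hz
    rcases mem_insert.1 hx with hx' | hx'
    · rcases mem_insert.1 hz with hz' | hz'
      · rw [hx', hz']; exact Or.inl le_rfl
      · rw [hx']; exact (h z hz').1.symm
    · rcases mem_insert.1 hz with hz' | hz'
      · rw [hz']; exact (h x hx').1
      · exact hK.1 x hx' z hz'
  · intro x hx z hz j
    rcases mem_insert.1 hx with hx' | hx'
    · rcases mem_insert.1 hz with hz' | hz'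
      · rw [hx', hz']; omega
      · rw [hx']; exact ((h z hz').2 j).2
    · rcases mem_insert.1 hz with hz' | hz'
      · rw [hz']; exact ((h x hx').2 j).1
      · exact hK.2 x hx' z hz' j

/-- structure of a chain with `k` points in a box of dimension `k`. -/
theorem bu_tau_struct (a b : Fin n → ℤ) (hk : 1 ≤ buDim a b) (τ : Finset (Fin n → ℤ))
    (hτ : τ ∈ buSimp a b (buDim a b)) :
    ∃ lo ∈ τ, ∃ hi ∈ τ, (∀ x ∈ τ, lo ≤ x ∧ x ≤ hi) ∧
      (buH hi - buH lo = (buDim a b : ℤ) - 1 ∨ buH hi - buH lo = (buDim a b : ℤ)) := by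
  obtain ⟨h1, h2, h3⟩ := bu_mem_simp.1 hτ
  have hne : τ.Nonempty := card_pos.1 (by omega)
  obtain ⟨lo, hlo, hi, hhi, hall⟩ := buK_exists_lo_hi h3 hne
  refine ⟨lo, hlo, hi, hhi, hall, ?_⟩
  have e1 := buK_card_le_H h3 hne hall
  have e2 := buH_sub (hall hi hhi).1 (h3.2 lo hlo hi hhi)
  have e3 := card_le_card (bu_diff_subset (h1 lo hlo).1 (h1 hi hhi).2)
  unfold buDim at *
  omega

/-- coordinates on which the chain is constant: at most one free coordinate. -/
theorem bu_const_unique (a b : Fin n → ℤ) (hk : 1 ≤ buDim a b) (τ : Finset (Fin n → ℤ))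
    (hτ : τ ∈ buSimp a b (buDim a b)) (j j' : Fin n) (hj : a j < b j) (hj' : a j' < b j')
    (h : ∀ x ∈ τ, ∀ y ∈ τ, x j = y j) (h' : ∀ x ∈ τ, ∀ y ∈ τ, x j' = y j') : j = j' := by
  obtain ⟨h1, h2, h3⟩ := bu_mem_simp.1 hτ
  obtain ⟨lo, hlo, hi, hhi, hall, hH⟩ := bu_tau_struct a b hk τ hτ
  have e2 := buH_sub (hall hi hhi).1 (h3.2 lo hlo hi hhi)
  by_contra hne
  have hsub : univ.filter (fun j => lo j < hi j) ⊆
      ((univ.filter (fun j => a j < b j)).erase j).erase j' := by
    intro i hi'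
    have hi2 := (mem_filter.1 hi').2
    rw [mem_erase, mem_erase]
    refine ⟨?_, ?_, bu_diff_subset (h1 lo hlo).1 (h1 hi hhi).2 hi'⟩
    · rintro rfl; exact absurd (h' lo hlo hi hhi) hi2.ne
    · rintro rfl; exact absurd (h lo hlo hi hhi) hi2.ne
  have e3 := card_le_card hsub
  have m1 : j ∈ univ.filter (fun j => a j < b j) := mem_filter.2 ⟨mem_univ _, hj⟩
  have m2 : j' ∈ (univ.filter (fun j => a j < b j)).erase j :=
    mem_erase.2 ⟨Ne.symm hne, mem_filter.2 ⟨mem_univ _, hj'⟩⟩
  rw [card_erase_of_mem m2, card_erase_of_mem m1] at e3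
  have hd : buDim a b = (univ.filter (fun j => a j < b j)).card := rfl
  have e4 : 0 < ((univ.filter (fun j => a j < b j)).erase j).card := card_pos.2 ⟨j', m2⟩
  rw [card_erase_of_mem m1] at e4
  rw [← hd] at e3 e4
  rcases hH with hH | hH <;> omega

/-- a Kuhn chain with `k` points in a box of dimension `k` lies in at most one facet:
the pair (coordinate, side) is unique. -/
theorem bu_facet_unique (a b : Fin n → ℤ) (hk : 1 ≤ buDim a b) (τ : Finset (Fin n → ℤ))
    (hτ : τ ∈ buSimp a b (buDim a b)) (j j' : Fin n) (hj : a j < b j) (hj' : a j' < b j')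
    (h : (∀ x ∈ τ, x j = a j) ∨ (∀ x ∈ τ, x j = b j))
    (h' : (∀ x ∈ τ, x j' = a j') ∨ (∀ x ∈ τ, x j' = b j')) : j = j' := by
  apply bu_const_unique a b hk τ hτ j j' hj hj'
  · intro x hx y hy
    rcases h with h | h <;> rw [h x hx, h y hy]
  · intro x hx y hy
    rcases h' with h' | h' <;> rw [h' x hx, h' y hy]


theorem bu_one_nonneg (a b : Fin n → ℤ) (j : Fin n) : 0 ≤ buOne a b j ∧ buOne a b j ≤ 1 := by
  unfold buOne; split_ifs <;> omega

/-- heights of a chain with `H hi - H lo + 1` points fill the whole interval. -/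
theorem bu_image_H_eq {τ : Finset (Fin n → ℤ)} (hK : buK τ) {lo hi : Fin n → ℤ}
    (hall : ∀ x ∈ τ, lo ≤ x ∧ x ≤ hi) (hc : buH hi - buH lo + 1 ≤ (τ.card : ℤ)) :
    τ.image buH = Icc (buH lo) (buH hi) := by
  apply eq_of_subset_of_card_le
  · intro t ht
    obtain ⟨x, hx, rfl⟩ := mem_image.1 ht
    exact mem_Icc.2 ⟨buH_mono (hall x hx).1, buH_mono (hall x hx).2⟩
  · rw [card_image_of_injOn (buK_H_injOn hK), Int.card_Icc]
    omega

theorem bu_H_notMem_image {τ : Finset (Fin n → ℤ)} {y : Fin n → ℤ} (hy : y ∉ τ)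
    (hK : buK (insert y τ)) : buH y ∉ τ.image buH := by
  intro h
  obtain ⟨x, hx, hxy⟩ := mem_image.1 h
  have := buK_H_injOn hK (mem_coe.2 (mem_insert_of_mem hx)) (mem_coe.2 (mem_insert_self y τ)) hxy
  exact hy (this ▸ hx)

theorem bu_ext_caseA (a b : Fin n → ℤ) (τ : Finset (Fin n → ℤ))
    (hτ : τ ∈ buSimp a b (buDim a b)) {lo hi : Fin n → ℤ} (hlo : lo ∈ τ) (hhi : hi ∈ τ)
    (hall : ∀ x ∈ τ, lo ≤ x ∧ x ≤ hi) (hH : buH hi - buH lo = (buDim a b : ℤ) - 1) :
    (Icc a b).filter (fun y => y ∉ τ ∧ buK (insert y τ)) =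
      ({lo + buOne a b, hi - buOne a b} : Finset (Fin n → ℤ)).filter (fun y => y ∈ Icc a b) := by
  obtain ⟨h1, h2, h3⟩ := bu_mem_simp.1 hτ
  have himg := bu_image_H_eq h3 hall (by omega)
  ext y
  rw [mem_filter, mem_filter, mem_insert, mem_singleton]
  constructor
  · rintro ⟨hyb, hyτ, hK⟩
    refine ⟨?_, hyb⟩
    obtain ⟨hya, hyb'⟩ := mem_Icc.1 hyb
    have hn := bu_H_notMem_image hyτ hK
    rw [himg, mem_Icc] at hn
    have hyσ : y ∈ insert y τ := mem_insert_self y τ
    have hloσ : lo ∈ insert y τ := mem_insert_of_mem hlo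
    have hhiσ : hi ∈ insert y τ := mem_insert_of_mem hhi
    by_cases hc : buH hi < buH y
    · left
      have hk0 : buH lo ≤ buH hi := buH_mono (hall hi hhi).1
      exact bu_eq_add_one (buK_le_of_H hK hloσ hyσ (by omega)) (hK.2 lo hloσ y hyσ)
        (h1 lo hlo).1 hyb' (by omega)
    · right
      have hc' : buH y < buH lo := by
        by_contra hcon
        exact hn ⟨by omega, by omega⟩
      have hk0 : buH lo ≤ buH hi := buH_mono (hall hi hhi).1
      have := bu_eq_add_one (buK_le_of_H hK hyσ hhiσ (by omega)) (hK.2 y hyσ hi hhiσ)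
        hya (h1 hi hhi).2 (by omega)
      rw [this]; simp
  · rintro ⟨hy, hyb⟩
    refine ⟨hyb, ?_⟩
    rcases hy with rfl | rfl
    · constructor
      · intro hmem
        have e1 := buH_mono (hall _ hmem).2
        rw [buH_add_one] at e1
        omega
      · apply buK_insert h3
        intro x hx
        have hle : x ≤ lo + buOne a b := by
          intro j
          have e1 := h3.2 lo hlo x hx j
          have e2 : x j ≤ b j := (h1 x hx).2 j
          have e3 : a j ≤ lo j := (h1 lo hlo).1 j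
          simp only [Pi.add_apply, buOne]
          split_ifs <;> omega
        refine ⟨Or.inl hle, fun j => ?_⟩
        have e1 : lo j ≤ x j := (hall x hx).1 j
        have e2 := bu_one_nonneg a b j
        have e3 : x j ≤ (lo + buOne a b) j := hle j
        simp only [Pi.add_apply] at e3 ⊢
        constructor <;> omega
    · constructor
      · intro hmem
        have e1 := buH_mono (hall _ hmem).1
        rw [buH_sub_one] at e1
        omega
      · apply buK_insert h3
        intro x hx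
        have hle : hi - buOne a b ≤ x := by
          intro j
          have e1 := h3.2 x hx hi hhi j
          have e2 : a j ≤ x j := (h1 x hx).1 j
          have e3 : hi j ≤ b j := (h1 hi hhi).2 j
          simp only [Pi.sub_apply, buOne]
          split_ifs <;> omega
        refine ⟨Or.inr hle, fun j => ?_⟩
        have e1 : x j ≤ hi j := (hall x hx).2 j
        have e2 := bu_one_nonneg a b j
        have e3 : (hi - buOne a b) j ≤ x j := hle j
        simp only [Pi.sub_apply] at e3 ⊢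
        constructor <;> omega

theorem bu_up_notMem_iff (a b : Fin n → ℤ) (τ : Finset (Fin n → ℤ))
    (h1 : ∀ x ∈ τ, a ≤ x ∧ x ≤ b) {lo : Fin n → ℤ} (hlo : lo ∈ τ)
    (hall : ∀ x ∈ τ, lo ≤ x) :
    lo + buOne a b ∉ Icc a b ↔ ∃ j, a j < b j ∧ ∀ x ∈ τ, x j = b j := by
  constructor
  · intro h
    have h2 : ¬ (lo + buOne a b ≤ b) := by
      intro h3
      apply h
      rw [mem_Icc]
      refine ⟨fun j => ?_, h3⟩
      have e1 : a j ≤ lo j := (h1 lo hlo).1 j
      have e2 := bu_one_nonneg a b j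
      simp only [Pi.add_apply]; omega
    rw [Pi.le_def] at h2
    push Not at h2
    obtain ⟨j, hj⟩ := h2
    have e1 : lo j ≤ b j := (h1 lo hlo).2 j
    simp only [Pi.add_apply, buOne] at hj
    by_cases hab : a j < b j
    · rw [if_pos hab] at hj
      refine ⟨j, hab, fun x hx => ?_⟩
      have e2 : lo j ≤ x j := hall x hx j
      have e3 : x j ≤ b j := (h1 x hx).2 j
      omega
    · rw [if_neg hab] at hj; omega
  · rintro ⟨j, hab, hj⟩ h
    have e1 : (lo + buOne a b) j ≤ b j := (mem_Icc.1 h).2 j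
    simp only [Pi.add_apply, buOne, if_pos hab] at e1
    have := hj lo hlo
    omega

theorem bu_down_notMem_iff (a b : Fin n → ℤ) (τ : Finset (Fin n → ℤ))
    (h1 : ∀ x ∈ τ, a ≤ x ∧ x ≤ b) {hi : Fin n → ℤ} (hhi : hi ∈ τ)
    (hall : ∀ x ∈ τ, x ≤ hi) :
    hi - buOne a b ∉ Icc a b ↔ ∃ j, a j < b j ∧ ∀ x ∈ τ, x j = a j := by
  constructor
  · intro h
    have h2 : ¬ (a ≤ hi - buOne a b) := by
      intro h3
      apply h
      rw [mem_Icc]
      refine ⟨h3, fun j => ?_⟩
      have e1 : hi j ≤ b j := (h1 hi hhi).2 j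
      have e2 := bu_one_nonneg a b j
      simp only [Pi.sub_apply]; omega
    rw [Pi.le_def] at h2
    push Not at h2
    obtain ⟨j, hj⟩ := h2
    have e1 : a j ≤ hi j := (h1 hi hhi).1 j
    simp only [Pi.sub_apply, buOne] at hj
    by_cases hab : a j < b j
    · rw [if_pos hab] at hj
      refine ⟨j, hab, fun x hx => ?_⟩
      have e2 : x j ≤ hi j := hall x hx j
      have e3 : a j ≤ x j := (h1 x hx).1 j
      omega
    · rw [if_neg hab] at hj; omega
  · rintro ⟨j, hab, hj⟩ h
    have e1 : a j ≤ (hi - buOne a b) j := (mem_Icc.1 h).1 j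
    simp only [Pi.sub_apply, buOne, if_pos hab] at e1
    have := hj hi hhi
    omega

theorem bu_ext_card_A (a b : Fin n → ℤ) (hk : 1 ≤ buDim a b) (τ : Finset (Fin n → ℤ))
    (hτ : τ ∈ buSimp a b (buDim a b)) {lo hi : Fin n → ℤ} (hlo : lo ∈ τ) (hhi : hi ∈ τ)
    (hall : ∀ x ∈ τ, lo ≤ x ∧ x ≤ hi) (hH : buH hi - buH lo = (buDim a b : ℤ) - 1) :
    ((Icc a b).filter (fun y => y ∉ τ ∧ buK (insert y τ))).card =
      if buInFacet a b τ then 1 else 2 := by
  obtain ⟨h1, h2, h3⟩ := bu_mem_simp.1 hτ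
  rw [bu_ext_caseA a b τ hτ hlo hhi hall hH]
  have hup := bu_up_notMem_iff a b τ h1 hlo (fun x hx => (hall x hx).1)
  have hdn := bu_down_notMem_iff a b τ h1 hhi (fun x hx => (hall x hx).2)
  have hne : lo + buOne a b ≠ hi - buOne a b := by
    intro h
    have e1 := congrArg buH h
    rw [buH_add_one, buH_sub_one] at e1
    omega
  have hfac : buInFacet a b τ ↔
      (lo + buOne a b ∉ Icc a b ∨ hi - buOne a b ∉ Icc a b) := by
    rw [hup, hdn]
    unfold buInFacet
    constructor
    · rintro ⟨j, hj, h | h⟩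
      · exact Or.inr ⟨j, hj, h⟩
      · exact Or.inl ⟨j, hj, h⟩
    · rintro (⟨j, hj, h⟩ | ⟨j, hj, h⟩)
      · exact ⟨j, hj, Or.inr h⟩
      · exact ⟨j, hj, Or.inl h⟩
  have hboth : ¬ (lo + buOne a b ∉ Icc a b ∧ hi - buOne a b ∉ Icc a b) := by
    rw [hup, hdn]
    rintro ⟨⟨j, hj, h⟩, ⟨j', hj', h'⟩⟩
    have := bu_facet_unique a b hk τ hτ j j' hj hj' (Or.inr h) (Or.inl h')
    subst this
    have e1 := h lo hlo
    have e2 := h' lo hlo
    omega
  rw [filter_insert, filter_singleton]
  by_cases m1 : lo + buOne a b ∈ Icc a b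
  · by_cases m2 : hi - buOne a b ∈ Icc a b
    · rw [if_pos m1, if_pos m2, if_neg (by rw [hfac]; tauto), card_pair hne]
    · rw [if_pos m1, if_neg m2, if_pos (by rw [hfac]; tauto)]; simp
  · by_cases m2 : hi - buOne a b ∈ Icc a b
    · rw [if_neg m1, if_pos m2, if_pos (by rw [hfac]; tauto)]; simp
    · exact absurd ⟨m1, m2⟩ hboth


theorem buH_add_single (x : Fin n → ℤ) (j : Fin n) : buH (x + Pi.single j 1) = buH x + 1 := by
  unfold buH
  simp only [Pi.add_apply]
  rw [sum_add_distrib, sum_pi_single']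
  simp

theorem bu_eq_add_single {x y : Fin n → ℤ} (h : x ≤ y) (hH : buH y = buH x + 1) :
    ∃ j, x j < y j ∧ y = x + Pi.single j 1 := by
  have hex : ∃ j, x j < y j := by
    by_contra hcon
    push Not at hcon
    have : x = y := le_antisymm h hcon
    rw [this] at hH; omega
  obtain ⟨j, hj⟩ := hex
  refine ⟨j, hj, ?_⟩
  have hle : x + Pi.single j 1 ≤ y := by
    intro i
    have e1 : x i ≤ y i := h i
    simp only [Pi.add_apply, Pi.single_apply]
    split_ifs with hij
    · subst hij; omega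
    · omega
  by_contra hne
  have := buH_lt hle (Ne.symm hne)
  rw [buH_add_single] at this
  omega

theorem bu_ext_card_B (a b : Fin n → ℤ) (hk : 1 ≤ buDim a b) (τ : Finset (Fin n → ℤ))
    (hτ : τ ∈ buSimp a b (buDim a b)) {lo hi : Fin n → ℤ} (hlo : lo ∈ τ) (hhi : hi ∈ τ)
    (hall : ∀ x ∈ τ, lo ≤ x ∧ x ≤ hi) (hH : buH hi - buH lo = (buDim a b : ℤ)) :
    ((Icc a b).filter (fun y => y ∉ τ ∧ buK (insert y τ))).card =
      if buInFacet a b τ then 1 else 2 := by
  obtain ⟨h1, h2, h3⟩ := bu_mem_simp.1 hτ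
  have hhl := bu_eq_add_one (hall hi hhi).1 (h3.2 lo hlo hi hhi) (h1 lo hlo).1 (h1 hi hhi).2 hH.ge
  -- not in a facet
  have hfac : ¬ buInFacet a b τ := by
    rintro ⟨j, hj, h | h⟩
    · have e1 := h lo hlo
      have e2 := h hi hhi
      rw [hhl] at e2
      simp only [Pi.add_apply, buOne, if_pos hj] at e2
      omega
    · have e1 := h lo hlo
      have e2 := h hi hhi
      rw [hhl] at e2
      simp only [Pi.add_apply, buOne, if_pos hj] at e2
      omega
  rw [if_neg hfac]
  -- the missing level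
  have hsub : τ.image buH ⊆ Icc (buH lo) (buH hi) := by
    intro t ht
    obtain ⟨x, hx, rfl⟩ := mem_image.1 ht
    exact mem_Icc.2 ⟨buH_mono (hall x hx).1, buH_mono (hall x hx).2⟩
  have hcard : (Icc (buH lo) (buH hi) \ τ.image buH).card = 1 := by
    rw [card_sdiff_of_subset hsub, card_image_of_injOn (buK_H_injOn h3), Int.card_Icc, h2]
    omega
  obtain ⟨t0, ht0⟩ := card_eq_one.1 hcard
  have hmiss : ∀ t, t ∈ Icc (buH lo) (buH hi) → t ∉ τ.image buH → t = t0 := by
    intro t h4 h5
    have : t ∈ Icc (buH lo) (buH hi) \ τ.image buH := mem_sdiff.2 ⟨h4, h5⟩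
    rw [ht0] at this
    exact mem_singleton.1 this
  have ht0' : t0 ∈ Icc (buH lo) (buH hi) ∧ t0 ∉ τ.image buH := by
    have : t0 ∈ Icc (buH lo) (buH hi) \ τ.image buH := by rw [ht0]; exact mem_singleton_self _
    exact mem_sdiff.1 this
  obtain ⟨ht1, ht2⟩ := ht0'
  rw [mem_Icc] at ht1
  have hne_lo : t0 ≠ buH lo := fun h => ht2 (h ▸ mem_image_of_mem _ hlo)
  have hne_hi : t0 ≠ buH hi := fun h => ht2 (h ▸ mem_image_of_mem _ hhi)
  have hm : t0 - 1 ∈ τ.image buH := by
    by_contra hcon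
    have := hmiss (t0 - 1) (mem_Icc.2 ⟨by omega, by omega⟩) hcon
    omega
  have hp : t0 + 1 ∈ τ.image buH := by
    by_contra hcon
    have := hmiss (t0 + 1) (mem_Icc.2 ⟨by omega, by omega⟩) hcon
    omega
  obtain ⟨xm, hxm, hxmH⟩ := mem_image.1 hm
  obtain ⟨xp, hxp, hxpH⟩ := mem_image.1 hp
  have hmp : xm ≤ xp := buK_le_of_H h3 hxm hxp (by omega)
  have hU := buH_sub hmp (h3.2 xm hxm xp hxp)
  set U := univ.filter (fun j => xm j < xp j) with hUdef
  have hUcard : U.card = 2 := by omega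
  have hE : (Icc a b).filter (fun y => y ∉ τ ∧ buK (insert y τ)) =
      U.image (fun j => xm + Pi.single j 1) := by
    ext y
    rw [mem_filter, mem_image]
    constructor
    · rintro ⟨hyb, hyτ, hK⟩
      obtain ⟨hya, hyb'⟩ := mem_Icc.1 hyb
      have hn := bu_H_notMem_image hyτ hK
      have hyσ : y ∈ insert y τ := mem_insert_self y τ
      have hloσ : lo ∈ insert y τ := mem_insert_of_mem hlo
      have hhiσ : hi ∈ insert y τ := mem_insert_of_mem hhi
      have hge : buH lo ≤ buH y := by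
        by_contra hcon
        have e1 : y ≤ hi := buK_le_of_H hK hyσ hhiσ (by omega)
        have e2 := buH_sub e1 (hK.2 y hyσ hi hhiσ)
        have e3 := card_le_card (bu_diff_subset hya (h1 hi hhi).2)
        have hd : buDim a b = (univ.filter (fun j => a j < b j)).card := rfl
        rw [← hd] at e3
        omega
      have hle : buH y ≤ buH hi := by
        by_contra hcon
        have e1 : lo ≤ y := buK_le_of_H hK hloσ hyσ (by omega)
        have e2 := buH_sub e1 (hK.2 lo hloσ y hyσ)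
        have e3 := card_le_card (bu_diff_subset (h1 lo hlo).1 hyb')
        have hd : buDim a b = (univ.filter (fun j => a j < b j)).card := rfl
        rw [← hd] at e3
        omega
      have hyt : buH y = t0 := hmiss _ (mem_Icc.2 ⟨hge, hle⟩) hn
      have e1 : xm ≤ y := buK_le_of_H hK (mem_insert_of_mem hxm) hyσ (by omega)
      have e2 : y ≤ xp := buK_le_of_H hK hyσ (mem_insert_of_mem hxp) (by omega)
      obtain ⟨j, hj, hyj⟩ := bu_eq_add_single e1 (by omega)
      refine ⟨j, ?_, hyj.symm⟩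
      rw [hUdef, mem_filter]
      exact ⟨mem_univ _, lt_of_lt_of_le hj (e2 j)⟩
    · rintro ⟨j, hj, rfl⟩
      rw [hUdef, mem_filter] at hj
      have hj2 := hj.2
      have e1 : xm ≤ xm + Pi.single j 1 := by
        intro i
        simp only [Pi.add_apply, Pi.single_apply]
        split_ifs <;> omega
      have e2 : xm + Pi.single j 1 ≤ xp := by
        intro i
        have e3 : xm i ≤ xp i := hmp i
        simp only [Pi.add_apply, Pi.single_apply]
        split_ifs with hij
        · subst hij; omega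
        · omega
      have eH : buH (xm + Pi.single j 1) = t0 := by rw [buH_add_single]; omega
      refine ⟨mem_Icc.2 ⟨(h1 xm hxm).1.trans e1, e2.trans (h1 xp hxp).2⟩, ?_, ?_⟩
      · intro hmem
        exact ht2 (eH ▸ mem_image_of_mem _ hmem)
      · apply buK_insert h3
        intro x hx
        constructor
        · have hxt : buH x ≠ t0 := fun h => ht2 (h ▸ mem_image_of_mem _ hx)
          by_cases hc : buH x < t0
          · left
            exact (buK_le_of_H h3 hx hxm (by omega)).trans e1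
          · right
            exact e2.trans (buK_le_of_H h3 hxp hx (by omega))
        · intro i
          have f1 : lo i ≤ x i := (hall x hx).1 i
          have f2 : x i ≤ hi i := (hall x hx).2 i
          have f3 : lo i ≤ (xm + Pi.single j 1 : Fin n → ℤ) i := ((hall xm hxm).1.trans e1) i
          have f4 : (xm + Pi.single j 1 : Fin n → ℤ) i ≤ hi i := (e2.trans (hall xp hxp).2) i
          have f5 := h3.2 lo hlo hi hhi i
          constructor <;> omega
  rw [hE, card_image_of_injective, hUcard]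
  intro j j' hjj
  by_contra hne
  have := congrFun hjj j
  simp only [Pi.add_apply, Pi.single_apply, if_true] at this
  rw [if_neg hne] at this
  omega

/-- **Pseudomanifold property of the Kuhn triangulation of a box.** -/
theorem bu_ext_card (a b : Fin n → ℤ) (hk : 1 ≤ buDim a b) (τ : Finset (Fin n → ℤ))
    (hτ : τ ∈ buSimp a b (buDim a b)) :
    ((Icc a b).filter (fun y => y ∉ τ ∧ buK (insert y τ))).card =
      if buInFacet a b τ then 1 else 2 := by
  obtain ⟨lo, hlo, hi, hhi, hall, hH | hH⟩ := bu_tau_struct a b hk τ hτ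
  · exact bu_ext_card_A a b hk τ hτ hlo hhi hall hH
  · exact bu_ext_card_B a b hk τ hτ hlo hhi hall hH

end Claimed.Agent.R273
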