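/-
LIB-BU (row273), part 3: the mod 2 "Stokes formula" for Fan's alternating simplices in a box:
 #(alternating top simplices of the box) = sum over the facets of #(positive alternating top
 simplices of the facet)   (mod 2).
-/
import Claimed.Agent.R273.BuFan
import Claimed.Agent.R273.BuKuhn

set_option autoImplicit false

namespace Claimed.Agent.R273

open Finset
open scoped Classical

variable {n : ℕ}

/-- number of positive alternating Kuhn chains with `r` points in the box. -/
noncomputable def buCntP (l : (Fin n → ℤ) → ℤ) (a b : Fin n → ℤ) (r : ℕ) : ℕ :=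
  ((buSimp a b r).filter (buAltP l)).card

/-- number of negative alternating Kuhn chains with `r` points in the box. -/
noncomputable def buCntN (l : (Fin n → ℤ) → ℤ) (a b : Fin n → ℤ) (r : ℕ) : ℕ :=
  ((buSimp a b r).filter (buAltN l)).card

/-- no complementary Kuhn edge in the box (with `x = y`: no label `0`). -/
def buNoComp (l : (Fin n → ℤ) → ℤ) (a b : Fin n → ℤ) : Prop :=
  ∀ x ∈ Icc a b, ∀ y ∈ Icc a b, x ≤ y → (∀ j, y j ≤ x j + 1) → l x ≠ - l y

theorem bu_cast_zmod2_odd (k : ℕ) : ((k : ℕ) : ZMod 2) = if Odd k then 1 else 0 := by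
  split_ifs with h
  · exact (ZMod.natCast_eq_one_iff_odd).2 h
  · exact (ZMod.natCast_eq_zero_iff_even).2 (Nat.not_odd_iff_even.1 h)

theorem bu_simp_lower (a b : Fin n → ℤ) (j : Fin n) (hj : a j < b j) (r : ℕ) :
    buSimp a (Function.update b j (a j)) r = (buSimp a b r).filter (fun τ => ∀ x ∈ τ, x j = a j) := by
  ext τ
  rw [mem_filter, bu_mem_simp, bu_mem_simp]
  constructor
  · rintro ⟨h1, h2, h3⟩
    refine ⟨⟨fun x hx => ⟨(h1 x hx).1, ?_⟩, h2, h3⟩, fun x hx => ?_⟩
    · intro i
      have this : x i ≤ Function.update b j (a j) i := (h1 x hx).2 i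
      by_cases hij : i = j
      · subst hij; rw [Function.update_self] at this; exact this.trans hj.le
      · rwa [Function.update_of_ne hij] at this
    · have e1 : x j ≤ Function.update b j (a j) j := (h1 x hx).2 j
      rw [Function.update_self] at e1
      have e2 : a j ≤ x j := (h1 x hx).1 j
      omega
  · rintro ⟨⟨h1, h2, h3⟩, h4⟩
    refine ⟨fun x hx => ⟨(h1 x hx).1, ?_⟩, h2, h3⟩
    intro i
    by_cases hij : i = j
    · subst hij; rw [Function.update_self, h4 x hx]
    · rw [Function.update_of_ne hij]; exact (h1 x hx).2 i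

theorem bu_simp_upper (a b : Fin n → ℤ) (j : Fin n) (hj : a j < b j) (r : ℕ) :
    buSimp (Function.update a j (b j)) b r = (buSimp a b r).filter (fun τ => ∀ x ∈ τ, x j = b j) := by
  ext τ
  rw [mem_filter, bu_mem_simp, bu_mem_simp]
  constructor
  · rintro ⟨h1, h2, h3⟩
    refine ⟨⟨fun x hx => ⟨?_, (h1 x hx).2⟩, h2, h3⟩, fun x hx => ?_⟩
    · intro i
      have this : Function.update a j (b j) i ≤ x i := (h1 x hx).1 i
      by_cases hij : i = j
      · subst hij; rw [Function.update_self] at this; exact hj.le.trans this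
      · rwa [Function.update_of_ne hij] at this
    · have e1 : Function.update a j (b j) j ≤ x j := (h1 x hx).1 j
      rw [Function.update_self] at e1
      have e2 : x j ≤ b j := (h1 x hx).2 j
      omega
  · rintro ⟨⟨h1, h2, h3⟩, h4⟩
    refine ⟨fun x hx => ⟨?_, (h1 x hx).2⟩, h2, h3⟩
    intro i
    by_cases hij : i = j
    · subst hij; rw [Function.update_self, h4 x hx]
    · rw [Function.update_of_ne hij]; exact (h1 x hx).1 i

/-- the facet indicator is the sum of the indicators of the single facets. -/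
theorem bu_facet_indicator (a b : Fin n → ℤ) (hk : 1 ≤ buDim a b) (τ : Finset (Fin n → ℤ))
    (hτ : τ ∈ buSimp a b (buDim a b)) :
    (if buInFacet a b τ then (1 : ZMod 2) else 0) =
      ∑ j ∈ univ.filter (fun j => a j < b j),
        ((if ∀ x ∈ τ, x j = a j then (1 : ZMod 2) else 0) +
          (if ∀ x ∈ τ, x j = b j then (1 : ZMod 2) else 0)) := by
  obtain ⟨h1, h2, h3⟩ := bu_mem_simp.1 hτ
  have hne : τ.Nonempty := card_pos.1 (by omega)
  obtain ⟨x0, hx0⟩ := hne
  by_cases hf : buInFacet a b τ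
  · rw [if_pos hf]
    obtain ⟨j0, hj0, hside⟩ := hf
    rw [sum_eq_single j0]
    · rcases hside with h | h
      · have : ¬ ∀ x ∈ τ, x j0 = b j0 := by
          intro h'
          have e1 := h x0 hx0
          have e2 := h' x0 hx0
          omega
        rw [if_pos h, if_neg this, add_zero]
      · have : ¬ ∀ x ∈ τ, x j0 = a j0 := by
          intro h'
          have e1 := h x0 hx0
          have e2 := h' x0 hx0
          omega
        rw [if_pos h, if_neg this, zero_add]
    · intro j hj hjj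
      have hj' := (mem_filter.1 hj).2
      have n1 : ¬ ∀ x ∈ τ, x j = a j := fun h' =>
        hjj (bu_facet_unique a b hk τ hτ j j0 hj' hj0 (Or.inl h') hside)
      have n2 : ¬ ∀ x ∈ τ, x j = b j := fun h' =>
        hjj (bu_facet_unique a b hk τ hτ j j0 hj' hj0 (Or.inr h') hside)
      rw [if_neg n1, if_neg n2, add_zero]
    · intro h; exact (h (mem_filter.2 ⟨mem_univ _, hj0⟩)).elim
  · rw [if_neg hf]
    symm
    apply sum_eq_zero
    intro j hj
    have hj' := (mem_filter.1 hj).2
    have n1 : ¬ ∀ x ∈ τ, x j = a j := fun h' => hf ⟨j, hj', Or.inl h'⟩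
    have n2 : ¬ ∀ x ∈ τ, x j = b j := fun h' => hf ⟨j, hj', Or.inr h'⟩
    rw [if_neg n1, if_neg n2, add_zero]

/-- **Flat identity.** -/
theorem bu_flat (l : (Fin n → ℤ) → ℤ) (a b : Fin n → ℤ) (hk : 1 ≤ buDim a b)
    (hc : buNoComp l a b) :
    ((buCntP l a b (buDim a b + 1) + buCntN l a b (buDim a b + 1) : ℕ) : ZMod 2) =
      ∑ j ∈ univ.filter (fun j => a j < b j),
        (((buCntP l a (Function.update b j (a j)) (buDim a b) : ℕ) : ZMod 2) +
          ((buCntP l (Function.update a j (b j)) b (buDim a b) : ℕ) : ZMod 2)) := by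
  set k := buDim a b with hkdef
  -- step 1: parity simplex by simplex
  have s1 : ((buCntP l a b (k + 1) + buCntN l a b (k + 1) : ℕ) : ZMod 2) =
      ∑ σ ∈ buSimp a b (k + 1), ∑ _x ∈ σ.filter (fun x => buAltP l (σ.erase x)), (1 : ZMod 2) := by
    unfold buCntP buCntN
    rw [card_filter, card_filter, ← sum_add_distrib]
    push_cast
    apply sum_congr rfl
    intro σ hσ
    obtain ⟨h1, h2, h3⟩ := bu_mem_simp.1 hσ
    have hne : σ.Nonempty := card_pos.1 (by omega)
    have hc' : ∀ x ∈ σ, ∀ y ∈ σ, l x ≠ - l y := by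
      intro x hx y hy
      rcases h3.1 x hx y hy with h | h
      · exact hc x (mem_Icc.2 (h1 x hx)) y (mem_Icc.2 (h1 y hy)) h (h3.2 x hx y hy)
      · intro heq
        exact hc y (mem_Icc.2 (h1 y hy)) x (mem_Icc.2 (h1 x hx)) h (h3.2 y hy x hx)
          (by rw [heq, neg_neg])
    have hpar := bu_simplex_parity l σ hne hc'
    rw [sum_const, nsmul_eq_mul, mul_one, bu_cast_zmod2_odd]
    by_cases hP : buAltP l σ
    · have hN : ¬ buAltN l σ := fun hN => bu_alt_excl l σ hne hP hN
      rw [if_pos hP, if_neg hN, if_pos (hpar.2 (Or.inl hP))]; simp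
    · by_cases hN : buAltN l σ
      · rw [if_neg hP, if_pos hN, if_pos (hpar.2 (Or.inr hN))]; simp
      · rw [if_neg hP, if_neg hN, if_neg (fun h => (hpar.1 h).elim hP hN)]; simp
  -- step 2: double counting
  have s2 : ∑ σ ∈ buSimp a b (k + 1), ∑ _x ∈ σ.filter (fun x => buAltP l (σ.erase x)), (1 : ZMod 2) =
      ∑ τ ∈ (buSimp a b k).filter (buAltP l),
        ∑ _y ∈ (Icc a b).filter (fun y => y ∉ τ ∧ buK (insert y τ)), (1 : ZMod 2) := by
    rw [sum_sigma', sum_sigma']
    refine sum_bij' (fun x _ => ⟨x.1.erase x.2, x.2⟩) (fun y _ => ⟨insert y.2 y.1, y.2⟩)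
      ?_ ?_ ?_ ?_ ?_
    · rintro ⟨σ, x⟩ h
      simp only [mem_sigma, mem_filter] at h ⊢
      obtain ⟨h1, h2, h3⟩ := h
      obtain ⟨g1, g2, g3⟩ := bu_mem_simp.1 h1
      refine ⟨⟨bu_mem_simp.2 ⟨fun z hz => g1 z (mem_of_mem_erase hz), ?_,
        buK_subset g3 (erase_subset _ _)⟩, h3⟩, mem_Icc.2 (g1 x h2), notMem_erase _ _, ?_⟩
      · rw [card_erase_of_mem h2, g2]; rfl
      · rw [insert_erase h2]; exact g3
    · rintro ⟨τ, y⟩ h
      simp only [mem_sigma, mem_filter] at h ⊢
      obtain ⟨⟨h1, h2⟩, h3, h4, h5⟩ := h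
      obtain ⟨g1, g2, g3⟩ := bu_mem_simp.1 h1
      refine ⟨bu_mem_simp.2 ⟨?_, by rw [card_insert_of_notMem h4, g2], h5⟩, mem_insert_self _ _, ?_⟩
      · intro z hz
        rcases mem_insert.1 hz with hz' | hz'
        · rw [hz']; exact mem_Icc.1 h3
        · exact g1 z hz'
      · rw [erase_insert h4]; exact h2
    · rintro ⟨σ, x⟩ h
      simp only [mem_sigma, mem_filter] at h
      simp only [insert_erase h.2.1]
    · rintro ⟨τ, y⟩ h
      simp only [mem_sigma, mem_filter] at h
      simp only [erase_insert h.2.2.1]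
    · rintro ⟨σ, x⟩ _
      rfl
  -- step 3: pseudomanifold property
  have s3 : ∑ τ ∈ (buSimp a b k).filter (buAltP l),
        ∑ _y ∈ (Icc a b).filter (fun y => y ∉ τ ∧ buK (insert y τ)), (1 : ZMod 2) =
      ∑ τ ∈ (buSimp a b k).filter (buAltP l),
        ∑ j ∈ univ.filter (fun j => a j < b j),
        ((if ∀ x ∈ τ, x j = a j then (1 : ZMod 2) else 0) +
          (if ∀ x ∈ τ, x j = b j then (1 : ZMod 2) else 0)) := by
    apply sum_congr rfl
    intro τ hτ
    have hτ' := (mem_filter.1 hτ).1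
    rw [← bu_facet_indicator a b hk τ hτ', sum_const, nsmul_eq_mul, mul_one,
      bu_ext_card a b hk τ hτ']
    split_ifs
    · simp
    · exact (ZMod.natCast_eq_zero_iff_even).2 even_two
  rw [s1, s2, s3, sum_comm]
  apply sum_congr rfl
  intro j hj
  have hj' := (mem_filter.1 hj).2
  rw [sum_add_distrib]
  unfold buCntP
  rw [bu_simp_lower a b j hj', bu_simp_upper a b j hj', filter_filter, filter_filter,
    card_filter, card_filter, sum_filter, sum_filter]
  push_cast
  congr 1
  · apply sum_congr rfl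
    intro τ _
    by_cases h1 : buAltP l τ <;> by_cases h2 : ∀ x ∈ τ, x j = a j <;> simp [h1, h2]
  · apply sum_congr rfl
    intro τ _
    by_cases h1 : buAltP l τ <;> by_cases h2 : ∀ x ∈ τ, x j = b j <;> simp [h1, h2]

end Claimed.Agent.R273
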