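/-
LIB-BU (row273), part 4a: faces of the cube `[-p,p]^n` (Kuhn triangulated), API for the Ky Fan /
Tucker lemma of BuTucker.lean.  Faces of the cube are indexed by admissible label sets
`L ⊆ {±1..±n}`: `+(j+1) ∈ L` means `x j = p`, `-(j+1) ∈ L` means `x j = -p`.
-/
import Claimed.Agent.R273.BuFlat

set_option autoImplicit false

namespace Claimed.Agent.R273

open Finset
open scoped Classical

/-- lower corner of the face `L` of `[-p,p]^n`. -/
def buLo (n : ℕ) (p : ℤ) (L : Finset ℤ) : Fin n → ℤ :=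
  fun j => if ((j : ℕ) : ℤ) + 1 ∈ L then p else -p

/-- upper corner of the face `L` of `[-p,p]^n`. -/
def buHi (n : ℕ) (p : ℤ) (L : Finset ℤ) : Fin n → ℤ :=
  fun j => if -(((j : ℕ) : ℤ) + 1) ∈ L then -p else p

/-- the labels `±1..±n`. -/
noncomputable def buLab (n : ℕ) : Finset ℤ := (Icc (-(n : ℤ)) n).erase 0

/-- admissible index sets with `r` elements. -/
noncomputable def buIdx (n r : ℕ) : Finset (Finset ℤ) := ((buLab n).powersetCard r).filter buAdm

/-- lattice points of the boundary of the cube `[-p,p]^n`. -/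
def buBdry {n : ℕ} (p : ℤ) (x : Fin n → ℤ) : Prop := (∀ j, |x j| ≤ p) ∧ ∃ j, |x j| = p

/-- hypotheses on a labelling of the boundary of the cube. -/
structure BuLabelling (n : ℕ) (p : ℤ) (l : (Fin n → ℤ) → ℤ) : Prop where
  odd : ∀ x, buBdry p x → l (-x) = - l x
  nocomp : ∀ x y, buBdry p x → buBdry p y → x ≤ y → (∀ j, y j ≤ x j + 1) → l x ≠ - l y

theorem bu_mem_lab {n : ℕ} {c : ℤ} : c ∈ buLab n ↔ c ≠ 0 ∧ -(n : ℤ) ≤ c ∧ c ≤ n := by
  unfold buLab
  rw [mem_erase, mem_Icc]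

theorem bu_mem_idx {n r : ℕ} {L : Finset ℤ} :
    L ∈ buIdx n r ↔ L ⊆ buLab n ∧ L.card = r ∧ buAdm L := by
  unfold buIdx
  rw [mem_filter, mem_powersetCard, and_assoc]

theorem bu_abs_injOn {L : Finset ℤ} (h : buAdm L) : Set.InjOn (fun a : ℤ => |a|) L := by
  intro a ha b hb hab
  rcases abs_eq_abs.1 hab with h1 | h1
  · exact h1
  · exfalso
    apply h b hb
    rw [← h1]; exact ha

section faces
variable {n : ℕ} {p : ℤ}

theorem bu_free_iff (hp : 1 ≤ p) {L : Finset ℤ} (hL : buAdm L) (j : Fin n) :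
    buLo n p L j < buHi n p L j ↔ (((j : ℕ) : ℤ) + 1 ∉ L ∧ -(((j : ℕ) : ℤ) + 1) ∉ L) := by
  unfold buLo buHi
  by_cases h1 : ((j : ℕ) : ℤ) + 1 ∈ L
  · have h2 := hL _ h1
    rw [if_pos h1, if_neg h2]
    simp [h1]
  · by_cases h2 : -(((j : ℕ) : ℤ) + 1) ∈ L
    · rw [if_neg h1, if_pos h2]
      constructor
      · intro h; exact absurd h (lt_irrefl _)
      · intro h; exact absurd h2 h.2
    · rw [if_neg h1, if_neg h2]
      simp only [h1, h2, not_false_eq_true, and_self, iff_true]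
      omega

theorem bu_face_dim (hp : 1 ≤ p) {r : ℕ} {L : Finset ℤ} (hL : L ∈ buIdx n r) :
    buDim (buLo n p L) (buHi n p L) = n - r := by
  obtain ⟨h1, h2, h3⟩ := bu_mem_idx.1 hL
  unfold buDim
  have e1 := card_filter_add_card_filter_not (s := (univ : Finset (Fin n)))
    (fun j => buLo n p L j < buHi n p L j)
  rw [card_univ, Fintype.card_fin] at e1
  have e2 : (univ.filter (fun j : Fin n => ¬ buLo n p L j < buHi n p L j)).card = r := by
    rw [← h2, ← card_image_of_injOn (bu_abs_injOn h3)]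
    have hinj : Function.Injective (fun j : Fin n => ((j : ℕ) : ℤ) + 1) := by
      intro i j hij
      apply Fin.ext
      simp only at hij
      omega
    rw [← card_image_of_injective _ hinj]
    congr 1
    ext t
    rw [mem_image, mem_image]
    constructor
    · rintro ⟨j, hj, rfl⟩
      have hj' := (mem_filter.1 hj).2
      rw [bu_free_iff hp h3] at hj'
      by_cases g1 : ((j : ℕ) : ℤ) + 1 ∈ L
      · exact ⟨_, g1, abs_of_pos (by omega)⟩
      · have g2 : -(((j : ℕ) : ℤ) + 1) ∈ L := by tauto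
        exact ⟨_, g2, by rw [abs_neg]; exact abs_of_pos (by omega)⟩
    · rintro ⟨a, ha, rfl⟩
      obtain ⟨g1, g2, g3⟩ := bu_mem_lab.1 (h1 ha)
      have g4 : 1 ≤ |a| := Int.one_le_abs g1
      have g5 : |a| ≤ n := abs_le.2 ⟨g2, g3⟩
      refine ⟨⟨(|a| - 1).toNat, by omega⟩, ?_, ?_⟩
      · rw [mem_filter, bu_free_iff hp h3]
        refine ⟨mem_univ _, ?_⟩
        have e : (((|a| - 1).toNat : ℕ) : ℤ) + 1 = |a| := by omega
        simp only [e]
        rcases abs_choice a with h | h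
        · rw [h]; tauto
        · rw [h, neg_neg]; tauto
      · simp only
        omega
  omega

theorem bu_face_bdry (hp : 1 ≤ p) {r : ℕ} (hr : 1 ≤ r) {L : Finset ℤ} (hL : L ∈ buIdx n r)
    {x : Fin n → ℤ} (hx : x ∈ Icc (buLo n p L) (buHi n p L)) : buBdry p x := by
  obtain ⟨h1, h2, h3⟩ := bu_mem_idx.1 hL
  obtain ⟨hx1, hx2⟩ := mem_Icc.1 hx
  constructor
  · intro j
    have e1 : buLo n p L j ≤ x j := hx1 j
    have e2 : x j ≤ buHi n p L j := hx2 j
    unfold buLo at e1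
    unfold buHi at e2
    rw [abs_le]
    constructor
    · split_ifs at e1 <;> omega
    · split_ifs at e2 <;> omega
  · obtain ⟨a, ha⟩ : L.Nonempty := card_pos.1 (by omega)
    obtain ⟨g1, g2, g3⟩ := bu_mem_lab.1 (h1 ha)
    have g4 : 1 ≤ |a| := Int.one_le_abs g1
    have g5 : |a| ≤ n := abs_le.2 ⟨g2, g3⟩
    refine ⟨⟨(|a| - 1).toNat, by omega⟩, ?_⟩
    set j : Fin n := ⟨(|a| - 1).toNat, by omega⟩ with hj
    have e : ((j : ℕ) : ℤ) + 1 = |a| := by
      rw [hj]; simp only; omega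
    have e1 : buLo n p L j ≤ x j := hx1 j
    have e2 : x j ≤ buHi n p L j := hx2 j
    unfold buLo at e1
    unfold buHi at e2
    rw [e] at e1 e2
    rcases abs_choice a with h | h
    · rw [h] at e1 e2
      rw [if_pos ha] at e1
      rw [if_neg (h3 a ha)] at e2
      rw [abs_of_pos (by omega)]; omega
    · rw [h] at e1 e2
      rw [neg_neg, if_pos ha] at e2
      rw [if_neg (h3 a ha)] at e1
      rw [abs_of_neg (by omega)]; omega

theorem bu_lab_succ (n : ℕ) :
    buLab (n + 1) = insert (((n : ℕ) : ℤ) + 1) (insert (-(((n : ℕ) : ℤ) + 1)) (buLab n)) := by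
  ext c
  simp only [mem_insert, bu_mem_lab]
  push_cast
  omega

/-- sums over the labels `±1..±n`. -/
theorem bu_sum_lab {M : Type*} [AddCommMonoid M] (n : ℕ) (g : ℤ → M) :
    ∑ c ∈ buLab n, g c = ∑ j : Fin n, (g (-(((j : ℕ) : ℤ) + 1)) + g (((j : ℕ) : ℤ) + 1)) := by
  induction n with
  | zero =>
    have : buLab 0 = ∅ := by
      ext c
      simp only [bu_mem_lab, notMem_empty, iff_false]
      push_cast
      omega
    rw [this]; simp
  | succ n ih =>
    rw [bu_lab_succ, sum_insert, sum_insert, ih, Fin.sum_univ_castSucc]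
    · simp only [Fin.val_castSucc, Fin.val_last]
      rw [← add_assoc, add_comm (g _) (g _), add_comm]
    · rw [bu_mem_lab]; omega
    · rw [mem_insert, bu_mem_lab]; omega

theorem bu_lo_insert_pos (L : Finset ℤ) (j : Fin n) :
    buLo n p (insert (((j : ℕ) : ℤ) + 1) L) = Function.update (buLo n p L) j p := by
  funext i
  unfold buLo
  by_cases hij : i = j
  · subst hij; simp
  · rw [Function.update_of_ne hij]
    have : ((i : ℕ) : ℤ) + 1 ≠ ((j : ℕ) : ℤ) + 1 := by
      intro h; apply hij; apply Fin.ext; omega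
    simp only [mem_insert, this, false_or]

theorem bu_hi_insert_pos (L : Finset ℤ) (j : Fin n) :
    buHi n p (insert (((j : ℕ) : ℤ) + 1) L) = buHi n p L := by
  funext i
  unfold buHi
  have : -(((i : ℕ) : ℤ) + 1) ≠ ((j : ℕ) : ℤ) + 1 := by omega
  simp only [mem_insert, this, false_or]

theorem bu_lo_insert_neg (L : Finset ℤ) (j : Fin n) :
    buLo n p (insert (-(((j : ℕ) : ℤ) + 1)) L) = buLo n p L := by
  funext i
  unfold buLo
  have : ((i : ℕ) : ℤ) + 1 ≠ -(((j : ℕ) : ℤ) + 1) := by omega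
  simp only [mem_insert, this, false_or]

theorem bu_hi_insert_neg (L : Finset ℤ) (j : Fin n) :
    buHi n p (insert (-(((j : ℕ) : ℤ) + 1)) L) = Function.update (buHi n p L) j (-p) := by
  funext i
  unfold buHi
  by_cases hij : i = j
  · subst hij; simp
  · rw [Function.update_of_ne hij]
    have : -(((i : ℕ) : ℤ) + 1) ≠ -(((j : ℕ) : ℤ) + 1) := by
      intro h; apply hij; apply Fin.ext; omega
    simp only [mem_insert, this, false_or]

/-- flat identity for the face `L`. -/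
theorem bu_face_flat (hp : 1 ≤ p) {l : (Fin n → ℤ) → ℤ} (hl : BuLabelling n p l) {r : ℕ}
    (hr : 1 ≤ r) (hrn : r < n) {L : Finset ℤ} (hL : L ∈ buIdx n r) :
    ((buCntP l (buLo n p L) (buHi n p L) (n - r + 1) +
        buCntN l (buLo n p L) (buHi n p L) (n - r + 1) : ℕ) : ZMod 2) =
      ∑ c ∈ (buLab n).filter (fun c => c ∉ L ∧ -c ∉ L),
        ((buCntP l (buLo n p (insert c L)) (buHi n p (insert c L)) (n - r) : ℕ) : ZMod 2) := by
  obtain ⟨h1, h2, h3⟩ := bu_mem_idx.1 hL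
  have hdim := bu_face_dim (p := p) hp hL
  have hc : buNoComp l (buLo n p L) (buHi n p L) := by
    intro x hx y hy hxy hd
    exact hl.nocomp x y (bu_face_bdry hp hr hL hx) (bu_face_bdry hp hr hL hy) hxy hd
  have hflat := bu_flat l (buLo n p L) (buHi n p L) (by rw [hdim]; omega) hc
  rw [hdim] at hflat
  rw [hflat, sum_filter, sum_filter, bu_sum_lab]
  apply sum_congr rfl
  intro j _
  by_cases hj : buLo n p L j < buHi n p L j
  · rw [if_pos hj]
    have hj' := (bu_free_iff hp h3 j).1 hj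
    have c1 : (-(((j : ℕ) : ℤ) + 1) ∉ L ∧ - -(((j : ℕ) : ℤ) + 1) ∉ L) := by
      rw [neg_neg]; exact ⟨hj'.2, hj'.1⟩
    rw [if_pos c1, if_pos hj', bu_lo_insert_pos, bu_hi_insert_pos, bu_lo_insert_neg,
      bu_hi_insert_neg]
    have v1 : buLo n p L j = -p := by unfold buLo; rw [if_neg hj'.1]
    have v2 : buHi n p L j = p := by unfold buHi; rw [if_neg hj'.2]
    rw [v1, v2]
  · rw [if_neg hj]
    have hj' : ¬ (((j : ℕ) : ℤ) + 1 ∉ L ∧ -(((j : ℕ) : ℤ) + 1) ∉ L) := fun h =>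
      hj ((bu_free_iff hp h3 j).2 h)
    have c1 : ¬ (-(((j : ℕ) : ℤ) + 1) ∉ L ∧ - -(((j : ℕ) : ℤ) + 1) ∉ L) := by
      rw [neg_neg]; tauto
    rw [if_neg c1, if_neg hj', add_zero]


theorem bu_lo_neg (L : Finset ℤ) : buLo n p (L.image (fun a => -a)) = - buHi n p L := by
  funext j
  simp only [buLo, buHi, Pi.neg_apply]
  have : (((j : ℕ) : ℤ) + 1 ∈ L.image (fun a => -a)) ↔ -(((j : ℕ) : ℤ) + 1) ∈ L := by
    rw [mem_image]
    constructor
    · rintro ⟨a, ha, h⟩
      have : a = -(((j : ℕ) : ℤ) + 1) := by omega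
      rw [← this]; exact ha
    · intro h; exact ⟨_, h, by simp⟩
  by_cases h : -(((j : ℕ) : ℤ) + 1) ∈ L
  · rw [if_pos (this.2 h), if_pos h, neg_neg]
  · rw [if_neg (fun h' => h (this.1 h')), if_neg h]

theorem bu_hi_neg (L : Finset ℤ) : buHi n p (L.image (fun a => -a)) = - buLo n p L := by
  funext j
  simp only [buLo, buHi, Pi.neg_apply]
  have : (-(((j : ℕ) : ℤ) + 1) ∈ L.image (fun a => -a)) ↔ (((j : ℕ) : ℤ) + 1) ∈ L := by
    rw [mem_image]
    constructor
    · rintro ⟨a, ha, h⟩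
      have : a = (((j : ℕ) : ℤ) + 1) := by omega
      rw [← this]; exact ha
    · intro h; exact ⟨_, h, rfl⟩
  by_cases h : (((j : ℕ) : ℤ) + 1) ∈ L
  · rw [if_pos (this.2 h), if_pos h]
  · rw [if_neg (fun h' => h (this.1 h')), if_neg h, neg_neg]

/-- the antipode of a set of lattice points. -/
noncomputable def buNu (τ : Finset (Fin n → ℤ)) : Finset (Fin n → ℤ) := τ.image (fun x => -x)

theorem bu_nu_nu (τ : Finset (Fin n → ℤ)) : buNu (buNu τ) = τ := by
  unfold buNu
  rw [image_image]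
  have : ((fun x : Fin n → ℤ => -x) ∘ fun x : Fin n → ℤ => -x) = id := by funext a; simp
  rw [this, image_id]

theorem bu_simp_nu {a b : Fin n → ℤ} {m : ℕ} {τ : Finset (Fin n → ℤ)} (h : τ ∈ buSimp a b m) :
    buNu τ ∈ buSimp (-b) (-a) m := by
  obtain ⟨h1, h2, h3⟩ := bu_mem_simp.1 h
  rw [bu_mem_simp]
  unfold buNu
  refine ⟨?_, ?_, ?_, ?_⟩
  · intro x hx
    obtain ⟨y, hy, rfl⟩ := mem_image.1 hx
    exact ⟨neg_le_neg (h1 y hy).2, neg_le_neg (h1 y hy).1⟩
  · rw [card_image_of_injective _ neg_injective, h2]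
  · intro x hx y hy
    obtain ⟨x', hx', rfl⟩ := mem_image.1 hx
    obtain ⟨y', hy', rfl⟩ := mem_image.1 hy
    rcases h3.1 x' hx' y' hy' with h | h
    · exact Or.inr (neg_le_neg h)
    · exact Or.inl (neg_le_neg h)
  · intro x hx y hy j
    obtain ⟨x', hx', rfl⟩ := mem_image.1 hx
    obtain ⟨y', hy', rfl⟩ := mem_image.1 hy
    have := h3.2 y' hy' x' hx' j
    simp only [Pi.neg_apply]
    omega

theorem bu_altP_nu {l : (Fin n → ℤ) → ℤ} (hl : BuLabelling n p l) {τ : Finset (Fin n → ℤ)}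
    (hK : buK τ) (hb : ∀ x ∈ τ, buBdry p x) : buAltP l (buNu τ) ↔ buAltN l τ := by
  have hadm : buAdm (τ.image l) := by
    intro c hc hnc
    obtain ⟨x, hx, rfl⟩ := mem_image.1 hc
    obtain ⟨y, hy, hxy⟩ := mem_image.1 hnc
    rcases hK.1 x hx y hy with h | h
    · exact hl.nocomp x y (hb x hx) (hb y hy) h (hK.2 x hx y hy) (by rw [hxy, neg_neg])
    · exact hl.nocomp y x (hb y hy) (hb x hx) h (hK.2 y hy x hx) hxy
  have himg : (buNu τ).image l = (τ.image l).image (fun a => -a) := by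
    unfold buNu
    rw [image_image, image_image]
    apply image_congr
    intro x hx
    exact hl.odd x (hb x hx)
  unfold buAltP buAltN
  rw [himg, bu_pos_image_neg hadm]
  have hinj : Set.InjOn l (buNu τ : Finset (Fin n → ℤ)) ↔ Set.InjOn l τ := by
    unfold buNu
    constructor
    · intro h x hx y hy hxy
      have e1 : -x ∈ τ.image (fun x => -x) := mem_image_of_mem _ hx
      have e2 : -y ∈ τ.image (fun x => -x) := mem_image_of_mem _ hy
      have := h (mem_coe.2 e1) (mem_coe.2 e2) (by rw [hl.odd x (hb x hx), hl.odd y (hb y hy), hxy])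
      exact neg_injective this
    · intro h x hx y hy hxy
      obtain ⟨x', hx', rfl⟩ := mem_image.1 (mem_coe.1 hx)
      obtain ⟨y', hy', rfl⟩ := mem_image.1 (mem_coe.1 hy)
      rw [hl.odd x' (hb x' hx'), hl.odd y' (hb y' hy')] at hxy
      rw [h hx' hy' (neg_injective hxy)]
  rw [hinj]

theorem bu_bdry_neg {x : Fin n → ℤ} (h : buBdry p x) : buBdry p (-x) := by
  obtain ⟨h1, j, hj⟩ := h
  exact ⟨fun i => by rw [Pi.neg_apply, abs_neg]; exact h1 i, j, by rw [Pi.neg_apply, abs_neg]; exact hj⟩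

/-- antipodal symmetry. -/
theorem bu_face_neg (hp : 1 ≤ p) {l : (Fin n → ℤ) → ℤ} (hl : BuLabelling n p l) {r : ℕ}
    (hr : 1 ≤ r) {L : Finset ℤ} (hL : L ∈ buIdx n r) (m : ℕ) :
    buCntP l (buLo n p (L.image (fun a => -a))) (buHi n p (L.image (fun a => -a))) m =
      buCntN l (buLo n p L) (buHi n p L) m := by
  unfold buCntP buCntN
  rw [bu_lo_neg, bu_hi_neg]
  symm
  have hbd : ∀ τ ∈ buSimp (buLo n p L) (buHi n p L) m, ∀ x ∈ τ, buBdry p x := by
    intro τ hτ x hx
    exact bu_face_bdry hp hr hL (mem_Icc.2 ((bu_mem_simp.1 hτ).1 x hx))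
  refine card_bij (fun τ _ => buNu τ) ?_ ?_ ?_
  · intro τ hτ
    obtain ⟨h1, h2⟩ := mem_filter.1 hτ
    exact mem_filter.2 ⟨bu_simp_nu h1, (bu_altP_nu hl (bu_mem_simp.1 h1).2.2 (hbd τ h1)).2 h2⟩
  · intro τ _ τ' _ h
    have := congrArg buNu h
    rwa [bu_nu_nu, bu_nu_nu] at this
  · intro τ' hτ'
    obtain ⟨h1, h2⟩ := mem_filter.1 hτ'
    have h3 := bu_simp_nu h1
    rw [neg_neg, neg_neg] at h3
    refine ⟨buNu τ', mem_filter.2 ⟨h3, ?_⟩, bu_nu_nu τ'⟩
    rw [← bu_altP_nu hl (bu_mem_simp.1 h3).2.2 (hbd _ h3), bu_nu_nu]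
    exact h2

end faces

end Claimed.Agent.R273
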