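/-
LIB-BU (row273), part 4b: Ky Fan / Tucker lemma on the boundary of the cube `[-p,p]^n`, Kuhn
triangulated (faces: BuFace.lean).
`A r := ∑ over positive alternating L with r elements of #(alternating top simplices of face L)`
satisfies `A r = A (r+1)` mod 2 (flat identity + Fan parity for the index sets + antipodality)
and `A n = 1`.
-/
import Claimed.Agent.R273.BuFace

set_option autoImplicit false

namespace Claimed.Agent.R273

open Finset
open scoped Classical

theorem bu_image_neg_neg (L : Finset ℤ) : (L.image (fun a => -a)).image (fun a => -a) = L := by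
  rw [image_image]
  have : ((fun a : ℤ => -a) ∘ fun a : ℤ => -a) = id := by funext a; simp
  rw [this, image_id]

theorem bu_idx_neg {n r : ℕ} {L : Finset ℤ} (hL : L ∈ buIdx n r) :
    L.image (fun a => -a) ∈ buIdx n r := by
  rw [bu_mem_idx] at hL ⊢
  obtain ⟨h1, h2, h3⟩ := hL
  refine ⟨?_, ?_, bu_adm_image_neg h3⟩
  · intro a ha
    obtain ⟨b, hb, rfl⟩ := mem_image.1 ha
    have := bu_mem_lab.1 (h1 hb)
    rw [bu_mem_lab]
    refine ⟨by omega, by omega, by omega⟩
  · rw [card_image_of_injective _ neg_injective, h2]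

theorem bu_neg_image_neg {L : Finset ℤ} (h : buAdm L) :
    buNeg (L.image (fun a => -a)) ↔ buPos L := by
  rw [← bu_pos_image_neg (bu_adm_image_neg h), bu_image_neg_neg]

theorem bu_idx_insert {n r : ℕ} {L : Finset ℤ} (hL : L ∈ buIdx n r) {c : ℤ} (hc : c ∈ buLab n)
    (h1 : c ∉ L) (h2 : -c ∉ L) : insert c L ∈ buIdx n (r + 1) := by
  rw [bu_mem_idx] at hL ⊢
  obtain ⟨g1, g2, g3⟩ := hL
  refine ⟨insert_subset hc g1, by rw [card_insert_of_notMem h1, g2], ?_⟩
  intro a ha hna
  have hc0 := (bu_mem_lab.1 hc).1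
  rcases mem_insert.1 ha with rfl | ha
  · rcases mem_insert.1 hna with h | h
    · omega
    · exact h2 h
  · rcases mem_insert.1 hna with h | h
    · apply h2; rw [← h, neg_neg]; exact ha
    · exact g3 a ha h

theorem bu_idx_erase {n r : ℕ} {L : Finset ℤ} (hL : L ∈ buIdx n (r + 1)) {c : ℤ} (hc : c ∈ L) :
    L.erase c ∈ buIdx n r := by
  rw [bu_mem_idx] at hL ⊢
  obtain ⟨g1, g2, g3⟩ := hL
  exact ⟨(erase_subset _ _).trans g1, by rw [card_erase_of_mem hc, g2]; rfl,
    bu_adm_subset g3 (erase_subset _ _)⟩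

/-- the mod 2 count at level `r`. -/
noncomputable def buA (n : ℕ) (p : ℤ) (l : (Fin n → ℤ) → ℤ) (r : ℕ) : ZMod 2 :=
  ∑ L ∈ (buIdx n r).filter buPos,
    ((buCntP l (buLo n p L) (buHi n p L) (n - r + 1) +
      buCntN l (buLo n p L) (buHi n p L) (n - r + 1) : ℕ) : ZMod 2)

theorem bu_cast_card_zmod2 (k : ℕ) : ((k : ℕ) : ZMod 2) = if Odd k then 1 else 0 := by
  split_ifs with h
  · exact (ZMod.natCast_eq_one_iff_odd).2 h
  · exact (ZMod.natCast_eq_zero_iff_even).2 (Nat.not_odd_iff_even.1 h)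

theorem bu_A_step {n : ℕ} {p : ℤ} (hp : 1 ≤ p) {l : (Fin n → ℤ) → ℤ} (hl : BuLabelling n p l)
    {r : ℕ} (hr : 1 ≤ r) (hrn : r < n) : buA n p l r = buA n p l (r + 1) := by
  set P : Finset ℤ → ZMod 2 :=
    fun L => ((buCntP l (buLo n p L) (buHi n p L) (n - r) : ℕ) : ZMod 2) with hP
  -- step 1
  have s1 : buA n p l r = ∑ L ∈ (buIdx n r).filter buPos,
      ∑ c ∈ (buLab n).filter (fun c => c ∉ L ∧ -c ∉ L), P (insert c L) := by
    unfold buA
    apply sum_congr rfl
    intro L hL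
    exact bu_face_flat hp hl hr hrn (mem_filter.1 hL).1
  -- step 2
  have s2 : ∑ L ∈ (buIdx n r).filter buPos,
      ∑ c ∈ (buLab n).filter (fun c => c ∉ L ∧ -c ∉ L), P (insert c L) =
      ∑ L' ∈ buIdx n (r + 1), ∑ _c ∈ L'.filter (fun c => buPos (L'.erase c)), P L' := by
    rw [sum_sigma', sum_sigma']
    refine sum_bij' (fun x _ => ⟨insert x.2 x.1, x.2⟩) (fun y _ => ⟨y.1.erase y.2, y.2⟩)
      ?_ ?_ ?_ ?_ ?_
    · rintro ⟨L, c⟩ h
      simp only [mem_sigma, mem_filter] at h ⊢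
      obtain ⟨⟨h1, h2⟩, h3, h4, h5⟩ := h
      refine ⟨bu_idx_insert h1 h3 h4 h5, mem_insert_self _ _, ?_⟩
      rw [erase_insert h4]; exact h2
    · rintro ⟨L', c⟩ h
      simp only [mem_sigma, mem_filter] at h ⊢
      obtain ⟨h1, h2, h3⟩ := h
      have g := bu_mem_idx.1 h1
      refine ⟨⟨bu_idx_erase h1 h2, h3⟩, g.1 h2, notMem_erase _ _, ?_⟩
      intro h4
      exact g.2.2 c h2 (mem_of_mem_erase h4)
    · rintro ⟨L, c⟩ h
      simp only [mem_sigma, mem_filter] at h
      simp only [erase_insert h.2.2.1]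
    · rintro ⟨L', c⟩ h
      simp only [mem_sigma, mem_filter] at h
      simp only [insert_erase h.2.1]
    · rintro ⟨L, c⟩ _
      rfl
  -- step 3
  have s3 : ∑ L' ∈ buIdx n (r + 1), ∑ _c ∈ L'.filter (fun c => buPos (L'.erase c)), P L' =
      ∑ L' ∈ buIdx n (r + 1), (if buPos L' ∨ buNeg L' then P L' else 0) := by
    apply sum_congr rfl
    intro L' hL'
    have g := bu_mem_idx.1 hL'
    have hne : L'.Nonempty := card_pos.1 (by rw [g.2.1]; omega)
    rw [sum_const, nsmul_eq_mul, bu_cast_card_zmod2]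
    have hfp := bu_fan_parity g.2.2 hne
    by_cases h1 : buPos L' ∨ buNeg L'
    · rw [if_pos h1, if_pos (hfp.2 h1), one_mul]
    · rw [if_neg h1, if_neg (fun h => h1 (hfp.1 h)), zero_mul]
  -- step 4
  have s4 : ∑ L' ∈ buIdx n (r + 1), (if buPos L' ∨ buNeg L' then P L' else 0) =
      ∑ L' ∈ (buIdx n (r + 1)).filter buPos, P L' + ∑ L' ∈ (buIdx n (r + 1)).filter buNeg, P L' := by
    rw [sum_filter, sum_filter, ← sum_add_distrib]
    apply sum_congr rfl
    intro L' hL'
    have g := bu_mem_idx.1 hL'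
    have hne : L'.Nonempty := card_pos.1 (by rw [g.2.1]; omega)
    by_cases h1 : buPos L'
    · have h2 : ¬ buNeg L' := fun h2 => bu_pos_neg_excl hne h1 h2
      simp [h1, h2]
    · by_cases h2 : buNeg L' <;> simp [h1, h2]
  -- step 5
  have s5 : ∑ L' ∈ (buIdx n (r + 1)).filter buNeg, P L' =
      ∑ L ∈ (buIdx n (r + 1)).filter buPos,
        ((buCntN l (buLo n p L) (buHi n p L) (n - r) : ℕ) : ZMod 2) := by
    symm
    refine sum_bij' (fun L _ => L.image (fun a => -a)) (fun L _ => L.image (fun a => -a))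
      ?_ ?_ ?_ ?_ ?_
    · intro L hL
      obtain ⟨h1, h2⟩ := mem_filter.1 hL
      exact mem_filter.2 ⟨bu_idx_neg h1, (bu_neg_image_neg (bu_mem_idx.1 h1).2.2).2 h2⟩
    · intro L hL
      obtain ⟨h1, h2⟩ := mem_filter.1 hL
      exact mem_filter.2 ⟨bu_idx_neg h1, (bu_pos_image_neg (bu_mem_idx.1 h1).2.2).2 h2⟩
    · intro L _; exact bu_image_neg_neg L
    · intro L _; exact bu_image_neg_neg L
    · intro L hL
      obtain ⟨h1, _⟩ := mem_filter.1 hL
      rw [hP]
      simp only
      rw [bu_face_neg hp hl (by omega : 1 ≤ r + 1) h1]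
  rw [s1, s2, s3, s4, s5, ← sum_add_distrib]
  unfold buA
  have e : n - (r + 1) + 1 = n - r := by omega
  rw [e]
  apply sum_congr rfl
  intro L _
  rw [hP]
  push_cast
  rfl


theorem bu_full_abs_image {n : ℕ} {L : Finset ℤ} (hL : L ∈ buIdx n n) :
    L.image (fun a : ℤ => |a|) = Icc 1 (n : ℤ) := by
  obtain ⟨h1, h2, h3⟩ := bu_mem_idx.1 hL
  apply eq_of_subset_of_card_le
  · intro t ht
    obtain ⟨a, ha, rfl⟩ := mem_image.1 ht
    obtain ⟨g1, g2, g3⟩ := bu_mem_lab.1 (h1 ha)
    rw [mem_Icc]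
    exact ⟨Int.one_le_abs g1, abs_le.2 ⟨g2, g3⟩⟩
  · rw [card_image_of_injOn (bu_abs_injOn h3), h2, Int.card_Icc]
    simp

theorem bu_full_rank {n : ℕ} {L : Finset ℤ} (hL : L ∈ buIdx n n) {a : ℤ} (ha : a ∈ L) :
    buRank L a = (|a| - 1).toNat := by
  obtain ⟨h1, h2, h3⟩ := bu_mem_idx.1 hL
  obtain ⟨g1, g2, g3⟩ := bu_mem_lab.1 (h1 ha)
  unfold buRank
  rw [← card_image_of_injOn ((bu_abs_injOn h3).mono (by
    intro x hx; exact (mem_filter.1 hx).1))]
  have : (L.filter (fun b => |b| < |a|)).image (fun a : ℤ => |a|) = Icc 1 (|a| - 1) := by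
    ext t
    rw [mem_image, mem_Icc]
    constructor
    · rintro ⟨b, hb, rfl⟩
      obtain ⟨hb1, hb2⟩ := mem_filter.1 hb
      have := Int.one_le_abs (bu_mem_lab.1 (h1 hb1)).1
      constructor <;> omega
    · rintro ⟨ht1, ht2⟩
      have hle : |a| ≤ n := abs_le.2 ⟨g2, g3⟩
      have : t ∈ L.image (fun a : ℤ => |a|) := by
        rw [bu_full_abs_image hL, mem_Icc]; constructor <;> omega
      obtain ⟨b, hb, rfl⟩ := mem_image.1 this
      exact ⟨b, mem_filter.2 ⟨hb, by omega⟩, rfl⟩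
  rw [this, Int.card_Icc]
  congr 1
  ring

/-- the sign rule of the unique full positive alternating index set. -/
def buGood (a : ℤ) : Prop := 0 < a ↔ Even (|a| - 1).toNat

theorem bu_good_neg {a : ℤ} (ha : a ≠ 0) : buGood (-a) ↔ ¬ buGood a := by
  unfold buGood
  rw [abs_neg]
  have h4 : 0 < -a ↔ ¬ 0 < a := by
    constructor
    · intro h5; omega
    · intro h5; omega
  tauto

theorem bu_card_lab (n : ℕ) : (buLab n).card = 2 * n := by
  unfold buLab
  rw [card_erase_of_mem (by rw [mem_Icc]; constructor <;> omega), Int.card_Icc]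
  omega

theorem bu_star_mem (n : ℕ) : (buLab n).filter buGood ∈ buIdx n n := by
  rw [bu_mem_idx]
  refine ⟨filter_subset _ _, ?_, ?_⟩
  · have h1 := card_filter_add_card_filter_not (s := buLab n) buGood
    have h2 : ((buLab n).filter (fun a => ¬ buGood a)).card = ((buLab n).filter buGood).card := by
      have : (buLab n).filter (fun a => ¬ buGood a) = ((buLab n).filter buGood).image (fun a => -a) := by
        ext a
        rw [mem_filter, mem_image]
        constructor
        · rintro ⟨h3, h4⟩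
          obtain ⟨g1, g2, g3⟩ := bu_mem_lab.1 h3
          refine ⟨-a, mem_filter.2 ⟨bu_mem_lab.2 ⟨by omega, by omega, by omega⟩, ?_⟩, by simp⟩
          rw [bu_good_neg g1]; exact h4
        · rintro ⟨b, hb, rfl⟩
          obtain ⟨h3, h4⟩ := mem_filter.1 hb
          obtain ⟨g1, g2, g3⟩ := bu_mem_lab.1 h3
          refine ⟨bu_mem_lab.2 ⟨by omega, by omega, by omega⟩, ?_⟩
          rw [bu_good_neg g1]; exact not_not.2 h4
      rw [this, card_image_of_injective _ neg_injective]
    rw [bu_card_lab] at h1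
    omega
  · intro a ha hna
    obtain ⟨h3, h4⟩ := mem_filter.1 ha
    have h5 := (mem_filter.1 hna).2
    rw [bu_good_neg (bu_mem_lab.1 h3).1] at h5
    exact h5 h4

theorem bu_full_pos_iff {n : ℕ} {L : Finset ℤ} (hL : L ∈ buIdx n n) :
    buPos L ↔ ∀ a ∈ L, buGood a := by
  unfold buPos buGood
  constructor
  · intro h a ha
    rw [← bu_full_rank hL ha]; exact h a ha
  · intro h a ha
    rw [bu_full_rank hL ha]; exact h a ha

theorem bu_full_pos_unique (n : ℕ) :
    (buIdx n n).filter buPos = {(buLab n).filter buGood} := by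
  ext L
  rw [mem_filter, mem_singleton]
  constructor
  · rintro ⟨hL, hpos⟩
    rw [bu_full_pos_iff hL] at hpos
    obtain ⟨h1, h2, h3⟩ := bu_mem_idx.1 hL
    ext a
    rw [mem_filter]
    constructor
    · intro ha; exact ⟨h1 ha, hpos a ha⟩
    · rintro ⟨ha, hg⟩
      obtain ⟨g1, g2, g3⟩ := bu_mem_lab.1 ha
      have : |a| ∈ L.image (fun a : ℤ => |a|) := by
        rw [bu_full_abs_image hL, mem_Icc]
        exact ⟨Int.one_le_abs g1, abs_le.2 ⟨g2, g3⟩⟩
      obtain ⟨b, hb, hba⟩ := mem_image.1 this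
      rcases abs_eq_abs.1 hba with h4 | h4
      · rw [← h4]; exact hb
      · exfalso
        have h5 := hpos b hb
        rw [h4, bu_good_neg g1] at h5
        exact h5 hg
  · rintro rfl
    refine ⟨bu_star_mem n, ?_⟩
    rw [bu_full_pos_iff (bu_star_mem n)]
    intro a ha
    exact (mem_filter.1 ha).2

theorem bu_full_lo_eq_hi {n : ℕ} (p : ℤ) {L : Finset ℤ} (hL : L ∈ buIdx n n) :
    buLo n p L = buHi n p L := by
  obtain ⟨h1, h2, h3⟩ := bu_mem_idx.1 hL
  funext j
  unfold buLo buHi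
  have hj := j.2
  have : (((j : ℕ) : ℤ) + 1) ∈ L.image (fun a : ℤ => |a|) := by
    rw [bu_full_abs_image hL, mem_Icc]; constructor <;> omega
  obtain ⟨b, hb, hbj⟩ := mem_image.1 this
  have hbj' : |b| = ((j : ℕ) : ℤ) + 1 := hbj
  rcases abs_choice b with h4 | h4
  · rw [h4] at hbj'
    rw [← hbj', if_pos hb, if_neg (h3 b hb)]
  · rw [h4] at hbj'
    have h5 : -(((j : ℕ) : ℤ) + 1) = b := by omega
    have h6 : (((j : ℕ) : ℤ) + 1) ∉ L := by
      rw [← hbj']; exact h3 b hb
    rw [h5, if_pos hb, if_neg h6]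

theorem bu_simp_point {n : ℕ} (v : Fin n → ℤ) : buSimp v v 1 = {{v}} := by
  ext s
  rw [bu_mem_simp, mem_singleton]
  constructor
  · rintro ⟨h1, h2, _⟩
    obtain ⟨x, rfl⟩ := card_eq_one.1 h2
    have := h1 x (mem_singleton_self x)
    rw [le_antisymm this.2 this.1]
  · rintro rfl
    refine ⟨?_, card_singleton v, ?_, ?_⟩
    · intro x hx; rw [mem_singleton.1 hx]; exact ⟨le_rfl, le_rfl⟩
    · intro x hx y hy; rw [mem_singleton.1 hx, mem_singleton.1 hy]; exact Or.inl le_rfl
    · intro x hx y hy j; rw [mem_singleton.1 hx, mem_singleton.1 hy]; omega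

theorem bu_cnt_point {n : ℕ} (l : (Fin n → ℤ) → ℤ) (v : Fin n → ℤ) :
    buCntP l v v 1 + buCntN l v v 1 = 1 := by
  unfold buCntP buCntN
  rw [bu_simp_point, filter_singleton, filter_singleton]
  have h0 : (({l v} : Finset ℤ).filter (fun b => |b| < |l v|)).card = 0 := by
    rw [card_eq_zero]
    apply filter_false_of_mem
    intro b hb; rw [mem_singleton.1 hb]; exact lt_irrefl _
  have hP : buAltP l {v} ↔ 0 < l v := by
    unfold buAltP buPos buRank
    simp [h0]
  have hN : buAltN l {v} ↔ ¬ 0 < l v := by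
    unfold buAltN buNeg buRank
    simp [h0]
  by_cases h : 0 < l v
  · rw [if_pos (hP.2 h), if_neg (fun h' => (hN.1 h') h)]; simp
  · rw [if_neg (fun h' => h (hP.1 h')), if_pos (hN.2 h)]; simp

theorem bu_A_top {n : ℕ} {p : ℤ} (l : (Fin n → ℤ) → ℤ) : buA n p l n = 1 := by
  unfold buA
  rw [bu_full_pos_unique, sum_singleton, bu_full_lo_eq_hi p (bu_star_mem n), Nat.sub_self, zero_add,
    bu_cnt_point]
  simp

theorem bu_A_one {n : ℕ} {p : ℤ} (hn : 1 ≤ n) (hp : 1 ≤ p) {l : (Fin n → ℤ) → ℤ}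
    (hl : BuLabelling n p l) : buA n p l 1 = 1 := by
  have key : ∀ k, k < n → buA n p l (n - k) = 1 := by
    intro k
    induction k with
    | zero => intro _; simpa using bu_A_top (p := p) l
    | succ k ih =>
      intro hk
      have h1 := ih (by omega)
      have h2 := bu_A_step hp hl (r := n - (k + 1)) (by omega) (by omega)
      rw [h2]
      have : n - (k + 1) + 1 = n - k := by omega
      rw [this]; exact h1
  have := key (n - 1) (by omega)
  have h3 : n - (n - 1) = 1 := by omega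
  rwa [h3] at this

/-- **Ky Fan's lemma on the boundary of the cube** (existence form): an antipodal labelling of
the lattice points of the boundary of `[-p,p]^n` without complementary Kuhn edge has a simplex
with `n` vertices whose labels have pairwise distinct absolute values. -/
theorem bu_tucker {n : ℕ} {p : ℤ} (hn : 1 ≤ n) (hp : 1 ≤ p) {l : (Fin n → ℤ) → ℤ}
    (hl : BuLabelling n p l) :
    ∃ s : Finset (Fin n → ℤ), s.card = n ∧ (∀ x ∈ s, buBdry p x) ∧
      Set.InjOn (fun x => |l x|) s := by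
  have h1 := bu_A_one hn hp hl
  unfold buA at h1
  have h2 : ∃ L ∈ (buIdx n 1).filter buPos,
      ((buCntP l (buLo n p L) (buHi n p L) (n - 1 + 1) +
        buCntN l (buLo n p L) (buHi n p L) (n - 1 + 1) : ℕ) : ZMod 2) ≠ 0 := by
    by_contra hcon
    push Not at hcon
    rw [sum_eq_zero hcon] at h1
    exact zero_ne_one h1
  obtain ⟨L, hL, hne⟩ := h2
  have hL1 := (mem_filter.1 hL).1
  have h3 : ∃ s ∈ buSimp (buLo n p L) (buHi n p L) (n - 1 + 1), Set.InjOn l s := by
    by_contra hcon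
    push Not at hcon
    apply hne
    have e1 : buCntP l (buLo n p L) (buHi n p L) (n - 1 + 1) = 0 := by
      unfold buCntP
      rw [card_eq_zero]
      apply filter_false_of_mem
      intro s hs h; exact hcon s hs h.1
    have e2 : buCntN l (buLo n p L) (buHi n p L) (n - 1 + 1) = 0 := by
      unfold buCntN
      rw [card_eq_zero]
      apply filter_false_of_mem
      intro s hs h; exact hcon s hs h.1
    rw [e1, e2]; simp
  obtain ⟨s, hs, hinj⟩ := h3
  obtain ⟨g1, g2, g3⟩ := bu_mem_simp.1 hs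
  have hb : ∀ x ∈ s, buBdry p x := fun x hx =>
    bu_face_bdry hp le_rfl hL1 (mem_Icc.2 (g1 x hx))
  refine ⟨s, by omega, hb, ?_⟩
  intro x hx y hy hxy
  rcases abs_eq_abs.1 hxy with h4 | h4
  · exact hinj hx hy h4
  · exfalso
    rcases g3.1 x hx y hy with h5 | h5
    · exact hl.nocomp x y (hb x hx) (hb y hy) h5 (g3.2 x hx y hy) h4
    · exact hl.nocomp y x (hb y hy) (hb x hx) h5 (g3.2 y hy x hx) (by rw [h4, neg_neg])

end Claimed.Agent.R273
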