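/-
LIB-BU (row273), part 5: the Borsuk-Ulam theorem on the sup-norm sphere of `Fin (q+1) → ℝ`.
-/
import Claimed.Agent.R273.BuTucker

set_option autoImplicit false

namespace Claimed.Agent.R273

open Finset
open scoped Classical

/-- an index at which a real vector is maximal -/
noncomputable def buIdxMax {q : ℕ} (hq : 1 ≤ q) (a : Fin q → ℝ) : Fin q :=
  haveI : Nonempty (Fin q) := ⟨⟨0, hq⟩⟩
  Classical.choose (Finite.exists_max a)

theorem bu_idxMax_spec {q : ℕ} (hq : 1 ≤ q) (a : Fin q → ℝ) (i : Fin q) :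
    a i ≤ a (buIdxMax hq a) :=
  haveI : Nonempty (Fin q) := ⟨⟨0, hq⟩⟩
  Classical.choose_spec (Finite.exists_max a) i

/-- the rescaled lattice point -/
noncomputable def buScale {n : ℕ} (P : ℕ) (z : Fin n → ℤ) : Fin n → ℝ := fun j => (z j : ℝ) / P

theorem bu_scale_neg {n : ℕ} (P : ℕ) (z : Fin n → ℤ) : buScale P (-z) = - buScale P z := by
  funext j
  simp [buScale, neg_div]

theorem bu_scale_mem {n : ℕ} {P : ℕ} (hP : 1 ≤ P) {z : Fin n → ℤ} (hz : buBdry (P : ℤ) z) :
    buScale P z ∈ Metric.sphere (0 : Fin n → ℝ) 1 := by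
  rw [mem_sphere_zero_iff_norm]
  have hP0 : (0 : ℝ) < P := by exact_mod_cast hP
  obtain ⟨h1, j0, h2⟩ := hz
  apply le_antisymm
  · rw [pi_norm_le_iff_of_nonneg zero_le_one]
    intro j
    rw [Real.norm_eq_abs, buScale, abs_div, abs_of_pos hP0, div_le_one hP0]
    have := h1 j
    exact_mod_cast this
  · have h3 := norm_le_pi_norm (buScale P z) j0
    rw [Real.norm_eq_abs, buScale, abs_div, abs_of_pos hP0] at h3
    have h4 : |(z j0 : ℝ)| = P := by exact_mod_cast h2
    rw [h4, div_self hP0.ne'] at h3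
    exact h3

theorem bu_scale_dist {n : ℕ} {P : ℕ} (hP : 1 ≤ P) {x y : Fin n → ℤ} (h1 : x ≤ y)
    (h2 : ∀ j, y j ≤ x j + 1) : dist (buScale P x) (buScale P y) ≤ 1 / P := by
  have hP0 : (0 : ℝ) < P := by exact_mod_cast hP
  rw [dist_pi_le_iff (by positivity)]
  intro j
  rw [Real.dist_eq, buScale, buScale, ← sub_div, abs_div, abs_of_pos hP0]
  apply div_le_div_of_nonneg_right _ hP0.le
  have a1 : (x j : ℝ) ≤ y j := by exact_mod_cast h1 j
  have a2 : (y j : ℝ) ≤ x j + 1 := by exact_mod_cast h2 j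
  rw [abs_le]
  constructor <;> linarith

/-- **Borsuk-Ulam** (sup norm sphere): a continuous odd map from the unit sphere of
`Fin (q+1) → ℝ` to `Fin q → ℝ` has a zero. -/
theorem bu_borsuk_ulam (q : ℕ) (φ : (Fin (q + 1) → ℝ) → (Fin q → ℝ))
    (hc : ContinuousOn φ (Metric.sphere (0 : Fin (q + 1) → ℝ) 1))
    (hodd : ∀ x ∈ Metric.sphere (0 : Fin (q + 1) → ℝ) 1, φ (-x) = - φ x) :
    ∃ x ∈ Metric.sphere (0 : Fin (q + 1) → ℝ) 1, φ x = 0 := by
  have hne : (Metric.sphere (0 : Fin (q + 1) → ℝ) 1).Nonempty :=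
    ⟨fun _ => 1, by rw [mem_sphere_zero_iff_norm, pi_norm_const]; simp⟩
  rcases Nat.eq_zero_or_pos q with rfl | hq
  · obtain ⟨x, hx⟩ := hne
    exact ⟨x, hx, Subsingleton.elim _ _⟩
  by_contra hcon
  push Not at hcon
  have hcomp : IsCompact (Metric.sphere (0 : Fin (q + 1) → ℝ) 1) := isCompact_sphere _ _
  obtain ⟨x0, hx0, hmin⟩ := hcomp.exists_isMinOn hne hc.norm
  set ε : ℝ := ‖φ x0‖ with hε
  have hεpos : 0 < ε := norm_pos_iff.2 (hcon x0 hx0)
  have hlow : ∀ x ∈ Metric.sphere (0 : Fin (q + 1) → ℝ) 1, ε ≤ ‖φ x‖ := fun x hx => hmin hx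
  obtain ⟨δ, hδ, huc⟩ :=
    Metric.uniformContinuousOn_iff.1 (hcomp.uniformContinuousOn_of_continuous hc) ε hεpos
  obtain ⟨N, hN⟩ := exists_nat_one_div_lt hδ
  set P : ℕ := N + 1 with hPdef
  have hP : 1 ≤ P := by omega
  have hPδ : (1 : ℝ) / P < δ := by
    rw [hPdef]
    push_cast
    exact hN
  -- the index and the label
  set J : (Fin (q + 1) → ℤ) → Fin q := fun z => buIdxMax hq (fun i => |φ (buScale P z) i|) with hJ
  set l : (Fin (q + 1) → ℤ) → ℤ := fun z =>
    if 0 < φ (buScale P z) (J z) then ((J z : ℕ) : ℤ) + 1 else -(((J z : ℕ) : ℤ) + 1) with hl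
  have hbig : ∀ z, buBdry (P : ℤ) z → ε ≤ |φ (buScale P z) (J z)| := by
    intro z hz
    refine (hlow _ (bu_scale_mem hP hz)).trans ?_
    rw [pi_norm_le_iff_of_nonneg (abs_nonneg _)]
    intro i
    rw [Real.norm_eq_abs]
    exact bu_idxMax_spec hq (fun i => |φ (buScale P z) i|) i
  have habs : ∀ z, |l z| = ((J z : ℕ) : ℤ) + 1 := by
    intro z
    have h0 : (0 : ℤ) ≤ ((J z : ℕ) : ℤ) + 1 := by positivity
    simp only [hl]
    split_ifs
    · exact abs_of_nonneg h0
    · rw [abs_neg]; exact abs_of_nonneg h0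
  have hφneg : ∀ z, buBdry (P : ℤ) z → φ (buScale P (-z)) = - φ (buScale P z) := by
    intro z hz
    rw [bu_scale_neg]
    exact hodd _ (bu_scale_mem hP hz)
  have hJneg : ∀ z, buBdry (P : ℤ) z → J (-z) = J z := by
    intro z hz
    simp only [hJ]
    rw [hφneg z hz]
    congr 1
    funext i
    simp
  have hlab : BuLabelling (q + 1) (P : ℤ) l := by
    constructor
    · intro z hz
      have hb := hbig z hz
      have hne0 : φ (buScale P z) (J z) ≠ 0 := by
        intro h0
        rw [h0, abs_zero] at hb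
        linarith
      simp only [hl]
      rw [hJneg z hz, hφneg z hz]
      simp only [Pi.neg_apply]
      rcases lt_or_gt_of_ne hne0 with h | h
      · rw [if_pos (by linarith), if_neg (by linarith)]
        ring
      · rw [if_neg (by linarith), if_pos h]
    · intro x y hx hy hxy hyx hEq
      have hJe : J x = J y := by
        have h1 := habs x
        rw [hEq, abs_neg, habs y] at h1
        have h2 : ((J y : ℕ) : ℤ) = ((J x : ℕ) : ℤ) := by linarith
        have h3 : (J y : ℕ) = (J x : ℕ) := by exact_mod_cast h2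
        exact (Fin.ext h3).symm
      have hbx := hbig x hx
      have hby := hbig y hy
      have hd : dist (φ (buScale P x)) (φ (buScale P y)) < ε :=
        huc _ (bu_scale_mem hP hx) _ (bu_scale_mem hP hy)
          (lt_of_le_of_lt (bu_scale_dist hP hxy hyx) hPδ)
      have hd' : |φ (buScale P x) (J x) - φ (buScale P y) (J x)| < ε := by
        have := dist_le_pi_dist (φ (buScale P x)) (φ (buScale P y)) (J x)
        rw [Real.dist_eq] at this
        linarith
      have h0 : (0 : ℤ) < ((J y : ℕ) : ℤ) + 1 := by positivity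
      simp only [hl] at hEq
      rw [hJe] at hEq hbx hd'
      by_cases h1 : 0 < φ (buScale P x) (J y)
      · by_cases h2 : 0 < φ (buScale P y) (J y)
        · rw [if_pos h1, if_pos h2] at hEq
          omega
        · rw [abs_of_pos h1] at hbx
          rw [abs_of_nonpos (not_lt.1 h2)] at hby
          rw [abs_lt] at hd'
          linarith [hd'.2]
      · by_cases h2 : 0 < φ (buScale P y) (J y)
        · rw [abs_of_nonpos (not_lt.1 h1)] at hbx
          rw [abs_of_pos h2] at hby
          rw [abs_lt] at hd'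
          linarith [hd'.1]
        · rw [if_neg h1, if_neg h2] at hEq
          omega
  obtain ⟨s, hs, -, hinj⟩ := bu_tucker (n := q + 1) (p := (P : ℤ)) (by omega) (by exact_mod_cast hP) hlab
  have hcard : s.card ≤ (univ : Finset (Fin q)).card := by
    refine Finset.card_le_card_of_injOn J (fun _ _ => Finset.mem_coe.2 (Finset.mem_univ _)) ?_
    intro a ha b hb hab
    apply hinj ha hb
    show |l a| = |l b|
    rw [habs, habs, hab]
  rw [hs, Finset.card_univ, Fintype.card_fin] at hcard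
  omega

end Claimed.Agent.R273
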