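/-
LIB-BU (row273), part 6: the discrete ham sandwich theorem (Stone-Tukey) for a finite dimensional
real vector space `V` of "functions" on a type `X` (evaluation `ev x : V →ₗ[ℝ] ℝ`).
-/
import Claimed.Agent.R273.BuBorsuk

set_option autoImplicit false

namespace Claimed.Agent.R273

open Finset
open scoped Classical

/-- truncation to `[-1,1]` -/
noncomputable def buClamp (s : ℝ) : ℝ := max (-1) (min 1 s)

theorem bu_clamp_cont : Continuous buClamp :=
  continuous_const.max (continuous_const.min continuous_id)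

theorem bu_clamp_neg (s : ℝ) : buClamp (-s) = - buClamp s := by
  unfold buClamp
  simp only [max_def, min_def]
  split_ifs <;> linarith

theorem bu_clamp_ge (s : ℝ) : -1 ≤ buClamp s := le_max_left _ _

theorem bu_clamp_le (s : ℝ) : buClamp s ≤ 1 := max_le (by norm_num) (min_le_left _ _)

theorem bu_clamp_of_ge {s : ℝ} (h : 1 ≤ s) : buClamp s = 1 := by
  unfold buClamp
  rw [min_eq_left h]
  exact max_eq_right (by norm_num)

theorem bu_clamp_of_le {s : ℝ} (h : s ≤ -1) : buClamp s = -1 := by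
  unfold buClamp
  rw [min_eq_right (by linarith)]
  exact max_eq_left h

theorem bu_sum_sign {X : Type*} (s : Finset X) (p : X → Prop) :
    ∑ x ∈ s, (if p x then (1 : ℝ) else -1) = 2 * (s.filter p).card - s.card := by
  rw [Finset.sum_ite, Finset.sum_const, Finset.sum_const, nsmul_eq_mul, nsmul_eq_mul]
  have h := Finset.card_filter_add_card_filter_not (s := s) p
  have h' : ((s.filter p).card : ℝ) + ((s.filter fun x => ¬ p x).card : ℝ) = s.card := by
    exact_mod_cast h
  linarith

/-- a linear injection of `ℝ^{q+1}` -/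
theorem bu_exists_inj {V : Type*} [AddCommGroup V] [Module ℝ V] [FiniteDimensional ℝ V] (q : ℕ)
    (hq : q < Module.finrank ℝ V) :
    ∃ ι : (Fin (q + 1) → ℝ) →ₗ[ℝ] V, Function.Injective ι := by
  have hb := (Module.finBasis ℝ V).linearIndependent
  have hb' := hb.comp (Fin.castLE (Nat.succ_le_of_lt hq)) (Fin.castLE_injective _)
  exact ⟨_, hb'.fintypeLinearCombination_injective⟩

/-- **Discrete ham sandwich theorem.** `q` finite sets, a space of functions of dimension `> q`:
some nonzero function has at most half of each set in each strict sign. -/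
theorem bu_ham_sandwich {V : Type*} [AddCommGroup V] [Module ℝ V] [FiniteDimensional ℝ V]
    {X : Type*} (ev : X → (V →ₗ[ℝ] ℝ)) (q : ℕ) (hq : q < Module.finrank ℝ V)
    (S : Fin q → Finset X) :
    ∃ f : V, f ≠ 0 ∧ ∀ i, 2 * ((S i).filter (fun x => 0 < ev x f)).card ≤ (S i).card ∧
      2 * ((S i).filter (fun x => ev x f < 0)).card ≤ (S i).card := by
  obtain ⟨ι, hι⟩ := bu_exists_inj (V := V) q hq
  -- the linear functionals on `ℝ^{q+1}`
  set L : X → ((Fin (q + 1) → ℝ) →ₗ[ℝ] ℝ) := fun x => (ev x).comp ι with hL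
  have hLc : ∀ x, Continuous (L x) := fun x => LinearMap.continuous_of_finiteDimensional _
  -- zeros of the smoothed maps
  have hz : ∀ k : ℕ, ∃ c ∈ Metric.sphere (0 : Fin (q + 1) → ℝ) 1,
      ∀ i, ∑ x ∈ S i, buClamp (L x c / (1 / ((k : ℝ) + 1))) = 0 := by
    intro k
    have hcont : ContinuousOn (fun (c : Fin (q + 1) → ℝ) (i : Fin q) =>
        ∑ x ∈ S i, buClamp (L x c / (1 / ((k : ℝ) + 1)))) (Metric.sphere 0 1) := by
      apply Continuous.continuousOn
      refine continuous_pi fun i => continuous_finsetSum _ fun x _ => ?_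
      exact bu_clamp_cont.comp ((hLc x).div_const _)
    have hodd : ∀ c ∈ Metric.sphere (0 : Fin (q + 1) → ℝ) 1,
        (fun (c : Fin (q + 1) → ℝ) (i : Fin q) =>
          ∑ x ∈ S i, buClamp (L x c / (1 / ((k : ℝ) + 1)))) (-c) =
        - (fun (c : Fin (q + 1) → ℝ) (i : Fin q) =>
          ∑ x ∈ S i, buClamp (L x c / (1 / ((k : ℝ) + 1)))) c := by
      intro c _
      funext i
      simp only [Pi.neg_apply, map_neg, neg_div, bu_clamp_neg, Finset.sum_neg_distrib]
    obtain ⟨c, hc, h0⟩ := bu_borsuk_ulam q _ hcont hodd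
    exact ⟨c, hc, fun i => congrFun h0 i⟩
  choose c hc h0 using hz
  obtain ⟨cl, hcl, ψ, hψ, hlim⟩ := (isCompact_sphere (0 : Fin (q + 1) → ℝ) 1).tendsto_subseq hc
  have hcne : cl ≠ 0 := by
    intro h
    rw [h, mem_sphere_zero_iff_norm, norm_zero] at hcl
    exact zero_ne_one hcl
  refine ⟨ι cl, fun h => hcne (hι (h.trans (map_zero ι).symm)), fun i => ?_⟩
  have he : Filter.Tendsto (fun k : ℕ => 1 / (((ψ k : ℕ) : ℝ) + 1)) Filter.atTop (nhds 0) :=
    tendsto_one_div_add_atTop_nhds_zero_nat.comp hψ.tendsto_atTop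
  have hepos : ∀ k : ℕ, (0 : ℝ) < 1 / (((ψ k : ℕ) : ℝ) + 1) := fun k => by positivity
  have hg : ∀ x, Filter.Tendsto (fun k => L x (c (ψ k))) Filter.atTop (nhds (L x cl)) := fun x =>
    ((hLc x).tendsto cl).comp hlim
  have hA : ∀ x, 0 < ev x (ι cl) →
      ∀ᶠ k in Filter.atTop, buClamp (L x (c (ψ k)) / (1 / (((ψ k : ℕ) : ℝ) + 1))) = 1 := by
    intro x hx
    have hx' : 0 < L x cl := hx
    have h1 : ∀ᶠ k in Filter.atTop, L x cl / 2 < L x (c (ψ k)) :=
      (hg x).eventually (lt_mem_nhds (by linarith))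
    have h2 : ∀ᶠ k in Filter.atTop, 1 / (((ψ k : ℕ) : ℝ) + 1) < L x cl / 2 :=
      he.eventually (gt_mem_nhds (by linarith))
    filter_upwards [h1, h2] with k a1 a2
    apply bu_clamp_of_ge
    rw [le_div_iff₀ (hepos k)]
    linarith
  have hB : ∀ x, ev x (ι cl) < 0 →
      ∀ᶠ k in Filter.atTop, buClamp (L x (c (ψ k)) / (1 / (((ψ k : ℕ) : ℝ) + 1))) = -1 := by
    intro x hx
    have hx' : L x cl < 0 := hx
    have h1 : ∀ᶠ k in Filter.atTop, L x (c (ψ k)) < L x cl / 2 :=
      (hg x).eventually (gt_mem_nhds (by linarith))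
    have h2 : ∀ᶠ k in Filter.atTop, 1 / (((ψ k : ℕ) : ℝ) + 1) < -(L x cl / 2) :=
      he.eventually (gt_mem_nhds (by linarith))
    filter_upwards [h1, h2] with k a1 a2
    apply bu_clamp_of_le
    rw [div_le_iff₀ (hepos k)]
    linarith
  have hAll : ∀ᶠ k in Filter.atTop,
      (∀ x ∈ S i, 0 < ev x (ι cl) →
        buClamp (L x (c (ψ k)) / (1 / (((ψ k : ℕ) : ℝ) + 1))) = 1) ∧
      (∀ x ∈ S i, ev x (ι cl) < 0 →
        buClamp (L x (c (ψ k)) / (1 / (((ψ k : ℕ) : ℝ) + 1))) = -1) := by
    refine Filter.Eventually.and ?_ ?_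
    · rw [Filter.eventually_all_finset]
      intro x _
      by_cases hx : 0 < ev x (ι cl)
      · filter_upwards [hA x hx] with k hk _ using hk
      · exact Filter.Eventually.of_forall fun k h => absurd h hx
    · rw [Filter.eventually_all_finset]
      intro x _
      by_cases hx : ev x (ι cl) < 0
      · filter_upwards [hB x hx] with k hk _ using hk
      · exact Filter.Eventually.of_forall fun k h => absurd h hx
  obtain ⟨k, hk1, hk2⟩ := hAll.exists
  have hsum := h0 (ψ k) i
  constructor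
  · have h1 : ∑ x ∈ S i, (if 0 < ev x (ι cl) then (1 : ℝ) else -1) ≤
        ∑ x ∈ S i, buClamp (L x (c (ψ k)) / (1 / (((ψ k : ℕ) : ℝ) + 1))) := by
      refine Finset.sum_le_sum fun x hx => ?_
      split_ifs with h
      · rw [hk1 x hx h]
      · exact bu_clamp_ge _
    rw [bu_sum_sign, hsum] at h1
    have h2 : (2 : ℝ) * ((S i).filter (fun x => 0 < ev x (ι cl))).card ≤ (S i).card := by linarith
    exact_mod_cast h2
  · have h1 : ∑ x ∈ S i, buClamp (L x (c (ψ k)) / (1 / (((ψ k : ℕ) : ℝ) + 1))) ≤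
        - ∑ x ∈ S i, (if ev x (ι cl) < 0 then (1 : ℝ) else -1) := by
      rw [← Finset.sum_neg_distrib]
      refine Finset.sum_le_sum fun x hx => ?_
      split_ifs with h
      · rw [hk2 x hx h]
      · rw [neg_neg]; exact bu_clamp_le _
    rw [bu_sum_sign, hsum] at h1
    have h2 : (2 : ℝ) * ((S i).filter (fun x => ev x (ι cl) < 0)).card ≤ (S i).card := by linarith
    exact_mod_cast h2

end Claimed.Agent.R273
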