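/-
LIB-BU (row273), part 8: a polynomial curve meets few sign classes.
-/
import Mathlib

set_option autoImplicit false

namespace Claimed.Agent.R273

open Finset
open scoped Classical

/-- strict sign condition: `σ = true` means positive, `σ = false` means negative. -/
def buSgn (σ : Bool) (v : ℝ) : Prop := if σ then 0 < v else v < 0

theorem buSgn_ne_zero {σ : Bool} {v : ℝ} (h : buSgn σ v) : v ≠ 0 := by
  unfold buSgn at h
  split_ifs at h
  · exact h.ne'
  · exact h.ne

/-- a real polynomial without zero on `[t,t']` has the same strict sign at both ends. -/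
theorem bu_same_sign (g : Polynomial ℝ) {t t' : ℝ} (htt : t ≤ t')
    (hz : ∀ s, t ≤ s → s ≤ t' → g.eval s ≠ 0) {σ σ' : Bool} (h : buSgn σ (g.eval t))
    (h' : buSgn σ' (g.eval t')) : σ = σ' := by
  have hcont : ContinuousOn (fun s => g.eval s) (Set.Icc t t') := g.continuous.continuousOn
  unfold buSgn at h h'
  cases σ <;> cases σ' <;> simp only [if_true, Bool.false_eq_true, if_false] at h h' ⊢
  · exfalso
    have := intermediate_value_Icc htt hcont (show (0 : ℝ) ∈ Set.Icc (g.eval t) (g.eval t') from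
      ⟨h.le, h'.le⟩)
    obtain ⟨s, hs, hs0⟩ := this
    exact hz s hs.1 hs.2 hs0
  · exfalso
    have := intermediate_value_Icc' htt hcont (show (0 : ℝ) ∈ Set.Icc (g.eval t') (g.eval t) from
      ⟨h'.le, h.le⟩)
    obtain ⟨s, hs, hs0⟩ := this
    exact hz s hs.1 hs.2 hs0

/-- nonzero univariate real polynomials `g j`: the number of strict sign vectors realised on the
line is at most `∑ deg + 1`. -/
theorem bu_sign_classes {J : ℕ} (g : Fin J → Polynomial ℝ) (hg : ∀ j, g j ≠ 0) :
    (univ.filter (fun σ : Fin J → Bool => ∃ t : ℝ, ∀ j, buSgn (σ j) ((g j).eval t))).card ≤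
      ∑ j, (g j).natDegree + 1 := by
  set P : Polynomial ℝ := ∏ j, g j with hP
  have hP0 : P ≠ 0 := prod_ne_zero_iff.2 (fun j _ => hg j)
  set R : Finset ℝ := P.roots.toFinset with hR
  have hRcard : R.card ≤ ∑ j, (g j).natDegree := by
    calc R.card ≤ Multiset.card P.roots := Multiset.toFinset_card_le _
      _ ≤ P.natDegree := Polynomial.card_roots' P
      _ = ∑ j, (g j).natDegree := Polynomial.natDegree_prod _ _ (fun j _ => hg j)
  have hmemR : ∀ s j, (g j).eval s = 0 → s ∈ R := by
    intro s j hs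
    rw [hR, Multiset.mem_toFinset, Polynomial.mem_roots hP0, Polynomial.IsRoot.def, hP,
      Polynomial.eval_prod]
    exact prod_eq_zero (mem_univ j) hs
  let T : (Fin J → Bool) → ℝ := fun σ =>
    if h : ∃ t : ℝ, ∀ j, buSgn (σ j) ((g j).eval t) then Classical.choose h else 0
  have hT : ∀ σ, (∃ t : ℝ, ∀ j, buSgn (σ j) ((g j).eval t)) →
      ∀ j, buSgn (σ j) ((g j).eval (T σ)) := by
    intro σ h
    simp only [T, dif_pos h]
    exact Classical.choose_spec h
  have key : ∀ σ σ' : Fin J → Bool, (∃ t : ℝ, ∀ j, buSgn (σ j) ((g j).eval t)) →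
      (∃ t : ℝ, ∀ j, buSgn (σ' j) ((g j).eval t)) → T σ ≤ T σ' →
      (R.filter (fun s => s < T σ)).card = (R.filter (fun s => s < T σ')).card → σ = σ' := by
    intro σ σ' h h' hle hc
    have hsub : R.filter (fun s => s < T σ) ⊆ R.filter (fun s => s < T σ') := by
      intro s hs
      obtain ⟨h1, h2⟩ := mem_filter.1 hs
      exact mem_filter.2 ⟨h1, lt_of_lt_of_le h2 hle⟩
    have heq := eq_of_subset_of_card_le hsub hc.ge
    funext j
    apply bu_same_sign (g j) hle _ (hT σ h j) (hT σ' h' j)
    intro s hs1 hs2 hs0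
    have hsR := hmemR s j hs0
    have hne : s ≠ T σ' := by
      rintro rfl
      exact buSgn_ne_zero (hT σ' h' j) hs0
    have : s ∈ R.filter (fun s => s < T σ') := mem_filter.2 ⟨hsR, lt_of_le_of_ne hs2 hne⟩
    rw [← heq] at this
    exact absurd (mem_filter.1 this).2 (not_lt.2 hs1)
  calc (univ.filter (fun σ : Fin J → Bool => ∃ t : ℝ, ∀ j, buSgn (σ j) ((g j).eval t))).card
      ≤ (range (R.card + 1)).card := by
        apply card_le_card_of_injOn (fun σ => (R.filter (fun s => s < T σ)).card)
        · intro σ _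
          exact mem_coe.2 (mem_range.2 (Nat.lt_succ_of_le (card_le_card (filter_subset _ _))))
        · intro σ hσ σ' hσ' hc
          have h := (mem_filter.1 (mem_coe.1 hσ)).2
          have h' := (mem_filter.1 (mem_coe.1 hσ')).2
          rcases le_total (T σ) (T σ') with hle | hle
          · exact key σ σ' h h' hle hc
          · exact (key σ' σ h' h hle hc.symm).symm
    _ = R.card + 1 := card_range _
    _ ≤ ∑ j, (g j).natDegree + 1 := by omega

/-- restriction of a multivariate polynomial to a polynomial curve `t ↦ (γ i (t))_i`. -/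
noncomputable def buRestr {n : ℕ} (γ : Fin n → Polynomial ℝ) (f : MvPolynomial (Fin n) ℝ) :
    Polynomial ℝ := MvPolynomial.aeval γ f

theorem bu_restr_eval {n : ℕ} (γ : Fin n → Polynomial ℝ) (f : MvPolynomial (Fin n) ℝ) (t : ℝ) :
    (buRestr γ f).eval t = MvPolynomial.eval (fun i => (γ i).eval t) f := by
  unfold buRestr
  induction f using MvPolynomial.induction_on with
  | C a => simp
  | add p q hp hq => simp [hp, hq]
  | mul_X p i hp => simp [hp]

theorem bu_restr_natDegree {n : ℕ} (γ : Fin n → Polynomial ℝ) (κ : ℕ)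
    (hγ : ∀ i, (γ i).natDegree ≤ κ) (f : MvPolynomial (Fin n) ℝ) :
    (buRestr γ f).natDegree ≤ κ * f.totalDegree := by
  unfold buRestr
  rw [MvPolynomial.aeval_def, MvPolynomial.eval₂_eq']
  apply Polynomial.natDegree_sum_le_of_forall_le
  intro d hd
  have h1 : (∏ i, γ i ^ d i).natDegree ≤ κ * f.totalDegree := by
    calc (∏ i, γ i ^ d i).natDegree ≤ ∑ i, (γ i ^ d i).natDegree := Polynomial.natDegree_prod_le _ _
      _ ≤ ∑ i, κ * d i := by
          apply sum_le_sum
          intro i _
          calc (γ i ^ d i).natDegree ≤ d i * (γ i).natDegree := Polynomial.natDegree_pow_le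
            _ ≤ d i * κ := Nat.mul_le_mul_left _ (hγ i)
            _ = κ * d i := Nat.mul_comm _ _
      _ = κ * ∑ i, d i := by rw [mul_sum]
      _ ≤ κ * f.totalDegree := by
          apply Nat.mul_le_mul_left
          have := MvPolynomial.le_totalDegree hd
          rwa [Finsupp.sum_fintype _ _ (fun _ => rfl)] at this
  calc ((algebraMap ℝ (Polynomial ℝ)) (MvPolynomial.coeff d f) * ∏ i, γ i ^ d i).natDegree
      ≤ ((algebraMap ℝ (Polynomial ℝ)) (MvPolynomial.coeff d f)).natDegree +
        (∏ i, γ i ^ d i).natDegree := Polynomial.natDegree_mul_le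
    _ = (∏ i, γ i ^ d i).natDegree := by
        rw [Polynomial.algebraMap_eq, Polynomial.natDegree_C, zero_add]
    _ ≤ κ * f.totalDegree := h1

theorem bu_restr_ne_zero {n : ℕ} (γ : Fin n → Polynomial ℝ) (f : MvPolynomial (Fin n) ℝ)
    (hne : ∃ t : ℝ, MvPolynomial.eval (fun i => (γ i).eval t) f ≠ 0) : buRestr γ f ≠ 0 := by
  obtain ⟨t, ht⟩ := hne
  intro h
  apply ht
  rw [← bu_restr_eval, h, Polynomial.eval_zero]

/-- **cells met by a polynomial curve of degree `≤ κ`** not contained in any `Z(f j)`. -/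
theorem bu_curve_cells {n J : ℕ} (f : Fin J → MvPolynomial (Fin n) ℝ) (γ : Fin n → Polynomial ℝ)
    (κ : ℕ) (hγ : ∀ i, (γ i).natDegree ≤ κ)
    (hne : ∀ j, ∃ t : ℝ, MvPolynomial.eval (fun i => (γ i).eval t) (f j) ≠ 0) :
    (univ.filter (fun σ : Fin J → Bool => ∃ t : ℝ, ∀ j,
      buSgn (σ j) (MvPolynomial.eval (fun i => (γ i).eval t) (f j)))).card ≤
      κ * ∑ j, (f j).totalDegree + 1 := by
  have h1 := bu_sign_classes (fun j => buRestr γ (f j)) (fun j => bu_restr_ne_zero γ (f j) (hne j))
  simp only [bu_restr_eval] at h1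
  refine h1.trans ?_
  rw [mul_sum]
  exact Nat.add_le_add_right (sum_le_sum (fun j _ => bu_restr_natDegree γ κ hγ (f j))) 1

/-- number of zeros of `f` on such a curve. -/
theorem bu_curve_zeros {n : ℕ} (f : MvPolynomial (Fin n) ℝ) (γ : Fin n → Polynomial ℝ)
    (κ : ℕ) (hγ : ∀ i, (γ i).natDegree ≤ κ)
    (hne : ∃ t : ℝ, MvPolynomial.eval (fun i => (γ i).eval t) f ≠ 0) (T : Finset ℝ)
    (hT : ∀ t ∈ T, MvPolynomial.eval (fun i => (γ i).eval t) f = 0) :
    T.card ≤ κ * f.totalDegree := by
  have h0 := bu_restr_ne_zero γ f hne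
  have hsub : T ⊆ (buRestr γ f).roots.toFinset := by
    intro t ht
    rw [Multiset.mem_toFinset, Polynomial.mem_roots h0, Polynomial.IsRoot.def, bu_restr_eval]
    exact hT t ht
  calc T.card ≤ (buRestr γ f).roots.toFinset.card := card_le_card hsub
    _ ≤ Multiset.card (buRestr γ f).roots := Multiset.toFinset_card_le _
    _ ≤ (buRestr γ f).natDegree := Polynomial.card_roots' _
    _ ≤ κ * f.totalDegree := bu_restr_natDegree γ κ hγ f

end Claimed.Agent.R273
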