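/-
LIB-BU (row273), part 7: polynomial ham sandwich and polynomial partitioning in `ℝ^n` with
sign-pattern cells.
-/
import Claimed.Agent.R273.BuHam
import Claimed.Agent.R273.BuSign

set_option autoImplicit false

namespace Claimed.Agent.R273

open Finset
open scoped Classical

/-- exponent vector of a point of the box `{0..m}^n`. -/
noncomputable def buExp {n m : ℕ} (e : Fin n → Fin (m + 1)) : Fin n →₀ ℕ :=
  Finsupp.equivFunOnFinite.symm (fun i => ((e i : Fin (m + 1)) : ℕ))

theorem buExp_injective {n m : ℕ} : Function.Injective (buExp (n := n) (m := m)) := by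
  intro e e' h
  have h1 := Finsupp.equivFunOnFinite.symm.injective h
  funext i
  exact Fin.ext (congrFun h1 i)

/-- the polynomial with coefficient vector `c` on the monomials of the box `{0..m}^n`. -/
noncomputable def buPolyL (n m : ℕ) :
    ((Fin n → Fin (m + 1)) → ℝ) →ₗ[ℝ] MvPolynomial (Fin n) ℝ :=
  ∑ e : Fin n → Fin (m + 1), (MvPolynomial.monomial (buExp e)) ∘ₗ (LinearMap.proj e)

theorem buPolyL_apply (n m : ℕ) (c : (Fin n → Fin (m + 1)) → ℝ) :
    buPolyL n m c = ∑ e : Fin n → Fin (m + 1), MvPolynomial.monomial (buExp e) (c e) := by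
  unfold buPolyL
  simp [LinearMap.sum_apply]

theorem buPolyL_coeff (n m : ℕ) (c : (Fin n → Fin (m + 1)) → ℝ) (e : Fin n → Fin (m + 1)) :
    MvPolynomial.coeff (buExp e) (buPolyL n m c) = c e := by
  rw [buPolyL_apply, MvPolynomial.coeff_sum, sum_eq_single e]
  · simp
  · intro e' _ hne
    rw [MvPolynomial.coeff_monomial, if_neg (fun h => hne (buExp_injective h))]
  · intro h; exact absurd (mem_univ e) h

theorem buPolyL_ne_zero (n m : ℕ) {c : (Fin n → Fin (m + 1)) → ℝ} (hc : c ≠ 0) :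
    buPolyL n m c ≠ 0 := by
  intro h
  apply hc
  funext e
  rw [← buPolyL_coeff n m c e, h]
  simp

theorem buPolyL_totalDegree (n m : ℕ) (c : (Fin n → Fin (m + 1)) → ℝ) :
    (buPolyL n m c).totalDegree ≤ n * m := by
  rw [buPolyL_apply]
  apply MvPolynomial.totalDegree_finsetSum_le
  intro e _
  refine (MvPolynomial.totalDegree_monomial_le _ _).trans ?_
  unfold buExp
  rw [Finsupp.sum_fintype _ _ (fun _ => rfl)]
  calc ∑ i : Fin n, ((e i : Fin (m + 1)) : ℕ) ≤ ∑ _i : Fin n, m :=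
        sum_le_sum (fun i _ => Nat.lt_succ_iff.1 (e i).2)
    _ = n * m := by simp

/-- **Polynomial ham sandwich**: `q < (m+1)^n` finite sets in `ℝ^n` are bisected by a nonzero
polynomial of total degree `≤ n*m`. -/
theorem bu_poly_ham (n m q : ℕ) (hq : q < (m + 1) ^ n) (S : Fin q → Finset (Fin n → ℝ)) :
    ∃ f : MvPolynomial (Fin n) ℝ, f ≠ 0 ∧ f.totalDegree ≤ n * m ∧
      ∀ i, 2 * ((S i).filter (fun x => 0 < MvPolynomial.eval x f)).card ≤ (S i).card ∧
        2 * ((S i).filter (fun x => MvPolynomial.eval x f < 0)).card ≤ (S i).card := by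
  have hfr : q < Module.finrank ℝ ((Fin n → Fin (m + 1)) → ℝ) := by
    rw [Module.finrank_fintype_fun_eq_card]
    simpa using hq
  obtain ⟨c, hc, h⟩ := bu_ham_sandwich
    (fun x : Fin n → ℝ => (MvPolynomial.aeval x :
      MvPolynomial (Fin n) ℝ →ₐ[ℝ] ℝ).toLinearMap ∘ₗ buPolyL n m) q hfr S
  refine ⟨buPolyL n m c, buPolyL_ne_zero n m hc, buPolyL_totalDegree n m c, ?_⟩
  intro i
  have e : ∀ x : Fin n → ℝ, ((MvPolynomial.aeval x :
      MvPolynomial (Fin n) ℝ →ₐ[ℝ] ℝ).toLinearMap ∘ₗ buPolyL n m) c =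
        MvPolynomial.eval x (buPolyL n m c) := by
    intro x; simp [MvPolynomial.aeval_eq_eval]
  have h1 := h i
  have e1 : (S i).filter (fun x => 0 < MvPolynomial.eval x (buPolyL n m c)) =
      (S i).filter (fun x => 0 < ((MvPolynomial.aeval x :
      MvPolynomial (Fin n) ℝ →ₐ[ℝ] ℝ).toLinearMap ∘ₗ buPolyL n m) c) := by
    apply filter_congr; intro x _; rw [e x]
  have e2 : (S i).filter (fun x => MvPolynomial.eval x (buPolyL n m c) < 0) =
      (S i).filter (fun x => ((MvPolynomial.aeval x :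
      MvPolynomial (Fin n) ℝ →ₐ[ℝ] ℝ).toLinearMap ∘ₗ buPolyL n m) c < 0) := by
    apply filter_congr; intro x _; rw [e x]
  rw [e1, e2]
  exact h1

/-- the points of `S` in the sign class `σ` of the polynomials `f j`. -/
noncomputable def buCell {n J : ℕ} (f : Fin J → MvPolynomial (Fin n) ℝ) (S : Finset (Fin n → ℝ))
    (σ : Fin J → Bool) : Finset (Fin n → ℝ) :=
  S.filter (fun x => ∀ j, buSgn (σ j) (MvPolynomial.eval x (f j)))

/-- the state after `J` rounds of bisection with total degree `≤ D`. -/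
def BuRounds {n : ℕ} (S : Finset (Fin n → ℝ)) (J D : ℕ) : Prop :=
  ∃ f : Fin J → MvPolynomial (Fin n) ℝ, (∀ j, f j ≠ 0) ∧
    ∑ j, (f j).totalDegree ≤ D ∧
    ∀ σ : Fin J → Bool, (buCell f S σ).card * 2 ^ J ≤ S.card

theorem bu_rounds_mono {n : ℕ} {S : Finset (Fin n → ℝ)} {J D D' : ℕ} (h : BuRounds S J D)
    (hD : D ≤ D') : BuRounds S J D' := by
  obtain ⟨f, h1, h2, h3⟩ := h
  exact ⟨f, h1, h2.trans hD, h3⟩

theorem bu_rounds_zero {n : ℕ} (S : Finset (Fin n → ℝ)) : BuRounds S 0 0 := by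
  refine ⟨fun j => j.elim0, fun j => j.elim0, by simp, ?_⟩
  intro σ
  simp only [pow_zero, mul_one]
  exact card_le_card (filter_subset _ _)

theorem bu_rounds_step {n : ℕ} {S : Finset (Fin n → ℝ)} {J D : ℕ} (h : BuRounds S J D) (m : ℕ)
    (hm : 2 ^ J < (m + 1) ^ n) : BuRounds S (J + 1) (D + n * m) := by
  obtain ⟨f, h1, h2, h3⟩ := h
  have hcard : Fintype.card (Fin J → Bool) = 2 ^ J := by simp
  let e : (Fin J → Bool) ≃ Fin (2 ^ J) := Fintype.equivFinOfCardEq hcard
  obtain ⟨g, hg0, hgd, hg⟩ := bu_poly_ham n m (2 ^ J) hm (fun i => buCell f S (e.symm i))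
  refine ⟨Fin.snoc f g, ?_, ?_, ?_⟩
  · intro j
    refine Fin.lastCases ?_ (fun j' => ?_) j
    · simpa using hg0
    · simpa using h1 j'
  · rw [Fin.sum_univ_castSucc]
    simp only [Fin.snoc_castSucc, Fin.snoc_last]
    omega
  · intro σ
    set σ0 : Fin J → Bool := fun j => σ j.castSucc with hσ0
    have hcell : buCell (Fin.snoc f g : Fin (J + 1) → MvPolynomial (Fin n) ℝ) S σ =
        (buCell f S σ0).filter (fun x => buSgn (σ (Fin.last J)) (MvPolynomial.eval x g)) := by
      unfold buCell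
      rw [filter_filter]
      apply filter_congr
      intro x _
      constructor
      · intro h
        refine ⟨fun j => ?_, ?_⟩
        · have := h j.castSucc
          simpa using this
        · have := h (Fin.last J)
          simpa using this
      · rintro ⟨h4, h5⟩ j
        refine Fin.lastCases ?_ (fun j' => ?_) j
        · simpa using h5
        · simpa using h4 j'
    have hb := hg (e σ0)
    simp only [Equiv.symm_apply_apply] at hb
    have h2c : 2 * (buCell (Fin.snoc f g : Fin (J + 1) → MvPolynomial (Fin n) ℝ) S σ).card ≤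
        (buCell f S σ0).card := by
      rw [hcell]
      cases hσ : σ (Fin.last J)
      · have : (buCell f S σ0).filter (fun x => buSgn false (MvPolynomial.eval x g)) =
            (buCell f S σ0).filter (fun x => MvPolynomial.eval x g < 0) := by
          apply filter_congr; intro x _; simp [buSgn]
        rw [this]; exact hb.2
      · have : (buCell f S σ0).filter (fun x => buSgn true (MvPolynomial.eval x g)) =
            (buCell f S σ0).filter (fun x => 0 < MvPolynomial.eval x g) := by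
          apply filter_congr; intro x _; simp [buSgn]
        rw [this]; exact hb.1
    have h3' := h3 σ0
    calc (buCell (Fin.snoc f g : Fin (J + 1) → MvPolynomial (Fin n) ℝ) S σ).card * 2 ^ (J + 1)
        = (2 * (buCell (Fin.snoc f g : Fin (J + 1) → MvPolynomial (Fin n) ℝ) S σ).card) * 2 ^ J := by
          rw [pow_succ]; ring
      _ ≤ (buCell f S σ0).card * 2 ^ J := Nat.mul_le_mul_right _ h2c
      _ ≤ S.card := h3'

theorem bu_rounds_block {n : ℕ} {S : Finset (Fin n → ℝ)} {t D : ℕ} (h : BuRounds S (n * t) D) :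
    ∀ s, s ≤ n → BuRounds S (n * t + s) (D + s * (n * (2 ^ (t + 1) - 1))) := by
  intro s
  induction s with
  | zero => intro _; simpa using h
  | succ s ih =>
    intro hs
    have h1 := ih (by omega)
    have hpos : 1 ≤ 2 ^ (t + 1) := Nat.one_le_two_pow
    have hm : 2 ^ (n * t + s) < (2 ^ (t + 1) - 1 + 1) ^ n := by
      rw [Nat.sub_add_cancel hpos, ← pow_mul]
      apply Nat.pow_lt_pow_right (by norm_num)
      have : (t + 1) * n = n * t + n := by ring
      omega
    have h2 := bu_rounds_step h1 (2 ^ (t + 1) - 1) hm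
    have e : D + s * (n * (2 ^ (t + 1) - 1)) + n * (2 ^ (t + 1) - 1) =
        D + (s + 1) * (n * (2 ^ (t + 1) - 1)) := by ring
    rw [e] at h2
    exact h2

theorem bu_rounds_all {n : ℕ} (S : Finset (Fin n → ℝ)) (t : ℕ) :
    BuRounds S (n * t) (2 * n ^ 2 * 2 ^ t) := by
  induction t with
  | zero => exact bu_rounds_mono (by simpa using bu_rounds_zero S) (Nat.zero_le _)
  | succ t ih =>
    have h1 := bu_rounds_block ih n le_rfl
    have e : n * t + n = n * (t + 1) := by ring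
    rw [e] at h1
    apply bu_rounds_mono h1
    have h2 : n * (n * (2 ^ (t + 1) - 1)) ≤ n * (n * 2 ^ (t + 1)) :=
      Nat.mul_le_mul_left _ (Nat.mul_le_mul_left _ (Nat.sub_le _ _))
    calc 2 * n ^ 2 * 2 ^ t + n * (n * (2 ^ (t + 1) - 1))
        ≤ 2 * n ^ 2 * 2 ^ t + n * (n * 2 ^ (t + 1)) := Nat.add_le_add_left h2 _
      _ = 2 * n ^ 2 * 2 ^ (t + 1) := by ring

/-- **Polynomial partitioning**, `n*t` rounds of bisection: total degree `≤ 2 n^2 2^t`,
`2^(n t)` sign classes, each with at most `|S| / 2^(n t)` points of `S`. -/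
theorem bu_partition (n : ℕ) (S : Finset (Fin n → ℝ)) (t : ℕ) :
    ∃ f : Fin (n * t) → MvPolynomial (Fin n) ℝ, (∀ j, f j ≠ 0) ∧
      ∑ j, (f j).totalDegree ≤ 2 * n ^ 2 * 2 ^ t ∧
      ∀ σ : Fin (n * t) → Bool, (buCell f S σ).card * 2 ^ (n * t) ≤ S.card :=
  bu_rounds_all S t

/-- **Polynomial partitioning**, user form with a real parameter `r ≥ 1`:
there are `J` and nonzero `f j` with `∑ deg ≤ 2 n^2 r`, `2^J ≤ r^n` cells, and every cell has at
most `2^n |S| / r^n` points. -/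
theorem bu_partition_real (n : ℕ) (S : Finset (Fin n → ℝ)) (r : ℝ) (hr : 1 ≤ r) :
    ∃ (J : ℕ) (f : Fin J → MvPolynomial (Fin n) ℝ), (∀ j, f j ≠ 0) ∧
      ((∑ j, (f j).totalDegree : ℕ) : ℝ) ≤ 2 * (n : ℝ) ^ 2 * r ∧ ((2 : ℝ) ^ J ≤ r ^ n) ∧
      ∀ σ : Fin J → Bool, ((buCell f S σ).card : ℝ) ≤ 2 ^ n * S.card / r ^ n := by
  set t := Nat.log 2 ⌊r⌋₊ with ht
  have hfl : 1 ≤ ⌊r⌋₊ := Nat.le_floor (by simpa using hr)
  have h1 : 2 ^ t ≤ ⌊r⌋₊ := Nat.pow_log_le_self 2 (by omega)
  have h2 : ⌊r⌋₊ < 2 ^ (t + 1) := Nat.lt_pow_succ_log_self (by norm_num) _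
  have hr0 : (0 : ℝ) ≤ r := by linarith
  have h1' : (2 : ℝ) ^ t ≤ r := by
    have : ((2 ^ t : ℕ) : ℝ) ≤ (⌊r⌋₊ : ℝ) := by exact_mod_cast h1
    have h3 := Nat.floor_le hr0
    push_cast at this
    linarith
  have h2' : r ≤ (2 : ℝ) ^ (t + 1) := by
    have : ((⌊r⌋₊ + 1 : ℕ) : ℝ) ≤ ((2 ^ (t + 1) : ℕ) : ℝ) := by exact_mod_cast h2
    have h3 := Nat.lt_floor_add_one r
    push_cast at this
    linarith
  obtain ⟨f, g1, g2, g3⟩ := bu_partition n S t
  refine ⟨n * t, f, g1, ?_, ?_, ?_⟩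
  · have : ((∑ j, (f j).totalDegree : ℕ) : ℝ) ≤ ((2 * n ^ 2 * 2 ^ t : ℕ) : ℝ) := by exact_mod_cast g2
    push_cast at this ⊢
    calc (∑ j, ((f j).totalDegree : ℝ)) ≤ 2 * (n : ℝ) ^ 2 * 2 ^ t := this
      _ ≤ 2 * (n : ℝ) ^ 2 * r := by
        apply mul_le_mul_of_nonneg_left h1' (by positivity)
  · rw [mul_comm n t, pow_mul]
    exact pow_le_pow_left₀ (by positivity) h1' n
  · intro σ
    have hrn : 0 < r ^ n := by positivity
    rw [le_div_iff₀ hrn]
    have h4 : ((buCell f S σ).card : ℝ) * 2 ^ (n * t) ≤ S.card := by exact_mod_cast g3 σ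
    have h5 : r ^ n ≤ 2 ^ n * 2 ^ (n * t) := by
      calc r ^ n ≤ ((2 : ℝ) ^ (t + 1)) ^ n := pow_le_pow_left₀ hr0 h2' n
        _ = 2 ^ n * 2 ^ (n * t) := by
          rw [← pow_mul, ← pow_add]; congr 1; ring
    calc ((buCell f S σ).card : ℝ) * r ^ n ≤ (buCell f S σ).card * (2 ^ n * 2 ^ (n * t)) :=
          mul_le_mul_of_nonneg_left h5 (by positivity)
      _ = 2 ^ n * ((buCell f S σ).card * 2 ^ (n * t)) := by ring
      _ ≤ 2 ^ n * S.card := mul_le_mul_of_nonneg_left h4 (by positivity)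

end Claimed.Agent.R273
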