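import Claimed.Agent.R273.AsmRk

/-!
# Row 273, package T2, leaf ASM-sel: independent evaluations in every star (paper Prop. red:independent-stars, second half)

Blueprint: helper161.  The claimer fills the sorries IN PLACE (statements are final; msg helper161 if one is false or awkward).  No paper reading.  `AsmRk` is a black box.

`asm_select_abs` (pure combinatorics).  Among the `S ⊆ G` which are symmetric and satisfy `∀ p, r p (star S p) = (star S p).card` (`∅` is one: `hemp`) take one of maximal cardinality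
(`Finset.exists_max_image` on a filter of `G.powerset`).  Let `(p,q) ∈ G \ S`; then `(q,p) ∈ G \ S`, `p ≠ q`, and `S' := insert (p,q) (insert (q,p) S)` is symmetric, `⊆ G`, larger; its stars are
`insert q (star S p)` at `p`, `insert p (star S q)` at `q`, unchanged elsewhere.  By maximality the rank condition fails at `p` or at `q`; by `hins` this means
`r p (insert q (star S p)) = r p (star S p)` ["blocked at p"] or the same at `q`.  `B p := (star G p).filter (blocked at p)`.  By `hcl`, `r p (star S p ∪ B p) = (star S p).card`, so by `hrk`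
`c1 * (B p).card ≤ (star S p).card`.  `G \ S` injects into `Σ_p B p ⊕ Σ_q B q`, and `∑_{p ∈ P} (star S p).card = S.card`.

`asm_select`: `r p S := hP (cdir p '' ↑S) D`; `Finset.coe_insert`, `Set.image_insert_eq`, `Finset.coe_union`, `Set.image_union`; `haveI := asm_rk_finP (Fin d) D`; separators: `asm_rk_sep` for the Finset
`(star S p).image (cdir p)` (`classical`; `cdir p` is injective: `Complex.ofReal_injective`, `sub_left_inj`, `PiLp.ext`/`WithLp` ext), `f ∈ homogeneousSubmodule` is `IsHomogeneous` (`mem_homogeneousSubmodule`);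
`q ∈ star S p ↔ (p, q) ∈ S`.
-/

set_option autoImplicit false

namespace Claimed.Agent.R273

open Claims.C0444 MvPolynomial

theorem asm_mem_star {α : Type*} [DecidableEq α] (G : Finset (α × α)) (p q : α) :
    q ∈ star G p ↔ (p, q) ∈ G := by
  unfold star
  simp only [Finset.mem_image, Finset.mem_filter]
  constructor
  · rintro ⟨⟨a, b⟩, ⟨h1, h2⟩, h3⟩
    simp only at h2 h3
    rw [← h2, ← h3]; exact h1
  · intro h
    exact ⟨(p, q), ⟨h, rfl⟩, rfl⟩

theorem asm_sum_star {α : Type*} [DecidableEq α] {P : Finset α} {G : Finset (α × α)} (hG : G ⊆ P ×ˢ P) :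
    ∑ p ∈ P, (star G p).card = G.card := by
  rw [Finset.card_eq_sum_card_fiberwise (f := Prod.fst) (t := P)
    (fun e he => (Finset.mem_product.1 (hG he)).1)]
  refine Finset.sum_congr rfl fun p _ => ?_
  unfold star
  refine Finset.card_image_of_injOn ?_
  intro e he e' he' h
  have h1 := (Finset.mem_filter.1 (Finset.mem_coe.1 he)).2
  have h2 := (Finset.mem_filter.1 (Finset.mem_coe.1 he')).2
  exact Prod.ext (h1.trans h2.symm) h

theorem asm_sel_star_insert {α : Type*} [DecidableEq α] (S : Finset (α × α)) {p q : α} (hpq : p ≠ q)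
    (z : α) : star (insert (p, q) (insert (q, p) S)) z
      = if z = p then insert q (star S p) else if z = q then insert p (star S q) else star S z := by
  ext y
  split_ifs with h1 h2
  · subst h1
    simp only [asm_mem_star, Finset.mem_insert, Prod.mk.injEq]
    constructor
    · rintro (⟨-, h⟩ | ⟨h, -⟩ | h)
      · exact Or.inl h
      · exact absurd h hpq
      · exact Or.inr h
    · rintro (h | h)
      · exact Or.inl ⟨trivial, h⟩
      · exact Or.inr (Or.inr h)
  · subst h2
    simp only [asm_mem_star, Finset.mem_insert, Prod.mk.injEq]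
    constructor
    · rintro (⟨h, -⟩ | ⟨-, h⟩ | h)
      · exact absurd h h1
      · exact Or.inl h
      · exact Or.inr h
    · rintro (h | h)
      · exact Or.inr (Or.inl ⟨trivial, h⟩)
      · exact Or.inr (Or.inr h)
  · simp only [asm_mem_star, Finset.mem_insert, Prod.mk.injEq]
    constructor
    · rintro (⟨h, -⟩ | ⟨h, -⟩ | h)
      · exact absurd h h1
      · exact absurd h h2
      · exact h
    · intro h
      exact Or.inr (Or.inr h)

theorem asm_select_abs {α : Type*} [DecidableEq α] (P : Finset α) (G : Finset (α × α))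
    (hG : IsGraphOn P G) (r : α → Finset α → ℕ)
    (hemp : ∀ p, r p ∅ = 0)
    (hins : ∀ p q S, r p S ≤ r p (insert q S) ∧ r p (insert q S) ≤ r p S + 1)
    (hcl : ∀ p S B, (∀ b ∈ B, r p (insert b S) = r p S) → r p (S ∪ B) = r p S)
    (c1 : ℝ) (hc1 : 0 < c1) (hrk : ∀ p ∈ P, ∀ S ⊆ star G p, c1 * (S.card : ℝ) ≤ (r p S : ℝ)) :
    ∃ S ⊆ G, IsGraphOn P S ∧ (∀ p, r p (star S p) = (star S p).card) ∧
      (G.card : ℝ) ≤ (1 + 2 / c1) * (S.card : ℝ) := by
  classical
  obtain ⟨Fam, hFam⟩ : ∃ Fam : Finset (Finset (α × α)), Fam = G.powerset.filter fun S =>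
      (∀ e ∈ S, e.swap ∈ S) ∧ ∀ p, r p (star S p) = (star S p).card := ⟨_, rfl⟩
  have hmemF : ∀ S, S ∈ Fam ↔ S ⊆ G ∧ (∀ e ∈ S, e.swap ∈ S) ∧
      ∀ p, r p (star S p) = (star S p).card := by
    intro S
    rw [hFam, Finset.mem_filter, Finset.mem_powerset]
  have h0 : (∅ : Finset (α × α)) ∈ Fam := by
    rw [hmemF]
    refine ⟨Finset.empty_subset _, fun e he => absurd he (Finset.notMem_empty e), fun p => ?_⟩
    have : star (∅ : Finset (α × α)) p = ∅ := by
      ext y; simp [asm_mem_star]
    rw [this, hemp, Finset.card_empty]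
  obtain ⟨S, hSF, hmax⟩ := Finset.exists_max_image Fam Finset.card ⟨∅, h0⟩
  obtain ⟨hSG, hSsymm, hSr⟩ := (hmemF S).1 hSF
  have hgr : IsGraphOn P S :=
    ⟨hSG.trans hG.sub, fun x hx => hG.irrefl x (hSG hx), hSsymm⟩
  refine ⟨S, hSG, hgr, hSr, ?_⟩
  -- blocked pairs
  obtain ⟨B, hB⟩ : ∃ B : α → Finset α, B = fun p =>
      (star G p).filter fun q => r p (insert q (star S p)) = r p (star S p) := ⟨_, rfl⟩
  have hblock : ∀ p q, (p, q) ∈ G → (p, q) ∉ S → q ∈ B p ∨ p ∈ B q := by
    intro p q hpqG hpqS
    by_contra hcon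
    push Not at hcon
    obtain ⟨hn1, hn2⟩ := hcon
    have hpq : p ≠ q := hG.irrefl _ hpqG
    have hqpG : (q, p) ∈ G := hG.symm _ hpqG
    have hqpS : (q, p) ∉ S := fun h => hpqS (hSsymm _ h)
    have h1 : r p (insert q (star S p)) = r p (star S p) + 1 := by
      have h2 := hins p q (star S p)
      have h3 : r p (insert q (star S p)) ≠ r p (star S p) := by
        intro h4
        apply hn1
        rw [hB]
        exact Finset.mem_filter.2 ⟨(asm_mem_star G p q).2 hpqG, h4⟩
      omega
    have h1' : r q (insert p (star S q)) = r q (star S q) + 1 := by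
      have h2 := hins q p (star S q)
      have h3 : r q (insert p (star S q)) ≠ r q (star S q) := by
        intro h4
        apply hn2
        rw [hB]
        exact Finset.mem_filter.2 ⟨(asm_mem_star G q p).2 hqpG, h4⟩
      omega
    have hS' : insert (p, q) (insert (q, p) S) ∈ Fam := by
      rw [hmemF]
      refine ⟨?_, ?_, ?_⟩
      · intro e he
        rcases Finset.mem_insert.1 he with rfl | he
        · exact hpqG
        · rcases Finset.mem_insert.1 he with rfl | he
          · exact hqpG
          · exact hSG he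
      · intro e he
        rcases Finset.mem_insert.1 he with rfl | he
        · exact Finset.mem_insert_of_mem (Finset.mem_insert_self _ _)
        · rcases Finset.mem_insert.1 he with rfl | he
          · exact Finset.mem_insert_self _ _
          · exact Finset.mem_insert_of_mem (Finset.mem_insert_of_mem (hSsymm _ he))
      · intro z
        rw [asm_sel_star_insert S hpq z]
        split_ifs with hz1 hz2
        · subst hz1
          rw [h1, hSr, Finset.card_insert_of_notMem (fun h => hpqS ((asm_mem_star S z q).1 h))]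
        · subst hz2
          rw [h1', hSr, Finset.card_insert_of_notMem (fun h => hqpS ((asm_mem_star S z p).1 h))]
        · exact hSr z
    have h5 := hmax _ hS'
    have hne : (p, q) ∉ insert (q, p) S := by
      intro h
      rcases Finset.mem_insert.1 h with h | h
      · exact hpq (Prod.mk.inj h).1
      · exact hpqS h
    rw [Finset.card_insert_of_notMem hne, Finset.card_insert_of_notMem hqpS] at h5
    omega
  have hBle : ∀ p ∈ P, c1 * ((B p).card : ℝ) ≤ ((star S p).card : ℝ) := by
    intro p hp
    have h1 : r p (star S p ∪ B p) = r p (star S p) := by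
      apply hcl
      intro b hb
      rw [hB] at hb
      exact (Finset.mem_filter.1 hb).2
    have hsub : star S p ∪ B p ⊆ star G p := by
      apply Finset.union_subset
      · intro y hy
        exact (asm_mem_star G p y).2 (hSG ((asm_mem_star S p y).1 hy))
      · rw [hB]; exact Finset.filter_subset _ _
    have h2 := hrk p hp _ hsub
    rw [h1, hSr] at h2
    have h3 : ((B p).card : ℝ) ≤ ((star S p ∪ B p).card : ℝ) := by
      exact_mod_cast Finset.card_le_card Finset.subset_union_right
    nlinarith
  have hcover : G \ S ⊆ (P.biUnion fun p => (B p).image fun q => (p, q))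
      ∪ (P.biUnion fun q => (B q).image fun p => (p, q)) := by
    rintro ⟨p, q⟩ he
    obtain ⟨h1, h2⟩ := Finset.mem_sdiff.1 he
    have hP2 := Finset.mem_product.1 (hG.sub h1)
    rcases hblock p q h1 h2 with h | h
    · exact Finset.mem_union_left _ (Finset.mem_biUnion.2 ⟨p, hP2.1, Finset.mem_image.2 ⟨q, h, rfl⟩⟩)
    · exact Finset.mem_union_right _ (Finset.mem_biUnion.2 ⟨q, hP2.2, Finset.mem_image.2 ⟨p, h, rfl⟩⟩)
  have hcA : (G \ S).card ≤ ∑ p ∈ P, (B p).card + ∑ p ∈ P, (B p).card := by
    refine (Finset.card_le_card hcover).trans ((Finset.card_union_le _ _).trans ?_)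
    refine add_le_add ?_ ?_
    · exact Finset.card_biUnion_le.trans (Finset.sum_le_sum fun p _ => Finset.card_image_le)
    · exact Finset.card_biUnion_le.trans (Finset.sum_le_sum fun p _ => Finset.card_image_le)
  have hc2 : G.card = S.card + (G \ S).card := by
    rw [Finset.card_sdiff_of_subset hSG]
    have := Finset.card_le_card hSG
    omega
  have hc3 : c1 * (∑ p ∈ P, ((B p).card : ℝ)) ≤ (S.card : ℝ) := by
    rw [Finset.mul_sum]
    have : (S.card : ℝ) = ∑ p ∈ P, ((star S p).card : ℝ) := by
      rw [← asm_sum_star hgr.sub]; push_cast; rfl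
    rw [this]
    exact Finset.sum_le_sum hBle
  have hc4 : ((G \ S).card : ℝ) ≤ 2 * ∑ p ∈ P, ((B p).card : ℝ) := by
    have : ((G \ S).card : ℝ) ≤ ∑ p ∈ P, ((B p).card : ℝ) + ∑ p ∈ P, ((B p).card : ℝ) := by
      exact_mod_cast hcA
    linarith
  have hc5 : ∑ p ∈ P, ((B p).card : ℝ) ≤ (S.card : ℝ) / c1 := by
    rw [le_div_iff₀ hc1, mul_comm]; exact hc3
  have hc6 : (G.card : ℝ) = (S.card : ℝ) + ((G \ S).card : ℝ) := by exact_mod_cast hc2
  rw [hc6]
  have : (1 + 2 / c1) * (S.card : ℝ) = (S.card : ℝ) + 2 * ((S.card : ℝ) / c1) := by ring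
  rw [this]
  linarith

theorem asm_cdir_inj {d : ℕ} (p : Pt d) : Function.Injective (cdir p) := by
  intro q q' h
  ext i
  have h1 := congrFun h i
  unfold cdir at h1
  have h2 := Complex.ofReal_injective h1
  linarith

/-- **Independent evaluations in every star**, in the form of separators. -/
theorem asm_select {d : ℕ} (P : Finset (Pt d)) (G : Finset (Pt d × Pt d)) (hG : IsGraphOn P G) (D : ℕ)
    (c1 : ℝ) (hc1 : 0 < c1)
    (hrk : ∀ p ∈ P, ∀ S ⊆ star G p, c1 * (S.card : ℝ) ≤ (hP (cdir p '' (S : Set (Pt d))) D : ℝ)) :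
    ∃ S ⊆ G, IsGraphOn P S ∧ StarSep D S ∧ (G.card : ℝ) ≤ (1 + 2 / c1) * (S.card : ℝ) := by
  classical
  have hfin := asm_rk_finP (Fin d) D
  obtain ⟨S, hSG, hgr, hr, hcard⟩ := asm_select_abs P G hG
    (fun p S => hP (cdir p '' (S : Set (Pt d))) D)
    (fun p => by
      show hP (cdir p '' ((∅ : Finset (Pt d)) : Set (Pt d))) D = 0
      rw [Finset.coe_empty, Set.image_empty]
      exact asm_rk_empty _)
    (fun p q S => by
      show hP (cdir p '' (S : Set (Pt d))) D ≤ hP (cdir p '' ((insert q S : Finset (Pt d)) : Set (Pt d))) D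
        ∧ hP (cdir p '' ((insert q S : Finset (Pt d)) : Set (Pt d))) D
          ≤ hP (cdir p '' (S : Set (Pt d))) D + 1
      rw [Finset.coe_insert, Set.image_insert_eq]
      exact ⟨asm_rk_mono _ (Set.subset_insert _ _), asm_rk_insert _ _ _⟩)
    (fun p S B hB => by
      show hP (cdir p '' ((S ∪ B : Finset (Pt d)) : Set (Pt d))) D = hP (cdir p '' (S : Set (Pt d))) D
      rw [Finset.coe_union, Set.image_union]
      refine asm_rk_closure _ ?_
      rintro _ ⟨b, hb, rfl⟩
      have := hB b (Finset.mem_coe.1 hb)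
      simp only [Finset.coe_insert, Set.image_insert_eq] at this
      exact this)
    c1 hc1 hrk
  refine ⟨S, hSG, hgr, ?_, hcard⟩
  intro p q hpq
  have h1 : rkOn (homogeneousSubmodule (Fin d) ℂ D)
      (((star S p).image (cdir p) : Finset (Fin d → ℂ)) : Set (Fin d → ℂ))
      = ((star S p).image (cdir p)).card := by
    rw [Finset.coe_image, Finset.card_image_of_injective _ (asm_cdir_inj p)]
    exact hr p
  obtain ⟨f, hf, hf1, hf2⟩ := asm_rk_sep _ _ h1 (cdir p q)
    (Finset.mem_image.2 ⟨q, (asm_mem_star S p q).2 hpq, rfl⟩)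
  refine ⟨f, (mem_homogeneousSubmodule D f).1 hf, hf1, fun q' hq' hne => ?_⟩
  exact hf2 _ (Finset.mem_image.2 ⟨q', (asm_mem_star S p q').2 hq', rfl⟩)
    (fun h => hne (asm_cdir_inj p h))

end Claimed.Agent.R273
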