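import Claimed.Agent.R273.AsmGraph
import Claimed.Agent.R273.AsmSel

/-!
# Row 273, package T2: the isotropic cap of the local model (paper: deletion of the rich match edges for `d = 3`; proof of Lemma red:local-concentration, isotropic part)

Blueprint: helper161.  THREE LEAVES; the claimer of a leaf fills the sorries of ITS SECTION in place (statements are final; msg helper161 if one is false or awkward).  No paper reading.

Section `gram` (leaf ASM-gram).  `asm_gram_isometry`: `U := span (range u)`.  For finitely supported `c`: `‖∑ c_i u_i‖² = ∑ c_i c_j ⟪u_i,u_j⟫ = ‖∑ c_i w_i‖²`; so `∑ c_i u_i = 0 → ∑ c_i w_i = 0` and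
`∑ c_i u_i ↦ ∑ c_i w_i` is a well defined linear isometry `U →ₗᵢ E` (e.g. `Finsupp.linearCombination`, `LinearMap.range`/`ker` and `Submodule.liftQ`, or choose a basis of `U` among the `u_i`:
`exists_linearIndependent`); `LinearIsometry.extend`; a linear isometry of a finite dimensional space into itself is an equivalence (`LinearIsometry.toLinearIsometryEquiv` with `rfl` finrank).
`asm_gram_motion`: `g z := L (z - x.1) + x.2`: compose `AffineIsometryEquiv.vaddConst`/`constVSub`-type equivalences or build the structure by hand from `L.toAffineIsometryEquiv`.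
Section `line` (leaf ASM-line).  `asm_collinear_cap`: if `T` is empty: trivial.  Fix `p₀ ∈ T`, direction `v` (`collinear_iff_of_mem`): every `z ∈ T` is `r_z • v + p₀`.  The map `z ↦ dist p₀ z` sends `T \ {p₀}` into `distinctDistances P`
and each value has at most two preimages (`|r| ‖v‖ = ρ > 0` has two solutions `r`): `Finset.card_le_mul_card_image`.  So `T.card ≤ 1 + 2 (M - 1) ≤ 2 M`.
Section `cap` (leaf ASM-cap).  `asm_cap_card`: on a `GramSet` the map `a ↦ a.1` is injective (`‖w_a - w_b‖² = ‖u_a - u_b‖²` by expanding with `GramSet`), with values in `P`.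
`asm_cap_three`: `(Cr, Kr)` from `RichStmt`, `Cc := Cr`, `Kd := Kr`, `N := P.card`, `X = Y = P`; `dA P = N^(2/3)` (`Nat.cast_ofNat`).  `rich g := Cr N^(2/3) ≤ matchCount P P g`.
`E := (eqG S).filter fun e => ¬ ∃ g, rich g ∧ g e.1.1 = e.1.2 ∧ g e.2.1 = e.2.2` (`classical`).  Deleted edges: choose `g_e`; `𝒢 := image`; the deleted edges with `g_e = g` inject into `X_g ×ˢ X_g`, `X_g := P.filter (g · ∈ P)`, by
`e ↦ (e.1.1, e.2.1)`; so their number is at most `∑_{g ∈ 𝒢} (matchCount P P g)²` (`Finset.card_eq_sum_card_fiberwise`).  Line caps: `asm_collinear_cap` and `M ≤ A`.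
`CapProp`: if `Cr A < T.card`, `asm_gram_motion` gives `g` with at least `T.card` matches (`a ↦ a.1` is injective on `T` since `a.2 = g a.1`; `a.1, a.2 ∈ P` by `asm_eqG_sub`), so `g` is rich and no edge `(x, a)`, `a ∈ T`, is in `E`.
`asm_cap`: `d = 3`: `subst`, `asm_cap_three`, `pow_one`; `d ≥ 4`: `E := eqG S`, `Cc = Kd = 1`, `asm_cap_card`, `N ≤ A^(d-2)` (hypothesis-free numerics: `A^(d-2) = N^(2(d-2)/d)`, `2(d-2)/d ≥ 1`; `Real.rpow_natCast`, `Real.rpow_mul`, `Real.rpow_le_rpow_of_exponent_le`).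
-/

set_option autoImplicit false

namespace Claimed.Agent.R273

open Claims.C0444

section gram

theorem asm_gram_isometry {n : ℕ} {ι : Type*} (u w : ι → Pt n)
    (h : ∀ i j, inner ℝ (u i) (u j) = inner ℝ (w i) (w j)) :
    ∃ L : Pt n ≃ₗᵢ[ℝ] Pt n, ∀ i, L (u i) = w i := by
  classical
  obtain ⟨φ, hφ⟩ : ∃ φ : (ι →₀ ℝ) →ₗ[ℝ] Pt n, φ = Finsupp.linearCombination ℝ u := ⟨_, rfl⟩
  obtain ⟨ψ, hψ⟩ : ∃ ψ : (ι →₀ ℝ) →ₗ[ℝ] Pt n, ψ = Finsupp.linearCombination ℝ w := ⟨_, rfl⟩
  have hnorm : ∀ c, ‖φ c‖ = ‖ψ c‖ := by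
    intro c
    have h1 : inner ℝ (φ c) (φ c) = inner ℝ (ψ c) (ψ c) := by
      rw [hφ, hψ]
      simp only [Finsupp.linearCombination_apply, Finsupp.sum_inner, Finsupp.inner_sum,
        inner_smul_left, inner_smul_right, h]
    rw [real_inner_self_eq_norm_sq, real_inner_self_eq_norm_sq] at h1
    exact (sq_eq_sq₀ (norm_nonneg _) (norm_nonneg _)).1 h1
  obtain ⟨σ, hσ⟩ := φ.rangeRestrict.exists_rightInverse_of_surjective φ.range_rangeRestrict
  have hσ' : ∀ y : LinearMap.range φ, φ (σ y) = y := by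
    intro y
    have := congrArg (fun f : LinearMap.range φ →ₗ[ℝ] LinearMap.range φ => ((f y : _) : Pt n)) hσ
    simpa using this
  have hkey : ∀ c, ψ (σ (φ.rangeRestrict c)) = ψ c := by
    intro c
    have h1 : φ (σ (φ.rangeRestrict c) - c) = 0 := by
      rw [map_sub, hσ']; simp
    have h2 : ‖ψ (σ (φ.rangeRestrict c) - c)‖ = 0 := by rw [← hnorm, h1, norm_zero]
    rw [norm_eq_zero, map_sub, sub_eq_zero] at h2
    exact h2
  let f : LinearMap.range φ →ₗᵢ[ℝ] Pt n :=
    { toLinearMap := ψ.comp σ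
      norm_map' := by
        intro y
        show ‖ψ (σ y)‖ = ‖y‖
        rw [← hnorm, hσ']
        rfl }
  refine ⟨f.extend.toLinearIsometryEquiv rfl, fun i => ?_⟩
  have hu : φ (Finsupp.single i 1) = u i := by rw [hφ]; simp
  have hw : ψ (Finsupp.single i 1) = w i := by rw [hψ]; simp
  have h3 : (f.extend.toLinearIsometryEquiv rfl) (u i) = f.extend (u i) := rfl
  have h4 : u i = ((φ.rangeRestrict (Finsupp.single i 1) : LinearMap.range φ) : Pt n) := by
    rw [← hu]; rfl
  rw [h3, h4, LinearIsometry.extend_apply]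
  show ψ (σ _) = w i
  rw [hkey, hw]

theorem asm_gram_motion {n : ℕ} (x : Vx n) (T : Finset (Vx n)) (h : GramSet x T) :
    ∃ g : Pt n ≃ᵃⁱ[ℝ] Pt n, g x.1 = x.2 ∧ ∀ a ∈ T, g a.1 = a.2 := by
  obtain ⟨L, hL⟩ := asm_gram_isometry (ι := {a // a ∈ T}) (fun a => a.1.1 - x.1)
    (fun a => a.1.2 - x.2) (fun a b => h a.1 a.2 b.1 b.2)
  refine ⟨((AffineIsometryEquiv.vaddConst ℝ x.1).symm.trans L.toAffineIsometryEquiv).trans
    (AffineIsometryEquiv.vaddConst ℝ x.2), ?_, fun a ha => ?_⟩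
  · simp
  · have := hL ⟨a, ha⟩
    simp only at this
    simp [this]

end gram

section line

theorem asm_collinear_cap {d : ℕ} (P T : Finset (Pt d)) (hT : T ⊆ P) (hc : Collinear ℝ (T : Set (Pt d))) :
    T.card ≤ 2 * dM P := by
  classical
  rcases T.eq_empty_or_nonempty with rfl | ⟨p₀, hp₀⟩
  · simp
  obtain ⟨v, hv⟩ := (collinear_iff_of_mem (Finset.mem_coe.2 hp₀)).1 hc
  have himg : (T.erase p₀).image (fun z => dist p₀ z) ⊆ distinctDistances P := by
    intro ρ hρ
    obtain ⟨z, hz, rfl⟩ := Finset.mem_image.1 hρ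
    unfold distinctDistances
    refine Finset.mem_image.2 ⟨(p₀, z), Finset.mem_filter.2 ⟨Finset.mem_product.2
      ⟨hT hp₀, hT (Finset.mem_of_mem_erase hz)⟩, ?_⟩, rfl⟩
    exact (Finset.ne_of_mem_erase hz).symm
  have hfib : ∀ ρ ∈ (T.erase p₀).image (fun z => dist p₀ z),
      ((T.erase p₀).filter fun z => dist p₀ z = ρ).card ≤ 2 := by
    intro ρ _
    refine (Finset.card_le_card (t := {(ρ / ‖v‖) • v + p₀, (-(ρ / ‖v‖)) • v + p₀}) ?_).trans
      Finset.card_le_two
    intro z hz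
    obtain ⟨hz1, hz2⟩ := Finset.mem_filter.1 hz
    obtain ⟨r, hr⟩ := hv z (Finset.mem_coe.2 (Finset.mem_of_mem_erase hz1))
    rw [vadd_eq_add] at hr
    have hv0 : v ≠ 0 := by
      rintro rfl
      apply Finset.ne_of_mem_erase hz1
      rw [hr]; simp
    have hvn : 0 < ‖v‖ := norm_pos_iff.2 hv0
    have hd : |r| * ‖v‖ = ρ := by
      rw [← hz2, hr, dist_eq_norm]
      have : p₀ - (r • v + p₀) = -(r • v) := by abel
      rw [this, norm_neg, norm_smul, Real.norm_eq_abs]
    have hr2 : |r| = ρ / ‖v‖ := by rw [eq_div_iff hvn.ne']; exact hd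
    simp only [Finset.mem_insert, Finset.mem_singleton]
    rcases abs_cases r with ⟨h1, _⟩ | ⟨h1, _⟩
    · left; rw [hr, ← hr2, h1]
    · right; rw [hr, ← hr2, h1, neg_neg]
  have h1 := Finset.card_le_mul_card_image (T.erase p₀) 2 hfib
  have h2 := Finset.card_le_card himg
  have h3 := Finset.card_erase_add_one hp₀
  unfold dM
  omega

end line

section cap

theorem asm_cap_inj {d : ℕ} {x : Vx d} {T : Finset (Vx d)} (h : GramSet x T) {a b : Vx d}
    (ha : a ∈ T) (hb : b ∈ T) (hab : a.1 = b.1) : a = b := by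
  have h1 : ‖(a.2 - x.2) - (b.2 - x.2)‖ ^ 2 = ‖(a.1 - x.1) - (b.1 - x.1)‖ ^ 2 := by
    have e : ∀ u w : Pt d, ‖u - w‖ ^ 2 = inner ℝ u u - 2 * inner ℝ u w + inner ℝ w w := by
      intro u w
      rw [@norm_sub_sq_real, real_inner_self_eq_norm_sq, real_inner_self_eq_norm_sq]
    rw [e, e, h a ha a ha, h a ha b hb, h b hb b hb]
  rw [hab, sub_self, norm_zero] at h1
  have h2 : (a.2 - x.2) - (b.2 - x.2) = 0 := by
    rw [← norm_eq_zero]
    exact pow_eq_zero_iff (two_ne_zero) |>.1 (by simpa using h1)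
  have h3 : a.2 = b.2 := by
    have : a.2 - b.2 = 0 := by rw [← h2]; abel
    exact sub_eq_zero.1 this
  exact Prod.ext hab h3

theorem asm_cap_card {d : ℕ} {P : Finset (Pt d)} {S : Finset (Pt d × Pt d)} (hS : IsGraphOn P S)
    {E : Finset (Vx d × Vx d)} (hE : E ⊆ eqG S) : CapProp E (P.card : ℝ) := by
  intro x T hT hG
  have : T.card ≤ P.card := by
    refine Finset.card_le_card_of_injOn (fun a => a.1) ?_ ?_
    · intro a ha
      have h1 : (x, a) ∈ E := (asm_prune_mem_star E x a).1 (hT (Finset.mem_coe.1 ha))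
      have h2 := asm_eqG_sub hS (hE h1)
      exact Finset.mem_coe.2 (Finset.mem_product.1 (Finset.mem_product.1 h2).2).1
    · intro a ha b hb hab
      exact asm_cap_inj hG (Finset.mem_coe.1 ha) (Finset.mem_coe.1 hb) hab
  exact_mod_cast this

theorem asm_cap_three (hR : RichStmt) : ∃ Cc Kd : ℝ, 0 < Cc ∧ 0 < Kd ∧ ∀ P : Finset (Pt 3), 2 ≤ P.card →
    (dM P : ℝ) ≤ dA P → ∀ S : Finset (Pt 3 × Pt 3), IsGraphOn P S →
    ∃ E ⊆ eqG S, (∀ e ∈ E, e.swap ∈ E) ∧
      ((eqG S).card : ℝ) ≤ (E.card : ℝ) + Kd * (P.card : ℝ) ^ 4 / dA P ∧ CapProp E (Cc * dA P) := by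
  classical
  obtain ⟨Cr, Kr, hCr, hKr, hrich⟩ := hR
  refine ⟨Cr, Kr, hCr, hKr, fun P hP hM S hS => ?_⟩
  have hA : dA P = (P.card : ℝ) ^ ((2 : ℝ) / 3) := by
    unfold dA
    rw [Nat.cast_ofNat]
  have hA0 : 0 < dA P := by
    rw [hA]
    exact Real.rpow_pos_of_pos (by exact_mod_cast (by omega : 0 < P.card)) _
  obtain ⟨bad, hbad⟩ : ∃ bad : Vx 3 × Vx 3 → Prop, bad = fun e =>
      ∃ g : Pt 3 ≃ᵃⁱ[ℝ] Pt 3, Cr * (P.card : ℝ) ^ ((2 : ℝ) / 3) ≤ (matchCount P P g : ℝ) ∧
        g e.1.1 = e.1.2 ∧ g e.2.1 = e.2.2 := ⟨_, rfl⟩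
  have hline : ∀ T ⊆ P, Collinear ℝ (T : Set (Pt 3)) →
      (T.card : ℝ) ≤ 2 * (P.card : ℝ) ^ ((2 : ℝ) / 3) := by
    intro T hT hc
    have h1 : (T.card : ℝ) ≤ 2 * (dM P : ℝ) := by exact_mod_cast asm_collinear_cap P T hT hc
    rw [← hA]
    linarith
  refine ⟨(eqG S).filter fun e => ¬ bad e, Finset.filter_subset _ _, ?_, ?_, ?_⟩
  · intro e he
    obtain ⟨h1, h2⟩ := Finset.mem_filter.1 he
    refine Finset.mem_filter.2 ⟨asm_eqG_symm hS e h1, fun h3 => h2 ?_⟩
    rw [hbad] at h3 ⊢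
    obtain ⟨g, hg, h4, h5⟩ := h3
    exact ⟨g, hg, h5, h4⟩
  · -- the deleted edges
    have hsplit : (eqG S).card = ((eqG S).filter fun e => ¬ bad e).card
        + ((eqG S).filter fun e => bad e).card := by
      rw [add_comm]; exact (Finset.card_filter_add_card_filter_not _).symm
    have hch : ∀ e : Vx 3 × Vx 3, ∃ g : Pt 3 ≃ᵃⁱ[ℝ] Pt 3, bad e →
        (Cr * (P.card : ℝ) ^ ((2 : ℝ) / 3) ≤ (matchCount P P g : ℝ) ∧
          g e.1.1 = e.1.2 ∧ g e.2.1 = e.2.2) := by
      intro e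
      by_cases he : bad e
      · have he' := he
        rw [hbad] at he'
        obtain ⟨g, hg⟩ := he'
        exact ⟨g, fun _ => hg⟩
      · exact ⟨AffineIsometryEquiv.refl ℝ _, fun h => absurd h he⟩
    choose G hG using hch
    have hdel : (((eqG S).filter fun e => bad e).card : ℝ)
        ≤ ∑ g ∈ ((eqG S).filter fun e => bad e).image G, (matchCount P P g : ℝ) ^ 2 := by
      rw [Finset.card_eq_sum_card_image G]
      push_cast
      refine Finset.sum_le_sum fun g _ => ?_
      have : (((eqG S).filter fun e => bad e).filter fun e => G e = g).card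
          ≤ matchCount P P g ^ 2 := by
        unfold matchCount
        rw [sq, ← Finset.card_product]
        refine Finset.card_le_card_of_injOn (fun e => (e.1.1, e.2.1)) ?_ ?_
        · intro e he
          obtain ⟨he1, he2⟩ := Finset.mem_filter.1 (Finset.mem_coe.1 he)
          obtain ⟨he3, he4⟩ := Finset.mem_filter.1 he1
          obtain ⟨-, h5, h6⟩ := hG e he4
          have h7 := Finset.mem_product.1 (asm_eqG_sub hS he3)
          have h8 := Finset.mem_product.1 h7.1
          have h9 := Finset.mem_product.1 h7.2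
          rw [he2] at h5 h6
          refine Finset.mem_coe.2 (Finset.mem_product.2 ⟨Finset.mem_filter.2 ⟨h8.1, ?_⟩,
            Finset.mem_filter.2 ⟨h9.1, ?_⟩⟩)
          · show g e.1.1 ∈ P
            rw [h5]; exact h8.2
          · show g e.2.1 ∈ P
            rw [h6]; exact h9.2
        · intro e he e' he' hee
          obtain ⟨he1, he2⟩ := Finset.mem_filter.1 (Finset.mem_coe.1 he)
          obtain ⟨he1', he2'⟩ := Finset.mem_filter.1 (Finset.mem_coe.1 he')
          obtain ⟨-, h5, h6⟩ := hG e (Finset.mem_filter.1 he1).2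
          obtain ⟨-, h5', h6'⟩ := hG e' (Finset.mem_filter.1 he1').2
          rw [he2] at h5 h6
          rw [he2'] at h5' h6'
          simp only [Prod.mk.injEq] at hee
          refine Prod.ext (Prod.ext hee.1 ?_) (Prod.ext hee.2 ?_)
          · rw [← h5, ← h5', hee.1]
          · rw [← h6, ← h6', hee.2]
      exact_mod_cast this
    have hsum := hrich P.card P P hP le_rfl le_rfl hline hline
      (((eqG S).filter fun e => bad e).image G) (by
        intro g hg
        obtain ⟨e, he, rfl⟩ := Finset.mem_image.1 hg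
        exact (hG e (Finset.mem_filter.1 he).2).1)
    rw [hA]
    have : ((eqG S).card : ℝ) = (((eqG S).filter fun e => ¬ bad e).card : ℝ)
        + (((eqG S).filter fun e => bad e).card : ℝ) := by exact_mod_cast hsplit
    rw [this]
    linarith
  · intro x T hT hGr
    by_contra hcon
    rw [not_le] at hcon
    obtain ⟨g, hgx, hgT⟩ := asm_gram_motion x T hGr
    have hmem : ∀ a ∈ T, (x, a) ∈ (eqG S).filter fun e => ¬ bad e := fun a ha =>
      (asm_prune_mem_star _ x a).1 (hT ha)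
    have hcnt : T.card ≤ matchCount P P g := by
      unfold matchCount
      refine Finset.card_le_card_of_injOn (fun a => a.1) ?_ ?_
      · intro a ha
        have h1 := (Finset.mem_filter.1 (hmem a (Finset.mem_coe.1 ha))).1
        have h2 := Finset.mem_product.1 (Finset.mem_product.1 (asm_eqG_sub hS h1)).2
        refine Finset.mem_coe.2 (Finset.mem_filter.2 ⟨h2.1, ?_⟩)
        show g a.1 ∈ P
        rw [hgT a (Finset.mem_coe.1 ha)]; exact h2.2
      · intro a ha b hb hab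
        exact asm_cap_inj hGr (Finset.mem_coe.1 ha) (Finset.mem_coe.1 hb) hab
    have hTne : T.Nonempty := by
      rw [← Finset.card_pos]
      have : (0 : ℝ) < T.card := lt_trans (by positivity) hcon
      exact_mod_cast this
    obtain ⟨a, ha⟩ := hTne
    apply (Finset.mem_filter.1 (hmem a ha)).2
    rw [hbad]
    refine ⟨g, ?_, hgx, hgT a ha⟩
    rw [← hA]
    have : (T.card : ℝ) ≤ (matchCount P P g : ℝ) := by exact_mod_cast hcnt
    linarith

/-- **The cap**, all dimensions. -/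
theorem asm_cap {d : ℕ} (hd : 3 ≤ d) (hR : d = 3 → RichStmt) : ∃ Cc Kd : ℝ, 0 < Cc ∧ 0 < Kd ∧
    ∀ P : Finset (Pt d), 2 ≤ P.card → (dM P : ℝ) ≤ dA P → ∀ S : Finset (Pt d × Pt d), IsGraphOn P S →
    ∃ E ⊆ eqG S, (∀ e ∈ E, e.swap ∈ E) ∧
      ((eqG S).card : ℝ) ≤ (E.card : ℝ) + Kd * (P.card : ℝ) ^ 4 / dA P ∧
      CapProp E (Cc * dA P ^ (d - 2)) := by
  rcases Nat.eq_or_lt_of_le hd with h3 | h4
  · subst h3
    obtain ⟨Cc, Kd, hCc, hKd, H⟩ := asm_cap_three (hR rfl)
    refine ⟨Cc, Kd, hCc, hKd, fun P hP hM S hS => ?_⟩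
    obtain ⟨E, h1, h2, h3, h4⟩ := H P hP hM S hS
    exact ⟨E, h1, h2, h3, by simpa using h4⟩
  · refine ⟨1, 1, one_pos, one_pos, fun P hP hM S hS => ?_⟩
    have hN : (1 : ℝ) ≤ P.card := by exact_mod_cast (by omega : 1 ≤ P.card)
    have hA0 : 0 < dA P := by
      unfold dA
      exact Real.rpow_pos_of_pos (by linarith) _
    refine ⟨eqG S, le_rfl, asm_eqG_symm hS, ?_, ?_⟩
    · have : 0 ≤ 1 * (P.card : ℝ) ^ 4 / dA P := by positivity
      linarith
    · intro x T hT hG
      refine (asm_cap_card hS le_rfl x T hT hG).trans ?_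
      rw [one_mul]
      unfold dA
      rw [← Real.rpow_natCast, ← Real.rpow_mul (by linarith)]
      have hd0 : (0 : ℝ) < d := by exact_mod_cast (by omega : 0 < d)
      have hexp : (1 : ℝ) ≤ 2 / (d : ℝ) * ((d - 2 : ℕ) : ℝ) := by
        rw [Nat.cast_sub (by omega), div_mul_eq_mul_div, le_div_iff₀ hd0]
        have : (4 : ℝ) ≤ d := by exact_mod_cast h4
        push_cast
        linarith
      calc (P.card : ℝ) = (P.card : ℝ) ^ (1 : ℝ) := (Real.rpow_one _).symm
        _ ≤ _ := Real.rpow_le_rpow_of_exponent_le hN hexp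

end cap

end Claimed.Agent.R273
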