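import Claimed.Agent.R273.Top

/-!
# Row 273, package T2 (`AsmStmt`, `RegimeStmt`; paper Sec. 2, reduction.tex l.204-521): definitions

Owner: helper161.  Definitions only.  Do not edit; msg helper161 for changes.

DEVIATIONS FROM THE PAPER (all simplifications):
* no generic rotation: `Q = P`; the edges with `u + w = 0` are simply left out of the equal-distance graph (there are at most `N |S|` of them);
* edges are ORDERED pairs everywhere (symmetric sets of ordered pairs);
* the extra coordinate of the skew forms on `ℂ^{d+1}` has the index `0` (so that `Fin.cons`, `Fin.sum_univ_succ` apply);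
* no sequences: `δ(H) ≥ (c/ε) A^{d-1}`, and `ε` is chosen last.
-/

set_option autoImplicit false

namespace Claimed.Agent.R273

open Claims.C0444 MvPolynomial

/-- vertices of the equal-distance graph: pairs `(p, q)` -/
abbrev Vx (d : ℕ) := Pt d × Pt d

/-- homogeneous separators of degree `D` in every star of `S` -/
def StarSep {d : ℕ} (D : ℕ) (S : Finset (Pt d × Pt d)) : Prop :=
  ∀ p q, (p, q) ∈ S → ∃ s : MvPolynomial (Fin d) ℂ, s.IsHomogeneous D ∧ eval (cdir p q) s ≠ 0 ∧
    ∀ q', (p, q') ∈ S → q' ≠ q → eval (cdir p q') s = 0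

/-- The equal-distance graph (ordered edges `((p,q),(p',q'))`): `(p,p'), (q,q') ∈ S`, `|p-p'| = |q-q'|`, `u + w ≠ 0`
where `u = p' - p`, `w = q' - q`. -/
noncomputable def eqG {d : ℕ} (S : Finset (Pt d × Pt d)) : Finset (Vx d × Vx d) :=
  ((S ×ˢ S).filter fun e => dist e.1.1 e.1.2 = dist e.2.1 e.2.2 ∧
      (e.1.2 - e.1.1) + (e.2.2 - e.2.1) ≠ 0).image
    fun e => ((e.1.1, e.2.1), (e.1.2, e.2.2))

/-- the displacements `u_a = a.1 - x.1`, `w_a = a.2 - x.2` (`a ∈ T`) have equal Gram matrices -/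
def GramSet {d : ℕ} (x : Vx d) (T : Finset (Vx d)) : Prop :=
  ∀ a ∈ T, ∀ b ∈ T, inner ℝ (a.1 - x.1) (b.1 - x.1) = inner ℝ (a.2 - x.2) (b.2 - x.2)

/-- every set of neighbours of one vertex with equal Gram matrices has at most `K` elements -/
def CapProp {d : ℕ} (E : Finset (Vx d × Vx d)) (K : ℝ) : Prop :=
  ∀ x, ∀ T ⊆ star E x, GramSet x T → (T.card : ℝ) ≤ K

/-- `v₀ = (p + q) / 2` -/
noncomputable def gv {d : ℕ} (x : Vx d) : Fin d → ℂ := fun i => (((x.1 i + x.2 i) / 2 : ℝ) : ℂ)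
/-- `y₀ = (p - q) / 2` -/
noncomputable def gy {d : ℕ} (x : Vx d) : Fin d → ℂ := fun i => (((x.1 i - x.2 i) / 2 : ℝ) : ℂ)

/-- the global parameter `[(1, v₀) : (- v₀ · y₀, y₀)]` of the pair `x = (p, q)` -/
noncomputable def gpar {d : ℕ} (x : Vx d) : Par (d + 1) :=
  (Fin.cons 1 (gv x), Fin.cons (-∑ i, gv x i * gy x i) (gy x))

/-- the local parameter `[u + w : u - w]` of the neighbour `x'` of `x` -/
noncomputable def lpar {d : ℕ} (x x' : Vx d) : Par d :=
  (fun i => cdir x.1 x'.1 i + cdir x.2 x'.2 i, fun i => cdir x.1 x'.1 i - cdir x.2 x'.2 i)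

/-- the point `(Z, c)`, `c = y₀ - Z v₀`, of the pair flat of `x`: the skew matrix with the blocks `0, -cᵀ; c, Z` -/
noncomputable def gemb {d : ℕ} (x : Vx d) (Z : Fin d × Fin d → ℂ) : Fin (d + 1) × Fin (d + 1) → ℂ :=
  fun ij => Fin.cases (motive := fun _ => ℂ)
    (Fin.cases (motive := fun _ => ℂ) 0 (fun j => -(gy x j - ∑ k, Z (j, k) * gv x k)) ij.2)
    (fun i => Fin.cases (motive := fun _ => ℂ) (gy x i - ∑ k, Z (i, k) * gv x k) (fun j => Z (i, j)) ij.2) ij.1

/-- the same as polynomials in `Z` -/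
noncomputable def gembP {d : ℕ} (x : Vx d) : Fin (d + 1) × Fin (d + 1) → MvPolynomial (Fin d × Fin d) ℂ :=
  fun ij => Fin.cases (motive := fun _ => MvPolynomial (Fin d × Fin d) ℂ)
    (Fin.cases (motive := fun _ => MvPolynomial (Fin d × Fin d) ℂ) 0
      (fun j => -(C (gy x j) - ∑ k, X (j, k) * C (gv x k))) ij.2)
    (fun i => Fin.cases (motive := fun _ => MvPolynomial (Fin d × Fin d) ℂ)
      (C (gy x i) - ∑ k, X (i, k) * C (gv x k)) (fun j => X (i, j)) ij.2) ij.1

/-- restriction of a polynomial on the skew forms of `ℂ^{d+1}` to the pair flat of `x`, in the coordinates `Z` -/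
noncomputable def floc {d : ℕ} (x : Vx d) (f : MvPolynomial (Fin (d + 1) × Fin (d + 1)) ℂ) :
    MvPolynomial (Fin d × Fin d) ℂ := bind₁ (gembP x) f

end Claimed.Agent.R273
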