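import Claimed.Agent.R273.AsmRk

/-!
# Row 273, package T2, leaf ASM-flat: the pair flats (paper (eq:pair-flat), (eq:global-parameter), (eq:neighbor-flat))

Blueprint and proofs: helper161.  Sorry-free itself (`AsmRk`, `rk_totalDegree_aeval_le` are citations of the rank library).

`gemb x Z` is the matrix with the blocks `(0,0) ↦ 0`, `(0, j+1) ↦ -c j`, `(i+1, 0) ↦ c i`, `(i+1, j+1) ↦ Z (i,j)`, `c := y₀ - Z v₀`.  Work with `Fin.cases` on both indices (`refine Fin.cases ?_ (fun i => ?_) i`), `Fin.sum_univ_succ`, `Fin.cons_zero`, `Fin.cons_succ`.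
* `asm_gemb_mem`: skew: four cases.  Row `i+1`: `c i * 1 + ∑_j Z (i,j) v₀ j = y₀ i`.  Row `0`: `0 * 1 + ∑_j (-c j) v₀ j = -(y₀·v₀) + ∑_{j,k} Z (j,k) v₀ k v₀ j`, and the double sum vanishes for skew `Z` (it equals its negative: `Finset.sum_comm`).
* `asm_gemb_surj`: `Z (i,j) := z (i+1, j+1)`; the rows `i+1` give `z (i+1, 0) = c i`; skewness gives the rest (`z (0,0) = - z (0,0)`, so it is `0`).
* `asm_gemb_nb`: `v₀' - v₀ = (u+w)/2`, `y₀' - y₀ = (u-w)/2` (coordinatewise, `push_cast`, `ring`), so `c + Z v₀' = y₀ + Z (u+w)/2 = y₀'`; row `0`: `-c·v₀' = -(y₀' - Z v₀')·v₀' = -y₀'·v₀'`.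
* `asm_floc_eval`: `eval_bind₁`/`aeval`-`eval₂Hom` composition (`MvPolynomial.eval₂Hom_bind₁`, `eval_eval₂`..): reduce to `eval Z (gembP x ij) = gemb x Z ij`, four cases, `simp`.
* `asm_floc_deg`: induction on `f` (`MvPolynomial.induction_on'` / `totalDegree_finset_sum`, monomials: `totalDegree_finset_prod`, `totalDegree_pow`), every `gembP x ij` has `totalDegree ≤ 1`.
* `asm_flat_rank`: `κ := {ij : Fin d × Fin d // ij.1 < ij.2}`, `Fintype.card κ = d.choose 2` (e.g. via `Finset.card_powersetCard`/`Sym2` or induction; any proof);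
  `Zs : Fin d × Fin d → MvPolynomial κ ℂ := fun ij => if h : ij.1 < ij.2 then X ⟨ij, h⟩ else if h' : ij.2 < ij.1 then - X ⟨ij.swap, h'⟩ else 0`; `g ij := bind₁ Zs (gembP x ij)` has degree `≤ 1`;
  every skew `Z` is `fun ij => eval w (Zs ij)` with `w k := Z k.1`; `asm_gemb_surj`; `asm_rk_affine`.
-/

set_option autoImplicit false

namespace Claimed.Agent.R273

open Claims.C0444 MvPolynomial

variable {d : ℕ}

theorem asm_gemb_00 (x : Vx d) (Z : Fin d × Fin d → ℂ) : gemb x Z (0, 0) = 0 := rfl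
theorem asm_gemb_0s (x : Vx d) (Z : Fin d × Fin d → ℂ) (j : Fin d) :
    gemb x Z (0, j.succ) = -(gy x j - ∑ k, Z (j, k) * gv x k) := rfl
theorem asm_gemb_s0 (x : Vx d) (Z : Fin d × Fin d → ℂ) (i : Fin d) :
    gemb x Z (i.succ, 0) = gy x i - ∑ k, Z (i, k) * gv x k := rfl
theorem asm_gemb_ss (x : Vx d) (Z : Fin d × Fin d → ℂ) (i j : Fin d) :
    gemb x Z (i.succ, j.succ) = Z (i, j) := rfl

/-- a skew form vanishes on the diagonal -/
theorem asm_skew_quad {Z : Fin d × Fin d → ℂ} (hZ : ∀ i j, Z (i, j) = - Z (j, i)) (v : Fin d → ℂ) :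
    ∑ j, (∑ k, Z (j, k) * v k) * v j = 0 := by
  have h1 : ∑ j, (∑ k, Z (j, k) * v k) * v j = ∑ j, ∑ k, Z (j, k) * v k * v j := by
    refine Finset.sum_congr rfl fun j _ => ?_
    rw [Finset.sum_mul]
  have h2 : ∑ j, ∑ k, Z (j, k) * v k * v j = - ∑ j, ∑ k, Z (j, k) * v k * v j := by
    conv_lhs => rw [Finset.sum_comm]
    rw [← Finset.sum_neg_distrib]
    refine Finset.sum_congr rfl fun j _ => ?_
    rw [← Finset.sum_neg_distrib]
    refine Finset.sum_congr rfl fun k _ => ?_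
    rw [hZ k j]
    ring
  rw [h1]
  have h3 : (2 : ℂ) * ∑ j, ∑ k, Z (j, k) * v k * v j = 0 := by
    linear_combination h2
  simpa using h3

theorem asm_gemb_skew (x : Vx d) {Z : Fin d × Fin d → ℂ} (hZ : ∀ i j, Z (i, j) = - Z (j, i)) :
    ∀ i j, gemb x Z (i, j) = - gemb x Z (j, i) := by
  intro i j
  refine Fin.cases ?_ (fun i => ?_) i <;> refine Fin.cases ?_ (fun j => ?_) j
  · simp [asm_gemb_00]
  · rw [asm_gemb_0s, asm_gemb_s0]
  · rw [asm_gemb_0s, asm_gemb_s0, neg_neg]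
  · rw [asm_gemb_ss, asm_gemb_ss, hZ]

/-- membership in an evaluation flat with parameter `(1, v') : (-(v'·y'), y')` -/
theorem asm_gemb_mem_aux (x : Vx d) {Z : Fin d × Fin d → ℂ} (hZ : ∀ i j, Z (i, j) = - Z (j, i))
    (v' y' : Fin d → ℂ)
    (h : ∀ i, gy x i - ∑ k, Z (i, k) * gv x k + ∑ k, Z (i, k) * v' k = y' i) :
    gemb x Z ∈ evFlat (Fin.cons 1 v' : Fin (d + 1) → ℂ) (Fin.cons (-∑ i, v' i * y' i) y') := by
  refine ⟨asm_gemb_skew x hZ, fun i => ?_⟩
  refine Fin.cases ?_ (fun i => ?_) i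
  · rw [Fin.sum_univ_succ]
    simp only [Fin.cons_zero, Fin.cons_succ, asm_gemb_00, asm_gemb_0s, zero_mul, zero_add]
    have hq := asm_skew_quad hZ v'
    have e : ∀ j, -(gy x j - ∑ k, Z (j, k) * gv x k) * v' j =
        -(v' j * y' j) + (∑ k, Z (j, k) * v' k) * v' j := by
      intro j
      rw [← h j]
      ring
    rw [Finset.sum_congr rfl fun j _ => e j, Finset.sum_add_distrib, hq, add_zero,
      Finset.sum_neg_distrib]
  · rw [Fin.sum_univ_succ]
    simp only [Fin.cons_zero, Fin.cons_succ, asm_gemb_s0, asm_gemb_ss, mul_one]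
    exact h i

theorem asm_gemb_mem (x : Vx d) {Z : Fin d × Fin d → ℂ} (hZ : Z ∈ skewSet d) :
    gemb x Z ∈ evFlat (gpar x).1 (gpar x).2 := by
  refine asm_gemb_mem_aux x hZ (gv x) (gy x) fun i => ?_
  ring

theorem asm_gemb_surj (x : Vx d) {z : Fin (d + 1) × Fin (d + 1) → ℂ} (hz : z ∈ evFlat (gpar x).1 (gpar x).2) :
    ∃ Z ∈ skewSet d, gemb x Z = z := by
  obtain ⟨hsk, hrow⟩ := hz
  refine ⟨fun ij => z (ij.1.succ, ij.2.succ), fun i j => hsk _ _, ?_⟩
  have hc : ∀ i : Fin d, z (i.succ, 0) = gy x i - ∑ k, z (i.succ, k.succ) * gv x k := by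
    intro i
    have h := hrow i.succ
    rw [Fin.sum_univ_succ] at h
    simp only [gpar, Fin.cons_zero, Fin.cons_succ, mul_one] at h
    rw [← h]
    ring
  funext ij
  obtain ⟨i, j⟩ := ij
  refine Fin.cases ?_ (fun i => ?_) i <;> refine Fin.cases ?_ (fun j => ?_) j
  · rw [asm_gemb_00]
    have h := hsk 0 0
    have h2 : (2 : ℂ) * z (0, 0) = 0 := by linear_combination h
    have := mul_eq_zero.1 h2
    rcases this with h3 | h3
    · norm_num at h3
    · exact h3.symm
  · rw [asm_gemb_0s, hsk 0 j.succ, hc j]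
  · rw [asm_gemb_s0, hc i]
  · rw [asm_gemb_ss]

theorem asm_gemb_nb (x x' : Vx d) {Z : Fin d × Fin d → ℂ} (hZ : Z ∈ evFlat (lpar x x').1 (lpar x x').2) :
    gemb x Z ∈ evFlat (gpar x').1 (gpar x').2 := by
  obtain ⟨hsk, hrow⟩ := hZ
  refine asm_gemb_mem_aux x hsk (gv x') (gy x') fun i => ?_
  have h := hrow i
  have e1 : ∀ k, gv x' k = gv x k + (lpar x x').1 k / 2 := by
    intro k
    simp only [gv, lpar, cdir]
    push_cast
    ring
  have e2 : gy x' i = gy x i + (lpar x x').2 i / 2 := by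
    simp only [gy, lpar, cdir]
    push_cast
    ring
  rw [e2, ← h]
  have e3 : ∑ k, Z (i, k) * gv x' k = ∑ k, Z (i, k) * gv x k + (∑ k, Z (i, k) * (lpar x x').1 k) / 2 := by
    rw [Finset.sum_div, ← Finset.sum_add_distrib]
    refine Finset.sum_congr rfl fun k _ => ?_
    rw [e1 k]
    ring
  rw [e3]
  ring

theorem asm_card_upper (d : ℕ) : Fintype.card {ij : Fin d × Fin d // ij.1 < ij.2} = d.choose 2 := by
  rw [Fintype.card_subtype, Finset.card_filter, Fintype.sum_prod_type_right]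
  have h : ∀ j : Fin d, (∑ i : Fin d, if i < j then 1 else 0) = (j : ℕ) := by
    intro j
    rw [← Finset.card_filter]
    have : (Finset.univ.filter fun i : Fin d => i < j) = Finset.Iio j := by
      ext i; simp
    rw [this, Fin.card_Iio]
  rw [Finset.sum_congr rfl fun j _ => h j, Fin.sum_univ_eq_sum_range (fun i => i) d, Finset.sum_range_id,
    Nat.choose_two_right]

theorem asm_gembP_eval (x : Vx d) (Z : Fin d × Fin d → ℂ) (ij : Fin (d + 1) × Fin (d + 1)) :
    eval Z (gembP x ij) = gemb x Z ij := by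
  obtain ⟨i, j⟩ := ij
  refine Fin.cases ?_ (fun i => ?_) i <;> refine Fin.cases ?_ (fun j => ?_) j
  · simp [gembP, gemb]
  · simp [gembP, gemb]
  · simp [gembP, gemb]
  · simp [gembP, gemb]

theorem asm_gembP_deg (x : Vx d) (ij : Fin (d + 1) × Fin (d + 1)) : (gembP x ij).totalDegree ≤ 1 := by
  have hc : ∀ i : Fin d, (C (gy x i) - ∑ k, X (i, k) * C (gv x k) :
      MvPolynomial (Fin d × Fin d) ℂ).totalDegree ≤ 1 := by
    intro i
    refine (totalDegree_sub _ _).trans (max_le (by simp) ?_)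
    refine totalDegree_finsetSum_le fun k _ => ?_
    refine (totalDegree_mul _ _).trans ?_
    simp
  obtain ⟨i, j⟩ := ij
  refine Fin.cases ?_ (fun i => ?_) i <;> refine Fin.cases ?_ (fun j => ?_) j
  · simp [gembP]
  · show (-(C (gy x j) - ∑ k, X (j, k) * C (gv x k)) : MvPolynomial (Fin d × Fin d) ℂ).totalDegree ≤ 1
    rw [totalDegree_neg]
    exact hc j
  · exact hc i
  · show (X (i, j) : MvPolynomial (Fin d × Fin d) ℂ).totalDegree ≤ 1
    simp

theorem asm_floc_eval (x : Vx d) (f : MvPolynomial (Fin (d + 1) × Fin (d + 1)) ℂ) (Z : Fin d × Fin d → ℂ) :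
    eval Z (floc x f) = eval (gemb x Z) f := by
  unfold floc
  have h := eval₂Hom_bind₁ (RingHom.id ℂ) Z (gembP x) f
  have e : (fun ij => eval₂Hom (RingHom.id ℂ) Z (gembP x ij)) = gemb x Z := by
    funext ij
    exact asm_gembP_eval x Z ij
  rw [e] at h
  exact h

theorem asm_floc_deg (x : Vx d) (f : MvPolynomial (Fin (d + 1) × Fin (d + 1)) ℂ) :
    (floc x f).totalDegree ≤ f.totalDegree :=
  rk_totalDegree_aeval_le (gembP x) (asm_gembP_deg x) f

/-- the skew matrix with given strictly upper triangular entries, as polynomials -/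
noncomputable def skewP (d : ℕ) : Fin d × Fin d → MvPolynomial {ij : Fin d × Fin d // ij.1 < ij.2} ℂ :=
  fun ij => if h : ij.1 < ij.2 then X ⟨ij, h⟩ else if h' : ij.2 < ij.1 then - X ⟨ij.swap, h'⟩ else 0

theorem asm_skewP_deg (ij : Fin d × Fin d) : (skewP d ij).totalDegree ≤ 1 := by
  unfold skewP
  split_ifs
  · simp
  · rw [totalDegree_neg]; simp
  · simp

theorem asm_skewP_eval {Z : Fin d × Fin d → ℂ} (hZ : ∀ i j, Z (i, j) = - Z (j, i)) (ij : Fin d × Fin d) :
    eval (fun k : {ij : Fin d × Fin d // ij.1 < ij.2} => Z k.1) (skewP d ij) = Z ij := by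
  obtain ⟨i, j⟩ := ij
  unfold skewP
  split_ifs with h h'
  · simp
  · simp only [map_neg, eval_X, Prod.swap_prod_mk]
    exact (hZ i j).symm
  · have hij : i = j := le_antisymm (not_lt.1 h') (not_lt.1 h)
    subst hij
    have h1 := hZ i i
    have h2 : (2 : ℂ) * Z (i, i) = 0 := by linear_combination h1
    rcases mul_eq_zero.1 h2 with h3 | h3
    · norm_num at h3
    · simp [h3]

/-- a pair flat has dimension `s₀ = binom d 2` -/
theorem asm_flat_rank (x : Vx d) (D : ℕ) :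
    hA (evFlat (gpar x).1 (gpar x).2) D ≤ (D + d.choose 2).choose (d.choose 2) := by
  have h := asm_rk_affine (fun ij => aeval (skewP d) (gembP x ij))
    (fun ij => (rk_totalDegree_aeval_le (skewP d) asm_skewP_deg (gembP x ij)).trans (asm_gembP_deg x ij))
    (evFlat (gpar x).1 (gpar x).2) (fun z hz => by
      obtain ⟨Z, hZ, rfl⟩ := asm_gemb_surj x hz
      refine ⟨fun k => Z k.1, ?_⟩
      funext ij
      have h1 := eval₂Hom_bind₁ (RingHom.id ℂ) (fun k : {ij : Fin d × Fin d // ij.1 < ij.2} => Z k.1)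
        (skewP d) (gembP x ij)
      have e : (fun ab => eval₂Hom (RingHom.id ℂ) (fun k : {ij : Fin d × Fin d // ij.1 < ij.2} => Z k.1)
          (skewP d ab)) = Z := by
        funext ab
        exact asm_skewP_eval hZ ab
      rw [e] at h1
      exact ((asm_gembP_eval x Z ij).symm.trans h1.symm)) D
  rwa [asm_card_upper] at h

end Claimed.Agent.R273
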