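import Claimed.Agent.R273.AsmDefs

/-!
# Row 273, package T2, leaf ASM-glob: the hypotheses of the global concentration (paper Lemma red:global-concentration, `e = d + 1`)

Blueprint and proofs: helper161.  Sorry-free.

Coordinates: `(gpar x).1 = Fin.cons 1 (gv x)`, `(gpar x).2 = Fin.cons (-(v₀·y₀)) (gy x)`; `Fin.sum_univ_succ`, `Fin.cons_zero`, `Fin.cons_succ`; `p = v₀ + y₀`, `q = v₀ - y₀`.
`asm_dist_sq`: `EuclideanSpace.dist_eq`, `Real.sq_sqrt`, `Real.dist_eq`, `sq_abs`.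
`asm_glob_polar`: `polar = y₀·v₀' - v₀·y₀ + y₀'·v₀ - v₀'·y₀' = -(v₀-v₀')·(y₀-y₀') = (|q-q'|² - |p-p'|²)/4`; push casts (`Complex.ofReal_sum`, ..), `Finset.sum_congr`, `ring`.
`asm_glob_sep` (physical separators, explicit).  Variables of `MvPolynomial (Fin (d+1) ⊕ Fin (d+1)) ℂ`: `t := X (inl 0)`, `V i := X (inl i.succ)`, `Y i := X (inr i.succ)`.  For `ρ ∈ Δ := distinctDistances P`:
`h ρ := ∑ i, (V i + Y i - C (p i) * t)^2 - C (ρ^2) * t^2`, `h' ρ := ∑ i, (V i - Y i - C (q i) * t)^2 - C (ρ^2) * t^2` (homogeneous of degree 2), `s := t * ∏_ρ h ρ * ∏_ρ h' ρ` (`IsHomogeneous.mul`, `IsHomogeneous.prod`, degree `1 + 2|Δ| + 2|Δ|`).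
At `(gpar x').pt`: `t = 1`, `V i + Y i = p' i`, `V i - Y i = q' i`, so `h ρ = |p'-p|² - ρ²`, `h' ρ = |q'-q|² - ρ²` (as complex numbers).  `x' ≠ x`: `p' ≠ p` (then `ρ = dist p' p ∈ Δ` kills `h ρ`) or `q' ≠ q`.
`x' = x`: all factors are `-ρ² ≠ 0` (`ρ > 0` on `Δ`).
`asm_glob_hyp`: `onQ`; `sep` with `k = 4|Δ| + 1 ≤ 4 M ≤ C0 A`; members of `V.image gpar` are `gpar x'`, `x' ∈ P ×ˢ P`, and `gpar x' ≠ gpar x → x' ≠ x`; `iso`: pull `F'` back to `V' ⊆ V` (`Finset.subset_image_iff`/`asm_gpar_inj`); by `asm_glob_polar`, `dist x.1 x'.1 = dist x.2 x'.2` on `V'`,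
so `x ↦ x.1` is injective on `V'`, with values in `P`: `F'.card ≤ N ≤ A^(d-1)`, `d + 1 - 2 = d - 1`; the numerical fact `hNA` is a hypothesis.
-/

set_option autoImplicit false

namespace Claimed.Agent.R273

open Claims.C0444 MvPolynomial

variable {d : ℕ}

theorem asm_dist_sq (p q : Pt d) : dist p q ^ 2 = ∑ i, (p i - q i) ^ 2 := by
  rw [EuclideanSpace.dist_eq, Real.sq_sqrt (Finset.sum_nonneg fun i _ => sq_nonneg _)]
  refine Finset.sum_congr rfl fun i _ => ?_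
  rw [Real.dist_eq, sq_abs]

theorem asm_gpar_inj : Function.Injective (gpar (d := d)) := by
  intro x x' h
  have h1 : ∀ i, gv x i = gv x' i := by
    intro i
    have := congrFun (congrArg Prod.fst h) i.succ
    simpa [gpar] using this
  have h2 : ∀ i, gy x i = gy x' i := by
    intro i
    have := congrFun (congrArg Prod.snd h) i.succ
    simpa [gpar] using this
  have h3 : ∀ i, (x.1 i + x.2 i) / 2 = (x'.1 i + x'.2 i) / 2 := fun i => Complex.ofReal_injective (h1 i)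
  have h4 : ∀ i, (x.1 i - x.2 i) / 2 = (x'.1 i - x'.2 i) / 2 := fun i => Complex.ofReal_injective (h2 i)
  refine Prod.ext (PiLp.ext fun i => ?_) (PiLp.ext fun i => ?_)
  · have := h3 i; have := h4 i; linarith
  · have := h3 i; have := h4 i; linarith

theorem asm_glob_onQ (x : Vx d) : (gpar x).1 ≠ 0 ∧ ∑ i, (gpar x).2 i * (gpar x).1 i = 0 := by
  constructor
  · intro h
    have := congrFun h 0
    simp [gpar] at this
  · rw [Fin.sum_univ_succ]
    simp only [gpar, Fin.cons_zero, Fin.cons_succ, mul_one]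
    rw [neg_add_eq_zero]
    exact Finset.sum_congr rfl fun i _ => mul_comm _ _

theorem asm_glob_polar (x x' : Vx d) :
    Par.polar (gpar x) (gpar x') = (((dist x.2 x'.2 ^ 2 - dist x.1 x'.1 ^ 2) / 4 : ℝ) : ℂ) := by
  unfold Par.polar
  rw [Fin.sum_univ_succ, asm_dist_sq, asm_dist_sq]
  simp only [gpar, Fin.cons_zero, Fin.cons_succ, mul_one]
  rw [← Finset.sum_sub_distrib, Finset.sum_div, Complex.ofReal_sum, ← Finset.sum_neg_distrib,
    ← Finset.sum_neg_distrib, ← Finset.sum_add_distrib, ← Finset.sum_add_distrib]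
  refine Finset.sum_congr rfl fun i _ => ?_
  simp only [gv, gy]
  push_cast
  ring

/-- the homogenised quadric `|V + σ Y - a t|² - r t²` -/
noncomputable def gquad (d : ℕ) (σ : ℂ) (a : Fin d → ℂ) (r : ℂ) : MvPolynomial (Fin (d + 1) ⊕ Fin (d + 1)) ℂ :=
  ∑ i : Fin d, (X (Sum.inl i.succ) + C σ * X (Sum.inr i.succ) - C (a i) * X (Sum.inl 0)) ^ 2 -
    C r * X (Sum.inl 0) ^ 2

theorem asm_gquad_hom (σ : ℂ) (a : Fin d → ℂ) (r : ℂ) : (gquad d σ a r).IsHomogeneous 2 := by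
  unfold gquad
  refine IsHomogeneous.sub (IsHomogeneous.sum _ _ _ fun i _ => ?_) ?_
  · have h : (X (Sum.inl i.succ) + C σ * X (Sum.inr i.succ) - C (a i) * X (Sum.inl 0) :
        MvPolynomial (Fin (d + 1) ⊕ Fin (d + 1)) ℂ).IsHomogeneous 1 :=
      ((isHomogeneous_X _ _).add (isHomogeneous_C_mul_X _ _)).sub (isHomogeneous_C_mul_X _ _)
    simpa using h.pow 2
  · have h : (X (Sum.inl 0) ^ 2 : MvPolynomial (Fin (d + 1) ⊕ Fin (d + 1)) ℂ).IsHomogeneous 2 := by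
      simpa using (isHomogeneous_X ℂ (Sum.inl 0 : Fin (d + 1) ⊕ Fin (d + 1))).pow 2
    simpa using (isHomogeneous_C _ r).mul h

theorem asm_gquad_eval (σ : ℂ) (a : Fin d → ℂ) (r : ℂ) (x : Vx d) :
    eval (gpar x).pt (gquad d σ a r) = ∑ i, (gv x i + σ * gy x i - a i) ^ 2 - r := by
  simp [gquad, Par.pt, gpar]

theorem asm_gquad_eval1 (p : Pt d) (ρ : ℝ) (x : Vx d) :
    eval (gpar x).pt (gquad d 1 (fun i => (p i : ℂ)) ((ρ ^ 2 : ℝ) : ℂ)) =
      ((dist x.1 p ^ 2 - ρ ^ 2 : ℝ) : ℂ) := by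
  rw [asm_gquad_eval, asm_dist_sq]
  push_cast
  congr 1
  refine Finset.sum_congr rfl fun i _ => ?_
  simp only [gv, gy]
  push_cast
  ring

theorem asm_gquad_eval2 (q : Pt d) (ρ : ℝ) (x : Vx d) :
    eval (gpar x).pt (gquad d (-1) (fun i => (q i : ℂ)) ((ρ ^ 2 : ℝ) : ℂ)) =
      ((dist x.2 q ^ 2 - ρ ^ 2 : ℝ) : ℂ) := by
  rw [asm_gquad_eval, asm_dist_sq]
  push_cast
  congr 1
  refine Finset.sum_congr rfl fun i _ => ?_
  simp only [gv, gy]
  push_cast
  ring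

theorem asm_dd_pos {P : Finset (Pt d)} {ρ : ℝ} (h : ρ ∈ distinctDistances P) : 0 < ρ := by
  unfold distinctDistances at h
  obtain ⟨q, hq, rfl⟩ := Finset.mem_image.1 h
  exact dist_pos.2 (Finset.mem_filter.1 hq).2

theorem asm_dd_mem {P : Finset (Pt d)} {p q : Pt d} (hp : p ∈ P) (hq : q ∈ P) (h : p ≠ q) :
    dist p q ∈ distinctDistances P := by
  unfold distinctDistances
  exact Finset.mem_image.2 ⟨(p, q), Finset.mem_filter.2 ⟨Finset.mem_product.2 ⟨hp, hq⟩, h⟩, rfl⟩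

theorem asm_glob_sep (P : Finset (Pt d)) (x : Vx d) (hx : x ∈ P ×ˢ P) :
    ∃ s : MvPolynomial (Fin (d + 1) ⊕ Fin (d + 1)) ℂ,
      s.IsHomogeneous (4 * (distinctDistances P).card + 1) ∧ eval (gpar x).pt s ≠ 0 ∧
      ∀ x' ∈ P ×ˢ P, x' ≠ x → eval (gpar x').pt s = 0 := by
  obtain ⟨hx1, hx2⟩ := Finset.mem_product.1 hx
  refine ⟨X (Sum.inl 0) *
    (∏ ρ ∈ distinctDistances P, gquad d 1 (fun i => (x.1 i : ℂ)) ((ρ ^ 2 : ℝ) : ℂ)) *
    (∏ ρ ∈ distinctDistances P, gquad d (-1) (fun i => (x.2 i : ℂ)) ((ρ ^ 2 : ℝ) : ℂ)), ?_, ?_, ?_⟩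
  · have h1 := IsHomogeneous.prod (distinctDistances P)
      (fun ρ : ℝ => gquad d 1 (fun i => (x.1 i : ℂ)) ((ρ ^ 2 : ℝ) : ℂ)) (fun _ => 2)
      (fun ρ _ => asm_gquad_hom _ _ _)
    have h2 := IsHomogeneous.prod (distinctDistances P)
      (fun ρ : ℝ => gquad d (-1) (fun i => (x.2 i : ℂ)) ((ρ ^ 2 : ℝ) : ℂ)) (fun _ => 2)
      (fun ρ _ => asm_gquad_hom _ _ _)
    have h3 := ((isHomogeneous_X ℂ (Sum.inl 0 : Fin (d + 1) ⊕ Fin (d + 1))).mul h1).mul h2
    have e : 1 + ∑ _ρ ∈ distinctDistances P, 2 + ∑ _ρ ∈ distinctDistances P, 2 =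
        4 * (distinctDistances P).card + 1 := by
      rw [Finset.sum_const, smul_eq_mul]
      ring
    rw [e] at h3
    exact h3
  · rw [map_mul, map_mul, map_prod, map_prod]
    refine mul_ne_zero (mul_ne_zero ?_ ?_) ?_
    · simp [Par.pt, gpar]
    · refine Finset.prod_ne_zero_iff.2 fun ρ hρ => ?_
      rw [asm_gquad_eval1, dist_self]
      have := asm_dd_pos hρ
      have h0 : (0 : ℝ) ^ 2 - ρ ^ 2 ≠ 0 := by nlinarith
      exact_mod_cast h0
    · refine Finset.prod_ne_zero_iff.2 fun ρ hρ => ?_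
      rw [asm_gquad_eval2, dist_self]
      have := asm_dd_pos hρ
      have h0 : (0 : ℝ) ^ 2 - ρ ^ 2 ≠ 0 := by nlinarith
      exact_mod_cast h0
  · intro x' hx' hne
    obtain ⟨hx1', hx2'⟩ := Finset.mem_product.1 hx'
    rw [map_mul, map_mul, map_prod, map_prod]
    by_cases h1 : x'.1 = x.1
    · have h2 : x'.2 ≠ x.2 := fun h2 => hne (Prod.ext h1 h2)
      refine mul_eq_zero_of_right _ (Finset.prod_eq_zero (asm_dd_mem hx2' hx2 h2) ?_)
      rw [asm_gquad_eval2, sub_self, Complex.ofReal_zero]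
    · refine mul_eq_zero_of_left (mul_eq_zero_of_right _
        (Finset.prod_eq_zero (asm_dd_mem hx1' hx1 h1) ?_)) _
      rw [asm_gquad_eval1, sub_self, Complex.ofReal_zero]

/-- **Hypotheses (i), (ii) for the global parameters.** -/
theorem asm_glob_hyp (P : Finset (Pt d)) (C0 : ℝ) (hC0 : 4 ≤ C0) (hA : 1 ≤ dA P) (hM : (dM P : ℝ) ≤ dA P)
    (hNA : (P.card : ℝ) ≤ dA P ^ (d - 1)) (V : Finset (Vx d)) (hV : V ⊆ P ×ˢ P) :
    ConcHyp (d + 1) C0 (dA P) (V.image gpar) where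
  onQ := by
    intro l hl
    obtain ⟨x, _, rfl⟩ := Finset.mem_image.1 hl
    exact asm_glob_onQ x
  sep := by
    intro l hl
    obtain ⟨x, hx, rfl⟩ := Finset.mem_image.1 hl
    obtain ⟨s, hs1, hs2, hs3⟩ := asm_glob_sep P x (hV hx)
    refine ⟨4 * (distinctDistances P).card + 1, by omega, ?_, s, hs1, hs2, ?_⟩
    · have h1 : (dM P : ℝ) = 1 + ((distinctDistances P).card : ℝ) := by
        unfold dM
        push_cast
        ring
      push_cast
      nlinarith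
    · intro m hm hne
      obtain ⟨x', hx', rfl⟩ := Finset.mem_image.1 hm
      exact hs3 x' (hV hx') fun h => hne (by rw [h])
  iso := by
    intro W hW F' hF' hFW
    obtain ⟨V', hV', rfl⟩ := Finset.subset_image_iff.1 hF'
    have hinj : Set.InjOn (fun a : Vx d => a.1) (V' : Set (Vx d)) := by
      intro a ha b hb hab
      have hab' : a.1 = b.1 := hab
      have h1 := hW _ (hFW _ (Finset.mem_image_of_mem _ ha)) _ (hFW _ (Finset.mem_image_of_mem _ hb))
      rw [asm_glob_polar, hab', dist_self] at h1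
      have h2 : (dist a.2 b.2 ^ 2 - 0 ^ 2) / 4 = 0 := by exact_mod_cast h1
      have h3 : dist a.2 b.2 = 0 := by
        have : dist a.2 b.2 ^ 2 = 0 := by linarith
        exact pow_eq_zero_iff (two_ne_zero) |>.1 this
      exact Prod.ext hab' (dist_eq_zero.1 h3)
    have hcard : V'.card ≤ P.card := by
      refine Finset.card_le_card_of_injOn (fun a : Vx d => a.1) ?_ hinj
      intro a ha
      exact (Finset.mem_product.1 (hV (hV' ha))).1
    have h1 : ((V'.image gpar).card : ℝ) ≤ (P.card : ℝ) := by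
      exact_mod_cast Finset.card_image_le.trans hcard
    have e : d + 1 - 2 = d - 1 := by omega
    rw [e]
    have h2 : 0 ≤ dA P ^ (d - 1) := by positivity
    nlinarith

end Claimed.Agent.R273
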