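import Claimed.Agent.R273.AsmDefs

/-!
# Row 273, package T2, leaves ASM-eqg (section `eqg`) and ASM-prune (section `prune`)

Blueprint: helper161.  The claimer of a leaf fills the sorries of ITS SECTION in place (statements are final; msg helper161 if one is false or awkward).  No paper reading.

`asm_eqG_card` (paper (eq:equality-edges)).  The map in the definition of `eqG` is injective, so `(eqG S).card` = number of `e ∈ S ×ˢ S` with equal lengths and `u + w ≠ 0`.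
(1) `E1 := (S ×ˢ S).filter (equal lengths)` has `∑_ρ s_ρ²` elements, `ρ ∈ distinctDistances P`, `s_ρ := (S.filter (dist = ρ)).card`, `∑_ρ s_ρ = S.card` (`Finset.card_eq_sum_card_fiberwise`; every
`(p,p') ∈ S` has `p ≠ p'`, both in `P`, so `dist p p' ∈ distinctDistances P`); `sq_sum_le_card_mul_sum_sq`; `(distinctDistances P).card ≤ dM P`, `0 < dM P`.
(2) the `e ∈ S ×ˢ S` with `u + w = 0` inject into `S ×ˢ P` by `e ↦ (e.1, e.2.1)` (`e.2.2 = e.2.1 - (e.1.2 - e.1.1)`).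

`asm_prune`.  `t := E.card / (2 V.card)`, `E[V'] := E.filter (both ends in V')`.  Among the `V' ⊆ V` with `E[V']` nonempty and `2 t V'.card ≤ E[V'].card` (`V` is one) take one of minimal cardinality.  If `x ∈ V'` had fewer
than `t` neighbours in `V'`, then `V' \ {x}` would be a smaller member: the edges of `E[V']` lost are those with first or second end `x`, at most `2 (star E x ∩ V').card` by symmetry.
-/

set_option autoImplicit false

namespace Claimed.Agent.R273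

open Claims.C0444

section eqg

variable {d : ℕ}

theorem asm_mem_eqG (S : Finset (Pt d × Pt d)) (p q p' q' : Pt d) :
    ((p, q), (p', q')) ∈ eqG S ↔ (p, p') ∈ S ∧ (q, q') ∈ S ∧ dist p p' = dist q q' ∧
      (p' - p) + (q' - q) ≠ 0 := by
  unfold eqG
  simp only [Finset.mem_image, Finset.mem_filter, Finset.mem_product]
  constructor
  · rintro ⟨⟨⟨a, a'⟩, ⟨b, b'⟩⟩, ⟨⟨h1, h2⟩, h3, h4⟩, h5⟩
    simp only [Prod.mk.injEq] at h5
    obtain ⟨⟨rfl, rfl⟩, rfl, rfl⟩ := h5
    exact ⟨h1, h2, h3, h4⟩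
  · rintro ⟨h1, h2, h3, h4⟩
    exact ⟨((p, p'), (q, q')), ⟨⟨h1, h2⟩, h3, h4⟩, rfl⟩

theorem asm_eqG_symm {P : Finset (Pt d)} {S : Finset (Pt d × Pt d)} (hS : IsGraphOn P S) :
    ∀ e ∈ eqG S, e.swap ∈ eqG S := by
  rintro ⟨⟨p, q⟩, ⟨p', q'⟩⟩ he
  rw [asm_mem_eqG] at he
  obtain ⟨h1, h2, h3, h4⟩ := he
  show ((p', q'), (p, q)) ∈ eqG S
  rw [asm_mem_eqG]
  refine ⟨hS.symm _ h1, hS.symm _ h2, by rw [dist_comm p' p, dist_comm q' q, h3], fun h => h4 ?_⟩
  have : (p' - p) + (q' - q) = -((p - p') + (q - q')) := by abel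
  rw [this, h, neg_zero]

theorem asm_eqG_sub {P : Finset (Pt d)} {S : Finset (Pt d × Pt d)} (hS : IsGraphOn P S) :
    eqG S ⊆ (P ×ˢ P) ×ˢ (P ×ˢ P) := by
  rintro ⟨⟨p, q⟩, ⟨p', q'⟩⟩ he
  rw [asm_mem_eqG] at he
  obtain ⟨h1, h2, -, -⟩ := he
  have a1 := Finset.mem_product.1 (hS.sub h1)
  have a2 := Finset.mem_product.1 (hS.sub h2)
  simp only [Finset.mem_product]
  exact ⟨⟨a1.1, a2.1⟩, a1.2, a2.2⟩

theorem asm_eqG_card {P : Finset (Pt d)} {S : Finset (Pt d × Pt d)} (hS : IsGraphOn P S) :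
    (S.card : ℝ) ^ 2 / (dM P : ℝ) - (P.card : ℝ) * (S.card : ℝ) ≤ ((eqG S).card : ℝ) := by
  classical
  obtain ⟨F, hF⟩ : ∃ F : Finset ((Pt d × Pt d) × (Pt d × Pt d)), F = (S ×ˢ S).filter fun e =>
      dist e.1.1 e.1.2 = dist e.2.1 e.2.2 ∧ (e.1.2 - e.1.1) + (e.2.2 - e.2.1) ≠ 0 := ⟨_, rfl⟩
  obtain ⟨E1, hE1⟩ : ∃ E1 : Finset ((Pt d × Pt d) × (Pt d × Pt d)), E1 = (S ×ˢ S).filter fun e =>
      dist e.1.1 e.1.2 = dist e.2.1 e.2.2 := ⟨_, rfl⟩
  obtain ⟨E0, hE0⟩ : ∃ E0 : Finset ((Pt d × Pt d) × (Pt d × Pt d)), E0 = (S ×ˢ S).filter fun e =>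
      (e.1.2 - e.1.1) + (e.2.2 - e.2.1) = 0 := ⟨_, rfl⟩
  -- the cardinality of `eqG`
  have hcard : (eqG S).card = F.card := by
    unfold eqG
    rw [← hF]
    apply Finset.card_image_of_injective
    rintro ⟨⟨a, a'⟩, ⟨b, b'⟩⟩ ⟨⟨c, c'⟩, ⟨e, e'⟩⟩ h
    simp only [Prod.mk.injEq] at h ⊢
    exact ⟨⟨h.1.1, h.2.1⟩, h.1.2, h.2.2⟩
  -- splitting
  have hsplit : E1.card ≤ F.card + E0.card := by
    refine (Finset.card_le_card ?_).trans (Finset.card_union_le F E0)
    intro e he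
    rw [hE1, Finset.mem_filter] at he
    rw [Finset.mem_union, hF, hE0, Finset.mem_filter, Finset.mem_filter]
    by_cases h0 : (e.1.2 - e.1.1) + (e.2.2 - e.2.1) = 0
    · exact Or.inr ⟨he.1, h0⟩
    · exact Or.inl ⟨he.1, he.2, h0⟩
  -- the degenerate pairs
  have hE0c : E0.card ≤ S.card * P.card := by
    rw [← Finset.card_product]
    refine Finset.card_le_card_of_injOn (fun e => (e.1, e.2.1)) ?_ ?_
    · intro e he
      rw [hE0] at he
      have he' := (Finset.mem_filter.1 (Finset.mem_coe.1 he)).1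
      have h1 := Finset.mem_product.1 he'
      exact Finset.mem_coe.2 (Finset.mem_product.2 ⟨h1.1, (Finset.mem_product.1 (hS.sub h1.2)).1⟩)
    · intro e he e' he' h
      rw [hE0] at he he'
      have h0 := (Finset.mem_filter.1 (Finset.mem_coe.1 he)).2
      have h0' := (Finset.mem_filter.1 (Finset.mem_coe.1 he')).2
      simp only [Prod.mk.injEq] at h
      obtain ⟨h1, h2⟩ := h
      have h3 : e.2.2 = e.2.1 - (e.1.2 - e.1.1) := by
        have : e.2.2 - e.2.1 = -(e.1.2 - e.1.1) := eq_neg_of_add_eq_zero_right h0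
        rw [sub_eq_iff_eq_add] at this
        rw [this]; abel
      have h3' : e'.2.2 = e'.2.1 - (e'.1.2 - e'.1.1) := by
        have : e'.2.2 - e'.2.1 = -(e'.1.2 - e'.1.1) := eq_neg_of_add_eq_zero_right h0'
        rw [sub_eq_iff_eq_add] at this
        rw [this]; abel
      refine Prod.ext h1 (Prod.ext h2 ?_)
      rw [h3, h3', h1, h2]
  -- fibres
  have hmem : ∀ x ∈ S, dist x.1 x.2 ∈ distinctDistances P := by
    intro x hx
    unfold distinctDistances
    exact Finset.mem_image.2 ⟨x, Finset.mem_filter.2 ⟨hS.sub hx, hS.irrefl x hx⟩, rfl⟩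
  have hS1 : S.card = ∑ ρ ∈ distinctDistances P, (S.filter fun x => dist x.1 x.2 = ρ).card :=
    Finset.card_eq_sum_card_fiberwise hmem
  have hE1c : E1.card
      = ∑ ρ ∈ distinctDistances P, (S.filter fun x => dist x.1 x.2 = ρ).card ^ 2 := by
    rw [Finset.card_eq_sum_card_fiberwise (f := fun e => dist e.1.1 e.1.2)
      (t := distinctDistances P)]
    · refine Finset.sum_congr rfl fun ρ _ => ?_
      rw [sq, ← Finset.card_product]
      congr 1
      ext e
      simp only [hE1, Finset.mem_filter, Finset.mem_product]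
      constructor
      · rintro ⟨⟨⟨h1, h2⟩, h3⟩, h4⟩
        exact ⟨⟨h1, h4⟩, h2, by rw [← h3, h4]⟩
      · rintro ⟨⟨h1, h4⟩, h2, h5⟩
        exact ⟨⟨⟨h1, h2⟩, by rw [h4, h5]⟩, h4⟩
    · intro e he
      rw [hE1] at he
      exact hmem _ (Finset.mem_product.1 (Finset.mem_filter.1 (Finset.mem_coe.1 he)).1).1
  have hcs : (S.card : ℝ) ^ 2 ≤ (dM P : ℝ) * (E1.card : ℝ) := by
    have h1 := sq_sum_le_card_mul_sum_sq (s := distinctDistances P)
      (f := fun ρ => ((S.filter fun x => dist x.1 x.2 = ρ).card : ℝ))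
    have h2 : (S.card : ℝ) = ∑ ρ ∈ distinctDistances P,
        ((S.filter fun x => dist x.1 x.2 = ρ).card : ℝ) := by
      rw [hS1]; push_cast; rfl
    have h3 : (E1.card : ℝ) = ∑ ρ ∈ distinctDistances P,
        ((S.filter fun x => dist x.1 x.2 = ρ).card : ℝ) ^ 2 := by
      rw [hE1c]; push_cast; rfl
    rw [h2, h3]
    refine h1.trans (mul_le_mul_of_nonneg_right ?_ (Finset.sum_nonneg fun _ _ => by positivity))
    unfold dM
    push_cast
    linarith
  have hM : (0 : ℝ) < dM P := by unfold dM; positivity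
  have h5 : (S.card : ℝ) ^ 2 / (dM P : ℝ) ≤ (E1.card : ℝ) := by
    rw [div_le_iff₀ hM, mul_comm]; exact hcs
  have h6 : (E1.card : ℝ) ≤ (F.card : ℝ) + (E0.card : ℝ) := by exact_mod_cast hsplit
  have h7 : (E0.card : ℝ) ≤ (S.card : ℝ) * (P.card : ℝ) := by exact_mod_cast hE0c
  rw [hcard]
  linarith

end eqg
section prune

theorem asm_prune_mem_star {β : Type*} [DecidableEq β] (E : Finset (β × β)) (x y : β) :
    y ∈ star E x ↔ (x, y) ∈ E := by
  unfold star
  simp only [Finset.mem_image, Finset.mem_filter]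
  constructor
  · rintro ⟨⟨a, b⟩, ⟨h1, h2⟩, h3⟩
    simp only at h2 h3
    rw [← h2, ← h3]; exact h1
  · intro h
    exact ⟨(x, y), ⟨h, rfl⟩, rfl⟩

/-- deleting one vertex loses at most twice its degree -/
theorem asm_prune_step {β : Type*} [DecidableEq β] (E : Finset (β × β))
    (hsymm : ∀ e ∈ E, e.swap ∈ E) (V' : Finset β) (x : β) :
    (E.filter fun e => e.1 ∈ V' ∧ e.2 ∈ V').card
      ≤ (E.filter fun e => e.1 ∈ V'.erase x ∧ e.2 ∈ V'.erase x).card
        + (star E x ∩ V').card + (star E x ∩ V').card := by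
  have hsub : (E.filter fun e => e.1 ∈ V' ∧ e.2 ∈ V')
      ⊆ ((E.filter fun e => e.1 ∈ V'.erase x ∧ e.2 ∈ V'.erase x)
        ∪ (star E x ∩ V').image (fun y => (x, y))) ∪ (star E x ∩ V').image (fun y => (y, x)) := by
    rintro ⟨a, b⟩ he
    obtain ⟨hE, ha, hb⟩ := Finset.mem_filter.1 he
    simp only at ha hb
    simp only [Finset.mem_union, Finset.mem_filter, Finset.mem_image, Finset.mem_inter,
      Finset.mem_erase, asm_prune_mem_star, Prod.mk.injEq]
    by_cases h1 : a = x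
    · subst h1
      exact Or.inl (Or.inr ⟨b, ⟨hE, hb⟩, rfl, rfl⟩)
    · by_cases h2 : b = x
      · subst h2
        exact Or.inr ⟨a, ⟨hsymm _ hE, ha⟩, rfl, rfl⟩
      · exact Or.inl (Or.inl ⟨hE, ⟨h1, ha⟩, h2, hb⟩)
  refine (Finset.card_le_card hsub).trans ((Finset.card_union_le _ _).trans ?_)
  refine add_le_add ((Finset.card_union_le _ _).trans ?_) Finset.card_image_le
  exact add_le_add le_rfl Finset.card_image_le

/-- a nonempty symmetric graph has a nonempty induced subgraph of minimum degree at least `|E| / (2 |V|)` (`E` = ordered edges) -/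
theorem asm_prune {β : Type*} [DecidableEq β] (V : Finset β) (E : Finset (β × β)) (hsub : E ⊆ V ×ˢ V)
    (hsymm : ∀ e ∈ E, e.swap ∈ E) (hE : E.Nonempty) :
    ∃ V' ⊆ V, V'.Nonempty ∧ ∀ x ∈ V', (E.card : ℝ) / (2 * (V.card : ℝ)) ≤ ((star E x ∩ V').card : ℝ) := by
  classical
  obtain ⟨t, ht⟩ : ∃ t : ℝ, t = (E.card : ℝ) / (2 * (V.card : ℝ)) := ⟨_, rfl⟩
  rw [← ht]
  have hVne : V.Nonempty := by
    obtain ⟨e, he⟩ := hE
    exact ⟨e.1, (Finset.mem_product.1 (hsub he)).1⟩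
  have hVc : (0 : ℝ) < V.card := by exact_mod_cast Finset.card_pos.2 hVne
  have ht0 : 0 ≤ t := by rw [ht]; positivity
  obtain ⟨Fam, hFam⟩ : ∃ Fam : Finset (Finset β), Fam = V.powerset.filter fun V' =>
      (E.filter fun e => e.1 ∈ V' ∧ e.2 ∈ V').Nonempty ∧
        2 * t * (V'.card : ℝ) ≤ ((E.filter fun e => e.1 ∈ V' ∧ e.2 ∈ V').card : ℝ) := ⟨_, rfl⟩
  have hEV : (E.filter fun e => e.1 ∈ V ∧ e.2 ∈ V) = E :=
    Finset.filter_true_of_mem fun e he => Finset.mem_product.1 (hsub he)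
  have hVF : V ∈ Fam := by
    rw [hFam, Finset.mem_filter, hEV]
    refine ⟨Finset.mem_powerset.2 le_rfl, hE, le_of_eq ?_⟩
    rw [ht]; field_simp
  obtain ⟨V', hV', hmin⟩ := Finset.exists_min_image Fam Finset.card ⟨V, hVF⟩
  have hV'2 := hV'
  rw [hFam, Finset.mem_filter] at hV'2
  obtain ⟨hsubV, hne, hcnt⟩ := hV'2
  refine ⟨V', Finset.mem_powerset.1 hsubV, ?_, ?_⟩
  · obtain ⟨e, he⟩ := hne
    exact ⟨e.1, (Finset.mem_filter.1 he).2.1⟩
  · intro x hx
    by_contra hlt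
    rw [not_le] at hlt
    have hstep := asm_prune_step E hsymm V' x
    have hstep' : ((E.filter fun e => e.1 ∈ V' ∧ e.2 ∈ V').card : ℝ)
        ≤ ((E.filter fun e => e.1 ∈ V'.erase x ∧ e.2 ∈ V'.erase x).card : ℝ)
          + ((star E x ∩ V').card : ℝ) + ((star E x ∩ V').card : ℝ) := by exact_mod_cast hstep
    have hce : ((V'.erase x).card : ℝ) = (V'.card : ℝ) - 1 := by
      rw [Finset.card_erase_of_mem hx, Nat.cast_sub (Finset.card_pos.2 ⟨x, hx⟩)]; simp
    have hgt : 2 * t * ((V'.erase x).card : ℝ)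
        < ((E.filter fun e => e.1 ∈ V'.erase x ∧ e.2 ∈ V'.erase x).card : ℝ) := by
      rw [hce]; nlinarith
    have hmem : V'.erase x ∈ Fam := by
      rw [hFam, Finset.mem_filter]
      refine ⟨Finset.mem_powerset.2 ((Finset.erase_subset _ _).trans (Finset.mem_powerset.1 hsubV)),
        ?_, hgt.le⟩
      rw [← Finset.card_pos]
      have h0 : (0 : ℝ) ≤ 2 * t * ((V'.erase x).card : ℝ) := by positivity
      exact_mod_cast lt_of_le_of_lt h0 hgt
    have := hmin _ hmem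
    have h2 := Finset.card_erase_lt_of_mem hx
    omega

end prune

end Claimed.Agent.R273
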