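import Claimed.Agent.R273.AsmGraph
import Claimed.Agent.R273.AsmSel

/-!
# Row 273, package T2, leaf ASM-loc: the hypotheses of the local concentration (paper Lemma red:local-concentration, `e = d`)

Blueprint: helper161.  The claimer fills the sorries IN PLACE (statements are final; msg helper161 if one is false or awkward).  No paper reading.  `asm_mem_eqG`, `asm_mem_star` are black boxes.

`u := x'.1 - x.1`, `w := x'.2 - x.2`; `(lpar x x').1 i = (u i : ℂ) + (w i : ℂ)`, `(lpar x x').2 i = (u i : ℂ) - (w i : ℂ)`, `cdir x.1 x'.1 i = (u i : ℂ)`.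
* `asm_lpar_inj`: sum and difference recover `u`, `w`.
* `asm_loc_polar`: `∑ ((u_a - w_a)(u_b + w_b) + (u_b - w_b)(u_a + w_a)) = 2 (u_a·u_b - w_a·w_b)`; `PiLp.inner_apply`, `real_inner_eq..`/`RCLike.inner_apply`, `conj_trivial`; push casts.
* `asm_loc_onQ`: `v ≠ 0` from `u + w ≠ 0` (a coordinate is nonzero; `Complex.ofReal` injective); `∑ (u-w)(u+w) = |u|² - |w|² = 0` from `dist x.1 x'.1 = dist x.2 x'.2` (`asm_dist_sq'` below).
* `asm_loc_sep`: `s₁` = separator of `(x.1, x'.1) ∈ S`, `s₂` = separator of `(x.2, x'.2) ∈ S` (`StarSep`), `σ₁ i := C (1/2) * (X (inl i) + X (inr i))`, `σ₂ i := C (1/2) * (X (inl i) - X (inr i))` (homogeneous of degree 1),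
  `s := bind₁ σ₁ s₁ * bind₁ σ₂ s₂`, homogeneous of degree `D + D` (`IsHomogeneous.eval₂`/`aeval`-version, `mul_one`), `eval (lpar x a).pt (bind₁ σ₁ s₁) = eval (cdir x.1 a.1) s₁`.  Another neighbour `a ≠ x'` has `a.1 ≠ x'.1` or `a.2 ≠ x'.2`.
* `asm_loc_hyp`: `k := 2 D`; `iso`: pull `F'` back to `T ⊆ star E x` (`Finset.subset_image_iff`), `GramSet x T` by `asm_loc_polar` (`Complex.ofReal_eq_zero`), `CapProp`, `Finset.card_image_le`.
-/

set_option autoImplicit false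

namespace Claimed.Agent.R273

open Claims.C0444 MvPolynomial

variable {d : ℕ}

theorem asml_inner (u v : Pt d) : inner ℝ u v = ∑ i, u i * v i := by
  rw [PiLp.inner_apply]
  refine Finset.sum_congr rfl fun i _ => ?_
  simp [mul_comm]

theorem asml_cdir (p q : Pt d) (i : Fin d) : cdir p q i = (((q - p) i : ℝ) : ℂ) := by
  simp [cdir]

theorem asm_lpar_inj (x : Vx d) : Function.Injective (lpar x) := by
  intro a b h
  have h1 : ∀ i, cdir x.1 a.1 i + cdir x.2 a.2 i = cdir x.1 b.1 i + cdir x.2 b.2 i := fun i =>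
    congrFun (congrArg Prod.fst h) i
  have h2 : ∀ i, cdir x.1 a.1 i - cdir x.2 a.2 i = cdir x.1 b.1 i - cdir x.2 b.2 i := fun i =>
    congrFun (congrArg Prod.snd h) i
  have hu : ∀ i, cdir x.1 a.1 i = cdir x.1 b.1 i := fun i => by linear_combination (h1 i + h2 i) / 2
  have hw : ∀ i, cdir x.2 a.2 i = cdir x.2 b.2 i := fun i => by linear_combination (h1 i - h2 i) / 2
  refine Prod.ext ?_ ?_
  · ext i
    have := hu i
    unfold cdir at this
    have h3 := Complex.ofReal_injective this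
    linarith
  · ext i
    have := hw i
    unfold cdir at this
    have h3 := Complex.ofReal_injective this
    linarith

theorem asm_loc_polar (x a b : Vx d) : Par.polar (lpar x a) (lpar x b) =
    ((2 * (inner ℝ (a.1 - x.1) (b.1 - x.1) - inner ℝ (a.2 - x.2) (b.2 - x.2)) : ℝ) : ℂ) := by
  unfold Par.polar lpar
  rw [asml_inner, asml_inner, ← Finset.sum_sub_distrib, Finset.mul_sum]
  push_cast
  refine Finset.sum_congr rfl fun i _ => ?_
  simp only [cdir, PiLp.sub_apply]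
  push_cast
  ring

theorem asm_loc_onQ (x x' : Vx d) (h1 : dist x.1 x'.1 = dist x.2 x'.2)
    (h2 : (x'.1 - x.1) + (x'.2 - x.2) ≠ 0) :
    (lpar x x').1 ≠ 0 ∧ ∑ i, (lpar x x').2 i * (lpar x x').1 i = 0 := by
  constructor
  · intro h0
    apply h2
    ext i
    have h3 := congrFun h0 i
    simp only [lpar, cdir, Pi.zero_apply] at h3
    rw [← Complex.ofReal_add, Complex.ofReal_eq_zero] at h3
    simp only [PiLp.add_apply, PiLp.sub_apply, PiLp.zero_apply]
    exact h3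
  · have e1 : dist x.1 x'.1 ^ 2 = dist x.2 x'.2 ^ 2 := by rw [h1]
    rw [EuclideanSpace.dist_eq, EuclideanSpace.dist_eq, Real.sq_sqrt (Finset.sum_nonneg fun _ _ => by positivity),
      Real.sq_sqrt (Finset.sum_nonneg fun _ _ => by positivity)] at e1
    simp only [Real.dist_eq, sq_abs] at e1
    have e2 : ∑ i, (lpar x x').2 i * (lpar x x').1 i
        = ((∑ i, (x.1 i - x'.1 i) ^ 2 - ∑ i, (x.2 i - x'.2 i) ^ 2 : ℝ) : ℂ) := by
      rw [← Finset.sum_sub_distrib]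
      push_cast
      refine Finset.sum_congr rfl fun i _ => ?_
      simp only [lpar, cdir]
      push_cast
      ring
    rw [e2, e1, sub_self, Complex.ofReal_zero]

theorem asm_loc_sep {S : Finset (Pt d × Pt d)} {D : ℕ} (hsep : StarSep D S) (x x' : Vx d)
    (h1 : (x.1, x'.1) ∈ S) (h2 : (x.2, x'.2) ∈ S) :
    ∃ s : MvPolynomial (Fin d ⊕ Fin d) ℂ, s.IsHomogeneous (2 * D) ∧ eval (lpar x x').pt s ≠ 0 ∧
      ∀ a : Vx d, (x.1, a.1) ∈ S → (x.2, a.2) ∈ S → a ≠ x' → eval (lpar x a).pt s = 0 := by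
  obtain ⟨s₁, hs₁h, hs₁n, hs₁z⟩ := hsep x.1 x'.1 h1
  obtain ⟨s₂, hs₂h, hs₂n, hs₂z⟩ := hsep x.2 x'.2 h2
  set σ₁ : Fin d → MvPolynomial (Fin d ⊕ Fin d) ℂ := fun i => C (1 / 2) * (X (Sum.inl i) + X (Sum.inr i)) with hσ₁d
  set σ₂ : Fin d → MvPolynomial (Fin d ⊕ Fin d) ℂ := fun i => C (1 / 2) * (X (Sum.inl i) - X (Sum.inr i)) with hσ₂d
  have hσ₁ : ∀ i, (σ₁ i).IsHomogeneous 1 := fun i => by
    have := (isHomogeneous_C (Fin d ⊕ Fin d) (1 / 2 : ℂ)).mul
      ((isHomogeneous_X ℂ (Sum.inl i : Fin d ⊕ Fin d)).add (isHomogeneous_X ℂ (Sum.inr i)))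
    rw [zero_add] at this
    exact this
  have hσ₂ : ∀ i, (σ₂ i).IsHomogeneous 1 := fun i => by
    have := (isHomogeneous_C (Fin d ⊕ Fin d) (1 / 2 : ℂ)).mul
      ((isHomogeneous_X ℂ (Sum.inl i : Fin d ⊕ Fin d)).sub (isHomogeneous_X ℂ (Sum.inr i)))
    rw [zero_add] at this
    exact this
  have ev₁ : ∀ a : Vx d, eval (lpar x a).pt (bind₁ σ₁ s₁) = eval (cdir x.1 a.1) s₁ := by
    intro a
    have h := eval₂Hom_bind₁ (RingHom.id ℂ) (lpar x a).pt σ₁ s₁
    have e : (fun i => eval₂Hom (RingHom.id ℂ) (lpar x a).pt (σ₁ i)) = cdir x.1 a.1 := by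
      funext i
      show eval (lpar x a).pt (σ₁ i) = _
      simp only [hσ₁d, map_mul, map_add, eval_C, eval_X, Par.pt, Sum.elim_inl, Sum.elim_inr, lpar]
      ring
    rw [e] at h
    exact h
  have ev₂ : ∀ a : Vx d, eval (lpar x a).pt (bind₁ σ₂ s₂) = eval (cdir x.2 a.2) s₂ := by
    intro a
    have h := eval₂Hom_bind₁ (RingHom.id ℂ) (lpar x a).pt σ₂ s₂
    have e : (fun i => eval₂Hom (RingHom.id ℂ) (lpar x a).pt (σ₂ i)) = cdir x.2 a.2 := by
      funext i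
      show eval (lpar x a).pt (σ₂ i) = _
      simp only [hσ₂d, map_mul, map_sub, eval_C, eval_X, Par.pt, Sum.elim_inl, Sum.elim_inr, lpar]
      ring
    rw [e] at h
    exact h
  refine ⟨bind₁ σ₁ s₁ * bind₁ σ₂ s₂, ?_, ?_, ?_⟩
  · have := (hs₁h.aeval σ₁ hσ₁).mul (hs₂h.aeval σ₂ hσ₂)
    have e : 1 * D + 1 * D = 2 * D := by ring
    rw [e] at this
    exact this
  · rw [map_mul, ev₁, ev₂]
    exact mul_ne_zero hs₁n hs₂n
  · intro a ha1 ha2 hne
    rw [map_mul, ev₁, ev₂]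
    by_cases h : a.1 = x'.1
    · have h' : a.2 ≠ x'.2 := fun h' => hne (Prod.ext h h')
      rw [hs₂z a.2 ha2 h', mul_zero]
    · rw [hs₁z a.1 ha1 h, zero_mul]

/-- **Hypotheses (i), (ii) for the local parameters at the vertex `x`.** -/
theorem asm_loc_hyp {S : Finset (Pt d × Pt d)} {D : ℕ} (hD : 1 ≤ D) (hsep : StarSep D S)
    {E : Finset (Vx d × Vx d)} (hE : E ⊆ eqG S) (C0 A : ℝ) (hdeg : 2 * (D : ℝ) ≤ C0 * A)
    (hcap : CapProp E (C0 * A ^ (d - 2))) (x : Vx d) :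
    ConcHyp d C0 A ((star E x).image (lpar x)) := by
  have hmem : ∀ a, a ∈ star E x → (x.1, a.1) ∈ S ∧ (x.2, a.2) ∈ S ∧ dist x.1 a.1 = dist x.2 a.2 ∧
      (a.1 - x.1) + (a.2 - x.2) ≠ 0 := by
    intro a ha
    have h1 := hE ((asm_mem_star E x a).1 ha)
    exact (asm_mem_eqG S x.1 x.2 a.1 a.2).1 h1
  refine ⟨?_, ?_, ?_⟩
  · intro l hl
    obtain ⟨a, ha, rfl⟩ := Finset.mem_image.1 hl
    obtain ⟨-, -, h3, h4⟩ := hmem a ha
    exact asm_loc_onQ x a h3 h4
  · intro l hl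
    obtain ⟨a, ha, rfl⟩ := Finset.mem_image.1 hl
    obtain ⟨h1, h2, -, -⟩ := hmem a ha
    obtain ⟨s, hs1, hs2, hs3⟩ := asm_loc_sep hsep x a h1 h2
    refine ⟨2 * D, by omega, by push_cast; exact hdeg, s, hs1, hs2, ?_⟩
    intro m hm hne
    obtain ⟨b, hb, rfl⟩ := Finset.mem_image.1 hm
    obtain ⟨g1, g2, -, -⟩ := hmem b hb
    exact hs3 b g1 g2 (fun h => hne (by rw [h]))
  · intro W hW F' hF' hFW
    obtain ⟨T, hT, rfl⟩ := Finset.subset_image_iff.1 hF'
    have hG : GramSet x T := by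
      intro a ha b hb
      have h1 := hW _ (hFW _ (Finset.mem_image_of_mem _ ha)) _ (hFW _ (Finset.mem_image_of_mem _ hb))
      rw [asm_loc_polar, Complex.ofReal_eq_zero] at h1
      linarith
    have h2 := hcap x T hT hG
    have h3 : ((T.image (lpar x)).card : ℝ) ≤ (T.card : ℝ) := by exact_mod_cast Finset.card_image_le
    exact h3.trans h2

end Claimed.Agent.R273
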