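import Claimed.Agent.R273.AsmDefs

/-!
# Row 273, package T2, leaf ASM-num: numerics of the assembly, and `RegimeStmt`

Blueprint: helper161.  PROVED (helper237).

`dA P = N ^ (2 / d)` (real power, `N = P.card`).  `asm_A_pow`: `← Real.rpow_natCast`, `← Real.rpow_mul`, `div_mul_cancel₀`, `Real.rpow_two`/`Real.rpow_ofNat`.
`asm_A_le_N`: exponent `2/d ≤ 1`, base `≥ 1` (`Real.rpow_le_rpow_of_exponent_le`, `Real.rpow_one`).  `asm_N_le_pow`: `A * A^(d-1) = A^d = N * N` and `A ≤ N`.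
`asm_choose_le`: `Nat.choose_le_pow`, `D + s ≤ (1 + s) A`, `mul_pow`.
`asm_num_edges`: `s²/M ≥ c'² N⁴/M`;  `N s ≤ N³ ≤ N⁴/A`;  `N⁴/A ≤ ε N⁴/M`.
`asm_num_final`: `δ := c3 N²/M ≥ (c3/ε) A^(d-1)` (`A^d = A * A^(d-1)`); first claim: `θ c3/(2ε) ≥ 2 CL`; second: `x := θ δ/8 ≥ 2 (d+1) A^(d-1) ≥ 2 (d+1) A`, `2 N² = 2 A^d ≤ exp A * exp (d A)` (`A ≤ exp A`:
`Real.add_one_le_exp`; `2 ≤ exp 1 ≤ exp A`), so `N² exp (-x) ≤ exp ((d+1) A - x) / 2 < 1/2`.
`asm_regime`: `c := ε / 2`.  `Δ := distinctDistances P` is nonempty for `N ≥ 2` (`Finset.one_lt_card`).  If `1 ≤ ε N`: `ε A < 1 + |Δ| ≤ 2 |Δ|`.  Otherwise `A ≤ N < 1/ε`, so `(ε/2) A < 1 ≤ |Δ|`.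
-/

set_option autoImplicit false

namespace Claimed.Agent.R273

open Claims.C0444

theorem asm_A_pow {d : ℕ} (hd : 0 < d) (P : Finset (Pt d)) : dA P ^ d = (P.card : ℝ) ^ 2 := by
  have hd' : (d : ℝ) ≠ 0 := by positivity
  unfold dA
  rw [← Real.rpow_natCast, ← Real.rpow_mul (by positivity), div_mul_cancel₀ _ hd']
  exact Real.rpow_ofNat _ 2

theorem asm_A_ge_one {d : ℕ} (P : Finset (Pt d)) (h : 1 ≤ P.card) : 1 ≤ dA P := by
  unfold dA
  apply Real.one_le_rpow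
  · exact_mod_cast h
  · positivity

theorem asm_A_le_N {d : ℕ} (hd : 2 ≤ d) (P : Finset (Pt d)) (h : 1 ≤ P.card) : dA P ≤ (P.card : ℝ) := by
  unfold dA
  have h1 : (1 : ℝ) ≤ (P.card : ℝ) := by exact_mod_cast h
  have hd' : (2 : ℝ) ≤ (d : ℝ) := by exact_mod_cast hd
  calc (P.card : ℝ) ^ ((2 : ℝ) / d) ≤ (P.card : ℝ) ^ (1 : ℝ) := by
        apply Real.rpow_le_rpow_of_exponent_le h1
        rw [div_le_one (by linarith)]
        exact hd'
    _ = (P.card : ℝ) := Real.rpow_one _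

theorem asm_N_le_pow {d : ℕ} (hd : 2 ≤ d) (P : Finset (Pt d)) (h : 1 ≤ P.card) :
    (P.card : ℝ) ≤ dA P ^ (d - 1) := by
  have h1 : (1 : ℝ) ≤ (P.card : ℝ) := by exact_mod_cast h
  have hA := asm_A_pow (d := d) (by omega) P
  have hAN := asm_A_le_N hd P h
  have hA1 := asm_A_ge_one P h
  have hsplit : dA P ^ d = dA P * dA P ^ (d - 1) := by
    rw [← pow_succ']
    congr 1
    omega
  rw [hsplit] at hA
  have hpos : 0 < dA P ^ (d - 1) := by positivity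
  by_contra hcon
  push Not at hcon
  have : dA P * dA P ^ (d - 1) < (P.card : ℝ) * (P.card : ℝ) := by
    calc dA P * dA P ^ (d - 1) ≤ (P.card : ℝ) * dA P ^ (d - 1) :=
          mul_le_mul_of_nonneg_right hAN hpos.le
      _ < (P.card : ℝ) * (P.card : ℝ) := mul_lt_mul_of_pos_left hcon (by linarith)
  rw [hA] at this
  nlinarith

theorem asm_choose_le (D s : ℕ) (A : ℝ) (hA : 1 ≤ A) (hD : (D : ℝ) ≤ A) :
    ((D + s).choose s : ℝ) ≤ (1 + (s : ℝ)) ^ s * A ^ s := by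
  have h1 : ((D + s).choose s : ℝ) ≤ ((D + s : ℕ) : ℝ) ^ s := by
    exact_mod_cast Nat.choose_le_pow (D + s) s
  have h2 : ((D + s : ℕ) : ℝ) ≤ (1 + (s : ℝ)) * A := by
    push_cast
    have hs : (0 : ℝ) ≤ (s : ℝ) := by positivity
    nlinarith
  calc ((D + s).choose s : ℝ) ≤ ((D + s : ℕ) : ℝ) ^ s := h1
    _ ≤ ((1 + (s : ℝ)) * A) ^ s := pow_le_pow_left₀ (by positivity) h2 s
    _ = (1 + (s : ℝ)) ^ s * A ^ s := mul_pow _ _ _

theorem asm_num_edges {N M A c' Kd ε s g e : ℝ} (hA1 : 1 ≤ A) (hAN : A ≤ N) (hM0 : 0 < M) (hM : M ≤ ε * A)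
    (hε : 0 < ε) (hc' : 0 < c') (hKd : 0 < Kd) (hε2 : ε * (1 + Kd) ≤ c' ^ 2 / 2)
    (hs1 : c' * N ^ 2 ≤ s) (hs2 : s ≤ N ^ 2) (hg : s ^ 2 / M - N * s ≤ g) (he : g ≤ e + Kd * N ^ 4 / A) :
    c' ^ 2 / 2 * N ^ 4 / M ≤ e := by
  have hA0 : 0 < A := by linarith
  have hN0 : 0 < N := by linarith
  have hN4 : 0 < N ^ 4 := by positivity
  -- s^2 / M ≥ c'^2 N^4 / M
  have e1 : c' ^ 2 * N ^ 4 / M ≤ s ^ 2 / M := by
    apply div_le_div_of_nonneg_right _ hM0.le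
    have : (c' * N ^ 2) ^ 2 ≤ s ^ 2 := pow_le_pow_left₀ (by positivity) hs1 2
    calc c' ^ 2 * N ^ 4 = (c' * N ^ 2) ^ 2 := by ring
      _ ≤ s ^ 2 := this
  -- N s ≤ N^4 / A
  have e2 : N * s ≤ N ^ 4 / A := by
    rw [le_div_iff₀ hA0]
    calc N * s * A ≤ N * N ^ 2 * N := by
          apply mul_le_mul (mul_le_mul_of_nonneg_left hs2 hN0.le) hAN hA0.le (by positivity)
      _ = N ^ 4 := by ring
  -- N^4 / A ≤ ε N^4 / M
  have e3 : N ^ 4 / A ≤ ε * N ^ 4 / M := by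
    rw [div_le_div_iff₀ hA0 hM0]
    calc N ^ 4 * M ≤ N ^ 4 * (ε * A) := mul_le_mul_of_nonneg_left hM hN4.le
      _ = ε * N ^ 4 * A := by ring
  have e4 : (1 + Kd) * (N ^ 4 / A) ≤ c' ^ 2 / 2 * N ^ 4 / M := by
    calc (1 + Kd) * (N ^ 4 / A) ≤ (1 + Kd) * (ε * N ^ 4 / M) :=
          mul_le_mul_of_nonneg_left e3 (by linarith)
      _ = (ε * (1 + Kd)) * (N ^ 4 / M) := by ring
      _ ≤ (c' ^ 2 / 2) * (N ^ 4 / M) := mul_le_mul_of_nonneg_right hε2 (by positivity)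
      _ = c' ^ 2 / 2 * N ^ 4 / M := by ring
  have e5 : Kd * N ^ 4 / A = Kd * (N ^ 4 / A) := by ring
  have e6 : c' ^ 2 * N ^ 4 / M = 2 * (c' ^ 2 / 2 * N ^ 4 / M) := by ring
  rw [e5] at he
  rw [e6] at e1
  linarith

theorem asm_num_final {d : ℕ} (hd : 3 ≤ d) {N M A c3 θ CL ε : ℝ} (hA1 : 1 ≤ A) (hpow : A ^ d = N ^ 2)
    (hM0 : 0 < M) (hM : M ≤ ε * A) (hε : 0 < ε) (hc3 : 0 < c3) (hθ : 0 < θ) (hCL : 0 < CL)
    (h1 : ε ≤ θ * c3 / (4 * CL)) (h2 : ε ≤ θ * c3 / (16 * ((d : ℝ) + 1))) :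
    CL * A ^ (d - 1) < θ * (c3 * N ^ 2 / M) / 2 ∧
      N ^ 2 * Real.exp (-(θ * (c3 * N ^ 2 / M) / 8)) < 1 / 2 := by
  have hA0 : 0 < A := by linarith
  obtain ⟨B, hB⟩ : ∃ B, B = A ^ (d - 1) := ⟨_, rfl⟩
  have hB1 : 1 ≤ B := by rw [hB]; exact one_le_pow₀ hA1
  have hBA : A ≤ B := by
    rw [hB]
    calc A = A ^ 1 := (pow_one A).symm
      _ ≤ A ^ (d - 1) := pow_le_pow_right₀ hA1 (by omega)
  have hsplit : A ^ d = A * B := by
    rw [hB, ← pow_succ']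
    congr 1
    omega
  have hd0 : (0 : ℝ) < (d : ℝ) + 1 := by positivity
  rw [← hB, ← hpow, hsplit]
  -- δ ≥ (c3 / ε) B
  have hδ : c3 * B / ε ≤ c3 * (A * B) / M := by
    rw [div_le_div_iff₀ hε hM0]
    calc c3 * B * M ≤ c3 * B * (ε * A) := mul_le_mul_of_nonneg_left hM (by positivity)
      _ = c3 * (A * B) * ε := by ring
  obtain ⟨δ, hδd⟩ : ∃ δ, δ = c3 * (A * B) / M := ⟨_, rfl⟩
  rw [← hδd] at hδ ⊢
  have h1' : 4 * CL * ε ≤ θ * c3 := by
    rw [le_div_iff₀ (by positivity)] at h1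
    linarith
  have h2' : 16 * ((d : ℝ) + 1) * ε ≤ θ * c3 := by
    rw [le_div_iff₀ (by positivity)] at h2
    linarith
  have k1 : 4 * CL * B ≤ θ * δ := by
    calc 4 * CL * B = (4 * CL * ε) * (B / ε) := by field_simp
      _ ≤ (θ * c3) * (B / ε) := mul_le_mul_of_nonneg_right h1' (by positivity)
      _ = θ * (c3 * B / ε) := by ring
      _ ≤ θ * δ := mul_le_mul_of_nonneg_left hδ hθ.le
  have k2 : 16 * ((d : ℝ) + 1) * B ≤ θ * δ := by
    calc 16 * ((d : ℝ) + 1) * B = (16 * ((d : ℝ) + 1) * ε) * (B / ε) := by field_simp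
      _ ≤ (θ * c3) * (B / ε) := mul_le_mul_of_nonneg_right h2' (by positivity)
      _ = θ * (c3 * B / ε) := by ring
      _ ≤ θ * δ := mul_le_mul_of_nonneg_left hδ hθ.le
  refine ⟨?_, ?_⟩
  · have : 0 < CL * B := by positivity
    linarith
  · have hx : 2 * ((d : ℝ) + 1) * A ≤ θ * δ / 8 := by
      have : 16 * ((d : ℝ) + 1) * A ≤ 16 * ((d : ℝ) + 1) * B :=
        mul_le_mul_of_nonneg_left hBA (by positivity)
      linarith
    have hAexp : A ≤ Real.exp A := by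
      have := Real.add_one_le_exp A
      linarith
    have hAd : A * B ≤ Real.exp ((d : ℝ) * A) := by
      rw [← hsplit]
      calc A ^ d ≤ (Real.exp A) ^ d := pow_le_pow_left₀ hA0.le hAexp d
        _ = Real.exp ((d : ℝ) * A) := by rw [← Real.exp_nat_mul]
    calc A * B * Real.exp (-(θ * δ / 8))
        ≤ Real.exp ((d : ℝ) * A) * Real.exp (-(θ * δ / 8)) :=
          mul_le_mul_of_nonneg_right hAd (Real.exp_pos _).le
      _ = Real.exp ((d : ℝ) * A - θ * δ / 8) := by rw [← Real.exp_add]; ring_nf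
      _ ≤ Real.exp (-1) := by
          apply Real.exp_le_exp.mpr
          have hdA : 0 ≤ (d : ℝ) * A := by positivity
          nlinarith
      _ < 1 / 2 := by
          rw [Real.exp_neg, one_div]
          apply inv_strictAnti₀ (by norm_num)
          have := Real.exp_one_gt_d9
          linarith

/-- **`RegimeStmt`.** -/
theorem asm_regime (d : ℕ) : RegimeStmt d := by
  intro hd ⟨ε, hε, h⟩
  refine ⟨ε / 2, by positivity, ?_⟩
  intro P hP
  have hne : 1 ≤ (distinctDistances P).card := by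
    obtain ⟨a, ha, b, hb, hab⟩ := Finset.one_lt_card.mp (show 1 < P.card by omega)
    apply Finset.card_pos.mpr
    refine ⟨dist a b, ?_⟩
    unfold distinctDistances
    apply Finset.mem_image.mpr
    refine ⟨(a, b), ?_, rfl⟩
    simp [ha, hb, hab]
  have hne' : (1 : ℝ) ≤ ((distinctDistances P).card : ℝ) := by exact_mod_cast hne
  have hAdef : (P.card : ℝ) ^ ((2 : ℝ) / d) = dA P := rfl
  rw [hAdef]
  by_cases hc : 1 ≤ ε * (P.card : ℝ)
  · have := h P hc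
    unfold dM at this
    push_cast at this
    linarith
  · push Not at hc
    have hAN := asm_A_le_N (d := d) (by omega) P (by omega)
    have : ε * dA P ≤ ε * (P.card : ℝ) := mul_le_mul_of_nonneg_left hAN hε.le
    linarith

end Claimed.Agent.R273
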