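import Mathlib

/-!
# Row 273, package T2, leaf ASM-sample: one random sample (paper Prop. red:main-contradiction, the probabilistic step)

Blueprint: helper161.  The claimer fills the sorries IN PLACE (statements are final; msg helper161 if one is false or awkward).  No paper reading.  Mathlib only.

Weights on the subsets of `V`: `wt T := θ ^ T.card * (1 - θ) ^ (V \ T).card`, `T ∈ V.powerset`.  `Finset.prod_add` with functions `f g : β → ℝ` gives the generating identity
`∑_{T ⊆ V} (∏_{i ∈ T} f i) (∏_{i ∈ V \ T} g i) = ∏_{i ∈ V} (f i + g i)`: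
* total mass `1` (`f = θ`, `g = 1 - θ`);
* `asm_smp_mgf`: `∑_T wt T * (1/2) ^ (B ∩ T).card = (1 - θ/2) ^ B.card` for `B ⊆ V` (`f i = θ/2` on `B`, `θ` off `B`);
* `asm_smp_mean`: `∑_T wt T * T.card = θ V.card` (differentiate, or induction on `V`, or linearity: `∑_T wt T 1[i ∈ T] = θ`).
`asm_smp_low` (Chernoff): if `(B ∩ T).card < θ δ / 2` then `1 ≤ 2 ^ (θ δ / 2) (1/2) ^ (B ∩ T).card` (real powers), so the mass is at most
`2 ^ (θ b / 2) (1 - θ/2) ^ b ≤ exp (θ b (log 2) / 2 - θ b / 2) ≤ exp (- θ b / 8) ≤ exp (- θ δ / 8)`, `b = B.card ≥ δ` (`Real.add_one_le_exp`, `Real.log_two_lt_d9`: `log 2 < 0.75`).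
`asm_smp_big` (Markov): the mass of `2 θ V.card < T.card` is at most `1/2` (if `V` is empty the event is empty).
`asm_sample`: the masses of the failures add up to less than `1`, so some `T` of positive weight (or simply: some `T`) avoids all of them.
-/

set_option autoImplicit false

namespace Claimed.Agent.R273

open Finset

/-- weight of the subset `T` of `V` -/
noncomputable def smpWt {β : Type*} [DecidableEq β] (V : Finset β) (θ : ℝ) (T : Finset β) : ℝ :=
  θ ^ T.card * (1 - θ) ^ (V \ T).card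

variable {β : Type*} [DecidableEq β]

theorem asm_smp_total (V : Finset β) (θ : ℝ) : ∑ T ∈ V.powerset, smpWt V θ T = 1 := by
  have h := Finset.prod_add (fun _ : β => θ) (fun _ : β => 1 - θ) V
  simp only [prod_const, add_sub_cancel, one_pow] at h
  exact h.symm

theorem asm_smp_mgf (V B : Finset β) (hB : B ⊆ V) (θ : ℝ) :
    ∑ T ∈ V.powerset, smpWt V θ T * (1 / 2 : ℝ) ^ (B ∩ T).card = (1 - θ / 2) ^ B.card := by
  have h := Finset.prod_add (fun i : β => θ * (if i ∈ B then (1 / 2 : ℝ) else 1))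
    (fun _ : β => 1 - θ) V
  have e1 : ∀ T : Finset β, ∏ i ∈ T, (θ * (if i ∈ B then (1 / 2 : ℝ) else 1))
      = θ ^ T.card * (1 / 2 : ℝ) ^ (B ∩ T).card := by
    intro T
    rw [prod_mul_distrib, prod_const, prod_ite, prod_const, prod_const_one, mul_one,
      filter_mem_eq_inter, inter_comm]
  have e2 : ∏ i ∈ V, (θ * (if i ∈ B then (1 / 2 : ℝ) else 1) + (1 - θ)) = (1 - θ / 2) ^ B.card := by
    have : ∀ i ∈ V, (θ * (if i ∈ B then (1 / 2 : ℝ) else 1) + (1 - θ))
        = if i ∈ B then 1 - θ / 2 else 1 := by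
      intro i _
      split_ifs <;> ring
    rw [prod_congr rfl this, prod_ite, prod_const, prod_const_one, mul_one, filter_mem_eq_inter,
      inter_eq_right.2 hB]
  rw [e2] at h
  rw [h]
  refine sum_congr rfl fun T _ => ?_
  rw [e1, prod_const]
  unfold smpWt
  ring

theorem asm_smp_wt_insert_left {V : Finset β} {a : β} (ha : a ∉ V) (θ : ℝ) {T : Finset β}
    (hT : T ⊆ V) : smpWt (insert a V) θ T = (1 - θ) * smpWt V θ T := by
  unfold smpWt
  have haT : a ∉ T := fun h => ha (hT h)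
  rw [insert_sdiff_of_notMem _ haT, card_insert_of_notMem (fun h => ha (mem_sdiff.1 h).1), pow_succ]
  ring

theorem asm_smp_wt_insert_right {V : Finset β} {a : β} (ha : a ∉ V) (θ : ℝ) {T : Finset β}
    (hT : T ⊆ V) : smpWt (insert a V) θ (insert a T) = θ * smpWt V θ T := by
  unfold smpWt
  have haT : a ∉ T := fun h => ha (hT h)
  rw [insert_sdiff_insert, sdiff_insert_of_notMem ha, card_insert_of_notMem haT, pow_succ]
  ring

theorem asm_smp_mean (V : Finset β) (θ : ℝ) :
    ∑ T ∈ V.powerset, smpWt V θ T * (T.card : ℝ) = θ * (V.card : ℝ) := by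
  induction V using Finset.induction_on with
  | empty => simp [smpWt]
  | insert a V ha ih =>
    rw [sum_powerset_insert ha]
    have h1 : ∑ T ∈ V.powerset, smpWt (insert a V) θ T * (T.card : ℝ)
        = (1 - θ) * ∑ T ∈ V.powerset, smpWt V θ T * (T.card : ℝ) := by
      rw [mul_sum]
      refine sum_congr rfl fun T hT => ?_
      rw [asm_smp_wt_insert_left ha θ (mem_powerset.1 hT)]
      ring
    have h2 : ∑ T ∈ V.powerset, smpWt (insert a V) θ (insert a T) * ((insert a T).card : ℝ)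
        = θ * (∑ T ∈ V.powerset, smpWt V θ T * (T.card : ℝ) + ∑ T ∈ V.powerset, smpWt V θ T) := by
      rw [← sum_add_distrib, mul_sum]
      refine sum_congr rfl fun T hT => ?_
      have haT : a ∉ T := fun h => ha (mem_powerset.1 hT h)
      rw [asm_smp_wt_insert_right ha θ (mem_powerset.1 hT), card_insert_of_notMem haT]
      push_cast
      ring
    rw [h1, h2, ih, asm_smp_total, card_insert_of_notMem ha]
    push_cast
    ring

theorem asm_smp_wt_nonneg (V : Finset β) {θ : ℝ} (h0 : 0 < θ) (h1 : θ ≤ 1) (T : Finset β) :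
    0 ≤ smpWt V θ T := by
  unfold smpWt
  have : 0 ≤ 1 - θ := by linarith
  positivity

theorem asm_smp_low (V B : Finset β) (hB : B ⊆ V) (θ δ : ℝ) (h0 : 0 < θ) (h1 : θ ≤ 1) (hδ : δ ≤ (B.card : ℝ)) :
    ∑ T ∈ V.powerset.filter (fun T => ((B ∩ T).card : ℝ) < θ * δ / 2), smpWt V θ T
      ≤ Real.exp (-(θ * δ / 8)) := by
  have hw := asm_smp_wt_nonneg V h0 h1
  have hpos : (0 : ℝ) < 2 ^ (θ * δ / 2) := Real.rpow_pos_of_pos (by norm_num) _
  calc ∑ T ∈ V.powerset.filter (fun T => ((B ∩ T).card : ℝ) < θ * δ / 2), smpWt V θ T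
      ≤ ∑ T ∈ V.powerset.filter (fun T => ((B ∩ T).card : ℝ) < θ * δ / 2),
          (2 : ℝ) ^ (θ * δ / 2) * (smpWt V θ T * (1 / 2 : ℝ) ^ (B ∩ T).card) := by
        refine sum_le_sum fun T hT => ?_
        have hlt := (mem_filter.1 hT).2
        have h2 : (1 : ℝ) ≤ 2 ^ (θ * δ / 2) * (1 / 2 : ℝ) ^ (B ∩ T).card := by
          rw [one_div, inv_pow, ← Real.rpow_natCast 2, ← Real.rpow_neg (by norm_num),
            ← Real.rpow_add (by norm_num)]
          exact Real.one_le_rpow (by norm_num) (by linarith)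
        calc smpWt V θ T = smpWt V θ T * 1 := (mul_one _).symm
          _ ≤ smpWt V θ T * (2 ^ (θ * δ / 2) * (1 / 2 : ℝ) ^ (B ∩ T).card) :=
              mul_le_mul_of_nonneg_left h2 (hw T)
          _ = _ := by ring
    _ ≤ ∑ T ∈ V.powerset, (2 : ℝ) ^ (θ * δ / 2) * (smpWt V θ T * (1 / 2 : ℝ) ^ (B ∩ T).card) :=
        sum_le_sum_of_subset_of_nonneg (filter_subset _ _) fun T _ _ =>
          mul_nonneg hpos.le (mul_nonneg (hw T) (by positivity))
    _ = (2 : ℝ) ^ (θ * δ / 2) * (1 - θ / 2) ^ B.card := by rw [← mul_sum, asm_smp_mgf V B hB]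
    _ ≤ Real.exp (θ * δ / 2 * Real.log 2) * Real.exp (-(θ / 2) * B.card) := by
        have e1 : (2 : ℝ) ^ (θ * δ / 2) = Real.exp (θ * δ / 2 * Real.log 2) := by
          rw [Real.rpow_def_of_pos (by norm_num), mul_comm]
        have e2 : (1 - θ / 2) ^ B.card ≤ Real.exp (-(θ / 2) * B.card) := by
          rw [mul_comm, Real.exp_nat_mul]
          refine pow_le_pow_left₀ (by linarith) ?_ _
          have := Real.add_one_le_exp (-(θ / 2))
          linarith
        rw [e1]
        exact mul_le_mul_of_nonneg_left e2 (Real.exp_pos _).le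
    _ ≤ Real.exp (-(θ * δ / 8)) := by
        rw [← Real.exp_add]
        apply Real.exp_le_exp.mpr
        have hl : Real.log 2 < 0.75 := by
          have := Real.log_two_lt_d9
          linarith
        have hl0 : 0 < Real.log 2 := Real.log_pos (by norm_num)
        have hb : θ * δ ≤ θ * B.card := mul_le_mul_of_nonneg_left hδ h0.le
        have hb0 : 0 ≤ θ * (B.card : ℝ) := by positivity
        nlinarith

theorem asm_smp_big (V : Finset β) (θ : ℝ) (h0 : 0 < θ) (h1 : θ ≤ 1) :
    ∑ T ∈ V.powerset.filter (fun T => 2 * θ * (V.card : ℝ) < (T.card : ℝ)), smpWt V θ T ≤ 1 / 2 := by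
  have hw := asm_smp_wt_nonneg V h0 h1
  rcases V.eq_empty_or_nonempty with rfl | hV
  · rw [filter_eq_empty_iff.2, sum_empty]
    · norm_num
    · intro T hT
      have : T = ∅ := by simpa using hT
      simp [this]
  have hc : (0 : ℝ) < V.card := by exact_mod_cast card_pos.2 hV
  have hden : 0 < 2 * θ * (V.card : ℝ) := by positivity
  calc ∑ T ∈ V.powerset.filter (fun T => 2 * θ * (V.card : ℝ) < (T.card : ℝ)), smpWt V θ T
      ≤ ∑ T ∈ V.powerset.filter (fun T => 2 * θ * (V.card : ℝ) < (T.card : ℝ)),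
          (2 * θ * (V.card : ℝ))⁻¹ * (smpWt V θ T * (T.card : ℝ)) := by
        refine sum_le_sum fun T hT => ?_
        have hlt := (mem_filter.1 hT).2
        have h2 : (1 : ℝ) ≤ (2 * θ * (V.card : ℝ))⁻¹ * (T.card : ℝ) := by
          rw [inv_mul_eq_div, le_div_iff₀ hden]; linarith
        calc smpWt V θ T = smpWt V θ T * 1 := (mul_one _).symm
          _ ≤ smpWt V θ T * ((2 * θ * (V.card : ℝ))⁻¹ * (T.card : ℝ)) :=
              mul_le_mul_of_nonneg_left h2 (hw T)
          _ = _ := by ring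
    _ ≤ ∑ T ∈ V.powerset, (2 * θ * (V.card : ℝ))⁻¹ * (smpWt V θ T * (T.card : ℝ)) :=
        sum_le_sum_of_subset_of_nonneg (filter_subset _ _) fun T _ _ =>
          mul_nonneg (by positivity) (mul_nonneg (hw T) (by positivity))
    _ = 1 / 2 := by
        rw [← mul_sum, asm_smp_mean]
        field_simp

/-- **The sample.** -/
theorem asm_sample (V : Finset β) (nb : β → Finset β) (hnb : ∀ x ∈ V, nb x ⊆ V) (θ δ : ℝ) (h0 : 0 < θ)
    (h1 : θ ≤ 1) (hδ : ∀ x ∈ V, δ ≤ ((nb x).card : ℝ))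
    (hbig : (V.card : ℝ) * Real.exp (-(θ * δ / 8)) < 1 / 2) :
    ∃ T ⊆ V, (T.card : ℝ) ≤ 2 * θ * (V.card : ℝ) ∧ ∀ x ∈ V, θ * δ / 2 ≤ ((nb x ∩ T).card : ℝ) := by
  have hw := asm_smp_wt_nonneg V h0 h1
  by_contra hcon
  push Not at hcon
  have key : ∀ T ∈ V.powerset, smpWt V θ T
      ≤ (if 2 * θ * (V.card : ℝ) < (T.card : ℝ) then smpWt V θ T else 0)
        + ∑ x ∈ V, (if ((nb x ∩ T).card : ℝ) < θ * δ / 2 then smpWt V θ T else 0) := by
    intro T hT
    have hs : 0 ≤ ∑ x ∈ V, (if ((nb x ∩ T).card : ℝ) < θ * δ / 2 then smpWt V θ T else 0) :=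
      sum_nonneg fun x _ => by split_ifs <;> [exact hw T; exact le_rfl]
    by_cases hb : 2 * θ * (V.card : ℝ) < (T.card : ℝ)
    · rw [if_pos hb]; linarith
    · obtain ⟨x, hx, hlt⟩ := hcon T (mem_powerset.1 hT) (not_lt.1 hb)
      rw [if_neg hb, zero_add]
      have := single_le_sum (f := fun x => if ((nb x ∩ T).card : ℝ) < θ * δ / 2 then smpWt V θ T
        else 0) (fun x _ => by
          show 0 ≤ if ((nb x ∩ T).card : ℝ) < θ * δ / 2 then smpWt V θ T else 0
          split_ifs <;> [exact hw T; exact le_rfl]) hx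
      simp only [if_pos hlt] at this
      exact this
  have h2 := sum_le_sum key
  rw [asm_smp_total, sum_add_distrib, sum_comm, ← sum_filter] at h2
  simp only [← sum_filter] at h2
  have h3 := asm_smp_big V θ h0 h1
  have h4 : ∑ x ∈ V, ∑ T ∈ V.powerset.filter (fun T => ((nb x ∩ T).card : ℝ) < θ * δ / 2),
      smpWt V θ T ≤ ∑ _x ∈ V, Real.exp (-(θ * δ / 8)) :=
    sum_le_sum fun x hx => asm_smp_low V (nb x) (hnb x hx) θ δ h0 h1 (hδ x hx)
  rw [sum_const, nsmul_eq_mul] at h4
  linarith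

end Claimed.Agent.R273
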