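import Claimed.Agent.R273.AsmSel
import Claimed.Agent.R273.AsmGraph
import Claimed.Agent.R273.AsmSample
import Claimed.Agent.R273.AsmCap
import Claimed.Agent.R273.AsmGlob
import Claimed.Agent.R273.AsmFlat
import Claimed.Agent.R273.AsmLoc
import Claimed.Agent.R273.AsmNum

/-!
# Row 273, package T2: the assembly `asm : ∀ d, AsmStmt d` (paper Sec. 2.3-2.5)

Owner: helper161.  Glue only: everything is proved from the leaves `Asm*.lean`.
-/

set_option autoImplicit false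

namespace Claimed.Agent.R273

open Claims.C0444 MvPolynomial

/-- The contradiction in one host (paper Prop. red:main-contradiction). -/
theorem asm_host {d : ℕ} (hd : 3 ≤ d) (P : Finset (Pt d)) (hN : 2 ≤ P.card)
    (S : Finset (Pt d × Pt d)) (hS : IsGraphOn P S) (hsep : StarSep ⌊dA P⌋₊ S)
    (E : Finset (Vx d × Vx d)) (hE : E ⊆ eqG S) (hsymm : ∀ e ∈ E, e.swap ∈ E) (hEne : E.Nonempty)
    (C0 c4 CL θ δ : ℝ) (hC0 : 4 ≤ C0) (hM : (dM P : ℝ) ≤ dA P)
    (hcap : CapProp E (C0 * dA P ^ (d - 2)))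
    (hglob : ∀ F : Finset (Par (d + 1)), ConcHyp (d + 1) C0 (dA P) F →
      (F.card : ℝ) ≤ C0 * dA P ^ (d + 1 - 1) →
      c4 * (F.card : ℝ) * dA P ^ ((d + 1 - 1).choose 2) ≤ (hA (⋃ l ∈ F, evFlat l.1 l.2) ⌊dA P⌋₊ : ℝ))
    (hloc : ∀ F : Finset (Par d), ConcHyp d C0 (dA P) F →
      ∀ f : MvPolynomial (Fin d × Fin d) ℂ, (f.totalDegree : ℝ) ≤ C0 * dA P →
      (∃ z ∈ skewSet d, eval z f ≠ 0) →
      ∀ F' ⊆ F, (∀ l ∈ F', ∀ z ∈ evFlat l.1 l.2, eval z f = 0) → (F'.card : ℝ) ≤ CL * dA P ^ (d - 1))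
    (hθ0 : 0 < θ) (hθ1 : θ ≤ 1)
    (hθ : 2 * θ * ((1 + (d.choose 2 : ℝ)) ^ (d.choose 2)) < c4)
    (hδ : δ ≤ (E.card : ℝ) / (2 * (P.card : ℝ) ^ 2))
    (hbig : (P.card : ℝ) ^ 2 * Real.exp (-(θ * δ / 8)) < 1 / 2)
    (hloc2 : CL * dA P ^ (d - 1) < θ * δ / 2) : False := by
  classical
  have hN1 : 1 ≤ P.card := by omega
  have hA1 : 1 ≤ dA P := asm_A_ge_one P hN1
  have hA0 : 0 < dA P := by linarith
  set A := dA P with hAdef
  set D := ⌊A⌋₊ with hDdef
  have hDA : (D : ℝ) ≤ A := Nat.floor_le hA0.le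
  have hD1 : 1 ≤ D := Nat.le_floor (by exact_mod_cast hA1)
  -- pruning
  have hVcard : ((P ×ˢ P).card : ℝ) = (P.card : ℝ) ^ 2 := by
    rw [Finset.card_product]; push_cast; ring
  obtain ⟨V', hV'sub, hV'ne, hdeg⟩ := asm_prune (P ×ˢ P) E (hE.trans (asm_eqG_sub hS)) hsymm hEne
  rw [hVcard] at hdeg
  have hV'card : (V'.card : ℝ) ≤ (P.card : ℝ) ^ 2 := by
    rw [← hVcard]; exact_mod_cast Finset.card_le_card hV'sub
  have hV'pos : (0 : ℝ) < V'.card := by exact_mod_cast hV'ne.card_pos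
  -- the sample
  obtain ⟨T, hTsub, hTcard, hTnb⟩ := asm_sample V' (fun x => star E x ∩ V')
    (fun x _ => Finset.inter_subset_right) θ δ hθ0 hθ1 (fun x hx => hδ.trans (hdeg x hx))
    (lt_of_le_of_lt (mul_le_mul_of_nonneg_right hV'card (Real.exp_pos _).le) hbig)
  -- global rank from below
  have hGH : ConcHyp (d + 1) C0 A (V'.image gpar) :=
    asm_glob_hyp P C0 hC0 hA1 hM (asm_N_le_pow (by omega) P hN1) V' hV'sub
  have hcardF : ((V'.image gpar).card : ℝ) = V'.card := by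
    rw [Finset.card_image_of_injective _ asm_gpar_inj]
  have hlow := hglob (V'.image gpar) hGH (by
    rw [hcardF, Nat.add_sub_cancel, asm_A_pow (by omega) P]
    have : (0 : ℝ) ≤ (P.card : ℝ) ^ 2 := by positivity
    nlinarith)
  rw [hcardF, Nat.add_sub_cancel] at hlow
  -- rank of the sample from above
  have := asm_rk_finA (Fin (d + 1) × Fin (d + 1)) D
  have hup : (hA (⋃ l ∈ T.image gpar, evFlat l.1 l.2) D : ℝ) ≤
      (T.card : ℝ) * ((1 + (d.choose 2 : ℝ)) ^ (d.choose 2) * A ^ (d.choose 2)) := by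
    have h1 : hA (⋃ l ∈ T.image gpar, evFlat l.1 l.2) D ≤
        ∑ l ∈ T.image gpar, hA (evFlat l.1 l.2) D :=
      asm_rk_biUnion _ (T.image gpar) fun l => evFlat l.1 l.2
    have h2 : ∑ l ∈ T.image gpar, hA (evFlat l.1 l.2) D ≤
        (T.image gpar).card * (D + d.choose 2).choose (d.choose 2) := by
      rw [← smul_eq_mul, ← Finset.sum_const]
      refine Finset.sum_le_sum fun l hl => ?_
      obtain ⟨x, _, rfl⟩ := Finset.mem_image.1 hl
      exact asm_flat_rank x D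
    have h3 : (T.image gpar).card = T.card := Finset.card_image_of_injective _ asm_gpar_inj
    rw [h3] at h2
    have h4 : (hA (⋃ l ∈ T.image gpar, evFlat l.1 l.2) D : ℝ) ≤
        (T.card : ℝ) * ((D + d.choose 2).choose (d.choose 2) : ℝ) := by
      exact_mod_cast h1.trans h2
    exact h4.trans (mul_le_mul_of_nonneg_left (asm_choose_le D _ A hA1 hDA) (Nat.cast_nonneg _))
  have hApow : 0 < A ^ (d.choose 2) := pow_pos hA0 _
  have hlt : hA (⋃ l ∈ T.image gpar, evFlat l.1 l.2) D < hA (⋃ l ∈ V'.image gpar, evFlat l.1 l.2) D := by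
    have h5 : (hA (⋃ l ∈ T.image gpar, evFlat l.1 l.2) D : ℝ) <
        (hA (⋃ l ∈ V'.image gpar, evFlat l.1 l.2) D : ℝ) := by
      refine lt_of_le_of_lt hup (lt_of_lt_of_le ?_ hlow)
      have hs0 : 0 ≤ (1 + (d.choose 2 : ℝ)) ^ (d.choose 2) := by positivity
      calc (T.card : ℝ) * ((1 + (d.choose 2 : ℝ)) ^ (d.choose 2) * A ^ (d.choose 2))
          ≤ (2 * θ * (V'.card : ℝ)) * ((1 + (d.choose 2 : ℝ)) ^ (d.choose 2) * A ^ (d.choose 2)) :=
            mul_le_mul_of_nonneg_right hTcard (mul_nonneg hs0 hApow.le)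
        _ = (2 * θ * (1 + (d.choose 2 : ℝ)) ^ (d.choose 2)) * ((V'.card : ℝ) * A ^ (d.choose 2)) := by ring
        _ < c4 * ((V'.card : ℝ) * A ^ (d.choose 2)) :=
            mul_lt_mul_of_pos_right hθ (mul_pos hV'pos hApow)
        _ = c4 * (V'.card : ℝ) * A ^ (d.choose 2) := by ring
    exact_mod_cast h5
  -- the polynomial
  have hsubU : (⋃ l ∈ T.image gpar, evFlat l.1 l.2) ⊆ ⋃ l ∈ V'.image gpar, evFlat l.1 l.2 :=
    Set.biUnion_subset_biUnion_left fun l hl => Finset.image_subset_image hTsub hl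
  obtain ⟨f, hfW, hfT, z, hz, hfz⟩ := asm_rk_drop _ hsubU hlt
  have hfdeg : f.totalDegree ≤ D := (mem_restrictTotalDegree _ _ _).1 hfW
  obtain ⟨l, hl, hzl⟩ := Set.mem_iUnion₂.1 hz
  obtain ⟨x, hx, rfl⟩ := Finset.mem_image.1 hl
  obtain ⟨Z, hZ, rfl⟩ := asm_gemb_surj x hzl
  -- the local model at `x`
  have hLH : ConcHyp d C0 A ((star E x).image (lpar x)) :=
    asm_loc_hyp hD1 hsep hE C0 A (by nlinarith) hcap x
  have hcount := hloc _ hLH (floc x f)
    (le_trans (by exact_mod_cast (asm_floc_deg x f).trans hfdeg) (by nlinarith : (D : ℝ) ≤ C0 * A))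
    ⟨Z, hZ, by rw [asm_floc_eval]; exact hfz⟩
    (((star E x ∩ V') ∩ T).image (lpar x))
    (Finset.image_subset_image fun a ha =>
      Finset.mem_of_mem_inter_left (Finset.mem_of_mem_inter_left ha))
    (by
      intro l hl Z' hZ'
      obtain ⟨a, ha, rfl⟩ := Finset.mem_image.1 hl
      rw [asm_floc_eval]
      refine hfT _ (Set.mem_iUnion₂.2 ⟨gpar a, Finset.mem_image_of_mem _ (Finset.mem_of_mem_inter_right ha), ?_⟩)
      exact asm_gemb_nb x a hZ')
  rw [Finset.card_image_of_injective _ (asm_lpar_inj x)] at hcount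
  have := hTnb x hx
  linarith

/-- **The assembly of Section 2.** -/
theorem asm (d : ℕ) : AsmStmt d := by
  intro hd hDir hGlob hLoc hRich hlow
  obtain ⟨c, c1, εD, hc, hc1, hεD, hD⟩ := hDir hlow
  obtain ⟨Cc, Kd, hCc, hKd, hCap⟩ := asm_cap hd hRich
  set C0 : ℝ := max 4 Cc with hC0def
  have hC04 : 4 ≤ C0 := le_max_left _ _
  obtain ⟨c4, hc4, hG⟩ := hGlob C0 (by linarith)
  obtain ⟨CL, hCL, hL⟩ := hLoc C0 (by linarith)
  set s0 : ℕ := d.choose 2 with hs0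
  set Q : ℝ := (1 + (s0 : ℝ)) ^ s0 with hQ
  have hQpos : 0 < Q := by positivity
  set θ : ℝ := min 1 (c4 / (4 * Q)) with hθdef
  have hθ0 : 0 < θ := lt_min one_pos (by positivity)
  have hθ1 : θ ≤ 1 := min_le_left _ _
  have hθQ : 2 * θ * Q < c4 := by
    have h1 : θ ≤ c4 / (4 * Q) := min_le_right _ _
    have h2 : θ * (4 * Q) ≤ c4 := (le_div_iff₀ (by positivity)).1 h1
    nlinarith
  set c' : ℝ := c / (1 + 2 / c1) with hc'def
  have hden : 0 < 1 + 2 / c1 := by positivity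
  have hc' : 0 < c' := by positivity
  set c3 : ℝ := c' ^ 2 / 4 with hc3def
  have hc3 : 0 < c3 := by positivity
  have hd1 : (0 : ℝ) < (d : ℝ) + 1 := by positivity
  set ε : ℝ := min (min εD (1 / 2)) (min (c' ^ 2 / (2 * (1 + Kd)))
    (min (θ * c3 / (4 * CL)) (θ * c3 / (16 * ((d : ℝ) + 1))))) with hεdef
  have hε0 : 0 < ε := by
    simp only [hεdef, lt_min_iff]
    refine ⟨⟨hεD, by norm_num⟩, by positivity, by positivity, by positivity⟩
  have hε1 : ε ≤ εD := (min_le_left _ _).trans (min_le_left _ _)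
  have hε2 : ε ≤ 1 / 2 := (min_le_left _ _).trans (min_le_right _ _)
  have hε3 : ε ≤ c' ^ 2 / (2 * (1 + Kd)) := (min_le_right _ _).trans (min_le_left _ _)
  have hε4 : ε ≤ θ * c3 / (4 * CL) :=
    (min_le_right _ _).trans ((min_le_right _ _).trans (min_le_left _ _))
  have hε5 : ε ≤ θ * c3 / (16 * ((d : ℝ) + 1)) :=
    (min_le_right _ _).trans ((min_le_right _ _).trans (min_le_right _ _))
  refine ⟨ε, hε0, fun P hP => ?_⟩
  by_contra hcon
  have hM : (dM P : ℝ) ≤ ε * dA P := not_lt.1 hcon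
  have hNr : (2 : ℝ) ≤ P.card := by nlinarith
  have hN : 2 ≤ P.card := by exact_mod_cast hNr
  have hN1 : 1 ≤ P.card := by omega
  have hA1 : 1 ≤ dA P := asm_A_ge_one P hN1
  have hM0 : (0 : ℝ) < dM P := by
    have : 0 < dM P := by unfold dM; omega
    exact_mod_cast this
  have hMA : (dM P : ℝ) ≤ dA P := hM.trans (by nlinarith)
  -- directions
  obtain ⟨G, hGg, hGc, hGr⟩ := hD P (hP.trans (mul_le_mul_of_nonneg_right hε1 (Nat.cast_nonneg _)))
    (hM.trans (mul_le_mul_of_nonneg_right hε1 (by linarith)))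
  obtain ⟨S, _hSG, hS, hsep, hGS⟩ := asm_select P G hGg ⌊dA P⌋₊ c1 hc1 hGr
  have hS1 : c' * (P.card : ℝ) ^ 2 ≤ S.card := by
    rw [hc'def, div_mul_eq_mul_div, div_le_iff₀ hden]
    linarith
  have hS2 : (S.card : ℝ) ≤ (P.card : ℝ) ^ 2 := by
    have := Finset.card_le_card hS.sub
    rw [Finset.card_product] at this
    have h' : (S.card : ℝ) ≤ (P.card : ℝ) * (P.card : ℝ) := by exact_mod_cast this
    nlinarith
  obtain ⟨E, hE, hsymm, hEc, hcap⟩ := hCap P hN hMA S hS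
  have hEbig : c' ^ 2 / 2 * (P.card : ℝ) ^ 4 / (dM P : ℝ) ≤ E.card :=
    asm_num_edges hA1 (asm_A_le_N (by omega) P hN1) hM0 hM hε0 hc' hKd
      (by
        have := (le_div_iff₀ (by positivity : (0 : ℝ) < 2 * (1 + Kd))).1 hε3
        linarith)
      hS1 hS2 (asm_eqG_card hS) hEc
  have hNpos : (0 : ℝ) < P.card := by linarith
  have hEne : E.Nonempty := by
    rw [← Finset.card_pos]
    have : (0 : ℝ) < E.card := lt_of_lt_of_le (by positivity) hEbig
    exact_mod_cast this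
  obtain ⟨hf1, hf2⟩ := asm_num_final (N := (P.card : ℝ)) hd hA1 (asm_A_pow (by omega) P) hM0 hM hε0 hc3 hθ0 hCL
    hε4 hε5
  refine asm_host hd P hN S hS hsep E hE hsymm hEne C0 c4 CL θ (c3 * (P.card : ℝ) ^ 2 / (dM P : ℝ)) hC04 hMA
    ?_ (fun F h1 h2 => hG (dA P) F hA1 h1 h2) (fun F h1 f h2 h3 F' h4 h5 => hL (dA P) F hA1 h1 f h2 h3 F' h4 h5)
    hθ0 hθ1 hθQ ?_ hf2 hf1
  · intro x T hT hgr
    refine (hcap x T hT hgr).trans (mul_le_mul_of_nonneg_right (le_max_right _ _) (by positivity))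
  · rw [le_div_iff₀ (by positivity)]
    have e1 : c3 * (P.card : ℝ) ^ 2 / (dM P : ℝ) * (2 * (P.card : ℝ) ^ 2) =
        c' ^ 2 / 2 * (P.card : ℝ) ^ 4 / (dM P : ℝ) := by
      rw [hc3def]; ring
    rw [e1]
    exact hEbig

end Claimed.Agent.R273
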