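import Claimed.Agent.R273.Defs

/-!
# Row 273, rank library [RK], part 1: general facts on `rkOn`, `hA`, `hP`
Owner of the package: helper251.  Prefix `rk_`.  Everything is plain linear algebra on `T → ℂ`.

* finiteness instances for `restrictTotalDegree`, `homogeneousSubmodule` (finitely many variables);
* `rkOn`: rank-nullity, `≤ finrank W`, `≤ |T|`, monotone in `T` and in `W`, subadditive on unions;
* THE PULL-BACK PRINCIPLE `rk_rkOn_le_of_pull` (all invariance statements of RkMap/RkChart follow from it);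
* a nonzero `f ∈ W` vanishing on `T` exists as soon as `rkOn W T < finrank W`;
* the rank is attained on a finite independent subset (`rk_exists_indep`);
* separators `⇔` independence (`rk_indep_iff_sep`), independence is hereditary.
-/

set_option autoImplicit false

namespace Claimed.Agent.R273

open MvPolynomial Module

variable {ι κ : Type*}

/-- The zero set of a polynomial. -/
def zset (g : MvPolynomial ι ℂ) : Set (ι → ℂ) := {x | eval x g = 0}

theorem rk_mem_zset {g : MvPolynomial ι ℂ} {x : ι → ℂ} : x ∈ zset g ↔ eval x g = 0 := Iff.rfl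

instance rk_finite_restrict [Finite ι] (D : ℕ) : Module.Finite ℂ (restrictTotalDegree ι ℂ D) := by
  have hfin : Finite {n : ι →₀ ℕ | (n.sum fun _ e => e) ≤ D} := by
    have h := Finsupp.finite_of_degree_le (σ := ι) D
    exact h.to_subtype
  exact Module.Finite.of_basis (basisRestrictSupport ℂ {n : ι →₀ ℕ | (n.sum fun _ e => e) ≤ D})

instance rk_finite_homog [Finite ι] (D : ℕ) : Module.Finite ℂ (homogeneousSubmodule ι ℂ D) := by
  exact Module.Finite.iff_fg.2 (homogeneousSubmodule_fg ι ℂ D)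

theorem rk_homog_le_restrict (D : ℕ) : homogeneousSubmodule ι ℂ D ≤ restrictTotalDegree ι ℂ D := by
  intro f hf
  rw [mem_restrictTotalDegree]
  exact IsHomogeneous.totalDegree_le hf

theorem rk_restrict_mono {D D' : ℕ} (h : D ≤ D') :
    restrictTotalDegree ι ℂ D ≤ restrictTotalDegree ι ℂ D' := by
  intro f hf
  rw [mem_restrictTotalDegree] at hf ⊢
  exact hf.trans h

section general

variable (W W' : Submodule ℂ (MvPolynomial ι ℂ)) (T T' : Set (ι → ℂ))

theorem rk_evalOn_apply (f : W) (x : T) : evalOn W T f x = eval x.1 f.1 := rfl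

/-- the kernel of the evaluation map -/
theorem rk_mem_ker_evalOn (f : W) : f ∈ LinearMap.ker (evalOn W T) ↔ ∀ x ∈ T, eval x f.1 = 0 := by
  rw [LinearMap.mem_ker]
  constructor
  · intro h x hx
    exact congrFun h ⟨x, hx⟩
  · intro h
    funext x
    exact h x.1 x.2

/-- rank-nullity -/
theorem rk_rkOn_add_ker [Module.Finite ℂ W] :
    rkOn W T + finrank ℂ (LinearMap.ker (evalOn W T)) = finrank ℂ W := by
  exact LinearMap.finrank_range_add_finrank_ker (evalOn W T)

theorem rk_rkOn_le_finrank [Module.Finite ℂ W] : rkOn W T ≤ finrank ℂ W := by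
  have := rk_rkOn_add_ker W T
  omega

theorem rk_rkOn_empty : rkOn W (∅ : Set (ι → ℂ)) = 0 := by
  unfold rkOn
  have : Subsingleton ((∅ : Set (ι → ℂ)) → ℂ) := inferInstance
  exact Module.finrank_zero_of_subsingleton

theorem rk_rkOn_le_ncard (hT : T.Finite) : rkOn W T ≤ T.ncard := by
  have : Fintype T := hT.fintype
  unfold rkOn
  refine (Submodule.finrank_le _).trans ?_
  rw [Module.finrank_fintype_fun_eq_card, ← Nat.card_eq_fintype_card, Nat.card_coe_set_eq]

theorem rk_rkOn_le_card (S : Finset (ι → ℂ)) : rkOn W (S : Set (ι → ℂ)) ≤ S.card := by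
  have := rk_rkOn_le_ncard W (S : Set (ι → ℂ)) S.finite_toSet
  rwa [Set.ncard_coe_finset] at this

variable {T T'} in
theorem rk_rkOn_mono_set [Module.Finite ℂ W] (h : T ⊆ T') : rkOn W T ≤ rkOn W T' := by
  have h1 := rk_rkOn_add_ker W T
  have h2 := rk_rkOn_add_ker W T'
  have h3 : LinearMap.ker (evalOn W T') ≤ LinearMap.ker (evalOn W T) := by
    intro f hf
    rw [rk_mem_ker_evalOn] at hf ⊢
    exact fun x hx => hf x (h hx)
  have h4 := Submodule.finrank_mono h3
  omega

/-- equal kernels give equal ranks -/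
theorem rk_rkOn_congr_ker [Module.Finite ℂ W]
    (h : ∀ f ∈ W, (∀ x ∈ T, eval x f = 0) ↔ ∀ x ∈ T', eval x f = 0) : rkOn W T = rkOn W T' := by
  have h1 := rk_rkOn_add_ker W T
  have h2 := rk_rkOn_add_ker W T'
  have h3 : LinearMap.ker (evalOn W T) = LinearMap.ker (evalOn W T') := by
    ext f
    rw [rk_mem_ker_evalOn, rk_mem_ker_evalOn]
    exact h f.1 f.2
  rw [h3] at h1
  omega

/-- the weighted pull-back of functions along `φ` -/
noncomputable def pullFun (T : Set (ι → ℂ)) (φ : (ι → ℂ) → (κ → ℂ)) (w : (ι → ℂ) → ℂ) :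
    ((φ '' T : Set (κ → ℂ)) → ℂ) →ₗ[ℂ] (T → ℂ) where
  toFun u x := w x.1 * u ⟨φ x.1, Set.mem_image_of_mem φ x.2⟩
  map_add' u v := by funext x; simp [mul_add]
  map_smul' c u := by funext x; simp [mul_left_comm]

theorem rk_pullFun_injective (φ : (ι → ℂ) → (κ → ℂ)) (w : (ι → ℂ) → ℂ) (hw : ∀ x ∈ T, w x ≠ 0) :
    Function.Injective (pullFun T φ w) := by
  intro u v huv
  funext y
  obtain ⟨y, x, hx, rfl⟩ := y
  have := congrFun huv ⟨x, hx⟩
  exact mul_left_cancel₀ (hw x hx) this

/-- THE PULL-BACK PRINCIPLE.  `φ` any map, `w` a nonvanishing weight: if every `f ∈ W` has a pull-back `f' ∈ W'` with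
`f'(x) = w(x) f(φ x)` on `T`, then the rank of `W` on `φ '' T` is at most the rank of `W'` on `T`. -/
theorem rk_rkOn_le_of_pull (V : Submodule ℂ (MvPolynomial κ ℂ)) [Module.Finite ℂ W]
    (φ : (ι → ℂ) → (κ → ℂ)) (w : (ι → ℂ) → ℂ) (hw : ∀ x ∈ T, w x ≠ 0)
    (h : ∀ f ∈ V, ∃ f' ∈ W, ∀ x ∈ T, eval x f' = w x * eval (φ x) f) :
    rkOn V (φ '' T) ≤ rkOn W T := by
  unfold rkOn
  have hinj := rk_pullFun_injective T φ w hw
  have h1 : (LinearMap.range (evalOn V (φ '' T))).map (pullFun T φ w) ≤ LinearMap.range (evalOn W T) := by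
    rintro _ ⟨_, ⟨f, rfl⟩, rfl⟩
    obtain ⟨f', hf', hff⟩ := h f.1 f.2
    refine ⟨⟨f', hf'⟩, ?_⟩
    funext x
    exact hff x.1 x.2
  have h2 := Submodule.finrank_mono h1
  rwa [LinearEquiv.finrank_eq (Submodule.equivMapOfInjective _ hinj _).symm] at h2

/-- PULL-BACK PRINCIPLE, equality: if moreover every `f' ∈ W` is (on `T`) such a pull-back. -/
theorem rk_rkOn_eq_of_pull (V : Submodule ℂ (MvPolynomial κ ℂ)) [Module.Finite ℂ W]
    (φ : (ι → ℂ) → (κ → ℂ)) (w : (ι → ℂ) → ℂ) (hw : ∀ x ∈ T, w x ≠ 0)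
    (h : ∀ f ∈ V, ∃ f' ∈ W, ∀ x ∈ T, eval x f' = w x * eval (φ x) f)
    (h' : ∀ f' ∈ W, ∃ f ∈ V, ∀ x ∈ T, eval x f' = w x * eval (φ x) f) :
    rkOn V (φ '' T) = rkOn W T := by
  unfold rkOn
  have hinj := rk_pullFun_injective T φ w hw
  have h1 : (LinearMap.range (evalOn V (φ '' T))).map (pullFun T φ w) = LinearMap.range (evalOn W T) := by
    apply le_antisymm
    · rintro _ ⟨_, ⟨f, rfl⟩, rfl⟩
      obtain ⟨f', hf', hff⟩ := h f.1 f.2
      refine ⟨⟨f', hf'⟩, ?_⟩
      funext x
      exact hff x.1 x.2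
    · rintro _ ⟨f', rfl⟩
      obtain ⟨f, hf, hff⟩ := h' f'.1 f'.2
      refine ⟨_, ⟨⟨f, hf⟩, rfl⟩, ?_⟩
      funext x
      exact (hff x.1 x.2).symm
  rw [← h1]
  exact LinearEquiv.finrank_eq (Submodule.equivMapOfInjective _ hinj _)

variable {W W'} in
theorem rk_rkOn_mono_sub [Module.Finite ℂ W'] (h : W ≤ W') : rkOn W T ≤ rkOn W' T := by
  have := rk_rkOn_le_of_pull W' T W id (fun _ => 1) (fun _ _ => one_ne_zero)
    (fun f hf => ⟨f, h hf, fun x _ => by simp⟩)
  rwa [Set.image_id] at this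

theorem rk_rkOn_union_le [Module.Finite ℂ W] : rkOn W (T ∪ T') ≤ rkOn W T + rkOn W T' := by
  have h1 := rk_rkOn_add_ker W T
  have h2 := rk_rkOn_add_ker W T'
  have h3 := rk_rkOn_add_ker W (T ∪ T')
  have h4 : LinearMap.ker (evalOn W (T ∪ T')) = LinearMap.ker (evalOn W T) ⊓ LinearMap.ker (evalOn W T') := by
    ext f
    rw [Submodule.mem_inf, rk_mem_ker_evalOn, rk_mem_ker_evalOn, rk_mem_ker_evalOn]
    constructor
    · intro h
      exact ⟨fun x hx => h x (Or.inl hx), fun x hx => h x (Or.inr hx)⟩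
    · rintro ⟨h, h'⟩ x (hx | hx)
      · exact h x hx
      · exact h' x hx
  have h5 := Submodule.finrank_sup_add_finrank_inf_eq (LinearMap.ker (evalOn W T)) (LinearMap.ker (evalOn W T'))
  have h6 := Submodule.finrank_le (LinearMap.ker (evalOn W T) ⊔ LinearMap.ker (evalOn W T'))
  rw [h4] at h3
  omega

theorem rk_rkOn_biUnion_le [Module.Finite ℂ W] {α : Type*} (s : Finset α) (U : α → Set (ι → ℂ)) :
    rkOn W (⋃ a ∈ s, U a) ≤ ∑ a ∈ s, rkOn W (U a) := by
  classical
  induction s using Finset.induction_on with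
  | empty => simp [rk_rkOn_empty]
  | insert a s ha ih =>
    rw [Finset.sum_insert ha, Finset.set_biUnion_insert]
    exact (rk_rkOn_union_le W _ _).trans (Nat.add_le_add_left ih _)

/-- parameter count: a nonzero member of `W` vanishing on `T` -/
theorem rk_exists_vanishing [Module.Finite ℂ W] (h : rkOn W T < finrank ℂ W) :
    ∃ f ∈ W, f ≠ 0 ∧ ∀ x ∈ T, eval x f = 0 := by
  have h1 := rk_rkOn_add_ker W T
  have h2 : 0 < finrank ℂ (LinearMap.ker (evalOn W T)) := by omega
  obtain ⟨f, hf⟩ := (Module.finrank_pos_iff_exists_ne_zero (R := ℂ)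
    (M := LinearMap.ker (evalOn W T))).1 h2
  refine ⟨f.1.1, f.1.2, ?_, (rk_mem_ker_evalOn W T f.1).1 f.2⟩
  intro h0
  apply hf
  apply Subtype.ext
  apply Subtype.ext
  exact h0

/-- if the rank goes up from `T` to `T'`, some `f ∈ W` vanishes on `T` but not at some point of `T'` -/
theorem rk_exists_of_rkOn_lt [Module.Finite ℂ W] (h : rkOn W T < rkOn W T') :
    ∃ f ∈ W, (∀ x ∈ T, eval x f = 0) ∧ ∃ y ∈ T', eval y f ≠ 0 := by
  have h1 := rk_rkOn_add_ker W T
  have h2 := rk_rkOn_add_ker W T'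
  have h3 : ¬ LinearMap.ker (evalOn W T) ≤ LinearMap.ker (evalOn W T') := by
    intro hle
    have := Submodule.finrank_mono hle
    omega
  rw [SetLike.not_le_iff_exists] at h3
  obtain ⟨f, hf, hf'⟩ := h3
  rw [rk_mem_ker_evalOn] at hf hf'
  refine ⟨f.1, f.2, hf, ?_⟩
  by_contra hcon
  apply hf'
  intro y hy
  by_contra hne
  exact hcon ⟨y, hy, hne⟩

theorem rk_rkOn_insert_le [Module.Finite ℂ W] (y : ι → ℂ) : rkOn W (insert y T) ≤ rkOn W T + 1 := by
  have h1 := rk_rkOn_union_le W T {y}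
  have h2 := rk_rkOn_le_ncard W {y} (Set.finite_singleton y)
  rw [Set.ncard_singleton] at h2
  rw [Set.union_singleton] at h1
  omega

/-- adding a point at which some `f ∈ W` vanishing on `T` does not vanish raises the rank by one -/
theorem rk_rkOn_insert [Module.Finite ℂ W] (y : ι → ℂ) (f : MvPolynomial ι ℂ) (hf : f ∈ W)
    (h0 : ∀ x ∈ T, eval x f = 0) (hy : eval y f ≠ 0) : rkOn W (insert y T) = rkOn W T + 1 := by
  have h1 := rk_rkOn_add_ker W T
  have h2 := rk_rkOn_add_ker W (insert y T)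
  have h3 := rk_rkOn_insert_le W T y
  have h4 : LinearMap.ker (evalOn W (insert y T)) < LinearMap.ker (evalOn W T) := by
    rw [SetLike.lt_iff_le_and_exists]
    refine ⟨?_, ⟨f, hf⟩, ?_, ?_⟩
    · intro u hu
      rw [rk_mem_ker_evalOn] at hu ⊢
      exact fun x hx => hu x (Set.mem_insert_of_mem _ hx)
    · rw [rk_mem_ker_evalOn]
      exact h0
    · rw [rk_mem_ker_evalOn]
      intro hcon
      exact hy (hcon y (Set.mem_insert _ _))
  have h5 := Submodule.finrank_lt_finrank_of_lt h4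
  omega

/-- CLOSURE: points which do not raise the rank one at a time do not raise it together -/
theorem rk_rkOn_union_eq_of_closure [Module.Finite ℂ W] (B : Set (ι → ℂ))
    (h : ∀ b ∈ B, rkOn W (insert b T) = rkOn W T) : rkOn W (T ∪ B) = rkOn W T := by
  apply rk_rkOn_congr_ker
  intro f hf
  constructor
  · intro h0 x hx
    exact h0 x (Or.inl hx)
  · rintro h0 x (hx | hx)
    · exact h0 x hx
    · by_contra hne
      have := rk_rkOn_insert W T x f hf h0 hne
      have h2 := h x hx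
      omega

/-- separators `⇔` independence of the evaluations at the points of a finite set -/
theorem rk_indep_iff_sep (S : Finset (ι → ℂ)) :
    rkOn W (S : Set (ι → ℂ)) = S.card ↔
      ∀ x ∈ S, ∃ f ∈ W, eval x f ≠ 0 ∧ ∀ y ∈ S, y ≠ x → eval y f = 0 := by
  classical
  have hcard : finrank ℂ (↥(S : Set (ι → ℂ)) → ℂ) = S.card := by
    rw [Module.finrank_fintype_fun_eq_card]
    exact Fintype.card_coe S
  constructor
  · intro h x hx
    have htop : LinearMap.range (evalOn W (S : Set (ι → ℂ))) = ⊤ := by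
      apply Submodule.eq_top_of_finrank_eq
      rw [hcard]
      exact h
    have hmem : (Pi.single (⟨x, hx⟩ : (S : Set (ι → ℂ))) (1 : ℂ)) ∈
        LinearMap.range (evalOn W (S : Set (ι → ℂ))) := by
      rw [htop]; exact Submodule.mem_top
    obtain ⟨f, hf⟩ := hmem
    refine ⟨f.1, f.2, ?_, ?_⟩
    · have := congrFun hf ⟨x, hx⟩
      rw [rk_evalOn_apply, Pi.single_eq_same] at this
      rw [this]
      exact one_ne_zero
    · intro y hy hyx
      have := congrFun hf ⟨y, hy⟩
      rw [rk_evalOn_apply, Pi.single_eq_of_ne (by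
        intro hcon
        exact hyx (congrArg Subtype.val hcon))] at this
      exact this
  · intro h
    have htop : LinearMap.range (evalOn W (S : Set (ι → ℂ))) = ⊤ := by
      rw [eq_top_iff]
      intro u _
      have hu : u = ∑ x : (S : Set (ι → ℂ)), u x • (Pi.single x (1 : ℂ) : ↥(S : Set (ι → ℂ)) → ℂ) := by
        funext y
        simp [Finset.sum_apply, Pi.single_apply]
      rw [hu]
      refine Submodule.sum_mem _ fun x _ => Submodule.smul_mem _ _ ?_
      obtain ⟨f, hf, hfx, hfy⟩ := h x.1 x.2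
      have : (Pi.single x (1 : ℂ) : ↥(S : Set (ι → ℂ)) → ℂ) =
          (eval x.1 f)⁻¹ • evalOn W (S : Set (ι → ℂ)) ⟨f, hf⟩ := by
        funext y
        by_cases hyx : y = x
        · subst hyx
          have h2 : evalOn W (S : Set (ι → ℂ)) ⟨f, hf⟩ y = eval y.1 f := rfl
          rw [Pi.single_eq_same, Pi.smul_apply, h2, smul_eq_mul, inv_mul_cancel₀ hfx]
        · have h1 : y.1 ≠ x.1 := fun hcon => hyx (Subtype.ext hcon)
          have h2 : evalOn W (S : Set (ι → ℂ)) ⟨f, hf⟩ y = eval y.1 f := rfl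
          rw [Pi.single_eq_of_ne hyx, Pi.smul_apply, h2, hfy y.1 y.2 h1, smul_zero]
      rw [this]
      exact Submodule.smul_mem _ _ ⟨_, rfl⟩
    unfold rkOn
    rw [htop, finrank_top, hcard]

theorem rk_indep_subset {S S' : Finset (ι → ℂ)} (h : rkOn W (S : Set (ι → ℂ)) = S.card) (hS : S' ⊆ S) :
    rkOn W (S' : Set (ι → ℂ)) = S'.card := by
  rw [rk_indep_iff_sep] at h ⊢
  intro x hx
  obtain ⟨f, hf, hfx, hfy⟩ := h x (hS hx)
  exact ⟨f, hf, hfx, fun y hy hyx => hfy y (hS hy) hyx⟩

/-- lower bound for the rank by a separated finite subset -/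
theorem rk_card_le_rkOn_of_sep [Module.Finite ℂ W] (S : Finset (ι → ℂ)) (hS : (S : Set (ι → ℂ)) ⊆ T)
    (h : ∀ x ∈ S, ∃ f ∈ W, eval x f ≠ 0 ∧ ∀ y ∈ S, y ≠ x → eval y f = 0) : S.card ≤ rkOn W T := by
  rw [← (rk_indep_iff_sep W S).2 h]
  exact rk_rkOn_mono_set W hS

/-- the rank is attained on a finite independent subset -/
theorem rk_exists_indep [Module.Finite ℂ W] :
    ∃ S : Finset (ι → ℂ), (S : Set (ι → ℂ)) ⊆ T ∧ S.card = rkOn W T ∧ rkOn W (S : Set (ι → ℂ)) = S.card := by
  classical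
  have key : ∀ k, k ≤ rkOn W T → ∃ S : Finset (ι → ℂ), (S : Set (ι → ℂ)) ⊆ T ∧ S.card = k ∧
      rkOn W (S : Set (ι → ℂ)) = S.card := by
    intro k
    induction k with
    | zero =>
      intro _
      exact ⟨∅, by simp, rfl, by simp [rk_rkOn_empty]⟩
    | succ k ih =>
      intro hk
      obtain ⟨S, hST, hSk, hSr⟩ := ih (by omega)
      obtain ⟨f, hf, hf0, y, hy, hfy⟩ := rk_exists_of_rkOn_lt W (S : Set (ι → ℂ)) T (by omega)
      have hyS : y ∉ S := fun hcon => hfy (hf0 y hcon)
      refine ⟨insert y S, ?_, ?_, ?_⟩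
      · rw [Finset.coe_insert]
        exact Set.insert_subset hy hST
      · rw [Finset.card_insert_of_notMem hyS, hSk]
      · rw [Finset.coe_insert, rk_rkOn_insert W _ y f hf hf0 hfy, Finset.card_insert_of_notMem hyS, hSr]
  exact key _ le_rfl

end general

/-! ### the same for `hA`, `hP` -/

section hAhP

variable [Finite ι] (T T' : Set (ι → ℂ)) (D D' : ℕ)

variable {T T'} in
theorem rk_hA_mono_set (h : T ⊆ T') : hA T D ≤ hA T' D := rk_rkOn_mono_set _ h

variable {T T'} in
theorem rk_hP_mono_set (h : T ⊆ T') : hP T D ≤ hP T' D := rk_rkOn_mono_set _ h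

variable {D D'} in
theorem rk_hA_mono_deg (h : D ≤ D') : hA T D ≤ hA T D' := rk_rkOn_mono_sub _ (rk_restrict_mono h)

theorem rk_hP_le_hA : hP T D ≤ hA T D := rk_rkOn_mono_sub _ (rk_homog_le_restrict D)

theorem rk_hA_union_le : hA (T ∪ T') D ≤ hA T D + hA T' D := rk_rkOn_union_le _ _ _

theorem rk_hP_union_le : hP (T ∪ T') D ≤ hP T D + hP T' D := rk_rkOn_union_le _ _ _

omit [Finite ι] in
theorem rk_hA_le_ncard (hT : T.Finite) : hA T D ≤ T.ncard := rk_rkOn_le_ncard _ _ hT

omit [Finite ι] in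
theorem rk_hP_le_ncard (hT : T.Finite) : hP T D ≤ T.ncard := rk_rkOn_le_ncard _ _ hT

/-- `H_T(0) = 1` for nonempty `T` -/
theorem rk_hA_zero (hT : T.Nonempty) : hA T 0 = 1 := by
  classical
  obtain ⟨x, hx⟩ := hT
  apply le_antisymm
  · unfold hA rkOn
    have hle : LinearMap.range (evalOn (restrictTotalDegree ι ℂ 0) T) ≤
        Submodule.span ℂ {(fun _ => 1 : T → ℂ)} := by
      rintro _ ⟨f, rfl⟩
      rw [Submodule.mem_span_singleton]
      have hf := f.2
      rw [mem_restrictTotalDegree, Nat.le_zero, totalDegree_eq_zero_iff_eq_C] at hf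
      refine ⟨coeff 0 f.1, ?_⟩
      funext y
      rw [rk_evalOn_apply, hf]
      simp
    refine (Submodule.finrank_mono hle).trans (le_of_eq (finrank_span_singleton ?_))
    intro hcon
    exact one_ne_zero (congrFun hcon ⟨x, hx⟩)
  · have := rk_card_le_rkOn_of_sep (restrictTotalDegree ι ℂ 0) T {x} (by simpa using hx)
      (by
        intro y hy
        refine ⟨1, ?_, by simp, ?_⟩
        · rw [mem_restrictTotalDegree]; simp
        · intro z hz hzy
          rw [Finset.mem_singleton] at hy hz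
          exact absurd (hz.trans hy.symm) hzy)
    rw [Finset.card_singleton] at this
    exact this

theorem rk_hP_zero (hT : T.Nonempty) : hP T 0 = 1 := by
  classical
  apply le_antisymm
  · exact (rk_hP_le_hA T 0).trans (rk_hA_zero T hT).le
  · obtain ⟨x, hx⟩ := hT
    have := rk_card_le_rkOn_of_sep (homogeneousSubmodule ι ℂ 0) T {x} (by simpa using hx)
      (by
        intro y hy
        refine ⟨1, isHomogeneous_one ι ℂ, by simp, ?_⟩
        intro z hz hzy
        rw [Finset.mem_singleton] at hy hz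
        exact absurd (hz.trans hy.symm) hzy)
    rw [Finset.card_singleton] at this
    exact this

/-- the origin is invisible for forms of positive degree -/
theorem rk_hP_diff_zero (hD : 1 ≤ D) : hP (T \ {0}) D = hP T D := by
  apply rk_rkOn_congr_ker
  intro f hf
  constructor
  · intro h x hx
    by_cases hx0 : x = 0
    · subst hx0
      have hf' : f.IsHomogeneous D := hf
      have h1 : eval (0 : ι → ℂ) f = coeff 0 f := by
        have := eval₂Hom_zero_apply (RingHom.id ℂ) f
        exact this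
      rw [h1]
      exact hf'.coeff_eq_zero (by simp; omega)
    · exact h x ⟨hx, hx0⟩
  · intro h x hx
    exact h x hx.1

end hAhP

end Claimed.Agent.R273
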