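import Claimed.Agent.R273.RkBasic

/-!
# Row 273, rank library [RK], part 6a: dimension counts; rank of the whole space

`finrank` of the two spaces of polynomials via `MvPolynomial.basisRestrictSupport` (`restrictTotalDegree` is a `restrictSupport` by
definition; `homogeneousSubmodule_eq_finsupp_supported`) and `Finset.card_finsuppAntidiag_nat_eq_choose` / `..._multichoose`
(Mathlib.Algebra.Order.Antidiag.FinsuppEquiv); hockey stick identity for `deg ≤ D` (or: add a slack variable).
On `Set.univ` the evaluation map is injective (`MvPolynomial.funext`), so the rank is the `finrank` (`rk_rkOn_add_ker`).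
LEAF RK-dim (this file).
-/

set_option autoImplicit false

namespace Claimed.Agent.R273

open MvPolynomial Module

/-- number of exponent vectors of degree exactly `D` -/
theorem rk_card_degree_eq (σ : Type*) [Fintype σ] (D : ℕ) :
    Nat.card {s : σ →₀ ℕ | s.degree = D} = Nat.multichoose (Fintype.card σ) D := by
  classical
  have h := Finset.card_finsuppAntidiag_nat_eq_multichoose (s := (Finset.univ : Finset σ)) D
  rw [Finset.card_univ] at h
  rw [← h]
  apply Nat.subtype_card
  intro s
  simp [Finsupp.degree_eq_sum]

theorem rk_sum_multichoose (n D : ℕ) :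
    ∑ j ∈ Finset.range (D + 1), Nat.multichoose n j = Nat.multichoose (n + 1) D := by
  induction D with
  | zero => simp
  | succ D ih => rw [Finset.sum_range_succ, ih, Nat.multichoose_succ_succ, add_comm]

/-- number of exponent vectors of degree at most `D` -/
theorem rk_card_degree_le (σ : Type*) [Fintype σ] (D : ℕ) :
    Nat.card {s : σ →₀ ℕ | (s.sum fun _ e => e) ≤ D} = (Fintype.card σ + D).choose D := by
  classical
  have h1 : (Fintype.card σ + D).choose D = Nat.multichoose (Fintype.card σ + 1) D := by
    rw [Nat.multichoose_eq]; congr 1; omega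
  rw [h1, ← rk_sum_multichoose]
  have h2 : ∀ j, Nat.multichoose (Fintype.card σ) j =
      ((Finset.univ : Finset σ).finsuppAntidiag j).card := by
    intro j
    rw [Finset.card_finsuppAntidiag_nat_eq_multichoose, Finset.card_univ]
  simp_rw [h2]
  rw [← Finset.card_biUnion]
  · apply Nat.subtype_card
    intro s
    simp only [Finset.mem_biUnion, Finset.mem_range, Finset.mem_finsuppAntidiag,
      Finset.subset_univ, and_true, Set.mem_ofPred_eq]
    have : (s.sum fun _ e => e) = ∑ i, s i := Finsupp.sum_fintype _ _ (fun _ => rfl)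
    rw [this]
    constructor
    · rintro ⟨j, hj, hs⟩
      have : ∑ i, s i = j := hs
      omega
    · intro h; exact ⟨_, Nat.lt_succ_of_le h, rfl⟩
  · intro i _ j _ hij
    rw [Function.onFun, Finset.disjoint_left]
    intro s hi hj
    rw [Finset.mem_finsuppAntidiag] at hi hj
    exact hij (hi.1.symm.trans hj.1)

theorem rk_finrank_restrict_field (K : Type*) [Field K] (σ : Type*) [Fintype σ] (D : ℕ) :
    finrank K (restrictTotalDegree σ K D) = (Fintype.card σ + D).choose D := by
  rw [restrictTotalDegree, Module.finrank_eq_nat_card_basis (basisRestrictSupport K _)]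
  exact rk_card_degree_le σ D

theorem rk_finrank_homog_field (K : Type*) [Field K] (σ : Type*) [Fintype σ] (D : ℕ) :
    finrank K (homogeneousSubmodule σ K D) = Nat.multichoose (Fintype.card σ) D := by
  have h : homogeneousSubmodule σ K D = restrictSupport K {s : σ →₀ ℕ | s.degree = D} :=
    homogeneousSubmodule_eq_finsupp_supported σ K D
  rw [h, Module.finrank_eq_nat_card_basis (basisRestrictSupport K _)]
  exact rk_card_degree_eq σ D

variable {ι : Type*} [Fintype ι]

theorem rk_finrank_restrict (D : ℕ) :
    finrank ℂ (restrictTotalDegree ι ℂ D) = (Fintype.card ι + D).choose D := by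
  exact rk_finrank_restrict_field ℂ ι D

theorem rk_finrank_homog (D : ℕ) :
    finrank ℂ (homogeneousSubmodule ι ℂ D) = Nat.multichoose (Fintype.card ι) D := by
  exact rk_finrank_homog_field ℂ ι D

omit [Fintype ι] in
theorem rk_rkOn_univ (W : Submodule ℂ (MvPolynomial ι ℂ)) [Module.Finite ℂ W] :
    rkOn W (Set.univ : Set (ι → ℂ)) = finrank ℂ W := by
  rw [rkOn]
  apply LinearMap.finrank_range_of_inj
  rw [← LinearMap.ker_eq_bot, eq_bot_iff]
  intro f hf
  rw [rk_mem_ker_evalOn] at hf
  rw [Submodule.mem_bot]
  apply Subtype.ext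
  apply MvPolynomial.funext
  intro x
  simpa using hf x (Set.mem_univ x)

theorem rk_hA_univ (D : ℕ) : hA (Set.univ : Set (ι → ℂ)) D = (Fintype.card ι + D).choose D := by
  rw [hA, rk_rkOn_univ, rk_finrank_restrict]

theorem rk_hP_univ (D : ℕ) : hP (Set.univ : Set (ι → ℂ)) D = Nat.multichoose (Fintype.card ι) D := by
  rw [hP, rk_rkOn_univ, rk_finrank_homog]

theorem rk_hA_le_choose (T : Set (ι → ℂ)) (D : ℕ) : hA T D ≤ (Fintype.card ι + D).choose D := by
  rw [← rk_finrank_restrict]; exact rk_rkOn_le_finrank _ _

theorem rk_hP_le_multichoose (T : Set (ι → ℂ)) (D : ℕ) : hP T D ≤ Nat.multichoose (Fintype.card ι) D := by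
  rw [← rk_finrank_homog]; exact rk_rkOn_le_finrank _ _

end Claimed.Agent.R273
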