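import Claimed.Agent.R273.RkBasic

/-!
# Row 273, rank library [RK], part 2: THE RESIDUAL INEQUALITY (R1)

`H_S(D) ≥ H_{S \ Z(g)}(D - t) + H_{S ∩ Z(g)}(D)` for `deg g ≤ t ≤ D`.

PROOF of `rk_residual` (LEAF RK-res).  Put `R := range (evalOn W2 S) ⊆ (S → ℂ)` (finite-dimensional) and let
`ρ : R → (↥(S ∩ Z) → ℂ)` be the restriction of functions.  `range ρ = range (evalOn W2 (S ∩ Z))`, so by rank-nullity
`rkOn W2 S = rkOn W2 (S ∩ Z) + dim ker ρ`.  The linear map `μ : (↥(S \ Z) → ℂ) → (S → ℂ)`,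
`μ u x = if x ∉ Z then g(x) u(x) else 0` is injective (`g ≠ 0` off `Z`) and maps `evalOn W1 (S \ Z) f` to
`evalOn W2 S (g f)`, which lies in `ker ρ`.  Hence `rkOn W1 (S \ Z) ≤ dim ker ρ`.
(Alternative without `ρ`: work with kernels inside `W2` and `rk_rkOn_add_ker`.)
-/

set_option autoImplicit false

namespace Claimed.Agent.R273

open MvPolynomial Module

variable {ι : Type*}

open Classical in
/-- extension by zero after multiplication by `g` -/
noncomputable def rk_res_mu (g : MvPolynomial ι ℂ) (S : Set (ι → ℂ)) :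
    ((S \ zset g : Set (ι → ℂ)) → ℂ) →ₗ[ℂ] (S → ℂ) where
  toFun u x := if h : x.1 ∈ zset g then 0 else eval x.1 g * u ⟨x.1, x.2, h⟩
  map_add' u v := by
    funext x
    by_cases h : x.1 ∈ zset g
    · simp [h]
    · simp [h, mul_add]
  map_smul' c u := by
    funext x
    by_cases h : x.1 ∈ zset g
    · simp [h]
    · simp [h, mul_left_comm]

theorem rk_res_mu_injective (g : MvPolynomial ι ℂ) (S : Set (ι → ℂ)) :
    Function.Injective (rk_res_mu g S) := by
  intro u v huv
  funext x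
  have h := congrFun huv ⟨x.1, x.2.1⟩
  have hx : x.1 ∉ zset g := x.2.2
  simp only [rk_res_mu, LinearMap.coe_mk, AddHom.coe_mk, dif_neg hx] at h
  exact mul_left_cancel₀ hx h

/-- (R1), general form. -/
theorem rk_residual (W1 W2 : Submodule ℂ (MvPolynomial ι ℂ)) [Module.Finite ℂ W2] (g : MvPolynomial ι ℂ)
    (hg : ∀ f ∈ W1, g * f ∈ W2) (S : Set (ι → ℂ)) :
    rkOn W1 (S \ zset g) + rkOn W2 (S ∩ zset g) ≤ rkOn W2 S := by
  classical
  have h3 := rk_rkOn_add_ker W2 S
  have h4 := rk_rkOn_add_ker W2 (S ∩ zset g)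
  have hle : LinearMap.ker (evalOn W2 S) ≤ LinearMap.ker (evalOn W2 (S ∩ zset g)) := by
    intro f hf
    rw [rk_mem_ker_evalOn] at hf ⊢
    exact fun x hx => hf x hx.1
  have h1 := LinearMap.finrank_range_add_finrank_ker (K := ℂ)
    (V := LinearMap.ker (evalOn W2 (S ∩ zset g))) (V₂ := S → ℂ)
    ((evalOn W2 S).domRestrict (LinearMap.ker (evalOn W2 (S ∩ zset g))))
  have h2 : finrank ℂ (LinearMap.ker ((evalOn W2 S).domRestrict (LinearMap.ker (evalOn W2 (S ∩ zset g))))) =
      finrank ℂ (LinearMap.ker (evalOn W2 S)) := by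
    rw [LinearMap.ker_domRestrict]
    exact LinearEquiv.finrank_eq (Submodule.comapSubtypeEquivOfLe hle)
  have h5 : rkOn W1 (S \ zset g) ≤ finrank ℂ (LinearMap.range
      ((evalOn W2 S).domRestrict (LinearMap.ker (evalOn W2 (S ∩ zset g))))) := by
    unfold rkOn
    have hsub : (LinearMap.range (evalOn W1 (S \ zset g))).map (rk_res_mu g S) ≤ LinearMap.range
        ((evalOn W2 S).domRestrict (LinearMap.ker (evalOn W2 (S ∩ zset g)))) := by
      rintro _ ⟨_, ⟨f, rfl⟩, rfl⟩
      have hmem : (⟨g * f.1, hg f.1 f.2⟩ : W2) ∈ LinearMap.ker (evalOn W2 (S ∩ zset g)) := by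
        rw [rk_mem_ker_evalOn]
        intro x hx
        have hx2 : eval x g = 0 := hx.2
        simp [hx2]
      refine ⟨⟨⟨g * f.1, hg f.1 f.2⟩, hmem⟩, ?_⟩
      funext x
      have hL : ((evalOn W2 S).domRestrict (LinearMap.ker (evalOn W2 (S ∩ zset g))))
          ⟨⟨g * f.1, hg f.1 f.2⟩, hmem⟩ x = eval x.1 g * eval x.1 f.1 := by
        show eval x.1 (g * f.1) = _
        rw [map_mul]
      rw [hL]
      by_cases h : x.1 ∈ zset g
      · have hx2 : eval x.1 g = 0 := h
        have hR : rk_res_mu g S (evalOn W1 (S \ zset g) f) x = 0 := by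
          simp only [rk_res_mu, LinearMap.coe_mk, AddHom.coe_mk, dif_pos h]
        rw [hR, hx2, zero_mul]
      · have hR : rk_res_mu g S (evalOn W1 (S \ zset g) f) x = eval x.1 g * eval x.1 f.1 := by
          simp only [rk_res_mu, LinearMap.coe_mk, AddHom.coe_mk, dif_neg h]
          rfl
        rw [hR]
    have := Submodule.finrank_mono hsub
    rwa [LinearEquiv.finrank_eq (Submodule.equivMapOfInjective _ (rk_res_mu_injective g S) _).symm] at this
  omega

/-- (R1), affine form. -/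
theorem rk_hA_residual [Finite ι] (g : MvPolynomial ι ℂ) {t D : ℕ} (hg : g.totalDegree ≤ t) (htD : t ≤ D)
    (S : Set (ι → ℂ)) : hA (S \ zset g) (D - t) + hA (S ∩ zset g) D ≤ hA S D := by
  apply rk_residual
  intro f hf
  rw [mem_restrictTotalDegree] at hf ⊢
  refine (totalDegree_mul _ _).trans ?_
  omega

/-- (R1), projective form. -/
theorem rk_hP_residual [Finite ι] (g : MvPolynomial ι ℂ) {t D : ℕ} (hg : g.IsHomogeneous t) (htD : t ≤ D)
    (S : Set (ι → ℂ)) : hP (S \ zset g) (D - t) + hP (S ∩ zset g) D ≤ hP S D := by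
  apply rk_residual
  intro f hf
  have hf' : f.IsHomogeneous (D - t) := hf
  have := hg.mul hf'
  rw [Nat.add_sub_cancel' htD] at this
  exact this

end Claimed.Agent.R273
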