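import Claimed.Agent.R273.RkMap
import Claimed.Agent.R273.RkRes
import Claimed.Agent.R273.RkDim

/-!
# Row 273, rank library [RK], part 6b: rank of flats, of hypersurfaces; interpolation

Flats: `rk_hA_map_eq`, `rk_hP_map_eq` + `rk_hA_univ`, `rk_hP_univ` (RkDim).  Hypersurfaces: (R1) with `S = univ`.
LEAF RK-flat (this file).
-/

set_option autoImplicit false

namespace Claimed.Agent.R273

open MvPolynomial Module

variable {ι : Type*} [Fintype ι]

/-- rank of a parametrised flat of dimension `s` -/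
theorem rk_hA_flat {s : ℕ} (L : (Fin s → ℂ) →ₗ[ℂ] (ι → ℂ)) (hL : Function.Injective L) (b : ι → ℂ) (D : ℕ) :
    hA (Set.range fun x => L x + b) D = (s + D).choose D := by
  rw [← Set.image_univ, rk_hA_map_eq L hL b, rk_hA_univ, Fintype.card_fin]

/-- an injective linear parametrisation of a subspace -/
theorem rk_flat_param (V : Submodule ℂ (ι → ℂ)) :
    ∃ L : (Fin (finrank ℂ V) → ℂ) →ₗ[ℂ] (ι → ℂ), Function.Injective L ∧ Set.range L = (V : Set (ι → ℂ)) := by
  let e := (Module.finBasis ℂ V).equivFun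
  refine ⟨V.subtype.comp e.symm.toLinearMap, ?_, ?_⟩
  · exact V.injective_subtype.comp e.symm.injective
  · ext x
    constructor
    · rintro ⟨y, rfl⟩
      exact (e.symm y).2
    · intro hx
      exact ⟨e ⟨x, hx⟩, by simp⟩

/-- rank of an affine subspace -/
theorem rk_hA_affineSubspace (E : AffineSubspace ℂ (ι → ℂ)) (hE : (E : Set (ι → ℂ)).Nonempty) (D : ℕ) :
    hA (E : Set (ι → ℂ)) D = (finrank ℂ E.direction + D).choose D := by
  obtain ⟨p, hp⟩ := hE
  obtain ⟨L, hL, hr⟩ := rk_flat_param E.direction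
  rw [← rk_hA_flat L hL p D]
  congr 1
  ext q
  constructor
  · intro hq
    have h1 : q - p ∈ (E.direction : Set (ι → ℂ)) := AffineSubspace.vsub_mem_direction hq hp
    rw [← hr] at h1
    obtain ⟨y, hy⟩ := h1
    exact ⟨y, by simp [hy]⟩
  · rintro ⟨y, rfl⟩
    have h1 : L y ∈ E.direction := by
      have : L y ∈ Set.range L := ⟨y, rfl⟩
      rw [hr] at this
      exact this
    exact AffineSubspace.vadd_mem_of_mem_direction h1 hp

/-- rank of a linear subspace, projective form -/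
theorem rk_hP_submodule (V : Submodule ℂ (ι → ℂ)) (D : ℕ) :
    hP (V : Set (ι → ℂ)) D = Nat.multichoose (finrank ℂ V) D := by
  obtain ⟨L, hL, hr⟩ := rk_flat_param V
  rw [← hr, ← Set.image_univ, rk_hP_map_eq L hL, rk_hP_univ, Fintype.card_fin]

/-- AFFINE PULL-BACK: a set parametrised by polynomials of degree `≤ 1` in the variables `κ`
(pull-back principle + `rk_totalDegree_aeval_le` + `rk_hA_le_choose`) -/
theorem rk_hA_le_of_param {κ : Type*} [Fintype κ] (g : ι → MvPolynomial κ ℂ) (hg : ∀ i, (g i).totalDegree ≤ 1)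
    (T : Set (ι → ℂ)) (hT : T ⊆ Set.range fun (z : κ → ℂ) (i : ι) => eval z (g i)) (D : ℕ) :
    hA T D ≤ (Fintype.card κ + D).choose D := by
  refine (rk_hA_mono_set D hT).trans ?_
  rw [← Set.image_univ, ← rk_hA_univ (ι := κ) D]
  apply rk_rkOn_le_of_pull _ _ _ _ (fun _ => 1) (fun _ _ => one_ne_zero)
  intro f hf
  refine ⟨aeval g f, ?_, fun x _ => ?_⟩
  · rw [mem_restrictTotalDegree] at hf ⊢
    exact (rk_totalDegree_aeval_le g hg f).trans hf
  · rw [pmb_eval_aeval, one_mul]

omit [Fintype ι] in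
theorem rk_flat_compl (g : MvPolynomial ι ℂ) (hg : g ≠ 0) (f : MvPolynomial ι ℂ) :
    (∀ x ∈ (zset g)ᶜ, eval x f = 0) ↔ ∀ x ∈ (Set.univ : Set (ι → ℂ)), eval x f = 0 := by
  constructor
  · intro h
    have h1 : g * f = 0 := by
      apply MvPolynomial.funext
      intro x
      rw [map_mul, map_zero]
      by_cases hx : x ∈ zset g
      · rw [rk_mem_zset.mp hx, zero_mul]
      · rw [h x hx, mul_zero]
    have h2 : f = 0 := (mul_eq_zero.mp h1).resolve_left hg
    intro x _
    rw [h2, map_zero]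
  · intro h x _
    exact h x (Set.mem_univ x)

/-- the complement of a hypersurface has full rank (`g f = 0` on everything forces `f = 0`) -/
theorem rk_hA_compl_zset (g : MvPolynomial ι ℂ) (hg : g ≠ 0) (D : ℕ) :
    hA ((zset g)ᶜ) D = (Fintype.card ι + D).choose D := by
  rw [← rk_hA_univ D]
  exact rk_rkOn_congr_ker _ _ _ (fun f _ => rk_flat_compl g hg f)

theorem rk_hP_compl_zset (g : MvPolynomial ι ℂ) (hg : g ≠ 0) (D : ℕ) :
    hP ((zset g)ᶜ) D = Nat.multichoose (Fintype.card ι) D := by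
  rw [← rk_hP_univ D]
  exact rk_rkOn_congr_ker _ _ _ (fun f _ => rk_flat_compl g hg f)

/-- rank of a hypersurface of degree `t` (upper bound; from (R1) with `S = univ`) -/
theorem rk_hA_zset_le (g : MvPolynomial ι ℂ) (hg : g ≠ 0) {t D : ℕ} (ht : g.totalDegree ≤ t) (htD : t ≤ D) :
    hA (zset g) D + (Fintype.card ι + (D - t)).choose (D - t) ≤ (Fintype.card ι + D).choose D := by
  have h := rk_hA_residual g ht htD Set.univ
  rw [Set.univ_inter, ← Set.compl_eq_univ_sdiff, rk_hA_compl_zset g hg, rk_hA_univ] at h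
  omega

theorem rk_hP_zset_le (g : MvPolynomial ι ℂ) (hg : g ≠ 0) {t D : ℕ} (ht : g.IsHomogeneous t) (htD : t ≤ D) :
    hP (zset g) D + Nat.multichoose (Fintype.card ι) (D - t) ≤ Nat.multichoose (Fintype.card ι) D := by
  have h := rk_hP_residual g ht htD Set.univ
  rw [Set.univ_inter, ← Set.compl_eq_univ_sdiff, rk_hP_compl_zset g hg, rk_hP_univ] at h
  omega

/-- a plane curve of degree `t`: `h(D) - h(D - t) ≤ t D + 1` (valid for all `t`, `D`, also `t > D`) -/
theorem rk_hP_curve_le (g : MvPolynomial (Fin 3) ℂ) (hg : g ≠ 0) {t : ℕ} (ht : g.IsHomogeneous t) (D : ℕ) :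
    hP (zset g) D ≤ t * D + 1 := by
  have hmc : ∀ j, 2 * Nat.multichoose (Fintype.card (Fin 3)) j = (j + 1) * (j + 2) := by
    intro j
    rw [Nat.multichoose_eq, Fintype.card_fin, ← pmb_choose_two]
    congr 2
    omega
  rcases le_or_gt t D with htD | htD
  · have h := rk_hP_zset_le g hg ht htD
    have e1 := hmc D
    have e2 := hmc (D - t)
    obtain ⟨s, rfl⟩ : ∃ s, D = t + s := ⟨D - t, by omega⟩
    rw [Nat.add_sub_cancel_left] at e2 h
    rcases t with _ | _ | _ | t <;> nlinarith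
  · have h := rk_hP_le_multichoose (zset g) D
    have e1 := hmc D
    have h2 : (D + 1) * D ≤ t * D := Nat.mul_le_mul_right _ htD
    have h3 : D ≤ D * D := Nat.le_mul_self D
    nlinarith

/-- interpolation: through few points there is a nonzero form of degree `D` -/
theorem rk_exists_form (T : Set (ι → ℂ)) (hT : T.Finite) {D : ℕ} (h : T.ncard < Nat.multichoose (Fintype.card ι) D) :
    ∃ f : MvPolynomial ι ℂ, f.IsHomogeneous D ∧ f ≠ 0 ∧ ∀ x ∈ T, eval x f = 0 := by
  obtain ⟨f, hf, hf0, hfT⟩ := rk_exists_vanishing (homogeneousSubmodule ι ℂ D) T (by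
    rw [rk_finrank_homog]
    exact lt_of_le_of_lt (rk_rkOn_le_ncard _ _ hT) h)
  exact ⟨f, hf, hf0, hfT⟩

theorem rk_exists_poly (T : Set (ι → ℂ)) (hT : T.Finite) {D : ℕ} (h : T.ncard < (Fintype.card ι + D).choose D) :
    ∃ f : MvPolynomial ι ℂ, f.totalDegree ≤ D ∧ f ≠ 0 ∧ ∀ x ∈ T, eval x f = 0 := by
  obtain ⟨f, hf, hf0, hfT⟩ := rk_exists_vanishing (restrictTotalDegree ι ℂ D) T (by
    rw [rk_finrank_restrict]
    exact lt_of_le_of_lt (rk_rkOn_le_ncard _ _ hT) h)
  exact ⟨f, (mem_restrictTotalDegree _ _ _).mp hf, hf0, hfT⟩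

end Claimed.Agent.R273
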