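import Claimed.Agent.R273.AsmDefs
import Claimed.Agent.R273.RkBasic
import Claimed.Agent.R273.RkFlat

/-!
# Row 273, package T2: the rank facts used by the assembly = citations of helper251's rank library (`Rk*.lean`)

Owner: helper161.  Sorry-free itself.
-/

set_option autoImplicit false
set_option linter.unusedSectionVars false

namespace Claimed.Agent.R273

open MvPolynomial

theorem asm_rk_finA (ι : Type*) [Fintype ι] (D : ℕ) : Module.Finite ℂ (restrictTotalDegree ι ℂ D) :=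
  inferInstance

theorem asm_rk_finP (ι : Type*) [Fintype ι] (D : ℕ) : Module.Finite ℂ (homogeneousSubmodule ι ℂ D) :=
  inferInstance

section

variable {ι : Type*} (W : Submodule ℂ (MvPolynomial ι ℂ)) [Module.Finite ℂ W]

theorem asm_rk_mono {T T' : Set (ι → ℂ)} (h : T ⊆ T') : rkOn W T ≤ rkOn W T' :=
  rk_rkOn_mono_set W h

theorem asm_rk_empty : rkOn W (∅ : Set (ι → ℂ)) = 0 := rk_rkOn_empty W

theorem asm_rk_insert (x : ι → ℂ) (T : Set (ι → ℂ)) : rkOn W (insert x T) ≤ rkOn W T + 1 :=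
  rk_rkOn_insert_le W T x

theorem asm_rk_closure {T B : Set (ι → ℂ)} (h : ∀ b ∈ B, rkOn W (insert b T) = rkOn W T) :
    rkOn W (T ∪ B) = rkOn W T :=
  rk_rkOn_union_eq_of_closure W T B h

theorem asm_rk_sep (S : Finset (ι → ℂ)) (h : rkOn W (S : Set (ι → ℂ)) = S.card) :
    ∀ x ∈ S, ∃ f ∈ W, eval x f ≠ 0 ∧ ∀ y ∈ S, y ≠ x → eval y f = 0 :=
  (rk_indep_iff_sep W S).1 h

theorem asm_rk_drop {T T' : Set (ι → ℂ)} (_h : T ⊆ T') (hlt : rkOn W T < rkOn W T') :
    ∃ f ∈ W, (∀ x ∈ T, eval x f = 0) ∧ ∃ x ∈ T', eval x f ≠ 0 :=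
  rk_exists_of_rkOn_lt W T T' hlt

theorem asm_rk_biUnion {κ : Type*} (F : Finset κ) (T : κ → Set (ι → ℂ)) :
    rkOn W (⋃ l ∈ F, T l) ≤ ∑ l ∈ F, rkOn W (T l) :=
  rk_rkOn_biUnion_le W F T

end

/-- a set contained in the image of an affine map from `ℂ^κ` -/
theorem asm_rk_affine {ι κ : Type*} [Fintype ι] [Fintype κ] (g : ι → MvPolynomial κ ℂ)
    (hg : ∀ i, (g i).totalDegree ≤ 1) (T : Set (ι → ℂ))
    (hT : ∀ z ∈ T, ∃ w : κ → ℂ, z = fun i => eval w (g i)) (D : ℕ) :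
    hA T D ≤ (D + Fintype.card κ).choose (Fintype.card κ) := by
  have h := rk_hA_le_of_param g hg T (fun z hz => by
    obtain ⟨w, rfl⟩ := hT z hz
    exact ⟨w, rfl⟩) D
  rwa [Nat.add_comm, Nat.choose_symm_add] at h

end Claimed.Agent.R273
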