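import Claimed.Agent.R273.CnFlat

/-!
# Row 273, App A, package CN-CHART: `CnGlob r → GlobStmt (r+1)`, `CnLoc r → LocStmt (r+1)`.  Architect helper69.

`e = r + 1`, `a : Fin e` the index of the chart `v_a ≠ 0`.
* `cnEmb a : ℂ^(CnI r) → ℂ^(e × e)`: `(Z, x) ↦` the skew matrix `z` with `z (a.succAbove i, a.succAbove j) = Z_ij`, `z (a.succAbove i, a) = x_i`, `z (a, a.succAbove j) = - x_j`, `z (a,a) = 0`.  Linear, injective, with range `skewSet e`.
* `cnParLift a μ : Par e`: `v := insertNth a 1 v'`, `y := insertNth a (- y'·v') y'`.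
* `cnNorm a l : ℂ^(CnP r)`: `(v_i / v_a, y_i / v_a)_{i ≠ a}`.
FACTS.  (1) `cnEmb a '' cnFlat μ = evFlat (cnParLift a μ).1 (cnParLift a μ).2`:  rows `i ≠ a`: `∑_j Z_ij v'_j + x_i = y'_i`; row `a`: `- x·v' = - y'·v'` follows from `x = y' - Z v'` and `cn_mat_quad` (`Fin.sum_univ_succAbove`).
(2) if `l.1 a ≠ 0` and `∑ l.2 i * l.1 i = 0` then `l = l.1 a • cnParLift a (cnNorm a l)` and `evFlat l.1 l.2 = evFlat` of the lift (divide the equations by `l.1 a`).
(3) `Par.polar (cnParLift a μ) (cnParLift a μ') = - cnPolar μ μ'`.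
(4) `cnNorm a` is injective on `{l ∈ F | l.1 a ≠ 0}`: if the normalisations agree, `m = t • l`, `t ≠ 0`; a homogeneous separator `s` of `l` of degree `k` has `s(m) = t^k s(l) ≠ 0`, so `m = l` (`ConcHyp.sep`).
(5) `CnHyp r (2 C0) A (image (cnNorm a) F_a)`: separator `s'(μ) := s (cnParLift a μ)` = `aeval` of polynomials of degree `≤ 2`, so `deg s' ≤ 2 k ≤ 2 C0 A`; `s'(cnNorm a m) = (m.1 a)^{-k} s(m)` by homogeneity.
    `iso`: a pairwise `cnPolar`-orthogonal subfamily `F''`; `W := span` of the corresponding `l`'s; `Par.polar` is bilinear and symmetric, `polar(l,m) = l_a m_a polar(lifts) = 0`, also for `l = m` (`polar(l,l) = 2 ∑ y v = 0`); `Submodule.span_induction` twice; `ConcHyp.iso`; `e - 2 = r - 1`.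
GLOB: choose `a` with `|F| ≤ e |F_a|` (`F = ⋃_a F_a` because `l.1 ≠ 0`; pigeonhole `Finset.exists_le_card_fiber..` or `Finset.card_biUnion_le` + max).  `hA (⋃_{l ∈ F} evFlat) D ≥ hA (⋃_{l ∈ F_a} evFlat) D = hA (cnEmb a '' ⋃ cnFlat) D = hA (⋃ cnFlat) D` (`rk_hA_mono_set`, `rk_hA_map_eq` with `b = 0`, `Set.image_iUnion`).  `c := c'/e` for the constant `c'` of `CnGlob r` at `2 C0`.
LOC: `f_a := f ∘ cnEmb a` (`aeval` of linear forms; `rk_totalDegree_aeval_le`), `≠ 0` because `f` does not vanish identically on `skewSet e = range (cnEmb a)`; `|F'_a| ≤ C' A^r` for every `a`, `|F'| ≤ ∑_a |F'_a|`.  `C := e C'`.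
-/

set_option autoImplicit false

namespace Claimed.Agent.R273

open MvPolynomial

variable {r : ℕ}

/-- the chart embedding, as a function -/
def cnEmbFun (a : Fin (r + 1)) (z : CnI r → ℂ) : Fin (r + 1) × Fin (r + 1) → ℂ := fun pq =>
  (a.insertNth (α := fun _ => Fin (r + 1) → ℂ)
    (a.insertNth (α := fun _ => ℂ) 0 (fun j => - cnX z j))
    (fun i => a.insertNth (α := fun _ => ℂ) (cnX z i) (fun j => cnMat (cnZ z) i j))) pq.1 pq.2

theorem cn_embFun_aa (a : Fin (r + 1)) (z : CnI r → ℂ) : cnEmbFun a z (a, a) = 0 := by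
  simp [cnEmbFun]

theorem cn_embFun_as (a : Fin (r + 1)) (z : CnI r → ℂ) (j : Fin r) :
    cnEmbFun a z (a, a.succAbove j) = - cnX z j := by
  simp [cnEmbFun]

theorem cn_embFun_sa (a : Fin (r + 1)) (z : CnI r → ℂ) (i : Fin r) :
    cnEmbFun a z (a.succAbove i, a) = cnX z i := by
  simp [cnEmbFun]

theorem cn_embFun_ss (a : Fin (r + 1)) (z : CnI r → ℂ) (i j : Fin r) :
    cnEmbFun a z (a.succAbove i, a.succAbove j) = cnMat (cnZ z) i j := by
  simp [cnEmbFun]

/-- two functions on `Fin (r+1) × Fin (r+1)` agree if they agree on the four blocks of the chart `a` -/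
theorem cn_ext_blocks (a : Fin (r + 1)) {s t : Fin (r + 1) × Fin (r + 1) → ℂ}
    (haa : s (a, a) = t (a, a)) (has : ∀ j, s (a, a.succAbove j) = t (a, a.succAbove j))
    (hsa : ∀ i, s (a.succAbove i, a) = t (a.succAbove i, a))
    (hss : ∀ i j, s (a.succAbove i, a.succAbove j) = t (a.succAbove i, a.succAbove j)) : s = t := by
  funext ⟨p, q⟩
  rcases Fin.eq_self_or_eq_succAbove a p with rfl | ⟨i, rfl⟩
  · rcases Fin.eq_self_or_eq_succAbove p q with rfl | ⟨j, rfl⟩
    · exact haa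
    · exact has j
  · rcases Fin.eq_self_or_eq_succAbove a q with rfl | ⟨j, rfl⟩
    · exact hsa i
    · exact hss i j

/-- the chart embedding -/
def cnEmb (a : Fin (r + 1)) : (CnI r → ℂ) →ₗ[ℂ] (Fin (r + 1) × Fin (r + 1) → ℂ) where
  toFun := cnEmbFun a
  map_add' := by
    intro z w
    have hZ : cnZ (z + w) = cnZ z + cnZ w := rfl
    refine cn_ext_blocks a ?_ (fun j => ?_) (fun i => ?_) (fun i j => ?_)
    · simp only [Pi.add_apply, cn_embFun_aa, add_zero]
    · simp only [Pi.add_apply, cn_embFun_as, cnX]; ring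
    · simp only [Pi.add_apply, cn_embFun_sa, cnX]
    · simp only [Pi.add_apply, cn_embFun_ss, hZ, cn_mat_add]
  map_smul' := by
    intro c z
    have hZ : cnZ (c • z) = c • cnZ z := rfl
    refine cn_ext_blocks a ?_ (fun j => ?_) (fun i => ?_) (fun i j => ?_)
    · simp only [RingHom.id_apply, Pi.smul_apply, cn_embFun_aa, smul_zero]
    · simp only [RingHom.id_apply, Pi.smul_apply, cn_embFun_as, cnX, smul_eq_mul]; ring
    · simp only [RingHom.id_apply, Pi.smul_apply, cn_embFun_sa, cnX, smul_eq_mul]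
    · simp only [RingHom.id_apply, Pi.smul_apply, cn_embFun_ss, hZ, cn_mat_smul, smul_eq_mul]

theorem cn_emb_apply (a : Fin (r + 1)) (z : CnI r → ℂ) : cnEmb a z = cnEmbFun a z := rfl

/-- the parameter of `Par (r+1)` with `v_a = 1` belonging to `μ` -/
def cnParLift (a : Fin (r + 1)) (μ : CnP r → ℂ) : Par (r + 1) :=
  (a.insertNth (α := fun _ => ℂ) 1 (cnV μ),
   a.insertNth (α := fun _ => ℂ) (- ∑ i, cnY μ i * cnV μ i) (cnY μ))

/-- normalisation `v_a = 1` -/
noncomputable def cnNorm (a : Fin (r + 1)) (l : Par (r + 1)) : CnP r → ℂ :=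
  Sum.elim (fun i => l.1 (a.succAbove i) / l.1 a) (fun i => l.2 (a.succAbove i) / l.1 a)

theorem cn_mat_of_lt (Z : CnSk r → ℂ) {i j : Fin r} (h : i < j) : cnMat Z i j = Z ⟨(i, j), h⟩ := by
  simp [cnMat, h]

theorem cn_emb_injective (a : Fin (r + 1)) : Function.Injective (cnEmb (r := r) a) := by
  intro z w h
  funext k
  rcases k with ⟨⟨i, j⟩, hij⟩ | i
  · have h1 := congrFun h (a.succAbove i, a.succAbove j)
    rw [cn_emb_apply, cn_emb_apply, cn_embFun_ss, cn_embFun_ss, cn_mat_of_lt _ hij,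
      cn_mat_of_lt _ hij] at h1
    exact h1
  · have h1 := congrFun h (a.succAbove i, a)
    rw [cn_emb_apply, cn_emb_apply, cn_embFun_sa, cn_embFun_sa] at h1
    exact h1

theorem cn_emb_skew (a : Fin (r + 1)) (z : CnI r → ℂ) : cnEmb a z ∈ skewSet (r + 1) := by
  intro p q
  rw [cn_emb_apply]
  rcases Fin.eq_self_or_eq_succAbove a p with rfl | ⟨i, rfl⟩
  · rcases Fin.eq_self_or_eq_succAbove p q with rfl | ⟨j, rfl⟩
    · rw [cn_embFun_aa, neg_zero]
    · rw [cn_embFun_as, cn_embFun_sa]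
  · rcases Fin.eq_self_or_eq_succAbove a q with rfl | ⟨j, rfl⟩
    · rw [cn_embFun_as, cn_embFun_sa, neg_neg]
    · rw [cn_embFun_ss, cn_embFun_ss]; exact cn_mat_skew _ i j

theorem cn_emb_range (a : Fin (r + 1)) : Set.range (cnEmb (r := r) a) = skewSet (r + 1) := by
  apply Set.Subset.antisymm
  · rintro _ ⟨z, rfl⟩
    exact cn_emb_skew a z
  · intro s hs
    have hdiag : ∀ p, s (p, p) = 0 := by
      intro p
      have := hs p p
      have h2 : (2 : ℂ) * s (p, p) = 0 := by linear_combination this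
      simpa using h2
    refine ⟨Sum.elim (fun p => s (a.succAbove p.1.1, a.succAbove p.1.2))
      (fun i => s (a.succAbove i, a)), ?_⟩
    rw [cn_emb_apply]
    refine cn_ext_blocks a ?_ (fun j => ?_) (fun i => ?_) (fun i j => ?_)
    · rw [cn_embFun_aa, hdiag]
    · rw [cn_embFun_as, hs a]; rfl
    · rw [cn_embFun_sa]; rfl
    · rw [cn_embFun_ss]
      unfold cnMat cnZ
      by_cases h1 : i < j
      · simp [h1]
      · by_cases h2 : j < i
        · simp only [h1, h2, dite_false, dite_true, Sum.elim_inl]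
          exact (hs _ _).symm
        · have : i = j := le_antisymm (not_lt.1 h2) (not_lt.1 h1)
          subst this
          simp [hdiag]

theorem cn_emb_flat (a : Fin (r + 1)) (μ : CnP r → ℂ) :
    cnEmb a '' cnFlat μ = evFlat (cnParLift a μ).1 (cnParLift a μ).2 := by
  have hrow : ∀ (z : CnI r → ℂ) (i : Fin r),
      ∑ j, cnEmb a z (a.succAbove i, j) * (cnParLift a μ).1 j
        = cnX z i + ∑ j, cnMat (cnZ z) i j * cnV μ j := by
    intro z i
    rw [Fin.sum_univ_succAbove _ a]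
    simp only [cn_emb_apply, cn_embFun_sa, cn_embFun_ss, cnParLift, Fin.insertNth_apply_same,
      Fin.insertNth_apply_succAbove, mul_one]
  apply Set.Subset.antisymm
  · rintro _ ⟨z, hz, rfl⟩
    have hz' : ∀ i, cnX z i = cnY μ i - ∑ j, cnMat (cnZ z) i j * cnV μ j := fun i => congrFun hz i
    refine ⟨cn_emb_skew a z, fun p => ?_⟩
    rcases Fin.eq_self_or_eq_succAbove a p with rfl | ⟨i, rfl⟩
    · rw [Fin.sum_univ_succAbove _ p]
      simp only [cn_emb_apply, cn_embFun_aa, cn_embFun_as, cnParLift, Fin.insertNth_apply_same,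
        Fin.insertNth_apply_succAbove, zero_mul, zero_add]
      have hq := cn_mat_quad (cnZ z) (cnV μ)
      have e1 : ∑ j, -cnX z j * cnV μ j
          = -∑ j, cnY μ j * cnV μ j + ∑ i, cnV μ i * ∑ j, cnMat (cnZ z) i j * cnV μ j := by
        rw [← Finset.sum_neg_distrib, ← Finset.sum_add_distrib]
        refine Finset.sum_congr rfl fun j _ => ?_
        rw [hz' j]; ring
      rw [e1, hq, add_zero]
    · rw [hrow, hz' i]
      simp only [cnParLift, Fin.insertNth_apply_succAbove]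
      ring
  · rintro s ⟨hs1, hs2⟩
    obtain ⟨z, rfl⟩ : s ∈ Set.range (cnEmb (r := r) a) := by rw [cn_emb_range]; exact hs1
    refine ⟨z, ?_, rfl⟩
    funext i
    have h1 := hs2 (a.succAbove i)
    rw [hrow] at h1
    simp only [cnParLift, Fin.insertNth_apply_succAbove] at h1
    unfold cnPi
    linear_combination h1

theorem cn_lift_norm (a : Fin (r + 1)) (l : Par (r + 1)) (ha : l.1 a ≠ 0)
    (hQ : ∑ i, l.2 i * l.1 i = 0) : l = l.1 a • cnParLift a (cnNorm a l) := by
  refine Prod.ext ?_ ?_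
  · funext p
    rcases Fin.eq_self_or_eq_succAbove a p with rfl | ⟨i, rfl⟩
    · simp [cnParLift]
    · simp only [cnParLift, Prod.smul_fst, Pi.smul_apply, Fin.insertNth_apply_succAbove, cnV, cnNorm,
        Sum.elim_inl, smul_eq_mul]
      field_simp
  · funext p
    rcases Fin.eq_self_or_eq_succAbove a p with rfl | ⟨i, rfl⟩
    · rw [Fin.sum_univ_succAbove _ p] at hQ
      simp only [cnParLift, Prod.smul_snd, Pi.smul_apply, Fin.insertNth_apply_same, cnV, cnY, cnNorm,
        Sum.elim_inl, Sum.elim_inr, smul_eq_mul]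
      have e1 : ∑ i, l.2 (p.succAbove i) / l.1 p * (l.1 (p.succAbove i) / l.1 p)
          = (∑ i, l.2 (p.succAbove i) * l.1 (p.succAbove i)) / (l.1 p * l.1 p) := by
        rw [Finset.sum_div]
        refine Finset.sum_congr rfl fun i _ => ?_
        field_simp
      rw [e1]
      have e2 : ∑ i, l.2 (p.succAbove i) * l.1 (p.succAbove i) = - (l.2 p * l.1 p) := by
        linear_combination hQ
      rw [e2]
      field_simp
    · simp only [cnParLift, Prod.smul_snd, Pi.smul_apply, Fin.insertNth_apply_succAbove, cnY, cnNorm,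
        Sum.elim_inr, smul_eq_mul]
      field_simp

theorem cn_evFlat_smul {e : ℕ} (t : ℂ) (ht : t ≠ 0) (v y : Fin e → ℂ) :
    evFlat (t • v) (t • y) = evFlat v y := by
  ext z
  unfold evFlat
  simp only [Set.mem_ofPred_eq, Pi.smul_apply, smul_eq_mul]
  refine and_congr_right fun _ => forall_congr' fun i => ?_
  have e1 : ∑ j, z (i, j) * (t * v j) = t * ∑ j, z (i, j) * v j := by
    rw [Finset.mul_sum]
    exact Finset.sum_congr rfl fun j _ => by ring
  rw [e1]
  exact mul_right_inj' ht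

theorem cn_polar_lift (a : Fin (r + 1)) (μ μ' : CnP r → ℂ) :
    Par.polar (cnParLift a μ) (cnParLift a μ') = - cnPolar μ μ' := by
  unfold Par.polar cnPolar
  rw [Fin.sum_univ_succAbove _ a]
  simp only [cnParLift, Fin.insertNth_apply_same, Fin.insertNth_apply_succAbove, mul_one]
  rw [← Finset.sum_neg_distrib, ← Finset.sum_neg_distrib, ← Finset.sum_neg_distrib,
    ← Finset.sum_add_distrib, ← Finset.sum_add_distrib]
  exact Finset.sum_congr rfl fun i _ => by ring

/-- the members of the family with `v_a ≠ 0`, normalised -/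
noncomputable def cnFam (a : Fin (r + 1)) (F : Finset (Par (r + 1))) : Finset (CnP r → ℂ) :=
  letI := Classical.decEq (CnP r → ℂ)
  letI := Classical.decPred fun l : Par (r + 1) => l.1 a ≠ 0
  (F.filter (fun l => l.1 a ≠ 0)).image (cnNorm a)

theorem cn_mem_fam (a : Fin (r + 1)) (F : Finset (Par (r + 1))) (μ : CnP r → ℂ) :
    μ ∈ cnFam a F ↔ ∃ l ∈ F, l.1 a ≠ 0 ∧ cnNorm a l = μ := by
  unfold cnFam
  simp only [Finset.mem_image, Finset.mem_filter]
  constructor
  · rintro ⟨l, ⟨h1, h2⟩, h3⟩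
    exact ⟨l, h1, h2, h3⟩
  · rintro ⟨l, h1, h2, h3⟩
    exact ⟨l, ⟨h1, h2⟩, h3⟩

theorem cn_pt_smul {e : ℕ} (t : ℂ) (l : Par e) : (t • l).pt = t • l.pt := by
  funext k
  rcases k with k | k <;> simp [Par.pt]

/-- the point of a member in terms of its normalisation -/
theorem cn_pt_norm (a : Fin (r + 1)) (l : Par (r + 1)) (ha : l.1 a ≠ 0)
    (hQ : ∑ i, l.2 i * l.1 i = 0) : l.pt = l.1 a • (cnParLift a (cnNorm a l)).pt := by
  rw [← cn_pt_smul, ← cn_lift_norm a l ha hQ]

theorem cn_norm_injOn (a : Fin (r + 1)) {C0 A : ℝ} {F : Finset (Par (r + 1))}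
    (hF : ConcHyp (r + 1) C0 A F) :
    Set.InjOn (cnNorm a) {l | l ∈ F ∧ l.1 a ≠ 0} := by
  rintro l ⟨hl, hla⟩ m ⟨hm, hma⟩ h
  by_contra hne
  obtain ⟨k, -, -, s, hs, hs1, hs2⟩ := hF.sep l hl
  have h0 := hs2 m hm (Ne.symm hne)
  rw [cn_pt_norm a l hla (hF.onQ l hl).2, pmb_homog_eval_smul hs] at hs1
  rw [cn_pt_norm a m hma (hF.onQ m hm).2, pmb_homog_eval_smul hs, ← h] at h0
  rcases mul_eq_zero.1 h0 with h1 | h1
  · exact pow_ne_zero _ hma h1
  · exact hs1 (by rw [h1, mul_zero])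

theorem cn_polar_span {e : ℕ} (T : Set (Par e)) (hT : ∀ a ∈ T, ∀ b ∈ T, Par.polar a b = 0) :
    ∀ a ∈ Submodule.span ℂ T, ∀ b ∈ Submodule.span ℂ T, Par.polar a b = 0 := by
  have hadd1 : ∀ a a' b : Par e, Par.polar (a + a') b = Par.polar a b + Par.polar a' b := by
    intro a a' b
    simp only [Par.polar, Prod.fst_add, Prod.snd_add, Pi.add_apply, ← Finset.sum_add_distrib]
    exact Finset.sum_congr rfl fun i _ => by ring
  have hsm1 : ∀ (s : ℂ) (a b : Par e), Par.polar (s • a) b = s * Par.polar a b := by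
    intro s a b
    simp only [Par.polar, Prod.smul_fst, Prod.smul_snd, Pi.smul_apply, smul_eq_mul, Finset.mul_sum]
    exact Finset.sum_congr rfl fun i _ => by ring
  have hsymm : ∀ a b : Par e, Par.polar a b = Par.polar b a := by
    intro a b
    simp only [Par.polar]
    exact Finset.sum_congr rfl fun i _ => by ring
  have h1 : ∀ a ∈ Submodule.span ℂ T, ∀ b ∈ T, Par.polar a b = 0 := by
    intro a ha b hb
    induction ha using Submodule.span_induction with
    | mem x hx => exact hT x hx b hb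
    | zero => simp [Par.polar]
    | add x y _ _ hx hy => rw [hadd1, hx, hy, add_zero]
    | smul s x _ hx => rw [hsm1, hx, mul_zero]
  intro a ha b hb
  induction hb using Submodule.span_induction with
  | mem x hx => exact h1 a ha x hx
  | zero => simp [Par.polar]
  | add x y _ _ hx hy => rw [hsymm, hadd1, hsymm x, hsymm y, hx, hy, add_zero]
  | smul s x _ hx => rw [hsymm, hsm1, hsymm x, hx, mul_zero]

theorem cn_polar_smul_smul {e : ℕ} (s t : ℂ) (a b : Par e) :
    Par.polar (s • a) (t • b) = s * t * Par.polar a b := by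
  simp only [Par.polar, Prod.smul_fst, Prod.smul_snd, Pi.smul_apply, smul_eq_mul, Finset.mul_sum]
  exact Finset.sum_congr rfl fun i _ => by ring

/-- substitution of polynomials of degree `≤ N` multiplies the total degree by at most `N` -/
theorem cn_totalDegree_aeval_le {ι κ : Type*} (N : ℕ) (P : ι → MvPolynomial κ ℂ)
    (hP : ∀ i, (P i).totalDegree ≤ N) (g : MvPolynomial ι ℂ) :
    (aeval P g).totalDegree ≤ N * g.totalDegree := by
  rw [aeval_def, eval₂_eq]
  apply totalDegree_finsetSum_le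
  intro m hm
  refine (totalDegree_mul _ _).trans ?_
  have h1 : (algebraMap ℂ (MvPolynomial κ ℂ) (coeff m g)).totalDegree = 0 := totalDegree_C _
  rw [h1, zero_add]
  refine (totalDegree_finsetProd _ _).trans ?_
  have h2 : ∑ i ∈ m.support, m i ≤ g.totalDegree := le_totalDegree hm
  calc ∑ i ∈ m.support, (P i ^ m i).totalDegree ≤ ∑ i ∈ m.support, N * m i := by
        refine Finset.sum_le_sum fun i _ => (totalDegree_pow _ _).trans ?_
        rw [mul_comm]
        exact Nat.mul_le_mul_right _ (hP i)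
    _ = N * ∑ i ∈ m.support, m i := by rw [Finset.mul_sum]
    _ ≤ N * g.totalDegree := Nat.mul_le_mul_left _ h2

/-- the components of `μ ↦ (cnParLift a μ).pt` as polynomials -/
noncomputable def cnLiftP (a : Fin (r + 1)) : Fin (r + 1) ⊕ Fin (r + 1) → MvPolynomial (CnP r) ℂ :=
  Sum.elim (a.insertNth (α := fun _ => MvPolynomial (CnP r) ℂ) 1 (fun i => X (Sum.inl i)))
    (a.insertNth (α := fun _ => MvPolynomial (CnP r) ℂ) (- ∑ i, X (Sum.inr i) * X (Sum.inl i))
      (fun i => X (Sum.inr i)))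

theorem cn_eval_liftP (a : Fin (r + 1)) (μ : CnP r → ℂ) (k : Fin (r + 1) ⊕ Fin (r + 1)) :
    eval μ (cnLiftP a k) = (cnParLift a μ).pt k := by
  rcases k with p | p
  · rcases Fin.eq_self_or_eq_succAbove a p with rfl | ⟨i, rfl⟩
    · simp [cnLiftP, cnParLift, Par.pt]
    · simp [cnLiftP, cnParLift, Par.pt, cnV]
  · rcases Fin.eq_self_or_eq_succAbove a p with rfl | ⟨i, rfl⟩
    · simp [cnLiftP, cnParLift, Par.pt, cnV, cnY]
    · simp [cnLiftP, cnParLift, Par.pt, cnY]

theorem cn_liftP_degree (a : Fin (r + 1)) (k : Fin (r + 1) ⊕ Fin (r + 1)) :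
    (cnLiftP a k).totalDegree ≤ 2 := by
  rcases k with p | p
  · rcases Fin.eq_self_or_eq_succAbove a p with rfl | ⟨i, rfl⟩
    · simp [cnLiftP]
    · simp [cnLiftP]
  · rcases Fin.eq_self_or_eq_succAbove a p with rfl | ⟨i, rfl⟩
    · simp only [cnLiftP, Sum.elim_inr, Fin.insertNth_apply_same, totalDegree_neg]
      apply totalDegree_finsetSum_le
      intro i _
      refine (totalDegree_mul _ _).trans ?_
      simp
    · simp [cnLiftP]

theorem cn_eval_aeval_liftP (a : Fin (r + 1)) (μ : CnP r → ℂ)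
    (s : MvPolynomial (Fin (r + 1) ⊕ Fin (r + 1)) ℂ) :
    eval μ (aeval (cnLiftP a) s) = eval (cnParLift a μ).pt s := by
  rw [pmb_eval_aeval]
  congr 2
  funext k
  exact cn_eval_liftP a μ k

theorem cn_hyp_chart (a : Fin (r + 1)) {C0 A : ℝ} (hC0 : 1 ≤ C0) (hA : 1 ≤ A)
    {F : Finset (Par (r + 1))} (hF : ConcHyp (r + 1) C0 A F) : CnHyp r (2 * C0) A (cnFam a F) := by
  classical
  constructor
  · intro μ hμ
    obtain ⟨l, hl, hla, rfl⟩ := (cn_mem_fam a F μ).1 hμ
    obtain ⟨k, -, hkA, s, hs, hs1, hs2⟩ := hF.sep l hl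
    refine ⟨aeval (cnLiftP a) s, ?_, ?_, ?_⟩
    · have h1 : (aeval (cnLiftP a) s).totalDegree ≤ 2 * k :=
        (cn_totalDegree_aeval_le 2 _ (cn_liftP_degree a) s).trans
          (Nat.mul_le_mul_left _ hs.totalDegree_le)
      have h2 : ((aeval (cnLiftP a) s).totalDegree : ℝ) ≤ 2 * (k : ℝ) := by exact_mod_cast h1
      linarith
    · rw [cn_eval_aeval_liftP]
      rw [cn_pt_norm a l hla (hF.onQ l hl).2, pmb_homog_eval_smul hs] at hs1
      exact right_ne_zero_of_mul hs1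
    · intro m' hm' hne
      obtain ⟨m, hm, hma, rfl⟩ := (cn_mem_fam a F m').1 hm'
      have hml : m ≠ l := fun h => hne (by rw [h])
      have h0 := hs2 m hm hml
      rw [cn_pt_norm a m hma (hF.onQ m hm).2, pmb_homog_eval_smul hs] at h0
      rw [cn_eval_aeval_liftP]
      exact (mul_eq_zero.1 h0).resolve_left (pow_ne_zero _ hma)
  · intro F'' hsub horth
    obtain ⟨F', hF'⟩ : ∃ F' : Finset (Par (r + 1)),
        F' = F.filter fun l => l.1 a ≠ 0 ∧ cnNorm a l ∈ F'' := ⟨_, rfl⟩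
    have hmem : ∀ l, l ∈ F' ↔ l ∈ F ∧ l.1 a ≠ 0 ∧ cnNorm a l ∈ F'' := by
      intro l; rw [hF', Finset.mem_filter]
    have hpol : ∀ l ∈ (F' : Set (Par (r + 1))), ∀ m ∈ (F' : Set (Par (r + 1))),
        Par.polar l m = 0 := by
      intro l hl m hm
      obtain ⟨hl1, hl2, hl3⟩ := (hmem l).1 (Finset.mem_coe.1 hl)
      obtain ⟨hm1, hm2, hm3⟩ := (hmem m).1 (Finset.mem_coe.1 hm)
      have el := cn_lift_norm a l hl2 (hF.onQ l hl1).2
      have em := cn_lift_norm a m hm2 (hF.onQ m hm1).2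
      calc Par.polar l m
          = Par.polar (l.1 a • cnParLift a (cnNorm a l)) (m.1 a • cnParLift a (cnNorm a m)) := by
            rw [← el, ← em]
        _ = 0 := by
            rw [cn_polar_smul_smul, cn_polar_lift, horth _ hl3 _ hm3, neg_zero, mul_zero]
    have h1 := hF.iso (Submodule.span ℂ (F' : Set (Par (r + 1)))) (cn_polar_span _ hpol) F'
      (by rw [hF']; exact Finset.filter_subset _ _)
      (fun l hl => Submodule.subset_span (Finset.mem_coe.2 hl))
    have h2 : F''.card ≤ F'.card := by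
      refine (Finset.card_le_card (t := F'.image (cnNorm a)) ?_).trans Finset.card_image_le
      intro μ hμ
      obtain ⟨l, hl, hla, rfl⟩ := (cn_mem_fam a F μ).1 (hsub hμ)
      exact Finset.mem_image.2 ⟨l, (hmem l).2 ⟨hl, hla, hμ⟩, rfl⟩
    have h3 : r + 1 - 2 = r - 1 := by omega
    rw [h3] at h1
    have h4 : (F''.card : ℝ) ≤ (F'.card : ℝ) := by exact_mod_cast h2
    have h5 : 0 ≤ C0 * A ^ (r - 1) := by positivity
    linarith

theorem cn_emb_flat_norm (a : Fin (r + 1)) (l : Par (r + 1)) (ha : l.1 a ≠ 0)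
    (hQ : ∑ i, l.2 i * l.1 i = 0) : cnEmb a '' cnFlat (cnNorm a l) = evFlat l.1 l.2 := by
  have el := cn_lift_norm a l ha hQ
  have e1 : l.1 = l.1 a • (cnParLift a (cnNorm a l)).1 := congrArg Prod.fst el
  have e2 : l.2 = l.1 a • (cnParLift a (cnNorm a l)).2 := congrArg Prod.snd el
  calc cnEmb a '' cnFlat (cnNorm a l)
      = evFlat (cnParLift a (cnNorm a l)).1 (cnParLift a (cnNorm a l)).2 := cn_emb_flat a _
    _ = evFlat (l.1 a • (cnParLift a (cnNorm a l)).1) (l.1 a • (cnParLift a (cnNorm a l)).2) :=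
        (cn_evFlat_smul _ ha _ _).symm
    _ = evFlat l.1 l.2 := by rw [← e1, ← e2]

theorem cn_fam_mono (a : Fin (r + 1)) {F' F : Finset (Par (r + 1))} (h : F' ⊆ F) :
    cnFam a F' ⊆ cnFam a F := by
  intro μ hμ
  obtain ⟨l, hl, hla, rfl⟩ := (cn_mem_fam a F' μ).1 hμ
  exact (cn_mem_fam a F _).2 ⟨l, h hl, hla, rfl⟩

theorem cn_fam_card_le (a : Fin (r + 1)) (F : Finset (Par (r + 1))) :
    (cnFam a F).card ≤ F.card := by
  unfold cnFam
  refine le_trans (@Finset.card_image_le _ _ _ _ (Classical.decEq _)) ?_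
  exact @Finset.card_filter_le _ _ _ (Classical.decPred _)

theorem cn_card_le_sum {C0 A : ℝ} {F : Finset (Par (r + 1))} (hF : ConcHyp (r + 1) C0 A F)
    {F' : Finset (Par (r + 1))} (hsub : F' ⊆ F) : F'.card ≤ ∑ a, (cnFam a F').card := by
  classical
  have h1 : ∀ a : Fin (r + 1), (cnFam a F').card = (F'.filter fun l => l.1 a ≠ 0).card := by
    intro a
    have h2 : cnFam a F' = (F'.filter fun l => l.1 a ≠ 0).image (cnNorm a) := by
      ext μ
      rw [cn_mem_fam, Finset.mem_image]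
      constructor
      · rintro ⟨l, h1, h2, h3⟩
        exact ⟨l, Finset.mem_filter.2 ⟨h1, h2⟩, h3⟩
      · rintro ⟨l, h1, h3⟩
        exact ⟨l, (Finset.mem_filter.1 h1).1, (Finset.mem_filter.1 h1).2, h3⟩
    rw [h2]
    apply Finset.card_image_of_injOn
    intro l hl m hm hlm
    have hl' := Finset.mem_filter.1 (Finset.mem_coe.1 hl)
    have hm' := Finset.mem_filter.1 (Finset.mem_coe.1 hm)
    exact cn_norm_injOn a hF ⟨hsub hl'.1, hl'.2⟩ ⟨hsub hm'.1, hm'.2⟩ hlm
  simp only [h1]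
  refine (Finset.card_le_card (t := Finset.univ.biUnion fun a : Fin (r + 1) =>
    F'.filter fun l => l.1 a ≠ 0) ?_).trans Finset.card_biUnion_le
  intro l hl
  have hne : l.1 ≠ 0 := (hF.onQ l (hsub hl)).1
  obtain ⟨a, ha⟩ := Function.ne_iff.1 hne
  exact Finset.mem_biUnion.2 ⟨a, Finset.mem_univ _, Finset.mem_filter.2 ⟨hl, ha⟩⟩

theorem cn_emb_iUnion_subset (a : Fin (r + 1)) {C0 A : ℝ} {F : Finset (Par (r + 1))}
    (hF : ConcHyp (r + 1) C0 A F) :
    (fun x => cnEmb a x + 0) '' (⋃ μ ∈ cnFam a F, cnFlat μ) ⊆ ⋃ l ∈ F, evFlat l.1 l.2 := by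
  rintro _ ⟨z, hz, rfl⟩
  simp only [Set.mem_iUnion] at hz ⊢
  obtain ⟨μ, hμ, hz⟩ := hz
  obtain ⟨l, hl, hla, rfl⟩ := (cn_mem_fam a F μ).1 hμ
  refine ⟨l, hl, ?_⟩
  rw [← cn_emb_flat_norm a l hla (hF.onQ l hl).2, add_zero]
  exact ⟨z, hz, rfl⟩

theorem cn_glob_of_chart (hr : 2 ≤ r) (h : CnGlob r) : GlobStmt (r + 1) := by
  intro C0 hC0
  obtain ⟨c', hc', H⟩ := h (2 * C0) (by linarith)
  refine ⟨c' / (r + 1), by positivity, ?_⟩
  intro A F hA1 hF hcard
  rw [Nat.add_sub_cancel] at hcard ⊢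
  have hAr : 0 ≤ C0 * A ^ r := by positivity
  have key : ∀ a : Fin (r + 1), c' * ((cnFam a F).card : ℝ) * A ^ (r.choose 2)
      ≤ (hA (⋃ l ∈ F, evFlat l.1 l.2) ⌊A⌋₊ : ℝ) := by
    intro a
    have h1 : ((cnFam a F).card : ℝ) ≤ 2 * C0 * A ^ r := by
      have : ((cnFam a F).card : ℝ) ≤ (F.card : ℝ) := by exact_mod_cast cn_fam_card_le a F
      linarith
    have h2 := H A (cnFam a F) hA1 (cn_hyp_chart a hC0 hA1 hF) h1
    refine h2.trans ?_
    rw [← rk_hA_map_eq (cnEmb a) (cn_emb_injective a) 0]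
    exact_mod_cast rk_hA_mono_set _ (cn_emb_iUnion_subset a hF)
  have hsum : (F.card : ℝ) ≤ ∑ a : Fin (r + 1), ((cnFam a F).card : ℝ) := by
    exact_mod_cast cn_card_le_sum hF (Finset.Subset.refl F)
  have hpos : 0 ≤ c' * A ^ (r.choose 2) := by positivity
  have h3 : c' * (F.card : ℝ) * A ^ (r.choose 2)
      ≤ ((r : ℝ) + 1) * (hA (⋃ l ∈ F, evFlat l.1 l.2) ⌊A⌋₊ : ℝ) := by
    calc c' * (F.card : ℝ) * A ^ (r.choose 2)
        = (c' * A ^ (r.choose 2)) * (F.card : ℝ) := by ring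
      _ ≤ (c' * A ^ (r.choose 2)) * ∑ a : Fin (r + 1), ((cnFam a F).card : ℝ) :=
          mul_le_mul_of_nonneg_left hsum hpos
      _ = ∑ a : Fin (r + 1), c' * ((cnFam a F).card : ℝ) * A ^ (r.choose 2) := by
          rw [Finset.mul_sum]
          exact Finset.sum_congr rfl fun a _ => by ring
      _ ≤ ∑ _a : Fin (r + 1), (hA (⋃ l ∈ F, evFlat l.1 l.2) ⌊A⌋₊ : ℝ) :=
          Finset.sum_le_sum fun a _ => key a
      _ = ((r : ℝ) + 1) * (hA (⋃ l ∈ F, evFlat l.1 l.2) ⌊A⌋₊ : ℝ) := by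
          rw [Finset.sum_const, Finset.card_univ, Fintype.card_fin, nsmul_eq_mul]
          push_cast
          ring
  have hr1 : (0 : ℝ) < (r : ℝ) + 1 := by positivity
  calc c' / ((r : ℝ) + 1) * (F.card : ℝ) * A ^ (r.choose 2)
      = (c' * (F.card : ℝ) * A ^ (r.choose 2)) / ((r : ℝ) + 1) := by ring
    _ ≤ (hA (⋃ l ∈ F, evFlat l.1 l.2) ⌊A⌋₊ : ℝ) := by
        rw [div_le_iff₀ hr1]
        linarith

theorem cn_loc_of_chart (hr : 2 ≤ r) (h : CnLoc r) : LocStmt (r + 1) := by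
  intro C0 hC0
  obtain ⟨C', hC', H⟩ := h (2 * C0) (by linarith)
  refine ⟨((r : ℝ) + 1) * C', by positivity, ?_⟩
  intro A F hA hF f hdeg hne F' hsub hvan
  rw [Nat.add_sub_cancel]
  obtain ⟨z0, hz0, hfz0⟩ := hne
  have key : ∀ a : Fin (r + 1), ((cnFam a F').card : ℝ) ≤ C' * A ^ r := by
    intro a
    refine H A (cnFam a F) hA (cn_hyp_chart a hC0 hA hF) (aeval (affPoly (cnEmb a) 0) f) ?_ ?_
      (cnFam a F') (cn_fam_mono a hsub) ?_
    · have h1 : ((aeval (affPoly (cnEmb a) 0) f).totalDegree : ℝ) ≤ (f.totalDegree : ℝ) := by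
        exact_mod_cast rk_totalDegree_aeval_le _ (rk_map_affPoly_degree (cnEmb a) 0) f
      have h2 : 0 ≤ C0 * A := by positivity
      linarith
    · intro h0
      obtain ⟨w, rfl⟩ : z0 ∈ Set.range (cnEmb (r := r) a) := by rw [cn_emb_range]; exact hz0
      apply hfz0
      have h1 := rk_eval_aeval_affPoly (cnEmb a) 0 f w
      rw [h0, map_zero, add_zero] at h1
      exact h1.symm
    · intro μ hμ z hz
      obtain ⟨l, hl, hla, rfl⟩ := (cn_mem_fam a F' μ).1 hμ
      rw [rk_eval_aeval_affPoly, add_zero]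
      apply hvan l hl
      rw [← cn_emb_flat_norm a l hla (hF.onQ l (hsub hl)).2]
      exact ⟨z, hz, rfl⟩
  have hsum : (F'.card : ℝ) ≤ ∑ a : Fin (r + 1), ((cnFam a F').card : ℝ) := by
    exact_mod_cast cn_card_le_sum hF hsub
  calc (F'.card : ℝ) ≤ ∑ a : Fin (r + 1), ((cnFam a F').card : ℝ) := hsum
    _ ≤ ∑ _a : Fin (r + 1), C' * A ^ r := Finset.sum_le_sum fun a _ => key a
    _ = ((r : ℝ) + 1) * C' * A ^ r := by
        rw [Finset.sum_const, Finset.card_univ, Fintype.card_fin, nsmul_eq_mul]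
        push_cast
        ring

end Claimed.Agent.R273
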