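import Mathlib

/-!
# Row 273, App A, package CN-CLOSE: closing the finite system of inequalities (`conc:uniform-completion`), as an ABSTRACT real lemma.  Architect helper69.

`α` = the allowed varieties, `ht a = h` (`dim = s0 + h`), `N a` = number of flats of the family inside, `w a = deg · A^h`.

CONSTANTS (paper): `c1 := 4 C + 4`, `κ := 4 C c1 + 1`, `K h := (C0 + 2) κ^(r - h)`  (so `K j ≤ K h / κ^(j-h)` for `h ≤ j ≤ r`, `K h ≥ C0 + 1`, `K h ≥ 1`),
`b 0 := C0`, `b (h+1) := c1 K (h+1) b h`, `B h := if h = r then C0 else b h`.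
(1) `C (1 + K h b (h-1)) ≤ 2 C K h b (h-1) = (2C/c1) b h ≤ b h / 2`;
(2) for `h < i < r`: `b i = b h ∏_{j=h+1..i} c1 K j ≤ b h (c1 K h / κ)^(i-h)`, so `C b i ≤ b h K h^(i-h) C (c1/κ)^(i-h) ≤ b h K h^(i-h) / 4`;
(3) `i = r`: `b h ≥ c1 K h C0 ≥ c1 C0`, so `C C0 ≤ b h / 4 ≤ b h K h^(r-h) / 4`.
PROOF: `ρ := sup_a N a / (B (ht a) w a)` exists (`≤ max M 0`, because `B ≥ 1`, `w ≥ 1`).  If `ρ > 1` choose `a` with ratio `> max 1 (3ρ/4)`.  `ht a ∉ {0, r}` (ratio `≤ 1` there).
Low alternative: `N a ≤ C w a + ∑ ρ B(h-1) w b ≤ ρ w a C (1 + K h B(h-1)) ≤ ρ w a B h / 2`.  High alternative: `N a ≤ N b ≤ ρ B i w b ≤ ρ B i C w a / K h^(i-h) ≤ ρ w a B h / 4`.  Contradiction.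
If `α` is empty there is nothing to prove.
-/

set_option autoImplicit false

namespace Claimed.Agent.R273

universe u

theorem cn_close (r : ℕ) (C C0 : ℝ) (hC : 1 ≤ C) (hC0 : 1 ≤ C0) :
    ∃ K B : ℕ → ℝ, (∀ h, C0 + 1 ≤ K h) ∧ (∀ h, 1 ≤ B h) ∧
      ∀ {α : Type u} (N w : α → ℝ) (ht : α → ℕ) (M : ℝ),
        (∀ a, N a ≤ M) → (∀ a, 1 ≤ w a) → (∀ a, ht a ≤ r) →
        (∀ a, ht a = 0 → N a ≤ w a) →
        (∀ a, ht a = r → N a ≤ C0 * w a) →
        (∀ a, 1 ≤ ht a → ht a < r →
          (∃ s : Finset α, (∀ b ∈ s, ht b + 1 = ht a) ∧ N a ≤ C * w a + ∑ b ∈ s, N b ∧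
              ∑ b ∈ s, w b ≤ C * K (ht a) * w a) ∨
          (∃ b, ht a < ht b ∧ N a ≤ N b ∧ w b * K (ht a) ^ (ht b - ht a) ≤ C * w a)) →
        ∀ a, N a ≤ B (ht a) * w a := by
  -- constants used here: κ = 8 C², K h = (C0+2) κ^(r-h), B 0 = C0, B (h+1) = 4 C K (h+1) B h; halving of the ratio bound replaces the sup
  set κ : ℝ := 8 * C ^ 2 with hκ
  have hκ1 : 1 ≤ κ := by nlinarith
  let K : ℕ → ℝ := fun h => (C0 + 2) * κ ^ (r - h)
  let b : ℕ → ℝ := fun h => Nat.rec C0 (fun n x => 4 * C * K (n + 1) * x) h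
  have hbs : ∀ n, b (n + 1) = 4 * C * K (n + 1) * b n := fun n => rfl
  have hK : ∀ h, C0 + 2 ≤ K h := fun h => by
    have : 1 ≤ κ ^ (r - h) := one_le_pow₀ hκ1
    show C0 + 2 ≤ (C0 + 2) * κ ^ (r - h)
    nlinarith
  have hK1 : ∀ h, 1 ≤ K h := fun h => by linarith [hK h]
  have hb : ∀ h, C0 ≤ b h := by
    intro h
    induction h with
    | zero => exact le_rfl
    | succ n ih =>
      rw [hbs]
      have h1 : 1 ≤ 4 * C * K (n + 1) := by nlinarith [hK1 (n + 1)]
      have h2 : 0 ≤ b n := by linarith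
      nlinarith
  have hb1 : ∀ h, 1 ≤ b h := fun h => hC0.trans (hb h)
  have hKdec : ∀ h j, h < j → j ≤ r → κ * K j ≤ K h := by
    intro h j hj hjr
    show κ * ((C0 + 2) * κ ^ (r - j)) ≤ (C0 + 2) * κ ^ (r - h)
    have e : κ * ((C0 + 2) * κ ^ (r - j)) = (C0 + 2) * κ ^ (r - j + 1) := by ring
    rw [e]
    have : κ ^ (r - j + 1) ≤ κ ^ (r - h) := pow_le_pow_right₀ hκ1 (by omega)
    have h0 : 0 ≤ C0 + 2 := by linarith
    exact mul_le_mul_of_nonneg_left this h0
  have hQ : ∀ h m, h + (m + 1) ≤ r → b (h + (m + 1)) * (2 * C) ≤ b h * K h ^ (m + 1) := by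
    intro h m
    induction m with
    | zero =>
      intro hr
      have h1 := hKdec h (h + 1) (by omega) (by omega)
      have e : b (h + (0 + 1)) = 4 * C * K (h + 1) * b h := hbs h
      rw [e, zero_add, pow_one]
      have h2 : 0 ≤ b h := by linarith [hb1 h]
      have : 4 * C * K (h + 1) * (2 * C) = κ * K (h + 1) := by rw [hκ]; ring
      calc 4 * C * K (h + 1) * b h * (2 * C) = (4 * C * K (h + 1) * (2 * C)) * b h := by ring
        _ = (κ * K (h + 1)) * b h := by rw [this]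
        _ ≤ K h * b h := by gcongr
        _ = b h * K h := by ring
    | succ m ih =>
      intro hr
      have h1 := hKdec h (h + (m + 1) + 1) (by omega) (by omega)
      have h3 := ih (by omega)
      have e : b (h + (m + 1 + 1)) = 4 * C * K (h + (m + 1) + 1) * b (h + (m + 1)) := hbs _
      rw [e]
      have hk0 : 0 ≤ K (h + (m + 1) + 1) := by linarith [hK1 (h + (m + 1) + 1)]
      have h4 : 4 * C * K (h + (m + 1) + 1) ≤ K h := by
        refine le_trans ?_ h1
        have : 4 * C ≤ κ := by rw [hκ]; nlinarith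
        gcongr
      have h5 : 0 ≤ b (h + (m + 1)) * (2 * C) := by
        have := hb1 (h + (m + 1)); positivity
      have hKh : 0 ≤ K h := by linarith [hK1 h]
      calc 4 * C * K (h + (m + 1) + 1) * b (h + (m + 1)) * (2 * C)
          = (4 * C * K (h + (m + 1) + 1)) * (b (h + (m + 1)) * (2 * C)) := by ring
        _ ≤ K h * (b h * K h ^ (m + 1)) := by gcongr
        _ = b h * K h ^ (m + 1 + 1) := by ring
  refine ⟨K, b, fun h => by linarith [hK h], hb1, ?_⟩
  intro α N w ht M hM hw hr h0 hR halt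
  have hbw : ∀ a, 1 ≤ b (ht a) * w a := fun a => by nlinarith [hb1 (ht a), hw a]
  have step : ∀ ρ : ℝ, 1 ≤ ρ → (∀ a, N a ≤ ρ * (b (ht a) * w a)) →
      ∀ a, N a ≤ max 1 (ρ / 2) * (b (ht a) * w a) := by
    intro ρ hρ hP a
    have g1 : (1 : ℝ) ≤ max 1 (ρ / 2) := le_max_left _ _
    have g2 : ρ / 2 ≤ max 1 (ρ / 2) := le_max_right _ _
    have hbwa := hbw a
    have hwa := hw a
    have key1 : b (ht a) * w a ≤ max 1 (ρ / 2) * (b (ht a) * w a) := by nlinarith
    have key2 : ρ / 2 * (b (ht a) * w a) ≤ max 1 (ρ / 2) * (b (ht a) * w a) := by nlinarith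
    by_cases c0 : ht a = 0
    · refine le_trans ?_ key1
      have := h0 a c0
      nlinarith [hb1 (ht a)]
    by_cases cr : ht a = r
    · refine le_trans ?_ key1
      have := hR a cr
      have := hb (ht a)
      nlinarith
    have hlt : ht a < r := lt_of_le_of_ne (hr a) cr
    refine le_trans ?_ key2
    rcases halt a (Nat.one_le_iff_ne_zero.2 c0) hlt with ⟨s, hs, hN, hsum⟩ | ⟨b', hlt', hN, hwK⟩
    · obtain ⟨h', hh'⟩ : ∃ h', ht a = h' + 1 := ⟨ht a - 1, by omega⟩
      have hsN : ∑ x ∈ s, N x ≤ ρ * b h' * ∑ x ∈ s, w x := by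
        rw [Finset.mul_sum]
        refine Finset.sum_le_sum fun x hx => ?_
        have e : ht x = h' := by have := hs x hx; omega
        have := hP x
        rw [e] at this
        linarith
      rw [hh'] at hsum ⊢
      rw [hbs]
      have hb' := hb1 h'
      have hk' := hK1 (h' + 1)
      have p1 : 0 ≤ ρ * b h' := by positivity
      have p2 : ρ * b h' * ∑ x ∈ s, w x ≤ ρ * b h' * (C * K (h' + 1) * w a) :=
        mul_le_mul_of_nonneg_left hsum p1
      have p3 : 1 ≤ ρ * K (h' + 1) * b h' := by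
        have : 1 ≤ ρ * K (h' + 1) := by nlinarith
        nlinarith
      have p4 : C * w a ≤ C * w a * (ρ * K (h' + 1) * b h') := by
        have : 0 ≤ C * w a := by positivity
        nlinarith
      nlinarith
    · obtain ⟨m, hm⟩ : ∃ m, ht b' = ht a + (m + 1) := ⟨ht b' - ht a - 1, by omega⟩
      have hq := hQ (ht a) m (by rw [← hm]; exact hr b')
      have e : ht b' - ht a = m + 1 := by omega
      rw [e] at hwK
      rw [← hm] at hq
      have hPb := hP b'
      have hKpos : 0 < K (ht a) ^ (m + 1) := by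
        have := hK1 (ht a); positivity
      have hbb := hb1 (ht b')
      have q1 : b (ht b') * w b' * K (ht a) ^ (m + 1) ≤ b (ht b') * (C * w a) := by
        have : 0 ≤ b (ht b') := by linarith
        calc b (ht b') * w b' * K (ht a) ^ (m + 1) = b (ht b') * (w b' * K (ht a) ^ (m + 1)) := by ring
          _ ≤ b (ht b') * (C * w a) := by gcongr
      have q2 : b (ht b') * (C * w a) ≤ (b (ht a) * w a / 2) * K (ht a) ^ (m + 1) := by
        have : 0 ≤ w a := by linarith
        nlinarith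
      have q3 : b (ht b') * w b' ≤ b (ht a) * w a / 2 :=
        le_of_mul_le_mul_right (q1.trans q2) hKpos
      nlinarith
  have down : ∀ n : ℕ, ∀ ρ : ℝ, 1 ≤ ρ → ρ ≤ 2 ^ n → (∀ a, N a ≤ ρ * (b (ht a) * w a)) →
      ∀ a, N a ≤ 1 * (b (ht a) * w a) := by
    intro n
    induction n with
    | zero =>
      intro ρ h1 h2 hP a
      have : ρ = 1 := le_antisymm (by simpa using h2) h1
      rw [← this]; exact hP a
    | succ n ih =>
      intro ρ h1 h2 hP
      refine ih (max 1 (ρ / 2)) (le_max_left _ _) (max_le (one_le_pow₀ one_le_two) ?_) (step ρ h1 hP)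
      rw [pow_succ] at h2
      linarith
  obtain ⟨n, hn⟩ := pow_unbounded_of_one_lt (max M 1) one_lt_two
  intro a
  have := down n (max M 1) (le_max_right _ _) hn.le (fun a => by
    have h1 := hbw a
    have h2 : M ≤ max M 1 := le_max_left _ _
    have h3 : (1 : ℝ) ≤ max M 1 := le_max_right _ _
    have := hM a
    nlinarith) a
  linarith

end Claimed.Agent.R273
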