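import Claimed.Agent.R273.CnEnv
import Claimed.Agent.R273.CnClose

/-!
# Row 273, App A, package CN-COUNT: `conc:theorem` (a), (b) from (LOW), (REG), the envelope dichotomy and (CLOSE).  Architect helper69.

Fix `C0`, the constants `C1, Ce` of `CnLow`, `Cn` of `CnReg (CnI r)`, `n = card (CnI r) = s0 + r`.
Put `C := max (C1) (2 Ce Cn) ⊔ (n+1)^(2n) ⊔ 1`, get `K, B` from `cn_close r C C0`.  For `A, F, 𝒜` apply the conclusion of `cn_close` to
`α := {V // V ∈ 𝒜 ∧ s0 ≤ vdim V}`, `ht V := vdim V - s0` (`≤ r`: `ph_vdim_le`, `cn_card_I`), `N V := cnN F V`, `w V := vdeg V * A^(ht V)` (`≥ 1`: `ph_vdeg_pos`), `M := |F|`.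
* `ht = 0`: `cn_count_base`.   * `ht = r`: `V = univ` (`cn_eq_univ_of_vdim`), `vdeg univ = 1` (`ph_univ`), `CnAllowed.top`.
* `1 ≤ h < r`: `T := ⌈K h * A⌉₊` (`K h A ≤ T ≤ 2 K h A`, `T ≥ C0 A`, `T ≥ 1`); `W` from `cn_dich_exists`; `W ∈ 𝒜` (`CnAllowed.up`).
    If `vdim W ≤ vdim V`: `W = V` (`cn_dich_eq`), `cn_step_low`: the members of `s` are in `𝒜` (`CnAllowed.down`), `ht = h - 1`, `∑ w ≤ Ce Cn T vdeg V A^(h-1) ≤ 2 Ce Cn K h · w V`.
    Otherwise `cn_step_high`.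
Finally `C_final := max_h B h` (`h ≤ r`), and for `V ∈ 𝒜` with `vdim V < s0` no flat is contained in `V` (`cn_vdim_ge_of_flat`), so `F' = ∅`.
-/

set_option autoImplicit false

namespace Claimed.Agent.R273

open MvPolynomial

variable {r : ℕ}

/-- the number of flats of the family contained in `V` -/
noncomputable def cnN (F : Finset (CnP r → ℂ)) (V : Set (CnI r → ℂ)) : ℕ :=
  letI := Classical.decPred fun μ : CnP r → ℂ => cnFlat μ ⊆ V
  (F.filter (fun μ => cnFlat μ ⊆ V)).card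

theorem cn_N_le_card (F : Finset (CnP r → ℂ)) (V : Set (CnI r → ℂ)) : cnN F V ≤ F.card := by
  classical
  exact Finset.card_filter_le _ _

theorem cn_N_mono (F : Finset (CnP r → ℂ)) {V W : Set (CnI r → ℂ)} (h : V ⊆ W) :
    cnN F V ≤ cnN F W := by
  classical
  unfold cnN
  exact Finset.card_le_card fun μ hμ => by
    simp only [Finset.mem_filter] at hμ ⊢
    exact ⟨hμ.1, hμ.2.trans h⟩

theorem cn_card_le_N {F F' : Finset (CnP r → ℂ)} {V : Set (CnI r → ℂ)} (hF : F' ⊆ F)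
    (h : ∀ μ ∈ F', cnFlat μ ⊆ V) : F'.card ≤ cnN F V := by
  classical
  unfold cnN
  exact Finset.card_le_card fun μ hμ => by
    simp only [Finset.mem_filter]
    exact ⟨hF hμ, h μ hμ⟩

/-- **LOW step.**  PLAN: `c := r - h`; `c + vdim V = card (CnI r)` (`cn_card_I`).  `hreg V (cnSys V T) T` gives `g`; `hlow V .. (D := Cn * T) g` gives `H`.
`G₀ := {f | ∀ x ∈ V, eval x f = 0}` has `Zl G₀ = V` (`V = zeroLocus p`); `s` := the set of components of `insert H G₀` (`ph_comps_finite`, `Set.Finite.toFinset`); `ph_isCompOf_isVar`, `ph_isCompOf_subset`, `ph_pit`, `ph_bezout_cut`.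
Split `F.filter (Φ_μ ⊆ V)` into the `μ` with `∃ z ∈ Φ_μ, H z ≠ 0` (bounded by `hlow`) and the others: there `Φ_μ ⊆ Zl (insert H G₀)`, irreducible, so it lies in a member of `s` (`ph_isVar_subset_comp`): `Finset.card_biUnion_le`-type bound. -/
theorem cn_step_low (hr : 2 ≤ r) {C0 C : ℝ} {Ce Cn : ℕ} (hlow : CnLowAt r C0 C Ce)
    (hreg : CnRegAt (CnI r) Cn) (hCn : 0 < Cn) {A : ℝ} {F : Finset (CnP r → ℂ)} (hA : 1 ≤ A)
    (hF : CnHyp r C0 A F) {V : Set (CnI r → ℂ)} (hV : IsVar V) {h : ℕ} (h1 : 1 ≤ h) (h2 : h < r)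
    (hd : vdim V = r.choose 2 + h) (T : ℕ) (hT : 1 ≤ T) (hcomp : IsCompOf V (cnSys V T)) :
    ∃ s : Finset (Set (CnI r → ℂ)), (∀ W ∈ s, IsVar W ∧ W ⊆ V ∧ vdim W + 1 = vdim V) ∧
      ∑ W ∈ s, vdeg W ≤ Ce * (Cn * T) * vdeg V ∧
      (cnN F V : ℝ) ≤ C * (vdeg V : ℝ) * A ^ h + ∑ W ∈ s, (cnN F W : ℝ) := by
  classical
  obtain ⟨g, hgdeg, hgV, hgind⟩ := hreg V (cnSys V T) T hT (fun g hg => hg.1) hcomp (r - h)
    (by rw [hd, cn_card_I]; omega)
  obtain ⟨H, hHdeg, hHne, hHcount⟩ := hlow V hV h (r - h) h1 (by omega) (by omega) hd (Cn * T) g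
    (Nat.mul_pos hCn hT) hgdeg hgV hgind
  obtain ⟨G₀, hG₀def⟩ : ∃ G₀ : Set (MvPolynomial (CnI r) ℂ), G₀ = {f | ∀ x ∈ V, eval x f = 0} :=
    ⟨_, rfl⟩
  have hG₀ : Zl G₀ = V := by
    obtain ⟨p, hp, rfl⟩ := hV
    apply Set.Subset.antisymm
    · intro x hx
      rw [ph_mem_zeroLocus]
      intro f hf
      refine hx f ?_
      rw [hG₀def]
      intro y hy
      exact (ph_mem_zeroLocus p y).1 hy f hf
    · intro x hx f hf
      rw [hG₀def] at hf
      exact hf x hx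
  have hfin := ph_comps_finite (insert H G₀)
  have hmem : ∀ W, W ∈ hfin.toFinset ↔ IsCompOf W (insert H G₀) := fun W => by
    rw [Set.Finite.mem_toFinset]; rfl
  refine ⟨hfin.toFinset, fun W hW => ?_, ?_, ?_⟩
  · have hW' := (hmem W).1 hW
    refine ⟨ph_isCompOf_isVar hW', ?_, ph_pit V hV G₀ hG₀ H hHne W hW'⟩
    intro x hx
    rw [← hG₀]
    intro f hf
    exact ph_isCompOf_subset hW' hx f (Set.mem_insert_of_mem _ hf)
  · refine (ph_bezout_cut V hV G₀ hG₀ H hHne hfin.toFinset fun W hW => (hmem W).1 hW).trans ?_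
    exact Nat.mul_le_mul_right _ hHdeg
  · -- the count
    have hsplit : F.filter (fun μ => cnFlat μ ⊆ V)
        ⊆ (F.filter (fun μ => cnFlat μ ⊆ V ∧ ∃ z ∈ cnFlat μ, eval z H ≠ 0))
          ∪ hfin.toFinset.biUnion (fun W => F.filter (fun μ => cnFlat μ ⊆ W)) := by
      intro μ hμ
      obtain ⟨hμF, hμV⟩ := Finset.mem_filter.1 hμ
      by_cases hz : ∃ z ∈ cnFlat μ, eval z H ≠ 0
      · exact Finset.mem_union_left _ (Finset.mem_filter.2 ⟨hμF, hμV, hz⟩)
      · push Not at hz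
        have hsub : cnFlat μ ⊆ Zl (insert H G₀) := by
          intro z hz' f hf
          rcases Set.mem_insert_iff.1 hf with rfl | hf
          · exact hz z hz'
          · have : z ∈ Zl G₀ := by rw [hG₀]; exact hμV hz'
            exact this f hf
        obtain ⟨W, hW, hμW⟩ := ph_isVar_subset_comp (cn_flat_isVar μ) hsub
        exact Finset.mem_union_right _ (Finset.mem_biUnion.2
          ⟨W, (hmem W).2 hW, Finset.mem_filter.2 ⟨hμF, hμW⟩⟩)
    have h3 : (cnN F V : ℝ) ≤ ((F.filter (fun μ => cnFlat μ ⊆ V ∧ ∃ z ∈ cnFlat μ, eval z H ≠ 0)).card : ℝ)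
        + ∑ W ∈ hfin.toFinset, (cnN F W : ℝ) := by
      have h4 : cnN F V ≤ (F.filter (fun μ => cnFlat μ ⊆ V ∧ ∃ z ∈ cnFlat μ, eval z H ≠ 0)).card
          + ∑ W ∈ hfin.toFinset, cnN F W := by
        have e : ∀ W, cnN F W = (F.filter (fun μ => cnFlat μ ⊆ W)).card := fun W => by
          unfold cnN
          congr!
        simp only [e]
        exact (Finset.card_le_card hsplit).trans ((Finset.card_union_le _ _).trans
          (Nat.add_le_add_left Finset.card_biUnion_le _))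
      exact_mod_cast h4
    have h5 := hHcount A F hA hF (F.filter (fun μ => cnFlat μ ⊆ V ∧ ∃ z ∈ cnFlat μ, eval z H ≠ 0))
      (Finset.filter_subset _ _) (fun μ hμ => (Finset.mem_filter.1 hμ).2)
    linarith

/-- **HIGH step.**  PLAN: `cn_dich_pow`, `K A ≤ T`, `A^(h+m) K^m = A^h (K A)^m ≤ A^h T^m`. -/
theorem cn_step_high {A K : ℝ} (hA : 1 ≤ A) (hK : 0 ≤ K) {V W : Set (CnI r → ℂ)} (hV : IsVar V)
    (T : ℕ) (hT : K * A ≤ (T : ℝ)) (hW : IsCompOf W (cnSys V T)) (hVW : V ⊆ W)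
    (hs : r.choose 2 ≤ vdim V) (hlt : vdim V < vdim W) :
    ((vdeg W : ℝ) * A ^ (vdim W - r.choose 2)) * K ^ ((vdim W - r.choose 2) - (vdim V - r.choose 2))
      ≤ ((Fintype.card (CnI r) + 1 : ℕ) : ℝ) ^ (2 * Fintype.card (CnI r))
          * ((vdeg V : ℝ) * A ^ (vdim V - r.choose 2)) := by
  have h1 := cn_dich_pow hV T hW hVW
  have h2 : ((vdeg W : ℝ)) * (T : ℝ) ^ (vdim W - vdim V)
      ≤ ((Fintype.card (CnI r) + 1 : ℕ) : ℝ) ^ (2 * Fintype.card (CnI r)) * (vdeg V : ℝ) := by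
    exact_mod_cast h1
  have e1 : (vdim W - r.choose 2) - (vdim V - r.choose 2) = vdim W - vdim V := by omega
  have e2 : vdim W - r.choose 2 = (vdim V - r.choose 2) + (vdim W - vdim V) := by omega
  rw [e1, e2, pow_add]
  have hA0 : 0 ≤ A := by linarith
  have h3 : (K * A) ^ (vdim W - vdim V) ≤ (T : ℝ) ^ (vdim W - vdim V) :=
    pow_le_pow_left₀ (mul_nonneg hK hA0) hT _
  have h4 : 0 ≤ A ^ (vdim V - r.choose 2) := pow_nonneg hA0 _
  calc (vdeg W : ℝ) * (A ^ (vdim V - r.choose 2) * A ^ (vdim W - vdim V)) * K ^ (vdim W - vdim V)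
      = ((vdeg W : ℝ) * (K * A) ^ (vdim W - vdim V)) * A ^ (vdim V - r.choose 2) := by
        rw [mul_pow]; ring
    _ ≤ ((vdeg W : ℝ) * (T : ℝ) ^ (vdim W - vdim V)) * A ^ (vdim V - r.choose 2) := by
        gcongr
    _ ≤ (((Fintype.card (CnI r) + 1 : ℕ) : ℝ) ^ (2 * Fintype.card (CnI r)) * (vdeg V : ℝ))
          * A ^ (vdim V - r.choose 2) := by
        gcongr
    _ = _ := by ring

theorem cn_core_of_low (hr : 2 ≤ r) (hlow : CnLow r) (hreg : CnReg (CnI r)) : CnCore r := by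
  classical
  intro C0 hC0
  obtain ⟨C1, Ce, hC1, hlowAt⟩ := hlow C0 hC0
  obtain ⟨Cn, hCn, hregAt⟩ := hreg
  obtain ⟨Cd, hCd⟩ : ∃ Cd : ℝ,
      Cd = ((Fintype.card (CnI r) + 1 : ℕ) : ℝ) ^ (2 * Fintype.card (CnI r)) := ⟨_, rfl⟩
  obtain ⟨C, hCdef⟩ : ∃ C : ℝ, C = max (max C1 (2 * Ce * Cn)) (max Cd 1) := ⟨_, rfl⟩
  have hCC1 : C1 ≤ C := by rw [hCdef]; exact (le_max_left _ _).trans (le_max_left _ _)
  have hCCe : 2 * (Ce : ℝ) * Cn ≤ C := by rw [hCdef]; exact (le_max_right _ _).trans (le_max_left _ _)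
  have hCCd : Cd ≤ C := by rw [hCdef]; exact (le_max_left _ _).trans (le_max_right _ _)
  have hC1' : 1 ≤ C := by rw [hCdef]; exact (le_max_right _ _).trans (le_max_right _ _)
  obtain ⟨K, B, hK, hB, hclose⟩ := cn_close r C C0 hC1' hC0
  have hBle : ∀ h, h ≤ r → B h ≤ ∑ i ∈ Finset.range (r + 1), B i := fun h hh =>
    Finset.single_le_sum (f := B) (fun i _ => by linarith [hB i]) (Finset.mem_range.2 (by omega))
  have hBpos : 0 < ∑ i ∈ Finset.range (r + 1), B i := lt_of_lt_of_le (by linarith [hB 0]) (hBle 0 (by omega))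
  refine ⟨∑ i ∈ Finset.range (r + 1), B i, hBpos, ?_⟩
  intro A F hA hF 𝒜 h𝒜 V hV𝒜 F' hF'F hF'V
  have hA0 : 0 ≤ A := by linarith
  by_cases hs0 : r.choose 2 ≤ vdim V
  swap
  · have : F' = ∅ := by
      rw [Finset.eq_empty_iff_forall_notMem]
      intro μ hμ
      exact hs0 (cn_vdim_ge_of_flat (hF'V μ hμ))
    rw [this]
    simp only [Finset.card_empty, Nat.cast_zero]
    positivity
  have hw1 : ∀ W : Set (CnI r → ℂ), IsVar W → ∀ k : ℕ, 1 ≤ (vdeg W : ℝ) * A ^ k := fun W hW k => by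
    have h1 : (1 : ℝ) ≤ (vdeg W : ℝ) := by exact_mod_cast ph_vdeg_pos W hW
    have h2 : 1 ≤ A ^ k := one_le_pow₀ hA
    nlinarith
  have key := hclose (α := {W : Set (CnI r → ℂ) // W ∈ 𝒜 ∧ r.choose 2 ≤ vdim W})
    (fun a => (cnN F a.1 : ℝ)) (fun a => (vdeg a.1 : ℝ) * A ^ (vdim a.1 - r.choose 2))
    (fun a => vdim a.1 - r.choose 2) (F.card : ℝ)
    (fun a => by exact_mod_cast cn_N_le_card F a.1)
    (fun a => hw1 a.1 (h𝒜.isVar _ a.2.1) _)
    (fun a => by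
      have := ph_vdim_le a.1
      rw [cn_card_I] at this
      show vdim a.1 - r.choose 2 ≤ r
      omega)
    (fun a ha => by
      have ha' : vdim a.1 - r.choose 2 = 0 := ha
      have h1 := cn_count_base hr (h𝒜.isVar _ a.2.1) (by omega)
        (F.filter (fun μ => cnFlat μ ⊆ a.1)) (fun μ hμ => (Finset.mem_filter.1 hμ).2)
      have h2 : cnN F a.1 ≤ 1 := by
        refine le_trans (le_of_eq ?_) h1
        unfold cnN
        congr!
      have h3 : (cnN F a.1 : ℝ) ≤ 1 := by exact_mod_cast h2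
      exact h3.trans (hw1 a.1 (h𝒜.isVar _ a.2.1) _))
    (fun a ha => by
      have ha' : vdim a.1 - r.choose 2 = r := ha
      have hu : a.1 = Set.univ := cn_eq_univ_of_vdim (h𝒜.isVar _ a.2.1) (by
        rw [cn_card_I]
        have := a.2.2
        omega)
      have h1 := h𝒜.top (hu ▸ a.2.1)
      have h2 : (cnN F a.1 : ℝ) ≤ (F.card : ℝ) := by exact_mod_cast cn_N_le_card F a.1
      show (cnN F a.1 : ℝ) ≤ C0 * ((vdeg a.1 : ℝ) * A ^ (vdim a.1 - r.choose 2))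
      rw [ha', hu, ph_univ.2.2]
      rw [hu] at h2
      simpa using h2.trans h1)
    (fun a ha1 ha2 => by
      obtain ⟨⟨V', hV'𝒜, hV's⟩, rfl⟩ : ∃ a', a' = a := ⟨a, rfl⟩
      have hh1 : 1 ≤ vdim V' - r.choose 2 := ha1
      have hh2 : vdim V' - r.choose 2 < r := ha2
      have hV' := h𝒜.isVar _ hV'𝒜
      obtain ⟨h, hh⟩ : ∃ h, h = vdim V' - r.choose 2 := ⟨_, rfl⟩
      have hKh : C0 + 1 ≤ K h := hK h
      have hKA : 1 ≤ K h * A := by nlinarith
      obtain ⟨T, hTdef⟩ : ∃ T : ℕ, T = ⌈K h * A⌉₊ := ⟨_, rfl⟩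
      have hT1 : K h * A ≤ (T : ℝ) := by rw [hTdef]; exact Nat.le_ceil _
      have hT2 : (T : ℝ) ≤ 2 * (K h * A) := by
        have := (Nat.ceil_lt_add_one (by linarith : 0 ≤ K h * A)).le
        rw [hTdef]; linarith
      have hT3 : C0 * A ≤ (T : ℝ) := by nlinarith
      have hT4 : 1 ≤ T := by
        have : (1 : ℝ) ≤ (T : ℝ) := hKA.trans hT1
        exact_mod_cast this
      obtain ⟨W, hWcomp, hVW⟩ := cn_dich_exists hV' T
      have hW𝒜 : W ∈ 𝒜 := h𝒜.up V' hV'𝒜 T hT3 W hWcomp hVW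
      have hWvar := h𝒜.isVar _ hW𝒜
      by_cases hdim : vdim W ≤ vdim V'
      · left
        have hWV : W = V' := cn_dich_eq hV' hWvar hVW hdim
        rw [hWV] at hWcomp
        obtain ⟨s, hs1, hs2, hs3⟩ := cn_step_low hr hlowAt hregAt hCn hA hF hV' (h := h)
          (by omega) (by omega) (by omega) T hT4 hWcomp
        have hp : ∀ W' ∈ s, W' ∈ 𝒜 ∧ r.choose 2 ≤ vdim W' := fun W' hW' => by
          obtain ⟨g1, g2, g3⟩ := hs1 W' hW'
          exact ⟨h𝒜.down V' hV'𝒜 W' g1 g2, by omega⟩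
        refine ⟨s.subtype (fun W' => W' ∈ 𝒜 ∧ r.choose 2 ≤ vdim W'), fun b hb => ?_, ?_, ?_⟩
        · have hb' := (hs1 b.1 (Finset.mem_subtype.1 hb)).2.2
          have := b.2.2
          show vdim b.1 - r.choose 2 + 1 = vdim V' - r.choose 2
          omega
        · rw [Finset.sum_subtype_of_mem (fun W' => (cnN F W' : ℝ)) hp]
          show (cnN F V' : ℝ) ≤ C * ((vdeg V' : ℝ) * A ^ (vdim V' - r.choose 2)) + _
          rw [← hh]
          have h0 : 0 ≤ (vdeg V' : ℝ) * A ^ h := by positivity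
          nlinarith
        · rw [Finset.sum_subtype_of_mem (fun W' => (vdeg W' : ℝ) * A ^ (vdim W' - r.choose 2)) hp]
          show _ ≤ C * K (vdim V' - r.choose 2) * ((vdeg V' : ℝ) * A ^ (vdim V' - r.choose 2))
          rw [← hh]
          have e1 : ∑ W' ∈ s, (vdeg W' : ℝ) * A ^ (vdim W' - r.choose 2)
              = (∑ W' ∈ s, (vdeg W' : ℝ)) * A ^ (h - 1) := by
            rw [Finset.sum_mul]
            refine Finset.sum_congr rfl fun W' hW' => ?_
            have := (hs1 W' hW').2.2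
            congr 2
            omega
          rw [e1]
          have h5 : (∑ W' ∈ s, (vdeg W' : ℝ)) ≤ (Ce : ℝ) * ((Cn : ℝ) * (T : ℝ)) * (vdeg V' : ℝ) := by
            exact_mod_cast hs2
          have h6 : A ^ h = A ^ (h - 1) * A := by
            rw [← pow_succ]
            congr 1
            omega
          have h7 : 0 ≤ A ^ (h - 1) := pow_nonneg hA0 _
          have h8 : (0 : ℝ) ≤ (vdeg V' : ℝ) := Nat.cast_nonneg _
          have hK0 : 0 ≤ K h := by linarith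
          calc (∑ W' ∈ s, (vdeg W' : ℝ)) * A ^ (h - 1)
              ≤ ((Ce : ℝ) * ((Cn : ℝ) * (T : ℝ)) * (vdeg V' : ℝ)) * A ^ (h - 1) := by gcongr
            _ ≤ ((Ce : ℝ) * ((Cn : ℝ) * (2 * (K h * A))) * (vdeg V' : ℝ)) * A ^ (h - 1) := by gcongr
            _ = (2 * (Ce : ℝ) * Cn) * K h * ((vdeg V' : ℝ) * A ^ h) := by rw [h6]; ring
            _ ≤ C * K h * ((vdeg V' : ℝ) * A ^ h) := by gcongr
      · right
        push Not at hdim
        refine ⟨⟨W, hW𝒜, by omega⟩, ?_, ?_, ?_⟩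
        · show vdim V' - r.choose 2 < vdim W - r.choose 2
          omega
        · exact_mod_cast cn_N_mono F hVW
        · have h9 := cn_step_high hA (by linarith : 0 ≤ K h) hV' T hT1 hWcomp hVW hV's hdim
          rw [← hCd] at h9
          show (vdeg W : ℝ) * A ^ (vdim W - r.choose 2)
              * K (vdim V' - r.choose 2) ^ ((vdim W - r.choose 2) - (vdim V' - r.choose 2))
            ≤ C * ((vdeg V' : ℝ) * A ^ (vdim V' - r.choose 2))
          rw [hh] at h9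
          refine h9.trans ?_
          have h0 : 0 ≤ (vdeg V' : ℝ) * A ^ (vdim V' - r.choose 2) := by positivity
          gcongr)
    ⟨V, hV𝒜, hs0⟩
  have h1 : (F'.card : ℝ) ≤ (cnN F V : ℝ) := by exact_mod_cast cn_card_le_N hF'F hF'V
  have h2 : vdim V - r.choose 2 ≤ r := by
    have := ph_vdim_le V
    rw [cn_card_I] at this
    omega
  have h3 : 0 ≤ (vdeg V : ℝ) * A ^ (vdim V - r.choose 2) := by positivity
  calc (F'.card : ℝ) ≤ (cnN F V : ℝ) := h1
    _ ≤ B (vdim V - r.choose 2) * ((vdeg V : ℝ) * A ^ (vdim V - r.choose 2)) := key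
    _ ≤ (∑ i ∈ Finset.range (r + 1), B i) * ((vdeg V : ℝ) * A ^ (vdim V - r.choose 2)) := by
        gcongr
        exact hBle _ h2
    _ = _ := by ring

end Claimed.Agent.R273
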