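-- KEEP
import Claimed.Agent.R273.RkBasic

/-!
# Row 273, package POLY-A (architect helper94): definitions.  Prefix `ph_`.

Algebraic geometry over `ℂ` WITHOUT schemes, sheaves, local rings or intersection theory: everything is expressed through
* the Hilbert function `hA T D` (rank of the polynomials of degree `≤ D` on a set `T`; `Defs.lean`) and its ideal version `hI`;
* prime ideals of `ℂ[x]` (irreducible varieties), minimal primes of `span G` (components of `Z(G)`);
* NOETHER POSITION with respect to `k` polynomials `t_1..t_k` of degree `≤ 1` (no change of coordinates);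
* SHEETS: the points `ζ ∈ F^ι`, `F` = algebraic closure of `ℂ(T_1..T_k)`, with `p(ζ) = 0`, `t(ζ) = T` ("generic fibre").

Dimension and degree are DEFINED by the Hilbert function (`vdim`, `vdeg`), for arbitrary sets.  Main theorems (`PhDeg.lean`):
`hA V D ≤ vdeg V * binom(D + k, k)` for an irreducible `V` of dimension `k` (Chardin), and
`(∑ vdeg V_i) * binom(D - q + k, k) ≤ hA (⋃ V_i) D`, `q = n (L - 1)`, for `k`-dimensional components `V_i` of a system of degree `≤ L`
(Chardin-Philippon), other components of the system being arbitrary.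
-/

set_option autoImplicit false

namespace Claimed.Agent.R273

open MvPolynomial Module

variable {ι : Type*}

/-- Hilbert function of an ideal: dimension of the image of the polynomials of degree `≤ D` in `ℂ[x]/I`. -/
noncomputable def hI (I : Ideal (MvPolynomial ι ℂ)) (D : ℕ) : ℕ :=
  finrank ℂ (Submodule.map (Ideal.Quotient.mkₐ ℂ I).toLinearMap (restrictTotalDegree ι ℂ D))

/-- `z` is an ISOLATED ZERO of the system `G` (algebraic form: the ideal of `G` is `𝔪_z`-primary near `z`). -/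
def IsoZero {F : Type*} [Field F] (G : Set (MvPolynomial ι F)) (z : ι → F) : Prop :=
  (∀ g ∈ G, eval z g = 0) ∧
    ∃ (u : MvPolynomial ι F) (N : ℕ), eval z u ≠ 0 ∧ ∀ i, u * (X i - C (z i)) ^ N ∈ Ideal.span G

/-- (N2) FILTERED FINITENESS of `ℂ[x]/I` over `ℂ[t_1..t_k]`: finitely many `b_j` such that every `f` is
`∑ a_j(t) b_j` modulo `I` with `deg a_j + deg b_j ≤ deg f`. -/
def FiltFin {k : ℕ} (I : Ideal (MvPolynomial ι ℂ)) (t : Fin k → MvPolynomial ι ℂ) : Prop :=
  ∃ (m : ℕ) (b : Fin m → MvPolynomial ι ℂ), ∀ f : MvPolynomial ι ℂ,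
    ∃ a : Fin m → MvPolynomial (Fin k) ℂ,
      (∀ j, a j = 0 ∨ (a j).totalDegree + (b j).totalDegree ≤ f.totalDegree) ∧
        f - ∑ j, aeval t (a j) * b j ∈ I

/-- NOETHER POSITION of the ideal `p` with respect to the polynomials `t_1..t_k` of degree `≤ 1`. -/
structure NPos {k : ℕ} (p : Ideal (MvPolynomial ι ℂ)) (t : Fin k → MvPolynomial ι ℂ) : Prop where
  lin : ∀ i, (t i).totalDegree ≤ 1
  /-- (N1) `t_1..t_k` are algebraically independent modulo `p` -/
  inj : ∀ g : MvPolynomial (Fin k) ℂ, aeval t g ∈ p → g = 0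
  fin : FiltFin p t

/-- `e_1..e_m` are linearly independent over `ℂ[t]` modulo `p`. -/
def IndepMod {k m : ℕ} (p : Ideal (MvPolynomial ι ℂ)) (t : Fin k → MvPolynomial ι ℂ)
    (e : Fin m → MvPolynomial ι ℂ) : Prop :=
  ∀ a : Fin m → MvPolynomial (Fin k) ℂ, ∑ i, aeval t (a i) * e i ∈ p → ∀ i, a i = 0

/-- `e_1..e_m` span `ℂ[x]/p` over `ℂ(t)`. -/
def SpanMod {k m : ℕ} (p : Ideal (MvPolynomial ι ℂ)) (t : Fin k → MvPolynomial ι ℂ)
    (e : Fin m → MvPolynomial ι ℂ) : Prop :=
  ∀ f : MvPolynomial ι ℂ, ∃ (h : MvPolynomial (Fin k) ℂ) (a : Fin m → MvPolynomial (Fin k) ℂ),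
    h ≠ 0 ∧ aeval t h * f - ∑ i, aeval t (a i) * e i ∈ p

/-- The field of the generic fibre: an algebraic closure of `ℂ(T_1..T_k)`. -/
abbrev GenF (k : ℕ) := AlgebraicClosure (FractionRing (MvPolynomial (Fin k) ℂ))

/-- The generic point `(T_1..T_k)` of the base. -/
noncomputable def gpt (k : ℕ) : Fin k → GenF k :=
  fun i => algebraMap (MvPolynomial (Fin k) ℂ) (GenF k) (X i)

/-- The SHEETS of `p` over `t`: the points of the geometric generic fibre of `t : V(p) → ℂ^k`. -/
def sheets {k : ℕ} (p : Ideal (MvPolynomial ι ℂ)) (t : Fin k → MvPolynomial ι ℂ) : Set (ι → GenF k) :=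
  {ζ | ζ ∈ zeroLocus (GenF k) p ∧ ∀ i, aeval ζ (t i) = gpt k i}

/-- DIMENSION of an arbitrary subset of `ℂ^ι`: growth exponent of the Hilbert function. -/
noncomputable def vdim (T : Set (ι → ℂ)) : ℕ := sInf {k | ∃ C : ℕ, ∀ D, hA T D ≤ C * (D + 1) ^ k}

/-- DEGREE of a subset of `ℂ^ι`: the least `a` with `H_T(D) ≤ a binom(D + dim, dim)` for all `D`. -/
noncomputable def vdeg (T : Set (ι → ℂ)) : ℕ :=
  sInf {a | ∀ D, hA T D ≤ a * (D + vdim T).choose (vdim T)}

/-- The common zero set of a set of polynomials. -/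
def Zl (G : Set (MvPolynomial ι ℂ)) : Set (ι → ℂ) := {x | ∀ g ∈ G, eval x g = 0}

/-- `V` is an irreducible (closed, nonempty) variety. -/
def IsVar (V : Set (ι → ℂ)) : Prop := ∃ p : Ideal (MvPolynomial ι ℂ), p.IsPrime ∧ V = zeroLocus ℂ p

/-- `V` is an irreducible component of `Z(G)`. -/
def IsCompOf (V : Set (ι → ℂ)) (G : Set (MvPolynomial ι ℂ)) : Prop :=
  ∃ p ∈ (Ideal.span G).minimalPrimes, V = zeroLocus ℂ p

end Claimed.Agent.R273
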