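-- KEEP
import Claimed.Agent.R273.PhDefs

/-!
# Row 273, POLY-A 1: the determinant (socle) lemma `poly:socle`, ELEMENTARY PROOF (architect helper94).  LEAF PH-soc.

Paper: Koszul complexes, Ext, Cohen-Macaulay.  HERE: multilinearity of `det`, the adjugate and a monomial ideal.

Setting: `R` commutative ring, `P = R[Z_i : i ∈ ι]`, `f = Q Z` (`Q` a square matrix over `P`), `u Z_i^N ∈ (f)` for all `i`.
CLAIM `ph_socle`: `v det Q ∉ (f)` as soon as `v(0) u(0)^n ≠ 0`.

PROOF.
1. `ph_mem_powIdeal`: `g ∈ (Z_i^N : i ∈ s)` iff every monomial of `g` has an exponent `≥ N` at some `i ∈ s`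
   (`MvPolynomial.mem_ideal_span_monomial_image`, `X i ^ N = monomial (single i N) 1`, `single i N ≤ m ↔ N ≤ m i`).
2. `ph_X_mul_mem_powIdeal`: for `j ∉ s`: `Z_j g ∈ (Z_i^N : i ∈ s) → g ∈ (..)` (`support_X_mul` / `coeff_X_mul`: monomials of `Z_j g` are `m + single j 1`).
3. `ph_det_zero_row`: if `M'' Z = b''` with `b''_j = 0` and `b''_i ∈ (Z_i^N)` for `i ≠ j` then `det M'' ∈ (Z_i^N : i ≠ j)`:
   `adjugate M'' * M'' = det M'' • 1` (`Matrix.adjugate_mul`) gives `det M'' * Z_j = ∑_i adj_{ji} b''_i ∈ (Z_i^N : i ≠ j)`; use 2.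
4. `ph_det_sub_mem`: `M Z = M' Z = b`, `b_i ∈ (Z_i^N)` ⇒ `det M - det M' ∈ (Z_i^N : all i)`.  Replace the rows of `M` by those of `M'` one at
   a time (`Finset.induction_on` over the set `s` of replaced rows, hybrid `fun i => if i ∈ s then M' i else M i`);
   `Matrix.det_updateRow_add`/`det_updateRow_sub`-type multilinearity: the difference of two consecutive hybrids is `det` of the hybrid
   with row `j` replaced by `M j - M' j`, to which 3 applies.
5. `ph_socle`: choose `Pm` with `u Z_i^N = ∑_j Pm_ij f_j` (`Ideal.mem_span_range_iff_exists_fun`).  `M := Pm * Q`, `M' := diagonal (u Z_i^(N-1))`.  By 4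
   `det Pm * det Q - u^n ∏ Z_i^(N-1) ∈ J := (Z_i^N)`.  If `v det Q ∈ (f)` then, since `det Pm * f_j = (adjugate Pm * Pm * f)_j = ∑ adj_{ji} u Z_i^N ∈ J`,
   `v u^n ∏ Z_i^(N-1) ∈ J`; its coefficient at the monomial `∑ single i (N-1)` is `v(0) u(0)^n ≠ 0`
   (`coeff_mul_monomial'`/`coeff_mul_X_pow`-type lemma: `coeff m (g * monomial m 1) = coeff 0 g`), contradiction with 1.
-/

set_option autoImplicit false

namespace Claimed.Agent.R273

open MvPolynomial

variable {R : Type*} [CommRing R] {ι : Type*}

theorem ph_mem_powIdeal (s : Set ι) (N : ℕ) (g : MvPolynomial ι R) :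
    g ∈ Ideal.span ((fun i => (X i : MvPolynomial ι R) ^ N) '' s) ↔
      ∀ m ∈ g.support, ∃ i ∈ s, N ≤ m i := by
  classical
  have h1 : ((fun i => (X i : MvPolynomial ι R) ^ N) '' s)
      = (fun m => monomial m (1 : R)) '' ((fun i => Finsupp.single i N) '' s) := by
    rw [Set.image_image]
    apply Set.image_congr
    intro i _
    simp [X_pow_eq_monomial]
  rw [h1, mem_ideal_span_monomial_image]
  constructor
  · intro h m hm
    obtain ⟨si, ⟨i, hi, rfl⟩, hle⟩ := h m hm
    exact ⟨i, hi, by simpa using hle i⟩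
  · intro h m hm
    obtain ⟨i, hi, hle⟩ := h m hm
    exact ⟨_, ⟨i, hi, rfl⟩, by simpa using hle⟩

theorem ph_X_mul_mem_powIdeal (s : Set ι) (N : ℕ) (j : ι) (hj : j ∉ s) (g : MvPolynomial ι R)
    (h : X j * g ∈ Ideal.span ((fun i => (X i : MvPolynomial ι R) ^ N) '' s)) :
    g ∈ Ideal.span ((fun i => (X i : MvPolynomial ι R) ^ N) '' s) := by
  classical
  rw [ph_mem_powIdeal] at h ⊢
  intro m hm
  have hm' : m + Finsupp.single j 1 ∈ (X j * g).support := by
    rw [mem_support_iff, mul_comm, coeff_mul_X]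
    exact mem_support_iff.mp hm
  obtain ⟨i, hi, hle⟩ := h _ hm'
  refine ⟨i, hi, ?_⟩
  have hij : j ≠ i := fun e => hj (e ▸ hi)
  simpa [Finsupp.single_apply, hij] using hle

variable [Fintype ι] [DecidableEq ι]

theorem ph_det_zero_row (N : ℕ) (M : Matrix ι ι (MvPolynomial ι R)) (j : ι)
    (hj : (M.mulVec fun i => X i) j = 0)
    (hb : ∀ i, i ≠ j → (M.mulVec fun i => X i) i ∈ Ideal.span {(X i : MvPolynomial ι R) ^ N}) :
    M.det ∈ Ideal.span ((fun i => (X i : MvPolynomial ι R) ^ N) '' {i | i ≠ j}) := by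
  apply ph_X_mul_mem_powIdeal _ N j (by simp)
  have h1 : (M.adjugate.mulVec (M.mulVec fun i => X i)) j = X j * M.det := by
    rw [Matrix.mulVec_mulVec, Matrix.adjugate_mul, Matrix.smul_mulVec, Matrix.one_mulVec]
    simp [mul_comm]
  rw [← h1, Matrix.mulVec, dotProduct]
  apply Ideal.sum_mem
  intro i _
  by_cases hij : i = j
  · subst hij
    rw [hj, mul_zero]
    exact Ideal.zero_mem _
  · apply Ideal.mul_mem_left
    refine Ideal.span_mono ?_ (hb i hij)
    rintro _ rfl
    exact ⟨i, hij, rfl⟩

theorem ph_det_sub_mem (N : ℕ) (M M' : Matrix ι ι (MvPolynomial ι R))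
    (hMM' : (M.mulVec fun i => X i) = M'.mulVec fun i => X i)
    (hb : ∀ i, (M.mulVec fun i => X i) i ∈ Ideal.span {(X i : MvPolynomial ι R) ^ N}) :
    M.det - M'.det ∈ Ideal.span (Set.range fun i => (X i : MvPolynomial ι R) ^ N) := by
  set J := Ideal.span (Set.range fun i => (X i : MvPolynomial ι R) ^ N) with hJ
  -- hybrids
  have key : ∀ s : Finset ι,
      M.det - (Matrix.of fun i => if i ∈ s then M' i else M i).det ∈ J := by
    intro s
    induction s using Finset.induction_on with
    | empty =>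
      have : (Matrix.of fun i => if i ∈ (∅ : Finset ι) then M' i else M i) = M := by
        ext i k; simp
      rw [this, sub_self]; exact J.zero_mem
    | insert j s hjs ih =>
      set H : Matrix ι ι (MvPolynomial ι R) := Matrix.of fun i => if i ∈ s then M' i else M i with hH
      have e1 : (Matrix.of fun i => if i ∈ insert j s then M' i else M i) = H.updateRow j (M' j) := by
        ext i k
        by_cases hij : i = j
        · subst hij; simp
        · simp [Matrix.updateRow_apply, hij, hH]
      have e2 : H = H.updateRow j (M j) := by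
        ext i k
        by_cases hij : i = j
        · subst hij; simp [hH, hjs]
        · simp [Matrix.updateRow_apply, hij]
      have e3 : (H.updateRow j (M j - M' j)).det = H.det - (H.updateRow j (M' j)).det := by
        have := Matrix.det_updateRow_add H j (M j - M' j) (M' j)
        rw [sub_add_cancel, ← e2] at this
        rw [this]; ring
      have e4 : (H.updateRow j (M j - M' j)).det ∈ J := by
        have := ph_det_zero_row N (H.updateRow j (M j - M' j)) j ?_ ?_
        · refine Ideal.span_mono ?_ this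
          rintro _ ⟨i, _, rfl⟩
          exact ⟨i, rfl⟩
        · have h1 := congrFun hMM' j
          simp only [Matrix.mulVec, Matrix.updateRow_self, dotProduct] at h1 ⊢
          simp only [Pi.sub_apply, sub_mul, Finset.sum_sub_distrib]
          rw [h1, sub_self]
        · intro i hij
          have h1 : ((H.updateRow j (M j - M' j)).mulVec fun i => X i) i = (M.mulVec fun i => X i) i := by
            simp only [Matrix.mulVec, Matrix.updateRow_ne hij]
            by_cases his : i ∈ s
            · have : H i = M' i := by ext k; simp [hH, his]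
              rw [this]
              exact (congrFun hMM' i).symm
            · have : H i = M i := by ext k; simp [hH, his]
              rw [this]
          rw [h1]; exact hb i
      rw [e1]
      have : M.det - (H.updateRow j (M' j)).det = (M.det - H.det) + (H.updateRow j (M j - M' j)).det := by
        rw [e3]; ring
      rw [this]
      exact J.add_mem ih e4
  have := key Finset.univ
  have e : (Matrix.of fun i => if i ∈ (Finset.univ : Finset ι) then M' i else M i) = M' := by
    ext i k; simp
  rwa [e] at this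

/-- **The socle lemma** (`poly:socle`), polynomial form at the origin. -/
theorem ph_socle (f : ι → MvPolynomial ι R) (Q : Matrix ι ι (MvPolynomial ι R))
    (hQ : (Q.mulVec fun i => X i) = f) (u v : MvPolynomial ι R) (N : ℕ) (hN : 1 ≤ N)
    (hu : ∀ i, u * X i ^ N ∈ Ideal.span (Set.range f))
    (h0 : constantCoeff v * constantCoeff u ^ Fintype.card ι ≠ 0) :
    v * Q.det ∉ Ideal.span (Set.range f) := by
  intro hv
  set J := Ideal.span (Set.range fun i => (X i : MvPolynomial ι R) ^ N) with hJ
  have hc : ∀ i, ∃ c : ι → MvPolynomial ι R, ∑ j, c j * f j = u * X i ^ N := fun i =>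
    Ideal.mem_span_range_iff_exists_fun.mp (hu i)
  choose c hc using hc
  set Pm : Matrix ι ι (MvPolynomial ι R) := Matrix.of c with hPm
  have hPf : Pm.mulVec f = fun i => u * X i ^ N := by
    ext1 i
    simp only [Matrix.mulVec, dotProduct, hPm, Matrix.of_apply]
    exact hc i
  have hXJ : ∀ i, (X i : MvPolynomial ι R) ^ N ∈ J := fun i => Ideal.subset_span ⟨i, rfl⟩
  -- det Pm * f_j ∈ J
  have h1 : ∀ j, Pm.det * f j ∈ J := by
    intro j
    have e : (Pm.adjugate.mulVec (Pm.mulVec f)) j = Pm.det * f j := by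
      rw [Matrix.mulVec_mulVec, Matrix.adjugate_mul, Matrix.smul_mulVec, Matrix.one_mulVec]
      simp
    rw [← e, hPf, Matrix.mulVec, dotProduct]
    apply Ideal.sum_mem
    intro i _
    apply Ideal.mul_mem_left
    apply Ideal.mul_mem_left
    exact hXJ i
  have h2 : Pm.det * (v * Q.det) ∈ J := by
    obtain ⟨a, ha⟩ := Ideal.mem_span_range_iff_exists_fun.mp hv
    rw [← ha, Finset.mul_sum]
    apply Ideal.sum_mem
    intro j _
    have : Pm.det * (a j * f j) = a j * (Pm.det * f j) := by ring
    rw [this]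
    exact Ideal.mul_mem_left _ _ (h1 j)
  set M' : Matrix ι ι (MvPolynomial ι R) := Matrix.diagonal fun i => u * X i ^ (N - 1) with hM'
  have hMX : ((Pm * Q).mulVec fun i => X i) = fun i => u * X i ^ N := by
    rw [← Matrix.mulVec_mulVec, hQ, hPf]
  have hM'X : (M'.mulVec fun i => X i) = fun i => u * X i ^ N := by
    ext1 i
    rw [hM', Matrix.mulVec_diagonal]
    obtain ⟨k, rfl⟩ : ∃ k, N = k + 1 := ⟨N - 1, by omega⟩
    simp only [Nat.add_sub_cancel]
    ring
  have h3 := ph_det_sub_mem N (Pm * Q) M' (hMX.trans hM'X.symm) (by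
    intro i
    rw [hMX]
    exact Ideal.mul_mem_left _ _ (Ideal.subset_span rfl))
  rw [← hJ, Matrix.det_mul, hM', Matrix.det_diagonal] at h3
  have h4 : v * ∏ i, (u * X i ^ (N - 1)) ∈ J := by
    have : v * ∏ i, (u * X i ^ (N - 1))
        = Pm.det * (v * Q.det) - v * (Pm.det * Q.det - ∏ i, (u * X i ^ (N - 1))) := by ring
    rw [this]
    exact J.sub_mem h2 (Ideal.mul_mem_left _ _ h3)
  set m₀ : ι →₀ ℕ := Finsupp.equivFunOnFinite.symm fun _ => N - 1 with hm₀
  have h5 : ∏ i, (u * (X i : MvPolynomial ι R) ^ (N - 1)) = u ^ Fintype.card ι * monomial m₀ 1 := by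
    rw [Finset.prod_mul_distrib, Finset.prod_const, Finset.card_univ, monomial_eq,
      Finsupp.prod_fintype _ _ (by simp)]
    simp [hm₀]
  rw [h5, ← mul_assoc] at h4
  have h6 : m₀ ∈ (v * u ^ Fintype.card ι * monomial m₀ 1).support := by
    rw [mem_support_iff]
    have := coeff_mul_monomial (0 : ι →₀ ℕ) m₀ (1 : R) (v * u ^ Fintype.card ι)
    rw [zero_add] at this
    rw [this, mul_one, ← constantCoeff_eq, map_mul, map_pow]
    exact h0
  have h7 : J = Ideal.span ((fun i => (X i : MvPolynomial ι R) ^ N) '' Set.univ) := by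
    rw [Set.image_univ]
  rw [h7, ph_mem_powIdeal] at h4
  obtain ⟨i, _, hi⟩ := h4 m₀ h6
  simp [hm₀] at hi
  omega

/-- The socle lemma at an arbitrary point `z` (apply the automorphism `X i ↦ X i + C (z i)`, i.e. `aeval (fun i => X i + C (z i))`, with
inverse `X i ↦ X i - C (z i)`; it maps ideals spans to spans, `det` to `det` (`RingHom.map_det`), and
`constantCoeff (aeval (X + C z) g) = eval z g`). -/
theorem ph_socle_at {F : Type*} [Field F] (z : ι → F) (f : ι → MvPolynomial ι F)
    (Q : Matrix ι ι (MvPolynomial ι F)) (hQ : (Q.mulVec fun i => X i - C (z i)) = f)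
    (u v : MvPolynomial ι F) (N : ℕ) (hN : 1 ≤ N)
    (hu : ∀ i, u * (X i - C (z i)) ^ N ∈ Ideal.span (Set.range f))
    (hu0 : eval z u ≠ 0) (hv0 : eval z v ≠ 0) :
    v * Q.det ∉ Ideal.span (Set.range f) := by
  set τ : MvPolynomial ι F →ₐ[F] MvPolynomial ι F := aeval fun i => X i + C (z i) with hτ
  have hτX : ∀ i, τ (X i - C (z i)) = X i := by
    intro i
    simp [hτ]
  have hcc : ∀ g, constantCoeff (τ g) = eval z g := by
    intro g
    have : (constantCoeff.comp τ.toRingHom : MvPolynomial ι F →+* F) = eval z := by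
      apply MvPolynomial.ringHom_ext
      · intro r; simp [hτ]
      · intro i; simp [hτ]
    exact congrArg (fun φ : MvPolynomial ι F →+* F => φ g) this
  have hmap : ∀ y ∈ Ideal.span (Set.range f), τ y ∈ Ideal.span (Set.range fun i => τ (f i)) := by
    intro y hy
    have := Ideal.mem_map_of_mem τ.toRingHom hy
    rw [Ideal.map_span, ← Set.range_comp] at this
    exact this
  intro hv
  refine ph_socle (fun i => τ (f i)) (Q.map τ) ?_ (τ u) (τ v) N hN ?_ ?_ ?_
  · ext1 i
    have := RingHom.map_mulVec τ.toRingHom Q (fun i => X i - C (z i)) i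
    rw [hQ] at this
    have e : (τ.toRingHom ∘ fun i => X i - C (z i)) = fun i => (X i : MvPolynomial ι F) := by
      ext1 i; exact hτX i
    rw [e] at this
    exact this.symm
  · intro i
    have := hmap _ (hu i)
    rwa [map_mul, map_pow, hτX] at this
  · rw [hcc, hcc]
    exact mul_ne_zero hv0 (pow_ne_zero _ hu0)
  · have := hmap _ hv
    rwa [map_mul, AlgHom.map_det] at this

end Claimed.Agent.R273
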