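-- KEEP
import Claimed.Agent.R273.PhSoc

/-!
# Row 273, POLY-A 2: interpolation at isolated points (`poly:interpolation`, `poly:union-interpolation`).  Architect helper94.

`F` an infinite field, `n = card ι` variables, `G` a system of degree `≤ L`, `z` an isolated zero (`IsoZero G z`, PhDefs).
MAIN RESULT `ph_separator`: a polynomial `s` of degree `≤ n (L - 1)` with `s(z) = 1` and `s(y) = 0` at EVERY other common zero `y` of `G`
(also on positive-dimensional components).

LEAF PH-int-a (`ph_iso_combos`).  `n` linear combinations of `G` still have `z` as an isolated zero.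
  Let `W = Submodule.span F G`, `𝔪 = vanishingIdeal F {z}` (maximal; generated by the `X i - C (z i)`).
  (i) a prime `𝔮 ≤ 𝔪` containing `W` equals `𝔪`: `u (X i - z_i)^N ∈ span G ≤ 𝔮`, `u ∉ 𝔪 ⊇ 𝔮`, so `X i - C (z i) ∈ 𝔮` for all `i`.
  (ii) construct `f_1, .., f_j ∈ W` by recursion such that every prime `𝔮` with `(f_1..f_j) ≤ 𝔮 ≤ 𝔪` satisfies `𝔮 = 𝔪 ∨ j ≤ 𝔮.primeHeight`.
     Step: the set `Min` of minimal primes of `(f_1..f_j)` is finite (`Ideal.finite_minimalPrimes_of_isNoetherianRing`); for `𝔮 ∈ Min`, `𝔮 ≤ 𝔪`, `𝔮 ≠ 𝔪`,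
     `W ⊓ 𝔮` is a proper subspace of `W` by (i); `F` infinite ⇒ some `f_{j+1} ∈ W` avoids all of them (`Subspace.biUnion_ne_univ_of_top_notMem` applied in `↥W`).
     A prime `𝔮' ⊇ (f_1..f_{j+1})`, `𝔮' ≤ 𝔪` contains some `𝔮 ∈ Min` (`Ideal.exists_minimalPrimes_le`); if `𝔮 = 𝔪` done, else `𝔮 < 𝔮'` and
     `Ideal.primeHeight_add_one_le_of_lt`.
  (iii) `j = n`: `𝔮 < 𝔪` would give `n + 1 ≤ 𝔪.primeHeight ≤ ringKrullDim = n` (`MvPolynomial.ringKrullDim_of_isNoetherianRing`, `ringKrullDim_eq_zero_of_field`,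
     `Ideal.primeHeight_le_ringKrullDim`).  So `𝔪` is the only minimal prime of `(f)` below `𝔪`.
  (iv) for the other minimal primes `𝔮` pick `u_𝔮 ∈ 𝔮 \ 𝔪`; `u₀ := ∏ u_𝔮`; `u₀ (X i - z_i) ∈ ⋂ Min = radical (f)` (`Ideal.sInf_minimalPrimes`), so a power lies in `(f)`;
     take `N` = max of the exponents and `u := u₀ ^ N`.
LEAF PH-int-b (`ph_divdiff`, `ph_separator`).  Outer variables `Y`, inner variables `Z`: `R₂ = MvPolynomial ι (MvPolynomial ι F)`; `map C f = f(Y)`, `C f = f(Z)`.
  `ph_divdiff`: by linearity it suffices to treat monomials (sum over `f.support`); for monomials induct on the degree: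
  `m(Y) Y_i - m(Z) Z_i = (m(Y) - m(Z)) Y_i + m(Z) (Y_i - Z_i)`.
  `ph_separator`: `f` from `ph_iso_combos` (degree `≤ L`: `W ≤ restrictTotalDegree`), `𝒬 i j := q (f i) j`, `Δ := det 𝒬 ∈ R₂`, `Δ.totalDegree ≤ n (L-1)` (`Matrix.det_apply`, `totalDegree_finset_prod`..).
  For `y : ι → F` put `ev y := eval (fun j => C (y j)) : R₂ →+* MvPolynomial ι F`; `ev y (map C f) = C (eval y f)`, `ev y (C f) = f`, `ev y Δ = det (ev y ∘ 𝒬)` (`RingHom.map_det`).
  `I_z := {g | ∃ v, eval z v ≠ 0 ∧ v * g ∈ span (range f)}` is an ideal, in particular an `F`-subspace, and `ev z Δ ∉ I_z` by `ph_socle_at` (with `Q := ev z ∘ 𝒬`; `f i = ∑ Q_ij (Z_j - z_j)` because `f i (z) = 0`;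
  mind the sign: `C (f(z)) - f = ∑ Q_ij (C z_j - Z_j)`).  Take `λ : MvPolynomial ι F →ₗ[F] F` vanishing on `I_z`, `λ (ev z Δ) = 1` (`Submodule.exists_le_ker_of_notMem` or a complement).
  `s := ∑ m ∈ Δ.support, monomial m (λ (coeff m Δ))`; `eval y s = λ (ev y Δ)`.  For a common zero `y ≠ z` of `G`: `ev y 𝒬 * (C y - Z) = -f`, so `ev y Δ * (C y_j - Z_j) ∈ (f)` (adjugate); pick `j` with `y_j ≠ z_j`.
LEAF PH-int-c (`ph_exact_iso`, `ph_union_sep`, `ph_first_order`): as in the paper: `1 - ∑ s_z`, `(X j - z_j) s_z`; products over the lists; `3 s² - 2 s³`, `(X j - z_j) s²`.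
-/

set_option autoImplicit false

namespace Claimed.Agent.R273

open MvPolynomial

variable {F : Type*} [Field F] {ι : Type*} [Fintype ι] [DecidableEq ι]

omit [DecidableEq ι] in
theorem ph_isoZero_of_geom [IsAlgClosed F] (G : Set (MvPolynomial ι F)) (z : ι → F)
    (hz : ∀ g ∈ G, eval z g = 0) (u : MvPolynomial ι F) (hu : eval z u ≠ 0)
    (h : ∀ y, (∀ g ∈ G, eval y g = 0) → y ≠ z → eval y u = 0) : IsoZero G z := by
  refine ⟨hz, ?_⟩
  have hrad : ∀ i, u * (X i - C (z i)) ∈ (Ideal.span G).radical := by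
    intro i
    rw [← vanishingIdeal_zeroLocus_eq_radical (K := F), mem_vanishingIdeal_iff]
    intro y hy
    rw [zeroLocus_span] at hy
    have hy' : ∀ g ∈ G, eval y g = 0 := fun g hg => by simpa [coe_aeval_eq_eval] using hy g hg
    rw [aeval_eq_eval, map_mul]
    by_cases hyz : y = z
    · subst hyz; simp
    · rw [h y hy' hyz, zero_mul]
  choose e he using hrad
  refine ⟨u ^ (∑ i, e i), ∑ i, e i, by rw [map_pow]; exact pow_ne_zero _ hu, fun i => ?_⟩
  rw [← mul_pow]
  exact Ideal.pow_mem_of_pow_mem _ (he i)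
    (Finset.single_le_sum (fun _ _ => Nat.zero_le _) (Finset.mem_univ i))

omit [Fintype ι] [DecidableEq ι] in
theorem ph_isoZero_mono {G G' : Set (MvPolynomial ι F)} {z : ι → F} (h : IsoZero G z)
    (hGG' : G ⊆ G') (hz : ∀ g ∈ G', eval z g = 0) : IsoZero G' z := by
  obtain ⟨_, u, N, hu, hN⟩ := h
  exact ⟨hz, u, N, hu, fun i => Ideal.span_mono hGG' (hN i)⟩

omit [Fintype ι] [DecidableEq ι] in
theorem ph_avoid [Infinite F] (W : Submodule F (MvPolynomial ι F))
    (S : Finset (Ideal (MvPolynomial ι F))) (h : ∀ 𝔮 ∈ S, ¬ (W : Set (MvPolynomial ι F)) ⊆ 𝔮) :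
    ∃ g ∈ W, ∀ 𝔮 ∈ S, g ∉ 𝔮 := by
  classical
  set s : Finset (Subspace F W) := S.image fun 𝔮 => (𝔮.restrictScalars F).comap W.subtype with hs
  have htop : ⊤ ∉ s := by
    intro ht
    obtain ⟨𝔮, h𝔮, he⟩ := Finset.mem_image.mp ht
    apply h 𝔮 h𝔮
    intro g hg
    have : (⟨g, hg⟩ : W) ∈ (𝔮.restrictScalars F).comap W.subtype := by rw [he]; trivial
    exact this
  have := Subspace.biUnion_ne_univ_of_top_notMem htop
  rw [Ne, Set.eq_univ_iff_forall, not_forall] at this
  obtain ⟨g, hg⟩ := this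
  refine ⟨g.1, g.2, fun 𝔮 h𝔮 hmem => hg ?_⟩
  simp only [Set.mem_iUnion]
  exact ⟨_, Finset.mem_image_of_mem _ h𝔮, hmem⟩

theorem ph_iso_combos_aux [Infinite F] (G : Set (MvPolynomial ι F)) (z : ι → F) (h : IsoZero G z)
    (j : ℕ) : ∃ f : Fin j → MvPolynomial ι F, (∀ i, f i ∈ Submodule.span F G) ∧
      ∀ 𝔮 : Ideal (MvPolynomial ι F), 𝔮.IsPrime → Ideal.span (Set.range f) ≤ 𝔮 →
        𝔮 ≤ RingHom.ker (eval z) → (∀ i, X i - C (z i) ∈ 𝔮) ∨ (j : ℕ∞) ≤ 𝔮.height := by
  classical
  obtain ⟨hz, u, N, hu0, huN⟩ := h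
  induction j with
  | zero => exact ⟨Fin.elim0, fun i => i.elim0, fun 𝔮 _ _ _ => Or.inr (by simp)⟩
  | succ j ih =>
    obtain ⟨f, hfW, hf⟩ := ih
    set Min := (Ideal.span (Set.range f)).minimalPrimes with hMin
    have hfin : Min.Finite := Ideal.finite_minimalPrimes_of_isNoetherianRing _ _
    set Bad : Finset (Ideal (MvPolynomial ι F)) :=
      hfin.toFinset.filter fun 𝔮 => 𝔮 ≤ RingHom.ker (eval z) ∧ ¬ ∀ i, X i - C (z i) ∈ 𝔮 with hBad
    obtain ⟨g, hgW, hg⟩ := ph_avoid (Submodule.span F G) Bad (by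
      intro 𝔮 h𝔮 hsub
      rw [hBad, Finset.mem_filter, Set.Finite.mem_toFinset] at h𝔮
      obtain ⟨hmin, hle, hnA⟩ := h𝔮
      have hpr : 𝔮.IsPrime := hmin.1.1
      apply hnA
      intro i
      have h1 : Ideal.span G ≤ 𝔮 := Ideal.span_le.mpr fun g hg => hsub (Submodule.subset_span hg)
      have h2 := h1 (huN i)
      rcases hpr.mem_or_mem h2 with h3 | h3
      · exact absurd (hle h3) hu0
      · exact hpr.mem_of_pow_mem _ h3)
    refine ⟨Fin.snoc f g, ?_, ?_⟩
    · intro i
      refine Fin.lastCases ?_ (fun i => ?_) i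
      · simpa using hgW
      · simpa using hfW i
    · intro 𝔮' hpr' hle' hm'
      have hfle : Ideal.span (Set.range f) ≤ 𝔮' := by
        refine le_trans (Ideal.span_mono ?_) hle'
        rintro _ ⟨i, rfl⟩
        exact ⟨i.castSucc, by simp⟩
      have hg' : g ∈ 𝔮' := hle' (Ideal.subset_span ⟨Fin.last j, by simp⟩)
      obtain ⟨𝔮, hmin, hqq'⟩ := Ideal.exists_minimalPrimes_le hfle
      have hpr : 𝔮.IsPrime := hmin.1.1
      rcases hf 𝔮 hpr hmin.1.2 (hqq'.trans hm') with hA | hht
      · exact Or.inl fun i => hqq' (hA i)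
      · by_cases hA : ∀ i, X i - C (z i) ∈ 𝔮
        · exact Or.inl fun i => hqq' (hA i)
        · right
          have hbad : 𝔮 ∈ Bad := by
            rw [hBad, Finset.mem_filter, Set.Finite.mem_toFinset]
            exact ⟨hmin, hqq'.trans hm', hA⟩
          have hlt : 𝔮 < 𝔮' := lt_of_le_of_ne hqq' fun e => hg 𝔮 hbad (e ▸ hg')
          have := Ideal.height_add_one_le_of_lt_of_isPrime hlt
          push_cast
          exact le_trans (by gcongr) this

/-- from "every minimal prime below `𝔪_z` contains the `X i - z_i`" to `IsoZero` -/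
theorem ph_isoZero_of_primes (G : Set (MvPolynomial ι F)) (z : ι → F)
    (hz : ∀ g ∈ G, eval z g = 0)
    (h : ∀ 𝔮 ∈ (Ideal.span G).minimalPrimes, 𝔮 ≤ RingHom.ker (eval z) → ∀ i, X i - C (z i) ∈ 𝔮) :
    IsoZero G z := by
  classical
  refine ⟨hz, ?_⟩
  set Min := (Ideal.span G).minimalPrimes with hMin
  have hfin : Min.Finite := Ideal.finite_minimalPrimes_of_isNoetherianRing _ _
  have hex : ∀ 𝔮 : Ideal (MvPolynomial ι F), ∃ w : MvPolynomial ι F, eval z w ≠ 0 ∧
      (¬ 𝔮 ≤ RingHom.ker (eval z) → w ∈ 𝔮) := by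
    intro 𝔮
    by_cases hq : 𝔮 ≤ RingHom.ker (eval z)
    · exact ⟨1, by simp, fun h => absurd hq h⟩
    · obtain ⟨w, hw, hw'⟩ := SetLike.not_le_iff_exists.mp hq
      exact ⟨w, hw', fun _ => hw⟩
  choose w hw0 hw using hex
  set u₀ := ∏ 𝔮 ∈ hfin.toFinset, w 𝔮 with hu₀
  have hu₀z : eval z u₀ ≠ 0 := by
    rw [hu₀, map_prod]
    exact Finset.prod_ne_zero_iff.mpr fun 𝔮 _ => hw0 𝔮
  have hrad : ∀ i, u₀ * (X i - C (z i)) ∈ (Ideal.span G).radical := by
    intro i
    rw [← Ideal.sInf_minimalPrimes, Ideal.mem_sInf]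
    intro 𝔮 h𝔮
    by_cases hq : 𝔮 ≤ RingHom.ker (eval z)
    · exact Ideal.mul_mem_left _ _ (h 𝔮 h𝔮 hq i)
    · apply Ideal.mul_mem_right
      rw [hu₀]
      exact Ideal.prod_mem 𝔮 (hfin.mem_toFinset.mpr h𝔮) (hw 𝔮 hq)
  choose e he using hrad
  refine ⟨u₀ ^ (∑ i, e i), ∑ i, e i, by rw [map_pow]; exact pow_ne_zero _ hu₀z, fun i => ?_⟩
  rw [← mul_pow]
  exact Ideal.pow_mem_of_pow_mem _ (he i) (Finset.single_le_sum (fun _ _ => Nat.zero_le _) (Finset.mem_univ i))

theorem ph_iso_combos [Infinite F] (G : Set (MvPolynomial ι F)) (z : ι → F) (h : IsoZero G z) :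
    ∃ f : ι → MvPolynomial ι F, (∀ i, f i ∈ Submodule.span F G) ∧ IsoZero (Set.range f) z := by
  obtain ⟨f, hfW, hf⟩ := ph_iso_combos_aux G z h (Fintype.card ι)
  set e := Fintype.equivFin ι with he
  have hrange : Set.range (fun i => f (e i)) = Set.range f := by
    ext x
    constructor
    · rintro ⟨i, rfl⟩; exact ⟨e i, rfl⟩
    · rintro ⟨i, rfl⟩; exact ⟨e.symm i, by simp⟩
  refine ⟨fun i => f (e i), fun i => hfW _, ?_⟩
  rw [hrange]
  have hmax : (RingHom.ker (eval z : MvPolynomial ι F →+* F)).IsPrime := RingHom.ker_isPrime _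
  apply ph_isoZero_of_primes
  · rintro _ ⟨i, rfl⟩
    have : Submodule.span F G ≤ LinearMap.ker (aeval z : MvPolynomial ι F →ₐ[F] F).toLinearMap := by
      rw [Submodule.span_le]
      intro g hg
      simpa [coe_aeval_eq_eval] using h.1 g hg
    simpa [coe_aeval_eq_eval] using this (hfW i)
  · intro 𝔮 h𝔮 hle
    have hpr : 𝔮.IsPrime := h𝔮.1.1
    rcases hf 𝔮 hpr h𝔮.1.2 hle with hA | hht
    · exact hA
    · by_contra hnA
      have hne : 𝔮 ≠ RingHom.ker (eval z) := by
        intro e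
        apply hnA
        intro i
        rw [e, RingHom.mem_ker]
        simp
      have hlt : 𝔮 < RingHom.ker (eval z) := lt_of_le_of_ne hle hne
      have h1 := Ideal.height_add_one_le_of_lt_of_isPrime hlt
      have h2 : ((RingHom.ker (eval z : MvPolynomial ι F →+* F)).height : WithBot ℕ∞)
          ≤ ringKrullDim (MvPolynomial ι F) := Ideal.height_le_ringKrullDim_of_isPrime
      rw [MvPolynomial.ringKrullDim_of_isNoetherianRing, ringKrullDim_eq_zero_of_field, zero_add,
        Nat.card_eq_fintype_card] at h2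
      have h3 : (RingHom.ker (eval z : MvPolynomial ι F →+* F)).height ≤ (Fintype.card ι : ℕ∞) := by
        exact_mod_cast h2
      have h4 : ((Fintype.card ι : ℕ∞) + 1) ≤ (Fintype.card ι : ℕ∞) :=
        le_trans (le_trans (by gcongr) h1) h3
      have h5 : ((Fintype.card ι + 1 : ℕ) : ℕ∞) ≤ (Fintype.card ι : ℕ∞) := by exact_mod_cast h4
      have := Nat.cast_le.mp h5
      omega

/-- divided differences for monomials -/
theorem ph_divdiff_mon (m : ι →₀ ℕ) (a : F) :
    ∃ q : ι → MvPolynomial ι (MvPolynomial ι F),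
      (∀ j, q j = 0 ∨ (q j).totalDegree + 1 ≤ (monomial m a).totalDegree) ∧
      map C (monomial m a) - C (monomial m a) = ∑ j, q j * (X j - C (X j)) := by
  refine induction_on_monomial (motive := fun P => ∃ q : ι → MvPolynomial ι (MvPolynomial ι F),
      (∀ j, q j = 0 ∨ (q j).totalDegree + 1 ≤ P.totalDegree) ∧
      map C P - C P = ∑ j, q j * (X j - C (X j))) ?_ ?_ m a
  · intro a
    exact ⟨0, fun j => Or.inl rfl, by simp⟩
  · intro p n ih
    obtain ⟨q, hq, he⟩ := ih
    by_cases hp : p = 0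
    · subst hp
      exact ⟨0, fun j => Or.inl rfl, by simp⟩
    · have hdeg : (p * X n).totalDegree = p.totalDegree + 1 := by
        rw [totalDegree_mul_of_isDomain hp (X_ne_zero n), totalDegree_X]
      refine ⟨fun j => q j * X n + if j = n then C p else 0, fun j => Or.inr ?_, ?_⟩
      · rw [hdeg]
        have h1 : (q j * X n).totalDegree ≤ p.totalDegree := by
          rcases hq j with h | h
          · rw [h, zero_mul, totalDegree_zero]; exact Nat.zero_le _
          · refine (totalDegree_mul _ _).trans ?_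
            rw [totalDegree_X]; exact h
        have h2 : (if j = n then (C p : MvPolynomial ι (MvPolynomial ι F)) else 0).totalDegree
            ≤ p.totalDegree := by
          split_ifs <;> simp
        exact Nat.succ_le_succ ((totalDegree_add _ _).trans (max_le h1 h2))
      · have : map C (p * X n) - C (p * X n)
            = (map C p - C p) * X n + C p * (X n - C (X n)) := by
          simp only [map_mul, map_X]
          ring
        rw [this, he, Finset.sum_mul]
        have h2 : ∑ j, (if j = n then (C p : MvPolynomial ι (MvPolynomial ι F)) else 0)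
            * (X j - C (X j)) = C p * (X n - C (X n)) := by
          rw [Finset.sum_eq_single n]
          · rw [if_pos rfl]
          · intro b _ hb
            rw [if_neg hb, zero_mul]
          · intro h; exact absurd (Finset.mem_univ n) h
        rw [← h2, ← Finset.sum_add_distrib]
        refine Finset.sum_congr rfl fun j _ => ?_
        rw [add_mul, mul_right_comm]

/-- divided differences: `f(Y) - f(Z) = ∑ q_j(Y,Z) (Y_j - Z_j)`, `deg_Y q_j ≤ L - 1`. -/
theorem ph_divdiff (f : MvPolynomial ι F) (L : ℕ) (hf : f.totalDegree ≤ L) :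
    ∃ q : ι → MvPolynomial ι (MvPolynomial ι F), (∀ j, (q j).totalDegree ≤ L - 1) ∧
      map C f - C f = ∑ j, q j * (X j - C (X j)) := by
  choose q hq he using fun m : ι →₀ ℕ => ph_divdiff_mon m (coeff m f)
  refine ⟨fun j => ∑ m ∈ f.support, q m j, fun j => ?_, ?_⟩
  · apply totalDegree_finsetSum_le
    intro m hm
    rcases hq m j with h | h
    · rw [h, totalDegree_zero]; exact Nat.zero_le _
    · have h1 : (monomial m (coeff m f)).totalDegree ≤ f.totalDegree :=
        (totalDegree_monomial_le _ _).trans (le_totalDegree hm)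
      omega
  · conv_lhs => rw [f.as_sum]
    simp only [map_sum, ← Finset.sum_sub_distrib, he, Finset.sum_mul]
    exact Finset.sum_comm

/-- evaluation of the outer variables at a point -/
noncomputable def phEv (y : ι → F) : MvPolynomial ι (MvPolynomial ι F) →+* MvPolynomial ι F :=
  eval fun j => C (y j)

omit [Fintype ι] [DecidableEq ι] in
theorem ph_phEv_map (y : ι → F) (g : MvPolynomial ι F) : phEv y (map C g) = C (eval y g) := by
  rw [phEv, eval_map]
  have := eval₂_comp_left (C : F →+* MvPolynomial ι F) (RingHom.id F) y g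
  rw [RingHom.comp_id] at this
  exact this.symm

omit [Fintype ι] [DecidableEq ι] in
theorem ph_phEv_C (y : ι → F) (g : MvPolynomial ι F) : phEv y (C g) = g := by
  rw [phEv, eval_C]

omit [Fintype ι] [DecidableEq ι] in
theorem ph_phEv_X (y : ι → F) (j : ι) : phEv y (X j) = C (y j) := by
  rw [phEv, eval_X]

/-- the local ideal at `z` -/
def phLoc (I : Ideal (MvPolynomial ι F)) (z : ι → F) : Submodule F (MvPolynomial ι F) where
  carrier := {g | ∃ v, eval z v ≠ 0 ∧ v * g ∈ I}
  add_mem' := by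
    rintro a b ⟨v, hv, h1⟩ ⟨w, hw, h2⟩
    refine ⟨v * w, by rw [map_mul]; exact mul_ne_zero hv hw, ?_⟩
    have : v * w * (a + b) = w * (v * a) + v * (w * b) := by ring
    rw [this]
    exact I.add_mem (I.mul_mem_left _ h1) (I.mul_mem_left _ h2)
  zero_mem' := ⟨1, by simp, by simp⟩
  smul_mem' := by
    rintro c a ⟨v, hv, h1⟩
    refine ⟨v, hv, ?_⟩
    rw [mul_smul_comm, smul_eq_C_mul]
    exact I.mul_mem_left _ h1

/-- apply a linear functional to the coefficients -/
noncomputable def phCoef (lam : MvPolynomial ι F →ₗ[F] F) (Δ : MvPolynomial ι (MvPolynomial ι F)) :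
    MvPolynomial ι F := ∑ m ∈ Δ.support, monomial m (lam (coeff m Δ))

omit [DecidableEq ι] in
theorem ph_eval_phCoef (lam : MvPolynomial ι F →ₗ[F] F) (Δ : MvPolynomial ι (MvPolynomial ι F))
    (y : ι → F) : eval y (phCoef lam Δ) = lam (phEv y Δ) := by
  rw [phCoef, map_sum, phEv, eval_eq', map_sum]
  refine Finset.sum_congr rfl fun m _ => ?_
  rw [eval_monomial, Finsupp.prod_fintype _ _ (by simp)]
  have : coeff m Δ * ∏ i, (C (y i) : MvPolynomial ι F) ^ m i = (∏ i, y i ^ m i) • coeff m Δ := by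
    rw [smul_eq_C_mul, map_prod, mul_comm]
    simp only [map_pow]
  rw [this, map_smul, smul_eq_mul, mul_comm]

omit [Fintype ι] [DecidableEq ι] in
theorem ph_totalDegree_phCoef (lam : MvPolynomial ι F →ₗ[F] F)
    (Δ : MvPolynomial ι (MvPolynomial ι F)) : (phCoef lam Δ).totalDegree ≤ Δ.totalDegree := by
  apply totalDegree_finsetSum_le
  intro m hm
  exact (totalDegree_monomial_le _ _).trans (le_totalDegree hm)

theorem ph_totalDegree_det_le {S : Type*} [CommRing S] (M : Matrix ι ι (MvPolynomial ι S)) (d : ℕ)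
    (hM : ∀ i j, (M i j).totalDegree ≤ d) : M.det.totalDegree ≤ Fintype.card ι * d := by
  rw [Matrix.det_apply]
  apply totalDegree_finsetSum_le
  intro σ _
  refine (totalDegree_smul_le _ _).trans ?_
  refine (totalDegree_finsetProd _ _).trans ?_
  calc ∑ i, (M (σ i) i).totalDegree ≤ ∑ _i : ι, d := Finset.sum_le_sum fun i _ => hM _ _
    _ = Fintype.card ι * d := by simp

/-- **Isolated-point interpolation** (`poly:interpolation`). -/
theorem ph_separator [Infinite F] (G : Set (MvPolynomial ι F)) (L : ℕ)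
    (hG : ∀ g ∈ G, g.totalDegree ≤ L) (z : ι → F) (h : IsoZero G z) :
    ∃ s : MvPolynomial ι F, s.totalDegree ≤ Fintype.card ι * (L - 1) ∧ eval z s = 1 ∧
      ∀ y, y ≠ z → (∀ g ∈ G, eval y g = 0) → eval y s = 0 := by
  obtain ⟨f, hfW, hfz, u, N, hu0, huN⟩ := ph_iso_combos G z h
  have hfdeg : ∀ i, (f i).totalDegree ≤ L := by
    intro i
    have : Submodule.span F G ≤ restrictTotalDegree ι F L := by
      rw [Submodule.span_le]
      intro g hg
      exact (mem_restrictTotalDegree ι L g).mpr (hG g hg)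
    exact (mem_restrictTotalDegree ι L _).mp (this (hfW i))
  have hfzero : ∀ y, (∀ g ∈ G, eval y g = 0) → ∀ i, eval y (f i) = 0 := by
    intro y hy i
    have : Submodule.span F G ≤ LinearMap.ker (aeval y : MvPolynomial ι F →ₐ[F] F).toLinearMap := by
      rw [Submodule.span_le]
      intro g hg
      simpa [coe_aeval_eq_eval] using hy g hg
    simpa [coe_aeval_eq_eval] using this (hfW i)
  choose q hqdeg hq using fun i => ph_divdiff (f i) L (hfdeg i)
  set 𝒬 : Matrix ι ι (MvPolynomial ι (MvPolynomial ι F)) := Matrix.of q with h𝒬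
  set Δ := 𝒬.det with hΔ
  have hΔdeg : Δ.totalDegree ≤ Fintype.card ι * (L - 1) :=
    ph_totalDegree_det_le 𝒬 (L - 1) fun i j => hqdeg i j
  -- evaluated identity
  have hid : ∀ y i, C (eval y (f i)) - f i = ∑ j, phEv y (q i j) * (C (y j) - X j) := by
    intro y i
    have := congrArg (phEv y) (hq i)
    rw [map_sub, ph_phEv_map, ph_phEv_C, map_sum] at this
    rw [this]
    refine Finset.sum_congr rfl fun j _ => ?_
    rw [map_mul, map_sub, ph_phEv_X, ph_phEv_C]
  have hdet : ∀ y, phEv y Δ = ((phEv y).mapMatrix 𝒬).det := fun y => RingHom.map_det _ _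
  set I := Ideal.span (Set.range f) with hI'
  -- socle
  have hsoc : phEv z Δ ∉ phLoc I z := by
    rintro ⟨v, hv0, hv⟩
    rw [hdet] at hv
    refine ph_socle_at z f ((phEv z).mapMatrix 𝒬) ?_ u v (N + 1) (Nat.succ_le_succ (Nat.zero_le _))
      ?_ hu0 hv0 hv
    · ext1 i
      have := hid z i
      rw [hfz (f i) ⟨i, rfl⟩, map_zero, zero_sub] at this
      have h2 : f i = ∑ j, phEv z (q i j) * (X j - C (z j)) := by
        rw [← neg_neg (f i), this, ← Finset.sum_neg_distrib]
        refine Finset.sum_congr rfl fun j _ => ?_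
        ring
      rw [h2]
      rfl
    · intro i
      rw [pow_succ, ← mul_assoc]
      exact Ideal.mul_mem_right _ _ (huN i)
  obtain ⟨lam0, hlam0, hlamI⟩ := Submodule.exists_dual_map_eq_bot_of_notMem hsoc inferInstance
  set lam : MvPolynomial ι F →ₗ[F] F := (lam0 (phEv z Δ))⁻¹ • lam0 with hlam
  have hlam1 : lam (phEv z Δ) = 1 := by
    simp [hlam, hlam0]
  have hlamz : ∀ g ∈ phLoc I z, lam g = 0 := by
    intro g hg
    have : lam0 g ∈ (phLoc I z).map lam0 := Submodule.mem_map_of_mem hg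
    rw [hlamI, Submodule.mem_bot] at this
    simp [hlam, this]
  refine ⟨phCoef lam Δ, (ph_totalDegree_phCoef lam Δ).trans hΔdeg, ?_, ?_⟩
  · rw [ph_eval_phCoef, hlam1]
  · intro y hyz hy
    rw [ph_eval_phCoef]
    apply hlamz
    obtain ⟨j, hj⟩ : ∃ j, y j ≠ z j := by
      by_contra hcon
      exact hyz (funext fun j => by_contra fun hj => hcon ⟨j, hj⟩)
    refine ⟨C (y j) - X j, by simpa [sub_eq_zero] using hj, ?_⟩
    set Qy := (phEv y).mapMatrix 𝒬 with hQy
    have hmv : (Qy.mulVec fun j => C (y j) - X j) = fun i => - f i := by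
      ext1 i
      have := hid y i
      rw [hfzero y hy i, map_zero, zero_sub] at this
      rw [this]
      rfl
    have e : (Qy.adjugate.mulVec (Qy.mulVec fun j => C (y j) - X j)) j
        = (C (y j) - X j) * phEv y Δ := by
      rw [Matrix.mulVec_mulVec, Matrix.adjugate_mul, Matrix.smul_mulVec, Matrix.one_mulVec, hdet,
        ← hQy, Pi.smul_apply, smul_eq_mul, mul_comm]
    rw [← e, hmv, Matrix.mulVec, dotProduct]
    apply Ideal.sum_mem
    intro i _
    apply Ideal.mul_mem_left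
    exact I.neg_mem (Ideal.subset_span ⟨i, rfl⟩)

theorem ph_exact_iso [Infinite F] (G : Set (MvPolynomial ι F)) (L : ℕ)
    (hG : ∀ g ∈ G, g.totalDegree ≤ L) (S : Finset (ι → F)) (hS : ∀ z ∈ S, IsoZero G z) :
    ∃ E : Set (MvPolynomial ι F), (∀ e ∈ E, e.totalDegree ≤ Fintype.card ι * (L - 1) + 1) ∧
      ∀ x, (∀ e ∈ E, eval x e = 0) ↔ x ∈ S := by
  classical
  have hex : ∀ z : ι → F, ∃ s : MvPolynomial ι F, z ∈ S →
      (s.totalDegree ≤ Fintype.card ι * (L - 1) ∧ eval z s = 1 ∧
      ∀ y, y ≠ z → (∀ g ∈ G, eval y g = 0) → eval y s = 0) := by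
    intro z
    by_cases hz : z ∈ S
    · obtain ⟨s, hs⟩ := ph_separator G L hG z (hS z hz)
      exact ⟨s, fun _ => hs⟩
    · exact ⟨0, fun h => absurd h hz⟩
  choose s hs using hex
  refine ⟨{1 - ∑ z ∈ S, s z} ∪ {e | ∃ z ∈ S, ∃ j, e = (X j - C (z j)) * s z}, ?_, ?_⟩
  · rintro e (rfl | ⟨z, hz, j, rfl⟩)
    · refine (totalDegree_sub _ _).trans (max_le (by simp) ?_)
      refine (totalDegree_finsetSum_le fun z hz => (hs z hz).1).trans (Nat.le_succ _)
    · refine (totalDegree_mul _ _).trans ?_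
      have h1 : (X j - C (z j) : MvPolynomial ι F).totalDegree ≤ 1 :=
        (totalDegree_sub_C_le _ _).trans (by rw [totalDegree_X])
      have h2 := (hs z hz).1
      omega
  · intro x
    constructor
    · intro hx
      have h1 : eval x (1 - ∑ z ∈ S, s z) = 0 := hx _ (Or.inl rfl)
      rw [map_sub, map_one, map_sum, sub_eq_zero] at h1
      obtain ⟨z, hz, hne⟩ : ∃ z ∈ S, eval x (s z) ≠ 0 := by
        by_contra hcon
        have : ∑ z ∈ S, eval x (s z) = 0 :=
          Finset.sum_eq_zero fun z hz => by_contra fun h => hcon ⟨z, hz, h⟩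
        rw [this] at h1
        exact one_ne_zero h1
      have : x = z := by
        funext j
        have h2 : eval x ((X j - C (z j)) * s z) = 0 := hx _ (Or.inr ⟨z, hz, j, rfl⟩)
        rw [map_mul, mul_eq_zero] at h2
        rcases h2 with h2 | h2
        · simpa [sub_eq_zero] using h2
        · exact absurd h2 hne
      rw [this]; exact hz
    · rintro hx e (rfl | ⟨z, hz, j, rfl⟩)
      · rw [map_sub, map_one, map_sum, Finset.sum_eq_single x]
        · rw [(hs x hx).2.1, sub_self]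
        · intro z hz hzx
          exact (hs z hz).2.2 x (Ne.symm hzx) (hS x hx).1
        · intro h; exact absurd hx h
      · rw [map_mul]
        by_cases hxz : x = z
        · subst hxz; simp
        · rw [(hs z hz).2.2 x hxz (hS x hx).1, mul_zero]

theorem ph_union_sep [Infinite F] {ν : Type*} (s : Finset ν) (G : ν → Set (MvPolynomial ι F))
    (L : ν → ℕ) (hL : ∀ a ∈ s, 1 ≤ L a) (hG : ∀ a ∈ s, ∀ g ∈ G a, g.totalDegree ≤ L a)
    (S : ν → Finset (ι → F)) (hS : ∀ a ∈ s, ∀ z ∈ S a, IsoZero (G a) z)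
    (z : ι → F) (hz : ∃ a ∈ s, z ∈ S a) :
    ∃ σ : MvPolynomial ι F, σ.totalDegree ≤ Fintype.card ι * ∑ a ∈ s, L a ∧ eval z σ = 1 ∧
      ∀ y, (∃ a ∈ s, y ∈ S a) → y ≠ z → eval y σ = 0 := by
  classical
  rcases Nat.eq_zero_or_pos (Fintype.card ι) with hn | hn
  · have : IsEmpty ι := Fintype.card_eq_zero_iff.mp hn
    exact ⟨1, by simp, by simp, fun y _ hy => absurd (Subsingleton.elim y z) hy⟩
  have hex : ∀ a : ν, ∃ σ : MvPolynomial ι F, a ∈ s →
      (σ.totalDegree ≤ Fintype.card ι * L a ∧ eval z σ = 1 ∧ ∀ y ∈ S a, y ≠ z → eval y σ = 0) := by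
    intro a
    by_cases ha : a ∈ s
    swap
    · exact ⟨0, fun h => absurd h ha⟩
    have hLa := hL a ha
    have hdeg : Fintype.card ι * (L a - 1) + 1 ≤ Fintype.card ι * L a := by
      obtain ⟨l, hl⟩ : ∃ l, L a = l + 1 := ⟨L a - 1, by omega⟩
      rw [hl, Nat.add_sub_cancel, Nat.mul_succ]
      omega
    by_cases hza : z ∈ S a
    · obtain ⟨σ, h1, h2, h3⟩ := ph_separator (G a) (L a) (hG a ha) z (hS a ha z hza)
      exact ⟨σ, fun _ => ⟨by omega, h2, fun y hy hyz => h3 y hyz (hS a ha y hy).1⟩⟩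
    · obtain ⟨E, hE1, hE2⟩ := ph_exact_iso (G a) (L a) (hG a ha) (S a) (hS a ha)
      obtain ⟨e, he, hez⟩ : ∃ e ∈ E, eval z e ≠ 0 := by
        by_contra hcon
        exact hza ((hE2 z).mp fun e he => by_contra fun h => hcon ⟨e, he, h⟩)
      refine ⟨C (eval z e)⁻¹ * e, fun _ => ⟨?_, ?_, ?_⟩⟩
      · refine (totalDegree_mul _ _).trans ?_
        rw [totalDegree_C, zero_add]
        exact (hE1 e he).trans hdeg
      · rw [map_mul, eval_C, inv_mul_cancel₀ hez]
      · intro y hy _
        rw [map_mul, (hE2 y).mpr hy e he, mul_zero]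
  choose σ hσ using hex
  refine ⟨∏ a ∈ s, σ a, ?_, ?_, ?_⟩
  · refine (totalDegree_finsetProd _ _).trans ?_
    rw [Finset.mul_sum]
    exact Finset.sum_le_sum fun a ha => (hσ a ha).1
  · rw [map_prod]
    exact Finset.prod_eq_one fun a ha => (hσ a ha).2.1
  · rintro y ⟨a, ha, hya⟩ hyz
    rw [map_prod]
    exact Finset.prod_eq_zero ha ((hσ a ha).2.2 y hya hyz)

omit [Fintype ι] [DecidableEq ι] in
theorem ph_fo_A (s : MvPolynomial ι F) (y : ι → F) (i : ι) :
    eval y (pderiv i (C 3 * s ^ 2 - C 2 * s ^ 3))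
      = 6 * eval y s * (1 - eval y s) * eval y (pderiv i s) := by
  simp only [map_sub, Derivation.leibniz, Derivation.leibniz_pow, pderiv_C, smul_eq_mul, map_mul,
    map_pow, eval_C, add_zero, nsmul_eq_mul, map_natCast, mul_zero]
  norm_num
  ring

omit [Fintype ι] in
theorem ph_fo_B (s : MvPolynomial ι F) (y z : ι → F) (i j : ι) :
    eval y (pderiv i ((X j - C (z j)) * s ^ 2))
      = (if i = j then 1 else 0) * eval y s ^ 2
        + (y j - z j) * (2 * eval y s * eval y (pderiv i s)) := by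
  simp only [map_sub, Derivation.leibniz, Derivation.leibniz_pow, pderiv_C, smul_eq_mul, map_mul,
    map_add, map_pow, eval_C, eval_X, nsmul_eq_mul, map_natCast, pderiv_X, sub_zero]
  by_cases hij : i = j
  · subst hij
    simp
    ring
  · simp [hij, Ne.symm hij]
    left; ring

theorem ph_first_order (S : Finset (ι → F)) (q : ℕ)
    (hsep : ∀ z ∈ S, ∃ s : MvPolynomial ι F, s.totalDegree ≤ q ∧ eval z s = 1 ∧
      ∀ y ∈ S, y ≠ z → eval y s = 0)
    (val : (ι → F) → F) (der : (ι → F) → ι → F) :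
    ∃ g : MvPolynomial ι F, g.totalDegree ≤ 3 * q + 1 ∧
      ∀ z ∈ S, eval z g = val z ∧ ∀ j, eval z (pderiv j g) = der z j := by
  classical
  have hex : ∀ z : ι → F, ∃ s : MvPolynomial ι F, z ∈ S → (s.totalDegree ≤ q ∧ eval z s = 1 ∧
      ∀ y ∈ S, y ≠ z → eval y s = 0) := by
    intro z
    by_cases hz : z ∈ S
    · obtain ⟨s, hs⟩ := hsep z hz
      exact ⟨s, fun _ => hs⟩
    · exact ⟨0, fun h => absurd h hz⟩
  choose s hs using hex
  refine ⟨∑ z ∈ S, (C (val z) * (C 3 * s z ^ 2 - C 2 * s z ^ 3)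
      + ∑ j, C (der z j) * ((X j - C (z j)) * s z ^ 2)), ?_, ?_⟩
  · apply totalDegree_finsetSum_le
    intro z hz
    have hq := (hs z hz).1
    have hp2 : (s z ^ 2).totalDegree ≤ 2 * q :=
      (totalDegree_pow _ _).trans (Nat.mul_le_mul_left _ hq)
    have hp3 : (s z ^ 3).totalDegree ≤ 3 * q :=
      (totalDegree_pow _ _).trans (Nat.mul_le_mul_left _ hq)
    refine (totalDegree_add _ _).trans (max_le ?_ ?_)
    · refine (totalDegree_mul _ _).trans ?_
      rw [totalDegree_C, zero_add]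
      refine (totalDegree_sub _ _).trans (max_le ?_ ?_)
      · refine (totalDegree_mul _ _).trans ?_
        rw [totalDegree_C]; omega
      · refine (totalDegree_mul _ _).trans ?_
        rw [totalDegree_C]; omega
    · apply totalDegree_finsetSum_le
      intro j _
      refine (totalDegree_mul _ _).trans ?_
      rw [totalDegree_C, zero_add]
      refine (totalDegree_mul _ _).trans ?_
      have h1 : (X j - C (z j) : MvPolynomial ι F).totalDegree ≤ 1 :=
        (totalDegree_sub_C_le _ _).trans (by rw [totalDegree_X])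
      omega
  · intro z₀ hz₀
    constructor
    · rw [map_sum, Finset.sum_eq_single z₀]
      · simp only [map_add, map_mul, map_sub, map_pow, map_sum, eval_C, eval_X, (hs z₀ hz₀).2.1]
        simp
        norm_num
      · intro z hz hne
        simp only [map_add, map_mul, map_sub, map_pow, map_sum, eval_C, eval_X,
          (hs z hz).2.2 z₀ hz₀ (Ne.symm hne)]
        simp
      · intro h; exact absurd hz₀ h
    · intro i
      rw [map_sum, map_sum, Finset.sum_eq_single z₀]
      · rw [map_add, map_add, map_sum, map_sum, Derivation.leibniz, pderiv_C, smul_zero, add_zero,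
          smul_eq_mul, map_mul, ph_fo_A, (hs z₀ hz₀).2.1]
        rw [Finset.sum_eq_single i]
        · rw [Derivation.leibniz, pderiv_C, smul_zero, add_zero, smul_eq_mul, map_mul, ph_fo_B,
            (hs z₀ hz₀).2.1]
          simp
        · intro j _ hji
          rw [Derivation.leibniz, pderiv_C, smul_zero, add_zero, smul_eq_mul, map_mul, ph_fo_B,
            (hs z₀ hz₀).2.1]
          simp [Ne.symm hji]
        · intro h; exact absurd (Finset.mem_univ i) h
      · intro z hz hne
        rw [map_add, map_add, map_sum, map_sum, Derivation.leibniz, pderiv_C, smul_zero, add_zero,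
          smul_eq_mul, map_mul, ph_fo_A, (hs z hz).2.2 z₀ hz₀ (Ne.symm hne)]
        rw [Finset.sum_eq_zero]
        · simp
        · intro j _
          rw [Derivation.leibniz, pderiv_C, smul_zero, add_zero, smul_eq_mul, map_mul, ph_fo_B,
            (hs z hz).2.2 z₀ hz₀ (Ne.symm hne)]
          simp
      · intro h; exact absurd hz₀ h

end Claimed.Agent.R273
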