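-- KEEP
import Claimed.Agent.R273.PhDefs
import Claimed.Agent.R273.RkDim

/-!
# Row 273, POLY-A 3: the Hilbert function of an ideal; the linear-algebra lemma behind all LOWER bounds.  Architect helper94.

LEAF PH-lin-a: the basic facts on `hI` (first block).  All are plain linear algebra: `hI I D = finrank (image of P_{≤D} in P/I)`,
  `P_{≤D} = restrictTotalDegree ι ℂ D` is finite-dimensional (`rk_finite_restrict`).
  * `ph_rank_le_hI`: a linear map `φ` killing `I` factors through `P/I` (`Submodule.liftQ` / `Ideal.Quotient`), so `φ(P_{≤D})` is a linear image of the image of `P_{≤D}` in `P/I`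
    (`Submodule.finrank_map_le`).
  * `ph_hA_eq_hI`: `evalOn` and `mk (vanishingIdeal T)` restricted to `P_{≤D}` have the same kernel; rank-nullity twice (`rk_rkOn_add_ker`), note `aeval x = eval x` over `ℂ`.
  * `ph_hA_zeroLocus`: Nullstellensatz `MvPolynomial.vanishingIdeal_zeroLocus_eq_radical`.
LEAF PH-lin-b: `ph_low_lin`.  PROOF.  1. the vectors `Λ (monomial β 1)`, `|β| ≤ q`, span `F^m` (a polynomial of degree `≤ q` is an `F`-combination of such monomials, `hq`);
  choose `β_1..β_m` with `w_i := Λ (monomial β_i 1)` linearly independent over `F` (`exists_linearIndependent`, or `Basis` extraction from a spanning set; `finrank F (Fin m → F) = m`).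
  2. `v_(α,i) := (∏_j t_j^(α j)) * monomial β_i 1 ∈ ℂ[x]`, `α : Fin k →₀ ℕ`, `|α| ≤ D - q`: total degree `≤ D`.  3. `Λ (map v_(α,i)) = (∏ T_j^(α j)) • w_i` (iterate `hΛ`).
  4. `∑ c_(α,i) v_(α,i) ∈ I` ⇒ `∑_i (∑_α c_(α,i) T^α) • w_i = 0` ⇒ `∑_α c_(α,i) T^α = 0` for each `i` ⇒ `c = 0` (`hT`: `AlgebraicIndependent` = injectivity of `aeval T`).
  5. `ph_card_le_hI`; the number of `α` is `(D - q + k).choose k` (`rk_finrank_restrict` for `Fin k`, or `Finset.card_finsuppAntidiag`-type count).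
  The functionals `Λ` are ARBITRARY `F`-linear functionals on `F[x]` on which multiplication by `t_i` acts as `T_i`: evaluations at sheets, and first derivatives at a sheet `ζ` in a direction `v` with `v · ∇ t_i = 0`
  (this is what `poly:regularity` needs).
-/

set_option autoImplicit false

namespace Claimed.Agent.R273

open MvPolynomial Module

variable {ι : Type*} [Fintype ι]

/-! ### basic facts on `hI` -/

/-- comparison of ranks through kernels -/
theorem ph_finrank_map_le_of_ker {X Y₁ Y₂ : Type*} [AddCommGroup X] [Module ℂ X] [AddCommGroup Y₁]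
    [Module ℂ Y₁] [AddCommGroup Y₂] [Module ℂ Y₂] (W : Submodule ℂ X) [Module.Finite ℂ W]
    (φ₁ : X →ₗ[ℂ] Y₁) (φ₂ : X →ₗ[ℂ] Y₂) (h : ∀ f ∈ W, φ₁ f = 0 → φ₂ f = 0) :
    finrank ℂ (W.map φ₂) ≤ finrank ℂ (W.map φ₁) := by
  have h1 := LinearMap.finrank_range_add_finrank_ker (φ₁.domRestrict W)
  have h2 := LinearMap.finrank_range_add_finrank_ker (φ₂.domRestrict W)
  rw [LinearMap.range_domRestrict] at h1 h2
  have h3 : LinearMap.ker (φ₁.domRestrict W) ≤ LinearMap.ker (φ₂.domRestrict W) := by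
    intro f hf
    rw [LinearMap.mem_ker, LinearMap.domRestrict_apply] at hf ⊢
    exact h f.1 f.2 hf
  have h4 := Submodule.finrank_mono h3
  omega

theorem ph_finrank_map_add_le {X Y : Type*} [AddCommGroup X] [Module ℂ X] [AddCommGroup Y]
    [Module ℂ Y] (A B : Submodule ℂ X) [Module.Finite ℂ A] (π : X →ₗ[ℂ] Y) (hBA : B ≤ A)
    (hBk : B ≤ LinearMap.ker π) : finrank ℂ (A.map π) + finrank ℂ B ≤ finrank ℂ A := by
  have h1 := LinearMap.finrank_range_add_finrank_ker (π.domRestrict A)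
  rw [LinearMap.range_domRestrict] at h1
  have h2 : B.comap A.subtype ≤ LinearMap.ker (π.domRestrict A) := by
    intro f hf
    rw [LinearMap.mem_ker, LinearMap.domRestrict_apply]
    exact hBk hf
  have h3 := Submodule.finrank_mono h2
  have h4 : finrank ℂ (B.comap A.subtype) = finrank ℂ B :=
    (Submodule.comapSubtypeEquivOfLe hBA).finrank_eq
  omega

theorem ph_mkQ_eq_zero (I : Ideal (MvPolynomial ι ℂ)) (f : MvPolynomial ι ℂ) :
    (Ideal.Quotient.mkₐ ℂ I).toLinearMap f = 0 ↔ f ∈ I := by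
  rw [AlgHom.toLinearMap_apply, Ideal.Quotient.mkₐ_eq_mk, Ideal.Quotient.eq_zero_iff_mem]

theorem ph_rank_le_hI {Y : Type*} [AddCommGroup Y] [Module ℂ Y] (φ : MvPolynomial ι ℂ →ₗ[ℂ] Y)
    (I : Ideal (MvPolynomial ι ℂ)) (h : ∀ f ∈ I, φ f = 0) (D : ℕ) :
    finrank ℂ (Submodule.map φ (restrictTotalDegree ι ℂ D)) ≤ hI I D :=
  ph_finrank_map_le_of_ker _ _ _ fun f _ hf => h f ((ph_mkQ_eq_zero I f).mp hf)

theorem ph_card_le_hI {κ : Type*} [Fintype κ] (I : Ideal (MvPolynomial ι ℂ)) (D : ℕ)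
    (v : κ → MvPolynomial ι ℂ) (hv : ∀ a, (v a).totalDegree ≤ D)
    (hind : ∀ c : κ → ℂ, ∑ a, C (c a) * v a ∈ I → ∀ a, c a = 0) : Fintype.card κ ≤ hI I D := by
  set q := (Ideal.Quotient.mkₐ ℂ I).toLinearMap with hq
  set w : κ → Submodule.map q (restrictTotalDegree ι ℂ D) := fun a =>
    ⟨q (v a), Submodule.mem_map_of_mem ((mem_restrictTotalDegree ι D _).mpr (hv a))⟩ with hw
  have hli : LinearIndependent ℂ w := by
    rw [Fintype.linearIndependent_iff]
    intro c hc
    apply hind c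
    have h1 := congrArg Subtype.val hc
    rw [← ph_mkQ_eq_zero, ← hq, map_sum]
    simp only [Submodule.coe_sum, Submodule.coe_smul, hw, ZeroMemClass.coe_zero] at h1
    rw [← h1]
    refine Finset.sum_congr rfl fun a _ => ?_
    rw [← smul_eq_C_mul, map_smul]
  exact hli.fintype_card_le_finrank

theorem ph_hI_le_card {κ : Type*} [Fintype κ] (I : Ideal (MvPolynomial ι ℂ)) (D : ℕ)
    (v : κ → MvPolynomial ι ℂ)
    (hspan : ∀ f : MvPolynomial ι ℂ, f.totalDegree ≤ D → ∃ c : κ → ℂ, f - ∑ a, C (c a) * v a ∈ I) :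
    hI I D ≤ Fintype.card κ := by
  set q := (Ideal.Quotient.mkₐ ℂ I).toLinearMap with hq
  have hle : Submodule.map q (restrictTotalDegree ι ℂ D) ≤ Submodule.span ℂ (Set.range fun a => q (v a)) := by
    rintro _ ⟨f, hf, rfl⟩
    obtain ⟨c, hc⟩ := hspan f ((mem_restrictTotalDegree ι D f).mp hf)
    rw [← ph_mkQ_eq_zero, ← hq, map_sub, sub_eq_zero] at hc
    rw [hc, map_sum]
    refine Submodule.sum_mem _ fun a _ => ?_
    rw [← smul_eq_C_mul, map_smul]
    exact Submodule.smul_mem _ _ (Submodule.subset_span ⟨a, rfl⟩)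
  haveI : Module.Finite ℂ (Submodule.span ℂ (Set.range fun a => q (v a))) :=
    Module.Finite.span_of_finite ℂ (Set.finite_range _)
  exact (Submodule.finrank_mono hle).trans (finrank_range_le_card _)

theorem ph_hI_le_finrank {Y : Type*} [AddCommGroup Y] [Module ℂ Y] [Module.Finite ℂ Y]
    (I : Ideal (MvPolynomial ι ℂ)) (D : ℕ) (φ : MvPolynomial ι ℂ →ₗ[ℂ] Y)
    (h : ∀ f : MvPolynomial ι ℂ, f.totalDegree ≤ D → φ f = 0 → f ∈ I) : hI I D ≤ finrank ℂ Y := by
  refine le_trans (ph_finrank_map_le_of_ker _ φ _ fun f hf h0 => ?_) (Submodule.finrank_le _)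
  exact (ph_mkQ_eq_zero I f).mpr (h f ((mem_restrictTotalDegree ι D f).mp hf) h0)

theorem ph_hI_anti {I J : Ideal (MvPolynomial ι ℂ)} (h : I ≤ J) (D : ℕ) : hI J D ≤ hI I D :=
  ph_finrank_map_le_of_ker _ _ _ fun f _ hf => (ph_mkQ_eq_zero J f).mpr (h ((ph_mkQ_eq_zero I f).mp hf))

theorem ph_hI_mono_deg (I : Ideal (MvPolynomial ι ℂ)) {D D' : ℕ} (h : D ≤ D') :
    hI I D ≤ hI I D' :=
  Submodule.finrank_mono (Submodule.map_mono (rk_restrict_mono h))

theorem ph_hI_top (D : ℕ) : hI (⊤ : Ideal (MvPolynomial ι ℂ)) D = 0 := by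
  have : Submodule.map (Ideal.Quotient.mkₐ ℂ (⊤ : Ideal (MvPolynomial ι ℂ))).toLinearMap
      (restrictTotalDegree ι ℂ D) = ⊥ := by
    rw [eq_bot_iff]
    rintro _ ⟨f, _, rfl⟩
    rw [Submodule.mem_bot, ph_mkQ_eq_zero]
    trivial
  rw [hI, this, finrank_bot]

theorem ph_hI_inf_le (I J : Ideal (MvPolynomial ι ℂ)) (D : ℕ) :
    hI (I ⊓ J) D ≤ hI I D + hI J D := by
  set qI := (Ideal.Quotient.mkₐ ℂ I).toLinearMap with hqI
  set qJ := (Ideal.Quotient.mkₐ ℂ J).toLinearMap with hqJ
  set W := restrictTotalDegree ι ℂ D with hW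
  set ψ : W →ₗ[ℂ] (W.map qI) × (W.map qJ) := (qI.submoduleMap W).prod (qJ.submoduleMap W) with hψ
  set q := (Ideal.Quotient.mkₐ ℂ (I ⊓ J)).toLinearMap with hq
  have h1 := LinearMap.finrank_range_add_finrank_ker ψ
  have h2 := LinearMap.finrank_range_add_finrank_ker (q.domRestrict W)
  rw [LinearMap.range_domRestrict] at h2
  have h3 : LinearMap.ker ψ ≤ LinearMap.ker (q.domRestrict W) := by
    intro f hf
    rw [LinearMap.mem_ker, hψ, LinearMap.prod_apply, Prod.mk_eq_zero] at hf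
    rw [LinearMap.mem_ker, LinearMap.domRestrict_apply]
    have a1 : qI f.1 = 0 := congrArg Subtype.val hf.1
    have a2 : qJ f.1 = 0 := congrArg Subtype.val hf.2
    exact (ph_mkQ_eq_zero _ f.1).mpr ⟨(ph_mkQ_eq_zero I f.1).mp a1, (ph_mkQ_eq_zero J f.1).mp a2⟩
  have h4 := Submodule.finrank_mono h3
  have h5 : finrank ℂ (LinearMap.range ψ) ≤ finrank ℂ ((W.map qI) × (W.map qJ)) :=
    Submodule.finrank_le _
  rw [Module.finrank_prod] at h5
  have e1 : hI (I ⊓ J) D = finrank ℂ (W.map q) := rfl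
  have e2 : hI I D = finrank ℂ (W.map qI) := rfl
  have e3 : hI J D = finrank ℂ (W.map qJ) := rfl
  omega

theorem ph_hI_finset_inf_le {α : Type*} (s : Finset α) (I : α → Ideal (MvPolynomial ι ℂ)) (D : ℕ) :
    hI (s.inf I) D ≤ ∑ a ∈ s, hI (I a) D := by
  classical
  induction s using Finset.induction_on with
  | empty => simp [ph_hI_top]
  | insert a s ha ih =>
    rw [Finset.inf_insert, Finset.sum_insert ha]
    exact (ph_hI_inf_le _ _ D).trans (Nat.add_le_add_left ih _)

/-- restriction to `T` as a linear map on all polynomials -/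
noncomputable def phRes (T : Set (ι → ℂ)) : MvPolynomial ι ℂ →ₗ[ℂ] (T → ℂ) where
  toFun f x := eval x.1 f
  map_add' f g := by funext x; simp
  map_smul' c f := by funext x; simp

theorem ph_phRes_eq_zero (T : Set (ι → ℂ)) (f : MvPolynomial ι ℂ) :
    phRes T f = 0 ↔ f ∈ vanishingIdeal ℂ T := by
  rw [mem_vanishingIdeal_iff]
  constructor
  · intro h x hx
    rw [aeval_eq_eval]
    exact congrFun h ⟨x, hx⟩
  · intro h
    funext x
    have := h x.1 x.2
    rwa [aeval_eq_eval] at this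

theorem ph_hA_eq_map (T : Set (ι → ℂ)) (D : ℕ) :
    hA T D = finrank ℂ ((restrictTotalDegree ι ℂ D).map (phRes T)) := by
  rw [hA, rkOn, ← LinearMap.range_domRestrict]
  rfl

theorem ph_hA_eq_hI (T : Set (ι → ℂ)) (D : ℕ) : hA T D = hI (vanishingIdeal ℂ T) D := by
  rw [ph_hA_eq_map]
  apply le_antisymm
  · exact ph_finrank_map_le_of_ker _ _ _ fun f _ hf =>
      (ph_phRes_eq_zero T f).mpr ((ph_mkQ_eq_zero _ f).mp hf)
  · exact ph_finrank_map_le_of_ker _ _ _ fun f _ hf =>
      (ph_mkQ_eq_zero _ f).mpr ((ph_phRes_eq_zero T f).mp hf)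

theorem ph_hA_zeroLocus (I : Ideal (MvPolynomial ι ℂ)) (D : ℕ) :
    hA (zeroLocus ℂ I) D = hI I.radical D := by
  rw [ph_hA_eq_hI, vanishingIdeal_zeroLocus_eq_radical]

theorem ph_hA_zeroLocus_prime (p : Ideal (MvPolynomial ι ℂ)) (hp : p.IsPrime) (D : ℕ) :
    hA (zeroLocus ℂ p) D = hI p D := by
  rw [ph_hA_zeroLocus, hp.radical]

theorem ph_hI_residual (p : Ideal (MvPolynomial ι ℂ)) (hp : p.IsPrime) (g : MvPolynomial ι ℂ)
    (hg : g ∉ p) {q D : ℕ} (hq : g.totalDegree ≤ q) (hqD : q ≤ D) :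
    hI p (D - q) + hI (p ⊔ Ideal.span {g}) D ≤ hI p D := by
  set qp := (Ideal.Quotient.mkₐ ℂ p).toLinearMap with hqp
  set J := p ⊔ Ideal.span {g} with hJ
  -- work inside `P`: `A = P_{≤D}`, the map `qp`; `B = g * P_{≤D-q}`
  set W := restrictTotalDegree ι ℂ D with hW
  set W' := restrictTotalDegree ι ℂ (D - q) with hW'
  set mg : MvPolynomial ι ℂ →ₗ[ℂ] MvPolynomial ι ℂ := LinearMap.mulLeft ℂ g with hmg
  -- the factor map
  set π : (MvPolynomial ι ℂ ⧸ p) →ₗ[ℂ] (MvPolynomial ι ℂ ⧸ J) :=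
    (Ideal.Quotient.factorₐ ℂ (le_sup_left : p ≤ J)).toLinearMap with hπ
  have hπq : ∀ f, π (qp f) = (Ideal.Quotient.mkₐ ℂ J).toLinearMap f := by
    intro f; rfl
  have e1 : (W.map qp).map π = W.map (Ideal.Quotient.mkₐ ℂ J).toLinearMap := by
    rw [← Submodule.map_comp]
    congr 1
  set B := (W'.map mg).map qp with hB
  have hBA : B ≤ W.map qp := by
    apply Submodule.map_mono
    rintro _ ⟨f, hf, rfl⟩
    rw [hW, mem_restrictTotalDegree]
    have hf' := (mem_restrictTotalDegree ι (D - q) f).mp hf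
    refine (totalDegree_mul _ _).trans ?_
    omega
  have hBk : B ≤ LinearMap.ker π := by
    rintro _ ⟨_, ⟨f, _, rfl⟩, rfl⟩
    rw [LinearMap.mem_ker, hπq, ph_mkQ_eq_zero]
    exact Ideal.mul_mem_right _ _ (Ideal.mem_sup_right (Ideal.subset_span rfl))
  have h1 := ph_finrank_map_add_le (W.map qp) B π hBA hBk
  rw [e1] at h1
  have h2 : hI p (D - q) ≤ finrank ℂ B := by
    rw [hB, ← Submodule.map_comp]
    refine ph_finrank_map_le_of_ker _ _ _ fun f _ hf => ?_
    rw [LinearMap.comp_apply, ph_mkQ_eq_zero] at hf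
    rw [ph_mkQ_eq_zero]
    rcases hp.mem_or_mem hf with h | h
    · exact absurd h hg
    · exact h
  have e2 : hI J D = finrank ℂ (W.map (Ideal.Quotient.mkₐ ℂ J).toLinearMap) := rfl
  have e3 : hI p D = finrank ℂ (W.map qp) := rfl
  omega

/-! ### the linear-algebra lemma -/

omit [Fintype ι] in
theorem ph_totalDegree_aeval_le {κ : Type*} (a : κ → MvPolynomial ι ℂ)
    (ha : ∀ j, (a j).totalDegree ≤ 1) (f : MvPolynomial κ ℂ) :
    (aeval a f).totalDegree ≤ f.totalDegree := by
  rw [aeval_def, eval₂_eq]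
  apply totalDegree_finsetSum_le
  intro m hm
  refine (totalDegree_mul _ _).trans ?_
  have h1 : (algebraMap ℂ (MvPolynomial ι ℂ) (coeff m f)).totalDegree = 0 := totalDegree_C _
  rw [h1, zero_add]
  refine (totalDegree_finsetProd _ _).trans ?_
  refine le_trans (Finset.sum_le_sum (g := fun i => m i) fun i _ => ?_) (le_totalDegree hm)
  refine (totalDegree_pow _ _).trans ?_
  calc m i * _ ≤ m i * 1 := Nat.mul_le_mul_left _ (ha i)
    _ = m i := mul_one _

/-- an injective (modulo `I`) linear family of polynomials of degree `≤ D` -/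
theorem ph_finrank_le_hI {E : Type*} [AddCommGroup E] [Module ℂ E] [Module.Finite ℂ E]
    (I : Ideal (MvPolynomial ι ℂ)) (D : ℕ) (Ψ : E →ₗ[ℂ] MvPolynomial ι ℂ)
    (hdeg : ∀ a, (Ψ a).totalDegree ≤ D) (hinj : ∀ a, Ψ a ∈ I → a = 0) : finrank ℂ E ≤ hI I D := by
  set q := (Ideal.Quotient.mkₐ ℂ I).toLinearMap with hq
  set Ψ' : E →ₗ[ℂ] (restrictTotalDegree ι ℂ D).map q :=
    LinearMap.codRestrict _ (q.comp Ψ) fun a =>
      Submodule.mem_map_of_mem ((mem_restrictTotalDegree ι D _).mpr (hdeg a)) with hΨ'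
  apply LinearMap.finrank_le_finrank_of_injective (f := Ψ')
  rw [← LinearMap.ker_eq_bot, LinearMap.ker_eq_bot']
  intro a ha
  apply hinj
  have := congrArg Subtype.val ha
  rw [hΨ', LinearMap.codRestrict_apply, LinearMap.comp_apply, ZeroMemClass.coe_zero,
    ph_mkQ_eq_zero] at this
  exact this

/-- **Lower bounds from the generic fibre.** -/
theorem ph_low_lin {F : Type*} [Field F] [Algebra ℂ F] {k m : ℕ} (T : Fin k → F)
    (hT : AlgebraicIndependent ℂ T) (t : Fin k → MvPolynomial ι ℂ) (ht : ∀ i, (t i).totalDegree ≤ 1)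
    (Λ : MvPolynomial ι F →ₗ[F] (Fin m → F))
    (hΛ : ∀ i g, Λ (map (algebraMap ℂ F) (t i) * g) = T i • Λ g)
    (q : ℕ) (hq : ∀ w, ∃ g : MvPolynomial ι F, g.totalDegree ≤ q ∧ Λ g = w)
    (I : Ideal (MvPolynomial ι ℂ)) (hIΛ : ∀ f ∈ I, Λ (map (algebraMap ℂ F) f) = 0)
    (D : ℕ) (hD : q ≤ D) : m * (D - q + k).choose k ≤ hI I D := by
  classical
  -- step 1: monomials of degree ≤ q whose images form a basis
  set S := {β : ι →₀ ℕ // β.degree ≤ q} with hS
  set u : S → (Fin m → F) := fun β => Λ (monomial β.1 1) with hu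
  have hspan : Submodule.span F (Set.range u) = ⊤ := by
    rw [eq_top_iff]
    intro w _
    obtain ⟨g, hg, rfl⟩ := hq w
    rw [g.as_sum, map_sum]
    refine Submodule.sum_mem _ fun β hβ => ?_
    have hβq : β.degree ≤ q := (le_totalDegree hβ).trans hg
    have e : monomial β (coeff β g) = coeff β g • (monomial β (1 : F)) := by
      rw [smul_monomial, smul_eq_mul, mul_one]
    rw [e, map_smul]
    exact Submodule.smul_mem _ _ (Submodule.subset_span ⟨⟨β, hβq⟩, rfl⟩)
  obtain ⟨κ, a, _, hsp, hli⟩ := exists_linearIndependent' F u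
  rw [hspan] at hsp
  set bas := Basis.mk hli hsp.ge with hbas
  haveI : Finite κ := Module.Finite.finite_basis bas
  letI : Fintype κ := Fintype.ofFinite κ
  have hcard : Fintype.card κ = m := by
    have := Module.finrank_eq_card_basis bas
    rw [Module.finrank_fin_fun] at this
    exact this.symm
  -- multiplication rule
  have hmul : ∀ (c : MvPolynomial (Fin k) ℂ) (g : MvPolynomial ι F),
      Λ (map (algebraMap ℂ F) (aeval t c) * g) = aeval T c • Λ g := by
    intro c
    induction c using MvPolynomial.induction_on with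
    | C z =>
      intro g
      rw [aeval_C, aeval_C, algebraMap_eq, map_C, ← smul_eq_C_mul, map_smul]
    | add p p' hp hp' =>
      intro g
      rw [map_add, map_add, add_mul, map_add, hp, hp', map_add, add_smul]
    | mul_X p i hp =>
      intro g
      have e1 : map (algebraMap ℂ F) (aeval t (p * X i)) * g
          = map (algebraMap ℂ F) (aeval t p) * (map (algebraMap ℂ F) (t i) * g) := by
        rw [map_mul (aeval t), aeval_X, map_mul (map (algebraMap ℂ F)), mul_assoc]
      rw [e1, hp, hΛ, map_mul (aeval T), aeval_X, mul_smul]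
  -- the family
  set E := κ → restrictTotalDegree (Fin k) ℂ (D - q) with hE
  set Ψ : E →ₗ[ℂ] MvPolynomial ι ℂ :=
    ∑ j : κ, (LinearMap.mulRight ℂ (monomial (a j).1 (1 : ℂ))).comp
      ((aeval t : MvPolynomial (Fin k) ℂ →ₐ[ℂ] MvPolynomial ι ℂ).toLinearMap.comp
        ((Submodule.subtype _).comp (LinearMap.proj j))) with hΨ
  have hΨa : ∀ c : E, Ψ c = ∑ j, aeval t (c j).1 * monomial (a j).1 (1 : ℂ) := by
    intro c
    rw [hΨ, LinearMap.sum_apply]
    rfl
  have h1 : finrank ℂ E ≤ hI I D := by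
    apply ph_finrank_le_hI I D Ψ
    · intro c
      rw [hΨa]
      apply totalDegree_finsetSum_le
      intro j _
      refine (totalDegree_mul _ _).trans ?_
      have d1 : (aeval t (c j).1).totalDegree ≤ D - q :=
        (ph_totalDegree_aeval_le t ht _).trans ((mem_restrictTotalDegree _ _ _).mp (c j).2)
      have d2 : (monomial (a j).1 (1 : ℂ)).totalDegree ≤ q :=
        (totalDegree_monomial_le _ _).trans (a j).2
      omega
    · intro c hc
      have h2 := hIΛ _ hc
      rw [hΨa, map_sum, map_sum] at h2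
      have h3 : ∀ j, Λ (map (algebraMap ℂ F) (aeval t (c j).1 * monomial (a j).1 (1 : ℂ)))
          = aeval T (c j).1 • (u ∘ a) j := by
        intro j
        rw [map_mul, map_monomial, map_one, hmul]
        rfl
      simp only [h3] at h2
      have h4 := (Fintype.linearIndependent_iff.mp hli) (fun j => aeval T (c j).1) h2
      funext j
      apply Subtype.ext
      have h5 := h4 j
      exact (injective_iff_map_eq_zero _).mp hT (c j).1 h5
  have h2 : finrank ℂ E = m * (D - q + k).choose k := by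
    have e0 : finrank ℂ E = ∑ _j : κ, finrank ℂ (restrictTotalDegree (Fin k) ℂ (D - q)) :=
      Module.finrank_pi_fintype ℂ
    rw [e0]
    simp only [rk_finrank_restrict, Finset.sum_const, Finset.card_univ, hcard, Fintype.card_fin,
      smul_eq_mul]
    rw [add_comm k, Nat.choose_symm_add]
  rw [← h2]
  exact h1

end Claimed.Agent.R273
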