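-- KEEP
import Claimed.Agent.R273.PhLin

/-!
# Row 273, POLY-A 5: LINEAR NOETHER NORMALISATION without change of coordinates; dimension.  Architect helper94.

`FiltFin I t`, `NPos p t` : PhDefs.  `A_k = MvPolynomial (Fin k) ℂ`, acting on `P = MvPolynomial ι ℂ` through `aeval t`.

LEAF PH-nn-a (`ph_wdeg_mod`, `ph_filtfin_step`): ONE STEP.  `t : Fin (k+1) → P` of degree `≤ 1`, `FiltFin I t` with `(m, b)`, `0 ≠ g ∈ A_{k+1}`, `g(t) ∈ I`.
  Let `e = g.totalDegree`, `g_e = homogeneousComponent e g ≠ 0`.  Choose `λ : Fin (k+1) → ℂ` with `g_e(λ) ≠ 0` and `λ (last) ≠ 0`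
  (`g_e * X (last) ≠ 0`, `MvPolynomial.funext`/`exists eval ≠ 0` over the infinite field `ℂ`).  `s := C (λ last)⁻¹ * t last`, `t' i := t (castSucc i) - C (λ (castSucc i)) * s` (degree `≤ 1`).
  `Φ : A_{k+1} →ₐ Polynomial A_k`, `X (castSucc i) ↦ C (X i) + C (C (λ i)) * X`, `X last ↦ C (C (λ last)) * X`;  `ev : Polynomial A_k →ₐ[ℂ] P := eval₂ (aeval t') s`;  `aeval t = ev ∘ Φ` (check on generators).
  WEIGHTED DEGREE `WDeg a E`: every coefficient `a_j` is `0` or `deg a_j + j ≤ E`.  `WDeg (Φ a) a.totalDegree` (on monomials; products add weights).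
  `Φ g` has `coeff e = C (g_e(λ))`, a unit, and `natDegree = e`; `G := C (C (g_e λ)⁻¹) * Φ g` is monic, `WDeg G e`, `ev G ∈ I`.
  `ph_wdeg_mod`: `WDeg a E → WDeg (a %ₘ G) E` (strong induction on `natDegree a`: subtract `lead(a) X^(deg a - e) G`; or use `Polynomial.modByMonic` recursion `modByMonic_eq_sub_mul_div` and induction).
  So `a(t) = ev (Φ a) ≡ ev (Φ a %ₘ G) = ∑_{j<e} a_j(t') s^j` mod `I`, `deg a_j + j ≤ deg a`.  New family `b'_(j,l) := s^j b_l` (`j < e`, `l < m`; `finProdFinEquiv`), `deg b'_(j,l) ≤ j + deg b_l`.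
LEAF PH-nn-b (`ph_filtfin_X`, `ph_filtfin_mono`, `ph_exists_npos`, `ph_hI_le_of_filtfin`, `ph_hI_ge_of_inj`, `ph_vdim_of_npos`).
  * `ph_filtfin_X`: `m = 1`, `b = 1`, `a = rename e.symm f`.  * `ph_exists_npos`: induction on `k` downwards from `ph_filtfin_X`, using `ph_filtfin_step` as long as (N1) fails; for `k = 0` (N1) holds because `I ≠ ⊤`
    (`g : MvPolynomial (Fin 0) ℂ` is a constant, `MvPolynomial.eq_C_of_isEmpty`).
  * `ph_hI_le_of_filtfin`: `ph_hI_le_card` with the family `t^α b_j`, `|α| ≤ D`: `C = m`.   * `ph_hI_ge_of_inj`: `ph_card_le_hI` with the family `t^α`, `|α| ≤ D`.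
  * `ph_vdim_of_npos`: `binom(D+k,k) ≤ hA ≤ m binom(D+k,k)`, `(D+1)^k / k! ≤ binom(D+k,k) ≤ (D+1)^k`; `hA (zeroLocus p) = hI p` (`ph_hA_zeroLocus_prime`); `Nat.sInf_mem`, `Nat.sInf_le`.
LEAF PH-nn-c (`ph_npos_family`): `I := 𝒱.inf id ≠ ⊤`; `ph_exists_npos` gives `k', t'`.  `FiltFin p t'` for all `p ∈ 𝒱` (`ph_filtfin_mono`).  Some `p₀ ∈ 𝒱` satisfies (N1): otherwise pick `0 ≠ g_p`, `g_p(t') ∈ p`; `∏ g_p ≠ 0` lies in `I`.
  So `k' = vdim = k` (`ph_vdim_of_npos`).  If (N1) failed for some `p ∈ 𝒱` then `k' ≥ 1` and `ph_filtfin_step` + `ph_hI_le_of_filtfin` give `hA ≤ C binom(D+k'-1,k'-1)`, so `vdim ≤ k' - 1`, contradiction.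
-/

set_option autoImplicit false

namespace Claimed.Agent.R273

open MvPolynomial Module

variable {ι : Type*} [Fintype ι]

/-- weighted degree of a polynomial in one variable `S` over `ℂ[T_1..T_k]` -/
def WDeg {k : ℕ} (a : Polynomial (MvPolynomial (Fin k) ℂ)) (E : ℕ) : Prop :=
  ∀ j, a.coeff j = 0 ∨ (a.coeff j).totalDegree + j ≤ E

theorem ph_wdeg_sub {k : ℕ} {a b : Polynomial (MvPolynomial (Fin k) ℂ)} {E : ℕ} (ha : WDeg a E)
    (hb : WDeg b E) : WDeg (a - b) E := by
  intro j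
  rw [Polynomial.coeff_sub]
  by_cases h0 : a.coeff j - b.coeff j = 0
  · exact Or.inl h0
  · right
    rcases ha j with h1 | h1 <;> rcases hb j with h2 | h2
    · rw [h1, h2, sub_zero] at h0; exact absurd rfl h0
    · rw [h1, zero_sub, totalDegree_neg]; exact h2
    · rw [h2, sub_zero]; exact h1
    · have hd := totalDegree_sub (a.coeff j) (b.coeff j)
      rcases max_cases (a.coeff j).totalDegree (b.coeff j).totalDegree with ⟨h, _⟩ | ⟨h, _⟩ <;> omega

theorem ph_wdeg_shift {k : ℕ} {G : Polynomial (MvPolynomial (Fin k) ℂ)} {e : ℕ} (hG : WDeg G e)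
    (l : MvPolynomial (Fin k) ℂ) (s E : ℕ) (hl : l.totalDegree + s + e ≤ E) :
    WDeg (G * (Polynomial.C l * Polynomial.X ^ s)) E := by
  intro j
  have e1 : G * (Polynomial.C l * Polynomial.X ^ s) = Polynomial.C l * (G * Polynomial.X ^ s) := by
    ring
  rw [e1, Polynomial.coeff_C_mul, Polynomial.coeff_mul_X_pow']
  split_ifs with hs
  · rcases hG (j - s) with h | h
    · left; rw [h, mul_zero]
    · right
      have := totalDegree_mul l (G.coeff (j - s))
      omega
  · left; rw [mul_zero]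

theorem ph_wdeg_mod_aux {k : ℕ} (G : Polynomial (MvPolynomial (Fin k) ℂ)) (hG : G.Monic)
    (hGw : WDeg G G.natDegree) (E : ℕ) : ∀ (n : ℕ) (a : Polynomial (MvPolynomial (Fin k) ℂ)),
    a.natDegree ≤ n → WDeg a E →
      ∃ Q r : Polynomial (MvPolynomial (Fin k) ℂ), r + G * Q = a ∧ r.degree < G.degree ∧ WDeg r E := by
  intro n
  induction n with
  | zero =>
    intro a hn ha
    by_cases hlt : a.degree < G.degree
    · exact ⟨0, a, by simp, hlt, ha⟩
    · -- `G` has degree `0`, so `G = 1`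
      rw [not_lt] at hlt
      have hG0 : G.natDegree = 0 := by
        have := Polynomial.natDegree_le_natDegree hlt
        omega
      have hG1 : G = 1 := by
        exact hG.natDegree_eq_zero.mp hG0
      refine ⟨a, 0, by rw [hG1]; simp, ?_, fun j => Or.inl (by simp)⟩
      rw [hG1]; simp
  | succ n ih =>
    intro a hn ha
    by_cases hlt : a.degree < G.degree
    · exact ⟨0, a, by simp, hlt, ha⟩
    · rw [not_lt] at hlt
      have ha0 : a ≠ 0 := by
        rintro rfl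
        rw [Polynomial.degree_zero, le_bot_iff, Polynomial.degree_eq_bot] at hlt
        exact hG.ne_zero hlt
      have hwf := Polynomial.div_wf_lemma ⟨hlt, ha0⟩ hG
      set a' := a - G * (Polynomial.C a.leadingCoeff * Polynomial.X ^ (a.natDegree - G.natDegree))
        with ha'
      have hnd : G.natDegree ≤ a.natDegree := Polynomial.natDegree_le_natDegree hlt
      have hn' : a'.natDegree ≤ n := by
        by_cases h0 : a' = 0
        · rw [h0]; simp
        · have := Polynomial.natDegree_lt_natDegree h0 hwf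
          omega
      have hw' : WDeg a' E := by
        apply ph_wdeg_sub ha
        apply ph_wdeg_shift hGw
        rcases ha a.natDegree with h | h
        · exact absurd h (by simpa using ha0)
        · rw [Polynomial.coeff_natDegree] at h
          omega
      obtain ⟨Q, r, h1, h2, h3⟩ := ih a' hn' hw'
      refine ⟨Q + Polynomial.C a.leadingCoeff * Polynomial.X ^ (a.natDegree - G.natDegree), r, ?_,
        h2, h3⟩
      rw [mul_add, ← add_assoc, h1, ha']
      ring

theorem ph_wdeg_mod {k : ℕ} (G : Polynomial (MvPolynomial (Fin k) ℂ)) (hG : G.Monic)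
    (hGw : WDeg G G.natDegree) (a : Polynomial (MvPolynomial (Fin k) ℂ)) (E : ℕ) (ha : WDeg a E) :
    WDeg (a %ₘ G) E := by
  obtain ⟨Q, r, h1, h2, h3⟩ := ph_wdeg_mod_aux G hG hGw E a.natDegree a le_rfl ha
  rw [(Polynomial.div_modByMonic_unique Q r hG ⟨h1, h2⟩).2]
  exact h3

/-- the linear substitution `X_0 ↦ λ_0 X_0`, `X_{i+1} ↦ X_{i+1} + λ_{i+1} X_0` -/
noncomputable def phL {k : ℕ} (lam : Fin (k + 1) → ℂ) :
    MvPolynomial (Fin (k + 1)) ℂ →ₐ[ℂ] MvPolynomial (Fin (k + 1)) ℂ :=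
  aeval (Fin.cons (C (lam 0) * X 0) fun i : Fin k => X i.succ + C (lam i.succ) * X 0 :
    Fin (k + 1) → MvPolynomial (Fin (k + 1)) ℂ)

theorem ph_phL_X_zero {k : ℕ} (lam : Fin (k + 1) → ℂ) : phL lam (X 0) = C (lam 0) * X 0 := by
  simp [phL]

theorem ph_phL_X_succ {k : ℕ} (lam : Fin (k + 1) → ℂ) (i : Fin k) :
    phL lam (X i.succ) = X i.succ + C (lam i.succ) * X 0 := by
  simp [phL]

theorem ph_phL_totalDegree {k : ℕ} (lam : Fin (k + 1) → ℂ) (a : MvPolynomial (Fin (k + 1)) ℂ) :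
    (phL lam a).totalDegree ≤ a.totalDegree := by
  apply ph_totalDegree_aeval_le
  intro j
  refine Fin.cases ?_ (fun i => ?_) j
  · simp only [Fin.cons_zero]
    refine (totalDegree_mul _ _).trans ?_
    simp
  · simp only [Fin.cons_succ]
    refine (totalDegree_add _ _).trans (max_le (by simp) ?_)
    refine (totalDegree_mul _ _).trans ?_
    simp

theorem ph_phL_homog {k : ℕ} (lam : Fin (k + 1) → ℂ) {a : MvPolynomial (Fin (k + 1)) ℂ} {e : ℕ}
    (ha : a.IsHomogeneous e) : (phL lam a).IsHomogeneous e := by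
  have := ha.aeval (n := 1) (Fin.cons (C (lam 0) * X 0) fun i : Fin k => X i.succ + C (lam i.succ) * X 0 :
    Fin (k + 1) → MvPolynomial (Fin (k + 1)) ℂ) (by
      intro j
      refine Fin.cases ?_ (fun i => ?_) j
      · simp only [Fin.cons_zero]
        exact isHomogeneous_C_mul_X _ _
      · simp only [Fin.cons_succ]
        exact (isHomogeneous_X _ _).add (isHomogeneous_C_mul_X _ _))
  rwa [one_mul] at this

theorem ph_eval_phL {k : ℕ} (lam : Fin (k + 1) → ℂ) (a : MvPolynomial (Fin (k + 1)) ℂ) :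
    eval (Fin.cons 1 0 : Fin (k + 1) → ℂ) (phL lam a) = eval lam a := by
  have : (eval (Fin.cons 1 0 : Fin (k + 1) → ℂ)).comp (phL lam).toRingHom = eval lam := by
    apply MvPolynomial.ringHom_ext
    · intro r; simp [phL]
    · intro j
      refine Fin.cases ?_ (fun i => ?_) j
      · simp [ph_phL_X_zero]
      · simp [ph_phL_X_succ]
  exact congrArg (fun φ : MvPolynomial (Fin (k + 1)) ℂ →+* ℂ => φ a) this

theorem ph_degree_cons {k : ℕ} (e : ℕ) : (Finsupp.cons e (0 : Fin k →₀ ℕ)).degree = e := by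
  rw [Finsupp.degree_eq_sum, Fin.sum_univ_succ]
  simp

theorem ph_coeff_cons_of_homog {k : ℕ} {h : MvPolynomial (Fin (k + 1)) ℂ} {e : ℕ}
    (hh : h.IsHomogeneous e) :
    coeff (Finsupp.cons e (0 : Fin k →₀ ℕ)) h = eval (Fin.cons 1 0 : Fin (k + 1) → ℂ) h := by
  classical
  rw [eval_eq', Finset.sum_eq_single (Finsupp.cons e (0 : Fin k →₀ ℕ))]
  · rw [Fin.prod_univ_succ]
    simp
  · intro d hd hne
    have hdeg : d.degree = e := by
      rw [Finsupp.degree_eq_weight_one]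
      exact hh (mem_support_iff.mp hd)
    have hex : ∃ i : Fin k, d i.succ ≠ 0 := by
      by_contra hcon
      apply hne
      have h0 : ∀ i : Fin k, d i.succ = 0 := fun i => by_contra fun h => hcon ⟨i, h⟩
      rw [Finsupp.degree_eq_sum, Fin.sum_univ_succ, Finset.sum_eq_zero (fun i _ => h0 i),
        add_zero] at hdeg
      ext j
      refine Fin.cases ?_ (fun i => ?_) j
      · simp [hdeg]
      · simp [h0 i]
    obtain ⟨i, hi⟩ := hex
    rw [Finset.prod_eq_zero (Finset.mem_univ i.succ), mul_zero]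
    simp [hi]
  · intro hns
    rw [notMem_support_iff.mp hns, zero_mul]

theorem ph_coeff_phL {k : ℕ} (lam : Fin (k + 1) → ℂ) (g : MvPolynomial (Fin (k + 1)) ℂ) :
    coeff (Finsupp.cons g.totalDegree (0 : Fin k →₀ ℕ)) (phL lam g)
      = eval lam (homogeneousComponent g.totalDegree g) := by
  set e := g.totalDegree with he
  conv_lhs => rw [← sum_homogeneousComponent g, map_sum, coeff_sum]
  rw [← he, Finset.sum_eq_single e]
  · rw [ph_coeff_cons_of_homog (ph_phL_homog lam (homogeneousComponent_isHomogeneous e g)),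
      ph_eval_phL]
  · intro j hj hje
    apply coeff_eq_zero_of_totalDegree_lt
    have h1 := ph_phL_totalDegree lam (homogeneousComponent j g)
    have h2 := (homogeneousComponent_isHomogeneous j g).totalDegree_le
    have h3 : ∑ i ∈ (Finsupp.cons e (0 : Fin k →₀ ℕ)).support, (Finsupp.cons e (0 : Fin k →₀ ℕ)) i = e :=
      ph_degree_cons e
    rw [h3]
    have := Finset.mem_range.mp hj
    omega
  · intro h
    exact absurd (Finset.mem_range.mpr (Nat.lt_succ_self e)) h

theorem ph_homogComp_totalDegree_ne_zero {σ : Type*} {g : MvPolynomial σ ℂ} (hg : g ≠ 0) :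
    homogeneousComponent g.totalDegree g ≠ 0 := by
  classical
  obtain ⟨m, hm, hmd⟩ : ∃ m ∈ g.support, g.totalDegree = m.sum fun _ e => e := by
    have hne : g.support.Nonempty := support_nonempty.mpr hg
    obtain ⟨m, hm, h⟩ := Finset.exists_mem_eq_sup g.support hne fun s => s.sum fun _ e => e
    exact ⟨m, hm, h⟩
  intro h0
  have := congrArg (coeff m) h0
  rw [coeff_homogeneousComponent, coeff_zero, if_pos] at this
  · exact (mem_support_iff.mp hm) this
  · exact hmd.symm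

omit [Fintype ι] in
theorem ph_filtfin_of_fintype {k : ℕ} {κ : Type*} [Fintype κ] (I : Ideal (MvPolynomial ι ℂ))
    (t : Fin k → MvPolynomial ι ℂ) (b : κ → MvPolynomial ι ℂ)
    (h : ∀ f : MvPolynomial ι ℂ, ∃ a : κ → MvPolynomial (Fin k) ℂ,
      (∀ j, a j = 0 ∨ (a j).totalDegree + (b j).totalDegree ≤ f.totalDegree) ∧
        f - ∑ j, aeval t (a j) * b j ∈ I) : FiltFin I t := by
  set e := Fintype.equivFin κ with he
  refine ⟨Fintype.card κ, fun j => b (e.symm j), fun f => ?_⟩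
  obtain ⟨a, h1, h2⟩ := h f
  refine ⟨fun j => a (e.symm j), fun j => h1 _, ?_⟩
  have : ∑ j, aeval t (a (e.symm j)) * b (e.symm j) = ∑ j, aeval t (a j) * b j :=
    Equiv.sum_comp e.symm fun j => aeval t (a j) * b j
  rw [this]
  exact h2

omit [Fintype ι] in
/-- evaluation of `ℂ[T_1..T_k][S]` at `(t', s)` -/
theorem ph_ev_finSucc {k : ℕ} (t' : Fin k → MvPolynomial ι ℂ) (s : MvPolynomial ι ℂ)
    (h : MvPolynomial (Fin (k + 1)) ℂ) :
    Polynomial.eval₂ (aeval t' : MvPolynomial (Fin k) ℂ →ₐ[ℂ] MvPolynomial ι ℂ).toRingHom s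
      (finSuccEquiv ℂ k h) = aeval (Fin.cons s t' : Fin (k + 1) → MvPolynomial ι ℂ) h := by
  have : (Polynomial.eval₂RingHom (aeval t' : MvPolynomial (Fin k) ℂ →ₐ[ℂ] MvPolynomial ι ℂ).toRingHom
      s).comp (finSuccEquiv ℂ k).toRingEquiv.toRingHom
      = (aeval (Fin.cons s t' : Fin (k + 1) → MvPolynomial ι ℂ)).toRingHom := by
    apply MvPolynomial.ringHom_ext
    · intro r
      have e1 : finSuccEquiv ℂ k (C r) = Polynomial.C (C r) := by
        simp [finSuccEquiv_apply]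
      simp [e1]
    · intro j
      refine Fin.cases ?_ (fun i => ?_) j
      · simp [finSuccEquiv_X_zero]
      · simp [finSuccEquiv_X_succ]
  exact congrArg (fun φ : MvPolynomial (Fin (k + 1)) ℂ →+* MvPolynomial ι ℂ => φ h) this

theorem ph_wdeg_finSucc {k : ℕ} (h : MvPolynomial (Fin (k + 1)) ℂ) {E : ℕ} (hE : h.totalDegree ≤ E) :
    WDeg (finSuccEquiv ℂ k h) E := by
  intro j
  by_cases h0 : (finSuccEquiv ℂ k h).coeff j = 0
  · exact Or.inl h0
  · exact Or.inr ((totalDegree_coeff_finSuccEquiv_add_le h j h0).trans hE)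

theorem ph_filtfin_step {k : ℕ} (I : Ideal (MvPolynomial ι ℂ)) (t : Fin (k + 1) → MvPolynomial ι ℂ)
    (ht : ∀ i, (t i).totalDegree ≤ 1) (h : FiltFin I t) (g : MvPolynomial (Fin (k + 1)) ℂ)
    (hg : g ≠ 0) (hgI : aeval t g ∈ I) :
    ∃ t' : Fin k → MvPolynomial ι ℂ, (∀ i, (t' i).totalDegree ≤ 1) ∧ FiltFin I t' := by
  classical
  obtain ⟨m, b, hb⟩ := h
  set e := g.totalDegree with he
  -- choice of the direction
  have hge := ph_homogComp_totalDegree_ne_zero hg
  obtain ⟨lam, hlam⟩ : ∃ lam : Fin (k + 1) → ℂ,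
      eval lam (homogeneousComponent e g * X 0) ≠ 0 := by
    by_contra hcon
    have : homogeneousComponent e g * X 0 = 0 := by
      apply MvPolynomial.funext
      intro x
      rw [map_zero]
      exact by_contra fun hx => hcon ⟨x, hx⟩
    exact (mul_ne_zero hge (X_ne_zero 0)) this
  rw [map_mul, eval_X] at hlam
  have hc₀ : eval lam (homogeneousComponent e g) ≠ 0 := left_ne_zero_of_mul hlam
  have hl0 : lam 0 ≠ 0 := right_ne_zero_of_mul hlam
  set c₀ := eval lam (homogeneousComponent e g) with hc₀def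
  set s : MvPolynomial ι ℂ := C (lam 0)⁻¹ * t 0 with hs
  set t' : Fin k → MvPolynomial ι ℂ := fun i => t i.succ - C (lam i.succ) * s with ht'
  have hsdeg : s.totalDegree ≤ 1 := by
    refine (totalDegree_mul _ _).trans ?_
    rw [totalDegree_C, zero_add]; exact ht 0
  have ht'deg : ∀ i, (t' i).totalDegree ≤ 1 := by
    intro i
    refine (totalDegree_sub _ _).trans (max_le (ht _) ?_)
    refine (totalDegree_mul _ _).trans ?_
    rw [totalDegree_C, zero_add]; exact hsdeg
  refine ⟨t', ht'deg, ?_⟩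
  -- `aeval t = aeval (cons s t') ∘ L`
  have hcomp : ∀ a, aeval (Fin.cons s t' : Fin (k + 1) → MvPolynomial ι ℂ) (phL lam a) = aeval t a := by
    intro a
    have : (aeval (Fin.cons s t' : Fin (k + 1) → MvPolynomial ι ℂ)).comp (phL lam) = aeval t := by
      apply MvPolynomial.algHom_ext
      intro j
      refine Fin.cases ?_ (fun i => ?_) j
      · rw [AlgHom.comp_apply, ph_phL_X_zero, map_mul, aeval_C, aeval_X, aeval_X, Fin.cons_zero, hs,
          algebraMap_eq, ← mul_assoc, ← C_mul, mul_inv_cancel₀ hl0, C_1, one_mul]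
      · rw [AlgHom.comp_apply, ph_phL_X_succ, map_add, map_mul, aeval_C, aeval_X, aeval_X, aeval_X,
          Fin.cons_zero, Fin.cons_succ, algebraMap_eq, ht']
        ring
    exact congrArg (fun φ : MvPolynomial (Fin (k + 1)) ℂ →ₐ[ℂ] MvPolynomial ι ℂ => φ a) this
  set Φ : MvPolynomial (Fin (k + 1)) ℂ → Polynomial (MvPolynomial (Fin k) ℂ) :=
    fun a => finSuccEquiv ℂ k (phL lam a) with hΦ
  set ev : Polynomial (MvPolynomial (Fin k) ℂ) →+* MvPolynomial ι ℂ :=
    Polynomial.eval₂RingHom (aeval t' : MvPolynomial (Fin k) ℂ →ₐ[ℂ] MvPolynomial ι ℂ).toRingHom s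
    with hev
  have hevΦ : ∀ a, ev (Φ a) = aeval t a := by
    intro a
    rw [← hcomp a, ← ph_ev_finSucc]
    rfl
  have hΦw : ∀ a, WDeg (Φ a) a.totalDegree := fun a =>
    ph_wdeg_finSucc _ (ph_phL_totalDegree lam a)
  -- the monic polynomial
  have hcoeff : (Φ g).coeff e = C c₀ := by
    have h1 : coeff 0 ((Φ g).coeff e) = c₀ := by
      rw [hΦ, finSuccEquiv_coeff_coeff, he, ph_coeff_phL]
    have h2 : (Φ g).coeff e ≠ 0 := by
      intro h0
      rw [h0, coeff_zero] at h1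
      exact hc₀ h1.symm
    have h3 : ((Φ g).coeff e).totalDegree = 0 := by
      rcases hΦw g e with h | h
      · exact absurd h h2
      · omega
    rw [totalDegree_eq_zero_iff_eq_C.mp h3, h1]
  have hnat : (Φ g).natDegree ≤ e := by
    rw [hΦ, natDegree_finSuccEquiv]
    exact (degreeOf_le_totalDegree _ _).trans (ph_phL_totalDegree lam g)
  set G : Polynomial (MvPolynomial (Fin k) ℂ) := Polynomial.C (C c₀⁻¹) * Φ g with hG
  have hGnat : G.natDegree ≤ e := (Polynomial.natDegree_C_mul_le _ _).trans hnat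
  have hGcoeff : G.coeff e = 1 := by
    rw [hG, Polynomial.coeff_C_mul, hcoeff, ← C_mul, inv_mul_cancel₀ hc₀, C_1]
  have hGmonic : G.Monic := Polynomial.monic_of_natDegree_le_of_coeff_eq_one e hGnat hGcoeff
  have hGnat' : G.natDegree = e :=
    Polynomial.natDegree_eq_of_le_of_coeff_ne_zero hGnat (by rw [hGcoeff]; exact one_ne_zero)
  have hGw : WDeg G G.natDegree := by
    rw [hGnat']
    intro j
    rw [hG, Polynomial.coeff_C_mul]
    rcases hΦw g j with h | h
    · left; rw [h, mul_zero]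
    · right
      have := totalDegree_mul (C c₀⁻¹ : MvPolynomial (Fin k) ℂ) ((Φ g).coeff j)
      rw [totalDegree_C, zero_add] at this
      omega
  have hevG : ev G ∈ I := by
    rw [hG, map_mul, hevΦ]
    exact I.mul_mem_left _ hgI
  -- the new family
  apply ph_filtfin_of_fintype (κ := Fin e × Fin m) I t' fun jl => s ^ (jl.1 : ℕ) * b jl.2
  intro f
  obtain ⟨a, ha1, ha2⟩ := hb f
  set r : Fin m → Polynomial (MvPolynomial (Fin k) ℂ) := fun l => Φ (a l) %ₘ G with hr
  have hrw : ∀ l, WDeg (r l) (a l).totalDegree := fun l => ph_wdeg_mod G hGmonic hGw _ _ (hΦw (a l))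
  have hr0 : ∀ l, a l = 0 → r l = 0 := by
    intro l hl
    rw [hr]
    simp only [hl, hΦ, map_zero, Polynomial.zero_modByMonic]
  have hrdeg : ∀ l, (r l).degree < (e : WithBot ℕ) := by
    intro l
    have := Polynomial.degree_modByMonic_lt (Φ (a l)) hGmonic
    rwa [Polynomial.degree_eq_natDegree hGmonic.ne_zero, hGnat'] at this
  have hevr : ∀ l, ev (r l) = ∑ j : Fin e, aeval t' ((r l).coeff j) * s ^ (j : ℕ) := by
    intro l
    by_cases h0 : r l = 0
    · simp [h0]
    · have hn : (r l).natDegree < e := (Polynomial.natDegree_lt_iff_degree_lt h0).mpr (hrdeg l)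
      have := Polynomial.eval₂_eq_sum_range'
        (aeval t' : MvPolynomial (Fin k) ℂ →ₐ[ℂ] MvPolynomial ι ℂ).toRingHom hn s
      rw [Finset.sum_range] at this
      exact this
  refine ⟨fun jl => (r jl.2).coeff (jl.1 : ℕ), ?_, ?_⟩
  · rintro ⟨j, l⟩
    simp only
    by_cases hal : a l = 0
    · left; rw [hr0 l hal, Polynomial.coeff_zero]
    · rcases hrw l j with h | h
      · exact Or.inl h
      · right
        have h1 : (a l).totalDegree + (b l).totalDegree ≤ f.totalDegree := by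
          rcases ha1 l with h' | h'
          · exact absurd h' hal
          · exact h'
        have h2 : (s ^ (j : ℕ) * b l).totalDegree ≤ (j : ℕ) + (b l).totalDegree := by
          refine (totalDegree_mul _ _).trans ?_
          have := totalDegree_pow s (j : ℕ)
          have h3 : (j : ℕ) * s.totalDegree ≤ (j : ℕ) * 1 := Nat.mul_le_mul_left _ hsdeg
          omega
        omega
  · have e1 : ∑ jl : Fin e × Fin m, aeval t' ((r jl.2).coeff (jl.1 : ℕ)) * (s ^ (jl.1 : ℕ) * b jl.2)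
        = ∑ l, ev (r l) * b l := by
      rw [Fintype.sum_prod_type_right]
      refine Finset.sum_congr rfl fun l _ => ?_
      rw [hevr, Finset.sum_mul]
      refine Finset.sum_congr rfl fun j _ => ?_
      ring
    rw [e1]
    have e2 : f - ∑ l, ev (r l) * b l
        = (f - ∑ l, aeval t (a l) * b l) + ∑ l, (ev (Φ (a l)) - ev (r l)) * b l := by
      simp only [hevΦ, sub_mul, Finset.sum_sub_distrib]
      ring
    rw [e2]
    refine I.add_mem ha2 (I.sum_mem fun l _ => I.mul_mem_right _ ?_)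
    have e3 : Φ (a l) - r l = G * (Φ (a l) /ₘ G) := by
      have := Polynomial.modByMonic_add_div (Φ (a l)) G
      rw [hr]
      simp only
      linear_combination this.symm
    rw [← map_sub, e3, map_mul]
    exact I.mul_mem_right _ hevG

omit [Fintype ι] in
theorem ph_filtfin_X (I : Ideal (MvPolynomial ι ℂ)) {n : ℕ} (e : Fin n ≃ ι) :
    FiltFin I (fun i => X (e i)) := by
  refine ⟨1, fun _ => 1, fun f => ⟨fun _ => rename e.symm f, fun _ => Or.inr ?_, ?_⟩⟩
  · rw [totalDegree_one, add_zero]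
    exact totalDegree_rename_le _ _
  · have : aeval (fun i => (X (e i) : MvPolynomial ι ℂ)) (rename e.symm f) = f := by
      rw [aeval_rename]
      have : ((fun i => (X (e i) : MvPolynomial ι ℂ)) ∘ e.symm) = X := by
        funext i; simp
      rw [this, aeval_X_left_apply]
    rw [Finset.univ_unique, Finset.sum_singleton, this, mul_one, sub_self]
    exact I.zero_mem

omit [Fintype ι] in
theorem ph_filtfin_mono {k : ℕ} {I J : Ideal (MvPolynomial ι ℂ)} (h : I ≤ J)
    {t : Fin k → MvPolynomial ι ℂ} (hI : FiltFin I t) : FiltFin J t := by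
  obtain ⟨m, b, hb⟩ := hI
  exact ⟨m, b, fun f => let ⟨a, h1, h2⟩ := hb f; ⟨a, h1, h h2⟩⟩

theorem ph_exists_npos_aux (I : Ideal (MvPolynomial ι ℂ)) (hI : I ≠ ⊤) :
    ∀ (k : ℕ) (t : Fin k → MvPolynomial ι ℂ), (∀ i, (t i).totalDegree ≤ 1) → FiltFin I t →
      ∃ (k' : ℕ) (t' : Fin k' → MvPolynomial ι ℂ), k' ≤ k ∧ NPos I t' := by
  intro k
  induction k with
  | zero =>
    intro t ht hf
    refine ⟨0, t, le_rfl, ht, ?_, hf⟩
    intro g hg
    rw [eq_C_of_isEmpty g] at hg ⊢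
    rw [aeval_C, algebraMap_eq] at hg
    by_contra hne
    have hc : coeff 0 g ≠ 0 := fun h => hne (by rw [h, C_0])
    apply hI
    rw [Ideal.eq_top_iff_one]
    have := I.mul_mem_left (C (coeff 0 g)⁻¹) hg
    rwa [← C_mul, inv_mul_cancel₀ hc, C_1] at this
  | succ k ih =>
    intro t ht hf
    by_cases hinj : ∀ g : MvPolynomial (Fin (k + 1)) ℂ, aeval t g ∈ I → g = 0
    · exact ⟨k + 1, t, le_rfl, ht, hinj, hf⟩
    · have : ∃ g : MvPolynomial (Fin (k + 1)) ℂ, aeval t g ∈ I ∧ g ≠ 0 := by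
        by_contra hcon
        exact hinj fun g hg => by_contra fun hne => hcon ⟨g, hg, hne⟩
      obtain ⟨g, hgI, hg⟩ := this
      obtain ⟨t', ht', hf'⟩ := ph_filtfin_step I t ht hf g hg hgI
      obtain ⟨k', t'', hk', hn⟩ := ih t' ht' hf'
      exact ⟨k', t'', hk'.trans (Nat.le_succ k), hn⟩

theorem ph_exists_npos (I : Ideal (MvPolynomial ι ℂ)) (hI : I ≠ ⊤) :
    ∃ (k : ℕ) (t : Fin k → MvPolynomial ι ℂ), k ≤ Fintype.card ι ∧ NPos I t :=
  ph_exists_npos_aux I hI (Fintype.card ι) (fun i => X ((Fintype.equivFin ι).symm i))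
    (fun i => by simp) (ph_filtfin_X I (Fintype.equivFin ι).symm)

/-- a linear family which spans the polynomials of degree `≤ D` modulo `I` -/
theorem ph_hI_le_of_surj {E : Type*} [AddCommGroup E] [Module ℂ E] [Module.Finite ℂ E]
    (I : Ideal (MvPolynomial ι ℂ)) (D : ℕ) (Ψ : E →ₗ[ℂ] MvPolynomial ι ℂ)
    (h : ∀ f : MvPolynomial ι ℂ, f.totalDegree ≤ D → ∃ a, f - Ψ a ∈ I) : hI I D ≤ finrank ℂ E := by
  set q := (Ideal.Quotient.mkₐ ℂ I).toLinearMap with hq
  have hle : Submodule.map q (restrictTotalDegree ι ℂ D) ≤ LinearMap.range (q.comp Ψ) := by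
    rintro _ ⟨f, hf, rfl⟩
    obtain ⟨a, ha⟩ := h f ((mem_restrictTotalDegree ι D f).mp hf)
    rw [← ph_mkQ_eq_zero, ← hq, map_sub, sub_eq_zero] at ha
    exact ⟨a, ha.symm⟩
  exact (Submodule.finrank_mono hle).trans (LinearMap.finrank_range_le _)

theorem ph_hI_le_of_filtfin {k : ℕ} (I : Ideal (MvPolynomial ι ℂ)) (t : Fin k → MvPolynomial ι ℂ)
    (h : FiltFin I t) : ∃ C : ℕ, ∀ D, hI I D ≤ C * (D + k).choose k := by
  obtain ⟨m, b, hb⟩ := h
  refine ⟨m, fun D => ?_⟩
  set E := Fin m → restrictTotalDegree (Fin k) ℂ D with hE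
  set Ψ : E →ₗ[ℂ] MvPolynomial ι ℂ :=
    ∑ j : Fin m, (LinearMap.mulRight ℂ (b j)).comp
      ((aeval t : MvPolynomial (Fin k) ℂ →ₐ[ℂ] MvPolynomial ι ℂ).toLinearMap.comp
        ((Submodule.subtype _).comp (LinearMap.proj j))) with hΨ
  have hΨa : ∀ c : E, Ψ c = ∑ j, aeval t (c j).1 * b j := by
    intro c
    rw [hΨ, LinearMap.sum_apply]
    rfl
  have h1 : hI I D ≤ finrank ℂ E := by
    apply ph_hI_le_of_surj I D Ψ
    intro f hf
    obtain ⟨a, ha1, ha2⟩ := hb f
    refine ⟨fun j => ⟨a j, ?_⟩, ?_⟩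
    · rw [mem_restrictTotalDegree]
      rcases ha1 j with h | h
      · rw [h, totalDegree_zero]; exact Nat.zero_le _
      · omega
    · rw [hΨa]; exact ha2
  have h2 : finrank ℂ E = m * (D + k).choose k := by
    have e0 : finrank ℂ E = ∑ _j : Fin m, finrank ℂ (restrictTotalDegree (Fin k) ℂ D) :=
      Module.finrank_pi_fintype ℂ
    rw [e0]
    simp only [rk_finrank_restrict, Finset.sum_const, Finset.card_univ, Fintype.card_fin,
      smul_eq_mul]
    rw [add_comm k, Nat.choose_symm_add]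
  rw [← h2]; exact h1

theorem ph_hI_ge_of_inj {k : ℕ} (I : Ideal (MvPolynomial ι ℂ)) (t : Fin k → MvPolynomial ι ℂ)
    (ht : ∀ i, (t i).totalDegree ≤ 1) (hinj : ∀ g : MvPolynomial (Fin k) ℂ, aeval t g ∈ I → g = 0)
    (D : ℕ) : (D + k).choose k ≤ hI I D := by
  have h1 : finrank ℂ (restrictTotalDegree (Fin k) ℂ D) ≤ hI I D := by
    apply ph_finrank_le_hI I D
      ((aeval t : MvPolynomial (Fin k) ℂ →ₐ[ℂ] MvPolynomial ι ℂ).toLinearMap.comp
        (Submodule.subtype _))
    · intro a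
      exact (ph_totalDegree_aeval_le t ht _).trans ((mem_restrictTotalDegree _ _ _).mp a.2)
    · intro a ha
      exact Subtype.ext (hinj a.1 ha)
  rw [rk_finrank_restrict, Fintype.card_fin, add_comm k, Nat.choose_symm_add] at h1
  exact h1

theorem ph_choose_le_pow (D k : ℕ) : (D + k).choose k ≤ (D + 1) ^ k := by
  induction k with
  | zero => simp
  | succ k ih =>
    have h1 := Nat.add_one_mul_choose_eq (D + k) k
    have h2 : (k + 1) * (D + (k + 1)).choose (k + 1) ≤ (k + 1) * (D + 1) ^ (k + 1) := by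
      calc (k + 1) * (D + (k + 1)).choose (k + 1) = (D + k + 1) * (D + k).choose k := by
            rw [h1, mul_comm]; rfl
        _ ≤ (D + k + 1) * (D + 1) ^ k := Nat.mul_le_mul_left _ ih
        _ ≤ ((k + 1) * (D + 1)) * (D + 1) ^ k := by
            apply Nat.mul_le_mul_right
            nlinarith
        _ = (k + 1) * (D + 1) ^ (k + 1) := by ring
    exact Nat.le_of_mul_le_mul_left h2 (Nat.succ_pos k)

theorem ph_pow_le_choose (D k : ℕ) : (D + 1) ^ k ≤ k.factorial * (D + k).choose k := by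
  rw [← Nat.ascFactorial_eq_factorial_mul_choose]
  exact Nat.pow_succ_le_ascFactorial _ _

omit [Fintype ι] in
theorem ph_vdim_le_of_bound (T : Set (ι → ℂ)) (k C : ℕ) (h2 : ∀ D, hA T D ≤ C * (D + k).choose k) :
    vdim T ≤ k :=
  Nat.sInf_le ⟨C, fun D => (h2 D).trans (Nat.mul_le_mul_left _ (ph_choose_le_pow D k))⟩

omit [Fintype ι] in
theorem ph_vdim_eq_of_bounds (T : Set (ι → ℂ)) (k C : ℕ) (h1 : ∀ D, (D + k).choose k ≤ hA T D)
    (h2 : ∀ D, hA T D ≤ C * (D + k).choose k) : vdim T = k := by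
  apply le_antisymm (ph_vdim_le_of_bound T k C h2)
  have hne : {j | ∃ C : ℕ, ∀ D, hA T D ≤ C * (D + 1) ^ j}.Nonempty :=
    ⟨k, C, fun D => (h2 D).trans (Nat.mul_le_mul_left _ (ph_choose_le_pow D k))⟩
  obtain ⟨C', hC'⟩ := Nat.sInf_mem hne
  change ∀ D, hA T D ≤ C' * (D + 1) ^ vdim T at hC'
  by_contra hlt
  rw [not_le] at hlt
  set j := vdim T with hj
  obtain ⟨i, rfl⟩ : ∃ i, k = j + (i + 1) := ⟨k - j - 1, by omega⟩
  set D := (j + (i + 1)).factorial * C' with hD
  have h3 : (D + 1) ^ (j + (i + 1)) ≤ (j + (i + 1)).factorial * (C' * (D + 1) ^ j) :=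
    (ph_pow_le_choose D _).trans (Nat.mul_le_mul_left _ ((h1 D).trans (hC' D)))
  have h4 : (D + 1) ^ j * (D + 1) ≤ (D + 1) ^ (j + (i + 1)) := by
    rw [← pow_succ]
    exact Nat.pow_le_pow_right (Nat.succ_pos D) (by omega)
  have h5 : (D + 1) ^ j * (D + 1) ≤ (D + 1) ^ j * D := by
    calc (D + 1) ^ j * (D + 1) ≤ (j + (i + 1)).factorial * (C' * (D + 1) ^ j) := h4.trans h3
      _ = (D + 1) ^ j * D := by rw [hD]; ring
  have h6 := Nat.le_of_mul_le_mul_left h5 (Nat.pow_pos (Nat.succ_pos D))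
  omega

theorem ph_vdim_of_npos {k : ℕ} (p : Ideal (MvPolynomial ι ℂ)) (hp : p.IsPrime)
    (t : Fin k → MvPolynomial ι ℂ) (h : NPos p t) : vdim (zeroLocus ℂ p) = k := by
  obtain ⟨C, hC⟩ := ph_hI_le_of_filtfin p t h.fin
  apply ph_vdim_eq_of_bounds _ k C
  · intro D
    rw [ph_hA_zeroLocus_prime p hp]
    exact ph_hI_ge_of_inj p t h.lin h.inj D
  · intro D
    rw [ph_hA_zeroLocus_prime p hp]
    exact hC D

/-- (N2) and the right dimension imply (N1) -/
theorem ph_inj_of_filtfin_of_vdim {k : ℕ} (p : Ideal (MvPolynomial ι ℂ)) (hp : p.IsPrime)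
    (t : Fin k → MvPolynomial ι ℂ) (ht : ∀ i, (t i).totalDegree ≤ 1) (hf : FiltFin p t)
    (hk : vdim (zeroLocus ℂ p) = k) : ∀ g : MvPolynomial (Fin k) ℂ, aeval t g ∈ p → g = 0 := by
  intro g hg
  by_contra hne
  cases k with
  | zero =>
    rw [eq_C_of_isEmpty g] at hg hne
    rw [aeval_C, algebraMap_eq] at hg
    have hc : coeff 0 g ≠ 0 := fun h => hne (by rw [h, C_0])
    apply hp.ne_top
    rw [Ideal.eq_top_iff_one]
    have := p.mul_mem_left (C (coeff 0 g)⁻¹) hg
    rwa [← C_mul, inv_mul_cancel₀ hc, C_1] at this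
  | succ k =>
    obtain ⟨t', _, hf'⟩ := ph_filtfin_step p t ht hf g hne hg
    obtain ⟨C, hC⟩ := ph_hI_le_of_filtfin p t' hf'
    have := ph_vdim_le_of_bound (zeroLocus ℂ p) k C fun D => by
      rw [ph_hA_zeroLocus_prime p hp]; exact hC D
    omega

theorem ph_npos_family (𝒱 : Finset (Ideal (MvPolynomial ι ℂ))) (hpr : ∀ p ∈ 𝒱, p.IsPrime) (k : ℕ)
    (hk : ∀ p ∈ 𝒱, vdim (zeroLocus ℂ p) = k) :
    ∃ t : Fin k → MvPolynomial ι ℂ, (∀ i, (t i).totalDegree ≤ 1) ∧ ∀ p ∈ 𝒱, NPos p t := by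
  classical
  rcases 𝒱.eq_empty_or_nonempty with rfl | ⟨p₁, hp₁⟩
  · exact ⟨fun _ => 0, fun _ => by simp, fun p hp => absurd hp (Finset.notMem_empty p)⟩
  set I := 𝒱.inf id with hI
  have hIle : ∀ p ∈ 𝒱, I ≤ p := fun p hp => Finset.inf_le (f := id) hp
  have hItop : I ≠ ⊤ := fun h => (hpr p₁ hp₁).ne_top (top_le_iff.mp (h ▸ hIle p₁ hp₁))
  obtain ⟨k', t', _, hn⟩ := ph_exists_npos I hItop
  have hff : ∀ p ∈ 𝒱, FiltFin p t' := fun p hp => ph_filtfin_mono (hIle p hp) hn.fin
  have hex : ∃ p₀ ∈ 𝒱, ∀ g : MvPolynomial (Fin k') ℂ, aeval t' g ∈ p₀ → g = 0 := by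
    by_contra hcon
    have h1 : ∀ p : Ideal (MvPolynomial ι ℂ), ∃ g : MvPolynomial (Fin k') ℂ,
        g ≠ 0 ∧ (p ∈ 𝒱 → aeval t' g ∈ p) := by
      intro p
      by_cases hp : p ∈ 𝒱
      · by_contra h2
        exact hcon ⟨p, hp, fun g hg => by_contra fun hne => h2 ⟨g, hne, fun _ => hg⟩⟩
      · exact ⟨1, one_ne_zero, fun h => absurd h hp⟩
    choose g hg0 hg using h1
    have h2 : ∏ p ∈ 𝒱, g p ≠ 0 := Finset.prod_ne_zero_iff.mpr fun p _ => hg0 p
    apply h2
    apply hn.inj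
    rw [hI, Submodule.mem_finsetInf]
    intro p hp
    rw [map_prod]
    exact Ideal.prod_mem p hp (hg p hp)
  obtain ⟨p₀, hp₀, hinj₀⟩ := hex
  have hk' : k' = k := by
    rw [← hk p₀ hp₀]
    exact (ph_vdim_of_npos p₀ (hpr p₀ hp₀) t' ⟨hn.lin, hinj₀, hff p₀ hp₀⟩).symm
  subst hk'
  exact ⟨t', hn.lin, fun p hp => ⟨hn.lin,
    ph_inj_of_filtfin_of_vdim p (hpr p hp) t' hn.lin (hff p hp) (hk p hp), hff p hp⟩⟩

end Claimed.Agent.R273
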