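-- KEEP
import Claimed.Agent.R273.PhNN
import Claimed.Agent.R273.PhInt

/-!
# Row 273, POLY-A 7: SHEETS (the geometric generic fibre).  Architect helper94.

`A = MvPolynomial (Fin k) ℂ`, `K = FractionRing A`, `F = GenF k = AlgebraicClosure K`, `gpt k = (T_1..T_k) ∈ F^k`, `sheets p t = {ζ ∈ F^ι : p(ζ) = 0, t(ζ) = T}` (PhDefs).
Throughout `p` is prime and `NPos p t`.  `B := P ⧸ p` is a domain, an `A`-algebra through `aeval t` (injective by (N1)), and a finite `A`-module by (N2).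

LEAF PH-sh-a (`ph_gpt_algInd`, `ph_aeval_gpt`, `ph_alg_rel`, `ph_sheets_ker`, `ph_sheets_disjoint`, `ph_exists_basis`).
  * `ph_aeval_gpt`: `aeval (gpt k) g = algebraMap A F g` (`MvPolynomial.algHom_ext`/induction); injective (`FaithfulSMul`/`IsFractionRing.injective`, field hom) ⇒ `ph_gpt_algInd`.
  * `ph_alg_rel`: every `f ∉ p` satisfies `∑_{j ≤ r} c_j(t) f^j ∈ p` with `c_0 ≠ 0`.  The `M + 1` elements `1, f, .., f^M` are `A`-linearly dependent modulo `p` because `B` is generated by `M` elements `b_j`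
    (make `B` an `A`-module by `Module.compHom`; `linearIndependent_le_span`/rank ≤ number of generators over a domain; or: solve a homogeneous linear system over `K`).  Divide a shortest relation by `f` (`p` prime, `f ∉ p`).
  * `ph_sheets_ker`: `⇐` definition.  `⇒`: if `f(ζ) = 0`, `f ∉ p`, evaluate the relation at `ζ`: `aeval ζ (aeval t c) = aeval (gpt k) c` (as `t(ζ) = T`), so `c_0(T) = 0`, `c_0 = 0`.
  * `ph_sheets_disjoint`: a common sheet gives `p = p'` by `ph_sheets_ker`.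
  * `ph_exists_basis`: independent families have at most `M` members; take one of maximal size `m`; `SpanMod`: for `f`, the family `(e, f)` is dependent, and the coefficient of `f` is `≠ 0`.
LEAF PH-sh-b (`ph_sheets_finite`, `ph_indep_le_sheets`).  `L := FractionRing B`, `Algebra K L`, finite-dimensional, separable (char 0).  `(L →ₐ[K] F) ≃ sheets p t`, `φ ↦ (φ (x_i))_i`; inverse: `aeval ζ` kills `p`, is injective on `B` (`ph_sheets_ker`),
  extends to `L` (`IsFractionRing.lift`), is `K`-linear because `t(ζ) = T`.  `Fintype.card (L →ₐ[K] F) = finrank K L` (`AlgHom.card`, `IsAlgClosed`, `Algebra.IsSeparable` in char 0).  `IndepMod p t e` ⇒ the classes of `e_i` are `K`-linearly independent in `L` (clear denominators) ⇒ `m ≤ finrank K L`.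
LEAF PH-sh-c (`ph_sheet_iso`).  `p ∈ (span G).minimalPrimes`, `ζ ∈ sheets p t`.  (1) `∃ h ∉ p, ∀ f ∈ p, h f ∈ radical (span G)`: `radical = ⋂ minimal primes` (`Ideal.sInf_minimalPrimes`, finite set `Ideal.finite_minimalPrimes_of_isNoetherianRing`), `h := ∏` of elements `h_𝔮 ∈ 𝔮 \ p` over the other minimal primes `𝔮` (`𝔮 ≤ p` is impossible by minimality).
  (2) for each variable `x_l`: a relation `μ_l := ∑ c_j(t) x_l^j ∈ p`, not all `c_j = 0` (`ph_alg_rel`-type dependence of `1, x_l, ..`).  The one-variable polynomial `μ̂_l := ∑ c_j(T) X^j ∈ F[X]` is `≠ 0` and has the root `ζ_l`: `μ̂_l = (X - ζ_l)^{e_l} ν_l`, `ν_l(ζ_l) ≠ 0`, `e_l ≥ 1` (`Polynomial.rootMultiplicity`, `Polynomial.exists_eq_pow_rootMultiplicity_mul_and_not_dvd`).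
  (3) Let `J := span (G_F)`, `G_F` the system of the statement.  `map(t_i) - C T_i ∈ J`, hence `map (aeval t c) - C (c(T)) ∈ J` for all `c ∈ A`, hence `map μ_l ≡ μ̂_l(x_l)` mod `J`.  `(h μ_l)^N ∈ span G` ⇒ `(map h)^N μ̂_l(x_l)^N ∈ J` (`a ≡ b`, `a^N ∈ J` ⇒ `b^N ∈ J`).
  (4) `u := ∏_l ((map h) ν_l(x_l))^{N}` with a common `N`, exponent `N' := N max e_l`; `eval ζ (map h) = aeval ζ h ≠ 0` by `ph_sheets_ker`.
-/

set_option autoImplicit false

namespace Claimed.Agent.R273

open MvPolynomial Module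

variable {ι : Type*} [Fintype ι]

theorem ph_aeval_gpt (k : ℕ) (g : MvPolynomial (Fin k) ℂ) :
    aeval (gpt k) g = algebraMap (MvPolynomial (Fin k) ℂ) (GenF k) g := by
  have : (aeval (gpt k) : MvPolynomial (Fin k) ℂ →ₐ[ℂ] GenF k)
      = IsScalarTower.toAlgHom ℂ (MvPolynomial (Fin k) ℂ) (GenF k) := by
    apply MvPolynomial.algHom_ext
    intro i
    simp [gpt]
  exact congrArg (fun φ : MvPolynomial (Fin k) ℂ →ₐ[ℂ] GenF k => φ g) this

theorem ph_gpt_algInd (k : ℕ) : AlgebraicIndependent ℂ (gpt k) := by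
  intro a b hab
  rw [ph_aeval_gpt, ph_aeval_gpt] at hab
  rw [IsScalarTower.algebraMap_apply (MvPolynomial (Fin k) ℂ)
      (FractionRing (MvPolynomial (Fin k) ℂ)) (GenF k),
    IsScalarTower.algebraMap_apply (MvPolynomial (Fin k) ℂ)
      (FractionRing (MvPolynomial (Fin k) ℂ)) (GenF k)] at hab
  exact IsFractionRing.injective (MvPolynomial (Fin k) ℂ) (FractionRing (MvPolynomial (Fin k) ℂ))
    ((algebraMap (FractionRing (MvPolynomial (Fin k) ℂ)) (GenF k)).injective hab)

omit [Fintype ι] in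
/-- more than `M` elements are dependent over `ℂ[t]` modulo `p` -/
theorem ph_dep {k : ℕ} (p : Ideal (MvPolynomial ι ℂ)) (t : Fin k → MvPolynomial ι ℂ)
    (M : ℕ) (b : Fin M → MvPolynomial ι ℂ)
    (hb : ∀ f : MvPolynomial ι ℂ, ∃ a : Fin M → MvPolynomial (Fin k) ℂ,
      f - ∑ j, aeval t (a j) * b j ∈ p)
    {m : ℕ} (hm : M < m) (e : Fin m → MvPolynomial ι ℂ) :
    ∃ a : Fin m → MvPolynomial (Fin k) ℂ, ∑ i, aeval t (a i) * e i ∈ p ∧ ∃ i, a i ≠ 0 := by
  choose c hc using fun i => hb (e i)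
  have hnl : ¬ LinearIndependent (MvPolynomial (Fin k) ℂ) c := by
    intro hli
    have := hli.fintype_card_le_finrank
    rw [Fintype.card_fin, Module.finrank_fin_fun] at this
    omega
  obtain ⟨a, ha, hne⟩ := Fintype.not_linearIndependent_iff.mp hnl
  refine ⟨a, ?_, hne⟩
  have h1 : ∑ i, aeval t (a i) * e i
      = ∑ i, aeval t (a i) * (e i - ∑ j, aeval t (c i j) * b j)
        + ∑ j, aeval t (∑ i, a i * c i j) * b j := by
    simp only [mul_sub, Finset.sum_sub_distrib, map_sum, map_mul, Finset.sum_mul, Finset.mul_sum]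
    rw [Finset.sum_comm (s := (Finset.univ : Finset (Fin M)))]
    have : ∀ i : Fin m, ∀ j : Fin M, aeval t (a i) * (aeval t (c i j) * b j)
        = aeval t (a i) * aeval t (c i j) * b j := fun i j => by ring
    simp only [this]
    ring
  rw [h1]
  refine p.add_mem (p.sum_mem fun i _ => p.mul_mem_left _ (hc i)) ?_
  have h2 : ∀ j, ∑ i, a i * c i j = 0 := by
    intro j
    have := congrFun ha j
    simpa [Finset.sum_apply] using this
  simp [h2]

theorem ph_alg_rel {k : ℕ} (p : Ideal (MvPolynomial ι ℂ)) (hp : p.IsPrime)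
    (t : Fin k → MvPolynomial ι ℂ) (ht : NPos p t) (f : MvPolynomial ι ℂ) (hf : f ∉ p) :
    ∃ (r : ℕ) (c : ℕ → MvPolynomial (Fin k) ℂ), c 0 ≠ 0 ∧
      ∑ j ∈ Finset.range (r + 1), aeval t (c j) * f ^ j ∈ p := by
  classical
  obtain ⟨M, b, hb⟩ := ht.fin
  obtain ⟨a, ha, i₁, hi₁⟩ := ph_dep p t M b (fun f => let ⟨a, _, h⟩ := hb f; ⟨a, h⟩)
    (Nat.lt_succ_self M) fun i : Fin (M + 1) => f ^ (i : ℕ)
  set a' : ℕ → MvPolynomial (Fin k) ℂ := fun n => if h : n < M + 1 then a ⟨n, h⟩ else 0 with ha'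
  have hsum : ∑ n ∈ Finset.range (M + 1), aeval t (a' n) * f ^ n ∈ p := by
    rw [Finset.sum_range]
    have : ∀ i : Fin (M + 1), a' (i : ℕ) = a i := fun i => by
      simp only [ha']
      rw [dif_pos i.2]
    simp only [this]
    exact ha
  have hex : ∃ n, a' n ≠ 0 := ⟨i₁, by
    simp only [ha']
    rw [dif_pos i₁.2]
    exact hi₁⟩
  set i₀ := Nat.find hex with hi₀
  have h0 : a' i₀ ≠ 0 := Nat.find_spec hex
  have hlt : ∀ n < i₀, a' n = 0 := fun n hn => by_contra fun h => Nat.find_min hex hn h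
  have hi₀M : i₀ < M + 1 := by
    by_contra hcon
    apply h0
    simp only [ha']
    rw [dif_neg hcon]
  refine ⟨M - i₀, fun j => a' (i₀ + j), h0, ?_⟩
  have e1 : M + 1 = i₀ + (M - i₀ + 1) := by omega
  rw [e1, Finset.sum_range_add, Finset.sum_eq_zero (fun n hn => by
    rw [hlt n (Finset.mem_range.mp hn), map_zero, zero_mul]), zero_add] at hsum
  have e2 : ∑ x ∈ Finset.range (M - i₀ + 1), aeval t (a' (i₀ + x)) * f ^ (i₀ + x)
      = f ^ i₀ * ∑ x ∈ Finset.range (M - i₀ + 1), aeval t (a' (i₀ + x)) * f ^ x := by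
    rw [Finset.mul_sum]
    refine Finset.sum_congr rfl fun x _ => ?_
    rw [pow_add]; ring
  rw [e2] at hsum
  rcases hp.mem_or_mem hsum with h | h
  · exact absurd (hp.mem_of_pow_mem _ h) hf
  · exact h

theorem ph_aeval_sheet {k : ℕ} {p : Ideal (MvPolynomial ι ℂ)} {t : Fin k → MvPolynomial ι ℂ}
    {ζ : ι → GenF k} (hζ : ζ ∈ sheets p t) (c : MvPolynomial (Fin k) ℂ) :
    aeval ζ (aeval t c) = aeval (gpt k) c := by
  rw [comp_aeval_apply]
  congr 2
  funext i
  exact hζ.2 i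

theorem ph_sheets_ker {k : ℕ} (p : Ideal (MvPolynomial ι ℂ)) (hp : p.IsPrime)
    (t : Fin k → MvPolynomial ι ℂ) (ht : NPos p t) (ζ : ι → GenF k) (hζ : ζ ∈ sheets p t)
    (f : MvPolynomial ι ℂ) : aeval ζ f = 0 ↔ f ∈ p := by
  constructor
  · intro h0
    by_contra hf
    obtain ⟨r, c, hc0, hrel⟩ := ph_alg_rel p hp t ht f hf
    have h1 := (mem_zeroLocus_iff.mp hζ.1) _ hrel
    rw [map_sum, Finset.sum_range_succ'] at h1
    simp only [map_mul, map_pow, h0, pow_succ, mul_zero, Finset.sum_const_zero, pow_zero, mul_one,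
      zero_add] at h1
    rw [ph_aeval_sheet hζ] at h1
    exact hc0 ((injective_iff_map_eq_zero _).mp (ph_gpt_algInd k) _ h1)
  · intro hf
    exact (mem_zeroLocus_iff.mp hζ.1) f hf

theorem ph_sheets_disjoint {k : ℕ} (p p' : Ideal (MvPolynomial ι ℂ)) (hp : p.IsPrime)
    (hp' : p'.IsPrime) (t : Fin k → MvPolynomial ι ℂ) (ht : NPos p t) (ht' : NPos p' t)
    (hne : p ≠ p') : Disjoint (sheets p t) (sheets p' t) := by
  rw [Set.disjoint_left]
  intro ζ h1 h2
  apply hne
  ext f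
  rw [← ph_sheets_ker p hp t ht ζ h1, ← ph_sheets_ker p' hp' t ht' ζ h2]

theorem ph_exists_basis {k : ℕ} (p : Ideal (MvPolynomial ι ℂ)) (hp : p.IsPrime)
    (t : Fin k → MvPolynomial ι ℂ) (ht : NPos p t) :
    ∃ (m : ℕ) (e : Fin m → MvPolynomial ι ℂ), IndepMod p t e ∧ SpanMod p t e := by
  classical
  obtain ⟨M, b, hb⟩ := ht.fin
  set S : Set ℕ := {m | ∃ e : Fin m → MvPolynomial ι ℂ, IndepMod p t e} with hS
  have hbdd : BddAbove S := by
    refine ⟨M, ?_⟩
    rintro m ⟨e, he⟩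
    by_contra hlt
    obtain ⟨a, ha, i, hi⟩ := ph_dep p t M b (fun f => let ⟨a, _, h⟩ := hb f; ⟨a, h⟩)
      (not_le.mp hlt) e
    exact hi (he a ha i)
  have hne : S.Nonempty := ⟨0, Fin.elim0, fun _ _ i => i.elim0⟩
  obtain ⟨e, he⟩ := Nat.sSup_mem hne hbdd
  refine ⟨sSup S, e, he, fun f => ?_⟩
  have hnot : sSup S + 1 ∉ S := fun h => by
    have := le_csSup hbdd h
    omega
  have h1 : ¬ IndepMod p t (Fin.snoc e f : Fin (sSup S + 1) → MvPolynomial ι ℂ) :=
    fun h => hnot ⟨_, h⟩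
  have h2 : ∃ a : Fin (sSup S + 1) → MvPolynomial (Fin k) ℂ,
      ∑ i, aeval t (a i) * (Fin.snoc e f : Fin (sSup S + 1) → MvPolynomial ι ℂ) i ∈ p ∧
        ∃ i, a i ≠ 0 := by
    by_contra hcon
    exact h1 fun a ha i => by_contra fun hi => hcon ⟨a, ha, i, hi⟩
  obtain ⟨a, ha, i, hi⟩ := h2
  rw [Fin.sum_univ_castSucc] at ha
  simp only [Fin.snoc_castSucc, Fin.snoc_last] at ha
  have hlast : a (Fin.last _) ≠ 0 := by
    intro h0
    rw [h0, map_zero, zero_mul, add_zero] at ha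
    have h3 := he (fun i => a i.castSucc) ha
    refine Fin.lastCases ?_ (fun j => ?_) i hi
    · intro h; exact h h0
    · intro h; exact h (h3 j)
  refine ⟨a (Fin.last _), fun i => - a i.castSucc, hlast, ?_⟩
  have : aeval t (a (Fin.last _)) * f - ∑ i, aeval t (-a i.castSucc) * e i
      = ∑ i : Fin (sSup S), aeval t (a i.castSucc) * e i + aeval t (a (Fin.last _)) * f := by
    simp only [map_neg, neg_mul, Finset.sum_neg_distrib]
    ring
  rw [this]
  exact ha

theorem ph_lift_aux {A B F : Type*} [CommRing A] [IsDomain A] [CommRing B] [IsDomain B] [Field F]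
    [IsAlgClosed F] [Algebra A F] [IsTorsionFree A F] (g : A →+* B) (hinj : Function.Injective g)
    (halg : ∀ y : B, ∃ q : Polynomial A, q ≠ 0 ∧ q.eval₂ g y = 0) :
    ∃ φ : B →+* F, ∀ a, φ (g a) = algebraMap A F a := by
  letI : Algebra A B := g.toAlgebra
  haveI : IsTorsionFree A B := isTorsionFree_iff_algebraMap_injective.mpr hinj
  haveI : Algebra.IsAlgebraic A B := ⟨fun y => by
    obtain ⟨q, hq, h0⟩ := halg y
    exact ⟨q, hq, h0⟩⟩
  let φ : B →ₐ[A] F := IsAlgClosed.lift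
  exact ⟨φ.toRingHom, fun a => φ.commutes a⟩


/-- every polynomial function takes, on all sheets, values in the roots of one nonzero polynomial -/
theorem ph_sheet_root {k : ℕ} (p : Ideal (MvPolynomial ι ℂ))
    (t : Fin k → MvPolynomial ι ℂ) (ht : NPos p t) (f : MvPolynomial ι ℂ) :
    ∃ q : Polynomial (MvPolynomial (Fin k) ℂ), q ≠ 0 ∧
      q.eval₂ (aeval t : MvPolynomial (Fin k) ℂ →ₐ[ℂ] MvPolynomial ι ℂ).toRingHom f ∈ p := by
  classical
  obtain ⟨M, b, hb⟩ := ht.fin
  obtain ⟨a, ha, i₁, hi₁⟩ := ph_dep p t M b (fun f => let ⟨a, _, h⟩ := hb f; ⟨a, h⟩)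
    (Nat.lt_succ_self M) fun i : Fin (M + 1) => f ^ (i : ℕ)
  refine ⟨∑ i, Polynomial.C (a i) * Polynomial.X ^ (i : ℕ), ?_, ?_⟩
  · intro h0
    have h1 := congrArg (fun q => Polynomial.coeff q (i₁ : ℕ)) h0
    simp only [Polynomial.finsetSum_coeff, Polynomial.coeff_C_mul, Polynomial.coeff_X_pow,
      Polynomial.coeff_zero] at h1
    rw [Finset.sum_eq_single i₁] at h1
    · simp only [if_true, mul_one] at h1
      exact hi₁ h1
    · intro j _ hj
      rw [if_neg, mul_zero]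
      intro h
      exact hj (Fin.ext h.symm)
    · intro h; exact absurd (Finset.mem_univ _) h
  · rw [Polynomial.eval₂_finsetSum]
    simp only [Polynomial.eval₂_mul, Polynomial.eval₂_C, Polynomial.eval₂_pow, Polynomial.eval₂_X]
    exact ha

theorem ph_sheet_root' {k : ℕ} {p : Ideal (MvPolynomial ι ℂ)}
    {t : Fin k → MvPolynomial ι ℂ} {f : MvPolynomial ι ℂ}
    {q : Polynomial (MvPolynomial (Fin k) ℂ)}
    (hq : q.eval₂ (aeval t : MvPolynomial (Fin k) ℂ →ₐ[ℂ] MvPolynomial ι ℂ).toRingHom f ∈ p)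
    {ζ : ι → GenF k} (hζ : ζ ∈ sheets p t) :
    (q.map (algebraMap (MvPolynomial (Fin k) ℂ) (GenF k))).eval (aeval ζ f) = 0 := by
  have h1 := (mem_zeroLocus_iff.mp hζ.1) _ hq
  rw [Polynomial.eval_map]
  rw [← h1]
  have := Polynomial.hom_eval₂ q (aeval t : MvPolynomial (Fin k) ℂ →ₐ[ℂ] MvPolynomial ι ℂ).toRingHom
    (aeval ζ : MvPolynomial ι ℂ →ₐ[ℂ] GenF k).toRingHom f
  refine Eq.trans ?_ this.symm
  congr 1
  refine RingHom.ext fun c => ?_
  rw [← ph_aeval_gpt, ← ph_aeval_sheet hζ]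
  rfl

theorem ph_algebraMap_genF_injective (k : ℕ) :
    Function.Injective (algebraMap (MvPolynomial (Fin k) ℂ) (GenF k)) := by
  intro a b hab
  rw [← ph_aeval_gpt, ← ph_aeval_gpt] at hab
  exact ph_gpt_algInd k hab

theorem ph_sheets_finite {k : ℕ} (p : Ideal (MvPolynomial ι ℂ)) (_hp : p.IsPrime)
    (t : Fin k → MvPolynomial ι ℂ) (ht : NPos p t) : (sheets p t).Finite := by
  classical
  choose q hq hroot using fun l : ι => ph_sheet_root p t ht (X l)
  have hfin : {ζ : ι → GenF k | ∀ l, ζ l ∈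
      {z | ((q l).map (algebraMap (MvPolynomial (Fin k) ℂ) (GenF k))).IsRoot z}}.Finite :=
    Set.Finite.pi' fun l => Polynomial.finite_setOfPred_isRoot
      ((Polynomial.map_ne_zero_iff (ph_algebraMap_genF_injective k)).mpr (hq l))
  refine hfin.subset fun ζ hζ l => ?_
  have := ph_sheet_root' (hroot l) hζ
  rw [aeval_X] at this
  exact this

theorem ph_sheets_nonempty {k : ℕ} (p : Ideal (MvPolynomial ι ℂ)) (hp : p.IsPrime)
    (t : Fin k → MvPolynomial ι ℂ) (ht : NPos p t) : (sheets p t).Nonempty := by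
  classical
  haveI : IsDomain (MvPolynomial ι ℂ ⧸ p) := Ideal.Quotient.isDomain p
  haveI : IsTorsionFree (MvPolynomial (Fin k) ℂ) (GenF k) :=
    isTorsionFree_iff_algebraMap_injective.mpr (ph_algebraMap_genF_injective k)
  obtain ⟨φ, hφ⟩ := ph_lift_aux (F := GenF k) ((Ideal.Quotient.mk p).comp
      (aeval t : MvPolynomial (Fin k) ℂ →ₐ[ℂ] MvPolynomial ι ℂ).toRingHom) (by
    rw [injective_iff_map_eq_zero]
    intro a ha
    exact ht.inj a (Ideal.Quotient.eq_zero_iff_mem.mp ha)) (by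
    intro y
    obtain ⟨f, rfl⟩ := Ideal.Quotient.mk_surjective y
    obtain ⟨q, hq, h0⟩ := ph_sheet_root p t ht f
    refine ⟨q, hq, ?_⟩
    rw [← Polynomial.hom_eval₂]
    exact Ideal.Quotient.eq_zero_iff_mem.mpr h0)
  -- the point
  have hC : ∀ c : ℂ, φ (Ideal.Quotient.mk p (C c)) = algebraMap ℂ (GenF k) c := by
    intro c
    have := hφ (C c)
    simp only [RingHom.comp_apply, AlgHom.toRingHom_eq_coe, RingHom.coe_coe, algHom_C] at this
    rw [MvPolynomial.algebraMap_eq] at this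
    rw [this]
    rw [← MvPolynomial.algebraMap_eq, ← IsScalarTower.algebraMap_apply]
  have key : ∀ f : MvPolynomial ι ℂ,
      aeval (fun i => φ (Ideal.Quotient.mk p (X i))) f = φ (Ideal.Quotient.mk p f) := by
    intro f
    induction f using MvPolynomial.induction_on with
    | C c => rw [aeval_C, hC]
    | add f g hf hg => rw [map_add, map_add, map_add, hf, hg]
    | mul_X f i hf => rw [map_mul, map_mul, map_mul, hf, aeval_X]
  refine ⟨fun i => φ (Ideal.Quotient.mk p (X i)), ?_, ?_⟩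
  · rw [mem_zeroLocus_iff]
    intro f hf
    rw [key, Ideal.Quotient.eq_zero_iff_mem.mpr hf, map_zero]
  · intro i
    rw [key]
    have := hφ (X i)
    simp only [RingHom.comp_apply, AlgHom.toRingHom_eq_coe, RingHom.coe_coe, aeval_X] at this
    rw [this]; rfl

/-- the number of sheets is at least the rank (separability in characteristic zero) -/
theorem ph_indep_le_sheets {k m : ℕ} (p : Ideal (MvPolynomial ι ℂ)) (hp : p.IsPrime)
    (t : Fin k → MvPolynomial ι ℂ) (ht : NPos p t) (e : Fin m → MvPolynomial ι ℂ)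
    (hi : IndepMod p t e) : m ≤ (sheets p t).ncard := by
  classical
  obtain ⟨ζ, hζ⟩ := ph_sheets_nonempty p hp t ht
  set A := MvPolynomial (Fin k) ℂ with hA
  set K := FractionRing A with hK
  set E := IntermediateField.adjoin K (Set.range ζ) with hE
  haveI : FiniteDimensional K E :=
    IntermediateField.finiteDimensional_adjoin fun x _ => Algebra.IsIntegral.isIntegral x
  have hmem : ∀ f : MvPolynomial ι ℂ, aeval ζ f ∈ E := by
    intro f
    induction f using MvPolynomial.induction_on with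
    | C c =>
      rw [aeval_C, IsScalarTower.algebraMap_apply ℂ K (GenF k)]
      exact E.algebraMap_mem _
    | add f g hf hg => rw [map_add]; exact E.add_mem hf hg
    | mul_X f i hf =>
      rw [map_mul, aeval_X]
      exact E.mul_mem hf (IntermediateField.subset_adjoin _ _ ⟨i, rfl⟩)
  -- lower bound for the degree
  have hliA : LinearIndependent A (fun i => aeval ζ (e i)) := by
    rw [Fintype.linearIndependent_iff]
    intro a ha
    apply hi a
    rw [← ph_sheets_ker p hp t ht ζ hζ, map_sum, ← ha]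
    refine Finset.sum_congr rfl fun i _ => ?_
    rw [map_mul, ph_aeval_sheet hζ, ph_aeval_gpt, Algebra.smul_def]
  have hliK : LinearIndependent K (fun i => aeval ζ (e i)) :=
    (LinearIndependent.iff_fractionRing A K).mp hliA
  have h1 : m ≤ finrank K E := by
    have h2 := finrank_span_eq_card hliK
    rw [Fintype.card_fin] at h2
    rw [← h2]
    have : Submodule.span K (Set.range fun i => aeval ζ (e i)) ≤ E.toSubalgebra.toSubmodule := by
      rw [Submodule.span_le]
      rintro _ ⟨i, rfl⟩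
      exact hmem _
    exact Submodule.finrank_mono this
  have h3 : Fintype.card (E →ₐ[K] GenF k) = finrank K E := AlgHom.card K E (GenF k)
  set ζE : ι → E := fun i => ⟨ζ i, IntermediateField.subset_adjoin _ _ ⟨i, rfl⟩⟩ with hζE
  have hval : ∀ f : MvPolynomial ι ℂ, ((aeval ζE f : E) : GenF k) = aeval ζ f := by
    intro f
    have := comp_aeval_apply (f := ζE) ((E.val).restrictScalars ℂ) f
    exact this
  set Φ : (E →ₐ[K] GenF k) → (ι → GenF k) := fun σ i => σ (ζE i) with hΦ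
  have hσ : ∀ (σ : E →ₐ[K] GenF k) (f : MvPolynomial ι ℂ), aeval (Φ σ) f = σ (aeval ζE f) := by
    intro σ f
    exact (comp_aeval_apply (f := ζE) (σ.restrictScalars ℂ) f).symm
  have hΦinj : Function.Injective Φ := by
    intro σ σ' h
    apply IntermediateField.adjoin_algHom_ext
    rintro _ ⟨i, rfl⟩
    exact congrFun h i
  have hΦmem : ∀ σ, Φ σ ∈ sheets p t := by
    intro σ
    refine ⟨?_, fun i => ?_⟩
    · rw [mem_zeroLocus_iff]
      intro f hf
      have h0 : aeval ζE f = 0 := by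
        apply Subtype.ext
        rw [hval]
        exact (ph_sheets_ker p hp t ht ζ hζ f).mpr hf
      rw [hσ, h0, map_zero]
    · have h0 : aeval ζE (t i) = algebraMap K E (algebraMap A K (X i)) := by
        apply Subtype.ext
        rw [hval, hζ.2 i]
        rfl
      rw [hσ, h0, σ.commutes]
      rfl
  have h4 : Fintype.card (E →ₐ[K] GenF k) ≤ (sheets p t).ncard := by
    have h5 : (Set.range Φ).ncard = Fintype.card (E →ₐ[K] GenF k) := by
      rw [← Set.image_univ, Set.ncard_image_of_injective _ hΦinj, Set.ncard_univ,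
        Nat.card_eq_fintype_card]
    rw [← h5]
    apply Set.ncard_le_ncard _ (ph_sheets_finite p hp t ht)
    rintro _ ⟨σ, rfl⟩
    exact hΦmem σ
  omega

/-- a multiplier which kills the other minimal primes -/
theorem ph_minprime_mult {R : Type*} [CommRing R] [IsNoetherianRing R] (I p : Ideal R)
    (hp : p ∈ I.minimalPrimes) : ∃ h ∉ p, ∀ f ∈ p, h * f ∈ I.radical := by
  classical
  have hfin : I.minimalPrimes.Finite := Ideal.finite_minimalPrimes_of_isNoetherianRing _ _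
  have hpp : p.IsPrime := hp.1.1
  have hex : ∀ 𝔮 : Ideal R, ∃ w : R, w ∉ p ∧ (𝔮 ∈ I.minimalPrimes → 𝔮 ≠ p → w ∈ 𝔮) := by
    intro 𝔮
    by_cases hq : 𝔮 ∈ I.minimalPrimes ∧ 𝔮 ≠ p
    · have : ¬ 𝔮 ≤ p := fun hle => hq.2 (le_antisymm hle (hp.2 hq.1.1 hle))
      obtain ⟨w, hw, hw'⟩ := SetLike.not_le_iff_exists.mp this
      exact ⟨w, hw', fun _ _ => hw⟩
    · refine ⟨1, fun h => hpp.ne_top ((Ideal.eq_top_iff_one _).mpr h), fun h1 h2 => absurd ⟨h1, h2⟩ hq⟩
  choose w hw0 hw using hex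
  refine ⟨∏ 𝔮 ∈ hfin.toFinset, w 𝔮, ?_, ?_⟩
  · intro h
    obtain ⟨𝔮, _, h𝔮⟩ := (hpp.prod_mem_iff).mp h
    exact hw0 𝔮 h𝔮
  · intro f hf
    rw [← Ideal.sInf_minimalPrimes, Ideal.mem_sInf]
    intro 𝔮 h𝔮
    by_cases hq : 𝔮 = p
    · rw [hq]; exact Ideal.mul_mem_left _ _ hf
    · apply Ideal.mul_mem_right
      exact Ideal.prod_mem 𝔮 (hfin.mem_toFinset.mpr h𝔮) (hw 𝔮 h𝔮 hq)

omit [Fintype ι] in
theorem ph_prime_root {F : Type*} [Field F] (𝔮 : Ideal (MvPolynomial ι F)) (h𝔮 : 𝔮.IsPrime)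
    (ζ : ι → F) (hle : 𝔮 ≤ RingHom.ker (eval ζ)) (l : ι) (μ : Polynomial F) (hμ : μ ≠ 0)
    (hmem : μ.eval₂ C (X l) ∈ 𝔮) : X l - C (ζ l) ∈ 𝔮 := by
  obtain ⟨ν, h1, h2⟩ := Polynomial.exists_eq_pow_rootMultiplicity_mul_and_not_dvd μ hμ (ζ l)
  rw [h1, Polynomial.eval₂_mul, Polynomial.eval₂_pow, Polynomial.eval₂_sub, Polynomial.eval₂_X,
    Polynomial.eval₂_C] at hmem
  rcases h𝔮.mem_or_mem hmem with h | h
  · exact h𝔮.mem_of_pow_mem _ h
  · exfalso
    apply h2
    rw [Polynomial.dvd_iff_isRoot, Polynomial.IsRoot.def]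
    have h3 := hle h
    rw [RingHom.mem_ker, Polynomial.hom_eval₂] at h3
    rw [eval_X] at h3
    have : (eval ζ).comp C = RingHom.id F := by
      ext c; simp
    rw [this] at h3
    simpa [Polynomial.eval₂_id] using h3

/-- the system over `F` whose isolated zeros are the sheets -/
def sheetSys {k : ℕ} (G : Set (MvPolynomial ι ℂ)) (t : Fin k → MvPolynomial ι ℂ) :
    Set (MvPolynomial ι (GenF k)) :=
  (map (algebraMap ℂ (GenF k))) '' G ∪
    Set.range fun i => map (algebraMap ℂ (GenF k)) (t i) - C (gpt k i)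

/-- **the sheets of a component of `Z(G)` are isolated zeros of the system on the generic fibre** -/
theorem ph_sheet_iso {k : ℕ} (G : Set (MvPolynomial ι ℂ)) (p : Ideal (MvPolynomial ι ℂ))
    (hp : p ∈ (Ideal.span G).minimalPrimes) (t : Fin k → MvPolynomial ι ℂ) (ht : NPos p t)
    (ζ : ι → GenF k) (hζ : ζ ∈ sheets p t) : IsoZero (sheetSys G t) ζ := by
  classical
  have hpp : p.IsPrime := hp.1.1
  have hev : ∀ f : MvPolynomial ι ℂ, eval ζ (map (algebraMap ℂ (GenF k)) f) = aeval ζ f := by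
    intro f
    rw [eval_map, aeval_def]
  apply ph_isoZero_of_primes
  · rintro g (⟨g0, hg0, rfl⟩ | ⟨i, rfl⟩)
    · rw [hev]
      exact (ph_sheets_ker p hpp t ht ζ hζ g0).mpr (hp.1.2 (Ideal.subset_span hg0))
    · rw [map_sub, hev, eval_C, hζ.2 i, sub_self]
  · intro 𝔮 h𝔮 hle l
    have h𝔮p : 𝔮.IsPrime := h𝔮.1.1
    have hJ : Ideal.span (sheetSys G t) ≤ 𝔮 := h𝔮.1.2
    obtain ⟨h, hh, hmul⟩ := ph_minprime_mult _ p hp
    have hmapG : ∀ f ∈ Ideal.span G, map (algebraMap ℂ (GenF k)) f ∈ 𝔮 := by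
      intro f hf
      have h1 := Ideal.mem_map_of_mem (map (algebraMap ℂ (GenF k))) hf
      rw [Ideal.map_span] at h1
      exact hJ (Ideal.span_mono Set.subset_union_left h1)
    have hmapp : ∀ f ∈ p, map (algebraMap ℂ (GenF k)) f ∈ 𝔮 := by
      intro f hf
      obtain ⟨N, hN⟩ := hmul f hf
      have h1 := hmapG _ hN
      rw [map_pow, map_mul] at h1
      rcases h𝔮p.mem_or_mem (h𝔮p.mem_of_pow_mem _ h1) with h2 | h2
      · exfalso
        have h3 := hle h2
        rw [RingHom.mem_ker, hev] at h3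
        exact hh ((ph_sheets_ker p hpp t ht ζ hζ h).mp h3)
      · exact h2
    obtain ⟨q, hq, hroot⟩ := ph_sheet_root p t ht (X l)
    apply ph_prime_root 𝔮 h𝔮p ζ hle l (q.map (algebraMap (MvPolynomial (Fin k) ℂ) (GenF k)))
      ((Polynomial.map_ne_zero_iff (ph_algebraMap_genF_injective k)).mpr hq)
    have h1 := hmapp _ hroot
    rw [← Ideal.Quotient.eq_zero_iff_mem] at h1 ⊢
    rw [Polynomial.hom_eval₂, Polynomial.hom_eval₂] at h1
    rw [Polynomial.eval₂_map, Polynomial.hom_eval₂]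
    rw [← h1, map_X]
    congr 1
    apply MvPolynomial.ringHom_ext
    · intro c
      simp only [RingHom.comp_apply, AlgHom.toRingHom_eq_coe, RingHom.coe_coe, algHom_C]
      rw [MvPolynomial.algebraMap_eq, map_C, ← MvPolynomial.algebraMap_eq (R := ℂ) (σ := Fin k),
        ← IsScalarTower.algebraMap_apply]
    · intro i
      simp only [RingHom.comp_apply, AlgHom.toRingHom_eq_coe, RingHom.coe_coe, aeval_X]
      symm
      rw [Ideal.Quotient.eq]
      exact hJ (Ideal.subset_span (Or.inr ⟨i, rfl⟩))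

end Claimed.Agent.R273
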