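-- KEEP
import Claimed.Agent.R273.PhDefs
import Claimed.Agent.R273.RkDim

/-!
# Row 273, POLY-A 4: order of vanishing of a polynomial at a point (elementary).  Architect helper94.  LEAF PH-ord.

`OrdGE z r g`: all terms of degree `< r` of `g(z + X)` vanish ("`g` has order `≥ r` at `z`", `g ∈ 𝔪_z^r`).  `K` any field.
Put `sh z := aeval (fun i => X i + C (z i)) : K[X] →ₐ K[X]` (an automorphism, inverse `sh (-z)`, preserves `totalDegree`).
All statements reduce to `z = 0`, where `OrdGE` says: every monomial of the support has degree `≥ r`.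
* `ph_ord_mul`: `support_mul` (monomials of a product are sums of monomials).
* `ph_ord_cancel`: let `s` be minimal with `homogeneousComponent s g' ≠ 0` (`g' = sh z g`), `s < r`; then `homogeneousComponent s (h' g') = h'(0) * homogeneousComponent s g' ≠ 0`
  (or: take a monomial of `g'` of minimal degree and compute `coeff` of the product by `coeff_mul`, all other antidiagonal terms vanish).
* `ph_ord_eq_zero`: `totalDegree (sh z g) ≤ totalDegree g < r`, so the support is empty; `sh z` is injective.
* `ph_ord_trunc`: `tr g := ∑ m ∈ (sh z g).support with m.degree ≤ D, monomial m (coeff m (sh z g))` as an element of `restrictTotalDegree`.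
* `ph_ord_pderiv`: `pderiv` commutes with `sh z` and lowers the degree of every monomial by one.
-/

set_option autoImplicit false

namespace Claimed.Agent.R273

open MvPolynomial Module

variable {K : Type*} [Field K] {ι : Type*}

/-- `g` vanishes to order at least `r` at `z`. -/
def OrdGE (z : ι → K) (r : ℕ) (g : MvPolynomial ι K) : Prop :=
  ∀ m ∈ (aeval (fun i => X i + C (z i)) g : MvPolynomial ι K).support, r ≤ m.degree

/-- the shift `g ↦ g(z + X)` -/
noncomputable def phSh (z : ι → K) : MvPolynomial ι K →ₐ[K] MvPolynomial ι K :=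
  aeval fun i => X i + C (z i)

theorem ph_phSh_comp (z w : ι → K) (g : MvPolynomial ι K) :
    phSh z (phSh w g) = phSh (z + w) g := by
  have : (phSh z).comp (phSh w) = phSh (z + w) := by
    apply MvPolynomial.algHom_ext
    intro i
    simp [phSh, add_assoc]
  exact congrArg (fun φ : MvPolynomial ι K →ₐ[K] MvPolynomial ι K => φ g) this

theorem ph_phSh_zero (g : MvPolynomial ι K) : phSh (0 : ι → K) g = g := by
  have : phSh (0 : ι → K) = AlgHom.id K _ := by
    apply MvPolynomial.algHom_ext
    intro i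
    simp [phSh]
  exact congrArg (fun φ : MvPolynomial ι K →ₐ[K] MvPolynomial ι K => φ g) this

theorem ph_phSh_neg (z : ι → K) (g : MvPolynomial ι K) : phSh (-z) (phSh z g) = g := by
  rw [ph_phSh_comp, neg_add_cancel, ph_phSh_zero]

theorem ph_phSh_neg' (z : ι → K) (g : MvPolynomial ι K) : phSh z (phSh (-z) g) = g := by
  rw [ph_phSh_comp, add_neg_cancel, ph_phSh_zero]

theorem ph_phSh_injective (z : ι → K) : Function.Injective (phSh z) :=
  Function.LeftInverse.injective (ph_phSh_neg z)

theorem ph_constantCoeff_phSh (z : ι → K) (g : MvPolynomial ι K) :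
    constantCoeff (phSh z g) = eval z g := by
  have : (constantCoeff.comp (phSh z).toRingHom : MvPolynomial ι K →+* K) = eval z := by
    apply MvPolynomial.ringHom_ext
    · intro r; simp [phSh]
    · intro i; simp [phSh]
  exact congrArg (fun φ : MvPolynomial ι K →+* K => φ g) this

theorem ph_totalDegree_phSh_le (z : ι → K) (g : MvPolynomial ι K) :
    (phSh z g).totalDegree ≤ g.totalDegree := by
  rw [phSh, aeval_def, eval₂_eq]
  apply totalDegree_finsetSum_le
  intro m hm
  refine (totalDegree_mul _ _).trans ?_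
  have h1 : (algebraMap K (MvPolynomial ι K) (coeff m g)).totalDegree = 0 := totalDegree_C _
  rw [h1, zero_add]
  refine (totalDegree_finsetProd _ _).trans ?_
  refine le_trans (Finset.sum_le_sum (g := fun i => m i) fun i _ => ?_) (le_totalDegree hm)
  refine (totalDegree_pow _ _).trans ?_
  have : (X i + C (z i) : MvPolynomial ι K).totalDegree ≤ 1 :=
    (totalDegree_add _ _).trans (by simp)
  calc m i * _ ≤ m i * 1 := Nat.mul_le_mul_left _ this
    _ = m i := mul_one _

theorem ph_ord_iff (z : ι → K) (r : ℕ) (g : MvPolynomial ι K) :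
    OrdGE z r g ↔ phSh z g ∈ idealOfVars ι K ^ r :=
  (mem_pow_idealOfVars_iff r _).symm

theorem ph_ord_iff_order (z : ι → K) (r : ℕ) (g : MvPolynomial ι K) :
    OrdGE z r g ↔ (r : ℕ∞) ≤ ((phSh z g : MvPolynomial ι K) : MvPowerSeries ι K).order := by
  constructor
  · intro h
    apply MvPowerSeries.nat_le_order
    intro d hd
    rw [MvPolynomial.coeff_coe]
    by_contra hne
    exact absurd (h d (MvPolynomial.mem_support_iff.mpr hne)) (not_le.mpr hd)
  · intro h m hm
    by_contra hlt
    have : (m.degree : ℕ∞) < ((phSh z g : MvPolynomial ι K) : MvPowerSeries ι K).order :=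
      lt_of_lt_of_le (by exact_mod_cast not_le.mp hlt) h
    have h0 := MvPowerSeries.coeff_of_lt_order this
    rw [MvPolynomial.coeff_coe] at h0
    exact (MvPolynomial.mem_support_iff.mp hm) h0

theorem ph_ord_zero_left (z : ι → K) (g : MvPolynomial ι K) : OrdGE z 0 g := fun _ _ => Nat.zero_le _

theorem ph_ord_zero (z : ι → K) (r : ℕ) : OrdGE z r (0 : MvPolynomial ι K) := by
  rw [ph_ord_iff, map_zero]; exact Ideal.zero_mem _

theorem ph_ord_mono {z : ι → K} {r r' : ℕ} (h : r' ≤ r) {g : MvPolynomial ι K} (hg : OrdGE z r g) :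
    OrdGE z r' g := fun m hm => h.trans (hg m hm)

theorem ph_ord_one_iff (z : ι → K) (g : MvPolynomial ι K) : OrdGE z 1 g ↔ eval z g = 0 := by
  rw [← ph_constantCoeff_phSh, ph_ord_iff, mem_pow_idealOfVars_iff', constantCoeff_eq]
  constructor
  · intro h; exact h 0 (by simp)
  · intro h x hx
    have : x = 0 := by
      rw [Nat.lt_one_iff] at hx
      exact (Finsupp.degree_eq_zero_iff x).mp hx
    rw [this]; exact h

theorem ph_ord_add {z : ι → K} {r : ℕ} {g g' : MvPolynomial ι K} (hg : OrdGE z r g)
    (hg' : OrdGE z r g') : OrdGE z r (g + g') := by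
  rw [ph_ord_iff] at *
  rw [map_add]; exact Ideal.add_mem _ hg hg'

theorem ph_ord_neg {z : ι → K} {r : ℕ} {g : MvPolynomial ι K} (hg : OrdGE z r g) :
    OrdGE z r (-g) := by
  rw [ph_ord_iff] at *
  rw [map_neg]; exact Ideal.neg_mem_iff _ |>.mpr hg

theorem ph_ord_sub {z : ι → K} {r : ℕ} {g g' : MvPolynomial ι K} (hg : OrdGE z r g)
    (hg' : OrdGE z r g') : OrdGE z r (g - g') := by
  rw [ph_ord_iff] at *
  rw [map_sub]; exact Ideal.sub_mem _ hg hg'

theorem ph_ord_sum {α : Type*} (s : Finset α) {z : ι → K} {r : ℕ} (g : α → MvPolynomial ι K)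
    (hg : ∀ a ∈ s, OrdGE z r (g a)) : OrdGE z r (∑ a ∈ s, g a) := by
  rw [ph_ord_iff, map_sum]
  exact Ideal.sum_mem _ fun a ha => (ph_ord_iff _ _ _).mp (hg a ha)

theorem ph_ord_mul {z : ι → K} {r r' : ℕ} {g g' : MvPolynomial ι K} (hg : OrdGE z r g)
    (hg' : OrdGE z r' g') : OrdGE z (r + r') (g * g') := by
  rw [ph_ord_iff] at *
  rw [map_mul, pow_add]; exact Ideal.mul_mem_mul hg hg'

theorem ph_ord_mul_left {z : ι → K} {r : ℕ} (h : MvPolynomial ι K) {g : MvPolynomial ι K}
    (hg : OrdGE z r g) : OrdGE z r (h * g) := by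
  rw [ph_ord_iff] at *
  rw [map_mul]; exact Ideal.mul_mem_left _ _ hg

theorem ph_ord_pow {z : ι → K} {r : ℕ} {g : MvPolynomial ι K} (hg : OrdGE z r g) (j : ℕ) :
    OrdGE z (j * r) (g ^ j) := by
  rw [ph_ord_iff] at *
  rw [map_pow, mul_comm, pow_mul]; exact Ideal.pow_mem_pow hg j

theorem ph_ord_X_sub_C (z : ι → K) (i : ι) : OrdGE z 1 (X i - C (z i) : MvPolynomial ι K) := by
  rw [ph_ord_one_iff]; simp

/-- exact additivity of the order -/
theorem ph_ord_mul_or {z : ι → K} {a b : ℕ} {g g' : MvPolynomial ι K}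
    (h : OrdGE z (a + b) (g * g')) : OrdGE z (a + 1) g ∨ OrdGE z b g' := by
  rw [ph_ord_iff_order, map_mul, MvPolynomial.coe_mul, MvPowerSeries.order_mul] at h
  rw [ph_ord_iff_order, ph_ord_iff_order]
  by_contra hcon
  rw [not_or, not_le, not_le] at hcon
  obtain ⟨h1, h2⟩ := hcon
  set o := ((phSh z g : MvPolynomial ι K) : MvPowerSeries ι K).order
  set o' := ((phSh z g' : MvPolynomial ι K) : MvPowerSeries ι K).order
  obtain ⟨n, hn⟩ := ENat.ne_top_iff_exists.mp (ne_top_of_lt h1)
  obtain ⟨n', hn'⟩ := ENat.ne_top_iff_exists.mp (ne_top_of_lt h2)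
  rw [← hn] at h1 h
  rw [← hn'] at h2 h
  have h1' : n < a + 1 := by exact_mod_cast h1
  have h2' : n' < b := by exact_mod_cast h2
  have h' : a + b ≤ n + n' := by exact_mod_cast h
  omega

/-- a factor which does not vanish at `z` can be cancelled -/
theorem ph_ord_cancel {z : ι → K} {r : ℕ} {h g : MvPolynomial ι K} (hh : eval z h ≠ 0)
    (hg : OrdGE z r (h * g)) : OrdGE z r g := by
  have : OrdGE z (0 + r) (h * g) := by rwa [zero_add]
  rcases ph_ord_mul_or this with h1 | h1
  · exact absurd ((ph_ord_one_iff z h).mp h1) hh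
  · exact h1

/-- order larger than the degree -/
theorem ph_ord_eq_zero {z : ι → K} {r : ℕ} {g : MvPolynomial ι K} (hg : OrdGE z r g)
    (hd : g.totalDegree < r) : g = 0 := by
  apply ph_phSh_injective z
  rw [map_zero]
  by_contra hne
  obtain ⟨m, hm⟩ := (support_nonempty.mpr hne)
  have h1 := hg m hm
  have h2 : m.degree ≤ (phSh z g).totalDegree := le_totalDegree hm
  have h3 := ph_totalDegree_phSh_le z g
  omega

theorem ph_pderiv_phSh (z : ι → K) (j : ι) (g : MvPolynomial ι K) :
    pderiv j (phSh z g) = phSh z (pderiv j g) := by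
  classical
  induction g using MvPolynomial.induction_on with
  | C a => simp [phSh]
  | add p q hp hq => simp only [map_add, hp, hq]
  | mul_X p i hp =>
    simp only [map_mul, Derivation.leibniz, hp, smul_eq_mul, map_add]
    congr 1
    simp only [phSh, aeval_X, map_add, pderiv_X, pderiv_C, add_zero]
    by_cases hij : j = i
    · subst hij; simp
    · simp [Ne.symm hij]

theorem ph_ord_pderiv {z : ι → K} {r : ℕ} {g : MvPolynomial ι K} (hg : OrdGE z (r + 1) g) (j : ι) :
    OrdGE z r (pderiv j g) := by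
  intro m hm
  change m ∈ (phSh z (pderiv j g)).support at hm
  rw [← ph_pderiv_phSh, MvPolynomial.mem_support_iff, coeff_pderiv] at hm
  have h1 : coeff (m + Finsupp.single j 1) (phSh z g) ≠ 0 := left_ne_zero_of_mul hm
  have h2 := hg _ (MvPolynomial.mem_support_iff.mpr h1)
  rw [map_add, Finsupp.degree_single] at h2
  omega

/-- membership form: `OrdGE z r g ↔ g ∈ 𝔪_z ^ r`. -/
theorem ph_ord_iff_mem_pow (z : ι → K) (r : ℕ) (g : MvPolynomial ι K) :
    OrdGE z r g ↔ g ∈ (Ideal.span (Set.range fun i => (X i - C (z i) : MvPolynomial ι K))) ^ r := by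
  rw [ph_ord_iff]
  constructor
  · intro h
    have h1 := Ideal.mem_map_of_mem (phSh (-z)).toRingHom h
    rw [Ideal.map_pow, Ideal.map_span, ← Set.range_comp] at h1
    have e : ((phSh (-z)).toRingHom ∘ X) = fun i => (X i - C (z i) : MvPolynomial ι K) := by
      funext i
      simp [phSh, sub_eq_add_neg]
    rw [e] at h1
    have e2 : (phSh (-z)).toRingHom (phSh z g) = g := ph_phSh_neg z g
    rwa [e2] at h1
  · intro h
    have h1 := Ideal.mem_map_of_mem (phSh z).toRingHom h
    rw [Ideal.map_pow, Ideal.map_span, ← Set.range_comp] at h1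
    have e : ((phSh z).toRingHom ∘ fun i => (X i - C (z i) : MvPolynomial ι K)) = X := by
      funext i
      simp [phSh]
    rw [e] at h1
    exact h1

/-- Taylor truncation at `z`: a linear map to the polynomials of degree `≤ D` with kernel `{order ≥ D + 1}`. -/
theorem ph_ord_trunc (z : ι → K) (D : ℕ) :
    ∃ tr : MvPolynomial ι K →ₗ[K] restrictTotalDegree ι K D, ∀ g, tr g = 0 ↔ OrdGE z (D + 1) g := by
  classical
  set T0 : MvPolynomial ι K →ₗ[K] MvPolynomial ι K :=
    (∑ i ∈ Finset.range (D + 1), homogeneousComponent i).comp (phSh z).toLinearMap with hT0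
  have hmem : ∀ g, T0 g ∈ restrictTotalDegree ι K D := by
    intro g
    rw [mem_restrictTotalDegree, hT0, LinearMap.comp_apply, LinearMap.sum_apply]
    apply totalDegree_finsetSum_le
    intro i hi
    refine (homogeneousComponent_isHomogeneous i _).totalDegree_le.trans ?_
    have := Finset.mem_range.mp hi
    omega
  refine ⟨LinearMap.codRestrict _ T0 hmem, fun g => ?_⟩
  have hco : ∀ m : ι →₀ ℕ, coeff m (T0 g) = if m.degree ≤ D then coeff m (phSh z g) else 0 := by
    intro m
    rw [hT0, LinearMap.comp_apply, LinearMap.sum_apply, coeff_sum]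
    simp only [coeff_homogeneousComponent, AlgHom.toLinearMap_apply]
    rw [Finset.sum_ite_eq]
    simp [Nat.lt_succ_iff]
  rw [← Subtype.coe_inj, LinearMap.codRestrict_apply, ZeroMemClass.coe_zero, ph_ord_iff,
    mem_pow_idealOfVars_iff']
  constructor
  · intro h m hm
    have := hco m
    rw [h, coeff_zero, if_pos (Nat.lt_succ_iff.mp hm)] at this
    exact this.symm
  · intro h
    ext m
    rw [hco, coeff_zero]
    split_ifs with hm
    · exact h m (Nat.lt_succ_iff.mpr hm)
    · rfl

end Claimed.Agent.R273
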