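-- KEEP
import Claimed.Agent.R273.PhNN
import Claimed.Agent.R273.PhOrd

/-!
# Row 273, POLY-A 6: THE UPPER HILBERT BOUND (Chardin) `H_p(D) ≤ m binom(D+k,k)`, ELEMENTARY PROOF.  Architect helper94.

Paper (`poly:hilbert`, upper part): `h⁰(O_V(D))`, Bertini, openness of reduced fibres.  HERE: coordinates over `ℂ[t]`, order of vanishing, degree.
Setting: `p` prime, `NPos p t` (`k` forms), `A = MvPolynomial (Fin k) ℂ`, `e_1..e_m` a basis of `P/p` over `ℂ(t)` (`IndepMod`, `SpanMod`).

LEAF PH-up-a (`ph_up_coords`).  A. COMMON DENOMINATOR.  `FiltFin` gives `b_1..b_M`; `SpanMod` gives `h_j ≠ 0`, `a_{j,i}` with `h_j(t) b_j ≡ ∑ a_{j,i}(t) e_i`.  `h := ∏ h_j`, `a'_{j,i} := a_{j,i} ∏_{l≠j} h_l`,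
  `κ := max deg a'_{j,i}`.  For `f ≡ ∑ c_j(t) b_j` (`deg c_j + deg b_j ≤ deg f`): `h(t) f ≡ ∑_i (∑_j c_j a'_{j,i})(t) e_i`, degrees `≤ deg f + κ`.
  B. UNIQUENESS: two coordinate vectors of the same `f` agree (`IndepMod` applied to the difference).  Define `co f` by `Classical.choose`; linearity from uniqueness.
  `co f = 0 → h(t) f ∈ p → f ∈ p` (`p` prime, `h(t) ∉ p` by (N1)).
  C. PRODUCTS: `h f ≡ ∑ co f i e_i`, `h f' ≡ ∑ co f' l e_l` ⇒ `h³ f f' ≡ ∑_{i,l} co f i co f' l ∑_j co (e_i e_l) j e_j` and `h³ f f' = h² (h f f') ≡ ∑_j h² co (f f') j e_j`; uniqueness.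
LEAF PH-up-b (`ph_up`).  Choose `τ` with `eval τ h ≠ 0` (`h ≠ 0`, `MvPolynomial.funext`).  `tr` from `ph_ord_trunc τ D`.  `Θ f := fun i => tr (co f i)`, linear `P → (Fin m → restrictTotalDegree (Fin k) ℂ D)`,
  target of dimension `m binom(k+D,D)` (`rk_finrank_restrict`, `Module.finrank_pi_fintype`/`finrank_fintype_fun_eq_card`-type lemma).  By `ph_hI_le_finrank` it suffices: `deg ψ ≤ D`, `Θ ψ = 0` ⇒ `ψ ∈ p`.
  Claim: `OrdGE τ (r (D+1)) (co (ψ^r) j)` for all `r ≥ 1`, `j`: induction, `h² co (ψ^r ψ) j = ∑ co (ψ^r) i co ψ l co (e_i e_l) j` has order `≥ (r+1)(D+1)` (`ph_ord_sum`, `ph_ord_mul`, `ph_ord_mul_left`); cancel `h²` (`ph_ord_cancel`).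
  Degree: `deg co (ψ^r) j ≤ r D + κ`.  For `r = κ + 1`: `r (D+1) > r D + κ`, so `co (ψ^r) = 0` (`ph_ord_eq_zero`), `ψ^r ∈ p`, `ψ ∈ p` (`Ideal.IsPrime.mem_of_pow_mem`).
-/

set_option autoImplicit false

namespace Claimed.Agent.R273

open MvPolynomial Module

variable {ι : Type*} [Fintype ι]

omit [Fintype ι] in
/-- coordinates with a common denominator, degree control and structure constants -/
theorem ph_up_coords {k m : ℕ} (p : Ideal (MvPolynomial ι ℂ)) (hp : p.IsPrime)
    (t : Fin k → MvPolynomial ι ℂ) (ht : NPos p t) (e : Fin m → MvPolynomial ι ℂ)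
    (hi : IndepMod p t e) (hs : SpanMod p t e) :
    ∃ (h : MvPolynomial (Fin k) ℂ) (κ : ℕ)
      (co : MvPolynomial ι ℂ →ₗ[ℂ] (Fin m → MvPolynomial (Fin k) ℂ)), h ≠ 0 ∧
      (∀ f, aeval t h * f - ∑ i, aeval t (co f i) * e i ∈ p) ∧
      (∀ f i, (co f i).totalDegree ≤ f.totalDegree + κ) ∧
      (∀ f, co f = 0 → f ∈ p) ∧
      (∀ f f' j, h ^ 2 * co (f * f') j = ∑ i, ∑ l, co f i * co f' l * co (e i * e l) j) := by
  classical
  obtain ⟨M, b, hb⟩ := ht.fin
  set mk := Ideal.Quotient.mk p with hmk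
  set φ : MvPolynomial (Fin k) ℂ →+* (MvPolynomial ι ℂ ⧸ p) :=
    mk.comp (aeval t : MvPolynomial (Fin k) ℂ →ₐ[ℂ] MvPolynomial ι ℂ).toRingHom with hφ
  have hφa : ∀ a, φ a = mk (aeval t a) := fun a => rfl
  -- independence in the quotient
  have hind : ∀ a : Fin m → MvPolynomial (Fin k) ℂ, ∑ i, φ (a i) * mk (e i) = 0 → a = 0 := by
    intro a ha
    funext i
    apply hi a
    rw [← Ideal.Quotient.eq_zero_iff_mem, map_sum]
    rw [← ha]
    exact Finset.sum_congr rfl fun i _ => map_mul _ _ _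
  choose h₀ a₀ hh₀ ha₀ using fun j => hs (b j)
  have ha₀' : ∀ j, φ (h₀ j) * mk (b j) = ∑ i, φ (a₀ j i) * mk (e i) := by
    intro j
    have := (Ideal.Quotient.eq).mpr (ha₀ j)
    rw [map_mul, map_sum] at this
    refine Eq.trans this ?_
    exact Finset.sum_congr rfl fun i _ => map_mul _ _ _
  set h := ∏ j, h₀ j with hh
  have hne : h ≠ 0 := Finset.prod_ne_zero_iff.mpr fun j _ => hh₀ j
  set a' : Fin M → Fin m → MvPolynomial (Fin k) ℂ :=
    fun j i => a₀ j i * ∏ l ∈ Finset.univ.erase j, h₀ l with ha'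
  have hb' : ∀ j, φ h * mk (b j) = ∑ i, φ (a' j i) * mk (e i) := by
    intro j
    have e1 : h = h₀ j * ∏ l ∈ Finset.univ.erase j, h₀ l :=
      (Finset.mul_prod_erase _ _ (Finset.mem_univ j)).symm
    rw [e1, map_mul, mul_right_comm, ha₀', Finset.sum_mul]
    refine Finset.sum_congr rfl fun i _ => ?_
    rw [ha', map_mul]; ring
  set κ := Finset.univ.sup fun j => Finset.univ.sup fun i => (a' j i).totalDegree with hκ
  have hκle : ∀ j i, (a' j i).totalDegree ≤ κ := fun j i =>
    (Finset.le_sup (f := fun i => (a' j i).totalDegree) (Finset.mem_univ i)).trans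
      (Finset.le_sup (f := fun j => Finset.univ.sup fun i => (a' j i).totalDegree)
        (Finset.mem_univ j))
  -- existence
  have hex : ∀ f : MvPolynomial ι ℂ, ∃ u : Fin m → MvPolynomial (Fin k) ℂ,
      φ h * mk f = ∑ i, φ (u i) * mk (e i) ∧ ∀ i, (u i).totalDegree ≤ f.totalDegree + κ := by
    intro f
    obtain ⟨c, hc1, hc2⟩ := hb f
    refine ⟨fun i => ∑ j, c j * a' j i, ?_, ?_⟩
    · have e1 : mk f = ∑ j, φ (c j) * mk (b j) := by
        have := (Ideal.Quotient.eq).mpr hc2
        rw [map_sum] at this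
        refine Eq.trans this ?_
        exact Finset.sum_congr rfl fun i _ => map_mul _ _ _
      rw [e1, Finset.mul_sum]
      have e2 : ∀ j, φ h * (φ (c j) * mk (b j)) = ∑ i, φ (c j * a' j i) * mk (e i) := by
        intro j
        rw [mul_left_comm, hb', Finset.mul_sum]
        refine Finset.sum_congr rfl fun i _ => ?_
        rw [map_mul φ (c j) (a' j i)]; ring
      simp only [e2]
      rw [Finset.sum_comm]
      refine Finset.sum_congr rfl fun i _ => ?_
      rw [map_sum, Finset.sum_mul]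
    · intro i
      apply totalDegree_finsetSum_le
      intro j _
      rcases hc1 j with h0 | h0
      · rw [h0, zero_mul, totalDegree_zero]; exact Nat.zero_le _
      · have := totalDegree_mul (c j) (a' j i)
        have := hκle j i
        omega
  -- uniqueness
  have huniq : ∀ (f : MvPolynomial ι ℂ) (u u' : Fin m → MvPolynomial (Fin k) ℂ),
      φ h * mk f = ∑ i, φ (u i) * mk (e i) → φ h * mk f = ∑ i, φ (u' i) * mk (e i) → u = u' := by
    intro f u u' h1 h2
    have : u - u' = 0 := by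
      apply hind
      simp only [Pi.sub_apply, map_sub, sub_mul, Finset.sum_sub_distrib]
      rw [← h1, ← h2, sub_self]
    exact sub_eq_zero.mp this
  choose co₀ hco1 hco2 using hex
  set co : MvPolynomial ι ℂ →ₗ[ℂ] (Fin m → MvPolynomial (Fin k) ℂ) :=
    { toFun := co₀
      map_add' := by
        intro f f'
        apply huniq (f + f') _ _ (hco1 _)
        simp only [Pi.add_apply, map_add, add_mul, mul_add, Finset.sum_add_distrib, hco1]
      map_smul' := by
        intro c f
        apply huniq (c • f) _ _ (hco1 _)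
        simp only [RingHom.id_apply, Pi.smul_apply, smul_eq_C_mul, map_mul]
        have e1 : ∀ i, φ (C c) * φ (co₀ f i) * mk (e i) = mk (C c) * (φ (co₀ f i) * mk (e i)) := by
          intro i
          have : φ (C c) = mk (C c) := by rw [hφa, aeval_C]; rfl
          rw [this]; ring
        simp only [e1]
        rw [← Finset.mul_sum, ← hco1]
        ring } with hco
  have hcoa : ∀ f, co f = co₀ f := fun f => rfl
  have hφh : φ h ≠ 0 := by
    intro h0
    rw [hφa, Ideal.Quotient.eq_zero_iff_mem] at h0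
    exact hne (ht.inj h h0)
  have := hp
  refine ⟨h, κ, co, hne, ?_, fun f i => hco2 f i, ?_, ?_⟩
  · intro f
    rw [← Ideal.Quotient.eq, map_mul, map_sum]
    refine Eq.trans (hco1 f) ?_
    exact Finset.sum_congr rfl fun i _ => (map_mul mk (aeval t (co f i)) (e i)).symm
  · intro f hf
    have h1 := hco1 f
    rw [← hcoa, hf] at h1
    simp only [Pi.zero_apply, map_zero, zero_mul, Finset.sum_const_zero] at h1
    rcases mul_eq_zero.mp h1 with h2 | h2
    · exact absurd h2 hφh
    · exact Ideal.Quotient.eq_zero_iff_mem.mp h2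
  · intro f f' j
    have key : (fun j => h ^ 2 * co₀ (f * f') j)
        = fun j => ∑ i, ∑ l, co₀ f i * co₀ f' l * co₀ (e i * e l) j := by
      have e0 : (fun j => h ^ 2 * co₀ (f * f') j)
          - (fun j => ∑ i, ∑ l, co₀ f i * co₀ f' l * co₀ (e i * e l) j) = 0 := by
        apply hind
        simp only [Pi.sub_apply, map_sub, sub_mul, Finset.sum_sub_distrib]
        rw [sub_eq_zero]
        have l1 : ∑ j, φ (h ^ 2 * co₀ (f * f') j) * mk (e j) = φ h ^ 3 * (mk f * mk f') := by
          have : ∀ j, φ (h ^ 2 * co₀ (f * f') j) * mk (e j)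
              = φ h ^ 2 * (φ (co₀ (f * f') j) * mk (e j)) := by
            intro j; rw [map_mul, map_pow]; ring
          simp only [this]
          rw [← Finset.mul_sum, ← hco1, map_mul]
          ring
        have l2 : ∑ j, φ (∑ i, ∑ l, co₀ f i * co₀ f' l * co₀ (e i * e l) j) * mk (e j)
            = φ h ^ 3 * (mk f * mk f') := by
          have r1 : φ h ^ 3 * (mk f * mk f') = φ h * ((φ h * mk f) * (φ h * mk f')) := by ring
          rw [r1, hco1 f, hco1 f', Finset.sum_mul_sum, Finset.mul_sum]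
          simp only [Finset.mul_sum, map_sum, Finset.sum_mul]
          rw [Finset.sum_comm]
          refine Finset.sum_congr rfl fun i _ => ?_
          rw [Finset.sum_comm]
          refine Finset.sum_congr rfl fun l _ => ?_
          have r2 : φ h * (φ (co₀ f i) * mk (e i) * (φ (co₀ f' l) * mk (e l)))
              = φ (co₀ f i) * φ (co₀ f' l) * (φ h * mk (e i * e l)) := by
            rw [map_mul]; ring
          rw [r2, hco1, Finset.mul_sum]
          refine Finset.sum_congr rfl fun j _ => ?_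
          rw [map_mul, map_mul]; ring
        rw [l1, l2]
      exact sub_eq_zero.mp e0
    exact congrFun key j

/-- **Chardin's bound in Noether position.** -/
theorem ph_up {k m : ℕ} (p : Ideal (MvPolynomial ι ℂ)) (hp : p.IsPrime)
    (t : Fin k → MvPolynomial ι ℂ) (ht : NPos p t) (e : Fin m → MvPolynomial ι ℂ)
    (hi : IndepMod p t e) (hs : SpanMod p t e) (D : ℕ) : hI p D ≤ m * (D + k).choose k := by
  classical
  obtain ⟨h, κ, co, hne, -, hdeg, hker, hprod⟩ := ph_up_coords p hp t ht e hi hs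
  obtain ⟨τ, hτ⟩ : ∃ τ : Fin k → ℂ, eval τ h ≠ 0 := by
    by_contra hcon
    apply hne
    apply MvPolynomial.funext
    intro x
    rw [map_zero]
    by_contra h1
    exact hcon ⟨x, h1⟩
  obtain ⟨tr, htr⟩ := ph_ord_trunc τ D
  set E := Fin m → restrictTotalDegree (Fin k) ℂ D with hE
  set Θ : MvPolynomial ι ℂ →ₗ[ℂ] E := LinearMap.pi fun i => tr.comp ((LinearMap.proj i).comp co)
    with hΘ
  have hΘa : ∀ f i, Θ f i = tr (co f i) := fun f i => rfl
  have h2 : finrank ℂ E = m * (D + k).choose k := by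
    have e0 : finrank ℂ E = ∑ _j : Fin m, finrank ℂ (restrictTotalDegree (Fin k) ℂ D) :=
      Module.finrank_pi_fintype ℂ
    rw [e0]
    simp only [rk_finrank_restrict, Finset.sum_const, Finset.card_univ, Fintype.card_fin,
      smul_eq_mul]
    rw [add_comm k, Nat.choose_symm_add]
  rw [← h2]
  apply ph_hI_le_finrank p D Θ
  intro ψ hψ h0
  have hord1 : ∀ j, OrdGE τ (D + 1) (co ψ j) := by
    intro j
    rw [← htr, ← hΘa, h0]; rfl
  have hh2 : eval τ (h ^ 2) ≠ 0 := by rw [map_pow]; exact pow_ne_zero _ hτ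
  have hord : ∀ r : ℕ, ∀ j, OrdGE τ ((r + 1) * (D + 1)) (co (ψ ^ (r + 1)) j) := by
    intro r
    induction r with
    | zero => intro j; simpa using hord1 j
    | succ r ih =>
      intro j
      apply ph_ord_cancel hh2
      rw [pow_succ ψ (r + 1), hprod]
      apply ph_ord_sum
      intro i _
      apply ph_ord_sum
      intro l _
      have := ph_ord_mul (ih i) (hord1 l)
      have e1 : (r + 1) * (D + 1) + (D + 1) = (r + 1 + 1) * (D + 1) := by ring
      rw [e1] at this
      rw [mul_comm (co (ψ ^ (r + 1)) i * co ψ l)]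
      exact ph_ord_mul_left _ this
  have hz : co (ψ ^ (κ + 1)) = 0 := by
    funext j
    apply ph_ord_eq_zero (hord κ j)
    have h1 := hdeg (ψ ^ (κ + 1)) j
    have h3 := totalDegree_pow ψ (κ + 1)
    have h4 : (κ + 1) * ψ.totalDegree ≤ (κ + 1) * D := Nat.mul_le_mul_left _ hψ
    have e1 : (κ + 1) * (D + 1) = (κ + 1) * D + κ + 1 := by ring
    omega
  exact hp.mem_of_pow_mem _ (hker _ hz)

end Claimed.Agent.R273
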