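import Mathlib

/-!
# Row 273, rank library [RK], part 3a: two counting lemmas for lower sets of `ℕ^n`  (HOST-FREE: only Mathlib)
LEAF RK-comb (this file).
-/

set_option autoImplicit false

namespace Claimed.Agent.R273

variable {ι : Type*}

theorem rk_comb_finite [Finite ι] (Sg : Set (ι →₀ ℕ)) (D : ℕ) : {m | m ∈ Sg ∧ m.degree ≤ D}.Finite :=
  (Finsupp.finite_of_degree_le D).subset fun _ hm => hm.2

/-- an index of a largest exponent -/
theorem rk_comb_argmax [Fintype ι] [Nonempty ι] (m : ι →₀ ℕ) : ∃ i, m.degree ≤ Fintype.card ι * m i := by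
  obtain ⟨i, -, hi⟩ := Finset.exists_max_image (Finset.univ : Finset ι) (fun i => m i) Finset.univ_nonempty
  refine ⟨i, ?_⟩
  rw [Finsupp.degree_eq_sum]
  calc ∑ j, m j ≤ ∑ _j : ι, m i := Finset.sum_le_sum fun j hj => hi j hj
    _ = _ := by rw [Finset.sum_const, Finset.card_univ, smul_eq_mul]

/-- COUNTING 1.  `B = {m ∈ Σ : D - t < deg m ≤ D}`, `A = {m ∈ Σ : deg m ≤ D}`.  For `m ∈ B` let `i(m)` be an index of a largest
exponent, so `n m_i ≥ deg m ≥ D - t + 1`.  The map `(m, j) ↦ (m - j t e_{i(m)}, i(m))`, `j ≤ m_i / t`, into `A × ι` is injective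
(`deg m = deg m' + j t` lies in a window of length `t`, which determines `j`), and `n t (m_i / t + 1) ≥ n (m_i + 1) ≥ D - t + 1`. -/
theorem rk_lower_growth [Fintype ι] (Sg : Set (ι →₀ ℕ)) (h : IsLowerSet Sg) {t D : ℕ} (ht : 1 ≤ t) (htD : t ≤ D) :
    (D - t + 1) * {m | m ∈ Sg ∧ D - t < m.degree ∧ m.degree ≤ D}.ncard ≤
      (Fintype.card ι) ^ 2 * t * {m | m ∈ Sg ∧ m.degree ≤ D}.ncard := by
  classical
  rcases isEmpty_or_nonempty ι with hE | hne
  · have : {m : ι →₀ ℕ | m ∈ Sg ∧ D - t < m.degree ∧ m.degree ≤ D} = ∅ := by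
      ext m
      simp only [Set.mem_ofPred_eq, Set.mem_empty_iff_false, iff_false, not_and]
      intro _ h1
      have : m = 0 := Subsingleton.elim _ _
      rw [this] at h1
      simp at h1
    rw [this]
    simp
  set n := Fintype.card ι with hn
  have hAfin := rk_comb_finite Sg D
  have hBfin : {m : ι →₀ ℕ | m ∈ Sg ∧ D - t < m.degree ∧ m.degree ≤ D}.Finite :=
    hAfin.subset fun m hm => ⟨hm.1, hm.2.2⟩
  set A : Finset (ι →₀ ℕ) := hAfin.toFinset with hA
  set B : Finset (ι →₀ ℕ) := hBfin.toFinset with hB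
  rw [Set.ncard_eq_toFinset_card _ hAfin, Set.ncard_eq_toFinset_card _ hBfin]
  choose ix hix using fun m : ι →₀ ℕ => rk_comb_argmax m
  have hmemA : ∀ m, m ∈ A ↔ m ∈ Sg ∧ m.degree ≤ D := fun m => by rw [hA, Set.Finite.mem_toFinset]; rfl
  have hmemB : ∀ m, m ∈ B ↔ m ∈ Sg ∧ D - t < m.degree ∧ m.degree ≤ D := fun m => by rw [hB, Set.Finite.mem_toFinset]; rfl
  -- the injection
  set S : Finset (Σ _ : ι →₀ ℕ, ℕ) := B.sigma fun m => Finset.range (m (ix m) / t + 1) with hS
  set f : (Σ _ : ι →₀ ℕ, ℕ) → (ι →₀ ℕ) × ι := fun p => (p.1 - Finsupp.single (ix p.1) (p.2 * t), ix p.1) with hf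
  have hjt : ∀ p ∈ S, p.2 * t ≤ p.1 (ix p.1) := by
    intro p hp
    have h1 : p.2 < p.1 (ix p.1) / t + 1 := Finset.mem_range.1 (Finset.mem_sigma.1 hp).2
    exact (Nat.mul_le_mul_right t (Nat.lt_succ_iff.1 h1)).trans (Nat.div_mul_le_self _ _)
  have hrec : ∀ p ∈ S, (p.1 - Finsupp.single (ix p.1) (p.2 * t)) + Finsupp.single (ix p.1) (p.2 * t) = p.1 := by
    intro p hp
    refine tsub_add_cancel_of_le ?_
    rw [Finsupp.single_le_iff]
    exact hjt p hp
  have hdeg : ∀ p ∈ S, (p.1 - Finsupp.single (ix p.1) (p.2 * t)).degree + p.2 * t = p.1.degree := by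
    intro p hp
    have := congrArg Finsupp.degree (hrec p hp)
    rwa [map_add, Finsupp.degree_single] at this
  have hmaps : ∀ p ∈ S, f p ∈ A ×ˢ (Finset.univ : Finset ι) := by
    intro p hp
    have hpB := (hmemB p.1).1 (Finset.mem_sigma.1 hp).1
    refine Finset.mem_product.2 ⟨(hmemA _).2 ⟨h tsub_le_self hpB.1, ?_⟩, Finset.mem_univ _⟩
    have := hdeg p hp
    have h2 := hpB.2.2
    show (p.1 - Finsupp.single (ix p.1) (p.2 * t)).degree ≤ D
    omega
  have hinj : Set.InjOn f S := by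
    intro p hp p' hp' heq
    have hp1 : p ∈ S := hp
    have hp1' : p' ∈ S := hp'
    have e1 : p.1 - Finsupp.single (ix p.1) (p.2 * t) = p'.1 - Finsupp.single (ix p'.1) (p'.2 * t) :=
      congrArg Prod.fst heq
    have e2 : ix p.1 = ix p'.1 := congrArg Prod.snd heq
    have d1 := hdeg p hp1
    have d2 := hdeg p' hp1'
    rw [e1] at d1
    have b1 := (hmemB p.1).1 (Finset.mem_sigma.1 hp1).1
    have b2 := (hmemB p'.1).1 (Finset.mem_sigma.1 hp1').1
    have hj : p.2 = p'.2 := by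
      rcases lt_trichotomy p.2 p'.2 with hlt | heq' | hlt
      · exfalso
        have : (p.2 + 1) * t ≤ p'.2 * t := Nat.mul_le_mul_right t hlt
        have h3 : (p.2 + 1) * t = p.2 * t + t := by ring
        omega
      · exact heq'
      · exfalso
        have : (p'.2 + 1) * t ≤ p.2 * t := Nat.mul_le_mul_right t hlt
        have h3 : (p'.2 + 1) * t = p'.2 * t + t := by ring
        omega
    have hm : p.1 = p'.1 := by
      rw [← hrec p hp1, ← hrec p' hp1', e1, e2, hj]
    cases p with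
    | mk m j =>
      cases p' with
      | mk m' j' =>
        simp only at hm hj
        subst hm
        subst hj
        rfl
  have hcard : S.card ≤ A.card * n := by
    have := Finset.card_le_card_of_injOn f hmaps hinj
    rwa [Finset.card_product, Finset.card_univ] at this
  have hScard : S.card = ∑ m ∈ B, (m (ix m) / t + 1) := by
    rw [hS, Finset.card_sigma]
    simp
  have hterm : ∀ m ∈ B, D - t + 1 ≤ n * t * (m (ix m) / t + 1) := by
    intro m hm
    have hb := (hmemB m).1 hm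
    have h1 := hix m
    have h2 : m (ix m) < t * (m (ix m) / t + 1) := Nat.lt_mul_div_succ _ (by omega)
    calc D - t + 1 ≤ m.degree := hb.2.1
      _ ≤ n * m (ix m) := h1
      _ ≤ n * (t * (m (ix m) / t + 1)) := Nat.mul_le_mul_left n h2.le
      _ = _ := by ring
  calc (D - t + 1) * B.card = ∑ _m ∈ B, (D - t + 1) := by rw [Finset.sum_const, smul_eq_mul, mul_comm]
    _ ≤ ∑ m ∈ B, n * t * (m (ix m) / t + 1) := Finset.sum_le_sum hterm
    _ = n * t * S.card := by rw [hScard, Finset.mul_sum]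
    _ ≤ n * t * (A.card * n) := Nat.mul_le_mul_left _ hcard
    _ = _ := by ring

/-- COUNTING 2.  `m ↦ (m / k, m % k)` is injective from `{m ∈ Σ : deg ≤ kD}` into `{m ∈ Σ : deg ≤ D} × (ι → Fin k)`. -/
theorem rk_lower_mul [Fintype ι] (Sg : Set (ι →₀ ℕ)) (h : IsLowerSet Sg) {k : ℕ} (hk : 1 ≤ k) (D : ℕ) :
    {m | m ∈ Sg ∧ m.degree ≤ k * D}.ncard ≤ k ^ (Fintype.card ι) * {m | m ∈ Sg ∧ m.degree ≤ D}.ncard := by
  classical
  have hk0 : 0 < k := hk
  set q : (ι →₀ ℕ) → (ι →₀ ℕ) := fun m => m.mapRange (fun x => x / k) (Nat.zero_div k) with hq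
  set f : (ι →₀ ℕ) → (ι → Fin k) × (ι →₀ ℕ) := fun m => (fun i => ⟨m i % k, Nat.mod_lt _ hk0⟩, q m) with hf
  have hfin : ((Set.univ : Set (ι → Fin k)) ×ˢ {m : ι →₀ ℕ | m ∈ Sg ∧ m.degree ≤ D}).Finite :=
    Set.finite_univ.prod (rk_comb_finite Sg D)
  have hmaps : ∀ m ∈ {m : ι →₀ ℕ | m ∈ Sg ∧ m.degree ≤ k * D},
      f m ∈ (Set.univ : Set (ι → Fin k)) ×ˢ {m : ι →₀ ℕ | m ∈ Sg ∧ m.degree ≤ D} := by
    rintro m ⟨hm1, hm2⟩
    refine ⟨Set.mem_univ _, h (fun i => ?_) hm1, ?_⟩
    · show m i / k ≤ m i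
      exact Nat.div_le_self _ _
    · show (q m).degree ≤ D
      rw [Finsupp.degree_eq_sum] at hm2 ⊢
      have h1 : k * ∑ i, (q m) i ≤ k * D := by
        rw [Finset.mul_sum]
        refine le_trans (Finset.sum_le_sum fun i _ => ?_) hm2
        show k * (m i / k) ≤ m i
        exact Nat.mul_div_le _ _
      exact Nat.le_of_mul_le_mul_left h1 hk0
  have hinj : Set.InjOn f {m : ι →₀ ℕ | m ∈ Sg ∧ m.degree ≤ k * D} := by
    intro m _ m' _ heq
    ext i
    have e1 : m i % k = m' i % k := by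
      have := congrFun (congrArg Prod.fst heq) i
      exact congrArg Fin.val this
    have e2 : m i / k = m' i / k := by
      have := DFunLike.congr_fun (congrArg Prod.snd heq) i
      exact this
    rw [← Nat.div_add_mod (m i) k, ← Nat.div_add_mod (m' i) k, e1, e2]
  have := Set.ncard_le_ncard_of_injOn f hmaps hinj hfin
  rw [Set.ncard_prod, Set.ncard_univ, Nat.card_eq_fintype_card, Fintype.card_fun, Fintype.card_fin] at this
  exact this

end Claimed.Agent.R273
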