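import Claimed.Agent.R273.RkBasic
import Claimed.Agent.R273.RkComb
import Mathlib.Data.Finsupp.MonomialOrder.DegLex

/-!
# Row 273, rank library [RK], part 3: STANDARD MONOMIALS, THE GROWTH LEMMA (R2), `H(kD) ≤ k^n H(D)`

For `T ⊆ ℂ^ι` (ANY set) and the degree-lexicographic order, a monomial `m` is STANDARD if its restriction to `T` is not
a linear combination of the restrictions of the smaller monomials.  Facts:
* `rk_stdMon_lower`  : the standard monomials form a lower set (if `m|T = ∑_{m'<m} c m'|T` then `(m+a)|T = ∑ c (m'+a)|T`, `m'+a < m+a`);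
* `rk_hA_eq_ncard_std`: `H_T(D) = #{m standard, deg m ≤ D}`   (greedy basis `rk_greedy`; `{deg ≤ D}` is an initial segment of degLex);
* `rk_lower_growth`, `rk_lower_mul` (RkComb.lean) : two counting lemmas for lower sets of `ℕ^n`.
The final theorems are for any `Fintype ι`: choose a linear order, e.g. `LinearOrder.lift' (Fintype.equivFin ι) (Equiv.injective _)`.

LEAF RK-std (this file).
-/

set_option autoImplicit false

namespace Claimed.Agent.R273

open MvPolynomial Module

/-- adding one vector outside a finite dimensional subspace raises the dimension by one -/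
theorem rk_std_finrank_sup {V : Type*} [AddCommGroup V] [Module ℂ V] (W : Submodule ℂ V) [FiniteDimensional ℂ W]
    {x : V} (hx : x ∉ W) : finrank ℂ (Submodule.span ℂ {x} ⊔ W : Submodule ℂ V) = finrank ℂ W + 1 := by
  have hx0 : x ≠ 0 := fun h => hx (h ▸ W.zero_mem)
  have h1 := Submodule.finrank_sup_add_finrank_inf_eq (Submodule.span ℂ {x}) W
  have h2 : Submodule.span ℂ {x} ⊓ W = ⊥ := by
    rw [eq_bot_iff]
    rintro y ⟨hy1, hy2⟩
    obtain ⟨c, rfl⟩ := Submodule.mem_span_singleton.1 hy1
    by_cases hc : c = 0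
    · simp [hc]
    · exfalso
      apply hx
      have := W.smul_mem c⁻¹ hy2
      rwa [smul_smul, inv_mul_cancel₀ hc, one_smul] at this
  rw [h2, finrank_bot, finrank_span_singleton hx0] at h1
  omega

open Classical in
/-- GREEDY BASIS.  In a finite linearly ordered family of vectors, the vectors which are not in the span of the earlier
ones are as many as the dimension of the span.  PROOF: `Finset.induction_on_max`; for `s = insert a s'` (`a` above `s'`)
`span (v '' s) = span (v '' s') ⊔ span {v a}`, the dimension goes up by one iff `v a ∉ span (v '' s')`; the sets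
`{j ∈ s | j < i}` for `i ∈ s'` do not see `a`. -/
theorem rk_greedy {I V : Type*} [LinearOrder I] [AddCommGroup V] [Module ℂ V] (v : I → V) (s : Finset I) :
    finrank ℂ (Submodule.span ℂ (v '' (s : Set I))) =
      (s.filter fun i => v i ∉ Submodule.span ℂ (v '' {j | j ∈ s ∧ j < i})).card := by
  induction s using Finset.induction_on_max with
  | empty =>
    rw [Finset.coe_empty, Set.image_empty, Submodule.span_empty, finrank_bot]
    simp
  | insert a s' ha ih =>
    have hnot : a ∉ s' := fun h => lt_irrefl a (ha a h)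
    have hset1 : ∀ i ∈ s', {j | j ∈ insert a s' ∧ j < i} = {j | j ∈ s' ∧ j < i} := by
      intro i hi
      ext j
      simp only [Set.mem_ofPred_eq, Finset.mem_insert]
      constructor
      · rintro ⟨rfl | h1, h2⟩
        · exact absurd h2 (not_lt.2 (ha i hi).le)
        · exact ⟨h1, h2⟩
      · rintro ⟨h1, h2⟩
        exact ⟨Or.inr h1, h2⟩
    have hset2 : {j | j ∈ insert a s' ∧ j < a} = (s' : Set I) := by
      ext j
      simp only [Set.mem_ofPred_eq, Finset.mem_insert, Finset.mem_coe]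
      constructor
      · rintro ⟨rfl | h1, h2⟩
        · exact absurd h2 (lt_irrefl _)
        · exact h1
      · intro h1
        exact ⟨Or.inr h1, ha j h1⟩
    have hfil : (s'.filter fun i => v i ∉ Submodule.span ℂ (v '' {j | j ∈ insert a s' ∧ j < i})) =
        s'.filter fun i => v i ∉ Submodule.span ℂ (v '' {j | j ∈ s' ∧ j < i}) := by
      refine Finset.filter_congr fun i hi => ?_
      rw [hset1 i hi]
    have hspan : Submodule.span ℂ (v '' ((insert a s' : Finset I) : Set I)) =
        Submodule.span ℂ {v a} ⊔ Submodule.span ℂ (v '' (s' : Set I)) := by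
      rw [Finset.coe_insert, Set.image_insert_eq, Submodule.span_insert]
    have : FiniteDimensional ℂ (Submodule.span ℂ (v '' (s' : Set I))) :=
      FiniteDimensional.span_of_finite ℂ (s'.finite_toSet.image v)
    rw [Finset.filter_insert, hset2, hfil, hspan]
    by_cases hva : v a ∈ Submodule.span ℂ (v '' (s' : Set I))
    · have hsup : Submodule.span ℂ {v a} ⊔ Submodule.span ℂ (v '' (s' : Set I)) =
          Submodule.span ℂ (v '' (s' : Set I)) := by
        rw [sup_eq_right, Submodule.span_singleton_le_iff_mem]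
        exact hva
      rw [if_neg (not_not.2 hva), ← ih, hsup]
    · rw [if_pos hva, Finset.card_insert_of_notMem (fun h => hnot (Finset.mem_filter.1 h).1), ← ih]
      exact rk_std_finrank_sup _ hva

variable {ι : Type*}

/-- the restriction of the monomial `x^m` to `T` -/
noncomputable def monOn (T : Set (ι → ℂ)) (m : ι →₀ ℕ) : T → ℂ := fun x => eval x.1 (monomial m (1 : ℂ))

/-- the standard monomials of `T` (degree-lexicographic order) -/
def stdMon [LinearOrder ι] (T : Set (ι → ℂ)) : Set (ι →₀ ℕ) :=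
  {m | monOn T m ∉ Submodule.span ℂ (monOn T '' {m' | toDegLex m' < toDegLex m})}

theorem rk_monOn_add (T : Set (ι → ℂ)) (m a : ι →₀ ℕ) : monOn T (m + a) = monOn T m * monOn T a := by
  funext x
  show eval x.1 (monomial (m + a) (1 : ℂ)) = eval x.1 (monomial m (1 : ℂ)) * eval x.1 (monomial a (1 : ℂ))
  rw [← map_mul, monomial_mul, one_mul]

theorem rk_stdMon_lower [LinearOrder ι] (T : Set (ι → ℂ)) : IsLowerSet (stdMon T) := by
  intro b a hab hb
  by_contra ha
  apply hb
  have ha' : monOn T a ∈ Submodule.span ℂ (monOn T '' {m' | toDegLex m' < toDegLex a}) := not_not.1 ha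
  set c : ι →₀ ℕ := b - a with hc
  have hbc : b = a + c := (add_tsub_cancel_of_le hab).symm
  set L : (T → ℂ) →ₗ[ℂ] (T → ℂ) := LinearMap.mulRight ℂ (monOn T c) with hL
  have h1 : L (monOn T a) ∈ (Submodule.span ℂ (monOn T '' {m' | toDegLex m' < toDegLex a})).map L :=
    Submodule.mem_map_of_mem ha'
  rw [Submodule.map_span] at h1
  have h2 : L (monOn T a) = monOn T b := by
    rw [hbc, rk_monOn_add]; rfl
  rw [h2] at h1
  refine Submodule.span_mono ?_ h1
  rintro _ ⟨_, ⟨m', hm', rfl⟩, rfl⟩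
  refine ⟨m' + c, ?_, ?_⟩
  · show toDegLex (m' + c) < toDegLex b
    rw [hbc, toDegLex_add, toDegLex_add]
    exact add_lt_add_left hm' _
  · rw [rk_monOn_add]; rfl

theorem rk_finite_degree_le [Finite ι] (D : ℕ) : {m : ι →₀ ℕ | m.degree ≤ D}.Finite := by
  exact Finsupp.finite_of_degree_le D

/-- evaluation of all polynomials at the points of `T` -/
noncomputable def rkStdEv (T : Set (ι → ℂ)) : MvPolynomial ι ℂ →ₗ[ℂ] (T → ℂ) where
  toFun f x := eval x.1 f
  map_add' f g := by funext x; simp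
  map_smul' c f := by funext x; simp

theorem rkStd_eqns_cited : True := by
  have := @monOn.eq_1.{0}; have := @monOn.eq_def.{0}; have := @monOn.congr_simp.{0}
  have := @stdMon.eq_1.{0}; have := @stdMon.eq_def.{0}; have := @stdMon.congr_simp.{0}
  have := @rkStdEv.eq_1.{0}; have := @rkStdEv.eq_def.{0}; have := @rkStdEv.congr_simp.{0}
  trivial

/-- the restrictions of the polynomials of degree `≤ D` are spanned by the restricted monomials -/
theorem rk_std_range (T : Set (ι → ℂ)) (D : ℕ) :
    LinearMap.range (evalOn (restrictTotalDegree ι ℂ D) T) =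
      Submodule.span ℂ (monOn T '' {m : ι →₀ ℕ | m.degree ≤ D}) := by
  have h1 : evalOn (restrictTotalDegree ι ℂ D) T = (rkStdEv T).domRestrict (restrictTotalDegree ι ℂ D) := rfl
  rw [h1, LinearMap.range_domRestrict]
  unfold restrictTotalDegree
  rw [restrictSupport_eq_span, Submodule.map_span, ← Set.image_comp]
  rfl

theorem rk_hA_eq_ncard_std [Fintype ι] [LinearOrder ι] (T : Set (ι → ℂ)) (D : ℕ) :
    hA T D = {m | m ∈ stdMon T ∧ m.degree ≤ D}.ncard := by
  classical
  have hfin := rk_finite_degree_le (ι := ι) D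
  set s0 : Finset (ι →₀ ℕ) := hfin.toFinset with hs0
  set s : Finset (DegLex (ι →₀ ℕ)) := s0.map toDegLex.toEmbedding with hs
  have hmem : ∀ m : ι →₀ ℕ, toDegLex m ∈ s ↔ m.degree ≤ D := by
    intro m
    rw [hs, Finset.mem_map_equiv]
    show m ∈ s0 ↔ _
    rw [hs0, Set.Finite.mem_toFinset]
    rfl
  have hg := rk_greedy (fun i : DegLex (ι →₀ ℕ) => monOn T (ofDegLex i)) s
  have himg : (fun i : DegLex (ι →₀ ℕ) => monOn T (ofDegLex i)) '' (s : Set (DegLex (ι →₀ ℕ))) =
      monOn T '' {m : ι →₀ ℕ | m.degree ≤ D} := by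
    ext u
    constructor
    · rintro ⟨i, hi, rfl⟩
      exact ⟨ofDegLex i, (hmem (ofDegLex i)).1 hi, rfl⟩
    · rintro ⟨m, hm, rfl⟩
      exact ⟨toDegLex m, (hmem m).2 hm, rfl⟩
  unfold hA rkOn
  rw [rk_std_range, ← himg, hg]
  have hset : {m | m ∈ stdMon T ∧ m.degree ≤ D} =
      ((s.filter fun i => monOn T (ofDegLex i) ∉ Submodule.span ℂ
        ((fun i : DegLex (ι →₀ ℕ) => monOn T (ofDegLex i)) '' {j | j ∈ s ∧ j < i})).map
          ofDegLex.toEmbedding : Finset (ι →₀ ℕ)) := by
    ext m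
    rw [Finset.mem_coe, Finset.mem_map_equiv, Finset.mem_filter]
    show (m ∈ stdMon T ∧ m.degree ≤ D) ↔ (toDegLex m ∈ s ∧ monOn T m ∉ Submodule.span ℂ
        ((fun i : DegLex (ι →₀ ℕ) => monOn T (ofDegLex i)) '' {j | j ∈ s ∧ j < toDegLex m}))
    rw [hmem m, and_comm]
    refine and_congr_right fun hm => ?_
    have e : (fun i : DegLex (ι →₀ ℕ) => monOn T (ofDegLex i)) '' {j | j ∈ s ∧ j < toDegLex m} =
        monOn T '' {m' | toDegLex m' < toDegLex m} := by
      ext u
      constructor
      · rintro ⟨i, hi, rfl⟩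
        exact ⟨ofDegLex i, hi.2, rfl⟩
      · rintro ⟨m', hm', rfl⟩
        refine ⟨toDegLex m', ⟨(hmem m').2 ?_, hm'⟩, rfl⟩
        have hm'' : toDegLex m' < toDegLex m := hm'
        exact (Finsupp.DegLex.monotone_degree hm''.le).trans hm
    rw [e]
    rfl
  rw [hset, Set.ncard_coe_finset, Finset.card_map]

/-- (R2) THE GROWTH LEMMA, `t`-step form: `(D - t + 1) (H(D) - H(D - t)) ≤ n² t H(D)`, for ANY set `T ⊆ ℂ^n`. -/
theorem rk_hA_growth [Fintype ι] (T : Set (ι → ℂ)) {t D : ℕ} (htD : t ≤ D) :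
    (D - t + 1) * hA T D ≤ (Fintype.card ι) ^ 2 * t * hA T D + (D - t + 1) * hA T (D - t) := by
  classical
  let _ : LinearOrder ι := LinearOrder.lift' (Fintype.equivFin ι) (Equiv.injective _)
  rcases Nat.eq_zero_or_pos t with rfl | ht
  · simp
  have h1 := rk_lower_growth (stdMon T) (rk_stdMon_lower T) ht htD
  rw [rk_hA_eq_ncard_std, rk_hA_eq_ncard_std]
  have hfin : {m | m ∈ stdMon T ∧ m.degree ≤ D}.Finite := (rk_finite_degree_le D).subset fun m hm => hm.2
  have hunion : {m | m ∈ stdMon T ∧ m.degree ≤ D} =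
      {m | m ∈ stdMon T ∧ m.degree ≤ D - t} ∪ {m | m ∈ stdMon T ∧ D - t < m.degree ∧ m.degree ≤ D} := by
    ext m
    simp only [Set.mem_ofPred_eq, Set.mem_union]
    constructor
    · rintro ⟨h2, h3⟩
      by_cases h4 : m.degree ≤ D - t
      · exact Or.inl ⟨h2, h4⟩
      · exact Or.inr ⟨h2, not_le.1 h4, h3⟩
    · rintro (⟨h2, h3⟩ | ⟨h2, -, h3⟩)
      · exact ⟨h2, h3.trans (Nat.sub_le _ _)⟩
      · exact ⟨h2, h3⟩
  have hle : {m | m ∈ stdMon T ∧ m.degree ≤ D}.ncard ≤
      {m | m ∈ stdMon T ∧ m.degree ≤ D - t}.ncard +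
        {m | m ∈ stdMon T ∧ D - t < m.degree ∧ m.degree ≤ D}.ncard := by
    conv_lhs => rw [hunion]
    exact Set.ncard_union_le _ _
  calc (D - t + 1) * {m | m ∈ stdMon T ∧ m.degree ≤ D}.ncard
      ≤ (D - t + 1) * ({m | m ∈ stdMon T ∧ m.degree ≤ D - t}.ncard +
        {m | m ∈ stdMon T ∧ D - t < m.degree ∧ m.degree ≤ D}.ncard) := Nat.mul_le_mul_left _ hle
    _ = (D - t + 1) * {m | m ∈ stdMon T ∧ D - t < m.degree ∧ m.degree ≤ D}.ncard +
        (D - t + 1) * {m | m ∈ stdMon T ∧ m.degree ≤ D - t}.ncard := by ring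
    _ ≤ _ := Nat.add_le_add_right h1 _

/-- `H(kD) ≤ k^n H(D)`. -/
theorem rk_hA_mul_le [Fintype ι] (T : Set (ι → ℂ)) {k : ℕ} (hk : 1 ≤ k) (D : ℕ) :
    hA T (k * D) ≤ k ^ (Fintype.card ι) * hA T D := by
  classical
  let _ : LinearOrder ι := LinearOrder.lift' (Fintype.equivFin ι) (Equiv.injective _)
  rw [rk_hA_eq_ncard_std, rk_hA_eq_ncard_std]
  exact rk_lower_mul (stdMon T) (rk_stdMon_lower T) hk D

end Claimed.Agent.R273
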