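-- KEEP
import Claimed.Agent.R273.PhUp
import Claimed.Agent.R273.PhSheet
import Claimed.Agent.R273.RkStd
import Claimed.Agent.R273.RkRes

/-!
# Row 273, POLY-A 8: THE API FOR CONSUMERS: components, dimension, degree, Hilbert bounds (`poly:hilbert`, `poly:envelope`), Bezout inequalities.
Architect helper94.  `n = card ι`.  Vocabulary (PhDefs): `Zl G`, `IsVar V`, `IsCompOf V G`, `vdim`, `vdeg`, `hA`.

LEAF PH-deg-a (`ph_choose_asymp`, `ph_low_primes`, `ph_low_primes_union`).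
  * `ph_choose_asymp`: if `b < a`, then `(b+1) binom(D-q+k,k) ≤ b binom(D+k,k)` for all `D ≥ q`; but `binom(D+k,k) ≤ binom(D-q+k,k) ∏_{i=1..k} (D+i)/(D-q+i) ≤ binom(D-q+k,k) (1 + q/(D-q+1))^k`, which is `< (1 + 1/b) binom(D-q+k,k)` for `D` large.
    (Suggestion: prove `(D - q + 1)^k * binom(D+k,k) ≤ (D+1)^k * binom(D-q+k,k)` by induction on `k`, then Bernoulli/limit in `ℝ`.)
  * `ph_low_primes`: `Σ := ⋃_{p ∈ 𝒱} sheets p t`, finite (`ph_sheets_finite`), of cardinality `∑ ncard` (`ph_sheets_disjoint`, `Set.ncard` of a disjoint finite union).  Enumerate `Σ` by `Fin m`.  `Λ g := fun j => eval (ζ_j) g`.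
    Apply `ph_low_lin` with `T = gpt k` (`ph_gpt_algInd`), `q = n (L-1)`: `hΛ`: `eval ζ (map (algebraMap) (t i)) = aeval ζ (t i) = gpt k i` (`MvPolynomial.eval_map`, `aeval_def`, `eval₂`); `hq`: `g := ∑_j C (w j) * s_j`, `s_j` the separator of `ζ_j` from `ph_separator (sheetSys G t) (max L 1)` and `ph_sheet_iso`
    (every other `ζ_i` is a common zero of `sheetSys G t` since `span G ≤ p'`; `n * (max L 1 - 1) = n * (L - 1)`); `hIΛ`: `f ∈ 𝒱.inf id ≤ p`.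
  * `ph_low_primes_union`: the same with `ph_union_sep` (lists `S a` = sheets of the primes of `𝒱` which are minimal over `span (G a)`).
LEAF PH-deg-b (`ph_isVar_ne_top`.., `ph_up_var`, `ph_vdeg_eq_sheets`, `ph_vdeg_pos`, `ph_vdim_le`): see the comments at the statements.
LEAF PH-deg-c (`ph_comps_finite`, `ph_Zl_eq_iUnion_comps`, `ph_isCompOf_isVar`, `ph_isVar_inj`, `ph_hilbert_low`, `ph_hilbert_low_union`, `ph_hilbert_at`, `ph_hilbert_up_family`, `ph_env_*`).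
LEAF PH-deg-d (`ph_vdim_lt_of_ssubset`, `ph_bezout_system`, `ph_section_hA`, `ph_bezout_section`).
-/

set_option autoImplicit false

namespace Claimed.Agent.R273

open MvPolynomial Module

variable {ι : Type*} [Fintype ι]

/-! ### PH-deg-a -/

theorem ph_choose_ratio (E q k : ℕ) :
    (E + q + k).choose k * (E + 1) ^ k ≤ (E + k).choose k * (E + q + 1) ^ k := by
  induction k with
  | zero => simp
  | succ k ih =>
    have h1 : (E + q + k + 1) * (E + q + k).choose k = (E + q + (k + 1)).choose (k + 1) * (k + 1) :=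
      Nat.add_one_mul_choose_eq (E + q + k) k
    have h2 : (E + k + 1) * (E + k).choose k = (E + (k + 1)).choose (k + 1) * (k + 1) :=
      Nat.add_one_mul_choose_eq (E + k) k
    have h3 : (E + q + k + 1) * (E + 1) ≤ (E + k + 1) * (E + q + 1) := by nlinarith [Nat.zero_le (k * q)]
    apply Nat.le_of_mul_le_mul_left _ (Nat.succ_pos k)
    calc (k + 1) * ((E + q + (k + 1)).choose (k + 1) * (E + 1) ^ (k + 1))
        = ((E + q + (k + 1)).choose (k + 1) * (k + 1)) * (E + 1) ^ (k + 1) := by ring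
      _ = ((E + q + k).choose k * (E + 1) ^ k) * ((E + q + k + 1) * (E + 1)) := by rw [← h1]; ring
      _ ≤ ((E + k).choose k * (E + q + 1) ^ k) * ((E + k + 1) * (E + q + 1)) :=
          Nat.mul_le_mul ih h3
      _ = ((E + (k + 1)).choose (k + 1) * (k + 1)) * (E + q + 1) ^ (k + 1) := by rw [← h2]; ring
      _ = (k + 1) * ((E + (k + 1)).choose (k + 1) * (E + q + 1) ^ (k + 1)) := by ring

theorem ph_choose_asymp (a b q k : ℕ)
    (h : ∀ D, q ≤ D → a * (D - q + k).choose k ≤ b * (D + k).choose k) : a ≤ b := by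
  have key : ∀ E : ℕ, a * (E + 1) ^ k ≤ b * (E + q + 1) ^ k := by
    intro E
    have h1 := h (E + q) (Nat.le_add_left _ _)
    rw [Nat.add_sub_cancel] at h1
    have h2 := ph_choose_ratio E q k
    have hpos : 0 < (E + k).choose k := Nat.choose_pos (Nat.le_add_left _ _)
    apply Nat.le_of_mul_le_mul_left _ hpos
    calc (E + k).choose k * (a * (E + 1) ^ k) = (a * (E + k).choose k) * (E + 1) ^ k := by ring
      _ ≤ (b * (E + q + k).choose k) * (E + 1) ^ k := Nat.mul_le_mul_right _ h1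
      _ = b * ((E + q + k).choose k * (E + 1) ^ k) := by ring
      _ ≤ b * ((E + k).choose k * (E + q + 1) ^ k) := Nat.mul_le_mul_left _ h2
      _ = (E + k).choose k * (b * (E + q + 1) ^ k) := by ring
  have hlim : Filter.Tendsto (fun n : ℕ => (a : ℝ) * ((n : ℝ) / (n + (q : ℝ))) ^ k) Filter.atTop
      (nhds ((a : ℝ) * 1 ^ k)) :=
    ((tendsto_natCast_div_add_atTop (q : ℝ)).pow k).const_mul _
  rw [one_pow, mul_one] at hlim
  have hle : ∀ᶠ n : ℕ in Filter.atTop, (a : ℝ) * ((n : ℝ) / (n + (q : ℝ))) ^ k ≤ b := by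
    filter_upwards [Filter.eventually_ge_atTop 1] with n hn
    obtain ⟨E, rfl⟩ : ∃ E, n = E + 1 := ⟨n - 1, by omega⟩
    have h1 := key E
    have h2 : (a : ℝ) * ((E : ℝ) + 1) ^ k ≤ b * ((E : ℝ) + q + 1) ^ k := by exact_mod_cast h1
    have hpos : (0 : ℝ) < ((E : ℝ) + q + 1) ^ k := by positivity
    rw [div_pow, mul_div_assoc', div_le_iff₀ (by push_cast; positivity)]
    push_cast
    have e : ((E : ℝ) + 1 + q) = (E : ℝ) + q + 1 := by ring
    rw [e]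
    exact h2
  have := le_of_tendsto hlim hle
  exact_mod_cast this

omit [Fintype ι] in
theorem ph_eval_map_genF {k : ℕ} (ζ : ι → GenF k) (f : MvPolynomial ι ℂ) :
    eval ζ (map (algebraMap ℂ (GenF k)) f) = aeval ζ f := by
  rw [eval_map, aeval_def]

/-- the common core of the lower bounds: separators on the union of the sheets -/
theorem ph_low_core {k : ℕ} (𝒱 : Finset (Ideal (MvPolynomial ι ℂ))) (hpr : ∀ p ∈ 𝒱, p.IsPrime)
    (t : Fin k → MvPolynomial ι ℂ) (ht : ∀ p ∈ 𝒱, NPos p t) (q : ℕ)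
    (hsep : ∀ p ∈ 𝒱, ∀ ζ ∈ sheets p t, ∃ s : MvPolynomial ι (GenF k), s.totalDegree ≤ q ∧
      eval ζ s = 1 ∧ ∀ p' ∈ 𝒱, ∀ y ∈ sheets p' t, y ≠ ζ → eval y s = 0)
    (hlin : ∀ i, (t i).totalDegree ≤ 1)
    (D : ℕ) (hD : q ≤ D) :
    (∑ p ∈ 𝒱, (sheets p t).ncard) * (D - q + k).choose k ≤ hI (𝒱.inf id) D := by
  classical
  set Sf : Ideal (MvPolynomial ι ℂ) → Finset (ι → GenF k) :=
    fun p => if h : (sheets p t).Finite then h.toFinset else ∅ with hSf
  have hSf_mem : ∀ p ∈ 𝒱, ∀ ζ, ζ ∈ Sf p ↔ ζ ∈ sheets p t := by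
    intro p hp ζ
    have hfin := ph_sheets_finite p (hpr p hp) t (ht p hp)
    simp only [hSf, dif_pos hfin, Set.Finite.mem_toFinset]
  have hSf_card : ∀ p ∈ 𝒱, (Sf p).card = (sheets p t).ncard := by
    intro p hp
    have hfin := ph_sheets_finite p (hpr p hp) t (ht p hp)
    simp only [hSf, dif_pos hfin]
    exact (Set.ncard_eq_toFinset_card _ hfin).symm
  set Sg := 𝒱.biUnion Sf with hSg
  have hcard : Sg.card = ∑ p ∈ 𝒱, (sheets p t).ncard := by
    rw [hSg, Finset.card_biUnion, Finset.sum_congr rfl hSf_card]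
    intro p hp p' hp' hne
    have hp : p ∈ 𝒱 := hp
    have hp' : p' ∈ 𝒱 := hp'
    show Disjoint (Sf p) (Sf p')
    rw [Finset.disjoint_left]
    intro ζ h1 h2
    exact Set.disjoint_left.mp (ph_sheets_disjoint p p' (hpr p hp) (hpr p' hp') t (ht p hp)
      (ht p' hp') hne) ((hSf_mem p hp ζ).mp h1) ((hSf_mem p' hp' ζ).mp h2)
  have hSgmem : ∀ ζ, ζ ∈ Sg ↔ ∃ p ∈ 𝒱, ζ ∈ sheets p t := by
    intro ζ
    rw [hSg, Finset.mem_biUnion]
    constructor
    · rintro ⟨p, hp, h⟩; exact ⟨p, hp, (hSf_mem p hp ζ).mp h⟩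
    · rintro ⟨p, hp, h⟩; exact ⟨p, hp, (hSf_mem p hp ζ).mpr h⟩
  rw [← hcard]
  set m := Sg.card with hm
  set en : Fin m ≃ Sg := Sg.equivFin.symm with hen
  set Λ : MvPolynomial ι (GenF k) →ₗ[GenF k] (Fin m → GenF k) :=
    LinearMap.pi fun j => (aeval (en j).1 : MvPolynomial ι (GenF k) →ₐ[GenF k] GenF k).toLinearMap
    with hΛ
  have hΛa : ∀ g j, Λ g j = eval (en j).1 g := by
    intro g j
    simp [hΛ]
  have hen_mem : ∀ j, ∃ p ∈ 𝒱, (en j).1 ∈ sheets p t := fun j => (hSgmem _).mp (en j).2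
  apply ph_low_lin (gpt k) (ph_gpt_algInd k) t hlin Λ _ q _ _ _ D hD
  · intro i g
    funext j
    obtain ⟨p, hp, hj⟩ := hen_mem j
    rw [hΛa, Pi.smul_apply, hΛa, map_mul, ph_eval_map_genF, hj.2 i, smul_eq_mul]
  · intro w
    have hs : ∀ j, ∃ s : MvPolynomial ι (GenF k), s.totalDegree ≤ q ∧ eval (en j).1 s = 1 ∧
        ∀ j', j' ≠ j → eval (en j').1 s = 0 := by
      intro j
      obtain ⟨p, hp, hj⟩ := hen_mem j
      obtain ⟨s, h1, h2, h3⟩ := hsep p hp _ hj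
      refine ⟨s, h1, h2, fun j' hj' => ?_⟩
      obtain ⟨p', hp', hj2⟩ := hen_mem j'
      apply h3 p' hp' _ hj2
      intro h
      exact hj' (en.injective (Subtype.ext h))
    choose s hs1 hs2 hs3 using hs
    refine ⟨∑ j, C (w j) * s j, ?_, ?_⟩
    · apply totalDegree_finsetSum_le
      intro j _
      refine (totalDegree_mul _ _).trans ?_
      rw [totalDegree_C, zero_add]
      exact hs1 j
    · funext j'
      rw [hΛa, map_sum, Finset.sum_eq_single j']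
      · rw [map_mul, eval_C, hs2, mul_one]
      · intro j _ hj
        rw [map_mul, hs3 j j' hj.symm, mul_zero]
      · intro h; exact absurd (Finset.mem_univ _) h
  · intro f hf
    funext j
    obtain ⟨p, hp, hj⟩ := hen_mem j
    rw [hΛa, ph_eval_map_genF, Pi.zero_apply]
    have : f ∈ p := by
      have h1 : 𝒱.inf id ≤ p := Finset.inf_le (f := id) hp
      exact h1 hf
    exact (ph_sheets_ker p (hpr p hp) t (ht p hp) _ hj f).mpr this

omit [Fintype ι] in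
theorem ph_totalDegree_map_le {R S : Type*} [CommSemiring R] [CommSemiring S] (φ : R →+* S)
    (f : MvPolynomial ι R) : (map φ f).totalDegree ≤ f.totalDegree :=
  Finset.sup_mono (support_map_subset φ f)

omit [Fintype ι] in
theorem ph_sheetSys_deg {k : ℕ} (G : Set (MvPolynomial ι ℂ)) (t : Fin k → MvPolynomial ι ℂ)
    (hlin : ∀ i, (t i).totalDegree ≤ 1) (L : ℕ) (hL : 1 ≤ L) (hG : ∀ g ∈ G, g.totalDegree ≤ L) :
    ∀ g ∈ sheetSys G t, g.totalDegree ≤ L := by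
  rintro g (⟨g0, hg0, rfl⟩ | ⟨i, rfl⟩)
  · exact (ph_totalDegree_map_le _ _).trans (hG g0 hg0)
  · refine (totalDegree_sub _ _).trans ?_
    rw [totalDegree_C]
    exact max_le (((ph_totalDegree_map_le _ _).trans (hlin i)).trans hL) (Nat.zero_le _)

omit [Fintype ι] in
theorem ph_sheet_zero_sheetSys {k : ℕ} (G : Set (MvPolynomial ι ℂ)) (t : Fin k → MvPolynomial ι ℂ)
    (p : Ideal (MvPolynomial ι ℂ)) (hGp : Ideal.span G ≤ p) (y : ι → GenF k) (hy : y ∈ sheets p t) :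
    ∀ g ∈ sheetSys G t, eval y g = 0 := by
  rintro g (⟨g0, hg0, rfl⟩ | ⟨i, rfl⟩)
  · rw [ph_eval_map_genF]
    exact (mem_zeroLocus_iff.mp hy.1) _ (hGp (Ideal.subset_span hg0))
  · rw [map_sub, ph_eval_map_genF, eval_C, hy.2 i, sub_self]

theorem ph_low_primes {k : ℕ} (G : Set (MvPolynomial ι ℂ)) (L : ℕ) (hG : ∀ g ∈ G, g.totalDegree ≤ L)
    (𝒱 : Finset (Ideal (MvPolynomial ι ℂ))) (h𝒱 : ∀ p ∈ 𝒱, p ∈ (Ideal.span G).minimalPrimes)
    (t : Fin k → MvPolynomial ι ℂ) (ht : ∀ p ∈ 𝒱, NPos p t) (D : ℕ)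
    (hD : Fintype.card ι * (L - 1) ≤ D) :
    (∑ p ∈ 𝒱, (sheets p t).ncard) * (D - Fintype.card ι * (L - 1) + k).choose k
      ≤ hI (𝒱.inf id) D := by
  classical
  rcases 𝒱.eq_empty_or_nonempty with rfl | ⟨p₀, hp₀⟩
  · simp
  have hlin := (ht p₀ hp₀).lin
  apply ph_low_core 𝒱 (fun p hp => (h𝒱 p hp).1.1) t ht _ _ hlin D hD
  intro p hp ζ hζ
  obtain ⟨s, h1, h2, h3⟩ := ph_separator (sheetSys G t) (max L 1)
    (ph_sheetSys_deg G t hlin _ (le_max_right _ _) fun g hg => (hG g hg).trans (le_max_left _ _)) ζ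
    (ph_sheet_iso G p (h𝒱 p hp) t (ht p hp) ζ hζ)
  refine ⟨s, ?_, h2, fun p' hp' y hy hne => h3 y hne
    (ph_sheet_zero_sheetSys G t p' (h𝒱 p' hp').1.2 y hy)⟩
  have : max L 1 - 1 = L - 1 := by omega
  rwa [this] at h1

theorem ph_low_primes_union {k : ℕ} {ν : Type*} (s : Finset ν) (G : ν → Set (MvPolynomial ι ℂ))
    (L : ν → ℕ) (hL : ∀ a ∈ s, 1 ≤ L a) (hG : ∀ a ∈ s, ∀ g ∈ G a, g.totalDegree ≤ L a)
    (𝒱 : Finset (Ideal (MvPolynomial ι ℂ)))
    (h𝒱 : ∀ p ∈ 𝒱, ∃ a ∈ s, p ∈ (Ideal.span (G a)).minimalPrimes)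
    (t : Fin k → MvPolynomial ι ℂ) (ht : ∀ p ∈ 𝒱, NPos p t) (D : ℕ)
    (hD : Fintype.card ι * ∑ a ∈ s, L a ≤ D) :
    (∑ p ∈ 𝒱, (sheets p t).ncard) * (D - Fintype.card ι * ∑ a ∈ s, L a + k).choose k
      ≤ hI (𝒱.inf id) D := by
  classical
  rcases 𝒱.eq_empty_or_nonempty with rfl | ⟨p₀, hp₀⟩
  · simp
  have hlin := (ht p₀ hp₀).lin
  have hpr : ∀ p ∈ 𝒱, p.IsPrime := fun p hp => by
    obtain ⟨a, _, h⟩ := h𝒱 p hp
    exact h.1.1
  apply ph_low_core 𝒱 hpr t ht _ _ hlin D hD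
  -- the lists
  set Sf : Ideal (MvPolynomial ι ℂ) → Finset (ι → GenF k) :=
    fun p => if h : (sheets p t).Finite then h.toFinset else ∅ with hSf
  have hSf_mem : ∀ p ∈ 𝒱, ∀ ζ, ζ ∈ Sf p ↔ ζ ∈ sheets p t := by
    intro p hp ζ
    have hfin := ph_sheets_finite p (hpr p hp) t (ht p hp)
    simp only [hSf, dif_pos hfin, Set.Finite.mem_toFinset]
  set S : ν → Finset (ι → GenF k) :=
    fun a => (𝒱.filter fun p => p ∈ (Ideal.span (G a)).minimalPrimes).biUnion Sf with hS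
  have hSmem : ∀ a ζ, ζ ∈ S a ↔ ∃ p ∈ 𝒱, p ∈ (Ideal.span (G a)).minimalPrimes ∧ ζ ∈ sheets p t := by
    intro a ζ
    simp only [hS, Finset.mem_biUnion, Finset.mem_filter]
    constructor
    · rintro ⟨p, ⟨hp, hm⟩, h⟩; exact ⟨p, hp, hm, (hSf_mem p hp ζ).mp h⟩
    · rintro ⟨p, hp, hm, h⟩; exact ⟨p, ⟨hp, hm⟩, (hSf_mem p hp ζ).mpr h⟩
  intro p hp ζ hζ
  obtain ⟨a, ha, hpa⟩ := h𝒱 p hp
  obtain ⟨σ, h1, h2, h3⟩ := ph_union_sep s (fun a => sheetSys (G a) t) L hL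
    (fun a ha => ph_sheetSys_deg (G a) t hlin _ (hL a ha) (hG a ha)) S
    (fun a _ z hz => by
      obtain ⟨p, hp, hm, h⟩ := (hSmem a z).mp hz
      exact ph_sheet_iso (G a) p hm t (ht p hp) z h) ζ ⟨a, ha, (hSmem a ζ).mpr ⟨p, hp, hpa, hζ⟩⟩
  refine ⟨σ, h1, h2, fun p' hp' y hy hne => h3 y ?_ hne⟩
  obtain ⟨a', ha', hpa'⟩ := h𝒱 p' hp'
  exact ⟨a', ha', (hSmem a' y).mpr ⟨p', hp', hpa', hy⟩⟩

/-! ### PH-deg-b -/

theorem ph_isVar_nonempty (V : Set (ι → ℂ)) (hV : IsVar V) : V.Nonempty := by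
  obtain ⟨p, hp, rfl⟩ := hV
  by_contra hne
  rw [Set.not_nonempty_iff_eq_empty] at hne
  have h1 : vanishingIdeal ℂ (zeroLocus ℂ p) = p := by
    rw [vanishingIdeal_zeroLocus_eq_radical, hp.radical]
  rw [hne] at h1
  apply hp.ne_top
  rw [← h1, eq_top_iff]
  intro f _
  rw [mem_vanishingIdeal_iff]
  intro x hx
  exact absurd hx (Set.notMem_empty x)

theorem ph_up_var (V : Set (ι → ℂ)) (hV : IsVar V) (D : ℕ) :
    hA V D ≤ vdeg V * (D + vdim V).choose (vdim V) := by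
  obtain ⟨p, hp, rfl⟩ := hV
  obtain ⟨k, t, _, ht⟩ := ph_exists_npos p hp.ne_top
  obtain ⟨m, e, hi, hs⟩ := ph_exists_basis p hp t ht
  have hk := ph_vdim_of_npos p hp t ht
  have hne : {a | ∀ D, hA (zeroLocus ℂ p) D
      ≤ a * (D + vdim (zeroLocus ℂ p)).choose (vdim (zeroLocus ℂ p))}.Nonempty :=
    ⟨m, fun D => by rw [hk, ph_hA_zeroLocus_prime p hp]; exact ph_up p hp t ht e hi hs D⟩
  exact Nat.sInf_mem hne D

theorem ph_vdeg_eq_sheets {k : ℕ} (p : Ideal (MvPolynomial ι ℂ)) (hp : p.IsPrime)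
    (t : Fin k → MvPolynomial ι ℂ) (ht : NPos p t) : vdeg (zeroLocus ℂ p) = (sheets p t).ncard := by
  classical
  have hk := ph_vdim_of_npos p hp t ht
  apply le_antisymm
  · obtain ⟨m, e, hi, hs⟩ := ph_exists_basis p hp t ht
    refine le_trans (Nat.sInf_le ?_) (ph_indep_le_sheets p hp t ht e hi)
    intro D
    rw [hk, ph_hA_zeroLocus_prime p hp]
    exact ph_up p hp t ht e hi hs D
  · obtain ⟨S, hS⟩ := (IsNoetherian.noetherian p : p.FG)
    set L := S.sup totalDegree with hL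
    have hmin : p ∈ (Ideal.span (S : Set (MvPolynomial ι ℂ))).minimalPrimes := by
      have : Ideal.span (S : Set (MvPolynomial ι ℂ)) = p := hS
      rw [this, Ideal.minimalPrimes_eq_subsingleton_self]
      exact Set.mem_singleton p
    apply ph_choose_asymp _ _ (Fintype.card ι * (L - 1)) k
    intro D hD
    have h1 := ph_low_primes (S : Set (MvPolynomial ι ℂ)) L
      (fun g hg => Finset.le_sup (f := totalDegree) hg) {p} (fun p' hp' => by
        rw [Finset.mem_singleton.mp hp']; exact hmin) t (fun p' hp' => by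
        rw [Finset.mem_singleton.mp hp']; exact ht) D hD
    rw [Finset.sum_singleton, Finset.inf_singleton, id] at h1
    refine h1.trans ?_
    have h2 := ph_up_var (zeroLocus ℂ p) ⟨p, hp, rfl⟩ D
    rw [hk, ph_hA_zeroLocus_prime p hp] at h2
    exact h2

theorem ph_vdeg_pos (V : Set (ι → ℂ)) (hV : IsVar V) : 1 ≤ vdeg V := by
  have h1 := ph_up_var V hV 0
  rw [rk_hA_zero V (ph_isVar_nonempty V hV), zero_add, Nat.choose_self, mul_one] at h1
  exact h1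

theorem ph_hA_le_choose (T : Set (ι → ℂ)) (D : ℕ) :
    hA T D ≤ 1 * (D + Fintype.card ι).choose (Fintype.card ι) := by
  have h1 : hA T D ≤ finrank ℂ (restrictTotalDegree ι ℂ D) := rk_rkOn_le_finrank _ _
  rw [rk_finrank_restrict, add_comm (Fintype.card ι), Nat.choose_symm_add] at h1
  rw [one_mul]; exact h1

theorem ph_vdim_le (T : Set (ι → ℂ)) : vdim T ≤ Fintype.card ι :=
  ph_vdim_le_of_bound T _ 1 (ph_hA_le_choose T)

theorem ph_vdim_mono {T T' : Set (ι → ℂ)} (h : T ⊆ T') : vdim T ≤ vdim T' := by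
  have hne : {k | ∃ C : ℕ, ∀ D, hA T' D ≤ C * (D + 1) ^ k}.Nonempty :=
    ⟨Fintype.card ι, 1, fun D => (ph_hA_le_choose T' D).trans
      (Nat.mul_le_mul_left _ (ph_choose_le_pow D _))⟩
  obtain ⟨C, hC⟩ := Nat.sInf_mem hne
  exact Nat.sInf_le ⟨C, fun D => (rk_hA_mono_set D h).trans (hC D)⟩

theorem ph_var_ge (V : Set (ι → ℂ)) (hV : IsVar V) (D : ℕ) :
    (D + vdim V).choose (vdim V) ≤ hA V D := by
  obtain ⟨p, hp, rfl⟩ := hV
  obtain ⟨k, t, _, ht⟩ := ph_exists_npos p hp.ne_top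
  rw [ph_vdim_of_npos p hp t ht, ph_hA_zeroLocus_prime p hp]
  exact ph_hI_ge_of_inj p t ht.lin ht.inj D

/-! ### PH-deg-c -/

theorem ph_isCompOf_isVar {V : Set (ι → ℂ)} {G : Set (MvPolynomial ι ℂ)} (h : IsCompOf V G) :
    IsVar V := by
  obtain ⟨p, hp, rfl⟩ := h
  exact ⟨p, hp.1.1, rfl⟩

/-- the degree-`D` envelope of a set -/
def Env (T : Set (ι → ℂ)) (D : ℕ) : Set (ι → ℂ) :=
  Zl {f | f.totalDegree ≤ D ∧ ∀ x ∈ T, eval x f = 0}

theorem ph_subset_env (T : Set (ι → ℂ)) (D : ℕ) : T ⊆ Env T D := fun _ hx _ hf => hf.2 _ hx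

omit [Fintype ι] in
theorem ph_mem_zeroLocus (I : Ideal (MvPolynomial ι ℂ)) (x : ι → ℂ) :
    x ∈ zeroLocus ℂ I ↔ ∀ f ∈ I, eval x f = 0 := by
  rw [mem_zeroLocus_iff]
  simp only [aeval_eq_eval]

omit [Fintype ι] in
theorem ph_Zl_eq_zeroLocus (G : Set (MvPolynomial ι ℂ)) : Zl G = zeroLocus ℂ (Ideal.span G) := by
  ext x
  rw [ph_mem_zeroLocus]
  constructor
  · intro h f hf
    have : Ideal.span G ≤ RingHom.ker (eval x) := Ideal.span_le.mpr fun g hg => h g hg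
    exact this hf
  · intro h g hg
    exact h g (Ideal.subset_span hg)

omit [Fintype ι] in
theorem ph_mem_vanishingIdeal (T : Set (ι → ℂ)) (f : MvPolynomial ι ℂ) :
    f ∈ vanishingIdeal ℂ T ↔ ∀ x ∈ T, eval x f = 0 := by
  rw [mem_vanishingIdeal_iff]
  simp only [aeval_eq_eval]

theorem ph_vanishing_prime (p : Ideal (MvPolynomial ι ℂ)) (hp : p.IsPrime) :
    vanishingIdeal ℂ (zeroLocus ℂ p) = p := by
  rw [vanishingIdeal_zeroLocus_eq_radical, hp.radical]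

theorem ph_zeroLocus_subset_iff (I p : Ideal (MvPolynomial ι ℂ)) (hp : p.IsPrime) :
    zeroLocus ℂ p ⊆ zeroLocus ℂ I ↔ I ≤ p := by
  constructor
  · intro h f hf
    rw [← ph_vanishing_prime p hp, ph_mem_vanishingIdeal]
    intro x hx
    exact (ph_mem_zeroLocus I x).mp (h hx) f hf
  · intro h
    exact zeroLocus_anti_mono h

theorem ph_zeroLocus_inj {p p' : Ideal (MvPolynomial ι ℂ)} (hp : p.IsPrime) (hp' : p'.IsPrime)
    (h : zeroLocus ℂ p = zeroLocus ℂ p') : p = p' :=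
  le_antisymm ((ph_zeroLocus_subset_iff p p' hp').mp h.ge) ((ph_zeroLocus_subset_iff p' p hp).mp h.le)

theorem ph_isCompOf_subset {V : Set (ι → ℂ)} {G : Set (MvPolynomial ι ℂ)} (h : IsCompOf V G) :
    V ⊆ Zl G := by
  obtain ⟨p, hp, rfl⟩ := h
  rw [ph_Zl_eq_zeroLocus]
  exact zeroLocus_anti_mono hp.1.2

theorem ph_comps_finite (G : Set (MvPolynomial ι ℂ)) : {V | IsCompOf V G}.Finite := by
  have hfin : (Ideal.span G).minimalPrimes.Finite :=
    Ideal.finite_minimalPrimes_of_isNoetherianRing _ _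
  refine (hfin.image (fun p => zeroLocus ℂ p)).subset ?_
  rintro V ⟨p, hp, rfl⟩
  exact ⟨p, hp, rfl⟩

/-- an irreducible subset of `Z(G)` lies in a component -/
theorem ph_isVar_subset_comp {W : Set (ι → ℂ)} (hW : IsVar W) {G : Set (MvPolynomial ι ℂ)}
    (h : W ⊆ Zl G) : ∃ V, IsCompOf V G ∧ W ⊆ V := by
  obtain ⟨q, hq, rfl⟩ := hW
  rw [ph_Zl_eq_zeroLocus, ph_zeroLocus_subset_iff _ _ hq] at h
  obtain ⟨p, hp, hpq⟩ := Ideal.exists_minimalPrimes_le h
  exact ⟨_, ⟨p, hp, rfl⟩, zeroLocus_anti_mono hpq⟩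

/-- every point of `Z(G)` lies on a component -/
theorem ph_Zl_eq_iUnion_comps (G : Set (MvPolynomial ι ℂ)) : Zl G = ⋃ V ∈ {V | IsCompOf V G}, V := by
  ext x
  simp only [Set.mem_iUnion, Set.mem_setOf_eq, exists_prop]
  constructor
  · intro hx
    have hle : Ideal.span G ≤ RingHom.ker (eval x) := Ideal.span_le.mpr fun g hg => hx g hg
    haveI : (RingHom.ker (eval x : MvPolynomial ι ℂ →+* ℂ)).IsPrime := RingHom.ker_isPrime _
    obtain ⟨p, hp, hpq⟩ := Ideal.exists_minimalPrimes_le hle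
    exact ⟨_, ⟨p, hp, rfl⟩, (ph_mem_zeroLocus p x).mpr fun f hf => hpq hf⟩
  · rintro ⟨V, hV, hx⟩
    exact ph_isCompOf_subset hV hx

/-- irreducibility: `V ⊆ Z(f g)` implies `V ⊆ Z(f)` or `V ⊆ Z(g)` -/
theorem ph_isVar_mul {V : Set (ι → ℂ)} (hV : IsVar V) (f g : MvPolynomial ι ℂ)
    (h : ∀ x ∈ V, eval x (f * g) = 0) : (∀ x ∈ V, eval x f = 0) ∨ ∀ x ∈ V, eval x g = 0 := by
  obtain ⟨p, hp, rfl⟩ := hV
  have h1 : f * g ∈ p := by
    rw [← ph_vanishing_prime p hp, ph_mem_vanishingIdeal]; exact h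
  rcases hp.mem_or_mem h1 with h2 | h2
  · exact Or.inl fun x hx => (ph_mem_zeroLocus p x).mp hx f h2
  · exact Or.inr fun x hx => (ph_mem_zeroLocus p x).mp hx g h2

/-- components are not contained in one another -/
theorem ph_comp_not_subset {V W : Set (ι → ℂ)} {G : Set (MvPolynomial ι ℂ)} (hV : IsCompOf V G)
    (hW : IsCompOf W G) (h : V ⊆ W) : V = W := by
  obtain ⟨p, hp, rfl⟩ := hV
  obtain ⟨p', hp', rfl⟩ := hW
  have h1 : p' ≤ p := (ph_zeroLocus_subset_iff p' p hp.1.1).mp h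
  rw [le_antisymm h1 (hp.2 hp'.1 h1)]

/-- vanishing ideal of a finite union of varieties -/
theorem ph_hA_biUnion_primes (𝒬 : Finset (Ideal (MvPolynomial ι ℂ))) (hpr : ∀ p ∈ 𝒬, p.IsPrime)
    (D : ℕ) : hA (⋃ p ∈ 𝒬, zeroLocus ℂ p) D = hI (𝒬.inf id) D := by
  rw [ph_hA_eq_hI]
  congr 1
  ext f
  rw [ph_mem_vanishingIdeal, Submodule.mem_finsetInf]
  constructor
  · intro h p hp
    show f ∈ p
    rw [← ph_vanishing_prime p (hpr p hp), ph_mem_vanishingIdeal]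
    intro x hx
    exact h x (Set.mem_biUnion hp hx)
  · intro h x hx
    obtain ⟨p, hp, hxp⟩ := Set.mem_iUnion₂.mp hx
    exact (ph_mem_zeroLocus p x).mp hxp f (h p hp)

/-- from a finite family of varieties to the family of their primes -/
theorem ph_family_primes (𝒱 : Finset (Set (ι → ℂ))) (R : Set (ι → ℂ) → Ideal (MvPolynomial ι ℂ) → Prop)
    (h𝒱 : ∀ V ∈ 𝒱, ∃ p : Ideal (MvPolynomial ι ℂ), p.IsPrime ∧ V = zeroLocus ℂ p ∧ R V p) :
    ∃ 𝒬 : Finset (Ideal (MvPolynomial ι ℂ)), (∀ p ∈ 𝒬, p.IsPrime ∧ zeroLocus ℂ p ∈ 𝒱 ∧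
        R (zeroLocus ℂ p) p) ∧
      (⋃ V ∈ 𝒱, V) = (⋃ p ∈ 𝒬, zeroLocus ℂ p) ∧
      ∀ F : Set (ι → ℂ) → ℕ, ∑ p ∈ 𝒬, F (zeroLocus ℂ p) = ∑ V ∈ 𝒱, F V := by
  classical
  have hex : ∀ V : Set (ι → ℂ), ∃ p : Ideal (MvPolynomial ι ℂ), V ∈ 𝒱 →
      (p.IsPrime ∧ V = zeroLocus ℂ p ∧ R V p) := by
    intro V
    by_cases hV : V ∈ 𝒱
    · obtain ⟨p, hp⟩ := h𝒱 V hV
      exact ⟨p, fun _ => hp⟩
    · exact ⟨⊥, fun h => absurd h hV⟩
  choose P hP using hex
  refine ⟨𝒱.image P, ?_, ?_, ?_⟩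
  · intro p hp
    obtain ⟨V, hV, rfl⟩ := Finset.mem_image.mp hp
    obtain ⟨h1, h2, h3⟩ := hP V hV
    rw [← h2]
    exact ⟨h1, hV, h3⟩
  · ext x
    simp only [Set.mem_iUnion, Finset.mem_image, exists_prop]
    constructor
    · rintro ⟨V, hV, hx⟩
      refine ⟨P V, ⟨V, hV, rfl⟩, ?_⟩
      rw [← (hP V hV).2.1]; exact hx
    · rintro ⟨_, ⟨V, hV, rfl⟩, hx⟩
      refine ⟨V, hV, ?_⟩
      rw [(hP V hV).2.1]; exact hx
  · intro F
    rw [Finset.sum_image]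
    · refine Finset.sum_congr rfl fun V hV => ?_
      rw [← (hP V hV).2.1]
    · intro V hV V' hV' h
      have hV : V ∈ 𝒱 := hV
      have hV' : V' ∈ 𝒱 := hV'
      rw [(hP V hV).2.1, (hP V' hV').2.1, h]

theorem ph_hilbert_low (G : Set (MvPolynomial ι ℂ)) (L : ℕ) (hG : ∀ g ∈ G, g.totalDegree ≤ L)
    (𝒱 : Finset (Set (ι → ℂ))) (h𝒱 : ∀ V ∈ 𝒱, IsCompOf V G) (k : ℕ) (hk : ∀ V ∈ 𝒱, vdim V = k)
    (D : ℕ) (hD : Fintype.card ι * (L - 1) ≤ D) :
    (∑ V ∈ 𝒱, vdeg V) * (D - Fintype.card ι * (L - 1) + k).choose k ≤ hA (⋃ V ∈ 𝒱, V) D := by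
  obtain ⟨𝒬, h1, h2, h3⟩ := ph_family_primes 𝒱 (fun _ p => p ∈ (Ideal.span G).minimalPrimes)
    (fun V hV => by
      obtain ⟨p, hp, rfl⟩ := h𝒱 V hV
      exact ⟨p, hp.1.1, rfl, hp⟩)
  obtain ⟨t, _, ht⟩ := ph_npos_family 𝒬 (fun p hp => (h1 p hp).1) k
    (fun p hp => hk _ (h1 p hp).2.1)
  rw [h2, ph_hA_biUnion_primes 𝒬 (fun p hp => (h1 p hp).1), ← h3 vdeg,
    Finset.sum_congr rfl fun p hp => ph_vdeg_eq_sheets p (h1 p hp).1 t (ht p hp)]
  exact ph_low_primes G L hG 𝒬 (fun p hp => (h1 p hp).2.2) t ht D hD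

theorem ph_hilbert_low_union {ν : Type*} (s : Finset ν) (G : ν → Set (MvPolynomial ι ℂ)) (L : ν → ℕ)
    (hL : ∀ a ∈ s, 1 ≤ L a) (hG : ∀ a ∈ s, ∀ g ∈ G a, g.totalDegree ≤ L a)
    (𝒱 : Finset (Set (ι → ℂ))) (h𝒱 : ∀ V ∈ 𝒱, ∃ a ∈ s, IsCompOf V (G a)) (k : ℕ)
    (hk : ∀ V ∈ 𝒱, vdim V = k) (D : ℕ) (hD : Fintype.card ι * ∑ a ∈ s, L a ≤ D) :
    (∑ V ∈ 𝒱, vdeg V) * (D - Fintype.card ι * ∑ a ∈ s, L a + k).choose k
      ≤ hA (⋃ V ∈ 𝒱, V) D := by
  obtain ⟨𝒬, h1, h2, h3⟩ := ph_family_primes 𝒱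
    (fun _ p => ∃ a ∈ s, p ∈ (Ideal.span (G a)).minimalPrimes)
    (fun V hV => by
      obtain ⟨a, ha, p, hp, rfl⟩ := h𝒱 V hV
      exact ⟨p, hp.1.1, rfl, a, ha, hp⟩)
  obtain ⟨t, _, ht⟩ := ph_npos_family 𝒬 (fun p hp => (h1 p hp).1) k
    (fun p hp => hk _ (h1 p hp).2.1)
  rw [h2, ph_hA_biUnion_primes 𝒬 (fun p hp => (h1 p hp).1), ← h3 vdeg,
    Finset.sum_congr rfl fun p hp => ph_vdeg_eq_sheets p (h1 p hp).1 t (ht p hp)]
  exact ph_low_primes_union s G L hL hG 𝒬 (fun p hp => (h1 p hp).2.2) t ht D hD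

theorem ph_hilbert_at (G : Set (MvPolynomial ι ℂ)) (L : ℕ) (hG : ∀ g ∈ G, g.totalDegree ≤ L)
    (𝒱 : Finset (Set (ι → ℂ))) (h𝒱 : ∀ V ∈ 𝒱, IsCompOf V G) (k : ℕ) (hk : ∀ V ∈ 𝒱, vdim V = k) :
    (∑ V ∈ 𝒱, vdeg V) * (L + k).choose k
      ≤ (Fintype.card ι + 1) ^ Fintype.card ι * hA (⋃ V ∈ 𝒱, V) L := by
  have h1 := ph_hilbert_low G L hG 𝒱 h𝒱 k hk (Fintype.card ι * (L - 1) + L) (Nat.le_add_right _ _)
  rw [Nat.add_sub_cancel_left] at h1
  refine h1.trans (le_trans (rk_hA_mono_deg _ ?_) (rk_hA_mul_le _ (Nat.succ_pos _) L))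
  have : Fintype.card ι * (L - 1) ≤ Fintype.card ι * L := Nat.mul_le_mul_left _ (Nat.sub_le _ _)
  calc Fintype.card ι * (L - 1) + L ≤ Fintype.card ι * L + L := by omega
    _ = (Fintype.card ι + 1) * L := by ring

theorem ph_hilbert_up_family (𝒱 : Finset (Set (ι → ℂ))) (h𝒱 : ∀ V ∈ 𝒱, IsVar V) (k : ℕ)
    (hk : ∀ V ∈ 𝒱, vdim V = k) (D : ℕ) :
    hA (⋃ V ∈ 𝒱, V) D ≤ (∑ V ∈ 𝒱, vdeg V) * (D + k).choose k := by
  refine (rk_rkOn_biUnion_le _ 𝒱 (fun V => V)).trans ?_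
  rw [Finset.sum_mul]
  refine Finset.sum_le_sum fun V hV => ?_
  have := ph_up_var V (h𝒱 V hV) D
  rw [hk V hV] at this
  exact this

theorem ph_hA_env (T : Set (ι → ℂ)) (D : ℕ) : hA (Env T D) D = hA T D := by
  apply le_antisymm
  · rw [ph_hA_eq_map, ph_hA_eq_map]
    apply ph_finrank_map_le_of_ker
    intro f hf h0
    rw [ph_phRes_eq_zero] at h0 ⊢
    rw [ph_mem_vanishingIdeal] at h0 ⊢
    intro x hx
    exact hx f ⟨(mem_restrictTotalDegree ι D f).mp hf, h0⟩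
  · exact rk_hA_mono_set D (ph_subset_env T D)

/-! ### PH-deg-d -/

theorem ph_choose_diff (D k : ℕ) : ∀ q, q ≤ D →
    (D + (k + 1)).choose (k + 1) ≤ (D - q + (k + 1)).choose (k + 1) + q * (D + k).choose k := by
  intro q
  induction q with
  | zero => intro _; simp
  | succ q ih =>
    intro hq
    have h1 := ih (by omega)
    have e : D - q + (k + 1) = (D - (q + 1) + (k + 1)) + 1 := by omega
    rw [e, Nat.choose_succ_succ] at h1
    have h2 : (D - (q + 1) + (k + 1)).choose k ≤ (D + k).choose k :=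
      Nat.choose_le_choose _ (by omega)
    calc (D + (k + 1)).choose (k + 1)
        ≤ (D - (q + 1) + (k + 1)).choose k + (D - (q + 1) + (k + 1)).choose (k + 1)
          + q * (D + k).choose k := h1
      _ ≤ (D - (q + 1) + (k + 1)).choose (k + 1) + (q + 1) * (D + k).choose k := by
          rw [add_mul, one_mul]; omega

theorem ph_hockey (n m : ℕ) :
    ∑ i ∈ Finset.range (n + 1), (i + m).choose m = (n + (m + 1)).choose (m + 1) := by
  induction n with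
  | zero => simp
  | succ n ih =>
    rw [Finset.sum_range_succ, ih]
    have e : n + 1 + (m + 1) = (n + (m + 1)) + 1 := by omega
    rw [e, Nat.choose_succ_succ]
    have e2 : n + 1 + m = n + (m + 1) := by omega
    rw [e2, add_comm]

/-- telescoping -/
theorem ph_telescope (a b : ℕ → ℕ) (q : ℕ) (ha : Monotone a)
    (h : ∀ D, q ≤ D → a (D - q) + b D ≤ a D) (J : ℕ) :
    ∑ j ∈ Finset.range (J + 1), b (q + j) ≤ q * a (q + J) := by
  have h1 : ∑ j ∈ Finset.range (J + 1), a j + ∑ j ∈ Finset.range (J + 1), b (q + j)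
      ≤ ∑ j ∈ Finset.range (J + 1), a (q + j) := by
    rw [← Finset.sum_add_distrib]
    refine Finset.sum_le_sum fun j _ => ?_
    have := h (q + j) (Nat.le_add_right _ _)
    rwa [Nat.add_sub_cancel_left] at this
  have h2 : ∑ i ∈ Finset.range (q + (J + 1)), a i
      = ∑ i ∈ Finset.range q, a i + ∑ j ∈ Finset.range (J + 1), a (q + j) :=
    Finset.sum_range_add _ _ _
  have h3 : ∑ i ∈ Finset.range ((J + 1) + q), a i
      = ∑ i ∈ Finset.range (J + 1), a i + ∑ j ∈ Finset.range q, a (J + 1 + j) :=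
    Finset.sum_range_add _ _ _
  have h4 : ∑ j ∈ Finset.range q, a (J + 1 + j) ≤ q * a (q + J) := by
    calc ∑ j ∈ Finset.range q, a (J + 1 + j) ≤ ∑ _j ∈ Finset.range q, a (q + J) :=
          Finset.sum_le_sum fun j hj => ha (by have := Finset.mem_range.mp hj; omega)
      _ = q * a (q + J) := by simp
  rw [add_comm (J + 1) q] at h3
  omega


theorem ph_section_hA (V : Set (ι → ℂ)) (hV : IsVar V) (g : MvPolynomial ι ℂ)
    (hg : ∃ x ∈ V, eval x g ≠ 0) {q D : ℕ} (hq : g.totalDegree ≤ q) (hqD : q ≤ D) :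
    hA V (D - q) + hA (V ∩ zset g) D ≤ hA V D := by
  obtain ⟨p, hp, rfl⟩ := hV
  have hgp : g ∉ p := by
    intro h
    obtain ⟨x, hx, hne⟩ := hg
    exact hne ((ph_mem_zeroLocus p x).mp hx g h)
  have h1 := ph_hI_residual p hp g hgp hq hqD
  rw [ph_hA_zeroLocus_prime p hp, ph_hA_zeroLocus_prime p hp, ph_hA_eq_hI]
  refine le_trans (Nat.add_le_add_left (ph_hI_anti ?_ D) _) h1
  rw [sup_le_iff]
  constructor
  · intro f hf
    rw [ph_mem_vanishingIdeal]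
    intro x hx
    exact (ph_mem_zeroLocus p x).mp hx.1 f hf
  · rw [Ideal.span_le]
    intro f hf
    rw [Set.mem_singleton_iff.mp hf]
    show g ∈ vanishingIdeal ℂ _
    rw [ph_mem_vanishingIdeal]
    intro x hx
    exact hx.2

/-- an irreducible variety as the only component of a finite system -/
theorem ph_isVar_system (V : Set (ι → ℂ)) (hV : IsVar V) :
    ∃ (S : Finset (MvPolynomial ι ℂ)), IsCompOf V (S : Set (MvPolynomial ι ℂ)) := by
  obtain ⟨p, hp, rfl⟩ := hV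
  obtain ⟨S, hS⟩ := (IsNoetherian.noetherian p : p.FG)
  refine ⟨S, p, ?_, rfl⟩
  have : Ideal.span (S : Set (MvPolynomial ι ℂ)) = p := hS
  rw [this, Ideal.minimalPrimes_eq_subsingleton_self]
  exact Set.mem_singleton p

/-- lower Hilbert bound for one variety, with some shift -/
theorem ph_var_low (V : Set (ι → ℂ)) (hV : IsVar V) :
    ∃ q₀ : ℕ, ∀ D, q₀ ≤ D → vdeg V * (D - q₀ + vdim V).choose (vdim V) ≤ hA V D := by
  classical
  obtain ⟨S, hS⟩ := ph_isVar_system V hV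
  refine ⟨Fintype.card ι * (S.sup totalDegree - 1), fun D hD => ?_⟩
  have := ph_hilbert_low (S : Set (MvPolynomial ι ℂ)) (S.sup totalDegree)
    (fun g hg => Finset.le_sup (f := totalDegree) hg) {V}
    (fun W hW => by rw [Finset.mem_singleton.mp hW]; exact hS) (vdim V)
    (fun W hW => by rw [Finset.mem_singleton.mp hW]) D hD
  simpa using this

theorem ph_vdim_lt_of_ssubset {V : Set (ι → ℂ)} (hV : IsVar V) {W : Set (ι → ℂ)} (hWV : W ⊆ V)
    (g : MvPolynomial ι ℂ) (hgW : ∀ x ∈ W, eval x g = 0) (hgV : ∃ x ∈ V, eval x g ≠ 0)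
    (hW : W.Nonempty) : vdim W < vdim V := by
  obtain ⟨q₀, hq₀⟩ := ph_var_low V hV
  set q := g.totalDegree with hq
  set Q := q + q₀ with hQ
  have hsub : W ⊆ V ∩ zset g := fun x hx => ⟨hWV hx, hgW x hx⟩
  -- the basic estimate
  have hmain : ∀ D, Q ≤ D → vdeg V * (D - Q + vdim V).choose (vdim V) + hA W D
      ≤ vdeg V * (D + vdim V).choose (vdim V) := by
    intro D hD
    have h1 := ph_section_hA V hV g hgV (le_refl q) (show q ≤ D by omega)
    have h2 := hq₀ (D - q) (by omega)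
    have h3 := ph_up_var V hV D
    have h4 := rk_hA_mono_set D hsub
    have e : D - q - q₀ = D - Q := by omega
    rw [e] at h2
    omega
  rcases Nat.eq_zero_or_pos (vdim V) with hk | hk
  · exfalso
    have h1 := hmain Q le_rfl
    rw [hk] at h1
    simp only [Nat.choose_zero_right, mul_one] at h1
    have h2 : 1 ≤ hA W Q := by
      rw [← rk_hA_zero W hW]
      exact rk_hA_mono_deg W (Nat.zero_le _)
    omega
  · obtain ⟨k, hk'⟩ : ∃ k, vdim V = k + 1 := ⟨vdim V - 1, by omega⟩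
    rw [hk'] at hmain ⊢
    have hb : ∀ D, Q ≤ D → hA W D ≤ vdeg V * (Q * (D + k).choose k) := by
      intro D hD
      have h1 := hmain D hD
      have h2 := Nat.mul_le_mul_left (vdeg V) (ph_choose_diff D k Q hD)
      rw [mul_add] at h2
      omega
    have hfin : vdim W ≤ k := by
      apply ph_vdim_le_of_bound W k (vdeg V * (Q * (Q + k).choose k))
      intro D
      have hpos : ∀ E, 1 ≤ (E + k).choose k := fun E => Nat.choose_pos (Nat.le_add_left _ _)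
      rcases le_total Q D with h | h
      · refine (hb D h).trans ?_
        calc vdeg V * (Q * (D + k).choose k) = vdeg V * (Q * 1) * (D + k).choose k := by ring
          _ ≤ vdeg V * (Q * (Q + k).choose k) * (D + k).choose k :=
            Nat.mul_le_mul_right _ (Nat.mul_le_mul_left _ (Nat.mul_le_mul_left _ (hpos Q)))
      · refine (rk_hA_mono_deg W h).trans ((hb Q le_rfl).trans ?_)
        exact Nat.le_mul_of_pos_right _ (hpos D)
    omega

theorem ph_bezout_system (G : Set (MvPolynomial ι ℂ)) (L : ℕ) (hG : ∀ g ∈ G, g.totalDegree ≤ L)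
    (𝒱 : Finset (Set (ι → ℂ))) (h𝒱 : ∀ V ∈ 𝒱, IsCompOf V G) (k : ℕ) (hk : ∀ V ∈ 𝒱, vdim V = k) :
    (∑ V ∈ 𝒱, vdeg V) * (L + k).choose k
      ≤ (Fintype.card ι + 1) ^ Fintype.card ι * (Fintype.card ι + L).choose L := by
  refine (ph_hilbert_at G L hG 𝒱 h𝒱 k hk).trans (Nat.mul_le_mul_left _ ?_)
  have h1 : hA (⋃ V ∈ 𝒱, V) L ≤ finrank ℂ (restrictTotalDegree ι ℂ L) := rk_rkOn_le_finrank _ _
  rwa [rk_finrank_restrict] at h1

theorem ph_bezout_section (V : Set (ι → ℂ)) (hV : IsVar V) (G₀ : Set (MvPolynomial ι ℂ))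
    (hG₀ : Zl G₀ = V) (g : MvPolynomial ι ℂ) (hg : ∃ x ∈ V, eval x g ≠ 0)
    (𝒲 : Finset (Set (ι → ℂ))) (h𝒲 : ∀ W ∈ 𝒲, IsCompOf W (insert g G₀))
    (hk : ∀ W ∈ 𝒲, vdim W + 1 = vdim V) :
    ∑ W ∈ 𝒲, vdeg W ≤ g.totalDegree * vdeg V := by
  classical
  rcases 𝒲.eq_empty_or_nonempty with rfl | ⟨W₀, hW₀⟩
  · simp
  obtain ⟨k, hk'⟩ : ∃ k, vdim V = k + 1 := ⟨vdim W₀, (hk W₀ hW₀).symm⟩
  have hkW : ∀ W ∈ 𝒲, vdim W = k := fun W hW => by have := hk W hW; omega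
  -- a finite system with the same ideal
  obtain ⟨S, hS⟩ := (IsNoetherian.noetherian (Ideal.span (insert g G₀)) :
    (Ideal.span (insert g G₀)).FG)
  have hS' : Ideal.span (S : Set (MvPolynomial ι ℂ)) = Ideal.span (insert g G₀) := hS
  have hcomp : ∀ W ∈ 𝒲, IsCompOf W (S : Set (MvPolynomial ι ℂ)) := by
    intro W hW
    obtain ⟨p, hp, rfl⟩ := h𝒲 W hW
    exact ⟨p, by rw [hS']; exact hp, rfl⟩
  set L := S.sup totalDegree with hL
  set q' := Fintype.card ι * (L - 1) with hq'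
  set q := g.totalDegree with hq
  set σ := ∑ W ∈ 𝒲, vdeg W with hσ
  have hsub : (⋃ W ∈ 𝒲, W) ⊆ V ∩ zset g := by
    intro x hx
    obtain ⟨W, hW, hxW⟩ := Set.mem_iUnion₂.mp hx
    have h1 := ph_isCompOf_subset (h𝒲 W hW) hxW
    refine ⟨?_, h1 g (Set.mem_insert _ _)⟩
    rw [← hG₀]
    exact fun f hf => h1 f (Set.mem_insert_of_mem _ hf)
  have hlow : ∀ D, q' ≤ D → σ * (D - q' + k).choose k ≤ hA (V ∩ zset g) D := by
    intro D hD
    exact (ph_hilbert_low (S : Set (MvPolynomial ι ℂ)) L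
      (fun f hf => Finset.le_sup (f := totalDegree) hf) 𝒲 hcomp k hkW D hD).trans
      (rk_hA_mono_set D hsub)
  have htel := ph_telescope (fun D => hA V D) (fun D => hA (V ∩ zset g) D) q
    (fun a b hab => rk_hA_mono_deg V hab)
    (fun D hD => ph_section_hA V hV g hg (le_refl q) hD)
  apply ph_choose_asymp _ _ (q + q') (k + 1)
  intro D hD
  obtain ⟨J, rfl⟩ : ∃ J, D = q + (q' + J) := ⟨D - q - q', by omega⟩
  have h1 := htel (q' + J)
  have h2 := ph_up_var V hV (q + (q' + J))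
  rw [hk'] at h2
  have h3 : σ * (J + (k + 1)).choose (k + 1)
      ≤ ∑ j ∈ Finset.range (q' + J + 1), hA (V ∩ zset g) (q + j) := by
    rw [← ph_hockey, Finset.mul_sum, add_assoc q' J 1,
      Finset.sum_range_add (fun j => hA (V ∩ zset g) (q + j)) q' (J + 1)]
    refine le_trans ?_ (Nat.le_add_left _ _)
    refine Finset.sum_le_sum fun i _ => ?_
    refine le_trans ?_ (hlow (q + (q' + i)) (by omega))
    exact Nat.mul_le_mul_left _ (Nat.choose_le_choose _ (by omega))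
  have e : q + (q' + J) - (q + q') = J := by omega
  rw [e]
  calc σ * (J + (k + 1)).choose (k + 1) ≤ q * hA V (q + (q' + J)) := h3.trans h1
    _ ≤ q * (vdeg V * (q + (q' + J) + (k + 1)).choose (k + 1)) := Nat.mul_le_mul_left _ h2
    _ = q * vdeg V * (q + (q' + J) + (k + 1)).choose (k + 1) := by ring

end Claimed.Agent.R273
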