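-- KEEP
import Claimed.Agent.R273.PhDeg

/-!
# Row 273, POLY-A 9 = layer [DIM]: `vdim` against Krull height; purity (Krull's principal ideal theorem for `vdim`).  Architect helper94.

Mathlib has: `Ideal.height`, Krull's height theorem (`Mathlib/RingTheory/Ideal/KrullsHeightTheorem.lean`), going-down for integral extensions of integrally
closed domains (`Mathlib/RingTheory/IntegralClosure/GoingDown.lean`, instance `Algebra.HasGoingDown R S`), `Ideal.exists_ltSeries_of_hasGoingDown`, `MvPolynomial` is a UFD (hence integrally closed).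
Mathlib does NOT have `height p + dim P/p = n`.  `n = card ι`.

LEAF PH-dim-a (`ph_filtfin_comp`, `ph_vdim_contract`).  `NPos I t` (`k` forms, `I` any proper ideal, here a prime `p₀`), `q ⊇ I` prime, `r := {a ∈ A_k | a(t) ∈ q}` (prime of `A_k = MvPolynomial (Fin k) ℂ`).
  If `NPos r s` (`s : Fin j → A_k`) then `NPos q (fun i => aeval t (s i))`: (lin) substitution of degree `≤ 1` in degree `≤ 1` (`rk_totalDegree_aeval_le`); (N1) `g(s(t)) ∈ q ⇒ g(s) ∈ r ⇒ g = 0`;
  (N2) `f ≡ ∑ a_l(t) b_l` mod `I ≤ q`, `a_l ≡ ∑ c_{l,u}(s) b'_u` mod `r`, so `f ≡ ∑ c_{l,u}(s(t)) b'_u(t) b_l` mod `q`, degrees add up correctly.  Hence `vdim Z(q) = vdim Z(r)` (`ph_exists_npos`, `ph_vdim_of_npos`).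
LEAF PH-dim-b (`ph_height_add_vdim`).  `≤`: for primes `q < q'`: `vdim Z(q') < vdim Z(q)` (`ph_vdim_lt_of_ssubset`, `g ∈ q' \ q`, Nullstellensatz); so a chain of length `r` below `p` gives `vdim Z(p) + r ≤ n` (`Ideal.height`/`primeHeight` = sup of lengths of `LTSeries`, `Order.height`).
  `≥`: induction on `n = card ι` (statement for all `ι`).  `p = ⊥`: `vdim univ = n`.  Otherwise `p` contains a prime element `f` (factor a nonzero element, UFD).  `NPos (span {f}) t'` with exactly `n - 1` forms (`vdim Z(f) = n - 1`: `≤ n-1` by `ph_vdim_lt_of_ssubset`;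
  `≥ n - 1` because `hA (zset f) D ≥ binom(D+n,n) - binom(D-e+n,n)`: `rk_hA_residual`-type count; or: `ph_exists_npos` gives `k ≤ n`, `k ≠ n` since (N1) fails.., and `k ≥ n-1` by the count).  `S := P ⧸ (f)` is a domain, integral over `A_{n-1}` (finite module by (N2)), faithful by (N1) ⇒ going-down.
  `r := p ∩ A_{n-1}`: `height (p/(f)) ≥ height r` (`Ideal.exists_ltSeries_of_hasGoingDown`) `= n - 1 - vdim Z(r)` (induction) `= n - 1 - vdim Z(p)` (`ph_vdim_contract`); `height p ≥ height (p/(f)) + 1` (pull the chain back to `P`, add `⊥ < ..`).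
LEAF PH-dim-c (`ph_krull`, `ph_pit`, `ph_point_of_vdim_zero`, `ph_vdim_zero_iff`).  `ph_krull`: `Ideal.height_le_spanRank..`/`Ideal.height_le_card..` for minimal primes of `span (range f)` + `ph_height_add_vdim`.
  `ph_pit`: `p = I(V)`, `q` minimal over `p + (g)`; `NPos p t`; in `B = P ⧸ p`: `q̄` minimal over `(ḡ)`, `height q̄ ≤ 1` (`Ideal.height_le_one_of_isPrincipal_of_mem_minimalPrimes`); going-down `A_k → B`: `height (q ∩ A_k) ≤ height q̄ ≤ 1`; `ph_height_add_vdim` in `A_k`: `vdim Z(q ∩ A_k) ≥ k - 1`; `ph_vdim_contract`; `<` from `ph_vdim_lt_of_ssubset`.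
-/

set_option autoImplicit false

namespace Claimed.Agent.R273

open MvPolynomial Module

/-- going-down for a finite injective ring homomorphism from an integrally closed domain: the height does not drop. -/
theorem ph_goingdown_height {A S : Type*} [CommRing A] [CommRing S] [IsDomain S]
    [IsNoetherianRing A] [IsNoetherianRing S] [IsIntegrallyClosed A] (φ : A →+* S) (hinj : Function.Injective φ)
    {m : ℕ} (b : Fin m → S) (hb : ∀ x : S, ∃ a : Fin m → A, x = ∑ j, φ (a j) * b j)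
    (Q : Ideal S) [Q.IsPrime] : (Q.comap φ).height ≤ Q.height := by
  classical
  let _ : Algebra A S := φ.toAlgebra
  have halg : ∀ a, algebraMap A S a = φ a := fun a => rfl
  have : FaithfulSMul A S := by
    rw [faithfulSMul_iff_algebraMap_injective]
    exact hinj
  have : Module.Finite A S := by
    refine ⟨⟨Finset.univ.image b, ?_⟩⟩
    rw [eq_top_iff]
    rintro x -
    obtain ⟨a, rfl⟩ := hb x
    refine Submodule.sum_mem _ fun j _ => ?_
    rw [← halg, ← Algebra.smul_def]
    exact Submodule.smul_mem _ _ (Submodule.subset_span (by simp))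
  have : Algebra.IsIntegral A S := Algebra.IsIntegral.of_finite _ _
  have : Q.LiesOver (Q.comap φ) := ⟨rfl⟩
  rw [Ideal.height_eq_height_add_of_liesOver_of_hasGoingDown (Q.comap φ) Q]
  exact le_self_add

variable {ι : Type*} [Fintype ι]

omit [Fintype ι] in
theorem ph_aeval_aeval {k j : ℕ} (t : Fin k → MvPolynomial ι ℂ) (s : Fin j → MvPolynomial (Fin k) ℂ)
    (g : MvPolynomial (Fin j) ℂ) :
    aeval (fun i => aeval t (s i)) g = aeval t (aeval s g) := by
  have : (aeval (fun i => aeval t (s i)) : MvPolynomial (Fin j) ℂ →ₐ[ℂ] MvPolynomial ι ℂ)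
      = (aeval t : MvPolynomial (Fin k) ℂ →ₐ[ℂ] MvPolynomial ι ℂ).comp (aeval s) := by
    apply MvPolynomial.algHom_ext
    intro i
    simp
  rw [this]
  rfl

/-- composition of Noether positions -/
theorem ph_npos_comp {k j : ℕ} (I q : Ideal (MvPolynomial ι ℂ)) (hIq : I ≤ q)
    (t : Fin k → MvPolynomial ι ℂ) (ht : NPos I t) (s : Fin j → MvPolynomial (Fin k) ℂ)
    (hs : NPos (q.comap (aeval t : MvPolynomial (Fin k) ℂ →ₐ[ℂ] MvPolynomial ι ℂ)) s) :
    NPos q (fun i => aeval t (s i)) := by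
  classical
  refine ⟨fun i => (ph_totalDegree_aeval_le t ht.lin (s i)).trans (hs.lin i), ?_, ?_⟩
  · intro g hg
    rw [ph_aeval_aeval] at hg
    exact hs.inj g hg
  · obtain ⟨m, b, hb⟩ := ht.fin
    obtain ⟨m', b', hb'⟩ := hs.fin
    apply ph_filtfin_of_fintype q _ (fun lu : Fin m × Fin m' => aeval t (b' lu.2) * b lu.1)
    intro f
    obtain ⟨a, ha1, ha2⟩ := hb f
    have hc : ∀ l : Fin m, ∃ c : Fin m' → MvPolynomial (Fin j) ℂ,
        (∀ u, c u = 0 ∨ (c u).totalDegree + (b' u).totalDegree + (b l).totalDegree ≤ f.totalDegree) ∧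
          a l - ∑ u, aeval s (c u) * b' u ∈
            q.comap (aeval t : MvPolynomial (Fin k) ℂ →ₐ[ℂ] MvPolynomial ι ℂ) := by
      intro l
      rcases ha1 l with h0 | h0
      · refine ⟨fun _ => 0, fun _ => Or.inl rfl, ?_⟩
        simp [h0]
      · obtain ⟨c, hc1, hc2⟩ := hb' (a l)
        refine ⟨c, fun u => ?_, hc2⟩
        rcases hc1 u with h | h
        · exact Or.inl h
        · exact Or.inr (by omega)
    choose c hc1 hc2 using hc
    refine ⟨fun lu => c lu.1 lu.2, fun lu => ?_, ?_⟩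
    · rcases hc1 lu.1 lu.2 with h | h
      · exact Or.inl h
      · refine Or.inr ?_
        have h1 := totalDegree_mul (aeval t (b' lu.2)) (b lu.1)
        have h2 := ph_totalDegree_aeval_le t ht.lin (b' lu.2)
        show (c lu.1 lu.2).totalDegree + _ ≤ _
        omega
    · have key : f - ∑ lu : Fin m × Fin m', aeval (fun i => aeval t (s i)) (c lu.1 lu.2) *
            (aeval t (b' lu.2) * b lu.1)
          = (f - ∑ l, aeval t (a l) * b l)
            + ∑ l, aeval t (a l - ∑ u, aeval s (c l u) * b' u) * b l := by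
        rw [Fintype.sum_prod_type]
        simp only [ph_aeval_aeval, map_sub, map_sum, map_mul, sub_mul, Finset.sum_sub_distrib,
          Finset.sum_mul]
        have : ∀ l : Fin m, ∀ u : Fin m', aeval t (aeval s (c l u)) * (aeval t (b' u) * b l)
            = aeval t (aeval s (c l u)) * aeval t (b' u) * b l := fun l u => by ring
        simp only [this]
        ring
      rw [key]
      refine q.add_mem (hIq ha2) (q.sum_mem fun l _ => q.mul_mem_right _ ?_)
      exact hc2 l

/-- the dimension does not change under contraction to a Noether normalisation -/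
theorem ph_vdim_contract {k : ℕ} (I q : Ideal (MvPolynomial ι ℂ)) (hIq : I ≤ q) (hq : q.IsPrime)
    (t : Fin k → MvPolynomial ι ℂ) (ht : NPos I t) :
    vdim (zeroLocus ℂ (q.comap (aeval t : MvPolynomial (Fin k) ℂ →ₐ[ℂ] MvPolynomial ι ℂ)))
      = vdim (zeroLocus ℂ q) := by
  have hr : (q.comap (aeval t : MvPolynomial (Fin k) ℂ →ₐ[ℂ] MvPolynomial ι ℂ)).IsPrime :=
    Ideal.comap_isPrime _ q
  obtain ⟨j, s, _, hs⟩ := ph_exists_npos _ hr.ne_top
  rw [ph_vdim_of_npos _ hr s hs, ph_vdim_of_npos q hq _ (ph_npos_comp I q hIq t ht s hs)]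

/-- Nullstellensatz for a prime: an element outside `q` does not vanish identically on `Z(q)`. -/
theorem ph_exists_ne_of_notMem (q : Ideal (MvPolynomial ι ℂ)) (hq : q.IsPrime)
    (g : MvPolynomial ι ℂ) (hg : g ∉ q) : ∃ x ∈ zeroLocus ℂ q, eval x g ≠ 0 := by
  by_contra hcon
  push Not at hcon
  apply hg
  have h1 : g ∈ vanishingIdeal ℂ (zeroLocus ℂ q) := by
    rw [mem_vanishingIdeal_iff]
    intro x hx
    rw [aeval_eq_eval]
    exact hcon x hx
  rwa [IsPrime.vanishingIdeal_zeroLocus] at h1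

theorem ph_vdim_lt_of_prime_lt {q q' : Ideal (MvPolynomial ι ℂ)} (hq : q.IsPrime) (hq' : q'.IsPrime)
    (h : q < q') : vdim (zeroLocus ℂ q') < vdim (zeroLocus ℂ q) := by
  obtain ⟨g, hg', hg⟩ := SetLike.exists_of_lt h
  refine ph_vdim_lt_of_ssubset ⟨q, hq, rfl⟩ (zeroLocus_anti_mono h.le) g ?_
    (ph_exists_ne_of_notMem q hq g hg) (ph_isVar_nonempty _ ⟨q', hq', rfl⟩)
  intro x hx
  have := (mem_zeroLocus_iff.mp hx) g hg'
  rwa [aeval_eq_eval] at this

theorem ph_height_add_vdim_le (p : Ideal (MvPolynomial ι ℂ)) (hp : p.IsPrime) :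
    p.height + (vdim (zeroLocus ℂ p) : ℕ∞) ≤ (Fintype.card ι : ℕ∞) := by
  set n := Fintype.card ι with hn
  let F : PrimeSpectrum (MvPolynomial ι ℂ) → ℕ := fun q => n - vdim (zeroLocus ℂ q.asIdeal)
  have hF : StrictMono F := by
    intro q q' hqq
    have h1 := ph_vdim_lt_of_prime_lt q.2 q'.2 hqq
    have h2 := ph_vdim_le (zeroLocus ℂ q.asIdeal)
    show n - _ < n - _
    omega
  have h1 := Order.height_le_height_apply_of_strictMono F hF ⟨p, hp⟩
  rw [Order.height_nat, ← PrimeSpectrum.height_eq_orderHeight] at h1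
  have h2 := ph_vdim_le (zeroLocus ℂ p)
  calc p.height + (vdim (zeroLocus ℂ p) : ℕ∞)
      ≤ ((n - vdim (zeroLocus ℂ p) : ℕ) : ℕ∞) + (vdim (zeroLocus ℂ p) : ℕ∞) := by
        gcongr
    _ = (n : ℕ∞) := by
        rw [← Nat.cast_add]
        congr 1
        omega

omit [Fintype ι] in
theorem ph_npos_bot {n : ℕ} (e : Fin n ≃ ι) :
    NPos (⊥ : Ideal (MvPolynomial ι ℂ)) (fun i => X (e i)) := by
  refine ⟨fun i => by simp, ?_, ph_filtfin_X _ e⟩
  intro g hg
  rw [Ideal.mem_bot] at hg
  have h1 : aeval (fun i => (X (e i) : MvPolynomial ι ℂ)) g = rename e g := by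
    rw [rename_eq_aeval]  
    rfl
  rw [h1] at hg
  exact (rename_injective e e.injective) (by rw [hg, map_zero])

theorem ph_vdim_bot : vdim (zeroLocus ℂ (⊥ : Ideal (MvPolynomial ι ℂ))) = Fintype.card ι :=
  ph_vdim_of_npos _ Ideal.isPrime_bot _ (ph_npos_bot (Fintype.equivFin ι).symm)

omit [Fintype ι] in
/-- a prime element involves some variable -/
theorem ph_exists_degreeOf_ne_zero (f : MvPolynomial ι ℂ) (hf : Prime f) :
    ∃ i, degreeOf i f ≠ 0 := by
  by_contra hcon
  push Not at hcon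
  have h1 : f.vars = ∅ := by
    rw [Finset.eq_empty_iff_forall_notMem]
    intro i hi
    exact (mem_vars_iff_degreeOf_ne_zero.mp hi) (hcon i)
  rw [vars_eq_empty_iff_eq_C] at h1
  by_cases h0 : f.coeff 0 = 0
  · apply hf.ne_zero
    rw [h1, h0, C_0]
  · apply hf.not_isUnit
    rw [h1]
    exact (isUnit_iff_ne_zero.mpr h0).map C

/-- the dimension of an irreducible hypersurface -/
theorem ph_vdim_hypersurface {k : ℕ} (hk : Fintype.card ι = k + 1) (f : MvPolynomial ι ℂ)
    (hf : Prime f) : vdim (zeroLocus ℂ (Ideal.span {f})) = k := by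
  classical
  have hI : (Ideal.span {f}).IsPrime := (Ideal.span_singleton_prime hf.ne_zero).mpr hf
  obtain ⟨i₀, hi₀⟩ := ph_exists_degreeOf_ne_zero f hf
  -- an enumeration with `e 0 = i₀`
  obtain ⟨e, he⟩ : ∃ e : Fin (k + 1) ≃ ι, e 0 = i₀ := by
    let e₀ : Fin (k + 1) ≃ ι := (finCongr hk.symm).trans (Fintype.equivFin ι).symm
    refine ⟨e₀.trans (Equiv.swap (e₀ 0) i₀), ?_⟩
    simp
  -- upper bound
  have hfe : aeval (fun i => (X (e i) : MvPolynomial ι ℂ)) (rename e.symm f) = f := by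
    have h1 : aeval (fun i => (X (e i) : MvPolynomial ι ℂ)) (rename e.symm f)
        = rename e (rename e.symm f) := by
      rw [rename_eq_aeval e]
      rfl
    rw [h1, rename_rename]
    simp
  obtain ⟨t', _, hf'⟩ := ph_filtfin_step (Ideal.span {f}) (fun i => X (e i)) (fun i => by simp)
    (ph_filtfin_X _ e) (rename e.symm f)
    (fun h => hf.ne_zero ((rename_injective _ e.symm.injective) (by rw [h, map_zero])))
    (by rw [hfe]; exact Ideal.mem_span_singleton_self f)
  obtain ⟨C, hC⟩ := ph_hI_le_of_filtfin _ t' hf'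
  apply ph_vdim_eq_of_bounds _ k C
  · intro D
    rw [ph_hA_zeroLocus_prime _ hI]
    apply ph_hI_ge_of_inj _ (fun j : Fin k => (X (e j.succ) : MvPolynomial ι ℂ)) (fun i => by simp)
    intro g hg
    by_contra hne
    have hinj : Function.Injective (fun j : Fin k => e j.succ) :=
      e.injective.comp (Fin.succ_injective k)
    have h1 : aeval (fun j : Fin k => (X (e j.succ) : MvPolynomial ι ℂ)) g
        = rename (fun j : Fin k => e j.succ) g := by
      rw [rename_eq_aeval]
      rfl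
    rw [h1, Ideal.mem_span_singleton] at hg
    obtain ⟨h, hh⟩ := hg
    have hr0 : rename (fun j : Fin k => e j.succ) g ≠ 0 := fun h0 =>
      hne ((rename_injective _ hinj) (by rw [h0, map_zero]))
    have hh0 : h ≠ 0 := by
      rintro rfl
      rw [mul_zero] at hh
      exact hr0 hh
    have h2 : degreeOf i₀ (rename (fun j : Fin k => e j.succ) g) = 0 := by
      by_contra h3
      have h4 := mem_vars_iff_degreeOf_ne_zero.mpr h3
      have h5 := vars_rename (fun j : Fin k => e j.succ) g h4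
      obtain ⟨j, _, hj⟩ := Finset.mem_image.mp h5
      rw [← he] at hj
      exact Fin.succ_ne_zero j (e.injective hj)
    rw [hh, degreeOf_mul_eq hf.ne_zero hh0] at h2
    omega
  · intro D
    rw [ph_hA_zeroLocus_prime _ hI]
    exact hC D

theorem ph_height_comap_le {k : ℕ} (I q : Ideal (MvPolynomial ι ℂ)) (hI : I.IsPrime) (hIq : I ≤ q)
    (hq : q.IsPrime) (t : Fin k → MvPolynomial ι ℂ) (ht : NPos I t) :
    (q.comap (aeval t : MvPolynomial (Fin k) ℂ →ₐ[ℂ] MvPolynomial ι ℂ)).height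
      ≤ (q.map (Ideal.Quotient.mk I)).height := by
  classical
  let φ : MvPolynomial (Fin k) ℂ →+* (MvPolynomial ι ℂ ⧸ I) :=
    (Ideal.Quotient.mk I).comp (aeval t : MvPolynomial (Fin k) ℂ →ₐ[ℂ] MvPolynomial ι ℂ).toRingHom
  have hφ : ∀ a, φ a = Ideal.Quotient.mk I (aeval t a) := fun a => rfl
  have : IsDomain (MvPolynomial ι ℂ ⧸ I) := Ideal.Quotient.isDomain I
  have hinj : Function.Injective φ := by
    rw [injective_iff_map_eq_zero]
    intro a ha
    rw [hφ, Ideal.Quotient.eq_zero_iff_mem] at ha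
    exact ht.inj a ha
  obtain ⟨m, b, hb⟩ := ht.fin
  have hP' : (q.map (Ideal.Quotient.mk I)).IsPrime :=
    Ideal.map_isPrime_of_surjective Ideal.Quotient.mk_surjective (by rwa [Ideal.mk_ker])
  have key := ph_goingdown_height φ hinj (fun j => Ideal.Quotient.mk I (b j)) (by
    intro x
    obtain ⟨f, rfl⟩ := Ideal.Quotient.mk_surjective x
    obtain ⟨a, _, ha⟩ := hb f
    refine ⟨a, ?_⟩
    rw [← sub_eq_zero]
    have : Ideal.Quotient.mk I (f - ∑ j, aeval t (a j) * b j) = 0 :=
      Ideal.Quotient.eq_zero_iff_mem.mpr ha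
    rw [map_sub, map_sum] at this
    rw [← this]
    congr 1) (q.map (Ideal.Quotient.mk I))
  refine le_trans (le_of_eq ?_) key
  congr 1
  ext a
  rw [Ideal.mem_comap, Ideal.mem_comap, hφ, Ideal.mem_quotient_iff_mem hIq]

theorem ph_height_map_add_one_le (I q : Ideal (MvPolynomial ι ℂ)) (hI0 : I ≠ ⊥) (hIq : I ≤ q)
    (hq : q.IsPrime) : (q.map (Ideal.Quotient.mk I)).height + 1 ≤ q.height := by
  have hP' : (q.map (Ideal.Quotient.mk I)).IsPrime :=
    Ideal.map_isPrime_of_surjective Ideal.Quotient.mk_surjective (by rwa [Ideal.mk_ker])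
  obtain ⟨lq, hlq, hlenq⟩ := (q.map (Ideal.Quotient.mk I)).exists_ltSeries_length_eq_height
  let l' : LTSeries (PrimeSpectrum (MvPolynomial ι ℂ)) :=
    lq.map (PrimeSpectrum.comap (Ideal.Quotient.mk I))
      (RingHom.strictMono_comap_of_surjective Ideal.Quotient.mk_surjective)
  have hhead : (⟨⊥, Ideal.isPrime_bot⟩ : PrimeSpectrum (MvPolynomial ι ℂ)) < l'.head := by
    rw [← PrimeSpectrum.asIdeal_lt_asIdeal]
    show (⊥ : Ideal (MvPolynomial ι ℂ)) < _
    rw [bot_lt_iff_ne_bot]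
    intro h
    apply hI0
    rw [eq_bot_iff, ← h]
    simp only [LTSeries.head_map, l', PrimeSpectrum.comap_asIdeal]
    intro x hx
    rw [Ideal.mem_comap, Ideal.Quotient.eq_zero_iff_mem.mpr hx]
    exact Ideal.zero_mem _
  let l'' := l'.cons _ hhead
  have hlen : l''.length = lq.length + 1 := by simp [l'', l']
  rw [← hlenq, ← Nat.cast_one, ← Nat.cast_add, ← hlen,
    (⟨q, hq⟩ : PrimeSpectrum (MvPolynomial ι ℂ)).height_eq_orderHeight]
  apply Order.length_le_height
  simp only [l'', l', RelSeries.last_cons, LTSeries.last_map, hlq]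
  rw [← PrimeSpectrum.asIdeal_le_asIdeal]
  simp only [PrimeSpectrum.comap_asIdeal]
  rw [Ideal.comap_map_of_surjective _ Ideal.Quotient.mk_surjective]
  rw [← RingHom.ker_eq_comap_bot, Ideal.mk_ker]
  exact sup_le le_rfl hIq

theorem ph_height_ge_step (p : Ideal (MvPolynomial ι ℂ)) (hp : p.IsPrime)
    (IH : ∀ m : ℕ, Fintype.card ι = m + 1 → ∀ r : Ideal (MvPolynomial (Fin m) ℂ), r.IsPrime →
      (m : ℕ∞) ≤ r.height + (vdim (zeroLocus ℂ r) : ℕ∞)) :
    (Fintype.card ι : ℕ∞) ≤ p.height + (vdim (zeroLocus ℂ p) : ℕ∞) := by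
  by_cases hp0 : p = ⊥
  · subst hp0
    rw [ph_vdim_bot]
    exact le_add_self
  obtain ⟨f, hfp, hf⟩ := hp.exists_mem_prime_of_ne_bot hp0
  have hI : (Ideal.span {f}).IsPrime := (Ideal.span_singleton_prime hf.ne_zero).mpr hf
  have hI0 : Ideal.span {f} ≠ ⊥ := by
    rw [Ne, Ideal.span_singleton_eq_bot]
    exact hf.ne_zero
  have hIp : Ideal.span {f} ≤ p := (Ideal.span_singleton_le_iff_mem p).mpr hfp
  obtain ⟨k, t, hk, ht⟩ := ph_exists_npos _ hI.ne_top
  have hk1 := ph_vdim_of_npos _ hI t ht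
  -- `card ι ≥ 1`
  have hcard : Fintype.card ι = (Fintype.card ι - 1) + 1 := by
    obtain ⟨i, _⟩ := ph_exists_degreeOf_ne_zero f hf
    have := Fintype.card_pos_iff.mpr ⟨i⟩
    omega
  have hk2 := ph_vdim_hypersurface hcard f hf
  have hkk : Fintype.card ι = k + 1 := by omega
  have h1 := IH k hkk _ (Ideal.comap_isPrime (aeval t : MvPolynomial (Fin k) ℂ →ₐ[ℂ] MvPolynomial ι ℂ) p)
  rw [ph_vdim_contract _ p hIp hp t ht] at h1
  have h2 := ph_height_comap_le _ p hI hIp hp t ht
  have h3 := ph_height_map_add_one_le _ p hI0 hIp hp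
  rw [hkk]
  push_cast
  calc (k : ℕ∞) + 1 ≤ (p.comap (aeval t : MvPolynomial (Fin k) ℂ →ₐ[ℂ] MvPolynomial ι ℂ)).height
        + (vdim (zeroLocus ℂ p) : ℕ∞) + 1 := by gcongr
    _ ≤ (p.map (Ideal.Quotient.mk (Ideal.span {f}))).height + (vdim (zeroLocus ℂ p) : ℕ∞) + 1 := by
        gcongr
    _ = ((p.map (Ideal.Quotient.mk (Ideal.span {f}))).height + 1) + (vdim (zeroLocus ℂ p) : ℕ∞) := by
        ring
    _ ≤ _ := by gcongr

theorem ph_height_ge_fin : ∀ (n : ℕ) (r : Ideal (MvPolynomial (Fin n) ℂ)), r.IsPrime →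
    (n : ℕ∞) ≤ r.height + (vdim (zeroLocus ℂ r) : ℕ∞) := by
  intro n
  induction n with
  | zero => intro r _; simp
  | succ n ih =>
    intro r hr
    have := ph_height_ge_step r hr (by
      intro m hm
      rw [Fintype.card_fin] at hm
      obtain rfl : n = m := by omega
      exact ih)
    rwa [Fintype.card_fin] at this

/-- **[DIM]** `height p + dim V(p) = n`. -/
theorem ph_height_add_vdim (p : Ideal (MvPolynomial ι ℂ)) (hp : p.IsPrime) :
    p.height + (vdim (zeroLocus ℂ p) : ℕ∞) = (Fintype.card ι : ℕ∞) :=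
  le_antisymm (ph_height_add_vdim_le p hp)
    (ph_height_ge_step p hp fun m _ r hr => ph_height_ge_fin m r hr)

/-- **Krull**: every component of `Z(f_1..f_j)` has dimension `≥ n - j`. -/
theorem ph_krull {j : ℕ} (f : Fin j → MvPolynomial ι ℂ) (V : Set (ι → ℂ))
    (hV : IsCompOf V (Set.range f)) : Fintype.card ι ≤ vdim V + j := by
  classical
  obtain ⟨p, hp, rfl⟩ := hV
  have h1 : p.height ≤ (Finset.univ.image f).card :=
    Ideal.height_le_card_of_mem_minimalPrimes_span_finset (by simpa using hp)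
  have h2 : ((Finset.univ.image f).card : ℕ∞) ≤ (j : ℕ∞) := by
    have := Finset.card_image_le (s := (Finset.univ : Finset (Fin j))) (f := f)
    rw [Finset.card_univ, Fintype.card_fin] at this
    exact_mod_cast this
  have h3 := ph_height_add_vdim p hp.1.1
  have h4 : (Fintype.card ι : ℕ∞) ≤ ((vdim (zeroLocus ℂ p) + j : ℕ) : ℕ∞) := by
    rw [← h3, Nat.cast_add, add_comm]
    gcongr
    exact h1.trans h2
  exact_mod_cast h4

omit [Fintype ι] in
theorem ph_Zl_eq_zeroLocus_span (G : Set (MvPolynomial ι ℂ)) : Zl G = zeroLocus ℂ (Ideal.span G) := by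
  rw [zeroLocus_span]
  ext x
  simp only [Zl, Set.mem_ofPred_eq, aeval_eq_eval]

/-- if `Z(G₀) = Z(p)`, `p` prime, then `p` is the radical of `span G₀` -/
theorem ph_radical_span_eq (G₀ : Set (MvPolynomial ι ℂ)) (p : Ideal (MvPolynomial ι ℂ))
    (hp : p.IsPrime) (h : Zl G₀ = zeroLocus ℂ p) : (Ideal.span G₀).radical = p := by
  rw [← vanishingIdeal_zeroLocus_eq_radical (K := ℂ), ← ph_Zl_eq_zeroLocus_span, h,
    IsPrime.vanishingIdeal_zeroLocus]

/-- **Purity**: every component of a proper hypersurface section of an irreducible `V` has dimension `dim V - 1`. -/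
theorem ph_pit (V : Set (ι → ℂ)) (hV : IsVar V) (G₀ : Set (MvPolynomial ι ℂ)) (hG₀ : Zl G₀ = V)
    (g : MvPolynomial ι ℂ) (hg : ∃ x ∈ V, eval x g ≠ 0) (W : Set (ι → ℂ))
    (hW : IsCompOf W (insert g G₀)) : vdim W + 1 = vdim V := by
  obtain ⟨p, hp, rfl⟩ := hV
  obtain ⟨q, hq, rfl⟩ := hW
  have hqp : q.IsPrime := hq.1.1
  have hrad := ph_radical_span_eq G₀ p hp hG₀
  have hG₀p : Ideal.span G₀ ≤ p := hrad ▸ Ideal.le_radical
  have hgq : g ∈ q := hq.1.2 (Ideal.subset_span (Set.mem_insert _ _))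
  have hG₀q : Ideal.span G₀ ≤ q := (Ideal.span_mono (Set.subset_insert _ _)).trans hq.1.2
  have hpq : p ≤ q := by
    rw [← hrad]
    exact hqp.radical_le_iff.mpr hG₀q
  have hgp : g ∉ p := by
    intro h
    obtain ⟨x, hx, hx'⟩ := hg
    apply hx'
    have := (mem_zeroLocus_iff.mp hx) g h
    rwa [aeval_eq_eval] at this
  have hlt : p < q := lt_of_le_of_ne hpq (fun h => hgp (h ▸ hgq))
  have hmin : q ∈ (p ⊔ Ideal.span {g}).minimalPrimes := by
    refine ⟨⟨hqp, sup_le hpq ((Ideal.span_singleton_le_iff_mem q).mpr hgq)⟩, ?_⟩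
    rintro q' ⟨hq'p, hq'⟩ hq'q
    refine hq.2 ⟨hq'p, ?_⟩ hq'q
    rw [Ideal.span_insert]
    exact sup_le (le_sup_right.trans hq') (hG₀p.trans (le_sup_left.trans hq'))
  have h1 : (q.map (Ideal.Quotient.mk p)).height ≤ 1 :=
    Ideal.map_height_le_one_of_mem_minimalPrimes hmin
  obtain ⟨k, t, _, ht⟩ := ph_exists_npos p hp.ne_top
  have hk := ph_vdim_of_npos p hp t ht
  have h2 := ph_height_comap_le p q hp hpq hqp t ht
  have h3 := ph_height_add_vdim _
    (Ideal.comap_isPrime (aeval t : MvPolynomial (Fin k) ℂ →ₐ[ℂ] MvPolynomial ι ℂ) q)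
  rw [ph_vdim_contract p q hpq hqp t ht, Fintype.card_fin] at h3
  have h4 : (k : ℕ∞) ≤ ((1 + vdim (zeroLocus ℂ q) : ℕ) : ℕ∞) := by
    rw [← h3, Nat.cast_add, Nat.cast_one]
    gcongr
    exact h2.trans h1
  have h5 : k ≤ 1 + vdim (zeroLocus ℂ q) := by exact_mod_cast h4
  have h6 := ph_vdim_lt_of_prime_lt hp hqp hlt
  omega

omit [Fintype ι] in
theorem ph_zeroLocus_vanishingIdeal_singleton (x : ι → ℂ) :
    zeroLocus ℂ (vanishingIdeal ℂ ({x} : Set (ι → ℂ))) = {x} := by
  apply Set.Subset.antisymm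
  · intro y hy
    rw [Set.mem_singleton_iff]
    funext i
    have h1 : (X i - C (x i) : MvPolynomial ι ℂ) ∈ vanishingIdeal ℂ ({x} : Set (ι → ℂ)) := by
      rw [mem_vanishingIdeal_singleton_iff]
      simp
    have := (mem_zeroLocus_iff.mp hy) _ h1
    simpa [sub_eq_zero] using this
  · exact zeroLocus_vanishingIdeal_le _

/-- an irreducible variety of dimension `0` is a point -/
theorem ph_point_of_vdim_zero (V : Set (ι → ℂ)) (hV : IsVar V) (h : vdim V = 0) : ∃ x, V = {x} := by
  obtain ⟨x, hx⟩ := ph_isVar_nonempty V hV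
  obtain ⟨p, hp, rfl⟩ := hV
  refine ⟨x, ?_⟩
  have hm : (vanishingIdeal ℂ ({x} : Set (ι → ℂ))).IsPrime := inferInstance
  have hle : p ≤ vanishingIdeal ℂ ({x} : Set (ι → ℂ)) := by
    intro f hf
    rw [mem_vanishingIdeal_singleton_iff]
    exact (mem_zeroLocus_iff.mp hx) f hf
  rcases eq_or_lt_of_le hle with heq | hlt
  · rw [heq, ph_zeroLocus_vanishingIdeal_singleton]
  · have := ph_vdim_lt_of_prime_lt hp hm hlt
    omega

omit [Fintype ι] in
/-- a prime containing all `X i - C (x i)` contains the ideal of the point -/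
theorem ph_sub_C_eval_mem (q : Ideal (MvPolynomial ι ℂ)) (x : ι → ℂ)
    (h : ∀ i, (X i - C (x i) : MvPolynomial ι ℂ) ∈ q) (f : MvPolynomial ι ℂ) :
    f - C (eval x f) ∈ q := by
  induction f using MvPolynomial.induction_on with
  | C a => simp
  | add f g hf hg =>
    have : f + g - C (eval x (f + g)) = (f - C (eval x f)) + (g - C (eval x g)) := by
      rw [map_add, C_add]; ring
    rw [this]
    exact q.add_mem hf hg
  | mul_X f i hf =>
    have : f * X i - C (eval x (f * X i)) = (f - C (eval x f)) * X i + C (eval x f) * (X i - C (x i)) := by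
      rw [map_mul, eval_X, C_mul]; ring
    rw [this]
    exact q.add_mem (q.mul_mem_right _ hf) (q.mul_mem_left _ (h i))

/-- `{x}` is a component of `Z(G)` iff `x` is an isolated zero -/
theorem ph_isoZero_iff_comp (G : Set (MvPolynomial ι ℂ)) (x : ι → ℂ) :
    IsoZero G x ↔ IsCompOf {x} G := by
  classical
  have hm : (vanishingIdeal ℂ ({x} : Set (ι → ℂ))).IsPrime := inferInstance
  constructor
  · rintro ⟨h0, u, N, hu, hN⟩
    refine ⟨vanishingIdeal ℂ ({x} : Set (ι → ℂ)), ⟨⟨hm, ?_⟩, ?_⟩,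
      (ph_zeroLocus_vanishingIdeal_singleton x).symm⟩
    · rw [Ideal.span_le]
      intro g hg
      rw [SetLike.mem_coe, mem_vanishingIdeal_singleton_iff, aeval_eq_eval]
      exact h0 g hg
    · rintro q ⟨hqp, hq⟩ hqm
      have huq : u ∉ q := by
        intro h
        have := hqm h
        rw [mem_vanishingIdeal_singleton_iff, aeval_eq_eval] at this
        exact hu this
      have hX : ∀ i, (X i - C (x i) : MvPolynomial ι ℂ) ∈ q := by
        intro i
        have := hq (hN i)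
        exact hqp.mem_of_pow_mem N ((hqp.mem_or_mem this).resolve_left huq)
      intro f hf
      rw [mem_vanishingIdeal_singleton_iff, aeval_eq_eval] at hf
      have := ph_sub_C_eval_mem q x hX f
      rwa [hf, C_0, sub_zero] at this
  · rintro ⟨p, hp, hx⟩
    have hpp : p.IsPrime := hp.1.1
    have hpm : p = vanishingIdeal ℂ ({x} : Set (ι → ℂ)) := by
      rw [hx, IsPrime.vanishingIdeal_zeroLocus]
    have hev : ∀ f, f ∈ p ↔ eval x f = 0 := by
      intro f
      rw [hpm, mem_vanishingIdeal_singleton_iff, aeval_eq_eval]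
    refine ⟨fun g hg => (hev g).mp (hp.1.2 (Ideal.subset_span hg)), ?_⟩
    have hfin := (Ideal.span G).finite_minimalPrimes_of_isNoetherianRing
    -- for every other minimal prime an element outside `p`
    have h1 : ∀ q : Ideal (MvPolynomial ι ℂ), ∃ u : MvPolynomial ι ℂ, u ∉ p ∧
        (q ∈ (Ideal.span G).minimalPrimes → q ≠ p → u ∈ q) := by
      intro q
      by_cases hq : q ∈ (Ideal.span G).minimalPrimes ∧ q ≠ p
      · have : ¬ q ≤ p := fun hle => hq.2 (le_antisymm hle (hp.2 hq.1.1 hle))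
        obtain ⟨u, huq, hup⟩ := SetLike.not_le_iff_exists.mp this
        exact ⟨u, hup, fun _ _ => huq⟩
      · refine ⟨1, fun h => hpp.ne_top ((Ideal.eq_top_iff_one p).mpr h), fun h1 h2 => absurd ⟨h1, h2⟩ hq⟩
    choose u hup huq using h1
    set U := ∏ q ∈ hfin.toFinset, u q with hU
    have hUp : U ∉ p := by
      intro h
      obtain ⟨q, _, hq⟩ := (hpp.prod_mem_iff).mp h
      exact hup q hq
    have hrad : ∀ i, U * (X i - C (x i)) ∈ (Ideal.span G).radical := by
      intro i
      rw [← Ideal.sInf_minimalPrimes, Ideal.mem_sInf]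
      intro q hq
      by_cases hqp : q = p
      · rw [hqp]
        apply p.mul_mem_left
        rw [hev]
        simp
      · apply q.mul_mem_right
        exact Ideal.prod_mem q (hfin.mem_toFinset.mpr hq) (huq q hq hqp)
    choose N hN using hrad
    refine ⟨U ^ (Finset.univ.sup N), Finset.univ.sup N, ?_, fun i => ?_⟩
    · rw [map_pow]
      exact pow_ne_zero _ (fun h => hUp ((hev U).mpr h))
    · rw [← mul_pow]
      exact Ideal.pow_mem_of_pow_mem _ (hN i) (Finset.le_sup (Finset.mem_univ i))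

/-- **BEZ-CUT**: all components of a proper section, with `ph_pit` and `ph_bezout_section`. -/
theorem ph_bezout_cut (V : Set (ι → ℂ)) (hV : IsVar V) (G₀ : Set (MvPolynomial ι ℂ))
    (hG₀ : Zl G₀ = V) (g : MvPolynomial ι ℂ) (hg : ∃ x ∈ V, eval x g ≠ 0)
    (𝒲 : Finset (Set (ι → ℂ))) (h𝒲 : ∀ W ∈ 𝒲, IsCompOf W (insert g G₀)) :
    ∑ W ∈ 𝒲, vdeg W ≤ g.totalDegree * vdeg V :=
  ph_bezout_section V hV G₀ hG₀ g hg 𝒲 h𝒲 fun W hW => ph_pit V hV G₀ hG₀ g hg W (h𝒲 W hW)

end Claimed.Agent.R273
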