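-- KEEP
import Claimed.Agent.R273.PhOrd
import Claimed.Agent.R273.PhInt

/-!
# Row 273, POLY-A 10a: the Jacobian criterion, local form (LEAF PH-jac-a), elementary proof.  helper94.

`f_1..f_c` vanish at `x` with independent differentials.  `I = (f)`, `𝔪 = 𝔪_x`, `p₀ := ⋂_N (I + 𝔪^N)`.
Complete `df_j` to a basis of the dual space, indexed by `β = Fin c ⊕ γ`; `Λ : ℂ[Z_b] ≃ ℂ[x]` the affine isomorphism `Z_b ↦` linear form, `Φ : Z_b ↦ F_b` (`F_(inl j) = f_j`, `F_(inr l)` linear).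
`Φ r - Λ r` has order `≥ a + 1` if `r` has order `≥ a`; hence `Φ` is "bijective modulo every power" (K1, K2), `Φ r ∈ I + 𝔪^N ↔ r(0,U)` has order `≥ N`; additivity of the order in `ℂ[U]` gives primality of `p₀`;
Krull's intersection theorem identifies `p₀` with the local saturation of `I`.
-/

set_option autoImplicit false

namespace Claimed.Agent.R273

open MvPolynomial Module

section general

variable {K : Type*} [Field K] {β ι : Type*}

/-- algebra homomorphisms mapping `𝔪_y` into `𝔪_x` do not lower the order -/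
theorem ph_ord_algHom (θ : MvPolynomial β K →ₐ[K] MvPolynomial ι K) (y : β → K) (x : ι → K)
    (h : ∀ b, OrdGE x 1 (θ (X b - C (y b)))) {a : ℕ} {r : MvPolynomial β K} (hr : OrdGE y a r) :
    OrdGE x a (θ r) := by
  rw [ph_ord_iff_mem_pow] at hr ⊢
  have h1 := Ideal.mem_map_of_mem θ.toRingHom hr
  rw [Ideal.map_pow, Ideal.map_span] at h1
  refine Ideal.pow_right_mono ?_ a h1
  rw [Ideal.span_le]
  rintro _ ⟨_, ⟨b, rfl⟩, rfl⟩
  have := (ph_ord_iff_mem_pow x 1 _).mp (h b)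
  rwa [pow_one] at this

/-- two algebra homomorphisms which agree on the variables modulo an ideal agree modulo that ideal -/
theorem ph_algHom_sub_mem (θ₁ θ₂ : MvPolynomial β K →ₐ[K] MvPolynomial ι K)
    (𝔞 : Ideal (MvPolynomial ι K)) (h : ∀ b, θ₁ (X b) - θ₂ (X b) ∈ 𝔞) (r : MvPolynomial β K) :
    θ₁ r - θ₂ r ∈ 𝔞 := by
  have : (Ideal.Quotient.mkₐ K 𝔞).comp θ₁ = (Ideal.Quotient.mkₐ K 𝔞).comp θ₂ := by
    apply MvPolynomial.algHom_ext
    intro b
    simp only [AlgHom.comp_apply, Ideal.Quotient.mkₐ_eq_mk]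
    exact (Ideal.Quotient.eq).mpr (h b)
  have h2 := congrArg (fun φ : MvPolynomial β K →ₐ[K] _ => φ r) this
  simp only [AlgHom.comp_apply, Ideal.Quotient.mkₐ_eq_mk] at h2
  exact (Ideal.Quotient.eq).mp h2

/-- first order Taylor formula -/
theorem ph_ord_taylor1 [Fintype ι] (x : ι → K) (g : MvPolynomial ι K) (hg : eval x g = 0) :
    OrdGE x 2 (g - ∑ i, C (eval x (pderiv i g)) * (X i - C (x i))) := by
  classical
  rw [ph_ord_iff, mem_pow_idealOfVars_iff']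
  intro m hm
  have hsh : phSh x (g - ∑ i, C (eval x (pderiv i g)) * (X i - C (x i)))
      = phSh x g - ∑ i, C (eval x (pderiv i g)) * X i := by
    rw [map_sub, map_sum]
    congr 1
    refine Finset.sum_congr rfl fun i _ => ?_
    simp [phSh]
  rw [hsh, coeff_sub, coeff_sum]
  have hdeg : m.degree = 0 ∨ m.degree = 1 := by omega
  rcases hdeg with h0 | h1
  · have : m = 0 := (Finsupp.degree_eq_zero_iff m).mp h0
    subst this
    have e1 : coeff 0 (phSh x g) = 0 := by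
      rw [← constantCoeff_eq, ph_constantCoeff_phSh, hg]
    rw [e1, Finset.sum_eq_zero, sub_zero]
    intro i _
    rw [coeff_C_mul, coeff_zero_X, mul_zero]
  · obtain ⟨i, rfl⟩ := (Finsupp.sum_eq_one_iff m).mp h1
    have e1 : coeff (Finsupp.single i 1) (phSh x g) = eval x (pderiv i g) := by
      rw [← ph_constantCoeff_phSh, ← ph_pderiv_phSh, constantCoeff_eq, coeff_pderiv]
      simp
    rw [e1, Finset.sum_eq_single i]
    · rw [coeff_C_mul, coeff_X, if_pos rfl, mul_one, sub_self]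
    · intro j _ hji
      rw [coeff_C_mul, coeff_X, if_neg, mul_zero]
      intro he
      exact hji (Finsupp.single_left_injective one_ne_zero he)
    · intro h; exact absurd (Finset.mem_univ i) h

end general

section core

variable {β ι : Type*} [Fintype β]

/-- an affine isomorphism `Λ` and a family `F` tangent to it at `x` -/
structure PhJacData (β ι : Type*) (x : ι → ℂ) where
  Lam : MvPolynomial β ℂ →ₐ[ℂ] MvPolynomial ι ℂ
  Lam' : MvPolynomial ι ℂ →ₐ[ℂ] MvPolynomial β ℂ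
  left : ∀ r, Lam' (Lam r) = r
  right : ∀ g, Lam (Lam' g) = g
  ord : ∀ b, OrdGE x 1 (Lam (X b))
  ord' : ∀ i, OrdGE (0 : β → ℂ) 1 (Lam' (X i - C (x i)))
  F : β → MvPolynomial ι ℂ
  hF : ∀ b, OrdGE x 2 (F b - Lam (X b))

variable {x : ι → ℂ} (𝒟 : PhJacData β ι x)

/-- the substitution `Z_b ↦ F_b` -/
noncomputable def PhJacData.Phi : MvPolynomial β ℂ →ₐ[ℂ] MvPolynomial ι ℂ := aeval 𝒟.F

omit [Fintype β] in
theorem ph_jd_F_ord (b : β) : OrdGE x 1 (𝒟.F b) := by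
  have h1 := ph_ord_add (ph_ord_mono (by norm_num : 1 ≤ 2) (𝒟.hF b)) (𝒟.ord b)
  rwa [sub_add_cancel] at h1

omit [Fintype β] in
theorem ph_jd_Lam_ord {a : ℕ} {r : MvPolynomial β ℂ} (hr : OrdGE (0 : β → ℂ) a r) :
    OrdGE x a (𝒟.Lam r) :=
  ph_ord_algHom 𝒟.Lam 0 x (fun b => by simpa using 𝒟.ord b) hr

omit [Fintype β] in
theorem ph_jd_Phi_ord {a : ℕ} {r : MvPolynomial β ℂ} (hr : OrdGE (0 : β → ℂ) a r) :
    OrdGE x a (𝒟.Phi r) :=
  ph_ord_algHom 𝒟.Phi 0 x (fun b => by simpa [PhJacData.Phi] using ph_jd_F_ord 𝒟 b) hr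

omit [Fintype β] in
theorem ph_jd_Lam'_ord {a : ℕ} {g : MvPolynomial ι ℂ} (hg : OrdGE x a g) :
    OrdGE (0 : β → ℂ) a (𝒟.Lam' g) :=
  ph_ord_algHom 𝒟.Lam' x 0 𝒟.ord' hg

/-- `Φ` and `Λ` agree to first order -/
theorem ph_jd_sub (a : ℕ) : ∀ r : MvPolynomial β ℂ, OrdGE (0 : β → ℂ) a r →
    OrdGE x (a + 1) (𝒟.Phi r - 𝒟.Lam r) := by
  induction a with
  | zero =>
    intro r _
    have := ph_algHom_sub_mem 𝒟.Phi 𝒟.Lam
      (Ideal.span (Set.range fun i => (X i - C (x i) : MvPolynomial ι ℂ))) (fun b => by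
        have h1 := (ph_ord_iff_mem_pow x 1 _).mp (ph_ord_mono (by norm_num : 1 ≤ 2) (𝒟.hF b))
        rw [pow_one] at h1
        simpa [PhJacData.Phi] using h1) r
    rw [zero_add, ph_ord_iff_mem_pow, pow_one]
    exact this
  | succ a ih =>
    intro r hr
    rw [ph_ord_iff_mem_pow, pow_succ] at hr
    refine Submodule.mul_induction_on hr ?_ ?_
    · intro m hm n hn
      have hm' : OrdGE (0 : β → ℂ) a m := (ph_ord_iff_mem_pow _ _ _).mpr hm
      obtain ⟨s, hs⟩ := Ideal.mem_span_range_iff_exists_fun.mp hn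
      have e : 𝒟.Phi (m * n) - 𝒟.Lam (m * n)
          = ∑ b, ((𝒟.Phi (m * s b) - 𝒟.Lam (m * s b)) * 𝒟.F b
              + 𝒟.Lam (m * s b) * (𝒟.F b - 𝒟.Lam (X b))) := by
        rw [← hs, Finset.mul_sum, map_sum, map_sum, ← Finset.sum_sub_distrib]
        refine Finset.sum_congr rfl fun b _ => ?_
        have e1 : m * (s b * (X b - C ((0 : β → ℂ) b))) = (m * s b) * X b := by
          simp [mul_assoc]
        have e2 : 𝒟.Phi (X b) = 𝒟.F b := by simp [PhJacData.Phi]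
        rw [e1, map_mul 𝒟.Phi (m * s b) (X b), map_mul 𝒟.Lam (m * s b) (X b), e2]
        ring
      rw [e]
      apply ph_ord_sum
      intro b _
      have hms : OrdGE (0 : β → ℂ) a (m * s b) := by
        rw [mul_comm]; exact ph_ord_mul_left _ hm'
      apply ph_ord_add
      · exact ph_ord_mul (ih _ hms) (ph_jd_F_ord 𝒟 b)
      · have := ph_ord_mul (ph_jd_Lam_ord 𝒟 hms) (𝒟.hF b)
        rwa [show a + 2 = a + 1 + 1 by ring] at this
    · intro u v hu hv
      have : 𝒟.Phi (u + v) - 𝒟.Lam (u + v) = (𝒟.Phi u - 𝒟.Lam u) + (𝒟.Phi v - 𝒟.Lam v) := by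
        rw [map_add, map_add]; ring
      rw [this]
      exact ph_ord_add hu hv

/-- (K2) injectivity modulo powers -/
theorem ph_jd_inj (N : ℕ) (r : MvPolynomial β ℂ) (h : OrdGE x N (𝒟.Phi r)) :
    OrdGE (0 : β → ℂ) N r := by
  have key : ∀ a, a ≤ N → OrdGE (0 : β → ℂ) a r := by
    intro a
    induction a with
    | zero => intro _; exact ph_ord_zero_left _ _
    | succ a ih =>
      intro ha
      have h1 := ph_jd_sub 𝒟 a r (ih (by omega))
      have h2 : OrdGE x (a + 1) (𝒟.Lam r) := by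
        have := ph_ord_sub (ph_ord_mono ha h) h1
        rwa [sub_sub_cancel] at this
      have h3 := ph_jd_Lam'_ord 𝒟 h2
      rwa [𝒟.left] at h3
  exact key N le_rfl

/-- (K1) surjectivity modulo powers -/
theorem ph_jd_surj (N : ℕ) (g : MvPolynomial ι ℂ) :
    ∃ r : MvPolynomial β ℂ, OrdGE x N (g - 𝒟.Phi r) := by
  induction N with
  | zero => exact ⟨0, ph_ord_zero_left _ _⟩
  | succ N ih =>
    obtain ⟨r, hr⟩ := ih
    refine ⟨r + 𝒟.Lam' (g - 𝒟.Phi r), ?_⟩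
    have h1 := ph_jd_sub 𝒟 N _ (ph_jd_Lam'_ord 𝒟 hr)
    rw [𝒟.right] at h1
    have e : g - 𝒟.Phi (r + 𝒟.Lam' (g - 𝒟.Phi r))
        = -(𝒟.Phi (𝒟.Lam' (g - 𝒟.Phi r)) - (g - 𝒟.Phi r)) := by
      rw [map_add]; ring
    rw [e]
    exact ph_ord_neg h1

end core

section prime

variable {c : ℕ} {γ ι : Type*} [Fintype γ] {x : ι → ℂ} (𝒟 : PhJacData (Fin c ⊕ γ) ι x)

/-- put the first group of variables equal to `0` -/
noncomputable def phPi (c : ℕ) (γ : Type*) :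
    MvPolynomial (Fin c ⊕ γ) ℂ →ₐ[ℂ] MvPolynomial (Fin c ⊕ γ) ℂ :=
  aeval (Sum.elim (fun _ => 0) fun l => X (Sum.inr l))

omit [Fintype γ] in
theorem ph_phPi_ord {a : ℕ} {r : MvPolynomial (Fin c ⊕ γ) ℂ}
    (hr : OrdGE (0 : Fin c ⊕ γ → ℂ) a r) : OrdGE (0 : Fin c ⊕ γ → ℂ) a (phPi c γ r) := by
  refine ph_ord_algHom (phPi c γ) 0 0 (fun b => ?_) hr
  rcases b with j | l
  · simpa [phPi] using ph_ord_zero (0 : Fin c ⊕ γ → ℂ) 1
  · simpa [phPi] using ph_ord_X_sub_C (0 : Fin c ⊕ γ → ℂ) (Sum.inr l)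

omit [Fintype γ] in
theorem ph_sub_phPi_mem (r : MvPolynomial (Fin c ⊕ γ) ℂ) :
    r - phPi c γ r ∈ Ideal.span (Set.range fun j : Fin c => (X (Sum.inl j) : MvPolynomial (Fin c ⊕ γ) ℂ)) := by
  refine ph_algHom_sub_mem (AlgHom.id ℂ _) (phPi c γ) _ (fun b => ?_) r
  rcases b with j | l
  · simpa [phPi] using Ideal.subset_span (Set.mem_range_self j)
  · simp [phPi]

/-- the ideal `(f)` -/
noncomputable def PhJacData.I : Ideal (MvPolynomial ι ℂ) :=
  Ideal.span (Set.range fun j : Fin c => 𝒟.F (Sum.inl j))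

/-- `g ∈ I + 𝔪^N` -/
def PhJacData.InJ (N : ℕ) (g : MvPolynomial ι ℂ) : Prop := ∃ h ∈ 𝒟.I, OrdGE x N (g - h)

omit [Fintype γ] in
theorem ph_jd_I_eval {h : MvPolynomial ι ℂ} (hh : h ∈ 𝒟.I) : eval x h = 0 := by
  have : 𝒟.I ≤ RingHom.ker (eval x) := by
    rw [PhJacData.I, Ideal.span_le]
    rintro _ ⟨j, rfl⟩
    exact (ph_ord_one_iff x _).mp (ph_jd_F_ord 𝒟 _)
  exact this hh

theorem ph_jd_C {N : ℕ} {r : MvPolynomial (Fin c ⊕ γ) ℂ} (h : 𝒟.InJ N (𝒟.Phi r)) :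
    OrdGE (0 : Fin c ⊕ γ → ℂ) N (phPi c γ r) := by
  obtain ⟨h, hI, hord⟩ := h
  obtain ⟨a, ha⟩ := Ideal.mem_span_range_iff_exists_fun.mp hI
  choose α hα using fun j => ph_jd_surj 𝒟 N (a j)
  have h1 : OrdGE x N (𝒟.Phi (r - ∑ j, α j * X (Sum.inl j))) := by
    have e : 𝒟.Phi (r - ∑ j, α j * X (Sum.inl j))
        = (𝒟.Phi r - h) + ∑ j, 𝒟.F (Sum.inl j) * (a j - 𝒟.Phi (α j)) := by
      rw [map_sub, map_sum, ← ha]
      have : ∀ j, 𝒟.Phi (α j * X (Sum.inl j)) = 𝒟.Phi (α j) * 𝒟.F (Sum.inl j) := by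
        intro j; simp [PhJacData.Phi]
      simp only [this, mul_sub, Finset.sum_sub_distrib]
      have e2 : ∑ j, 𝒟.F (Sum.inl j) * a j = ∑ j, a j * 𝒟.F (Sum.inl j) :=
        Finset.sum_congr rfl fun j _ => mul_comm _ _
      have e3 : ∑ j, 𝒟.F (Sum.inl j) * 𝒟.Phi (α j) = ∑ j, 𝒟.Phi (α j) * 𝒟.F (Sum.inl j) :=
        Finset.sum_congr rfl fun j _ => mul_comm _ _
      rw [e2, e3]
      ring
    rw [e]
    exact ph_ord_add hord (ph_ord_sum _ _ fun j _ => ph_ord_mul_left _ (hα j))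
  have h2 := ph_phPi_ord (ph_jd_inj 𝒟 N _ h1)
  have e : phPi c γ (r - ∑ j, α j * X (Sum.inl j)) = phPi c γ r := by
    rw [map_sub, map_sum, Finset.sum_eq_zero, sub_zero]
    intro j _
    simp [phPi]
  rwa [e] at h2

omit [Fintype γ] in
theorem ph_jd_C' {N : ℕ} {r : MvPolynomial (Fin c ⊕ γ) ℂ}
    (h : OrdGE (0 : Fin c ⊕ γ → ℂ) N (phPi c γ r)) : 𝒟.InJ N (𝒟.Phi r) := by
  refine ⟨𝒟.Phi (r - phPi c γ r), ?_, ?_⟩
  · have h1 := Ideal.mem_map_of_mem 𝒟.Phi.toRingHom (ph_sub_phPi_mem r)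
    rw [Ideal.map_span, ← Set.range_comp] at h1
    have e : (𝒟.Phi.toRingHom ∘ fun j : Fin c => (X (Sum.inl j) : MvPolynomial (Fin c ⊕ γ) ℂ))
        = fun j : Fin c => 𝒟.F (Sum.inl j) := by
      funext j; simp [PhJacData.Phi]
    rw [e] at h1
    exact h1
  · have e : 𝒟.Phi r - 𝒟.Phi (r - phPi c γ r) = 𝒟.Phi (phPi c γ r) := by
      rw [map_sub]; ring
    rw [e]
    exact ph_jd_Phi_ord 𝒟 h

omit [Fintype γ] in
theorem ph_jd_InJ_of_sub {N : ℕ} {g g' : MvPolynomial ι ℂ} (h : 𝒟.InJ N g')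
    (hs : OrdGE x N (g - g')) : 𝒟.InJ N g := by
  obtain ⟨h, hI, ho⟩ := h
  refine ⟨h, hI, ?_⟩
  have := ph_ord_add hs ho
  rwa [sub_add_sub_cancel] at this

omit [Fintype γ] in
theorem ph_jd_InJ_mono {N N' : ℕ} (hN : N' ≤ N) {g : MvPolynomial ι ℂ} (h : 𝒟.InJ N g) :
    𝒟.InJ N' g := by
  obtain ⟨h, hI, ho⟩ := h
  exact ⟨h, hI, ph_ord_mono hN ho⟩

/-- the closure of `(f)` in the `𝔪`-adic topology -/
def PhJacData.p₀ : Ideal (MvPolynomial ι ℂ) where
  carrier := {g | ∀ N, 𝒟.InJ N g}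
  add_mem' := by
    intro a b ha hb N
    obtain ⟨h, hI, ho⟩ := ha N
    obtain ⟨h', hI', ho'⟩ := hb N
    refine ⟨h + h', 𝒟.I.add_mem hI hI', ?_⟩
    have := ph_ord_add ho ho'
    rwa [show a - h + (b - h') = a + b - (h + h') by ring] at this
  zero_mem' := fun N => ⟨0, 𝒟.I.zero_mem, by simpa using ph_ord_zero x N⟩
  smul_mem' := by
    intro s a ha N
    obtain ⟨h, hI, ho⟩ := ha N
    refine ⟨s * h, 𝒟.I.mul_mem_left _ hI, ?_⟩
    have := ph_ord_mul_left s ho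
    rwa [mul_sub] at this

theorem ph_jd_prime : 𝒟.p₀.IsPrime := by
  refine ⟨?_, ?_⟩
  · intro htop
    have h1 : (1 : MvPolynomial ι ℂ) ∈ 𝒟.p₀ := by rw [htop]; trivial
    obtain ⟨h, hI, ho⟩ := h1 1
    have := (ph_ord_one_iff x _).mp ho
    rw [map_sub, map_one, ph_jd_I_eval 𝒟 hI, sub_zero] at this
    exact one_ne_zero this
  · intro g g' hgg'
    by_contra hcon
    rw [not_or] at hcon
    obtain ⟨hg, hg'⟩ := hcon
    have hg1 : ∃ a, ¬ 𝒟.InJ a g := by
      by_contra h; exact hg fun N => by_contra fun hN => h ⟨N, hN⟩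
    have hg1' : ∃ b, ¬ 𝒟.InJ b g' := by
      by_contra h; exact hg' fun N => by_contra fun hN => h ⟨N, hN⟩
    obtain ⟨a, ha⟩ := hg1
    obtain ⟨b, hb⟩ := hg1'
    obtain ⟨r, hr⟩ := ph_jd_surj 𝒟 (a + b) g
    obtain ⟨r', hr'⟩ := ph_jd_surj 𝒟 (a + b) g'
    have h1 : ¬ OrdGE (0 : Fin c ⊕ γ → ℂ) a (phPi c γ r) := fun h =>
      ha (ph_jd_InJ_of_sub 𝒟 (ph_jd_C' 𝒟 h) (ph_ord_mono (Nat.le_add_right _ _) hr))
    have h2 : ¬ OrdGE (0 : Fin c ⊕ γ → ℂ) b (phPi c γ r') := fun h =>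
      hb (ph_jd_InJ_of_sub 𝒟 (ph_jd_C' 𝒟 h) (ph_ord_mono (Nat.le_add_left _ _) hr'))
    have h3 : 𝒟.InJ (a + b) (𝒟.Phi (r * r')) := by
      refine ph_jd_InJ_of_sub 𝒟 (hgg' (a + b)) ?_
      have e : 𝒟.Phi (r * r') - g * g'
          = -(g' * (g - 𝒟.Phi r) + 𝒟.Phi r * (g' - 𝒟.Phi r')) := by
        rw [map_mul]; ring
      rw [e]
      exact ph_ord_neg (ph_ord_add (ph_ord_mul_left _ hr) (ph_ord_mul_left _ hr'))
    have h4 := ph_jd_C 𝒟 h3
    rw [map_mul] at h4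
    rcases Nat.eq_zero_or_pos a with h0 | hpos
    · subst h0; exact h1 (ph_ord_zero_left _ _)
    · obtain ⟨a', rfl⟩ : ∃ a', a = a' + 1 := ⟨a - 1, by omega⟩
      rcases ph_ord_mul_or (ph_ord_mono (by omega : a' + b ≤ a' + 1 + b) h4) with h5 | h5
      · exact h1 h5
      · exact h2 h5

omit [Fintype γ] in
/-- Krull's intersection theorem: the closure is the local saturation -/
theorem ph_jd_krull [Finite ι] {g : MvPolynomial ι ℂ} (hg : g ∈ 𝒟.p₀) :
    ∃ w, eval x w ≠ 0 ∧ w * g ∈ 𝒟.I := by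
  set 𝔪 : Ideal (MvPolynomial ι ℂ) :=
    Ideal.span (Set.range fun i => (X i - C (x i) : MvPolynomial ι ℂ)) with h𝔪
  have hmem : (Ideal.Quotient.mk 𝒟.I g : MvPolynomial ι ℂ ⧸ 𝒟.I)
      ∈ (⨅ i : ℕ, 𝔪 ^ i • ⊤ : Submodule (MvPolynomial ι ℂ) (MvPolynomial ι ℂ ⧸ 𝒟.I)) := by
    rw [Submodule.mem_iInf]
    intro i
    obtain ⟨h, hI, ho⟩ := hg i
    have h1 : g - h ∈ 𝔪 ^ i := (ph_ord_iff_mem_pow x i _).mp ho
    have e : (Ideal.Quotient.mk 𝒟.I g : MvPolynomial ι ℂ ⧸ 𝒟.I)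
        = (g - h) • (Ideal.Quotient.mk 𝒟.I 1 : MvPolynomial ι ℂ ⧸ 𝒟.I) := by
      rw [← Ideal.Quotient.mk_eq_mk, ← Ideal.Quotient.mk_eq_mk, ← Submodule.Quotient.mk_smul,
        smul_eq_mul, mul_one, Ideal.Quotient.mk_eq_mk, Ideal.Quotient.mk_eq_mk, Ideal.Quotient.eq]
      simpa using hI
    rw [e]
    exact Submodule.smul_mem_smul h1 trivial
  obtain ⟨⟨r, hr⟩, hrg⟩ := (Ideal.mem_iInf_smul_pow_eq_bot_iff 𝔪 _).mp hmem
  refine ⟨1 - r, ?_, ?_⟩
  · have hr0 : eval x r = 0 := by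
      have : 𝔪 ≤ RingHom.ker (eval x) := by
        rw [h𝔪, Ideal.span_le]
        rintro _ ⟨i, rfl⟩
        simp
      exact this hr
    rw [map_sub, map_one, hr0, sub_zero]
    exact one_ne_zero
  · have h2 : (Ideal.Quotient.mk 𝒟.I (r * g) : MvPolynomial ι ℂ ⧸ 𝒟.I) = Ideal.Quotient.mk 𝒟.I g := by
      rw [← hrg]
      rfl
    have h3 := (Ideal.Quotient.eq).mp h2
    have e : (1 - r) * g = -(r * g - g) := by ring
    rw [e]
    exact 𝒟.I.neg_mem h3

omit [Fintype γ] in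
theorem ph_jd_I_le : 𝒟.I ≤ 𝒟.p₀ := fun g hg N => ⟨g, hg, by simpa using ph_ord_zero x N⟩

omit [Fintype γ] in
theorem ph_jd_p₀_eval {g : MvPolynomial ι ℂ} (hg : g ∈ 𝒟.p₀) : eval x g = 0 := by
  obtain ⟨h, hI, ho⟩ := hg 1
  have := (ph_ord_one_iff x _).mp ho
  rwa [map_sub, ph_jd_I_eval 𝒟 hI, sub_zero] at this

/-- the Jacobian criterion for the data `𝒟` -/
theorem ph_jd_main [Finite ι] :
    ∃ p ∈ 𝒟.I.minimalPrimes, x ∈ zeroLocus ℂ p ∧
      (∀ q ∈ 𝒟.I.minimalPrimes, x ∈ zeroLocus ℂ q → q = p) ∧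
      ∀ g ∈ p, ∃ w, eval x w ≠ 0 ∧ w * g ∈ 𝒟.I := by
  have hle : ∀ q : Ideal (MvPolynomial ι ℂ), q.IsPrime → 𝒟.I ≤ q → x ∈ zeroLocus ℂ q →
      𝒟.p₀ ≤ q := by
    intro q hq hIq hxq g hg
    obtain ⟨w, hw, hwg⟩ := ph_jd_krull 𝒟 hg
    rcases hq.mem_or_mem (hIq hwg) with h | h
    · have := (mem_zeroLocus_iff.mp hxq) w h
      rw [aeval_eq_eval] at this
      exact absurd this hw
    · exact h
  have hx0 : x ∈ zeroLocus ℂ 𝒟.p₀ := by
    rw [mem_zeroLocus_iff]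
    intro g hg
    rw [aeval_eq_eval]
    exact ph_jd_p₀_eval 𝒟 hg
  refine ⟨𝒟.p₀, ⟨⟨ph_jd_prime 𝒟, ph_jd_I_le 𝒟⟩, ?_⟩, hx0, ?_, fun g hg => ph_jd_krull 𝒟 hg⟩
  · intro q hq hqp
    exact hle q hq.1 hq.2 (zeroLocus_anti_mono hqp hx0)
  · intro q hq hxq
    exact le_antisymm (hq.2 ⟨ph_jd_prime 𝒟, ph_jd_I_le 𝒟⟩ (hle q hq.1.1 hq.1.2 hxq))
      (hle q hq.1.1 hq.1.2 hxq)

end prime

section construct

variable {ι : Type*} [Fintype ι]

theorem ph_sumExtend_inl {K V α : Type*} [Field K] [AddCommGroup V] [Module K V] {v : α → V}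
    (hs : LinearIndependent K v) (j : α) : Basis.sumExtend hs (Sum.inl j) = v j := by
  simp only [Basis.sumExtend, Basis.reindex_apply, Basis.coe_extend]
  rfl

/-- the linear form with coefficient vector `a`, centred at `x` -/
noncomputable def phLinAt (x : ι → ℂ) : (ι → ℂ) →ₗ[ℂ] MvPolynomial ι ℂ :=
  Fintype.linearCombination ℂ fun i => (X i - C (x i) : MvPolynomial ι ℂ)

theorem ph_phLinAt_apply (x a : ι → ℂ) : phLinAt x a = ∑ i, C (a i) * (X i - C (x i)) := by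
  rw [phLinAt, Fintype.linearCombination_apply]
  exact Finset.sum_congr rfl fun i _ => smul_eq_C_mul _ _

theorem ph_phLinAt_single [DecidableEq ι] (x : ι → ℂ) (i : ι) :
    phLinAt x (Pi.single i 1) = X i - C (x i) := by
  rw [ph_phLinAt_apply, Finset.sum_eq_single i]
  · simp
  · intro j _ hj; simp [Pi.single_apply, hj]
  · intro h; exact absurd (Finset.mem_univ i) h

/-- the data attached to a basis of the dual space -/
noncomputable def phJacDataOf {β : Type*} [Fintype β] (x : ι → ℂ) (b : Basis β ℂ (ι → ℂ))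
    (F : β → MvPolynomial ι ℂ) (hF : ∀ b', OrdGE x 2 (F b' - phLinAt x (b b'))) :
    PhJacData β ι x := by
  classical
  exact
  { Lam := aeval fun b' => phLinAt x (b b')
    Lam' := aeval fun i => C (x i) + ∑ b', C (b.repr (Pi.single i 1) b') * X b'
    left := by
      intro r
      have : ((aeval fun i => C (x i) + ∑ b', C (b.repr (Pi.single i 1) b') * X b' :
            MvPolynomial ι ℂ →ₐ[ℂ] MvPolynomial β ℂ).comp
          (aeval fun b' => phLinAt x (b b'))) = AlgHom.id ℂ _ := by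
        apply MvPolynomial.algHom_ext
        intro b'
        simp only [AlgHom.comp_apply, aeval_X, AlgHom.id_apply, ph_phLinAt_apply, map_sum, map_mul,
          map_sub, algHom_C, algebraMap_eq, add_sub_cancel_left]
        simp only [Finset.mul_sum]
        rw [Finset.sum_comm]
        have e : ∀ b'' : β, ∑ i, C ((b b') i) * (C (b.repr (Pi.single i 1) b'') * X b'')
            = C (b.repr (b b') b'') * X b'' := by
          intro b''
          have h1 : b b' = ∑ i, (b b') i • (Pi.single i 1 : ι → ℂ) := by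
            funext k
            simp [Finset.sum_apply, Pi.single_apply]
          conv_rhs => rw [h1]
          rw [map_sum, Finsupp.finsetSum_apply, map_sum, Finset.sum_mul]
          refine Finset.sum_congr rfl fun i _ => ?_
          rw [map_smul, Finsupp.smul_apply, smul_eq_mul, map_mul, mul_assoc]
        simp only [e, Basis.repr_self]
        rw [Finset.sum_eq_single b']
        · simp
        · intro b'' _ hb; simp [Finsupp.single_apply, Ne.symm hb]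
        · intro h; exact absurd (Finset.mem_univ b') h
      exact congrArg (fun φ : MvPolynomial β ℂ →ₐ[ℂ] MvPolynomial β ℂ => φ r) this
    right := by
      intro g
      have : ((aeval fun b' => phLinAt x (b b') : MvPolynomial β ℂ →ₐ[ℂ] MvPolynomial ι ℂ).comp
          (aeval fun i => C (x i) + ∑ b', C (b.repr (Pi.single i 1) b') * X b'))
          = AlgHom.id ℂ _ := by
        apply MvPolynomial.algHom_ext
        intro i
        simp only [AlgHom.comp_apply, aeval_X, AlgHom.id_apply, map_add, map_sum, map_mul,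
          algHom_C, algebraMap_eq]
        have e : ∑ b', C (b.repr (Pi.single i 1) b') * phLinAt x (b b')
            = phLinAt x (Pi.single i 1) := by
          conv_rhs => rw [← b.sum_repr (Pi.single i 1)]
          rw [map_sum]
          refine Finset.sum_congr rfl fun b' _ => ?_
          rw [map_smul, smul_eq_C_mul]
        rw [e, ph_phLinAt_single]
        ring
      exact congrArg (fun φ : MvPolynomial ι ℂ →ₐ[ℂ] MvPolynomial ι ℂ => φ g) this
    ord := by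
      intro b'
      rw [ph_ord_one_iff, aeval_X, ph_phLinAt_apply]
      simp
    ord' := by
      intro i
      rw [ph_ord_one_iff]
      simp
    F := F
    hF := by
      intro b'
      rw [aeval_X]
      exact hF b' }

/-- **JAC, local form** -/
theorem ph_jac_local_aux {c : ℕ} (f : Fin c → MvPolynomial ι ℂ) (x : ι → ℂ)
    (hx : ∀ j, eval x (f j) = 0)
    (hJ : LinearIndependent ℂ (fun j => fun i => eval x (pderiv i (f j)))) :
    ∃ p ∈ (Ideal.span (Set.range f)).minimalPrimes, x ∈ zeroLocus ℂ p ∧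
      (∀ q ∈ (Ideal.span (Set.range f)).minimalPrimes, x ∈ zeroLocus ℂ q → q = p) ∧
      ∀ g ∈ p, ∃ w, eval x w ≠ 0 ∧ w * g ∈ Ideal.span (Set.range f) := by
  classical
  set b := Basis.sumExtend hJ with hb
  haveI : Finite (Fin c ⊕ ↥(Basis.sumExtendIndex hJ)) := Module.Finite.finite_basis b
  haveI : Finite ↥(Basis.sumExtendIndex hJ) := Finite.sum_right (Fin c)
  letI : Fintype ↥(Basis.sumExtendIndex hJ) := Fintype.ofFinite _
  set F : Fin c ⊕ ↥(Basis.sumExtendIndex hJ) → MvPolynomial ι ℂ :=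
    Sum.elim f fun l => phLinAt x (b (Sum.inr l)) with hFdef
  have hF : ∀ b', OrdGE x 2 (F b' - phLinAt x (b b')) := by
    rintro (j | l)
    · rw [hFdef, Sum.elim_inl, hb, ph_sumExtend_inl, ph_phLinAt_apply]
      exact ph_ord_taylor1 x (f j) (hx j)
    · rw [hFdef, Sum.elim_inr, sub_self]
      exact ph_ord_zero _ _
  exact ph_jd_main (phJacDataOf x b F hF)

end construct

end Claimed.Agent.R273
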