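-- KEEP
import Claimed.Agent.R273.PhDim
import Claimed.Agent.R273.PhJac

/-!
# Row 273, POLY-A 10 = layer [LIB-TAN]: tangent spaces, Jacobian criterion, differentials of maps (G1, G2).  Architect helper94.

No local rings, no Kaehler differentials, no completions.  `Ω` = any field extension of `ℂ`; `dAt f z v` = derivative of `f` at `z ∈ Ω^ι` in the direction `v`;
`tanSp I z` = Zariski tangent space; `IsGenPt p ζ` = `ζ ∈ Ω^ι` is a generic point of the prime `p` (every sheet is one: `ph_sheets_ker`).  `n = card ι`.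

LEAF PH-tan-a (calculus: `ph_dAt_*`, `ph_mem_tanSp_span`, `ph_tanSp_finrank_span`): `pderiv` is a derivation; chain rule by `MvPolynomial.induction_on`.
LEAF PH-tan-b (`ph_vert`).  `v ∈ tanSp p ζ`, `ds_j(v) = 0`, every `ζ_i` algebraic over `ℂ[s(ζ)]`.  Take `m ∈ ℂ[S_1..S_r][X]`, `m(s(ζ), X) ≠ 0`, `m(s(ζ), ζ_i) = 0`, of minimal `X`-degree among such; then `m'(s(ζ), ζ_i) ≠ 0` (char. 0: `m'(s(ζ),X) ≠ 0` of smaller degree; the degree is `≥ 1`).
  `M := m(s, x_i) ∈ p`, so `0 = dAt M ζ v = ∑_j (∂m/∂S_j)(..) ds_j(v) + m'(s(ζ), ζ_i) v_i = m'(..) v_i` (chain rule) and `v_i = 0`.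
LEAF PH-jac-a (`ph_jac_local`; elementary, ~500 lines).  Translate: `x = 0`?  NOT needed: work with `𝔪 = 𝔪_x`, `J_N := span(range f) + 𝔪^N`.  Choose `u_1..u_{n-c}` of degree `≤ 1`, `u_l(x) = 0`, such that `df_1..df_c, du_1..du_{n-c}` is a basis of the dual of `ℂ^ι`.
  (1) The `ℂ`-algebra map `Φ : ℂ[Y_1..Y_c, U_1..U_{n-c}] → P`, `Y_j ↦ f_j`, `U_l ↦ u_l`, maps `𝔫^N` into `𝔪^N` (`𝔫` = ideal of the origin) and `Φ_N : ℂ[Y,U]/𝔫^N → P/𝔪^N` is SURJECTIVE: induction on `N`, `𝔪^N = Φ(𝔫^N) + 𝔪^{N+1}` (because `x_i - x_i(x) ∈ span(f_j, u_l) + 𝔪^2`); both sides have the same finite dimension (`binom(N-1+n,n)`), so `Φ_N` is bijective.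
  (2) Hence `P/J_N ≅ ℂ[Y,U]/((Y) + 𝔫^N) = ℂ[U]/(U)^N`.  Define `ord g := sup {N | g ∈ J_N}`.  By (2) and additivity of the order in `ℂ[U]` (`MvPowerSeries.order_mul` or lowest homogeneous components): `g ∉ J_a`, `g' ∉ J_b` ⇒ `g g' ∉ J_{a+b-1}`.
  (3) `p₀ := ⋂_N J_N` is therefore a prime ideal (proper: `1 ∉ J_1`).  Krull's intersection theorem in `P ⧸ span(range f)` (`Ideal.mem_iInf_smul_pow_eq_bot_iff`): `g ∈ p₀ ⇔ ∃ w, w(x) = 1 ∧ w g ∈ span(range f)`.
  (4) `p₀` is a minimal prime of `span(range f)`, and the only one vanishing at `x`: if `q ⊇ (f)` prime, `q ⊆ 𝔪_x`, `g ∈ p₀`: `w g ∈ q`, `w ∉ q`, so `p₀ ⊆ q`.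
LEAF PH-jac-b (`ph_jac`, `ph_jac_tan`, `ph_smooth_unique`).  Dimension: `≥ n - c` is `ph_krull`.  `≤`: `p₀^{(i)}` := the prime of `ph_jac_local` for `f_1..f_i`; `p₀^{(i)} < p₀^{(i+1)}` (`f_{i+1} ∉ p₀^{(i)}`: otherwise `w f_{i+1} ∈ (f_1..f_i)`, differentiate at `x`: `df_{i+1} ∈ span(df_1..df_i)`), so `vdim` drops `c` times (`ph_vdim_lt_of_ssubset`).
  `ph_jac_tan`: differentiate `w g = ∑ a_j f_j` at `x`.  `ph_smooth_unique`: pick `c = n - d` elements of `span G` with independent differentials at `x`; every component of `Z(G)` through `x` lies in `Z(p₀)`; equal dimension ⇒ equality.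
LEAF PH-tan-c (`ph_rank_spec`, `ph_tan_generic`, `ph_tan_ge`, `ph_tan_open`).  `ph_rank_spec`: a family of polynomial vectors independent at `x ∈ Z(p)` is independent at `ζ` (an `r × r` minor is `≠ 0` at `x`, so `∉ p`, so `≠ 0` at `ζ`), and conversely there is `h ∉ p` (the minor) such that independence at `ζ` implies independence at all `x` with `h(x) ≠ 0`.
  `ph_tan_generic`, `≤`: `ph_vert` with `s = t` (`NPos p t`; `ζ_i` algebraic over `ℂ[t(ζ)]` by `ph_alg_rel`): `v ↦ (dt_l(v))_l` is injective on `tanSp p ζ`.  `≥`: let `g_1..g_r ∈ p` have independent differentials at `ζ`, `r = n - finrank tanSp`; choose `x ∈ Z(p)` where they are still independent (`ph_rank_spec`, Nullstellensatz);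
  `ph_jac`: the component `W` of `Z(g_1..g_r)` through `x` is unique, `vdim W = n - r`; `Z(p) ⊆ W` (`ph_isVar_subset_comp`), so `k ≤ n - r`.  `ph_tan_ge`, `ph_tan_open`: `ph_rank_spec` for the differentials of a finite generating set of `p`.
LEAF PH-tan-d (`ph_trdeg`, `ph_G1`, `ph_G1_closed`, `ph_G2`, `ph_vdim_image`).  `ph_trdeg`: `NPos p t` ⇒ `t(ζ)` is a transcendence basis of `ℂ[ζ]`.  `ph_G1`: `q := ψ^{-1} p`, `η = ψ(ζ)` generic point of `q`, `k' = vdim Z(q) = trdeg ℂ(η)`.  Choose `k - k'` of the `t_l` forming a transcendence basis of `ℂ(ζ)/ℂ(η)` (`Algebra.trdeg_add_eq`, `exists_isTranscendenceBasis_subset`..).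
  `ph_vert` with `s = (ψ_j)_j ∪ (t_l)_{l ∈ B}`: `v ↦ (dt_l(v))_{l∈B}` is injective on `ker(dψ_ζ | tanSp p ζ)`, so that kernel has dimension `≤ k - k'`, the image has dimension `≥ k' = finrank tanSp q η` (`ph_tan_generic` twice); the image lies in `tanSp q η` (chain rule).  `ph_G1_closed`: `ph_rank_spec`.  `ph_G2`: `tanSp q η = 0 ⇒ vdim Z(q) = 0 ⇒` point.
-/

set_option autoImplicit false

namespace Claimed.Agent.R273

open MvPolynomial Module

variable {ι : Type*} [Fintype ι]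

section defs

variable {Ω : Type*} [Field Ω] [Algebra ℂ Ω]

/-- derivative of `f` at the point `z ∈ Ω^ι` in the direction `v` -/
noncomputable def dAt (f : MvPolynomial ι ℂ) (z v : ι → Ω) : Ω := ∑ i, aeval z (pderiv i f) * v i

/-- Zariski tangent space of the ideal `I` at `z` -/
def tanSp (I : Ideal (MvPolynomial ι ℂ)) (z : ι → Ω) : Submodule Ω (ι → Ω) where
  carrier := {v | ∀ f ∈ I, dAt f z v = 0}
  add_mem' := by
    intro a b ha hb f hf
    have h1 := ha f hf
    have h2 := hb f hf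
    simp only [dAt, Pi.add_apply, mul_add, Finset.sum_add_distrib] at *
    rw [h1, h2, add_zero]
  zero_mem' := by
    intro f _
    simp [dAt]
  smul_mem' := by
    intro c a ha f hf
    have h1 := ha f hf
    simp only [dAt, Pi.smul_apply, smul_eq_mul] at *
    have : ∑ i, aeval z (pderiv i f) * (c * a i) = c * ∑ i, aeval z (pderiv i f) * a i := by
      rw [Finset.mul_sum]; exact Finset.sum_congr rfl fun i _ => by ring
    rw [this, h1, mul_zero]

/-- `ζ ∈ Ω^ι` is a generic point of `p` -/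
def IsGenPt (p : Ideal (MvPolynomial ι ℂ)) (ζ : ι → Ω) : Prop := ∀ f, aeval ζ f = 0 ↔ f ∈ p

/-! ### PH-tan-a: calculus -/

theorem ph_dAt_add (f g : MvPolynomial ι ℂ) (z v : ι → Ω) : dAt (f + g) z v = dAt f z v + dAt g z v := by
  simp only [dAt, map_add, add_mul, Finset.sum_add_distrib]

theorem ph_dAt_C (c : ℂ) (z v : ι → Ω) : dAt (C c : MvPolynomial ι ℂ) z v = 0 := by
  simp [dAt]

theorem ph_dAt_X (i : ι) (z v : ι → Ω) : dAt (X i : MvPolynomial ι ℂ) z v = v i := by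
  classical
  simp only [dAt, pderiv_X]
  rw [Finset.sum_eq_single i]
  · simp
  · intro j _ hj
    simp [Pi.single_apply, hj.symm]
  · intro h; exact absurd (Finset.mem_univ _) h

theorem ph_dAt_mul (f g : MvPolynomial ι ℂ) (z v : ι → Ω) :
    dAt (f * g) z v = aeval z f * dAt g z v + aeval z g * dAt f z v := by
  simp only [dAt, Derivation.leibniz, smul_eq_mul, map_add, map_mul, add_mul, Finset.sum_add_distrib,
    Finset.mul_sum, mul_assoc]

theorem ph_dAt_sum {α : Type*} (s : Finset α) (f : α → MvPolynomial ι ℂ) (z v : ι → Ω) :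
    dAt (∑ a ∈ s, f a) z v = ∑ a ∈ s, dAt (f a) z v := by
  classical
  induction s using Finset.induction_on with
  | empty => simp [dAt]
  | insert a s ha ih => rw [Finset.sum_insert ha, Finset.sum_insert ha, ph_dAt_add, ih]

/-- chain rule -/
theorem ph_dAt_aeval {κ : Type*} [Fintype κ] (s : κ → MvPolynomial ι ℂ) (g : MvPolynomial κ ℂ)
    (z v : ι → Ω) :
    dAt (aeval s g) z v = dAt g (fun j => aeval z (s j)) (fun j => dAt (s j) z v) := by
  induction g using MvPolynomial.induction_on with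
  | C c => rw [aeval_C, algebraMap_eq, ph_dAt_C, ph_dAt_C]
  | add f g hf hg => rw [map_add, ph_dAt_add, ph_dAt_add, hf, hg]
  | mul_X f j hf =>
    rw [map_mul, aeval_X, ph_dAt_mul, ph_dAt_mul, hf, ph_dAt_X, aeval_X, comp_aeval_apply]

theorem ph_mem_tanSp_span (G : Set (MvPolynomial ι ℂ)) (z : ι → Ω) (hz : ∀ g ∈ G, aeval z g = 0)
    (v : ι → Ω) : v ∈ tanSp (Ideal.span G) z ↔ ∀ g ∈ G, dAt g z v = 0 := by
  constructor
  · intro h g hg
    exact h g (Ideal.subset_span hg)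
  · intro h f hf
    have key : aeval z f = 0 ∧ dAt f z v = 0 := by
      refine Submodule.span_induction (p := fun f _ => aeval z f = 0 ∧ dAt f z v = 0)
        ?_ ?_ ?_ ?_ hf
      · intro g hg; exact ⟨hz g hg, h g hg⟩
      · exact ⟨map_zero _, by simp [dAt]⟩
      · rintro a b _ _ ⟨h1, h2⟩ ⟨h3, h4⟩
        exact ⟨by rw [map_add, h1, h3, add_zero], by rw [ph_dAt_add, h2, h4, add_zero]⟩
      · rintro a b _ ⟨h1, h2⟩
        exact ⟨by rw [smul_eq_mul, map_mul, h1, mul_zero],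
          by rw [smul_eq_mul, ph_dAt_mul, h1, h2, mul_zero, zero_mul, add_zero]⟩
    exact key.2

theorem ph_isGenPt_isPrime (p : Ideal (MvPolynomial ι ℂ)) (ζ : ι → Ω) (h : IsGenPt p ζ) : p.IsPrime := by
  have : p = RingHom.ker (aeval ζ : MvPolynomial ι ℂ →ₐ[ℂ] Ω).toRingHom := by
    ext f
    rw [RingHom.mem_ker]
    exact (h f).symm
  rw [this]
  exact RingHom.ker_isPrime _

theorem ph_isGenPt_comap {κ : Type*} [Fintype κ] (p : Ideal (MvPolynomial ι ℂ)) (ζ : ι → Ω)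
    (h : IsGenPt p ζ) (ψ : κ → MvPolynomial ι ℂ) :
    IsGenPt (p.comap (aeval ψ : MvPolynomial κ ℂ →ₐ[ℂ] MvPolynomial ι ℂ)) (fun j => aeval ζ (ψ j)) := by
  intro f
  rw [Ideal.mem_comap, ← h, comp_aeval_apply]

/-- orthogonal complement for the dot product -/
theorem ph_finrank_orth (S : Set (ι → Ω)) (T : Submodule Ω (ι → Ω))
    (hT : ∀ v, v ∈ T ↔ ∀ g ∈ S, ∑ i, g i * v i = 0) :
    finrank Ω T + finrank Ω (Submodule.span Ω S) = Fintype.card ι := by
  classical
  set e := dotProductEquiv Ω ι with he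
  set W : Submodule Ω (Module.Dual Ω (ι → Ω)) := (Submodule.span Ω S).map e.toLinearMap with hW
  have h1 := Subspace.finrank_add_finrank_dualCoannihilator_eq W
  have h2 : finrank Ω W = finrank Ω (Submodule.span Ω S) := LinearEquiv.finrank_map_eq e _
  have h3 : W.dualCoannihilator = T := by
    ext v
    rw [Submodule.mem_dualCoannihilator, hT]
    constructor
    · intro h g hg
      have := h (e g) ⟨g, Submodule.subset_span hg, rfl⟩
      simpa [he, dotProduct] using this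
    · rintro h _ ⟨g, hg, rfl⟩
      have hle : Submodule.span Ω S ≤ LinearMap.ker ((LinearMap.flip e.toLinearMap) v) := by
        rw [Submodule.span_le]
        intro g hg
        have := h g hg
        simpa [he, dotProduct] using this
      exact hle hg
  rw [h2, h3, Module.finrank_fintype_fun_eq_card] at h1
  omega

theorem ph_tanSp_finrank (I : Ideal (MvPolynomial ι ℂ)) (z : ι → Ω) :
    finrank Ω (tanSp I z) +
      finrank Ω (Submodule.span Ω ((fun f : MvPolynomial ι ℂ => fun i => aeval z (pderiv i f)) '' (I : Set (MvPolynomial ι ℂ))))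
      = Fintype.card ι := by
  apply ph_finrank_orth
  intro v
  constructor
  · rintro h _ ⟨f, hf, rfl⟩
    exact h f hf
  · intro h f hf
    exact h _ ⟨f, hf, rfl⟩

/-! ### PH-tan-b: vertical vectors -/

theorem ph_dAt_zero_dir (f : MvPolynomial ι ℂ) (z : ι → Ω) : dAt f z (fun _ => 0) = 0 := by
  simp [dAt]

/-- derivative of `m(s, x_i)` in a direction killed by all `ds_j` -/
theorem ph_dAt_eval₂ {σ : Type*} [Fintype σ] (ζ : ι → Ω) (s : σ → MvPolynomial ι ℂ) (v : ι → Ω)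
    (hs : ∀ j, dAt (s j) ζ v = 0) (i : ι) (m : Polynomial (MvPolynomial σ ℂ)) :
    aeval ζ (m.eval₂ (aeval s : MvPolynomial σ ℂ →ₐ[ℂ] MvPolynomial ι ℂ).toRingHom (X i))
        = (m.map (aeval (fun j => aeval ζ (s j)) : MvPolynomial σ ℂ →ₐ[ℂ] Ω).toRingHom).eval (ζ i) ∧
    dAt (m.eval₂ (aeval s : MvPolynomial σ ℂ →ₐ[ℂ] MvPolynomial ι ℂ).toRingHom (X i)) ζ v
      = ((Polynomial.derivative m).map
          (aeval (fun j => aeval ζ (s j)) : MvPolynomial σ ℂ →ₐ[ℂ] Ω).toRingHom).eval (ζ i) * v i := by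
  induction m using Polynomial.induction_on with
  | C a =>
    constructor
    · rw [Polynomial.eval₂_C, Polynomial.map_C, Polynomial.eval_C]
      exact comp_aeval_apply (f := s) (aeval ζ : MvPolynomial ι ℂ →ₐ[ℂ] Ω) a
    · simp only [Polynomial.eval₂_C, AlgHom.toRingHom_eq_coe, RingHom.coe_coe,
        Polynomial.derivative_C, Polynomial.map_zero, Polynomial.eval_zero, zero_mul]
      rw [ph_dAt_aeval]
      simp only [hs]
      exact ph_dAt_zero_dir _ _
  | add f g hf hg =>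
    constructor
    · rw [Polynomial.eval₂_add, map_add, hf.1, hg.1, Polynomial.map_add, Polynomial.eval_add]
    · rw [Polynomial.eval₂_add, ph_dAt_add, hf.2, hg.2, map_add, Polynomial.map_add,
        Polynomial.eval_add, add_mul]
  | monomial n a h =>
    have e1 : (Polynomial.C a * Polynomial.X ^ (n + 1) : Polynomial (MvPolynomial σ ℂ))
        = (Polynomial.C a * Polynomial.X ^ n) * Polynomial.X := by rw [pow_succ, mul_assoc]
    rw [e1]
    generalize (Polynomial.C a * Polynomial.X ^ n : Polynomial (MvPolynomial σ ℂ)) = m₀ at h ⊢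
    constructor
    · rw [Polynomial.eval₂_mul, Polynomial.eval₂_X, map_mul, h.1, aeval_X, Polynomial.map_mul,
        Polynomial.map_X, Polynomial.eval_mul, Polynomial.eval_X]
    · rw [Polynomial.eval₂_mul, Polynomial.eval₂_X, ph_dAt_mul, h.1, h.2, ph_dAt_X, aeval_X,
        Polynomial.derivative_mul, Polynomial.derivative_X, mul_one, Polynomial.map_add,
        Polynomial.map_mul, Polynomial.map_X, Polynomial.eval_add, Polynomial.eval_mul,
        Polynomial.eval_X]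
      ring

/-- `f` is algebraic over `ℂ[s]` modulo `p` -/
def AlgMod {σ : Type*} (p : Ideal (MvPolynomial ι ℂ)) (s : σ → MvPolynomial ι ℂ)
    (f : MvPolynomial ι ℂ) : Prop :=
  ∃ m : Polynomial (MvPolynomial σ ℂ), (∃ j, aeval s (m.coeff j) ∉ p) ∧
    m.eval₂ (aeval s : MvPolynomial σ ℂ →ₐ[ℂ] MvPolynomial ι ℂ).toRingHom f ∈ p

theorem ph_vert_core {σ : Type*} [Fintype σ] (p : Ideal (MvPolynomial ι ℂ)) (ζ : ι → Ω)
    (hζ : IsGenPt p ζ) (s : σ → MvPolynomial ι ℂ)
    (halg : ∀ i, ∃ m : Polynomial (MvPolynomial σ ℂ),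
      m.map (aeval (fun j => aeval ζ (s j)) : MvPolynomial σ ℂ →ₐ[ℂ] Ω).toRingHom ≠ 0 ∧
      (m.map (aeval (fun j => aeval ζ (s j)) : MvPolynomial σ ℂ →ₐ[ℂ] Ω).toRingHom).eval (ζ i) = 0)
    (v : ι → Ω) (hv : v ∈ tanSp p ζ) (hs : ∀ j, dAt (s j) ζ v = 0) : v = 0 := by
  classical
  haveI : CharZero Ω := charZero_of_injective_algebraMap (algebraMap ℂ Ω).injective
  funext i
  set φ : MvPolynomial σ ℂ →+* Ω :=
    (aeval (fun j => aeval ζ (s j)) : MvPolynomial σ ℂ →ₐ[ℂ] Ω).toRingHom with hφ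
  have hex : ∃ n : ℕ, ∃ m : Polynomial (MvPolynomial σ ℂ), m.map φ ≠ 0 ∧
      (m.map φ).eval (ζ i) = 0 ∧ (m.map φ).natDegree = n := by
    obtain ⟨m, h1, h2⟩ := halg i
    exact ⟨_, m, h1, h2, rfl⟩
  obtain ⟨m, hm0, hmr, hmd⟩ := Nat.find_spec hex
  have hmin := fun n hn => Nat.find_min hex (m := n) hn
  set n₀ := Nat.find hex with hn₀
  have hdeg : (m.map φ).natDegree ≠ 0 := by
    intro h0
    rw [Polynomial.eq_C_of_natDegree_eq_zero h0] at hmr hm0
    rw [Polynomial.eval_C] at hmr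
    rw [hmr] at hm0
    exact hm0 Polynomial.C_0
  have hder : ((Polynomial.derivative m).map φ).eval (ζ i) ≠ 0 := by
    intro h0
    have hlt : ((Polynomial.derivative m).map φ).natDegree < n₀ := by
      rw [← Polynomial.derivative_map, ← hmd]
      exact Polynomial.natDegree_derivative_lt hdeg
    apply hmin _ hlt
    refine ⟨Polynomial.derivative m, ?_, h0, rfl⟩
    rw [← Polynomial.derivative_map]
    intro h1
    exact hdeg (Polynomial.derivative_eq_zero.mp h1)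
  obtain ⟨h1, h2⟩ := ph_dAt_eval₂ ζ s v hs i m
  have h3 : m.eval₂ (aeval s : MvPolynomial σ ℂ →ₐ[ℂ] MvPolynomial ι ℂ).toRingHom (X i) ∈ p := by
    rw [← hζ, h1]; exact hmr
  have h4 := hv _ h3
  rw [h2] at h4
  rcases mul_eq_zero.mp h4 with h5 | h5
  · exact absurd h5 hder
  · exact h5

theorem ph_vert {r : ℕ} (p : Ideal (MvPolynomial ι ℂ)) (ζ : ι → Ω) (hζ : IsGenPt p ζ)
    (s : Fin r → MvPolynomial ι ℂ)
    (halg : ∀ i, IsAlgebraic (Algebra.adjoin ℂ (Set.range fun j => aeval ζ (s j))) (ζ i))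
    (v : ι → Ω) (hv : v ∈ tanSp p ζ) (hs : ∀ j, dAt (s j) ζ v = 0) : v = 0 := by
  apply ph_vert_core p ζ hζ s _ v hv hs
  intro i
  set φ : MvPolynomial (Fin r) ℂ →+* Ω :=
    (aeval (fun j => aeval ζ (s j)) : MvPolynomial (Fin r) ℂ →ₐ[ℂ] Ω).toRingHom with hφ
  obtain ⟨P, hP0, hP⟩ := halg i
  have hrange : ∀ y ∈ Algebra.adjoin ℂ (Set.range fun j => aeval ζ (s j)), y ∈ Set.range φ := by
    intro y hy
    rw [Algebra.adjoin_range_eq_range_aeval] at hy
    obtain ⟨a, ha⟩ := hy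
    exact ⟨a, ha⟩
  have hl : P.map (algebraMap (Algebra.adjoin ℂ (Set.range fun j => aeval ζ (s j))) Ω)
      ∈ Polynomial.lifts φ := by
    rw [Polynomial.lifts_iff_coeff_lifts]
    intro n
    rw [Polynomial.coeff_map]
    exact hrange _ (P.coeff n).2
  obtain ⟨m, hm⟩ := (Polynomial.mem_lifts _).mp hl
  refine ⟨m, ?_, ?_⟩
  · rw [hm]
    exact (Polynomial.map_ne_zero_iff (Subtype.val_injective)).mpr hP0
  · rw [hm, Polynomial.eval_map_algebraMap]
    exact hP

/-- vertical vectors, explicit form of the algebraicity -/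
theorem ph_vert_alg {σ : Type*} [Fintype σ] (p : Ideal (MvPolynomial ι ℂ)) (ζ : ι → Ω)
    (hζ : IsGenPt p ζ) (s : σ → MvPolynomial ι ℂ) (halg : ∀ i, AlgMod p s (X i))
    (v : ι → Ω) (hv : v ∈ tanSp p ζ) (hs : ∀ j, dAt (s j) ζ v = 0) : v = 0 := by
  apply ph_vert_core p ζ hζ s _ v hv hs
  intro i
  obtain ⟨m, ⟨j, hj⟩, hm⟩ := halg i
  refine ⟨m, ?_, ?_⟩
  · intro h0
    apply hj
    rw [← hζ]
    have h1 := congrArg (fun q => Polynomial.coeff q j) h0
    simp only [Polynomial.coeff_map, Polynomial.coeff_zero] at h1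
    rw [← h1]
    exact comp_aeval_apply (f := s) (aeval ζ : MvPolynomial ι ℂ →ₐ[ℂ] Ω) (m.coeff j)
  · rw [← (ph_dAt_eval₂ ζ s (fun _ => 0) (fun j => ph_dAt_zero_dir _ _) i m).1]
    exact (hζ _).mpr hm

end defs

/-- sheets are generic points -/
theorem ph_sheet_isGenPt {k : ℕ} (p : Ideal (MvPolynomial ι ℂ)) (hp : p.IsPrime)
    (t : Fin k → MvPolynomial ι ℂ) (ht : NPos p t) (ζ : ι → GenF k) (hζ : ζ ∈ sheets p t) :
    IsGenPt p ζ := fun f => ph_sheets_ker p hp t ht ζ hζ f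

/-! ### PH-jac-a, PH-jac-b: the Jacobian criterion -/

/-- **JAC, local form**: independent differentials at a common zero `x` ⇒ the ideal is prime near `x`. -/
theorem ph_jac_local {c : ℕ} (f : Fin c → MvPolynomial ι ℂ) (x : ι → ℂ) (hx : ∀ j, eval x (f j) = 0)
    (hJ : LinearIndependent ℂ (fun j => fun i => eval x (pderiv i (f j)))) :
    ∃ p ∈ (Ideal.span (Set.range f)).minimalPrimes, x ∈ zeroLocus ℂ p ∧
      (∀ q ∈ (Ideal.span (Set.range f)).minimalPrimes, x ∈ zeroLocus ℂ q → q = p) ∧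
      ∀ g ∈ p, ∃ w, eval x w ≠ 0 ∧ w * g ∈ Ideal.span (Set.range f) :=
  ph_jac_local_aux f x hx hJ

/-- gradient of an element of `span (range f)` at a common zero -/
theorem ph_grad_span {c : ℕ} (f : Fin c → MvPolynomial ι ℂ) (x : ι → ℂ) (hx : ∀ j, eval x (f j) = 0)
    (g : MvPolynomial ι ℂ) (hg : g ∈ Ideal.span (Set.range f)) :
    ∃ a : Fin c → ℂ, ∀ i, eval x (pderiv i g) = ∑ j, a j * eval x (pderiv i (f j)) := by
  obtain ⟨a, rfl⟩ := (Ideal.mem_span_range_iff_exists_fun).mp hg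
  refine ⟨fun j => eval x (a j), fun i => ?_⟩
  rw [map_sum, map_sum]
  refine Finset.sum_congr rfl fun j _ => ?_
  rw [Derivation.leibniz, smul_eq_mul, smul_eq_mul, map_add, map_mul, map_mul, hx j, zero_mul,
    add_zero]

theorem ph_jac_dim_le : ∀ (c : ℕ) (f : Fin c → MvPolynomial ι ℂ) (x : ι → ℂ)
    (_ : ∀ j, eval x (f j) = 0)
    (_ : LinearIndependent ℂ (fun j => fun i => eval x (pderiv i (f j))))
    (p : Ideal (MvPolynomial ι ℂ)) (_ : p ∈ (Ideal.span (Set.range f)).minimalPrimes)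
    (_ : x ∈ zeroLocus ℂ p), vdim (zeroLocus ℂ p) + c ≤ Fintype.card ι := by
  intro c
  induction c with
  | zero => intro f x _ _ p _ _; exact ph_vdim_le _
  | succ c ih =>
    intro f x hx hJ p hp hxp
    set f' : Fin c → MvPolynomial ι ℂ := fun j => f j.castSucc with hf'
    have hJ' : LinearIndependent ℂ (fun j => fun i => eval x (pderiv i (f' j))) :=
      hJ.comp Fin.castSucc (Fin.castSucc_injective c)
    obtain ⟨p', hp', hxp', huniq, hloc⟩ := ph_jac_local f' x (fun j => hx _) hJ'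
    have hle : Ideal.span (Set.range f') ≤ Ideal.span (Set.range f) := by
      apply Ideal.span_mono
      rintro _ ⟨j, rfl⟩
      exact ⟨j.castSucc, rfl⟩
    have hpp : p.IsPrime := hp.1.1
    have hpp' : p'.IsPrime := hp'.1.1
    have hp'p : p' ≤ p := by
      obtain ⟨q, hq, hqp⟩ := Ideal.exists_minimalPrimes_le (hle.trans hp.1.2)
      have : q = p' := huniq q hq (zeroLocus_anti_mono hqp hxp)
      rw [← this]; exact hqp
    have hlast : f (Fin.last c) ∉ p' := by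
      intro hmem
      obtain ⟨w, hw, hwf⟩ := hloc _ hmem
      obtain ⟨a, ha⟩ := ph_grad_span f' x (fun j => hx _) _ hwf
      have hrel := Fintype.linearIndependent_iff.mp hJ
        (Fin.snoc (fun j => - a j) (eval x w) : Fin (c + 1) → ℂ) (by
          funext i
          rw [Fin.sum_univ_castSucc]
          simp only [Fin.snoc_castSucc, Fin.snoc_last, Pi.add_apply, Finset.sum_apply,
            Pi.smul_apply, smul_eq_mul, Pi.zero_apply]
          have h1 := ha i
          rw [Derivation.leibniz, smul_eq_mul, smul_eq_mul, map_add, map_mul, map_mul,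
            hx (Fin.last c), zero_mul, add_zero] at h1
          rw [h1]
          simp only [neg_mul, Finset.sum_neg_distrib]
          exact neg_add_cancel _) (Fin.last c)
      rw [Fin.snoc_last] at hrel
      exact hw hrel
    have hlt : vdim (zeroLocus ℂ p) < vdim (zeroLocus ℂ p') := by
      apply ph_vdim_lt_of_ssubset ⟨p', hpp', rfl⟩ (zeroLocus_anti_mono hp'p) (f (Fin.last c))
      · intro y hy
        exact (ph_mem_zeroLocus p y).mp hy _ (hp.1.2 (Ideal.subset_span ⟨_, rfl⟩))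
      · by_contra hcon
        apply hlast
        rw [← ph_vanishing_prime p' hpp', ph_mem_vanishingIdeal]
        intro y hy
        by_contra hne
        exact hcon ⟨y, hy, hne⟩
      · exact ⟨x, hxp⟩
    have := ih f' x (fun j => hx _) hJ' p' hp' hxp'
    omega

theorem ph_jac {c : ℕ} (f : Fin c → MvPolynomial ι ℂ) (x : ι → ℂ) (hx : ∀ j, eval x (f j) = 0)
    (hJ : LinearIndependent ℂ (fun j => fun i => eval x (pderiv i (f j)))) :
    ∃ p ∈ (Ideal.span (Set.range f)).minimalPrimes, x ∈ zeroLocus ℂ p ∧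
      (∀ q ∈ (Ideal.span (Set.range f)).minimalPrimes, x ∈ zeroLocus ℂ q → q = p) ∧
      (∀ g ∈ p, ∃ w, eval x w ≠ 0 ∧ w * g ∈ Ideal.span (Set.range f)) ∧
      vdim (zeroLocus ℂ p) + c = Fintype.card ι ∧
      ∀ v : ι → ℂ, v ∈ tanSp p x ↔ ∀ j, dAt (f j) x v = 0 := by
  obtain ⟨p, hp, hxp, huniq, hloc⟩ := ph_jac_local f x hx hJ
  refine ⟨p, hp, hxp, huniq, hloc, ?_, ?_⟩
  · exact le_antisymm (ph_jac_dim_le c f x hx hJ p hp hxp) (ph_krull f _ ⟨p, hp, rfl⟩)
  · intro v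
    constructor
    · intro h j
      exact h _ (hp.1.2 (Ideal.subset_span ⟨j, rfl⟩))
    · intro h g hg
      obtain ⟨w, hw, hwg⟩ := hloc g hg
      have h1 : v ∈ tanSp (Ideal.span (Set.range f)) x := by
        rw [ph_mem_tanSp_span]
        · rintro _ ⟨j, rfl⟩; exact h j
        · rintro _ ⟨j, rfl⟩; rw [aeval_eq_eval]; exact hx j
      have h2 := h1 _ hwg
      rw [ph_dAt_mul] at h2
      have h3 : aeval x g = 0 := by
        rw [aeval_eq_eval]; exact (ph_mem_zeroLocus p x).mp hxp g hg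
      rw [h3, zero_mul, add_zero, aeval_eq_eval] at h2
      rcases mul_eq_zero.mp h2 with h4 | h4
      · exact absurd h4 hw
      · exact h4

theorem ph_smooth_unique (G : Set (MvPolynomial ι ℂ)) (x : ι → ℂ) (p : Ideal (MvPolynomial ι ℂ))
    (hp : p ∈ (Ideal.span G).minimalPrimes) (hx : x ∈ zeroLocus ℂ p)
    (hd : finrank ℂ (tanSp (Ideal.span G) x) ≤ vdim (zeroLocus ℂ p)) :
    (∀ q ∈ (Ideal.span G).minimalPrimes, x ∈ zeroLocus ℂ q → q = p) ∧
      tanSp p x = tanSp (Ideal.span G) x ∧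
      (∀ g ∈ p, ∃ w, eval x w ≠ 0 ∧ w * g ∈ Ideal.span G) := by
  classical
  have hpp : p.IsPrime := hp.1.1
  set S : Set (ι → ℂ) := (fun f : MvPolynomial ι ℂ => fun i => aeval x (pderiv i f)) ''
    (Ideal.span G : Set (MvPolynomial ι ℂ)) with hS
  have hrank : finrank ℂ (tanSp (Ideal.span G) x) + finrank ℂ (Submodule.span ℂ S)
      = Fintype.card ι := ph_tanSp_finrank (Ideal.span G) x
  obtain ⟨u, hu, -, hli⟩ := Submodule.exists_fun_fin_finrank_span_eq ℂ S
  choose f hfG hfu using hu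
  have hxG : ∀ g ∈ Ideal.span G, eval x g = 0 := fun g hg =>
    (ph_mem_zeroLocus p x).mp hx g (hp.1.2 hg)
  have hJ : LinearIndependent ℂ (fun j => fun i => eval x (pderiv i (f j))) := by
    have : (fun j => fun i => eval x (pderiv i (f j))) = u := by
      funext j
      rw [← hfu j]
      funext i
      rw [aeval_eq_eval]
    rw [this]; exact hli
  obtain ⟨p₀, hp₀, hxp₀, huniq, hloc, hdim, htan⟩ := ph_jac f x (fun j => hxG _ (hfG j)) hJ
  have hle : Ideal.span (Set.range f) ≤ Ideal.span G := by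
    rw [Ideal.span_le]
    rintro _ ⟨j, rfl⟩
    exact hfG j
  have hpp₀ : p₀.IsPrime := hp₀.1.1
  have hbelow : ∀ q : Ideal (MvPolynomial ι ℂ), q.IsPrime → Ideal.span G ≤ q → x ∈ zeroLocus ℂ q →
      p₀ ≤ q := by
    intro q hq hGq hxq
    haveI := hq
    obtain ⟨q', hq', hq'q⟩ := Ideal.exists_minimalPrimes_le (hle.trans hGq)
    rw [← huniq q' hq' (zeroLocus_anti_mono hq'q hxq)]
    exact hq'q
  have hp₀p : p₀ = p := by
    have h1 := hbelow p hpp hp.1.2 hx
    by_contra hne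
    have h2 : ¬ p ≤ p₀ := fun h => hne (le_antisymm h1 h)
    obtain ⟨g, hgp, hgp₀⟩ := SetLike.not_le_iff_exists.mp h2
    have hlt : vdim (zeroLocus ℂ p) < vdim (zeroLocus ℂ p₀) := by
      apply ph_vdim_lt_of_ssubset ⟨p₀, hpp₀, rfl⟩ (zeroLocus_anti_mono h1) g
      · intro y hy
        exact (ph_mem_zeroLocus p y).mp hy _ hgp
      · by_contra hcon
        apply hgp₀
        rw [← ph_vanishing_prime p₀ hpp₀, ph_mem_vanishingIdeal]
        intro y hy
        by_contra hne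
        exact hcon ⟨y, hy, hne⟩
      · exact ⟨x, hx⟩
    omega
  subst hp₀p
  refine ⟨?_, ?_, ?_⟩
  · intro q hq hxq
    have h1 := hbelow q hq.1.1 hq.1.2 hxq
    exact le_antisymm (hq.2 hp.1 h1) h1
  · apply le_antisymm
    · intro v hv g hg
      exact hv g (hp.1.2 hg)
    · intro v hv
      rw [htan]
      intro j
      exact hv _ (hfG j)
  · intro g hg
    obtain ⟨w, hw, hwg⟩ := hloc g hg
    exact ⟨w, hw, hle hwg⟩

/-! ### PH-tan-c: dimension of the tangent space -/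

/-- linear independence of `r` vectors = a nonzero `r × r` minor -/
theorem ph_li_iff_minor {K κ : Type*} [Field K] [Fintype κ] {r : ℕ} (a : Fin r → κ → K) :
    LinearIndependent K a ↔ ∃ e : Fin r → κ, Matrix.det (fun i j => a i (e j) : Matrix (Fin r) (Fin r) K) ≠ 0 := by
  classical
  constructor
  · intro h
    set M : Matrix (Fin r) κ K := Matrix.of a with hM
    have h1 : M.rank = r := by
      have := LinearIndependent.rank_matrix (M := M) h
      rwa [Fintype.card_fin] at this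
    rw [Matrix.rank_eq_finrank_span_cols] at h1
    have h2 : ∃ u : Fin r → Fin r → K, (∀ i, u i ∈ Set.range M.col) ∧ LinearIndependent K u := by
      obtain ⟨u, hu, -, hli⟩ := Submodule.exists_fun_fin_finrank_span_eq K (Set.range M.col)
      refine ⟨fun i => u (Fin.cast h1.symm i), fun i => hu _, ?_⟩
      exact hli.comp _ (Fin.cast_injective _)
    obtain ⟨u, hu, hli⟩ := h2
    choose e he using hu
    refine ⟨e, ?_⟩
    set N : Matrix (Fin r) (Fin r) K := fun i j => a i (e j) with hN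
    have hcol : N.col = u := by
      funext j
      rw [← he j]
      rfl
    have h3 : IsUnit N := by
      rw [← Matrix.linearIndependent_cols_iff_isUnit, hcol]
      exact hli
    exact ((Matrix.isUnit_iff_isUnit_det N).mp h3).ne_zero
  · rintro ⟨e, he⟩
    have h1 := Matrix.linearIndependent_rows_of_det_ne_zero he
    exact LinearIndependent.of_comp (LinearMap.funLeft K K e) h1


theorem ph_rank_spec {Ω : Type*} [Field Ω] [Algebra ℂ Ω] {κ : Type*} [Fintype κ] {r : ℕ}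
    (p : Ideal (MvPolynomial ι ℂ)) (ζ : ι → Ω) (hζ : IsGenPt p ζ)
    (A : Fin r → κ → MvPolynomial ι ℂ) :
    (∀ x ∈ zeroLocus ℂ p, LinearIndependent ℂ (fun a => fun b => eval x (A a b)) →
        LinearIndependent Ω (fun a => fun b => aeval ζ (A a b))) ∧
      (LinearIndependent Ω (fun a => fun b => aeval ζ (A a b)) →
        ∃ h ∉ p, ∀ x ∈ zeroLocus ℂ p, eval x h ≠ 0 →
          LinearIndependent ℂ (fun a => fun b => eval x (A a b))) := by
  classical
  have hdetζ : ∀ e : Fin r → κ, aeval ζ (Matrix.det (fun i j => A i (e j) : Matrix (Fin r) (Fin r) _))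
      = Matrix.det (fun i j => aeval ζ (A i (e j)) : Matrix (Fin r) (Fin r) Ω) := by
    intro e
    exact AlgHom.map_det (aeval ζ : MvPolynomial ι ℂ →ₐ[ℂ] Ω) _
  have hdetx : ∀ (x : ι → ℂ) (e : Fin r → κ),
      eval x (Matrix.det (fun i j => A i (e j) : Matrix (Fin r) (Fin r) _))
      = Matrix.det (fun i j => eval x (A i (e j)) : Matrix (Fin r) (Fin r) ℂ) := by
    intro x e
    exact RingHom.map_det (eval x) _
  constructor
  · intro x hx hli
    obtain ⟨e, he⟩ := (ph_li_iff_minor _).mp hli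
    rw [ph_li_iff_minor]
    refine ⟨e, ?_⟩
    rw [← hdetζ]
    intro h0
    apply he
    rw [← hdetx]
    exact (ph_mem_zeroLocus p x).mp hx _ ((hζ _).mp h0)
  · intro hli
    obtain ⟨e, he⟩ := (ph_li_iff_minor _).mp hli
    refine ⟨Matrix.det (fun i j => A i (e j) : Matrix (Fin r) (Fin r) _), ?_, ?_⟩
    · intro hmem
      apply he
      rw [← hdetζ]
      exact (hζ _).mpr hmem
    · intro x _ hne
      rw [ph_li_iff_minor]
      refine ⟨e, ?_⟩
      rw [← hdetx]
      exact hne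

theorem ph_exists_genPt (p : Ideal (MvPolynomial ι ℂ)) (hp : p.IsPrime) :
    ∃ ζ : ι → GenF (vdim (zeroLocus ℂ p)), IsGenPt p ζ := by
  obtain ⟨k, t, _, ht⟩ := ph_exists_npos p hp.ne_top
  rw [ph_vdim_of_npos p hp t ht]
  obtain ⟨ζ, hζ⟩ := ph_sheets_nonempty p hp t ht
  exact ⟨ζ, ph_sheet_isGenPt p hp t ht ζ hζ⟩

section
variable {Ω : Type*} [Field Ω] [Algebra ℂ Ω]

/-- elements of `I` whose gradients at `z` form a basis of the span of all gradients -/
theorem ph_grad_choose (I : Ideal (MvPolynomial ι ℂ)) (z : ι → Ω) :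
    ∃ (r : ℕ) (g : Fin r → MvPolynomial ι ℂ), (∀ j, g j ∈ I) ∧
      LinearIndependent Ω (fun j => fun i => aeval z (pderiv i (g j))) ∧
      finrank Ω (tanSp I z) + r = Fintype.card ι := by
  obtain ⟨u, hu, -, hli⟩ := Submodule.exists_fun_fin_finrank_span_eq Ω
    ((fun f : MvPolynomial ι ℂ => fun i => aeval z (pderiv i f)) '' (I : Set (MvPolynomial ι ℂ)))
  choose f hfI hfu using hu
  refine ⟨_, f, hfI, ?_, ph_tanSp_finrank I z⟩
  have : (fun j => fun i => aeval z (pderiv i (f j))) = u := by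
    funext j
    rw [← hfu j]
  rw [this]; exact hli

theorem ph_grad_le (I : Ideal (MvPolynomial ι ℂ)) (z : ι → Ω) {r : ℕ} (g : Fin r → MvPolynomial ι ℂ)
    (hg : ∀ j, g j ∈ I) (hli : LinearIndependent Ω (fun j => fun i => aeval z (pderiv i (g j)))) :
    finrank Ω (tanSp I z) + r ≤ Fintype.card ι := by
  rw [← ph_tanSp_finrank I z]
  apply Nat.add_le_add_left
  have h2 := finrank_span_eq_card hli
  rw [Fintype.card_fin] at h2
  rw [← h2]
  apply Submodule.finrank_mono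
  apply Submodule.span_mono
  rintro _ ⟨j, rfl⟩
  exact ⟨g j, hg j, rfl⟩

/-- `dAt f z` as a linear map -/
noncomputable def dAtL (f : MvPolynomial ι ℂ) (z : ι → Ω) : (ι → Ω) →ₗ[Ω] Ω where
  toFun v := dAt f z v
  map_add' a b := by simp only [dAt, Pi.add_apply, mul_add, Finset.sum_add_distrib]
  map_smul' c a := by
    simp only [dAt, Pi.smul_apply, smul_eq_mul, RingHom.id_apply, Finset.mul_sum]
    exact Finset.sum_congr rfl fun i _ => by ring

end

theorem ph_exists_point_ne (p : Ideal (MvPolynomial ι ℂ)) (hp : p.IsPrime) (h : MvPolynomial ι ℂ)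
    (hh : h ∉ p) : ∃ x ∈ zeroLocus ℂ p, eval x h ≠ 0 := by
  by_contra hcon
  apply hh
  rw [← ph_vanishing_prime p hp, ph_mem_vanishingIdeal]
  intro y hy
  by_contra hne
  exact hcon ⟨y, hy, hne⟩

theorem ph_tan_generic {Ω : Type*} [Field Ω] [Algebra ℂ Ω] (p : Ideal (MvPolynomial ι ℂ))
    (ζ : ι → Ω) (hζ : IsGenPt p ζ) : finrank Ω (tanSp p ζ) = vdim (zeroLocus ℂ p) := by
  classical
  have hp := ph_isGenPt_isPrime p ζ hζ
  apply le_antisymm
  · obtain ⟨k, t, _, ht⟩ := ph_exists_npos p hp.ne_top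
    rw [ph_vdim_of_npos p hp t ht]
    set R₀ := Algebra.adjoin ℂ (Set.range fun j => aeval ζ (t j)) with hR₀
    have halg : ∀ i, IsAlgebraic R₀ (ζ i) := by
      intro i
      obtain ⟨q, hq, hroot⟩ := ph_sheet_root p t ht (X i)
      set φ' : MvPolynomial (Fin k) ℂ →ₐ[ℂ] R₀ :=
        aeval (fun j => (⟨aeval ζ (t j), Algebra.subset_adjoin ⟨j, rfl⟩⟩ : R₀)) with hφ'
      have hval : ∀ a, ((φ' a : R₀) : Ω) = aeval ζ (aeval t a) := by
        intro a
        have h1 := comp_aeval_apply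
          (f := fun j => (⟨aeval ζ (t j), Algebra.subset_adjoin ⟨j, rfl⟩⟩ : R₀)) R₀.val a
        have h2 := comp_aeval_apply (f := t) (aeval ζ : MvPolynomial ι ℂ →ₐ[ℂ] Ω) a
        rw [h2]
        exact h1
      have hinj : Function.Injective φ' := by
        rw [injective_iff_map_eq_zero]
        intro a ha
        apply ht.inj
        rw [← hζ, ← hval, ha]
        rfl
      refine ⟨q.map φ'.toRingHom, (Polynomial.map_ne_zero_iff hinj).mpr hq, ?_⟩
      have h3 := (hζ _).mpr hroot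
      rw [Polynomial.aeval_def, Polynomial.eval₂_map]
      rw [← h3]
      have h4 := Polynomial.hom_eval₂ q
        (aeval t : MvPolynomial (Fin k) ℂ →ₐ[ℂ] MvPolynomial ι ℂ).toRingHom
        (aeval ζ : MvPolynomial ι ℂ →ₐ[ℂ] Ω).toRingHom (X i)
      refine Eq.trans ?_ h4.symm
      have e1 : (aeval ζ : MvPolynomial ι ℂ →ₐ[ℂ] Ω).toRingHom (X i) = ζ i := aeval_X _ _
      rw [e1]
      congr 1
      exact RingHom.ext fun a => hval a
    set Λ : tanSp p ζ →ₗ[Ω] (Fin k → Ω) :=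
      (LinearMap.pi fun l => dAtL (t l) ζ).comp (tanSp p ζ).subtype with hΛ
    have hinj : Function.Injective Λ := by
      rw [injective_iff_map_eq_zero]
      intro v hv
      apply Subtype.ext
      exact ph_vert p ζ hζ t halg v.1 v.2 fun j => congrFun hv j
    have := LinearMap.finrank_le_finrank_of_injective hinj
    rwa [Module.finrank_fin_fun] at this
  · obtain ⟨r, g, hg, hli, hr⟩ := ph_grad_choose p ζ
    obtain ⟨h, hh, hspec⟩ := (ph_rank_spec p ζ hζ (fun j i => pderiv i (g j))).2 hli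
    obtain ⟨x, hx, hne⟩ := ph_exists_point_ne p hp h hh
    have hlix := hspec x hx hne
    obtain ⟨p₀, hp₀, hxp₀, huniq, -, hdim, -⟩ := ph_jac g x
      (fun j => (ph_mem_zeroLocus p x).mp hx _ (hg j)) hlix
    have hle : Ideal.span (Set.range g) ≤ p := by
      rw [Ideal.span_le]
      rintro _ ⟨j, rfl⟩
      exact hg j
    obtain ⟨q', hq', hq'p⟩ := Ideal.exists_minimalPrimes_le hle
    have h1 : q' = p₀ := huniq q' hq' (zeroLocus_anti_mono hq'p hx)
    rw [h1] at hq'p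
    have h2 := ph_vdim_mono (zeroLocus_anti_mono (K := ℂ) hq'p)
    omega

theorem ph_tan_ge (p : Ideal (MvPolynomial ι ℂ)) (hp : p.IsPrime) (x : ι → ℂ)
    (hx : x ∈ zeroLocus ℂ p) : vdim (zeroLocus ℂ p) ≤ finrank ℂ (tanSp p x) := by
  obtain ⟨ζ, hζ⟩ := ph_exists_genPt p hp
  obtain ⟨r, g, hg, hli, hr⟩ := ph_grad_choose p x
  have hli' : LinearIndependent ℂ (fun j => fun i => eval x (pderiv i (g j))) := by
    simpa only [aeval_eq_eval] using hli
  have h1 := (ph_rank_spec p ζ hζ (fun j i => pderiv i (g j))).1 x hx hli'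
  have h2 := ph_grad_le p ζ g hg h1
  rw [ph_tan_generic p ζ hζ] at h2
  omega

theorem ph_tan_open (p : Ideal (MvPolynomial ι ℂ)) (hp : p.IsPrime) :
    ∃ h ∉ p, ∀ x ∈ zeroLocus ℂ p, eval x h ≠ 0 →
      finrank ℂ (tanSp p x) = vdim (zeroLocus ℂ p) := by
  obtain ⟨ζ, hζ⟩ := ph_exists_genPt p hp
  obtain ⟨r, g, hg, hli, hr⟩ := ph_grad_choose p ζ
  obtain ⟨h, hh, hspec⟩ := (ph_rank_spec p ζ hζ (fun j i => pderiv i (g j))).2 hli
  refine ⟨h, hh, fun x hx hne => le_antisymm ?_ (ph_tan_ge p hp x hx)⟩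
  have h1 := hspec x hx hne
  have h1' : LinearIndependent ℂ (fun j => fun i => aeval x (pderiv i (g j))) := by
    simpa only [aeval_eq_eval] using h1
  have h2 := ph_grad_le p x g hg h1'
  rw [ph_tan_generic p ζ hζ] at hr
  omega

/-! ### PH-tan-d: differentials of polynomial maps -/

section abs

variable {A : Type*} [CommRing A] [Algebra ℂ A] (p : Ideal (MvPolynomial ι ℂ))
  (π : MvPolynomial ι ℂ →ₐ[ℂ] A) (hπ : ∀ f, π f = 0 ↔ f ∈ p)

include hπ in
omit [Fintype ι] in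
theorem ph_tr_indep {σ : Type*} (s : σ → MvPolynomial ι ℂ)
    (h : ∀ g : MvPolynomial σ ℂ, aeval s g ∈ p → g = 0) :
    AlgebraicIndependent ℂ (fun a => π (s a)) := by
  rw [algebraicIndependent_iff_injective_aeval, injective_iff_map_eq_zero]
  intro g hg
  apply h
  rw [← hπ, comp_aeval_apply]
  exact hg

include hπ in
omit [Fintype ι] in
theorem ph_tr_conv {σ : Type*} (s : σ → MvPolynomial ι ℂ) (S : Subalgebra ℂ A)
    (hS : S ≤ Algebra.adjoin ℂ (Set.range fun a => π (s a))) (f : MvPolynomial ι ℂ)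
    (h : IsAlgebraic S (π f)) : AlgMod p s f := by
  obtain ⟨P, hP0, hP⟩ := h
  set φ : MvPolynomial σ ℂ →+* A := (aeval (fun a => π (s a)) : MvPolynomial σ ℂ →ₐ[ℂ] A).toRingHom
    with hφ
  have hφa : ∀ c, φ c = π (aeval s c) := fun c => (comp_aeval_apply (f := s) π c).symm
  have hl : P.map (algebraMap S A) ∈ Polynomial.lifts φ := by
    rw [Polynomial.lifts_iff_coeff_lifts]
    intro n
    rw [Polynomial.coeff_map]
    have h1 := hS (P.coeff n).2
    rw [Algebra.adjoin_range_eq_range_aeval] at h1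
    obtain ⟨a, ha⟩ := h1
    exact ⟨a, ha⟩
  obtain ⟨m, hm⟩ := (Polynomial.mem_lifts _).mp hl
  have hne : m.map φ ≠ 0 := by
    rw [hm]
    exact (Polynomial.map_ne_zero_iff (Subtype.val_injective)).mpr hP0
  refine ⟨m, ?_, ?_⟩
  · by_contra hcon
    apply hne
    ext j
    rw [Polynomial.coeff_map, Polynomial.coeff_zero, hφa, hπ]
    by_contra h2
    exact hcon ⟨j, h2⟩
  · rw [← hπ]
    have h4 := Polynomial.hom_eval₂ m
      (aeval s : MvPolynomial σ ℂ →ₐ[ℂ] MvPolynomial ι ℂ).toRingHom π.toRingHom f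
    refine Eq.trans h4 ?_
    have e : π.toRingHom.comp (aeval s : MvPolynomial σ ℂ →ₐ[ℂ] MvPolynomial ι ℂ).toRingHom = φ :=
      RingHom.ext fun c => (hφa c).symm
    rw [e, ← Polynomial.eval_map, hm, Polynomial.eval_map_algebraMap]
    exact hP

include hπ in
omit [Fintype ι] in
theorem ph_tr_conv' {σ : Type*} (s : σ → MvPolynomial ι ℂ) (f : MvPolynomial ι ℂ)
    (h : AlgMod p s f) : IsAlgebraic (Algebra.adjoin ℂ (Set.range fun a => π (s a))) (π f) := by
  obtain ⟨m, ⟨j, hj⟩, hm⟩ := h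
  set S := Algebra.adjoin ℂ (Set.range fun a => π (s a)) with hS
  set φ' : MvPolynomial σ ℂ →ₐ[ℂ] S :=
    aeval (fun a => (⟨π (s a), Algebra.subset_adjoin ⟨a, rfl⟩⟩ : S)) with hφ'
  have hval : ∀ c, ((φ' c : S) : A) = π (aeval s c) := by
    intro c
    have h1 := comp_aeval_apply
      (f := fun a => (⟨π (s a), Algebra.subset_adjoin ⟨a, rfl⟩⟩ : S)) S.val c
    have h2 := comp_aeval_apply (f := s) π c
    rw [h2]
    exact h1
  refine ⟨m.map φ'.toRingHom, ?_, ?_⟩
  · intro h0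
    apply hj
    rw [← hπ, ← hval]
    have h1 := congrArg (fun q => Polynomial.coeff q j) h0
    simp only [Polynomial.coeff_map, Polynomial.coeff_zero] at h1
    exact congrArg Subtype.val h1
  · have h3 := (hπ _).mpr hm
    rw [Polynomial.aeval_def, Polynomial.eval₂_map, ← h3]
    have h4 := Polynomial.hom_eval₂ m
      (aeval s : MvPolynomial σ ℂ →ₐ[ℂ] MvPolynomial ι ℂ).toRingHom π.toRingHom f
    refine Eq.trans ?_ h4.symm
    congr 1
    exact RingHom.ext fun a => hval a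

include hπ in
theorem ph_tr_basis (hsurj : Function.Surjective π) {k : ℕ} (t : Fin k → MvPolynomial ι ℂ)
    (ht : NPos p t) : IsTranscendenceBasis ℂ (fun l => π (t l)) := by
  rw [isTranscendenceBasis_iff_algebraicIndependent_isAlgebraic]
  refine ⟨ph_tr_indep p π hπ t ht.inj, ⟨fun a => ?_⟩⟩
  obtain ⟨f, rfl⟩ := hsurj a
  apply ph_tr_conv' p π hπ t f
  obtain ⟨q, hq, hroot⟩ := ph_sheet_root p t ht f
  refine ⟨q, ?_, hroot⟩
  by_contra hcon
  apply hq
  refine Polynomial.ext fun j => ?_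
  rw [Polynomial.coeff_zero]
  apply ht.inj
  by_contra h2
  exact hcon ⟨j, h2⟩

end abs

theorem ph_tr_exchange {A : Type*} [CommRing A] [IsDomain A] [Algebra ℂ A]
    (p : Ideal (MvPolynomial ι ℂ)) (π : MvPolynomial ι ℂ →ₐ[ℂ] A) (hπ : ∀ f, π f = 0 ↔ f ∈ p)
    (hsurj : Function.Surjective π) {k k' : ℕ} (t : Fin k → MvPolynomial ι ℂ) (ht : NPos p t)
    {κ : Type*} (ψ : κ → MvPolynomial ι ℂ) (y : Fin k' → MvPolynomial ι ℂ)
    (hy : ∀ g : MvPolynomial (Fin k') ℂ, aeval y g ∈ p → g = 0)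
    (hyψ : ∀ a, π (y a) ∈ Algebra.adjoin ℂ (Set.range fun j => π (ψ j))) :
    k' ≤ k ∧ ∃ b : Fin (k - k') → ι, ∀ i, AlgMod p (Sum.elim ψ (fun l => X (b l))) (X i) := by
  classical
  have hind := ph_tr_indep p π hπ y hy
  set Y : Set A := Set.range (fun a => π (y a)) with hY
  set Xs : Set A := Set.range (fun i => π (X i)) with hXs
  have htop : ∀ a : A, a ∈ Algebra.adjoin ℂ (Y ∪ Xs) := by
    intro a
    obtain ⟨f, rfl⟩ := hsurj a
    have h1 : π f ∈ Algebra.adjoin ℂ Xs := by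
      rw [hXs, Algebra.adjoin_range_eq_range_aeval]
      refine ⟨f, ?_⟩
      have := comp_aeval_apply (f := (X : ι → MvPolynomial ι ℂ)) π f
      rw [aeval_X_left_apply] at this
      exact this.symm
    exact Algebra.adjoin_mono Set.subset_union_right h1
  haveI : Algebra.IsAlgebraic (Algebra.adjoin ℂ (Y ∪ Xs)) A :=
    ⟨fun a => isAlgebraic_algebraMap (⟨a, htop a⟩ : Algebra.adjoin ℂ (Y ∪ Xs))⟩
  obtain ⟨u, hYu, hut, hu⟩ := exists_isTranscendenceBasis_between (R := ℂ) Y (Y ∪ Xs)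
    Set.subset_union_left hind.to_subtype_range
  have hb := ph_tr_basis p π hπ hsurj t ht
  have hcard := hu.lift_cardinalMk_eq hb
  obtain ⟨e⟩ := Cardinal.lift_mk_eq'.mp hcard
  have hufin : u.Finite := by
    haveI : Finite u := Finite.of_equiv _ e.symm
    exact Set.toFinite u
  have hucard : u.ncard = k := by
    rw [← Nat.card_coe_set_eq, Nat.card_congr e, Nat.card_eq_fintype_card, Fintype.card_fin]
  have hYcard : Y.ncard = k' := by
    rw [hY, ← Set.image_univ, Set.ncard_image_of_injective _ hind.injective, Set.ncard_univ,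
      Nat.card_eq_fintype_card, Fintype.card_fin]
  have hkk : k' ≤ k := by
    rw [← hucard, ← hYcard]
    exact Set.ncard_le_ncard hYu hufin
  refine ⟨hkk, ?_⟩
  have hdfin : (u \ Y).Finite := hufin.subset Set.diff_subset
  have hdcard : hdfin.toFinset.card = k - k' := by
    rw [← Set.ncard_eq_toFinset_card _ hdfin, Set.ncard_diff hYu (hufin.subset hYu), hucard, hYcard]
  set en := (hdfin.toFinset.equivFinOfCardEq hdcard).symm with hen
  have hmemX : ∀ l, ∃ i, π (X i) = (en l : A) := by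
    intro l
    have h1 : (en l : A) ∈ u \ Y := hdfin.mem_toFinset.mp (en l).2
    rcases hut h1.1 with h2 | h2
    · exact absurd h2 h1.2
    · exact h2
  choose b hbx using hmemX
  refine ⟨b, fun i => ?_⟩
  have halg : IsAlgebraic (Algebra.adjoin ℂ u) (π (X i)) := by
    have h1 := hu.isAlgebraic
    rw [Subtype.range_coe] at h1
    exact h1.isAlgebraic _
  apply ph_tr_conv p π hπ _ (Algebra.adjoin ℂ u) _ _ halg
  apply Algebra.adjoin_le
  intro z hz
  by_cases hzY : z ∈ Y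
  · obtain ⟨a, rfl⟩ := hzY
    refine Algebra.adjoin_mono ?_ (hyψ a)
    rintro _ ⟨j, rfl⟩
    exact ⟨Sum.inl j, rfl⟩
  · have h1 : z ∈ hdfin.toFinset := hdfin.mem_toFinset.mpr ⟨hz, hzY⟩
    apply Algebra.subset_adjoin
    refine ⟨Sum.inr (en.symm ⟨z, h1⟩), ?_⟩
    simp only [Sum.elim_inr]
    rw [hbx, Equiv.apply_symm_apply]

omit [Fintype ι] in
/-- change of the parameter system -/
theorem ph_algMod_of_comp {σ σ' : Type*} (p : Ideal (MvPolynomial ι ℂ)) (s : σ → MvPolynomial ι ℂ)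
    (s' : σ' → MvPolynomial ι ℂ) (ρ : σ → MvPolynomial σ' ℂ) (h : ∀ a, aeval s' (ρ a) = s a)
    (f : MvPolynomial ι ℂ) (hf : AlgMod p s f) : AlgMod p s' f := by
  obtain ⟨m, ⟨j, hj⟩, hm⟩ := hf
  have key : ∀ c : MvPolynomial σ ℂ, aeval s' (aeval ρ c) = aeval s c := by
    intro c
    rw [comp_aeval_apply]
    simp only [h]
  refine ⟨m.map (aeval ρ : MvPolynomial σ ℂ →ₐ[ℂ] MvPolynomial σ' ℂ).toRingHom, ⟨j, ?_⟩, ?_⟩
  · rw [Polynomial.coeff_map]
    have := key (m.coeff j)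
    intro h1
    apply hj
    rw [← this]
    exact h1
  · rw [Polynomial.eval₂_map]
    have e : (aeval s' : MvPolynomial σ' ℂ →ₐ[ℂ] MvPolynomial ι ℂ).toRingHom.comp
        (aeval ρ : MvPolynomial σ ℂ →ₐ[ℂ] MvPolynomial σ' ℂ).toRingHom
        = (aeval s : MvPolynomial σ ℂ →ₐ[ℂ] MvPolynomial ι ℂ).toRingHom := RingHom.ext key
    rw [e]
    exact hm

/-- **exchange**: `dim V - dim W` coordinates generate, together with `ψ`, an algebra over which all coordinates are algebraic -/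
theorem ph_exchange {κ : Type*} [Fintype κ] (p : Ideal (MvPolynomial ι ℂ)) (hp : p.IsPrime)
    (ψ : κ → MvPolynomial ι ℂ) :
    vdim (zeroLocus ℂ (p.comap (aeval ψ : MvPolynomial κ ℂ →ₐ[ℂ] MvPolynomial ι ℂ)))
        ≤ vdim (zeroLocus ℂ p) ∧
      ∃ b : Fin (vdim (zeroLocus ℂ p)
          - vdim (zeroLocus ℂ (p.comap (aeval ψ : MvPolynomial κ ℂ →ₐ[ℂ] MvPolynomial ι ℂ)))) → ι,
        ∀ i, AlgMod p (Sum.elim ψ (fun l => X (b l))) (X i) := by
  set q := p.comap (aeval ψ : MvPolynomial κ ℂ →ₐ[ℂ] MvPolynomial ι ℂ) with hq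
  have hqp : q.IsPrime := Ideal.comap_isPrime _ _
  obtain ⟨k, t, _, ht⟩ := ph_exists_npos p hp.ne_top
  obtain ⟨k', t', _, ht'⟩ := ph_exists_npos q hqp.ne_top
  rw [ph_vdim_of_npos p hp t ht, ph_vdim_of_npos q hqp t' ht']
  haveI : IsDomain (MvPolynomial ι ℂ ⧸ p) := Ideal.Quotient.isDomain p
  apply ph_tr_exchange p (Ideal.Quotient.mkₐ ℂ p) (fun f => Ideal.Quotient.eq_zero_iff_mem)
    (Ideal.Quotient.mkₐ_surjective ℂ p) t ht ψ (fun a => aeval ψ (t' a))
  · intro g hg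
    apply ht'.inj
    rw [hq, Ideal.mem_comap, comp_aeval_apply]
    exact hg
  · intro a
    rw [Algebra.adjoin_range_eq_range_aeval]
    exact ⟨t' a, (comp_aeval_apply (f := ψ) (Ideal.Quotient.mkₐ ℂ p) (t' a)).symm⟩

theorem ph_vdim_image {κ : Type*} [Fintype κ] (p : Ideal (MvPolynomial ι ℂ)) (hp : p.IsPrime)
    (ψ : κ → MvPolynomial ι ℂ) :
    vdim (zeroLocus ℂ (p.comap (aeval ψ : MvPolynomial κ ℂ →ₐ[ℂ] MvPolynomial ι ℂ)))
      ≤ vdim (zeroLocus ℂ p) := (ph_exchange p hp ψ).1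

/-- equal dimensions: every coordinate is algebraic over `ℂ[ψ]` modulo `p` -/
theorem ph_alg_of_vdim_eq {κ : Type*} [Fintype κ] (p : Ideal (MvPolynomial ι ℂ)) (hp : p.IsPrime)
    (ψ : κ → MvPolynomial ι ℂ)
    (h : vdim (zeroLocus ℂ (p.comap (aeval ψ : MvPolynomial κ ℂ →ₐ[ℂ] MvPolynomial ι ℂ)))
      = vdim (zeroLocus ℂ p)) (i : ι) : AlgMod p ψ (X i) := by
  obtain ⟨-, b, hb⟩ := ph_exchange p hp ψ
  refine ph_algMod_of_comp p _ ψ (Sum.elim X (fun _ => 0)) ?_ _ (hb i)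
  rintro (a | l)
  · simp
  · exfalso
    have := l.2
    omega

theorem ph_trdeg {Ω : Type*} [Field Ω] [Algebra ℂ Ω] (p : Ideal (MvPolynomial ι ℂ))
    (ζ : ι → Ω) (hζ : IsGenPt p ζ) :
    Algebra.trdeg ℂ (Algebra.adjoin ℂ (Set.range ζ)) = vdim (zeroLocus ℂ p) := by
  have hp := ph_isGenPt_isPrime p ζ hζ
  obtain ⟨k, t, _, ht⟩ := ph_exists_npos p hp.ne_top
  rw [ph_vdim_of_npos p hp t ht, Algebra.adjoin_range_eq_range_aeval]
  have hb := ph_tr_basis p (aeval ζ : MvPolynomial ι ℂ →ₐ[ℂ] Ω).rangeRestrict (fun f => by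
    rw [← hζ f, ← Subtype.coe_inj]
    rfl) (AlgHom.rangeRestrict_surjective _) t ht
  have := hb.lift_cardinalMk_eq_trdeg
  simpa using this.symm

section ker

variable {Ω : Type*} [Field Ω] [Algebra ℂ Ω] {κ : Type*} [Fintype κ]

/-- the kernel of the differential of `ψ` on the tangent space -/
noncomputable def kerSp (p : Ideal (MvPolynomial ι ℂ)) (ψ : κ → MvPolynomial ι ℂ) (z : ι → Ω) :
    Submodule Ω (ι → Ω) := tanSp p z ⊓ ⨅ j, LinearMap.ker (dAtL (ψ j) z)

omit [Fintype κ] in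
theorem ph_mem_kerSp (p : Ideal (MvPolynomial ι ℂ)) (ψ : κ → MvPolynomial ι ℂ) (z v : ι → Ω) :
    v ∈ kerSp p ψ z ↔ v ∈ tanSp p z ∧ ∀ j, dAt (ψ j) z v = 0 := by
  simp only [kerSp, Submodule.mem_inf, Submodule.mem_iInf, LinearMap.mem_ker]
  rfl

omit [Fintype κ] in
theorem ph_kerSp_finrank (p : Ideal (MvPolynomial ι ℂ)) (ψ : κ → MvPolynomial ι ℂ) (z : ι → Ω) :
    finrank Ω (kerSp p ψ z) +
      finrank Ω (Submodule.span Ω ((fun f : MvPolynomial ι ℂ => fun i => aeval z (pderiv i f)) ''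
        ((p : Set (MvPolynomial ι ℂ)) ∪ Set.range ψ))) = Fintype.card ι := by
  apply ph_finrank_orth
  intro v
  rw [ph_mem_kerSp]
  constructor
  · rintro ⟨h1, h2⟩ _ ⟨f, hf | ⟨j, rfl⟩, rfl⟩
    · exact h1 f hf
    · exact h2 j
  · intro h
    exact ⟨fun f hf => h _ ⟨f, Or.inl hf, rfl⟩, fun j => h _ ⟨ψ j, Or.inr ⟨j, rfl⟩, rfl⟩⟩

/-- surjectivity of the differential from a dimension count -/
theorem ph_surj_of_ker (p : Ideal (MvPolynomial ι ℂ)) (ψ : κ → MvPolynomial ι ℂ) (z : ι → Ω)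
    (h : finrank Ω (kerSp p ψ z) +
      finrank Ω (tanSp (p.comap (aeval ψ : MvPolynomial κ ℂ →ₐ[ℂ] MvPolynomial ι ℂ))
        (fun j => aeval z (ψ j))) ≤ finrank Ω (tanSp p z))
    (w : κ → Ω)
    (hw : w ∈ tanSp (p.comap (aeval ψ : MvPolynomial κ ℂ →ₐ[ℂ] MvPolynomial ι ℂ))
      (fun j => aeval z (ψ j))) :
    ∃ v ∈ tanSp p z, ∀ j, dAt (ψ j) z v = w j := by
  classical
  set L : tanSp p z →ₗ[Ω] (κ → Ω) :=
    (LinearMap.pi fun j => dAtL (ψ j) z).comp (tanSp p z).subtype with hL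
  have hrange : LinearMap.range L
      ≤ tanSp (p.comap (aeval ψ : MvPolynomial κ ℂ →ₐ[ℂ] MvPolynomial ι ℂ))
        (fun j => aeval z (ψ j)) := by
    rintro _ ⟨v, rfl⟩ g hg
    have h1 := ph_dAt_aeval ψ g z v.1
    have h2 : dAt (aeval ψ g) z v.1 = 0 := v.2 _ hg
    rw [h2] at h1
    exact h1.symm
  have hker : finrank Ω (LinearMap.ker L) = finrank Ω (kerSp p ψ z) := by
    rw [← Submodule.finrank_map_subtype_eq (tanSp p z) (LinearMap.ker L)]
    have e : (LinearMap.ker L).map (tanSp p z).subtype = kerSp p ψ z := by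
      ext v
      rw [ph_mem_kerSp, Submodule.mem_map]
      constructor
      · rintro ⟨v', hv', rfl⟩
        exact ⟨v'.2, fun j => congrFun (LinearMap.mem_ker.mp hv') j⟩
      · rintro ⟨h1, h2⟩
        exact ⟨⟨v, h1⟩, LinearMap.mem_ker.mpr (funext h2), rfl⟩
    rw [e]
  have hrn := LinearMap.finrank_range_add_finrank_ker L
  have heq : LinearMap.range L
      = tanSp (p.comap (aeval ψ : MvPolynomial κ ℂ →ₐ[ℂ] MvPolynomial ι ℂ))
        (fun j => aeval z (ψ j)) := by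
    apply Submodule.eq_of_le_of_finrank_le hrange
    omega
  rw [← heq] at hw
  obtain ⟨v, rfl⟩ := hw
  exact ⟨v.1, v.2, fun j => rfl⟩

/-- the kernel at a generic point -/
theorem ph_kerSp_generic (p : Ideal (MvPolynomial ι ℂ)) (ζ : ι → Ω) (hζ : IsGenPt p ζ)
    (ψ : κ → MvPolynomial ι ℂ) :
    finrank Ω (kerSp p ψ ζ) +
      vdim (zeroLocus ℂ (p.comap (aeval ψ : MvPolynomial κ ℂ →ₐ[ℂ] MvPolynomial ι ℂ)))
      ≤ vdim (zeroLocus ℂ p) := by
  have hp := ph_isGenPt_isPrime p ζ hζ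
  obtain ⟨hkk, b, hb⟩ := ph_exchange p hp ψ
  have hinj : Function.Injective ((LinearMap.pi fun l => LinearMap.proj (b l)).comp
      (kerSp p ψ ζ).subtype : kerSp p ψ ζ →ₗ[Ω] (Fin _ → Ω)) := by
    rw [injective_iff_map_eq_zero]
    intro v hv
    apply Subtype.ext
    obtain ⟨h1, h2⟩ := (ph_mem_kerSp p ψ ζ v.1).mp v.2
    apply ph_vert_alg p ζ hζ _ hb v.1 h1
    rintro (j | l)
    · exact h2 j
    · simp only [Sum.elim_inr]
      rw [ph_dAt_X]
      exact congrFun hv l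
  have := LinearMap.finrank_le_finrank_of_injective hinj
  rw [Module.finrank_fin_fun] at this
  omega

/-- **(G1)** generic form: the differential of `ψ : V → closure of ψ(V)` is onto at a generic point. -/
theorem ph_G1 (p : Ideal (MvPolynomial ι ℂ)) (ζ : ι → Ω) (hζ : IsGenPt p ζ)
    (ψ : κ → MvPolynomial ι ℂ) (w : κ → Ω)
    (hw : w ∈ tanSp (p.comap (aeval ψ : MvPolynomial κ ℂ →ₐ[ℂ] MvPolynomial ι ℂ))
      (fun j => aeval ζ (ψ j))) :
    ∃ v ∈ tanSp p ζ, ∀ j, dAt (ψ j) ζ v = w j := by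
  apply ph_surj_of_ker p ψ ζ _ w hw
  rw [ph_tan_generic p ζ hζ, ph_tan_generic _ _ (ph_isGenPt_comap p ζ hζ ψ)]
  exact ph_kerSp_generic p ζ hζ ψ

end ker

omit [Fintype ι] in
theorem ph_tan_eval_pmap {κ : Type*} (ψ : κ → MvPolynomial ι ℂ) (x : ι → ℂ) (g : MvPolynomial κ ℂ) :
    eval (fun j => eval x (ψ j)) g = eval x (aeval ψ g) := by
  have := comp_aeval_apply (f := ψ) (aeval x : MvPolynomial ι ℂ →ₐ[ℂ] ℂ) g
  simp only [aeval_eq_eval] at this
  exact this.symm

omit [Fintype ι] in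
theorem ph_pmap_mem {κ : Type*} (p : Ideal (MvPolynomial ι ℂ)) (ψ : κ → MvPolynomial ι ℂ) (x : ι → ℂ)
    (hx : x ∈ zeroLocus ℂ p) : (fun j => eval x (ψ j)) ∈
      zeroLocus ℂ (p.comap (aeval ψ : MvPolynomial κ ℂ →ₐ[ℂ] MvPolynomial ι ℂ)) := by
  rw [ph_mem_zeroLocus]
  intro g hg
  rw [ph_tan_eval_pmap]
  exact (ph_mem_zeroLocus p x).mp hx _ hg

/-- **(G1)** at the points of a dense open subset of `V`. -/
theorem ph_G1_closed {κ : Type*} [Fintype κ] (p : Ideal (MvPolynomial ι ℂ)) (hp : p.IsPrime)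
    (ψ : κ → MvPolynomial ι ℂ) :
    ∃ h ∉ p, ∀ x ∈ zeroLocus ℂ p, eval x h ≠ 0 →
      finrank ℂ (tanSp p x) = vdim (zeroLocus ℂ p) ∧
      finrank ℂ (tanSp (p.comap (aeval ψ : MvPolynomial κ ℂ →ₐ[ℂ] MvPolynomial ι ℂ))
        (fun j => eval x (ψ j)))
        = vdim (zeroLocus ℂ (p.comap (aeval ψ : MvPolynomial κ ℂ →ₐ[ℂ] MvPolynomial ι ℂ))) ∧
      ∀ w ∈ tanSp (p.comap (aeval ψ : MvPolynomial κ ℂ →ₐ[ℂ] MvPolynomial ι ℂ))
        (fun j => eval x (ψ j)), ∃ v ∈ tanSp p x, ∀ j, dAt (ψ j) x v = w j := by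
  classical
  have hqp : (p.comap (aeval ψ : MvPolynomial κ ℂ →ₐ[ℂ] MvPolynomial ι ℂ)).IsPrime :=
    Ideal.comap_isPrime _ _
  obtain ⟨ζ, hζ⟩ := ph_exists_genPt p hp
  obtain ⟨h₁, hh₁, H₁⟩ := ph_tan_open p hp
  obtain ⟨h₂, hh₂, H₂⟩ := ph_tan_open _ hqp
  have hr := ph_kerSp_finrank p ψ ζ
  obtain ⟨u, hu, -, hli⟩ := Submodule.exists_fun_fin_finrank_span_eq (GenF (vdim (zeroLocus ℂ p)))
    ((fun f : MvPolynomial ι ℂ => fun i => aeval ζ (pderiv i f)) ''
        ((p : Set (MvPolynomial ι ℂ)) ∪ Set.range ψ))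
  choose G hG hGu using hu
  have hli' : LinearIndependent (GenF (vdim (zeroLocus ℂ p))) (fun a => fun i => aeval ζ (pderiv i (G a))) := by
    have : (fun a => fun i => aeval ζ (pderiv i (G a))) = u := by
      funext a
      rw [← hGu a]
    rw [this]; exact hli
  obtain ⟨h₃, hh₃, H₃⟩ := (ph_rank_spec p ζ hζ (fun a i => pderiv i (G a))).2 hli'
  refine ⟨h₁ * aeval ψ h₂ * h₃, ?_, ?_⟩
  · intro hmem
    rcases hp.mem_or_mem hmem with h | h
    · rcases hp.mem_or_mem h with h | h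
      · exact hh₁ h
      · exact hh₂ h
    · exact hh₃ h
  · intro x hx hne
    rw [map_mul, map_mul] at hne
    have hne₁ : eval x h₁ ≠ 0 := fun h => hne (by rw [h, zero_mul, zero_mul])
    have hne₂ : eval x (aeval ψ h₂) ≠ 0 := fun h => hne (by rw [h, mul_zero, zero_mul])
    have hne₃ : eval x h₃ ≠ 0 := fun h => hne (by rw [h, mul_zero])
    have e₁ := H₁ x hx hne₁
    have e₂ := H₂ _ (ph_pmap_mem p ψ x hx) (by rw [ph_tan_eval_pmap]; exact hne₂)
    refine ⟨e₁, e₂, ?_⟩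
    have hlix := H₃ x hx hne₃
    have hlix' : LinearIndependent ℂ (fun a => fun i => aeval x (pderiv i (G a))) := by
      simpa only [aeval_eq_eval] using hlix
    have hrx := ph_kerSp_finrank p ψ x
    have hge : finrank (GenF (vdim (zeroLocus ℂ p))) (Submodule.span (GenF (vdim (zeroLocus ℂ p)))
        ((fun f : MvPolynomial ι ℂ => fun i => aeval ζ (pderiv i f)) ''
        ((p : Set (MvPolynomial ι ℂ)) ∪ Set.range ψ)))
        ≤ finrank ℂ (Submodule.span ℂ ((fun f : MvPolynomial ι ℂ => fun i => aeval x (pderiv i f)) ''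
        ((p : Set (MvPolynomial ι ℂ)) ∪ Set.range ψ))) := by
      have h2 := finrank_span_eq_card hlix'
      rw [Fintype.card_fin] at h2
      rw [← h2]
      apply Submodule.finrank_mono
      apply Submodule.span_mono
      rintro _ ⟨a, rfl⟩
      exact ⟨G a, hG a, rfl⟩
    have hgen := ph_kerSp_generic p ζ hζ ψ
    have key := ph_surj_of_ker p ψ x
    simp only [aeval_eq_eval] at key
    apply key
    rw [e₁]
    refine le_trans (Nat.add_le_add_left (le_of_eq e₂) _) ?_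
    omega

/-- **(G2)** a polynomial whose differential vanishes on the tangent spaces of `V` (at the points of a dense open subset) is constant on `V`. -/
theorem ph_G2 (p : Ideal (MvPolynomial ι ℂ)) (hp : p.IsPrime) (h₀ : MvPolynomial ι ℂ) (hh₀ : h₀ ∉ p)
    (ψ : MvPolynomial ι ℂ)
    (h : ∀ x ∈ zeroLocus ℂ p, eval x h₀ ≠ 0 → ∀ v ∈ tanSp p x, dAt ψ x v = 0) :
    ∃ c : ℂ, ∀ x ∈ zeroLocus ℂ p, eval x ψ = c := by
  have hqp : (p.comap (aeval (fun _ : Unit => ψ) :
      MvPolynomial Unit ℂ →ₐ[ℂ] MvPolynomial ι ℂ)).IsPrime := Ideal.comap_isPrime _ _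
  obtain ⟨h₁, hh₁, H⟩ := ph_G1_closed p hp (fun _ : Unit => ψ)
  obtain ⟨x, hx, hne⟩ := ph_exists_point_ne p hp (h₁ * h₀) (fun hm =>
    (hp.mem_or_mem hm).elim hh₁ hh₀)
  rw [map_mul] at hne
  obtain ⟨-, e₂, hs⟩ := H x hx (left_ne_zero_of_mul hne)
  have hbot : tanSp (p.comap (aeval (fun _ : Unit => ψ) :
      MvPolynomial Unit ℂ →ₐ[ℂ] MvPolynomial ι ℂ)) (fun _ => eval x ψ) = ⊥ := by
    rw [eq_bot_iff]
    intro w hw
    obtain ⟨v, hv, hvw⟩ := hs w hw
    rw [Submodule.mem_bot]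
    funext j
    rw [← hvw j]
    exact h x hx (right_ne_zero_of_mul hne) v hv
  rw [hbot, finrank_bot] at e₂
  obtain ⟨c, hc⟩ := ph_point_of_vdim_zero _ ⟨_, hqp, rfl⟩ e₂.symm
  refine ⟨c (), fun x' hx' => ?_⟩
  have h1 := ph_pmap_mem p (fun _ : Unit => ψ) x' hx'
  rw [hc] at h1
  exact congrFun (Set.mem_singleton_iff.mp h1) ()

end Claimed.Agent.R273
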