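-- KEEP
import Claimed.Agent.R273.PhTan

/-!
# Row 273, POLY-A 11 = layer L1: closures of images, products, fibres, weighted Bezout, degree of images, generic sections.  Architect helper94.

Vocabulary: `zcl T` (Zariski closure), `pmap ψ` (polynomial map `ℂ^ι → ℂ^κ`), `prodSet X Y ⊆ ℂ^(ι ⊕ κ)`.  `k = vdim V`, `W = zcl (pmap ψ '' V)`, `k' = vdim W`.

LEAF PH-map-a (closure calculus, `ph_isCompOf_iff`, `ph_zcl_image`).  All from the Nullstellensatz (`IsPrime.vanishingIdeal_zeroLocus`, `vanishingIdeal_zeroLocus_eq_radical`) and the Galois connection.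
  `ph_hA_zcl`: the kernels of the two restriction maps coincide (`rk_*` lemmas of RkBasic: `hA` only depends on `{f | deg ≤ D, f|_T = 0}`).  `ph_isCompOf_iff`: `V(p) ⊆ V(p') ↔ p' ≤ p` for primes; minimal primes = maximal irreducible subsets.
  `ph_zcl_image`: `g` vanishes on `ψ(V(p))` iff `g ∘ ψ` vanishes on `V(p)` iff `aeval ψ g ∈ p`; so `vanishingIdeal (ψ '' V) = comap`.
LEAF PH-map-b (`ph_prod_isVar`, `ph_prod_hA`).  `ph_prod_isVar`: `prodSet X Y` is closed (zero set of `rename inl '' p ∪ rename inr '' q`); its vanishing ideal is prime: `f g = 0` on `X × Y`; `X_f := {x ∈ X | f(x,·) = 0 on Y}` is closed in `X`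
  (common zeros of the `f(·,y)`, `y ∈ Y`); for every `x`, `Y` irreducible gives `x ∈ X_f ∪ X_g`; `X` irreducible (`ph_isVar_mul`-type argument with two polynomials `f(·,y)`, `g(·,y')`) gives `X = X_f` or `X = X_g`.
  `ph_prod_hA` (ARBITRARY sets): choose `b_1, b_2, ..` polynomials in `x`, `b_α` of degree exactly `lev α`, such that `{b_α | lev α ≤ a}` restricts to a basis of (degree `≤ a`)`|_X` for every `a ≤ D`; then (degree `≤ D`)`|_{X×Y} = ⊕_α b_α ⊗ (degree ≤ D - lev α)|_Y`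
  (spanning: reduce the `x`-part of each monomial; independence: fix `y`, use independence of the `b_α` on `X`).
LEAF PH-map-c (`ph_prod_vdim`, `ph_prod_vdeg`).  Abel summation: the formula is symmetric and monotone in `hA X` and `hA Y`.  With `δ binom(D-q+k,k) ≤ hA X D ≤ δ binom(D+k,k)` (`ph_up_var`; `ph_hilbert_low` for a finite generating system of the ideal) and
  `∑_b binom(b+l-1,l-1) binom(D-b+k,k) = binom(D+k+l,k+l)`: `δδ' binom(D-q-q'+k+l,k+l) ≤ hA (X×Y) D ≤ δδ' binom(D+k+l,k+l)`.  Conclude by `ph_vdim_eq_of_bounds`, `ph_choose_asymp`.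
LEAF PH-map-d (`ph_image_dense` = weak Chevalley).  `A = ℂ[w]/q ⊆ B = ℂ[x]/p`.  Mathlib: Chevalley (`PrimeSpectrum.isConstructible_range_comap`-type, `Mathlib/RingTheory/Spectrum/Prime/Chevalley*.lean`) or generic Noether normalisation; get `a ≠ 0` in `A` with `D(a) ⊆ range(Spec B → Spec A)`.
  `w ∈ W`, `a(w) ≠ 0`: `𝔪_w ∈ D(a)`, so `𝔪_w = P ∩ A`; a maximal ideal `M ⊇ P` of `B` still contracts to `𝔪_w`; `M = 𝔪_x` (Nullstellensatz), `x ∈ V`, `ψ(x) = w`.
  ELEMENTARY ALTERNATIVE: `NPos`-free: choose a transcendence basis `u` of `B` over `A` among the `x_i`, every `x_i` is algebraic over `A[u]`; `a` := product of the leading coefficients (as polynomials in `u`, pick one nonzero coefficient in `A`); after inverting, `B_a` is integral over `A_a[u]`, lying over.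
LEAF PH-map-e (`ph_krull_rel`, `ph_fib_ge`, `ph_fib_eq`).  `ph_krull_rel`: induction on `j`, `ph_pit`, `ph_isCompOf_iff` (see the comment there).  `ph_fib_ge`: `NPos q s` for `W` (`k'` forms); `Φ := V ∩ {s_i ∘ ψ = s_i(w)}` has all components of dimension `≥ k - k'`;
  `{w' ∈ W | s(w') = s(w)}` is finite (`ph_fibre_finite`), so `Φ` is a finite disjoint union of closed fibres and a component of one fibre is a component of `Φ`.
  `ph_fib_eq`: `h` from `ph_G1_closed`; the tangent space at `x` of a component `F ∋ x` of the fibre lies in `ker (dψ_x | T_xV)`, of dimension `k - k'` (rank-nullity, surjectivity onto a `k'`-dimensional space); `ph_tan_ge` for `F`.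
LEAF PH-map-f (`ph_bezout_weighted`, `ph_bezout_iso`, `ph_fibre_card_le`).  Potential `Φ(𝒞) = ∑_{C ∈ 𝒞} vdeg C * L^(vdim C)`.  Claim by induction on `r`: there is a finite set `𝒞_r` of irreducible subsets of `V`, `Φ(𝒞_r) ≤ vdeg V L^k`, each `C ∈ 𝒞_r` is contained in `Z(G)` or has `vdim C + r ≤ k`, and every irreducible `W ⊆ V ∩ Z(G)` is contained in a member.
  Step: for the members `C ⊄ Z(G)` choose `g ∈ span_ℂ G` vanishing identically on none of them (`ph_avoid`), replace `C` by the components of `C ∩ Z(g)` (`ph_bezout_cut`: `∑ vdeg ≤ L vdeg C`, `ph_pit`: dimension drops by exactly one).  `r = k + 1`: all members lie in `Z(G)`; a component of `V ∩ Z(G)` is then a member.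
LEAF PH-map-g (`ph_dom_cut`, `ph_vdeg_image`).  `ph_dom_cut`: some coordinate `x_i` is transcendental over `ℂ(W)` in `ℂ(V)` (`ph_trdeg`), so `zcl ((ψ, x_i) '' V) = prodSet W ℂ` (irreducible of dimension `k'+1`, `ph_vdim_lt_of_ssubset`); `ph_image_dense` gives `h'(w, X) ≠ 0` on it; pick `c` with `h'(·, c) ≢ 0` on `W`; then `ψ(V ∩ {x_i = c}) ⊇ W \ Z(h'(·,c))`,
  so one of the finitely many components `V'` of `V ∩ {x_i = c}` has `zcl ψ(V') = W` (`W` irreducible); `ph_pit`, `ph_bezout_cut`.  `ph_vdeg_image`: by `ph_dom_cut` WLOG `k = k'`; `hA W D ≤ hA V (e D)` (pull back; `rk_totalDegree_aeval_le`) `≤ vdeg V binom(eD + k, k)`, lower bound for `hA W D`, compare leading terms (`binom(eD+k,k) ≤ e^k binom(D+k,k)`; `ph_choose_asymp`).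
LEAF PH-map-h (`ph_fibre_nonempty`, `ph_gen_points`, `ph_gen_section`).  See the comments at the statements.
-/

set_option autoImplicit false

namespace Claimed.Agent.R273

open MvPolynomial Module

variable {ι κ : Type*} [Fintype ι] [Fintype κ]

/-- Zariski closure -/
def zcl (T : Set (ι → ℂ)) : Set (ι → ℂ) := zeroLocus ℂ (vanishingIdeal ℂ T)

/-- the polynomial map `ℂ^ι → ℂ^κ` with components `ψ` -/
noncomputable def pmap (ψ : κ → MvPolynomial ι ℂ) (x : ι → ℂ) : κ → ℂ := fun j => eval x (ψ j)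

/-- the product of two sets, in `ℂ^(ι ⊕ κ)` -/
def prodSet (X : Set (ι → ℂ)) (Y : Set (κ → ℂ)) : Set (ι ⊕ κ → ℂ) :=
  {z | (fun i => z (Sum.inl i)) ∈ X ∧ (fun j => z (Sum.inr j)) ∈ Y}

/-! ### PH-map-a -/

theorem ph_mem_zcl (T : Set (ι → ℂ)) (x : ι → ℂ) :
    x ∈ zcl T ↔ ∀ f : MvPolynomial ι ℂ, (∀ y ∈ T, eval y f = 0) → eval x f = 0 := by
  unfold zcl
  rw [ph_mem_zeroLocus]
  exact forall_congr' fun f => by rw [ph_mem_vanishingIdeal]

theorem ph_subset_zcl (T : Set (ι → ℂ)) : T ⊆ zcl T := by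
  intro x hx
  rw [ph_mem_zcl]
  exact fun f hf => hf x hx

theorem ph_zcl_mono {T T' : Set (ι → ℂ)} (h : T ⊆ T') : zcl T ⊆ zcl T' := by
  intro x hx
  rw [ph_mem_zcl] at hx ⊢
  exact fun f hf => hx f fun y hy => hf y (h hy)

theorem ph_zcl_Zl (G : Set (MvPolynomial ι ℂ)) : zcl (Zl G) = Zl G := by
  apply Set.Subset.antisymm _ (ph_subset_zcl _)
  intro x hx g hg
  rw [ph_mem_zcl] at hx
  exact hx g fun y hy => hy g hg

theorem ph_zcl_of_isVar {V : Set (ι → ℂ)} (hV : IsVar V) : zcl V = V := by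
  obtain ⟨p, hp, rfl⟩ := hV
  unfold zcl
  rw [ph_vanishing_prime p hp]

theorem ph_zcl_subset_iff (T : Set (ι → ℂ)) (G : Set (MvPolynomial ι ℂ)) : zcl T ⊆ Zl G ↔ T ⊆ Zl G := by
  constructor
  · exact fun h => (ph_subset_zcl T).trans h
  · intro h
    have := ph_zcl_mono h
    rwa [ph_zcl_Zl] at this

theorem ph_hA_zcl (T : Set (ι → ℂ)) (D : ℕ) : hA (zcl T) D = hA T D := by
  apply rk_rkOn_congr_ker
  intro f _
  constructor
  · exact fun h x hx => h x (ph_subset_zcl T hx)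
  · intro h x hx
    rw [ph_mem_zcl] at hx
    exact hx f h

theorem ph_vdim_zcl (T : Set (ι → ℂ)) : vdim (zcl T) = vdim T := by
  unfold vdim
  simp only [ph_hA_zcl]

theorem ph_vdeg_zcl (T : Set (ι → ℂ)) : vdeg (zcl T) = vdeg T := by
  unfold vdeg
  simp only [ph_hA_zcl, ph_vdim_zcl]

/-- irreducibility criterion -/
theorem ph_isVar_zcl_iff (T : Set (ι → ℂ)) :
    IsVar (zcl T) ↔ T.Nonempty ∧ ∀ f g : MvPolynomial ι ℂ, (∀ x ∈ T, eval x f * eval x g = 0) →
      (∀ x ∈ T, eval x f = 0) ∨ ∀ x ∈ T, eval x g = 0 := by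
  constructor
  · intro hV
    refine ⟨?_, fun f g h => ?_⟩
    · obtain ⟨x, hx⟩ := ph_isVar_nonempty _ hV
      by_contra hne
      rw [Set.not_nonempty_iff_eq_empty] at hne
      rw [ph_mem_zcl] at hx
      have := hx 1 (fun y hy => by rw [hne] at hy; exact absurd hy (Set.notMem_empty y))
      simp at this
    · have h1 : ∀ x ∈ zcl T, eval x (f * g) = 0 := by
        intro x hx
        rw [ph_mem_zcl] at hx
        exact hx (f * g) fun y hy => by rw [map_mul]; exact h y hy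
      rcases ph_isVar_mul hV f g h1 with h2 | h2
      · exact Or.inl fun x hx => h2 x (ph_subset_zcl T hx)
      · exact Or.inr fun x hx => h2 x (ph_subset_zcl T hx)
  · rintro ⟨⟨x₀, hx₀⟩, h⟩
    refine ⟨vanishingIdeal ℂ T, ⟨?_, ?_⟩, rfl⟩
    · intro htop
      have : (1 : MvPolynomial ι ℂ) ∈ vanishingIdeal ℂ T := by rw [htop]; exact Submodule.mem_top
      rw [ph_mem_vanishingIdeal] at this
      have := this x₀ hx₀
      simp at this
    · intro f g hfg
      rw [ph_mem_vanishingIdeal] at hfg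
      rw [ph_mem_vanishingIdeal, ph_mem_vanishingIdeal]
      exact h f g fun x hx => by rw [← map_mul]; exact hfg x hx

/-- components = maximal irreducible subsets -/
theorem ph_isCompOf_iff (V : Set (ι → ℂ)) (G : Set (MvPolynomial ι ℂ)) :
    IsCompOf V G ↔ IsVar V ∧ V ⊆ Zl G ∧ ∀ V', IsVar V' → V ⊆ V' → V' ⊆ Zl G → V' = V := by
  constructor
  · intro h
    refine ⟨ph_isCompOf_isVar h, ph_isCompOf_subset h, fun V' hV' hVV' hV'G => ?_⟩
    obtain ⟨V'', hV'', hsub⟩ := ph_isVar_subset_comp hV' hV'G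
    have := ph_comp_not_subset h hV'' (hVV'.trans hsub)
    exact Set.Subset.antisymm (this ▸ hsub) hVV'
  · rintro ⟨hV, hVG, hmax⟩
    obtain ⟨V'', hV'', hsub⟩ := ph_isVar_subset_comp hV hVG
    rw [← hmax V'' (ph_isCompOf_isVar hV'') hsub (ph_isCompOf_subset hV'')]
    exact hV''

/-- `IsCompOf` only depends on the zero set -/
theorem ph_isCompOf_congr {G G' : Set (MvPolynomial ι ℂ)} (h : Zl G = Zl G') (V : Set (ι → ℂ)) :
    IsCompOf V G ↔ IsCompOf V G' := by
  rw [ph_isCompOf_iff, ph_isCompOf_iff, h]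

omit [Fintype ι] [Fintype κ] in
theorem ph_eval_pmap (ψ : κ → MvPolynomial ι ℂ) (x : ι → ℂ) (g : MvPolynomial κ ℂ) :
    eval (pmap ψ x) g = eval x (aeval ψ g) := by
  induction g using MvPolynomial.induction_on with
  | C a => simp
  | add p q hp hq => simp only [map_add, hp, hq]
  | mul_X p i hp => simp only [map_mul, hp, aeval_X, eval_X, pmap]

theorem ph_zcl_image (p : Ideal (MvPolynomial ι ℂ)) (hp : p.IsPrime) (ψ : κ → MvPolynomial ι ℂ) :
    zcl (pmap ψ '' zeroLocus ℂ p)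
      = zeroLocus ℂ (p.comap (aeval ψ : MvPolynomial κ ℂ →ₐ[ℂ] MvPolynomial ι ℂ)) := by
  unfold zcl
  congr 1
  ext g
  rw [ph_mem_vanishingIdeal, Ideal.mem_comap]
  constructor
  · intro h
    rw [← ph_vanishing_prime p hp, ph_mem_vanishingIdeal]
    intro x hx
    rw [← ph_eval_pmap]
    exact h _ ⟨x, hx, rfl⟩
  · rintro h _ ⟨x, hx, rfl⟩
    rw [ph_eval_pmap]
    exact (ph_mem_zeroLocus p x).mp hx _ h

/-- **[IMG]** -/
theorem ph_isVar_zcl_image {V : Set (ι → ℂ)} (hV : IsVar V) (ψ : κ → MvPolynomial ι ℂ) :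
    IsVar (zcl (pmap ψ '' V)) := by
  obtain ⟨p, hp, rfl⟩ := hV
  rw [ph_zcl_image p hp]
  exact ⟨_, Ideal.comap_isPrime _ _, rfl⟩

omit [Fintype ι] [Fintype κ] in
/-- substitution of polynomials of degree `≤ e` -/
theorem ph_totalDegree_aeval_le_mul (a : κ → MvPolynomial ι ℂ) (e : ℕ)
    (ha : ∀ j, (a j).totalDegree ≤ e) (f : MvPolynomial κ ℂ) :
    (aeval a f).totalDegree ≤ e * f.totalDegree := by
  rw [aeval_def, eval₂_eq]
  apply totalDegree_finsetSum_le
  intro m hm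
  refine (totalDegree_mul _ _).trans ?_
  have h1 : (algebraMap ℂ (MvPolynomial ι ℂ) (coeff m f)).totalDegree = 0 := totalDegree_C _
  rw [h1, zero_add]
  refine (totalDegree_finsetProd _ _).trans ?_
  refine le_trans (Finset.sum_le_sum (g := fun i => e * m i) fun i _ => ?_) ?_
  · refine (totalDegree_pow _ _).trans ?_
    rw [mul_comm]
    exact Nat.mul_le_mul_right _ (ha i)
  · rw [← Finset.mul_sum]
    exact Nat.mul_le_mul_left _ (le_totalDegree hm)

/-- Hilbert function of the image of an ARBITRARY set under a map of degree `≤ e` -/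
theorem ph_hA_image_le (ψ : κ → MvPolynomial ι ℂ) (e : ℕ) (hψ : ∀ j, (ψ j).totalDegree ≤ e)
    (T : Set (ι → ℂ)) (D : ℕ) : hA (pmap ψ '' T) D ≤ hA T (e * D) := by
  apply rk_rkOn_le_of_pull _ T _ (pmap ψ) (fun _ => 1) (fun _ _ => one_ne_zero)
  intro f hf
  refine ⟨aeval ψ f, ?_, fun x _ => ?_⟩
  · rw [mem_restrictTotalDegree] at hf ⊢
    exact (ph_totalDegree_aeval_le_mul ψ e hψ f).trans (Nat.mul_le_mul_left _ hf)
  · rw [one_mul, ph_eval_pmap]

/-- the dimension of the image of an ARBITRARY set -/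
theorem ph_vdim_pmap_image_le (ψ : κ → MvPolynomial ι ℂ) (T : Set (ι → ℂ)) :
    vdim (pmap ψ '' T) ≤ vdim T := by
  have hne : {k | ∃ C : ℕ, ∀ D, hA T D ≤ C * (D + 1) ^ k}.Nonempty :=
    ⟨Fintype.card ι, 1, fun D => (ph_hA_le_choose T D).trans
      (Nat.mul_le_mul_left _ (ph_choose_le_pow D _))⟩
  obtain ⟨C, hC⟩ := Nat.sInf_mem hne
  change ∀ D, hA T D ≤ C * (D + 1) ^ vdim T at hC
  obtain ⟨e, he⟩ : ∃ e, e = ∑ j, (ψ j).totalDegree := ⟨_, rfl⟩
  have hψ : ∀ j, (ψ j).totalDegree ≤ e + 1 := fun j => by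
    rw [he]
    exact (Finset.single_le_sum (f := fun j => (ψ j).totalDegree) (fun _ _ => Nat.zero_le _)
      (Finset.mem_univ j)).trans (Nat.le_succ _)
  refine Nat.sInf_le ⟨C * (e + 1) ^ vdim T, fun D => ?_⟩
  calc hA (pmap ψ '' T) D ≤ hA T ((e + 1) * D) := ph_hA_image_le ψ (e + 1) hψ T D
    _ ≤ C * ((e + 1) * D + 1) ^ vdim T := hC _
    _ ≤ C * ((e + 1) * (D + 1)) ^ vdim T := by
        apply Nat.mul_le_mul_left
        apply Nat.pow_le_pow_left
        nlinarith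
    _ = C * (e + 1) ^ vdim T * (D + 1) ^ vdim T := by rw [mul_pow, mul_assoc]

theorem ph_vdim_zcl_image_le {V : Set (ι → ℂ)} (hV : IsVar V) (ψ : κ → MvPolynomial ι ℂ) :
    vdim (zcl (pmap ψ '' V)) ≤ vdim V := by
  rw [ph_vdim_zcl]
  exact ph_vdim_pmap_image_le ψ V

/-- a point: dimension `0`, degree `1` -/
theorem ph_point (x : ι → ℂ) : IsVar {x} ∧ vdim ({x} : Set (ι → ℂ)) = 0 ∧ vdeg ({x} : Set (ι → ℂ)) = 1 := by
  have hV : IsVar ({x} : Set (ι → ℂ)) := by
    refine ⟨RingHom.ker (eval x : MvPolynomial ι ℂ →+* ℂ), RingHom.ker_isPrime _, ?_⟩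
    ext y
    rw [ph_mem_zeroLocus, Set.mem_singleton_iff]
    constructor
    · rintro rfl f hf
      exact hf
    · intro h
      funext i
      have := h (X i - C (x i)) (by rw [RingHom.mem_ker]; simp)
      simpa [sub_eq_zero] using this
  have h1 : ∀ D, hA ({x} : Set (ι → ℂ)) D ≤ 1 := fun D => by
    have := rk_hA_le_ncard (T := ({x} : Set (ι → ℂ))) D (Set.finite_singleton x)
    rwa [Set.ncard_singleton] at this
  have hd : vdim ({x} : Set (ι → ℂ)) = 0 :=
    Nat.le_zero.1 (ph_vdim_le_of_bound _ 0 1 fun D => by simpa using h1 D)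
  refine ⟨hV, hd, le_antisymm (Nat.sInf_le fun D => ?_) (ph_vdeg_pos _ hV)⟩
  rw [hd]
  simpa using h1 D

/-- the whole space -/
theorem ph_univ : IsVar (Set.univ : Set (ι → ℂ)) ∧ vdim (Set.univ : Set (ι → ℂ)) = Fintype.card ι ∧
    vdeg (Set.univ : Set (ι → ℂ)) = 1 := by
  have hV : IsVar (Set.univ : Set (ι → ℂ)) := by
    refine ⟨⊥, Ideal.isPrime_bot, ?_⟩
    ext y
    rw [ph_mem_zeroLocus]
    simp
  have h1 : ∀ D, hA (Set.univ : Set (ι → ℂ)) D = (D + Fintype.card ι).choose (Fintype.card ι) := fun D => by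
    rw [rk_hA_univ, add_comm, Nat.choose_symm_add]
  have hd : vdim (Set.univ : Set (ι → ℂ)) = Fintype.card ι :=
    ph_vdim_eq_of_bounds _ _ 1 (fun D => (h1 D).ge) (fun D => by rw [one_mul]; exact (h1 D).le)
  refine ⟨hV, hd, le_antisymm (Nat.sInf_le fun D => ?_) (ph_vdeg_pos _ hV)⟩
  rw [hd, one_mul]
  exact (h1 D).le

/-! ### PH-map-b, PH-map-c: **[PROD]** -/

section Tens
variable {K : Type*} [Field K] {α β : Type*}

/-- the span of the products `u(x) v(y)`, `u ∈ U`, `v ∈ V` -/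
def phTens (U : Submodule K (α → K)) (V : Submodule K (β → K)) : Submodule K (α × β → K) :=
  Submodule.span K {F | ∃ u ∈ U, ∃ v ∈ V, F = fun p => u p.1 * v p.2}

theorem ph_tens_mem {U : Submodule K (α → K)} {V : Submodule K (β → K)} {u : α → K} {v : β → K} (hu : u ∈ U)
    (hv : v ∈ V) : (fun p : α × β => u p.1 * v p.2) ∈ phTens U V :=
  Submodule.subset_span ⟨u, hu, v, hv, rfl⟩

theorem ph_tens_mono {U U' : Submodule K (α → K)} {V V' : Submodule K (β → K)} (hU : U ≤ U') (hV : V ≤ V') :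
    phTens U V ≤ phTens U' V' := by
  apply Submodule.span_mono
  rintro F ⟨u, hu, v, hv, rfl⟩
  exact ⟨u, hU hu, v, hV hv, rfl⟩

/-- the slices of a member of `U ⊗ V` lie in `U` -/
theorem ph_tens_slice {U : Submodule K (α → K)} {V : Submodule K (β → K)} {F : α × β → K} (hF : F ∈ phTens U V)
    (y : β) : (fun x => F (x, y)) ∈ U := by
  induction hF using Submodule.span_induction with
  | mem F h =>
    obtain ⟨u, hu, v, _, rfl⟩ := h
    have : (fun x => u x * v y) = v y • u := by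
      funext x
      simp [mul_comm]
    simp only
    rw [this]
    exact U.smul_mem _ hu
  | zero => exact U.zero_mem
  | add F G _ _ hF hG => exact U.add_mem hF hG
  | smul c F _ hF => exact U.smul_mem c hF

theorem ph_tens_sup_left (U U' : Submodule K (α → K)) (V : Submodule K (β → K)) :
    phTens (U ⊔ U') V ≤ phTens U V ⊔ phTens U' V := by
  apply Submodule.span_le.2
  rintro F ⟨u, hu, v, hv, rfl⟩
  obtain ⟨a, ha, b, hb, rfl⟩ := Submodule.mem_sup.1 hu
  have : (fun p : α × β => (a + b) p.1 * v p.2) = (fun p : α × β => a p.1 * v p.2) + fun p : α × β => b p.1 * v p.2 := by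
    funext p
    simp [add_mul]
  rw [this]
  exact Submodule.add_mem _ (Submodule.mem_sup_left (ph_tens_mem ha hv)) (Submodule.mem_sup_right (ph_tens_mem hb hv))

/-- products of independent families are independent -/
theorem ph_tens_indep {m n : Type*} [Fintype m] [Fintype n] (u : m → α → K) (v : n → β → K)
    (hu : LinearIndependent K u) (hv : LinearIndependent K v) :
    LinearIndependent K (fun ij : m × n => fun p : α × β => u ij.1 p.1 * v ij.2 p.2) := by
  classical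
  rw [Fintype.linearIndependent_iff] at hu hv ⊢
  intro g hg ij
  have h1 : ∀ y : β, ∀ i : m, ∑ j, g (i, j) * v j y = 0 := by
    intro y
    apply hu
    funext x
    have := congrFun hg (x, y)
    simp only [Finset.sum_apply, Pi.smul_apply, smul_eq_mul, Pi.zero_apply] at this ⊢
    rw [← this, Fintype.sum_prod_type]
    refine Finset.sum_congr rfl fun i _ => ?_
    rw [Finset.sum_mul]
    exact Finset.sum_congr rfl fun j _ => by ring
  have h2 := hv (fun j => g (ij.1, j)) (by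
    funext y
    have := h1 y ij.1
    simpa [Finset.sum_apply] using this)
  exact h2 ij.2

theorem ph_tens_eq_span (U : Submodule K (α → K)) (V : Submodule K (β → K)) [Module.Finite K U] [Module.Finite K V] :
    phTens U V = Submodule.span K (Set.range
      (fun ij : Fin (finrank K U) × Fin (finrank K V) => fun p : α × β =>
        (Module.finBasis K U ij.1 : α → K) p.1 * (Module.finBasis K V ij.2 : β → K) p.2)) := by
  classical
  obtain ⟨bu, hbu⟩ : ∃ b, b = Module.finBasis K U := ⟨_, rfl⟩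
  obtain ⟨bv, hbv⟩ : ∃ b, b = Module.finBasis K V := ⟨_, rfl⟩
  rw [← hbu, ← hbv]
  apply le_antisymm
  · apply Submodule.span_le.2
    rintro F ⟨u, hu', v, hv', rfl⟩
    have e1 : u = ∑ i, bu.repr ⟨u, hu'⟩ i • (bu i : α → K) := by
      have := congrArg Subtype.val (bu.sum_repr ⟨u, hu'⟩)
      rw [AddSubmonoidClass.coe_finsetSum] at this
      exact this.symm
    have e2 : v = ∑ j, bv.repr ⟨v, hv'⟩ j • (bv j : β → K) := by
      have := congrArg Subtype.val (bv.sum_repr ⟨v, hv'⟩)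
      rw [AddSubmonoidClass.coe_finsetSum] at this
      exact this.symm
    have e3 : (fun p : α × β => u p.1 * v p.2) = ∑ ij : Fin (finrank K U) × Fin (finrank K V),
        (bu.repr ⟨u, hu'⟩ ij.1 * bv.repr ⟨v, hv'⟩ ij.2) •
          (fun p : α × β => (bu ij.1 : α → K) p.1 * (bv ij.2 : β → K) p.2) := by
      funext p
      conv_lhs => rw [e1, e2]
      simp only [Finset.sum_apply, Pi.smul_apply, smul_eq_mul]
      rw [Fintype.sum_prod_type, Finset.sum_mul_sum]
      exact Finset.sum_congr rfl fun i _ => Finset.sum_congr rfl fun j _ => by ring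
    rw [e3]
    exact Submodule.sum_mem _ fun ij _ => Submodule.smul_mem _ _ (Submodule.subset_span ⟨ij, rfl⟩)
  · apply Submodule.span_le.2
    rintro _ ⟨ij, rfl⟩
    exact ph_tens_mem (bu ij.1).2 (bv ij.2).2

theorem ph_tens_finrank (U : Submodule K (α → K)) (V : Submodule K (β → K)) [Module.Finite K U] [Module.Finite K V] :
    finrank K (phTens U V) = finrank K U * finrank K V := by
  classical
  have hu : LinearIndependent K (fun i => (Module.finBasis K U i : α → K)) :=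
    (Module.finBasis K U).linearIndependent.map' U.subtype (Submodule.ker_subtype U)
  have hv : LinearIndependent K (fun j => (Module.finBasis K V j : β → K)) :=
    (Module.finBasis K V).linearIndependent.map' V.subtype (Submodule.ker_subtype V)
  rw [ph_tens_eq_span, finrank_span_eq_card (ph_tens_indep _ _ hu hv)]
  simp

theorem ph_tens_finite (U : Submodule K (α → K)) (V : Submodule K (β → K)) [Module.Finite K U] [Module.Finite K V] :
    Module.Finite K (phTens U V) := by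
  rw [ph_tens_eq_span]
  exact Module.Finite.span_of_finite K (Set.finite_range _)

/-- **one step of the filtration** -/
theorem ph_tens_step (U' U : Submodule K (α → K)) (V : Submodule K (β → K)) (W : Submodule K (α × β → K))
    [Module.Finite K U] [Module.Finite K V] [Module.Finite K W] (hU : U' ≤ U) (hW : phTens U' V ≤ W)
    (hsl : ∀ F ∈ W, ∀ y, (fun x => F (x, y)) ∈ U') :
    finrank K (W ⊔ phTens U V : Submodule K (α × β → K)) = finrank K W + (finrank K U - finrank K U') * finrank K V := by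
  classical
  have : Module.Finite K U' := Submodule.finiteDimensional_of_le hU
  -- a complement of `U'` in `U`
  obtain ⟨C, hC1, hC2⟩ : ∃ C : Submodule K (α → K), C ⊓ U' = ⊥ ∧ C ⊔ U' = U := by
    obtain ⟨C₀, hC₀⟩ := Submodule.exists_isCompl U'
    refine ⟨C₀ ⊓ U, ?_, ?_⟩
    · rw [inf_assoc, inf_eq_right.2 hU, inf_comm]
      exact hC₀.inf_eq_bot
    · apply le_antisymm (sup_le inf_le_right hU)
      intro u hu
      have : u ∈ U' ⊔ C₀ := by rw [hC₀.sup_eq_top]; exact Submodule.mem_top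
      obtain ⟨a, ha, b, hb, rfl⟩ := Submodule.mem_sup.1 this
      have hbU : b ∈ U := by
        have := U.sub_mem hu (hU ha)
        simpa using this
      rw [add_comm]
      exact Submodule.add_mem_sup ⟨hb, hbU⟩ ha
  have hCU : C ≤ U := hC2 ▸ le_sup_left
  have : Module.Finite K C := Submodule.finiteDimensional_of_le hCU
  have := ph_tens_finite C V
  have hdimC : finrank K C = finrank K U - finrank K U' := by
    have := Submodule.finrank_sup_add_finrank_inf_eq C U'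
    rw [hC1, hC2, finrank_bot] at this
    omega
  have e1 : W ⊔ phTens U V = W ⊔ phTens C V := by
    apply le_antisymm
    · refine sup_le le_sup_left ?_
      rw [← hC2]
      refine (ph_tens_sup_left C U' V).trans (sup_le le_sup_right (hW.trans le_sup_left))
    · exact sup_le_sup_left (ph_tens_mono hCU le_rfl) _
  have e2 : W ⊓ phTens C V = ⊥ := by
    rw [eq_bot_iff]
    rintro F ⟨h1, h2⟩
    rw [Submodule.mem_bot]
    funext p
    have h3 : (fun x => F (x, p.2)) ∈ C ⊓ U' := ⟨ph_tens_slice h2 p.2, hsl F h1 p.2⟩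
    rw [hC1, Submodule.mem_bot] at h3
    exact congrFun h3 p.1
  have := Submodule.finrank_sup_add_finrank_inf_eq W (phTens C V)
  rw [e2, finrank_bot, ph_tens_finrank, hdimC] at this
  rw [e1]
  omega

/-- the filtered product `∑_{a ≤ k} U_a ⊗ V_{D - a}` -/
def phFilt (U : ℕ → Submodule K (α → K)) (V : ℕ → Submodule K (β → K)) (D : ℕ) : ℕ → Submodule K (α × β → K)
  | 0 => phTens (U 0) (V D)
  | k + 1 => phFilt U V D k ⊔ phTens (U (k + 1)) (V (D - (k + 1)))

theorem ph_filt_ge (U : ℕ → Submodule K (α → K)) (V : ℕ → Submodule K (β → K)) (D : ℕ) {a k : ℕ} (h : a ≤ k) :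
    phTens (U a) (V (D - a)) ≤ phFilt U V D k := by
  induction k with
  | zero =>
    obtain rfl : a = 0 := by omega
    exact le_rfl
  | succ k ih =>
    rcases Nat.lt_or_ge a (k + 1) with h1 | h1
    · exact (ih (by omega)).trans le_sup_left
    · obtain rfl : a = k + 1 := by omega
      exact le_sup_right

theorem ph_filt_le (U : ℕ → Submodule K (α → K)) (V : ℕ → Submodule K (β → K)) (D k : ℕ)
    (W : Submodule K (α × β → K)) (h : ∀ a ≤ k, phTens (U a) (V (D - a)) ≤ W) : phFilt U V D k ≤ W := by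
  induction k with
  | zero => exact h 0 le_rfl
  | succ k ih => exact sup_le (ih fun a ha => h a (by omega)) (h (k + 1) le_rfl)

theorem ph_filt_main (U : ℕ → Submodule K (α → K)) (V : ℕ → Submodule K (β → K)) (hU : Monotone U) (hV : Monotone V)
    [∀ a, Module.Finite K (U a)] [∀ b, Module.Finite K (V b)] (D k : ℕ) :
    Module.Finite K (phFilt U V D k) ∧ (∀ F ∈ phFilt U V D k, ∀ y, (fun x => F (x, y)) ∈ U k) ∧
      finrank K (phFilt U V D k) = ∑ a ∈ Finset.range (k + 1),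
        (finrank K (U a) - if a = 0 then 0 else finrank K (U (a - 1))) * finrank K (V (D - a)) := by
  induction k with
  | zero =>
    refine ⟨ph_tens_finite _ _, fun F hF y => ph_tens_slice hF y, ?_⟩
    rw [Finset.sum_range_one, if_pos rfl, Nat.sub_zero, Nat.sub_zero]
    exact ph_tens_finrank _ _
  | succ k ih =>
    obtain ⟨h1, h2, h3⟩ := ih
    have := ph_tens_finite (U (k + 1)) (V (D - (k + 1)))
    refine ⟨?_, ?_, ?_⟩
    · exact Submodule.finiteDimensional_sup _ _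
    · intro F hF y
      obtain ⟨A, hA, B, hB, rfl⟩ := Submodule.mem_sup.1 hF
      exact (U (k + 1)).add_mem (hU (Nat.le_succ k) (h2 A hA y)) (ph_tens_slice hB y)
    · have h4 := ph_tens_step (U k) (U (k + 1)) (V (D - (k + 1))) (phFilt U V D k) (hU (Nat.le_succ k))
        ((ph_tens_mono le_rfl (hV (by omega))).trans (ph_filt_ge U V D le_rfl)) h2
      rw [Finset.sum_range_succ, ← h3, if_neg (Nat.succ_ne_zero k), Nat.add_sub_cancel]
      exact h4

end Tens

omit [Fintype ι] [Fintype κ] in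
theorem ph_mem_prodSet (X : Set (ι → ℂ)) (Y : Set (κ → ℂ)) (x : ι → ℂ) (y : κ → ℂ) :
    Sum.elim x y ∈ prodSet X Y ↔ x ∈ X ∧ y ∈ Y := Iff.rfl

omit [Fintype ι] [Fintype κ] in
theorem ph_prodSet_elim {X : Set (ι → ℂ)} {Y : Set (κ → ℂ)} {z : ι ⊕ κ → ℂ} (hz : z ∈ prodSet X Y) :
    ∃ x ∈ X, ∃ y ∈ Y, z = Sum.elim x y :=
  ⟨_, hz.1, _, hz.2, by funext s; cases s <;> rfl⟩

/-- freezing the second group of variables -/
noncomputable def phFrR (y : κ → ℂ) (f : MvPolynomial (ι ⊕ κ) ℂ) : MvPolynomial ι ℂ :=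
  aeval (Sum.elim MvPolynomial.X (fun j => C (y j)) : ι ⊕ κ → MvPolynomial ι ℂ) f

/-- freezing the first group of variables -/
noncomputable def phFrL (x : ι → ℂ) (f : MvPolynomial (ι ⊕ κ) ℂ) : MvPolynomial κ ℂ :=
  aeval (Sum.elim (fun i => C (x i)) MvPolynomial.X : ι ⊕ κ → MvPolynomial κ ℂ) f

omit [Fintype ι] [Fintype κ] in
theorem ph_eval_frR (f : MvPolynomial (ι ⊕ κ) ℂ) (x : ι → ℂ) (y : κ → ℂ) :
    eval x (phFrR y f) = eval (Sum.elim x y) f := by
  unfold phFrR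
  rw [← ph_eval_pmap]
  congr 2
  funext s
  cases s <;> simp [pmap]

omit [Fintype ι] [Fintype κ] in
theorem ph_eval_frL (f : MvPolynomial (ι ⊕ κ) ℂ) (x : ι → ℂ) (y : κ → ℂ) :
    eval y (phFrL x f) = eval (Sum.elim x y) f := by
  unfold phFrL
  rw [← ph_eval_pmap]
  congr 2
  funext s
  cases s <;> simp [pmap]

omit [Fintype ι] [Fintype κ] in
theorem ph_prodSet_eq_Zl (p : Ideal (MvPolynomial ι ℂ)) (q : Ideal (MvPolynomial κ ℂ)) :
    prodSet (zeroLocus ℂ p) (zeroLocus ℂ q) =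
      Zl (rename Sum.inl '' (p : Set (MvPolynomial ι ℂ)) ∪ rename Sum.inr '' (q : Set (MvPolynomial κ ℂ))) := by
  ext z
  constructor
  · rintro ⟨h1, h2⟩ g (⟨f, hf, rfl⟩ | ⟨f, hf, rfl⟩)
    · rw [eval_rename]
      exact (ph_mem_zeroLocus p _).mp h1 f hf
    · rw [eval_rename]
      exact (ph_mem_zeroLocus q _).mp h2 f hf
  · intro h
    refine ⟨(ph_mem_zeroLocus p _).mpr fun f hf => ?_, (ph_mem_zeroLocus q _).mpr fun f hf => ?_⟩
    · have := h _ (Or.inl ⟨f, hf, rfl⟩)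
      rwa [eval_rename] at this
    · have := h _ (Or.inr ⟨f, hf, rfl⟩)
      rwa [eval_rename] at this

theorem ph_prod_isVar {X : Set (ι → ℂ)} {Y : Set (κ → ℂ)} (hX : IsVar X) (hY : IsVar Y) :
    IsVar (prodSet X Y) := by
  have hcl : zcl (prodSet X Y) = prodSet X Y := by
    obtain ⟨p, _, rfl⟩ := hX
    obtain ⟨q, _, rfl⟩ := hY
    rw [ph_prodSet_eq_Zl, ph_zcl_Zl]
  rw [← hcl, ph_isVar_zcl_iff]
  obtain ⟨x₀, hx₀⟩ := ph_isVar_nonempty X hX
  obtain ⟨y₀, hy₀⟩ := ph_isVar_nonempty Y hY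
  refine ⟨⟨Sum.elim x₀ y₀, hx₀, hy₀⟩, fun f g h => ?_⟩
  by_contra hcon
  push Not at hcon
  obtain ⟨⟨z₁, hz₁, hf⟩, ⟨z₂, hz₂, hg⟩⟩ := hcon
  obtain ⟨x₁, hx₁, y₁, hy₁, rfl⟩ := ph_prodSet_elim hz₁
  obtain ⟨x₂, hx₂, y₂, hy₂, rfl⟩ := ph_prodSet_elim hz₂
  -- for every `x ∈ X` one of the two slices vanishes on `Y`
  have hsl : ∀ x ∈ X, (∀ y ∈ Y, eval (Sum.elim x y) f = 0) ∨ ∀ y ∈ Y, eval (Sum.elim x y) g = 0 := by
    intro x hx
    rcases ph_isVar_mul hY (phFrL x f) (phFrL x g) (fun y hy => by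
        rw [map_mul, ph_eval_frL, ph_eval_frL]
        exact h _ ⟨hx, hy⟩) with h1 | h1
    · exact Or.inl fun y hy => by rw [← ph_eval_frL]; exact h1 y hy
    · exact Or.inr fun y hy => by rw [← ph_eval_frL]; exact h1 y hy
  rcases ph_isVar_mul hX (phFrR y₁ f) (phFrR y₂ g) (fun x hx => by
        rw [map_mul, ph_eval_frR, ph_eval_frR]
        rcases hsl x hx with h1 | h1
        · rw [h1 y₁ hy₁, zero_mul]
        · rw [h1 y₂ hy₂, mul_zero]) with h1 | h1
  · exact hf (by rw [← ph_eval_frR]; exact h1 x₁ hx₁)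
  · exact hg (by rw [← ph_eval_frR]; exact h1 x₂ hx₂)

/-- the restrictions to `T` of the polynomials of degree `≤ a` -/
noncomputable def phRsp (T : Set (ι → ℂ)) (a : ℕ) : Submodule ℂ (T → ℂ) :=
  LinearMap.range (evalOn (restrictTotalDegree ι ℂ a) T)

omit [Fintype ι] in
theorem ph_mem_rsp (T : Set (ι → ℂ)) (a : ℕ) (u : T → ℂ) :
    u ∈ phRsp T a ↔ ∃ f : MvPolynomial ι ℂ, f.totalDegree ≤ a ∧ ∀ x : T, u x = eval x.1 f := by
  constructor
  · rintro ⟨f, rfl⟩
    exact ⟨f.1, (mem_restrictTotalDegree _ _ _).mp f.2, fun _ => rfl⟩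
  · rintro ⟨f, hf, h⟩
    exact ⟨⟨f, (mem_restrictTotalDegree _ _ _).mpr hf⟩, by funext x; exact (h x).symm⟩

omit [Fintype ι] in
theorem ph_rsp_mono (T : Set (ι → ℂ)) : Monotone (phRsp T) := by
  intro a b hab u hu
  rw [ph_mem_rsp] at hu ⊢
  obtain ⟨f, hf, h⟩ := hu
  exact ⟨f, hf.trans hab, h⟩

instance ph_rsp_finite (T : Set (ι → ℂ)) (a : ℕ) : Module.Finite ℂ (phRsp T a) := by
  unfold phRsp
  infer_instance

omit [Fintype ι] in
theorem ph_finrank_rsp (T : Set (ι → ℂ)) (a : ℕ) : finrank ℂ (phRsp T a) = hA T a := rfl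

/-- `X × Y ≃ prodSet X Y` -/
def phProdEquiv (X : Set (ι → ℂ)) (Y : Set (κ → ℂ)) : X × Y ≃ prodSet X Y where
  toFun p := ⟨Sum.elim p.1.1 p.2.1, p.1.2, p.2.2⟩
  invFun z := (⟨fun i => z.1 (Sum.inl i), z.2.1⟩, ⟨fun j => z.1 (Sum.inr j), z.2.2⟩)
  left_inv p := rfl
  right_inv z := by
    apply Subtype.ext
    funext s
    cases s <;> rfl

/-- a monomial in `(x, y)` is a product -/
theorem ph_monomial_split (s : ι ⊕ κ →₀ ℕ) (x : ι → ℂ) (y : κ → ℂ) :
    eval (Sum.elim x y) (monomial s (1 : ℂ)) =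
      eval x (∏ i, (MvPolynomial.X i : MvPolynomial ι ℂ) ^ s (Sum.inl i)) *
        eval y (∏ j, (MvPolynomial.X j : MvPolynomial κ ℂ) ^ s (Sum.inr j)) := by
  rw [eval_monomial, one_mul, Finsupp.prod_fintype _ _ (fun _ => pow_zero _), Fintype.prod_sum_type]
  simp [map_prod]

omit [Fintype κ] in
theorem ph_totalDegree_prod_X_pow (e : ι → ℕ) :
    (∏ i, (MvPolynomial.X i : MvPolynomial ι ℂ) ^ e i).totalDegree ≤ ∑ i, e i := by
  refine (totalDegree_finsetProd _ _).trans (Finset.sum_le_sum fun i _ => ?_)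
  refine (totalDegree_pow _ _).trans ?_
  rw [totalDegree_X, mul_one]

theorem ph_prod_rsp (X : Set (ι → ℂ)) (Y : Set (κ → ℂ)) (D : ℕ) :
    (phRsp (prodSet X Y) D).map (LinearEquiv.funCongrLeft ℂ ℂ (phProdEquiv X Y)).toLinearMap
      = phFilt (phRsp X) (phRsp Y) D D := by
  apply le_antisymm
  · rintro _ ⟨u, hu, rfl⟩
    obtain ⟨h, hh, hu⟩ := (ph_mem_rsp _ _ _).mp hu
    have e1 : (LinearEquiv.funCongrLeft ℂ ℂ (phProdEquiv X Y)).toLinearMap u = ∑ s ∈ h.support, coeff s h •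
        (fun p : X × Y => eval p.1.1 (∏ i, (MvPolynomial.X i : MvPolynomial ι ℂ) ^ s (Sum.inl i)) *
          eval p.2.1 (∏ j, (MvPolynomial.X j : MvPolynomial κ ℂ) ^ s (Sum.inr j))) := by
      funext p
      have e2 : (LinearEquiv.funCongrLeft ℂ ℂ (phProdEquiv X Y)).toLinearMap u p = eval (Sum.elim p.1.1 p.2.1) h :=
        hu (phProdEquiv X Y p)
      rw [e2, Finset.sum_apply]
      conv_lhs => rw [h.as_sum, map_sum]
      refine Finset.sum_congr rfl fun s _ => ?_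
      rw [Pi.smul_apply, smul_eq_mul, ← ph_monomial_split, ← mul_one (coeff s h), ← smul_eq_mul, ← smul_monomial,
        smul_eval, smul_eq_mul, mul_one]
    rw [e1]
    refine Submodule.sum_mem _ fun s hs => Submodule.smul_mem _ _ ?_
    have hdeg : ∑ i, s (Sum.inl i) + ∑ j, s (Sum.inr j) ≤ D := by
      have := (le_totalDegree hs).trans hh
      rwa [Finsupp.sum_fintype _ _ (fun _ => rfl), Fintype.sum_sum_type] at this
    refine ph_filt_ge (phRsp X) (phRsp Y) D (a := ∑ i, s (Sum.inl i)) (by omega) ?_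
    refine ph_tens_mem (u := fun x : X => eval x.1 (∏ i, (MvPolynomial.X i : MvPolynomial ι ℂ) ^ s (Sum.inl i)))
      (v := fun y : Y => eval y.1 (∏ j, (MvPolynomial.X j : MvPolynomial κ ℂ) ^ s (Sum.inr j))) ?_ ?_
    · exact (ph_mem_rsp _ _ _).mpr ⟨_, ph_totalDegree_prod_X_pow _, fun _ => rfl⟩
    · exact (ph_mem_rsp _ _ _).mpr ⟨_, (ph_totalDegree_prod_X_pow _).trans (by omega), fun _ => rfl⟩
  · apply ph_filt_le
    intro a ha
    apply Submodule.span_le.2
    rintro _ ⟨u, hu, v, hv, rfl⟩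
    obtain ⟨f, hf, hu⟩ := (ph_mem_rsp _ _ _).mp hu
    obtain ⟨g, hg, hv⟩ := (ph_mem_rsp _ _ _).mp hv
    refine ⟨fun z => eval z.1 (rename Sum.inl f * rename Sum.inr g), (ph_mem_rsp _ _ _).mpr ⟨_, ?_, fun _ => rfl⟩, ?_⟩
    · refine (totalDegree_mul _ _).trans ?_
      have h1 := totalDegree_rename_le (Sum.inl : ι → ι ⊕ κ) f
      have h2 := totalDegree_rename_le (Sum.inr : κ → ι ⊕ κ) g
      omega
    · funext p
      have e2 : (LinearEquiv.funCongrLeft ℂ ℂ (phProdEquiv X Y)).toLinearMap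
          (fun z : prodSet X Y => eval z.1 (rename Sum.inl f * rename Sum.inr g)) p =
          eval (Sum.elim p.1.1 p.2.1) (rename Sum.inl f * rename Sum.inr g) := rfl
      rw [e2, map_mul, eval_rename, eval_rename, hu, hv]
      rfl

/-- exact Hilbert function of a product (arbitrary sets) -/
theorem ph_prod_hA (X : Set (ι → ℂ)) (Y : Set (κ → ℂ)) (D : ℕ) :
    hA (prodSet X Y) D
      = ∑ a ∈ Finset.range (D + 1), (hA X a - if a = 0 then 0 else hA X (a - 1)) * hA Y (D - a) := by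
  have h1 := (ph_filt_main (phRsp X) (phRsp Y) (ph_rsp_mono X) (ph_rsp_mono Y) D D).2.2
  rw [← ph_prod_rsp, LinearEquiv.finrank_map_eq] at h1
  exact h1

/-- the convolution of `ph_prod_hA` -/
def phConv (F G : ℕ → ℕ) (D : ℕ) : ℕ :=
  ∑ a ∈ Finset.range (D + 1), (F a - if a = 0 then 0 else F (a - 1)) * G (D - a)

theorem ph_conv_mono_right (F : ℕ → ℕ) {G G' : ℕ → ℕ} (h : ∀ b, G b ≤ G' b) (D : ℕ) : phConv F G D ≤ phConv F G' D :=
  Finset.sum_le_sum fun _ _ => Nat.mul_le_mul_left _ (h _)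

theorem ph_conv_mul_right (F G : ℕ → ℕ) (c D : ℕ) : phConv F (fun b => c * G b) D = c * phConv F G D := by
  unfold phConv
  rw [Finset.mul_sum]
  exact Finset.sum_congr rfl fun _ _ => by ring

theorem ph_conv_low (F : ℕ → ℕ) {G G₀ : ℕ → ℕ} {c q : ℕ} (h : ∀ b, q ≤ b → c * G₀ (b - q) ≤ G b) {D : ℕ} (hD : q ≤ D) :
    c * phConv F G₀ (D - q) ≤ phConv F G D := by
  unfold phConv
  rw [Finset.mul_sum]
  refine le_trans (Finset.sum_le_sum fun a ha => ?_)
    (Finset.sum_le_sum_of_subset (Finset.range_subset_range.2 (by omega : D - q + 1 ≤ D + 1)))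
  have ha' := Finset.mem_range.1 ha
  have := h (D - a) (by omega)
  rw [show D - a - q = D - q - a by omega] at this
  calc c * ((F a - if a = 0 then 0 else F (a - 1)) * G₀ (D - q - a))
      = (F a - if a = 0 then 0 else F (a - 1)) * (c * G₀ (D - q - a)) := by ring
    _ ≤ _ := Nat.mul_le_mul_left _ this

theorem ph_prod_hA_conv (X : Set (ι → ℂ)) (Y : Set (κ → ℂ)) (D : ℕ) :
    hA (prodSet X Y) D = phConv (hA X) (hA Y) D := ph_prod_hA X Y D

theorem ph_prod_swap_le (X : Set (ι → ℂ)) (Y : Set (κ → ℂ)) (D : ℕ) : hA (prodSet Y X) D ≤ hA (prodSet X Y) D := by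
  have h := ph_hA_image_le (fun s : κ ⊕ ι => (MvPolynomial.X (Sum.swap s) : MvPolynomial (ι ⊕ κ) ℂ)) 1
    (fun s => by rw [totalDegree_X]) (prodSet X Y) D
  rw [one_mul] at h
  refine le_trans (le_of_eq ?_) h
  congr 1
  ext z
  constructor
  · intro hz
    refine ⟨fun s => z (Sum.swap s), ⟨hz.2, hz.1⟩, ?_⟩
    funext s
    cases s <;> simp [pmap]
  · rintro ⟨w, hw, rfl⟩
    exact ⟨by simpa [pmap] using hw.2, by simpa [pmap] using hw.1⟩

theorem ph_prod_swap (X : Set (ι → ℂ)) (Y : Set (κ → ℂ)) (D : ℕ) : hA (prodSet X Y) D = hA (prodSet Y X) D :=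
  le_antisymm (ph_prod_swap_le Y X D) (ph_prod_swap_le X Y D)

/-- the Hilbert function of `ℂ^k` -/
theorem ph_hA_univ_fin (k D : ℕ) : hA (Set.univ : Set (Fin k → ℂ)) D = (D + k).choose k := by
  rw [rk_hA_univ, Fintype.card_fin, add_comm, Nat.choose_symm_add]

theorem ph_hA_univ_fin' (k : ℕ) : hA (Set.univ : Set (Fin k → ℂ)) = fun D => (D + k).choose k :=
  funext (ph_hA_univ_fin k)

theorem ph_conv_univ (k l D : ℕ) :
    phConv (fun a => (a + k).choose k) (fun b => (b + l).choose l) D = (D + (k + l)).choose (k + l) := by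
  have h := ph_prod_hA_conv (Set.univ : Set (Fin k → ℂ)) (Set.univ : Set (Fin l → ℂ)) D
  have e : prodSet (Set.univ : Set (Fin k → ℂ)) (Set.univ : Set (Fin l → ℂ)) = Set.univ :=
    Set.eq_univ_of_forall fun z => ⟨Set.mem_univ _, Set.mem_univ _⟩
  rw [e, rk_hA_univ, Fintype.card_sum, Fintype.card_fin, Fintype.card_fin] at h
  rw [ph_hA_univ_fin', ph_hA_univ_fin'] at h
  rw [← h, add_comm, Nat.choose_symm_add]

/-- upper bound for the Hilbert function of a product -/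
theorem ph_prod_up (X : Set (ι → ℂ)) (Y : Set (κ → ℂ)) (c c' k l : ℕ) (hX : ∀ a, hA X a ≤ c * (a + k).choose k)
    (hY : ∀ b, hA Y b ≤ c' * (b + l).choose l) (D : ℕ) :
    hA (prodSet X Y) D ≤ c * c' * (D + (k + l)).choose (k + l) := by
  calc hA (prodSet X Y) D = phConv (hA X) (hA Y) D := ph_prod_hA_conv X Y D
    _ ≤ phConv (hA X) (fun b => c' * hA (Set.univ : Set (Fin l → ℂ)) b) D :=
        ph_conv_mono_right _ (fun b => by rw [ph_hA_univ_fin]; exact hY b) D
    _ = c' * hA (prodSet X (Set.univ : Set (Fin l → ℂ))) D := by rw [ph_conv_mul_right, ph_prod_hA_conv]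
    _ = c' * phConv (hA (Set.univ : Set (Fin l → ℂ))) (hA X) D := by rw [ph_prod_swap, ph_prod_hA_conv]
    _ ≤ c' * phConv (hA (Set.univ : Set (Fin l → ℂ))) (fun a => c * (a + k).choose k) D :=
        Nat.mul_le_mul_left _ (ph_conv_mono_right _ hX D)
    _ = c * c' * (D + (k + l)).choose (k + l) := by
        rw [ph_conv_mul_right, ph_hA_univ_fin', ph_conv_univ, add_comm l k]
        ring

/-- lower bound for the Hilbert function of a product -/
theorem ph_prod_low (X : Set (ι → ℂ)) (Y : Set (κ → ℂ)) (c c' k l q q' : ℕ)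
    (hX : ∀ a, q ≤ a → c * (a - q + k).choose k ≤ hA X a)
    (hY : ∀ b, q' ≤ b → c' * (b - q' + l).choose l ≤ hA Y b) (D : ℕ) (hD : q + q' ≤ D) :
    c * c' * (D - (q + q') + (k + l)).choose (k + l) ≤ hA (prodSet X Y) D := by
  calc c * c' * (D - (q + q') + (k + l)).choose (k + l)
      = c' * (c * phConv (hA (Set.univ : Set (Fin l → ℂ))) (fun a => (a + k).choose k) (D - q' - q)) := by
        rw [ph_hA_univ_fin', ph_conv_univ, add_comm l k, show D - q' - q = D - (q + q') by omega]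
        ring
    _ ≤ c' * phConv (hA (Set.univ : Set (Fin l → ℂ))) (hA X) (D - q') :=
        Nat.mul_le_mul_left _ (ph_conv_low _ (G₀ := fun a => (a + k).choose k) hX (by omega))
    _ = c' * phConv (hA X) (hA (Set.univ : Set (Fin l → ℂ))) (D - q') := by
        rw [← ph_prod_hA_conv, ph_prod_swap, ph_prod_hA_conv]
    _ ≤ phConv (hA X) (hA Y) D :=
        ph_conv_low _ (fun b hb => by rw [ph_hA_univ_fin]; exact hY b hb) (by omega)
    _ = hA (prodSet X Y) D := (ph_prod_hA_conv X Y D).symm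

theorem ph_prod_vdim {X : Set (ι → ℂ)} {Y : Set (κ → ℂ)} (hX : IsVar X) (hY : IsVar Y) :
    vdim (prodSet X Y) = vdim X + vdim Y := by
  apply ph_vdim_eq_of_bounds _ _ (vdeg X * vdeg Y)
  · intro D
    have := ph_prod_low X Y 1 1 (vdim X) (vdim Y) 0 0 (fun a _ => by simpa using ph_var_ge X hX a)
      (fun b _ => by simpa using ph_var_ge Y hY b) D (Nat.zero_le _)
    simpa using this
  · exact ph_prod_up X Y _ _ _ _ (ph_up_var X hX) (ph_up_var Y hY)

theorem ph_prod_vdeg {X : Set (ι → ℂ)} {Y : Set (κ → ℂ)} (hX : IsVar X) (hY : IsVar Y) :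
    vdeg (prodSet X Y) = vdeg X * vdeg Y := by
  have hd := ph_prod_vdim hX hY
  apply le_antisymm
  · refine Nat.sInf_le fun D => ?_
    rw [hd]
    exact ph_prod_up X Y _ _ _ _ (ph_up_var X hX) (ph_up_var Y hY) D
  · obtain ⟨q, hq⟩ := ph_var_low X hX
    obtain ⟨q', hq'⟩ := ph_var_low Y hY
    apply ph_choose_asymp _ _ (q + q') (vdim X + vdim Y)
    intro D hD
    refine (ph_prod_low X Y _ _ _ _ q q' hq hq' D hD).trans ?_
    have := ph_up_var _ (ph_prod_isVar hX hY) D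
    rwa [hd] at this

/-! ### PH-map-d: **[CHEV]** -/

theorem ph_image_dense_aux (p : Ideal (MvPolynomial ι ℂ)) (hp : p.IsPrime) (ψ : κ → MvPolynomial ι ℂ) :
    ∃ h' : MvPolynomial κ ℂ,
      (∃ w ∈ zeroLocus ℂ (p.comap (aeval ψ : MvPolynomial κ ℂ →ₐ[ℂ] MvPolynomial ι ℂ)), eval w h' ≠ 0) ∧
      ∀ w ∈ zeroLocus ℂ (p.comap (aeval ψ : MvPolynomial κ ℂ →ₐ[ℂ] MvPolynomial ι ℂ)), eval w h' ≠ 0 →
        ∃ x ∈ zeroLocus ℂ p, ∀ j, eval x (ψ j) = w j := by
  classical
  obtain ⟨q, hq⟩ : ∃ q, q = p.comap (aeval ψ : MvPolynomial κ ℂ →ₐ[ℂ] MvPolynomial ι ℂ) := ⟨_, rfl⟩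
  rw [← hq]
  have hqp : q.IsPrime := hq ▸ Ideal.comap_isPrime _ _
  have : IsDomain (MvPolynomial ι ℂ ⧸ p) := Ideal.Quotient.isDomain p
  obtain ⟨Φ, hΦ⟩ : ∃ Φ : MvPolynomial κ ℂ →+* (MvPolynomial ι ℂ ⧸ p), Φ = (Ideal.Quotient.mk p).comp
      (aeval ψ : MvPolynomial κ ℂ →ₐ[ℂ] MvPolynomial ι ℂ).toRingHom := ⟨_, rfl⟩
  have hΦa : ∀ g, Φ g = Ideal.Quotient.mk p (aeval ψ g) := fun g => by rw [hΦ]; rfl
  have hft : Φ.FiniteType := by
    have h1 : (Φ.comp (C : ℂ →+* MvPolynomial κ ℂ)).FiniteType := by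
      have e : Φ.comp (C : ℂ →+* MvPolynomial κ ℂ)
          = (Ideal.Quotient.mk p).comp (algebraMap ℂ (MvPolynomial ι ℂ)) := by
        ext a
        simp [hΦa]
      rw [e]
      exact (RingHom.FiniteType.of_surjective _ Ideal.Quotient.mk_surjective).comp
        (RingHom.finiteType_algebraMap.2 inferInstance)
    exact h1.of_comp_finiteType
  have hcons := PrimeSpectrum.isConstructible_range_comap (RingHom.FinitePresentation.of_finiteType.1 hft)
  obtain ⟨T, hT⟩ := PrimeSpectrum.exists_constructibleSetData_iff.2 hcons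
  have hcomap : ∀ J : Ideal (MvPolynomial ι ℂ ⧸ p), ∀ g, g ∈ Ideal.comap Φ J ↔
      aeval ψ g ∈ Ideal.comap (Ideal.Quotient.mk p) J := by
    intro J g
    rw [Ideal.mem_comap, Ideal.mem_comap, hΦa]
  have hgen : (⟨q, hqp⟩ : PrimeSpectrum (MvPolynomial κ ℂ)) ∈ Set.range (PrimeSpectrum.comap Φ) := by
    refine ⟨⟨⊥, Ideal.isPrime_bot⟩, ?_⟩
    ext g
    change g ∈ Ideal.comap Φ ⊥ ↔ g ∈ q
    rw [Ideal.mem_comap, hΦa, Ideal.mem_bot, Ideal.Quotient.eq_zero_iff_mem, hq, Ideal.mem_comap]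
  rw [← hT] at hgen
  simp only [PrimeSpectrum.ConstructibleSetData.toSet, Set.mem_iUnion] at hgen
  obtain ⟨Cd, hCd, hmem1, hmem2⟩ := hgen
  have hg : ∀ i, Cd.g i ∈ q := fun i => hmem1 ⟨i, rfl⟩
  have hf : Cd.f ∉ q := fun h => hmem2 (by
    rw [PrimeSpectrum.mem_zeroLocus]
    intro y hy
    rw [Set.mem_singleton_iff.1 hy]
    exact h)
  refine ⟨Cd.f, ?_, ?_⟩
  · by_contra hcon
    push Not at hcon
    apply hf
    rw [← ph_vanishing_prime q hqp, ph_mem_vanishingIdeal]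
    exact hcon
  · intro w hw hfw
    have hsurj : Function.Surjective (eval w : MvPolynomial κ ℂ →+* ℂ) := fun a => ⟨C a, by simp⟩
    have hmax : (RingHom.ker (eval w : MvPolynomial κ ℂ →+* ℂ)).IsMaximal :=
      RingHom.ker_isMaximal_of_surjective _ hsurj
    have hqle : q ≤ RingHom.ker (eval w : MvPolynomial κ ℂ →+* ℂ) := by
      intro g hg
      rw [RingHom.mem_ker]
      exact (ph_mem_zeroLocus q w).1 hw g hg
    have hPw : (⟨_, hmax.isPrime⟩ : PrimeSpectrum (MvPolynomial κ ℂ)) ∈ T.toSet := by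
      simp only [PrimeSpectrum.ConstructibleSetData.toSet, Set.mem_iUnion]
      refine ⟨Cd, hCd, ?_, ?_⟩
      · rw [PrimeSpectrum.mem_zeroLocus]
        rintro _ ⟨i, rfl⟩
        exact hqle (hg i)
      · intro h
        rw [PrimeSpectrum.mem_zeroLocus] at h
        have : Cd.f ∈ RingHom.ker (eval w : MvPolynomial κ ℂ →+* ℂ) := h (Set.mem_singleton _)
        rw [RingHom.mem_ker] at this
        exact hfw this
    rw [hT] at hPw
    obtain ⟨P, hP⟩ := hPw
    have hP' : Ideal.comap Φ P.asIdeal = RingHom.ker (eval w : MvPolynomial κ ℂ →+* ℂ) :=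
      congrArg PrimeSpectrum.asIdeal hP
    obtain ⟨M, hM, hPM⟩ := Ideal.exists_le_maximal P.asIdeal P.2.ne_top
    have hMc : Ideal.comap Φ M = RingHom.ker (eval w : MvPolynomial κ ℂ →+* ℂ) :=
      (hmax.eq_of_le (Ideal.comap_ne_top _ hM.ne_top) (hP' ▸ Ideal.comap_mono hPM)).symm
    have hM' : (Ideal.comap (Ideal.Quotient.mk p) M).IsMaximal :=
      Ideal.comap_isMaximal_of_surjective _ Ideal.Quotient.mk_surjective
    obtain ⟨x, hx⟩ := eq_vanishingIdeal_singleton_of_isMaximal ℂ hM'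
    have hxe : ∀ f, f ∈ Ideal.comap (Ideal.Quotient.mk p) M → eval x f = 0 := by
      intro f hf
      rw [hx, ph_mem_vanishingIdeal] at hf
      exact hf x rfl
    refine ⟨x, ?_, fun j => ?_⟩
    · rw [ph_mem_zeroLocus]
      intro f hf
      apply hxe
      rw [Ideal.mem_comap, Ideal.Quotient.eq_zero_iff_mem.2 hf]
      exact M.zero_mem
    · have h1 : (X j - C (w j) : MvPolynomial κ ℂ) ∈ Ideal.comap Φ M := by
        rw [hMc, RingHom.mem_ker]; simp
      rw [hcomap] at h1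
      have := hxe _ h1
      simpa [sub_eq_zero] using this

/-- the image of an irreducible variety contains a dense open subset of its closure -/
theorem ph_image_dense {V : Set (ι → ℂ)} (hV : IsVar V) (ψ : κ → MvPolynomial ι ℂ) :
    ∃ h' : MvPolynomial κ ℂ, (∃ w ∈ zcl (pmap ψ '' V), eval w h' ≠ 0) ∧
      ∀ w ∈ zcl (pmap ψ '' V), eval w h' ≠ 0 → w ∈ pmap ψ '' V := by
  obtain ⟨p, hp, rfl⟩ := hV
  rw [ph_zcl_image p hp]
  obtain ⟨h', h1, h2⟩ := ph_image_dense_aux p hp ψ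
  refine ⟨h', h1, fun w hw hne => ?_⟩
  obtain ⟨x, hx, hxw⟩ := h2 w hw hne
  exact ⟨x, hx, funext hxw⟩

/-! ### PH-map-e: **[KRULL-REL]**, **[FIB]** -/

omit [Fintype ι] in
theorem ph_Zl_coe_ideal (p : Ideal (MvPolynomial ι ℂ)) :
    Zl (p : Set (MvPolynomial ι ℂ)) = zeroLocus ℂ p := by
  ext x
  rw [ph_mem_zeroLocus]
  rfl

/-- every component of `V ∩ Z(g_1..g_j)` has dimension `≥ dim V - j`.  Induction on `j`: `W ⊆ W'`, `W'` a component of `V ∩ Z(g_1..g_{j-1})`; if `g_j` vanishes on `W'` then `W = W'`; otherwise `W` is a component of `W' ∩ Z(g_j)` (`ph_isCompOf_iff`) and `ph_pit` applies. -/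
theorem ph_krull_rel {V : Set (ι → ℂ)} (hV : IsVar V) (G₀ : Set (MvPolynomial ι ℂ)) (hG₀ : Zl G₀ = V)
    {j : ℕ} (g : Fin j → MvPolynomial ι ℂ) (W : Set (ι → ℂ)) (hW : IsCompOf W (G₀ ∪ Set.range g)) :
    vdim V ≤ vdim W + j := by
  induction j generalizing W with
  | zero =>
    have h0 : Set.range g = ∅ := Set.range_eq_empty g
    rw [h0, Set.union_empty, ph_isCompOf_iff] at hW
    obtain ⟨_, hWG, hmax⟩ := hW
    rw [hG₀] at hWG hmax
    rw [hmax V hV hWG le_rfl]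
    exact le_rfl
  | succ j ih =>
    have hW' := (ph_isCompOf_iff _ _).mp hW
    obtain ⟨hWv, hWG, hmax⟩ := hW'
    set g' : Fin j → MvPolynomial ι ℂ := fun i => g i.castSucc with hg'
    have hsub : G₀ ∪ Set.range g' ⊆ G₀ ∪ Set.range g := by
      apply Set.union_subset_union_right
      rintro _ ⟨i, rfl⟩
      exact ⟨i.castSucc, rfl⟩
    have hWG' : W ⊆ Zl (G₀ ∪ Set.range g') := fun x hx f hf => hWG hx f (hsub hf)
    obtain ⟨W', hW'c, hWW'⟩ := ph_isVar_subset_comp hWv hWG'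
    have ih' := ih g' W' hW'c
    have hW'v := ph_isCompOf_isVar hW'c
    have hW'G := ph_isCompOf_subset hW'c
    -- membership in the big zero set
    have hbig : ∀ T : Set (ι → ℂ), T ⊆ W' → (∀ x ∈ T, eval x (g (Fin.last j)) = 0) →
        T ⊆ Zl (G₀ ∪ Set.range g) := by
      intro T hT h0 x hx f hf
      rcases hf with hf | ⟨i, rfl⟩
      · exact hW'G (hT hx) f (Or.inl hf)
      · refine Fin.lastCases (motive := fun i => eval x (g i) = 0) (h0 x hx) (fun i => ?_) i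
        exact hW'G (hT hx) _ (Or.inr ⟨i, rfl⟩)
    by_cases hlast : ∀ x ∈ W', eval x (g (Fin.last j)) = 0
    · have := hmax W' hW'v hWW' (hbig W' le_rfl hlast)
      rw [this] at ih'
      omega
    · push Not at hlast
      obtain ⟨p', hp', hW'p⟩ := hW'v
      have hZ : Zl (p' : Set (MvPolynomial ι ℂ)) = W' := by rw [ph_Zl_coe_ideal, hW'p]
      have hcomp : IsCompOf W (insert (g (Fin.last j)) (p' : Set (MvPolynomial ι ℂ))) := by
        rw [ph_isCompOf_iff]
        have hins : ∀ T : Set (ι → ℂ), T ⊆ Zl (insert (g (Fin.last j)) (p' : Set (MvPolynomial ι ℂ))) ↔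
            T ⊆ W' ∧ ∀ x ∈ T, eval x (g (Fin.last j)) = 0 := by
          intro T
          constructor
          · intro h
            refine ⟨fun x hx => ?_, fun x hx => h hx _ (Set.mem_insert _ _)⟩
            rw [← hZ]
            exact fun f hf => h hx f (Set.mem_insert_of_mem _ hf)
          · rintro ⟨h1, h2⟩ x hx f hf
            rcases hf with rfl | hf
            · exact h2 x hx
            · have := h1 hx
              rw [← hZ] at this
              exact this f hf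
        refine ⟨hWv, (hins W).mpr ⟨hWW', fun x hx => hWG hx _ (Or.inr ⟨Fin.last j, rfl⟩)⟩, ?_⟩
        intro V'' hV'' hWV'' hV''G
        obtain ⟨h1, h2⟩ := (hins V'').mp hV''G
        exact hmax V'' hV'' hWV'' (hbig V'' h1 h2)
      have := ph_pit W' ⟨p', hp', hW'p⟩ _ hZ (g (Fin.last j)) hlast W hcomp
      omega

omit [Fintype ι] in
/-- a polynomial separating a point from finitely many others -/
theorem ph_sep_point (S : Finset (ι → ℂ)) (w : ι → ℂ) :
    ∃ f : MvPolynomial ι ℂ, eval w f ≠ 0 ∧ ∀ y ∈ S, y ≠ w → eval y f = 0 := by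
  classical
  have hex : ∀ y : {y // y ∈ S.erase w}, ∃ i, w i ≠ y.1 i := by
    intro y
    obtain ⟨i, hi⟩ := Function.ne_iff.mp (Finset.mem_erase.mp y.2).1
    exact ⟨i, Ne.symm hi⟩
  choose idx hidx using hex
  refine ⟨∏ y ∈ (S.erase w).attach, (X (idx y) - C (y.1 (idx y))), ?_, ?_⟩
  · rw [map_prod, Finset.prod_ne_zero_iff]
    intro y _
    simpa [sub_eq_zero] using hidx y
  · intro y hy hyx
    rw [map_prod]
    apply Finset.prod_eq_zero (Finset.mem_attach _ ⟨y, Finset.mem_erase.mpr ⟨hyx, hy⟩⟩)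
    simp

omit [Fintype ι] in
/-- the fibres of a Noether projection are finite -/
theorem ph_fibre_finite {k : ℕ} (p : Ideal (MvPolynomial ι ℂ)) (t : Fin k → MvPolynomial ι ℂ)
    (ht : FiltFin p t) (c : Fin k → ℂ) : {x ∈ zeroLocus ℂ p | ∀ i, eval x (t i) = c i}.Finite := by
  classical
  obtain ⟨m, b, hb⟩ := ht
  by_contra hinf
  obtain ⟨S, hS, hcard⟩ := Set.Infinite.exists_subset_card_eq hinf (m + 1)
  let E : (Fin m → ℂ) →ₗ[ℂ] (S → ℂ) :=
    { toFun := fun α x => ∑ j, α j * eval x.1 (b j)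
      map_add' := by
        intro α β
        funext x
        simp only [Pi.add_apply, add_mul, Finset.sum_add_distrib]
      map_smul' := by
        intro r α
        funext x
        simp only [Pi.smul_apply, smul_eq_mul, RingHom.id_apply, Finset.mul_sum, mul_assoc] }
  have hval : ∀ f : MvPolynomial ι ℂ, ∃ α : Fin m → ℂ, ∀ x : S, eval x.1 f = ∑ j, α j * eval x.1 (b j) := by
    intro f
    obtain ⟨a, _, ha⟩ := hb f
    refine ⟨fun j => eval c (a j), fun x => ?_⟩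
    obtain ⟨hx1, hx2⟩ := hS x.2
    have h1 := (ph_mem_zeroLocus p x.1).mp hx1 _ ha
    rw [map_sub, sub_eq_zero, map_sum] at h1
    rw [h1]
    refine Finset.sum_congr rfl fun j _ => ?_
    rw [map_mul]
    congr 1
    have : pmap t x.1 = c := funext hx2
    rw [← ph_eval_pmap, this]
  have hsurj : Function.Surjective E := by
    intro u
    have h1 : ∀ x₀ : S, ∃ α : Fin m → ℂ, E α = Pi.single x₀ 1 := by
      intro x₀
      obtain ⟨f, hf0, hf⟩ := ph_sep_point S x₀.1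
      obtain ⟨α, hα⟩ := hval f
      refine ⟨(eval x₀.1 f)⁻¹ • α, ?_⟩
      rw [map_smul]
      funext x
      show (eval x₀.1 f)⁻¹ * ∑ j, α j * eval x.1 (b j) = _
      rw [← hα x]
      by_cases hx : x = x₀
      · subst hx
        rw [Pi.single_eq_same, inv_mul_cancel₀ hf0]
      · rw [Pi.single_eq_of_ne hx, hf x.1 x.2 (fun h => hx (Subtype.ext h)), mul_zero]
    choose α hα using h1
    refine ⟨∑ x₀, u x₀ • α x₀, ?_⟩
    rw [map_sum]
    simp only [map_smul, hα]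
    funext x
    simp [Finset.sum_apply, Pi.single_apply]
  have h2 := LinearMap.finrank_le_finrank_of_surjective hsurj  
  simp only [finrank_fintype_fun_eq_card, Fintype.card_fin, Fintype.card_coe, hcard] at h2
  omega

/-- a polynomial map with finite image on an irreducible set is constant -/
theorem ph_const_of_finite_image {Φ : Set (ι → ℂ)} (hΦ : IsVar Φ) (ψ : κ → MvPolynomial ι ℂ)
    (S : Set (κ → ℂ)) (hS : S.Finite) (hmap : ∀ x ∈ Φ, pmap ψ x ∈ S) {x₀ : ι → ℂ} (hx₀ : x₀ ∈ Φ) :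
    ∀ x ∈ Φ, pmap ψ x = pmap ψ x₀ := by
  classical
  obtain ⟨f, hf0, hf⟩ := ph_sep_point hS.toFinset (pmap ψ x₀)
  have key : ∀ j, ∀ x ∈ Φ, eval x (ψ j - C (pmap ψ x₀ j)) = 0 := by
    intro j
    have h1 : ∀ x ∈ Φ, eval x (aeval ψ f * (ψ j - C (pmap ψ x₀ j))) = 0 := by
      intro x hx
      rw [map_mul, ← ph_eval_pmap]
      by_cases h : pmap ψ x = pmap ψ x₀
      · have : eval x (ψ j - C (pmap ψ x₀ j)) = 0 := by
          rw [map_sub, eval_C, ← h]
          exact sub_self _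
        rw [this, mul_zero]
      · rw [hf _ (hS.mem_toFinset.mpr (hmap x hx)) h, zero_mul]
    rcases ph_isVar_mul hΦ _ _ h1 with h2 | h2
    · exfalso
      apply hf0
      rw [ph_eval_pmap]
      exact h2 x₀ hx₀
    · exact h2
  intro x hx
  funext j
  have := key j x hx
  rw [map_sub, eval_C, sub_eq_zero] at this
  exact this

/-- **[FIB]**, lower bound, every fibre -/
theorem ph_fib_ge {V : Set (ι → ℂ)} (hV : IsVar V) (G₀ : Set (MvPolynomial ι ℂ)) (hG₀ : Zl G₀ = V)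
    (ψ : κ → MvPolynomial ι ℂ) (w : κ → ℂ) (Φ : Set (ι → ℂ))
    (hΦ : IsCompOf Φ (G₀ ∪ Set.range fun j => ψ j - C (w j))) :
    vdim V ≤ vdim Φ + vdim (zcl (pmap ψ '' V)) := by
  obtain ⟨hΦv, hΦG, hmax⟩ := (ph_isCompOf_iff _ _).mp hΦ
  obtain ⟨p, hp, rfl⟩ := hV
  rw [ph_zcl_image p hp]
  set q := p.comap (aeval ψ : MvPolynomial κ ℂ →ₐ[ℂ] MvPolynomial ι ℂ) with hq
  have hqp : q.IsPrime := Ideal.comap_isPrime _ _
  obtain ⟨k', s, _, hs⟩ := ph_exists_npos q hqp.ne_top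
  rw [ph_vdim_of_npos q hqp s hs]
  -- the bigger system
  set g : Fin k' → MvPolynomial ι ℂ := fun i => aeval ψ (s i) - C (eval w (s i)) with hg
  have hψw : ∀ x ∈ Φ, pmap ψ x = w := by
    intro x hx
    funext j
    have := hΦG hx _ (Or.inr ⟨j, rfl⟩)
    rw [map_sub, eval_C, sub_eq_zero] at this
    exact this
  have hΦV : Φ ⊆ zeroLocus ℂ p := by
    intro x hx
    rw [← hG₀]
    exact fun f hf => hΦG hx f (Or.inl hf)
  have hΦg : Φ ⊆ Zl (G₀ ∪ Set.range g) := by
    rintro x hx f (hf | ⟨i, rfl⟩)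
    · exact hΦG hx f (Or.inl hf)
    · rw [hg]
      simp only [map_sub, eval_C]
      rw [← ph_eval_pmap, hψw x hx, sub_self]
  obtain ⟨Φ', hΦ'c, hΦΦ'⟩ := ph_isVar_subset_comp hΦv hΦg
  have hdim := ph_krull_rel ⟨p, hp, rfl⟩ G₀ hG₀ g Φ' hΦ'c
  have hΦ'v := ph_isCompOf_isVar hΦ'c
  have hΦ'G := ph_isCompOf_subset hΦ'c
  have hΦ'V : Φ' ⊆ zeroLocus ℂ p := by
    intro x hx
    rw [← hG₀]
    exact fun f hf => hΦ'G hx f (Or.inl hf)
  obtain ⟨x₀, hx₀⟩ := ph_isVar_nonempty Φ hΦv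
  have hfin := ph_fibre_finite q s hs.fin (fun i => eval w (s i))
  have hconst := ph_const_of_finite_image hΦ'v ψ _ hfin (by
    intro x hx
    refine ⟨?_, fun i => ?_⟩
    · rw [ph_mem_zeroLocus]
      intro f hf
      rw [ph_eval_pmap]
      exact (ph_mem_zeroLocus p x).mp (hΦ'V hx) _ hf
    · have := hΦ'G hx _ (Or.inr ⟨i, rfl⟩)
      rw [hg] at this
      simp only [map_sub, eval_C, sub_eq_zero] at this
      rw [ph_eval_pmap]
      exact this) (hΦΦ' hx₀)
  rw [hψw x₀ hx₀] at hconst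
  have hΦ'fib : Φ' ⊆ Zl (G₀ ∪ Set.range fun j => ψ j - C (w j)) := by
    rintro x hx f (hf | ⟨j, rfl⟩)
    · exact hΦ'G hx f (Or.inl hf)
    · simp only [map_sub, eval_C]
      rw [← hconst x hx]
      exact sub_self _
  rw [hmax Φ' hΦ'v hΦΦ' hΦ'fib] at hdim
  exact hdim

/-- the differential of a polynomial map at a point, as a linear map -/
noncomputable def phDMap (ψ : κ → MvPolynomial ι ℂ) (x : ι → ℂ) : (ι → ℂ) →ₗ[ℂ] (κ → ℂ) where
  toFun v j := dAt (ψ j) x v
  map_add' a b := by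
    funext j
    simp only [dAt, Pi.add_apply, mul_add, Finset.sum_add_distrib]
  map_smul' c a := by
    funext j
    simp only [dAt, Pi.smul_apply, smul_eq_mul, RingHom.id_apply, Finset.mul_sum]
    exact Finset.sum_congr rfl fun i _ => by ring

/-- **[FIB]**, equality on a dense open subset of `V` -/
theorem ph_fib_eq {V : Set (ι → ℂ)} (hV : IsVar V) (G₀ : Set (MvPolynomial ι ℂ)) (hG₀ : Zl G₀ = V)
    (ψ : κ → MvPolynomial ι ℂ) :
    ∃ h : MvPolynomial ι ℂ, (∃ x ∈ V, eval x h ≠ 0) ∧ ∀ x ∈ V, eval x h ≠ 0 → ∀ Φ : Set (ι → ℂ),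
      IsCompOf Φ (G₀ ∪ Set.range fun j => ψ j - C (pmap ψ x j)) → x ∈ Φ →
        vdim Φ + vdim (zcl (pmap ψ '' V)) = vdim V := by
  obtain ⟨p, hp, rfl⟩ := hV
  obtain ⟨h, hhp, hh⟩ := ph_G1_closed p hp ψ
  refine ⟨h, ph_exists_ne_of_notMem p hp h hhp, fun x hx hxh Φ hΦ hxΦ => ?_⟩
  apply le_antisymm _ (ph_fib_ge ⟨p, hp, rfl⟩ G₀ hG₀ ψ _ Φ hΦ)
  obtain ⟨h1, h2, h3⟩ := hh x hx hxh
  rw [ph_zcl_image p hp, ← h2, ← h1]
  have hΦG := ph_isCompOf_subset hΦ
  obtain ⟨r, hr, rfl⟩ := ph_isCompOf_isVar hΦ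
  refine le_trans (Nat.add_le_add_right (ph_tan_ge r hr x hxΦ) _) ?_
  -- `p ≤ r` and `ψ_j - c_j ∈ r`
  have hmem : ∀ f : MvPolynomial ι ℂ, (∀ y ∈ zeroLocus ℂ r, eval y f = 0) → f ∈ r := by
    intro f hf
    rw [← ph_vanishing_prime r hr, ph_mem_vanishingIdeal]
    exact hf
  have hpr : p ≤ r := by
    intro f hf
    apply hmem
    intro y hy
    have hy' : y ∈ zeroLocus ℂ p := by
      rw [← hG₀]
      exact fun g hg => hΦG hy g (Or.inl hg)
    exact (ph_mem_zeroLocus p y).mp hy' f hf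
  have hψr : ∀ j, ψ j - C (pmap ψ x j) ∈ r := fun j => hmem _ fun y hy => hΦG hy _ (Or.inr ⟨j, rfl⟩)
  set T := tanSp p x with hT
  set L := (phDMap ψ x).domRestrict T with hL
  have hrn := LinearMap.finrank_range_add_finrank_ker L
  -- the range contains the tangent space of the image
  have hrange : tanSp (p.comap (aeval ψ : MvPolynomial κ ℂ →ₐ[ℂ] MvPolynomial ι ℂ))
      (fun j => eval x (ψ j)) ≤ LinearMap.range L := by
    intro w hw
    obtain ⟨v, hv, hvw⟩ := h3 w hw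
    exact ⟨⟨v, hv⟩, funext hvw⟩
  have h4 := Submodule.finrank_mono hrange
  -- the tangent space of the fibre lies in the kernel
  have hker : tanSp r x ≤ (LinearMap.ker L).map T.subtype := by
    intro v hv
    have hvT : v ∈ T := fun f hf => hv f (hpr hf)
    refine ⟨⟨v, hvT⟩, ?_, rfl⟩
    rw [SetLike.mem_coe, LinearMap.mem_ker]
    funext j
    have := hv _ (hψr j)
    rw [sub_eq_add_neg, ph_dAt_add, ← C_neg, ph_dAt_C, add_zero] at this
    exact this
  have h5 := Submodule.finrank_mono hker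
  rw [LinearEquiv.finrank_eq (Submodule.equivMapOfInjective T.subtype T.injective_subtype
    (LinearMap.ker L)).symm] at h5
  omega

/-! ### PH-map-f: **[BEZ-ISO]** -/

omit [Fintype ι] in
theorem ph_Zl_union (G G' : Set (MvPolynomial ι ℂ)) : Zl (G ∪ G') = Zl G ∩ Zl G' := by
  ext x
  simp only [Zl, Set.mem_ofPred_eq, Set.mem_union, Set.mem_inter_iff]
  constructor
  · exact fun h => ⟨fun g hg => h g (Or.inl hg), fun g hg => h g (Or.inr hg)⟩
  · rintro ⟨h1, h2⟩ g (hg | hg)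
    · exact h1 g hg
    · exact h2 g hg

/-- one step of the recursion: cut `C ⊄ Z(G)` by one `g ∈ G` and distribute the components of `C ∩ Z(G)` -/
theorem ph_bezout_weighted_step (G : Set (MvPolynomial ι ℂ)) (L : ℕ)
    (hG : ∀ g ∈ G, g.totalDegree ≤ L) (C : Set (ι → ℂ)) (hC : IsVar C) (hCG : ¬ C ⊆ Zl G)
    (𝒲 : Finset (Set (ι → ℂ))) (h𝒲 : ∀ W ∈ 𝒲, IsVar W ∧ W ⊆ C ∩ Zl G ∧
      ∀ V', IsVar V' → W ⊆ V' → V' ⊆ C ∩ Zl G → V' = W) (B : ℕ)
    (IH : ∀ C' : Set (ι → ℂ), IsVar C' → vdim C' + 1 = vdim C → ∀ 𝒲' : Finset (Set (ι → ℂ)),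
      (∀ W ∈ 𝒲', IsVar W ∧ W ⊆ C' ∩ Zl G ∧ ∀ V', IsVar V' → W ⊆ V' → V' ⊆ C' ∩ Zl G → V' = W) →
      ∑ W ∈ 𝒲', vdeg W * L ^ vdim W ≤ vdeg C' * B) :
    ∑ W ∈ 𝒲, vdeg W * L ^ vdim W ≤ L * vdeg C * B ∧ (𝒲.Nonempty → 1 ≤ vdim C) := by
  classical
  obtain ⟨x, hxC, g, hgG, hxg⟩ : ∃ x ∈ C, ∃ g ∈ G, eval x g ≠ 0 := by
    by_contra hcon
    push Not at hcon
    exact hCG fun x hx g hg => hcon x hx g hg
  obtain ⟨p, hp, hCp⟩ := hC
  have hZ : Zl (p : Set (MvPolynomial ι ℂ)) = C := by rw [ph_Zl_coe_ideal, hCp]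
  have hC : IsVar C := ⟨p, hp, hCp⟩
  have hfin := ph_comps_finite (insert g (p : Set (MvPolynomial ι ℂ)))
  set 𝒞 := hfin.toFinset with h𝒞
  have hmem : ∀ C', C' ∈ 𝒞 ↔ IsCompOf C' (insert g (p : Set (MvPolynomial ι ℂ))) := fun C' => by
    rw [h𝒞, Set.Finite.mem_toFinset]; rfl
  have hcut := ph_bezout_cut C hC _ hZ g ⟨x, hxC, hxg⟩ 𝒞 fun W hW => (hmem W).mp hW
  have hpit : ∀ C' ∈ 𝒞, vdim C' + 1 = vdim C := fun C' hC' =>
    ph_pit C hC _ hZ g ⟨x, hxC, hxg⟩ C' ((hmem C').mp hC')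
  have hsubC : ∀ C' ∈ 𝒞, C' ⊆ C := by
    intro C' hC' y hy
    rw [← hZ]
    exact fun f hf => ph_isCompOf_subset ((hmem C').mp hC') hy f (Set.mem_insert_of_mem _ hf)
  -- every `W` lies in a member
  have hch : ∀ W : Set (ι → ℂ), ∃ C', W ∈ 𝒲 → C' ∈ 𝒞 ∧ W ⊆ C' := by
    intro W
    by_cases hW : W ∈ 𝒲
    · obtain ⟨hWv, hWs, _⟩ := h𝒲 W hW
      have : W ⊆ Zl (insert g (p : Set (MvPolynomial ι ℂ))) := by
        rintro y hy f (rfl | hf)
        · exact (hWs hy).2 _ hgG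
        · have := (hWs hy).1
          rw [← hZ] at this
          exact this f hf
      obtain ⟨C', hC', hWC'⟩ := ph_isVar_subset_comp hWv this
      exact ⟨C', fun _ => ⟨(hmem C').mpr hC', hWC'⟩⟩
    · exact ⟨∅, fun h => absurd h hW⟩
  choose c hc using hch
  refine ⟨?_, ?_⟩
  · rw [← Finset.sum_fiberwise_of_maps_to (s := 𝒲) (t := 𝒞) (g := c) fun W hW => (hc W hW).1]
    calc ∑ C' ∈ 𝒞, ∑ W ∈ 𝒲 with c W = C', vdeg W * L ^ vdim W
        ≤ ∑ C' ∈ 𝒞, vdeg C' * B := by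
          refine Finset.sum_le_sum fun C' hC' => ?_
          refine IH C' (ph_isCompOf_isVar ((hmem C').mp hC')) (hpit C' hC') _ ?_
          intro W hW
          obtain ⟨hW1, hW2⟩ := Finset.mem_filter.mp hW
          obtain ⟨hWv, hWs, hmax⟩ := h𝒲 W hW1
          refine ⟨hWv, fun y hy => ⟨hW2 ▸ (hc W hW1).2 hy, (hWs hy).2⟩, fun V' hV' hWV' hV's => ?_⟩
          exact hmax V' hV' hWV' fun y hy => ⟨hsubC C' hC' (hV's hy).1, (hV's hy).2⟩
      _ = (∑ C' ∈ 𝒞, vdeg C') * B := by rw [Finset.sum_mul]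
      _ ≤ L * vdeg C * B := by
          apply Nat.mul_le_mul_right
          exact hcut.trans (Nat.mul_le_mul_right _ (hG g hgG))
  · rintro ⟨W, hW⟩
    have := hpit _ (hc W hW).1
    omega

/-- the recursion behind the weighted Bezout inequality: one irreducible `C` at a time -/
theorem ph_bezout_weighted_aux (G : Set (MvPolynomial ι ℂ)) (L : ℕ)
    (hG : ∀ g ∈ G, g.totalDegree ≤ L) : ∀ (d : ℕ) (C : Set (ι → ℂ)), IsVar C → vdim C = d →
    ∀ 𝒲 : Finset (Set (ι → ℂ)), (∀ W ∈ 𝒲, IsVar W ∧ W ⊆ C ∩ Zl G ∧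
      ∀ V', IsVar V' → W ⊆ V' → V' ⊆ C ∩ Zl G → V' = W) →
    ∑ W ∈ 𝒲, vdeg W * L ^ vdim W ≤ vdeg C * L ^ d := by
  classical
  have hcase : ∀ (C : Set (ι → ℂ)), IsVar C → C ⊆ Zl G →
      ∀ 𝒲 : Finset (Set (ι → ℂ)), (∀ W ∈ 𝒲, IsVar W ∧ W ⊆ C ∩ Zl G ∧
        ∀ V', IsVar V' → W ⊆ V' → V' ⊆ C ∩ Zl G → V' = W) →
      ∑ W ∈ 𝒲, vdeg W * L ^ vdim W ≤ vdeg C * L ^ vdim C := by
    intro C hC hCG 𝒲 h𝒲
    have hsub : 𝒲 ⊆ {C} := by
      intro W hW
      rw [Finset.mem_singleton]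
      exact ((h𝒲 W hW).2.2 C hC (fun y hy => ((h𝒲 W hW).2.1 hy).1)
        (Set.subset_inter le_rfl hCG)).symm
    refine (Finset.sum_le_sum_of_subset hsub).trans ?_
    rw [Finset.sum_singleton]
  intro d
  induction d with
  | zero =>
    intro C hC hd 𝒲 h𝒲
    by_cases hCG : C ⊆ Zl G
    · rw [← hd]; exact hcase C hC hCG 𝒲 h𝒲
    · obtain ⟨_, h2⟩ := ph_bezout_weighted_step G L hG C hC hCG 𝒲 h𝒲 0 (by
        intro C' _ h; omega)
      rcases 𝒲.eq_empty_or_nonempty with rfl | hne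
      · simp
      · have := h2 hne; omega
  | succ d ih =>
    intro C hC hd 𝒲 h𝒲
    by_cases hCG : C ⊆ Zl G
    · rw [← hd]; exact hcase C hC hCG 𝒲 h𝒲
    · obtain ⟨h1, _⟩ := ph_bezout_weighted_step G L hG C hC hCG 𝒲 h𝒲 (L ^ d) (by
        intro C' hC' h 𝒲' h𝒲'
        exact ih C' hC' (by omega) 𝒲' h𝒲')
      calc _ ≤ L * vdeg C * L ^ d := h1
        _ = vdeg C * L ^ (d + 1) := by ring

/-- **weighted Bezout inequality** -/
theorem ph_bezout_weighted {V : Set (ι → ℂ)} (hV : IsVar V) (G₀ : Set (MvPolynomial ι ℂ))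
    (hG₀ : Zl G₀ = V) (G : Set (MvPolynomial ι ℂ)) (L : ℕ) (hL : 1 ≤ L)
    (hG : ∀ g ∈ G, g.totalDegree ≤ L) (𝒲 : Finset (Set (ι → ℂ)))
    (h𝒲 : ∀ W ∈ 𝒲, IsCompOf W (G₀ ∪ G)) :
    ∑ W ∈ 𝒲, vdeg W * L ^ vdim W ≤ vdeg V * L ^ vdim V := by
  refine ph_bezout_weighted_aux G L hG _ V hV rfl 𝒲 fun W hW => ?_
  have := (ph_isCompOf_iff _ _).mp (h𝒲 W hW)
  rwa [ph_Zl_union, hG₀] at this

/-- isolated points of `V ∩ Z(G)` -/
theorem ph_bezout_iso {V : Set (ι → ℂ)} (hV : IsVar V) (G₀ : Set (MvPolynomial ι ℂ))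
    (hG₀ : Zl G₀ = V) (G : Set (MvPolynomial ι ℂ)) (L : ℕ) (hL : 1 ≤ L)
    (hG : ∀ g ∈ G, g.totalDegree ≤ L) (S : Finset (ι → ℂ)) (hS : ∀ z ∈ S, IsoZero (G₀ ∪ G) z) :
    S.card ≤ vdeg V * L ^ vdim V := by
  classical
  have h1 := ph_bezout_weighted hV G₀ hG₀ G L hL hG (S.image fun z => ({z} : Set (ι → ℂ))) (by
    intro W hW
    obtain ⟨z, hz, rfl⟩ := Finset.mem_image.mp hW
    exact (ph_isoZero_iff_comp _ z).mp (hS z hz))
  rw [Finset.sum_image (fun a _ b _ h => Set.singleton_injective h)] at h1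
  refine le_trans (le_of_eq ?_) h1
  rw [Finset.card_eq_sum_ones]
  refine Finset.sum_congr rfl fun z _ => ?_
  rw [(ph_point z).2.1, (ph_point z).2.2]
  simp

/-- a zero-dimensional section by polynomials of degree `≤ 1` has at most `vdeg V` points -/
theorem ph_fibre_card_le {k : ℕ} (p : Ideal (MvPolynomial ι ℂ)) (hp : p.IsPrime)
    (t : Fin k → MvPolynomial ι ℂ) (ht : NPos p t) (c : Fin k → ℂ) :
    {x ∈ zeroLocus ℂ p | ∀ i, eval x (t i) = c i}.ncard ≤ vdeg (zeroLocus ℂ p) := by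
  classical
  have hfin := ph_fibre_finite p t ht.fin c
  set F := {x ∈ zeroLocus ℂ p | ∀ i, eval x (t i) = c i} with hF
  set G : Set (MvPolynomial ι ℂ) := Set.range fun i => t i - C (c i) with hG
  have hZ : Zl ((p : Set (MvPolynomial ι ℂ)) ∪ G) = F := by
    rw [ph_Zl_union, ph_Zl_coe_ideal]
    ext x
    simp only [hF, Set.mem_inter_iff, Set.mem_ofPred_eq, and_congr_right_iff]
    intro _
    constructor
    · intro h i
      have := h _ ⟨i, rfl⟩
      rwa [map_sub, eval_C, sub_eq_zero] at this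
    · rintro h _ ⟨i, rfl⟩
      rw [map_sub, eval_C, h i, sub_self]
  have h1 := ph_bezout_iso ⟨p, hp, rfl⟩ (p : Set (MvPolynomial ι ℂ)) (ph_Zl_coe_ideal p) G 1 le_rfl (by
    rintro _ ⟨i, rfl⟩
    refine (totalDegree_sub _ _).trans ?_
    rw [totalDegree_C]
    exact max_le (ht.lin i) (Nat.zero_le _)) hfin.toFinset (by
    intro z hz
    rw [Set.Finite.mem_toFinset] at hz
    rw [ph_isoZero_iff_comp, ph_isCompOf_iff, hZ]
    refine ⟨(ph_point z).1, Set.singleton_subset_iff.mpr hz, fun V' hV' hzV' hV'F => ?_⟩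
    have hz' : z ∈ V' := hzV' rfl
    have := ph_const_of_finite_image hV' (fun i => (X i : MvPolynomial ι ℂ)) F hfin (by
      intro x hx
      have : pmap (fun i => (X i : MvPolynomial ι ℂ)) x = x := by funext i; simp [pmap]
      rw [this]
      exact hV'F hx) hz'
    apply Set.Subset.antisymm _ hzV'
    intro x hx
    have h2 := this x hx
    have e : ∀ y : ι → ℂ, pmap (fun i => (X i : MvPolynomial ι ℂ)) y = y := fun y => by
      funext i; simp [pmap]
    rw [e, e] at h2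
    exact h2)
  rw [one_pow, mul_one] at h1
  rwa [Set.ncard_eq_toFinset_card _ hfin]

/-! ### PH-map-g: **[IMG-DEG]**, **[PROJ]** -/

/-- irreducibility, finite products -/
theorem ph_isVar_prod {V : Set (ι → ℂ)} (hV : IsVar V) {α : Type*} (s : Finset α) (f : α → MvPolynomial ι ℂ)
    (h : ∀ x ∈ V, eval x (∏ a ∈ s, f a) = 0) : ∃ a ∈ s, ∀ x ∈ V, eval x (f a) = 0 := by
  obtain ⟨p, hp, rfl⟩ := hV
  have h1 : ∏ a ∈ s, f a ∈ p := by
    rw [← ph_vanishing_prime p hp, ph_mem_vanishingIdeal]; exact h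
  obtain ⟨a, ha, hfa⟩ := (hp.prod_mem_iff).1 h1
  exact ⟨a, ha, fun x hx => (ph_mem_zeroLocus p x).mp hx _ hfa⟩

omit [Fintype ι] in
/-- a finite set has dimension `0` -/
theorem ph_vdim_of_finite {T : Set (ι → ℂ)} (hT : T.Finite) : vdim T = 0 :=
  Nat.le_zero.1 (ph_vdim_le_of_bound T 0 T.ncard fun D => by simpa using rk_hA_le_ncard T D hT)

/-- a polynomial which does not vanish identically on the closure does not vanish identically on the set -/
theorem ph_exists_ne_of_zcl {T : Set (ι → ℂ)} {f : MvPolynomial ι ℂ} (h : ∃ x ∈ zcl T, eval x f ≠ 0) :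
    ∃ x ∈ T, eval x f ≠ 0 := by
  obtain ⟨x, hx, hne⟩ := h
  by_contra hcon
  push Not at hcon
  exact hne ((ph_mem_zcl T x).mp hx f hcon)

omit [Fintype κ] in
/-- the univariate polynomial `T ↦ g(w, T)` -/
theorem ph_exists_uni (g : MvPolynomial (κ ⊕ Unit) ℂ) (w : κ → ℂ) :
    ∃ P : Polynomial ℂ, ∀ T : ℂ, P.eval T = eval (Sum.elim w fun _ => T) g := by
  induction g using MvPolynomial.induction_on with
  | C a => exact ⟨Polynomial.C a, fun T => by simp⟩
  | add p q hp hq =>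
    obtain ⟨P, hP⟩ := hp
    obtain ⟨Q, hQ⟩ := hq
    exact ⟨P + Q, fun T => by simp [hP, hQ]⟩
  | mul_X p s hp =>
    obtain ⟨P, hP⟩ := hp
    cases s with
    | inl j => exact ⟨P * Polynomial.C (w j), fun T => by simp [hP]⟩
    | inr u => exact ⟨P * Polynomial.X, fun T => by simp [hP]⟩

theorem ph_choose_mul_le (e D k : ℕ) (he : 1 ≤ e) : (e * D + k).choose k ≤ e ^ k * (D + k).choose k := by
  induction k with
  | zero => simp
  | succ k ih =>
    have h1 : (e * D + k + 1) * (e * D + k).choose k = (e * D + (k + 1)).choose (k + 1) * (k + 1) :=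
      Nat.add_one_mul_choose_eq (e * D + k) k
    have h2 : (D + k + 1) * (D + k).choose k = (D + (k + 1)).choose (k + 1) * (k + 1) :=
      Nat.add_one_mul_choose_eq (D + k) k
    have h3 : e * D + k + 1 ≤ e * (D + k + 1) := by nlinarith
    apply Nat.le_of_mul_le_mul_left _ (Nat.succ_pos k)
    calc (k + 1) * (e * D + (k + 1)).choose (k + 1) = (e * D + k + 1) * (e * D + k).choose k := by rw [h1]; ring
      _ ≤ (e * (D + k + 1)) * (e ^ k * (D + k).choose k) := Nat.mul_le_mul h3 ih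
      _ = e ^ (k + 1) * ((D + k + 1) * (D + k).choose k) := by ring
      _ = (k + 1) * (e ^ (k + 1) * (D + (k + 1)).choose (k + 1)) := by rw [h2]; ring

/-- the map `(ψ, x_i)` -/
noncomputable def phAug (ψ : κ → MvPolynomial ι ℂ) (i : ι) : κ ⊕ Unit → MvPolynomial ι ℂ :=
  Sum.elim ψ fun _ => MvPolynomial.X i

omit [Fintype ι] [Fintype κ] in
theorem ph_pmap_aug (ψ : κ → MvPolynomial ι ℂ) (i : ι) (x : ι → ℂ) :
    pmap (phAug ψ i) x = Sum.elim (pmap ψ x) fun _ => x i := by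
  funext s
  cases s <;> simp [pmap, phAug]

theorem ph_aug_subset {V : Set (ι → ℂ)} (hV : IsVar V) (ψ : κ → MvPolynomial ι ℂ) (i : ι) :
    zcl (pmap (phAug ψ i) '' V) ⊆ prodSet (zcl (pmap ψ '' V)) (Set.univ : Set (Unit → ℂ)) := by
  have hP := ph_prod_isVar (ph_isVar_zcl_image hV ψ) (ph_univ (ι := Unit)).1
  rw [← ph_zcl_of_isVar hP]
  apply ph_zcl_mono
  rintro _ ⟨x, hx, rfl⟩
  rw [ph_pmap_aug]
  exact ⟨ph_subset_zcl _ ⟨x, hx, rfl⟩, Set.mem_univ _⟩

/-- if every coordinate is algebraic over the image, the dimension does not drop -/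
theorem ph_dom_alg {V : Set (ι → ℂ)} (hV : IsVar V) (ψ : κ → MvPolynomial ι ℂ)
    (h : ∀ i, zcl (pmap (phAug ψ i) '' V) ≠ prodSet (zcl (pmap ψ '' V)) (Set.univ : Set (Unit → ℂ))) :
    vdim V ≤ vdim (zcl (pmap ψ '' V)) := by
  classical
  -- the algebraic relations
  have h1 : ∀ i, ∃ (g : MvPolynomial (κ ⊕ Unit) ℂ) (c : ℂ), (∀ x ∈ V, eval (Sum.elim (pmap ψ x) fun _ => x i) g = 0) ∧
      ∃ x ∈ V, eval (Sum.elim (pmap ψ x) fun _ => c) g ≠ 0 := by
    intro i
    have hss : ¬ prodSet (zcl (pmap ψ '' V)) (Set.univ : Set (Unit → ℂ)) ⊆ zcl (pmap (phAug ψ i) '' V) :=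
      fun hcon => h i (Set.Subset.antisymm (ph_aug_subset hV ψ i) hcon)
    obtain ⟨z, hz, hzn⟩ := Set.not_subset.1 hss
    rw [ph_mem_zcl] at hzn
    push Not at hzn
    obtain ⟨g, hg, hgz⟩ := hzn
    obtain ⟨w, hw, y, -, rfl⟩ := ph_prodSet_elim hz
    refine ⟨g, y (), fun x hx => ?_, ?_⟩
    · rw [← ph_pmap_aug]
      exact hg _ ⟨x, hx, rfl⟩
    · have h2 : ∃ w' ∈ zcl (pmap ψ '' V), eval w' (phFrR (fun _ : Unit => y ()) g) ≠ 0 := by
        refine ⟨w, hw, ?_⟩
        rw [ph_eval_frR]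
        convert hgz using 3
      obtain ⟨_, ⟨x, hx, rfl⟩, hne⟩ := ph_exists_ne_of_zcl h2
      rw [ph_eval_frR] at hne
      exact ⟨x, hx, hne⟩
  choose g c hg hc using h1
  -- a point at which all relations are nontrivial
  obtain ⟨x₀, hx₀, hne⟩ : ∃ x₀ ∈ V, ∀ i, eval (Sum.elim (pmap ψ x₀) fun _ => c i) (g i) ≠ 0 := by
    by_contra hcon
    push Not at hcon
    obtain ⟨i, -, hi⟩ := ph_isVar_prod hV Finset.univ
      (fun i => aeval ψ (phFrR (fun _ : Unit => c i) (g i))) (fun x hx => by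
        obtain ⟨i, hi⟩ := hcon x hx
        rw [map_prod]
        refine Finset.prod_eq_zero (Finset.mem_univ i) ?_
        rw [← ph_eval_pmap, ph_eval_frR]
        exact hi)
    obtain ⟨x, hx, hne⟩ := hc i
    apply hne
    have := hi x hx
    rwa [← ph_eval_pmap, ph_eval_frR] at this
  -- the fibre through `x₀` is finite
  have hfin : {x ∈ V | pmap ψ x = pmap ψ x₀}.Finite := by
    have hroots : ∀ i, {T : ℂ | eval (Sum.elim (pmap ψ x₀) fun _ => T) (g i) = 0}.Finite := by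
      intro i
      obtain ⟨P, hP⟩ := ph_exists_uni (g i) (pmap ψ x₀)
      have hP0 : P ≠ 0 := by
        intro h0
        apply hne i
        rw [← hP, h0, Polynomial.eval_zero]
      refine (Polynomial.finite_setOfPred_isRoot hP0).subset ?_
      intro T hT
      show P.eval T = 0
      rw [hP]
      exact hT
    refine (Set.Finite.pi' hroots).subset ?_
    rintro x ⟨hx, hxe⟩ i
    show eval (Sum.elim (pmap ψ x₀) fun _ => x i) (g i) = 0
    rw [← hxe]
    exact hg i x hx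
  obtain ⟨p, hp, rfl⟩ := hV
  have hG₀ : Zl (p : Set (MvPolynomial ι ℂ)) = zeroLocus ℂ p := by
    rw [ph_Zl_eq_zeroLocus, Ideal.span_eq]
  have hfib : Zl ((p : Set (MvPolynomial ι ℂ)) ∪ Set.range fun j => ψ j - C (pmap ψ x₀ j)) =
      {x ∈ zeroLocus ℂ p | pmap ψ x = pmap ψ x₀} := by
    ext x
    constructor
    · intro hx
      refine ⟨hG₀ ▸ (fun f hf => hx f (Or.inl hf)), funext fun j => ?_⟩
      have := hx _ (Or.inr ⟨j, rfl⟩)
      simpa [sub_eq_zero, pmap] using this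
    · rintro ⟨hx, hxe⟩ f (hf | ⟨j, rfl⟩)
      · exact (ph_mem_zeroLocus p x).mp hx f hf
      · have := congrFun hxe j
        simpa [sub_eq_zero, pmap] using this
  have hx₀' : x₀ ∈ Zl ((p : Set (MvPolynomial ι ℂ)) ∪ Set.range fun j => ψ j - C (pmap ψ x₀ j)) := by
    rw [hfib]; exact ⟨hx₀, rfl⟩
  rw [ph_Zl_eq_iUnion_comps] at hx₀'
  simp only [Set.mem_iUnion, Set.mem_ofPred_eq, exists_prop] at hx₀'
  obtain ⟨Φ, hΦ, -⟩ := hx₀'
  have h3 := ph_fib_ge ⟨p, hp, rfl⟩ (p : Set (MvPolynomial ι ℂ)) hG₀ ψ (pmap ψ x₀) Φ hΦ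
  have h4 : vdim Φ = 0 := ph_vdim_of_finite (hfin.subset (hfib ▸ ph_isCompOf_subset hΦ))
  omega

/-- if finitely many subsets of `V` cover a dense open part of the image, one of them dominates -/
theorem ph_dom_comp {V : Set (ι → ℂ)} (hV : IsVar V) (ψ : κ → MvPolynomial ι ℂ) (𝒲 : Finset (Set (ι → ℂ)))
    (hsubV : ∀ W' ∈ 𝒲, W' ⊆ V) (a : MvPolynomial κ ℂ) (ha : ∃ w ∈ zcl (pmap ψ '' V), eval w a ≠ 0)
    (hcov : ∀ w ∈ zcl (pmap ψ '' V), eval w a ≠ 0 → ∃ W' ∈ 𝒲, w ∈ pmap ψ '' W') :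
    ∃ V' ∈ 𝒲, zcl (pmap ψ '' V') = zcl (pmap ψ '' V) := by
  classical
  have hW := ph_isVar_zcl_image hV ψ
  by_contra hcon
  push Not at hcon
  have h1 : ∀ W' ∈ 𝒲, ∃ f : MvPolynomial κ ℂ, (∀ x ∈ W', eval (pmap ψ x) f = 0) ∧
      ∃ w ∈ zcl (pmap ψ '' V), eval w f ≠ 0 := by
    intro W' hW'
    have hss : ¬ zcl (pmap ψ '' V) ⊆ zcl (pmap ψ '' W') := fun h =>
      hcon W' hW' (Set.Subset.antisymm (ph_zcl_mono (Set.image_mono (hsubV W' hW'))) h)
    obtain ⟨w, hw, hwn⟩ := Set.not_subset.1 hss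
    rw [ph_mem_zcl] at hwn
    push Not at hwn
    obtain ⟨f, hf, hfw⟩ := hwn
    exact ⟨f, fun x hx => hf _ ⟨x, hx, rfl⟩, w, hw, hfw⟩
  choose! f hf hfne using h1
  have h2 : ∀ w ∈ zcl (pmap ψ '' V), eval w (a * ∏ W' ∈ 𝒲, f W') = 0 := by
    intro w hw
    rw [map_mul]
    by_cases ha' : eval w a = 0
    · rw [ha', zero_mul]
    · obtain ⟨W', hW', x, hx, rfl⟩ := hcov w hw ha'
      rw [map_prod, Finset.prod_eq_zero hW' (hf W' hW' x hx), mul_zero]
  rcases ph_isVar_mul hW _ _ h2 with h3 | h3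
  · obtain ⟨w, hw, hne⟩ := ha
    exact hne (h3 w hw)
  · obtain ⟨W', hW', h4⟩ := ph_isVar_prod hW 𝒲 f h3
    obtain ⟨w, hw, hne⟩ := hfne W' hW'
    exact hne (h4 w hw)

theorem ph_dom_cut {V : Set (ι → ℂ)} (hV : IsVar V) (ψ : κ → MvPolynomial ι ℂ)
    (hlt : vdim (zcl (pmap ψ '' V)) < vdim V) :
    ∃ V' : Set (ι → ℂ), IsVar V' ∧ V' ⊆ V ∧ vdim V' + 1 = vdim V ∧ vdeg V' ≤ vdeg V ∧
      zcl (pmap ψ '' V') = zcl (pmap ψ '' V) := by
  classical
  -- a coordinate which is transcendental over the image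
  obtain ⟨i, hi⟩ : ∃ i, zcl (pmap (phAug ψ i) '' V) = prodSet (zcl (pmap ψ '' V)) (Set.univ : Set (Unit → ℂ)) := by
    by_contra hcon
    push Not at hcon
    have := ph_dom_alg hV ψ hcon
    omega
  obtain ⟨h', ⟨z₀, hz₀, hne₀⟩, hdense⟩ := ph_image_dense hV (phAug ψ i)
  rw [hi] at hz₀ hdense
  obtain ⟨w₀, hw₀, y₀, -, rfl⟩ := ph_prodSet_elim hz₀
  obtain ⟨c, hc⟩ : ∃ c, c = y₀ () := ⟨_, rfl⟩
  have hy₀ : y₀ = fun _ => c := by funext u; rw [hc]
  rw [hy₀] at hne₀
  obtain ⟨p, hp, hVp⟩ := hV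
  have hV : IsVar V := ⟨p, hp, hVp⟩
  have hG₀ : Zl (p : Set (MvPolynomial ι ℂ)) = V := by
    rw [ph_Zl_eq_zeroLocus, Ideal.span_eq, hVp]
  -- the section `x_i = c` is proper
  have hg : ∃ x ∈ V, eval x (MvPolynomial.X i - C c : MvPolynomial ι ℂ) ≠ 0 := by
    by_contra hcon
    push Not at hcon
    have h1 : (Sum.elim w₀ fun _ => c + 1 : κ ⊕ Unit → ℂ) ∈ zcl (pmap (phAug ψ i) '' V) := by
      rw [hi]; exact (ph_mem_prodSet _ _ _ _).2 ⟨hw₀, Set.mem_univ _⟩
    rw [ph_mem_zcl] at h1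
    have h2 := h1 (MvPolynomial.X (Sum.inr ()) - C c) (by
      rintro _ ⟨x, hx, rfl⟩
      have := hcon x hx
      rw [ph_pmap_aug]
      simpa using this)
    simp at h2
  have hdeg : (MvPolynomial.X i - C c : MvPolynomial ι ℂ).totalDegree ≤ 1 := by
    refine (totalDegree_sub _ _).trans ?_
    simp
  obtain ⟨𝒲, h𝒲⟩ : ∃ 𝒲 : Finset (Set (ι → ℂ)), ∀ W', W' ∈ 𝒲 ↔
      IsCompOf W' (insert (MvPolynomial.X i - C c) (p : Set (MvPolynomial ι ℂ))) :=
    ⟨(ph_comps_finite (insert (MvPolynomial.X i - C c) (p : Set (MvPolynomial ι ℂ)))).toFinset, fun W' => by simp⟩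
  have hsubV : ∀ W' ∈ 𝒲, W' ⊆ V := fun W' hW' x hx => by
    rw [← hG₀]
    exact fun f hf => ph_isCompOf_subset ((h𝒲 W').1 hW') hx f (Set.mem_insert_of_mem _ hf)
  -- one of the components dominates
  obtain ⟨V', hV', hdom⟩ := ph_dom_comp hV ψ 𝒲 hsubV (phFrR (fun _ : Unit => c) h')
    ⟨w₀, hw₀, by rw [ph_eval_frR]; exact hne₀⟩ (by
      intro w hw ha
      rw [ph_eval_frR] at ha
      obtain ⟨x, hx, hxe⟩ := hdense (Sum.elim w fun _ => c) ((ph_mem_prodSet _ _ _ _).2 ⟨hw, Set.mem_univ _⟩) ha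
      rw [ph_pmap_aug] at hxe
      have e1 : pmap ψ x = w := by
        funext j
        exact congrFun hxe (Sum.inl j)
      have e2 : x i = c := congrFun hxe (Sum.inr ())
      have hxZ : x ∈ Zl (insert (MvPolynomial.X i - C c) (p : Set (MvPolynomial ι ℂ))) := by
        intro u hu
        rcases hu with rfl | hu
        · simp [e2]
        · exact (hG₀ ▸ hx : x ∈ Zl (p : Set (MvPolynomial ι ℂ))) u hu
      rw [ph_Zl_eq_iUnion_comps] at hxZ
      simp only [Set.mem_iUnion, Set.mem_ofPred_eq, exists_prop] at hxZ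
      obtain ⟨W', hW', hxW'⟩ := hxZ
      exact ⟨W', (h𝒲 W').2 hW', x, hxW', e1⟩)
  refine ⟨V', ph_isCompOf_isVar ((h𝒲 V').1 hV'), hsubV V' hV',
    ph_pit V hV _ hG₀ _ hg V' ((h𝒲 V').1 hV'), ?_, hdom⟩
  have h5 := ph_bezout_cut V hV _ hG₀ _ hg 𝒲 (fun W' hW' => (h𝒲 W').1 hW')
  calc vdeg V' ≤ ∑ W' ∈ 𝒲, vdeg W' := Finset.single_le_sum (f := vdeg) (fun _ _ => Nat.zero_le _) hV'
    _ ≤ (MvPolynomial.X i - C c : MvPolynomial ι ℂ).totalDegree * vdeg V := h5
    _ ≤ 1 * vdeg V := Nat.mul_le_mul_right _ hdeg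
    _ = vdeg V := one_mul _

/-- degree of the closure of the image under a map of degree `≤ e`; `e = 1`: linear projections do not increase the degree -/
theorem ph_vdeg_image {V : Set (ι → ℂ)} (hV : IsVar V) (ψ : κ → MvPolynomial ι ℂ) (e : ℕ)
    (he : 1 ≤ e) (hψ : ∀ j, (ψ j).totalDegree ≤ e) :
    vdeg (zcl (pmap ψ '' V)) ≤ vdeg V * e ^ vdim (zcl (pmap ψ '' V)) := by
  induction hn : vdim V using Nat.strong_induction_on generalizing V with
  | _ n ih =>
    rcases Nat.lt_or_ge (vdim (zcl (pmap ψ '' V))) (vdim V) with hlt | hge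
    · obtain ⟨V', hV', -, hd, hdeg, hdom⟩ := ph_dom_cut hV ψ hlt
      have := ih (vdim V') (by omega) hV' rfl
      rw [hdom] at this
      exact this.trans (Nat.mul_le_mul_right _ hdeg)
    · have hk : vdim (zcl (pmap ψ '' V)) = vdim V := le_antisymm (ph_vdim_zcl_image_le hV ψ) hge
      obtain ⟨q, hq⟩ := ph_var_low _ (ph_isVar_zcl_image hV ψ)
      rw [hk] at hq ⊢
      apply ph_choose_asymp _ _ q (vdim V)
      intro D hD
      calc vdeg (zcl (pmap ψ '' V)) * (D - q + vdim V).choose (vdim V) ≤ hA (zcl (pmap ψ '' V)) D := hq D hD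
        _ = hA (pmap ψ '' V) D := ph_hA_zcl _ _
        _ ≤ hA V (e * D) := ph_hA_image_le ψ e hψ V D
        _ ≤ vdeg V * (e * D + vdim V).choose (vdim V) := ph_up_var V hV _
        _ ≤ vdeg V * (e ^ vdim V * (D + vdim V).choose (vdim V)) :=
            Nat.mul_le_mul_left _ (ph_choose_mul_le e D _ he)
        _ = vdeg V * e ^ vdim V * (D + vdim V).choose (vdim V) := by ring

/-! ### PH-map-h: **[GEN-SEC]** -/

/-- a maximal ideal of `ℂ[x]/p` lying over the point `w` gives a point of the fibre -/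
theorem ph_point_of_maximal (p : Ideal (MvPolynomial ι ℂ)) (ψ : κ → MvPolynomial ι ℂ) (w : κ → ℂ)
    (M : Ideal (MvPolynomial ι ℂ ⧸ p)) (hM : M.IsMaximal)
    (hMc : ∀ g : MvPolynomial κ ℂ, eval w g = 0 → Ideal.Quotient.mk p (aeval ψ g) ∈ M) :
    ∃ x ∈ zeroLocus ℂ p, ∀ j, eval x (ψ j) = w j := by
  have hM' : (Ideal.comap (Ideal.Quotient.mk p) M).IsMaximal :=
    Ideal.comap_isMaximal_of_surjective _ Ideal.Quotient.mk_surjective
  obtain ⟨x, hx⟩ := eq_vanishingIdeal_singleton_of_isMaximal ℂ hM'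
  have hxe : ∀ f, f ∈ Ideal.comap (Ideal.Quotient.mk p) M → eval x f = 0 := by
    intro f hf
    rw [hx, ph_mem_vanishingIdeal] at hf
    exact hf x rfl
  refine ⟨x, ?_, fun j => ?_⟩
  · rw [ph_mem_zeroLocus]
    intro f hf
    apply hxe
    rw [Ideal.mem_comap, Ideal.Quotient.eq_zero_iff_mem.2 hf]
    exact M.zero_mem
  · have h1 := hMc (X j - C (w j)) (by simp)
    have := hxe _ h1
    simpa [sub_eq_zero] using this

/-- **finite maps are closed**: if `ℂ[x]/p` is integral over `ℂ[ψ]` then `ψ(V)` is closed.  Lying over for maximal ideals (`Ideal.exists_ideal_over_maximal_of_isIntegral`, applied to `ℂ[w]/q → ℂ[x]/p`, injective and integral) + Nullstellensatz (`eq_vanishingIdeal_singleton_of_isMaximal`). -/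
theorem ph_finite_surj (p : Ideal (MvPolynomial ι ℂ)) (hp : p.IsPrime) (ψ : κ → MvPolynomial ι ℂ)
    (hint : ((Ideal.Quotient.mk p).comp
      (aeval ψ : MvPolynomial κ ℂ →ₐ[ℂ] MvPolynomial ι ℂ).toRingHom).IsIntegral) :
    pmap ψ '' zeroLocus ℂ p
      = zeroLocus ℂ (p.comap (aeval ψ : MvPolynomial κ ℂ →ₐ[ℂ] MvPolynomial ι ℂ)) := by
  apply Set.Subset.antisymm
  · rintro _ ⟨x, hx, rfl⟩
    rw [ph_mem_zeroLocus]
    intro g hg
    rw [ph_eval_pmap]
    exact (ph_mem_zeroLocus p x).1 hx _ hg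
  · intro w hw
    letI : Algebra (MvPolynomial κ ℂ) (MvPolynomial ι ℂ ⧸ p) := ((Ideal.Quotient.mk p).comp
      (aeval ψ : MvPolynomial κ ℂ →ₐ[ℂ] MvPolynomial ι ℂ).toRingHom).toAlgebra
    haveI : Algebra.IsIntegral (MvPolynomial κ ℂ) (MvPolynomial ι ℂ ⧸ p) := ⟨hint⟩
    have hsurj : Function.Surjective (eval w : MvPolynomial κ ℂ →+* ℂ) := fun a => ⟨C a, by simp⟩
    haveI hmax : (RingHom.ker (eval w : MvPolynomial κ ℂ →+* ℂ)).IsMaximal :=
      RingHom.ker_isMaximal_of_surjective _ hsurj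
    have hker : RingHom.ker (algebraMap (MvPolynomial κ ℂ) (MvPolynomial ι ℂ ⧸ p))
        ≤ RingHom.ker (eval w : MvPolynomial κ ℂ →+* ℂ) := by
      intro g hg
      rw [RingHom.mem_ker] at hg ⊢
      have h1 : Ideal.Quotient.mk p (aeval ψ g) = 0 := hg
      rw [Ideal.Quotient.eq_zero_iff_mem] at h1
      exact (ph_mem_zeroLocus _ w).1 hw g h1
    obtain ⟨M, hM, hMc⟩ := Ideal.exists_ideal_over_maximal_of_isIntegral
      (S := MvPolynomial ι ℂ ⧸ p) (RingHom.ker (eval w : MvPolynomial κ ℂ →+* ℂ)) hker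
    obtain ⟨x, hx, hxw⟩ := ph_point_of_maximal p ψ w M hM (fun g hg => by
      have : g ∈ Ideal.comap (algebraMap (MvPolynomial κ ℂ) (MvPolynomial ι ℂ ⧸ p)) M := by
        rw [hMc, RingHom.mem_ker]; exact hg
      exact this)
    exact ⟨x, hx, funext hxw⟩

set_option synthInstance.maxHeartbeats 400000 in
/-- (N2) implies integrality -/
theorem ph_filtfin_integral {k : ℕ} (p : Ideal (MvPolynomial ι ℂ)) (t : Fin k → MvPolynomial ι ℂ)
    (ht : FiltFin p t) : ((Ideal.Quotient.mk p).comp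
      (aeval t : MvPolynomial (Fin k) ℂ →ₐ[ℂ] MvPolynomial ι ℂ).toRingHom).IsIntegral := by
  classical
  apply RingHom.IsIntegral.of_finite
  obtain ⟨m, b, hb⟩ := ht
  letI : Algebra (MvPolynomial (Fin k) ℂ) (MvPolynomial ι ℂ ⧸ p) := ((Ideal.Quotient.mk p).comp
      (aeval t : MvPolynomial (Fin k) ℂ →ₐ[ℂ] MvPolynomial ι ℂ).toRingHom).toAlgebra
  change Module.Finite (MvPolynomial (Fin k) ℂ) (MvPolynomial ι ℂ ⧸ p)
  refine ⟨⟨Finset.univ.image fun j => Ideal.Quotient.mk p (b j), ?_⟩⟩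
  rw [eq_top_iff]
  rintro y -
  obtain ⟨f, rfl⟩ := Ideal.Quotient.mk_surjective y
  obtain ⟨a, -, ha⟩ := hb f
  have e : Ideal.Quotient.mk p f = ∑ j, a j • Ideal.Quotient.mk p (b j) := by
    have h1 := Ideal.Quotient.eq.2 ha
    rw [h1, map_sum]
    refine Finset.sum_congr rfl fun j _ => ?_
    rw [map_mul]
    rfl
  rw [e]
  refine Submodule.sum_mem _ fun j _ => Submodule.smul_mem _ _ (Submodule.subset_span ?_)
  simp

/-- a Noether projection is onto (`ph_finite_surj`, `ph_filtfin_integral`; (N1) says that the contraction is `⊥`.  Or lying over; or: `ph_image_dense` + properness.  Direct proof: if the fibre over `c` is empty then `1 ∈ p + (t_i - c_i)` (Nullstellensatz); the module `M = ℂ[x]/p` is finite over `A = ℂ[T]` (N2) and faithful (N1),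
`𝔪_c M = M` contradicts Nakayama (`Submodule.exists_sub_one_mem_and_smul_eq_zero_of_fg_of_le_smul`)). -/
theorem ph_fibre_nonempty {k : ℕ} (p : Ideal (MvPolynomial ι ℂ)) (hp : p.IsPrime)
    (t : Fin k → MvPolynomial ι ℂ) (ht : NPos p t) (c : Fin k → ℂ) :
    ∃ x ∈ zeroLocus ℂ p, ∀ i, eval x (t i) = c i := by
  have h := ph_finite_surj p hp t (ph_filtfin_integral p t ht.fin)
  have hc : c ∈ zeroLocus ℂ (p.comap (aeval t : MvPolynomial (Fin k) ℂ →ₐ[ℂ] MvPolynomial ι ℂ)) := by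
    rw [ph_mem_zeroLocus]
    intro g hg
    rw [ht.inj g hg, map_zero]
  rw [← h] at hc
  obtain ⟨x, hx, hxc⟩ := hc
  exact ⟨x, hx, fun i => congrFun hxc i⟩

set_option synthInstance.maxHeartbeats 400000 in
/-- **specialisation**: finitely many elements `val s` of the generic field, integral over `ℂ[T]`, can be specialised at every point `c` of the base, preserving all polynomial relations over `ℂ`. -/
theorem ph_specialise {k : ℕ} {σ : Type*} [Fintype σ] (val : σ → GenF k)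
    (hint : ∀ s, IsIntegral (MvPolynomial (Fin k) ℂ) (val s)) (c : Fin k → ℂ) :
    ∃ z : σ → ℂ, ∀ f : MvPolynomial (Fin k ⊕ σ) ℂ,
      aeval (Sum.elim (gpt k) val) f = 0 → eval (Sum.elim c z) f = 0 := by
  classical
  set π : MvPolynomial (Fin k ⊕ σ) ℂ →ₐ[ℂ] GenF k := aeval (Sum.elim (gpt k) val) with hπ
  set P : Ideal (MvPolynomial (Fin k ⊕ σ) ℂ) := RingHom.ker π.toRingHom with hP
  have hPp : P.IsPrime := RingHom.ker_isPrime _
  set τ : Fin k → MvPolynomial (Fin k ⊕ σ) ℂ := fun j => X (Sum.inl j) with hτ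
  have hπτ : ∀ g : MvPolynomial (Fin k) ℂ, π (aeval τ g) = algebraMap _ (GenF k) g := by
    intro g
    rw [← ph_aeval_gpt, hπ, comp_aeval_apply]
    congr 2
    funext j
    simp [hτ]
  have hmem : ∀ f, f ∈ P ↔ π f = 0 := fun f => Iff.rfl
  set Φ : MvPolynomial (Fin k) ℂ →+* (MvPolynomial (Fin k ⊕ σ) ℂ ⧸ P) := (Ideal.Quotient.mk P).comp
      (aeval τ : MvPolynomial (Fin k) ℂ →ₐ[ℂ] MvPolynomial (Fin k ⊕ σ) ℂ).toRingHom with hΦ
  have hI : Φ.IsIntegral := by
    intro y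
    obtain ⟨f, rfl⟩ := Ideal.Quotient.mk_surjective y
    induction f using MvPolynomial.induction_on with
    | C a =>
      have : Ideal.Quotient.mk P (C a) = Φ (C a) := by simp [hΦ]
      rw [this]
      exact Φ.isIntegralElem_map
    | add f g hf hg =>
      rw [map_add]
      exact RingHom.IsIntegralElem.add Φ hf hg
    | mul_X f i hf =>
      rw [map_mul]
      refine RingHom.IsIntegralElem.mul Φ hf ?_
      rcases i with j | s
      · have : Ideal.Quotient.mk P (X (Sum.inl j)) = Φ (X j) := by simp [hΦ, hτ]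
        rw [this]
        exact Φ.isIntegralElem_map
      · obtain ⟨q, hq, h0⟩ := hint s
        refine ⟨q, hq, ?_⟩
        rw [hΦ, ← Polynomial.hom_eval₂, Ideal.Quotient.eq_zero_iff_mem, hmem]
        have := Polynomial.hom_eval₂ q (aeval τ : MvPolynomial (Fin k) ℂ →ₐ[ℂ] MvPolynomial (Fin k ⊕ σ) ℂ).toRingHom
          π.toRingHom (X (Sum.inr s))
        refine Eq.trans this ?_
        have e1 : π.toRingHom (X (Sum.inr s)) = val s := by simp [hπ]
        rw [e1, ← h0]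
        congr 1
        exact RingHom.ext hπτ
  have h := ph_finite_surj P hPp τ hI
  have hc : c ∈ zeroLocus ℂ (P.comap (aeval τ : MvPolynomial (Fin k) ℂ →ₐ[ℂ] _)) := by
    rw [ph_mem_zeroLocus]
    intro g hg
    rw [Ideal.mem_comap, hmem, hπτ] at hg
    rw [(injective_iff_map_eq_zero _).1 (ph_algebraMap_genF_injective k) g hg, map_zero]
  rw [← h] at hc
  obtain ⟨z, hz, hzc⟩ := hc
  refine ⟨fun s => z (Sum.inr s), fun f hf => ?_⟩
  have e : Sum.elim c (fun s => z (Sum.inr s)) = z := by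
    funext i
    rcases i with j | s
    · have := congrFun hzc j
      simpa [pmap, hτ] using this.symm
    · rfl
  rw [e]
  exact (ph_mem_zeroLocus P z).1 hz f hf

/-- the coordinates of a sheet are integral over `ℂ[T]` -/
theorem ph_sheet_integral {k : ℕ} (p : Ideal (MvPolynomial ι ℂ)) (t : Fin k → MvPolynomial ι ℂ)
    (ht : FiltFin p t) {ζ : ι → GenF k} (hζ : ζ ∈ sheets p t) (i : ι) :
    IsIntegral (MvPolynomial (Fin k) ℂ) (ζ i) := by
  obtain ⟨q, hq, h0⟩ := ph_filtfin_integral p t ht (Ideal.Quotient.mk p (X i))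
  refine ⟨q, hq, ?_⟩
  rw [← Polynomial.hom_eval₂, Ideal.Quotient.eq_zero_iff_mem] at h0
  have := ph_sheet_root' h0 hζ
  rwa [aeval_X, Polynomial.eval_map] at this

/-- a nonzero element of the generic field stays nonzero under specialisation at a generic point -/
theorem ph_spec_ne {k : ℕ} {σ : Type*} (val : σ → GenF k) (g : MvPolynomial (Fin k ⊕ σ) ℂ)
    (hg : aeval (Sum.elim (gpt k) val) g ≠ 0) :
    ∃ a : MvPolynomial (Fin k) ℂ, a ≠ 0 ∧ ∀ (c : Fin k → ℂ) (z : σ → ℂ),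
      (∀ f : MvPolynomial (Fin k ⊕ σ) ℂ, aeval (Sum.elim (gpt k) val) f = 0 → eval (Sum.elim c z) f = 0) →
        eval c a ≠ 0 → eval (Sum.elim c z) g ≠ 0 := by
  have halg : IsAlgebraic (MvPolynomial (Fin k) ℂ) (aeval (Sum.elim (gpt k) val) g) :=
    (IsFractionRing.isAlgebraic_iff (MvPolynomial (Fin k) ℂ) (FractionRing (MvPolynomial (Fin k) ℂ)) (GenF k)).2
      (Algebra.IsAlgebraic.isAlgebraic _)
  obtain ⟨q, hq0, hq⟩ := halg.exists_nonzero_coeff_and_aeval_eq_zero (mem_nonZeroDivisors_of_ne_zero hg)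
  refine ⟨q.coeff 0, hq0, fun c z hz hc h0 => hc ?_⟩
  set τ : Fin k → MvPolynomial (Fin k ⊕ σ) ℂ := fun j => X (Sum.inl j) with hτ
  have h1 : aeval (Sum.elim (gpt k) val) (q.eval₂ (aeval τ : MvPolynomial (Fin k) ℂ →ₐ[ℂ] MvPolynomial (Fin k ⊕ σ) ℂ).toRingHom g) = 0 := by
    have := Polynomial.hom_eval₂ q (aeval τ : MvPolynomial (Fin k) ℂ →ₐ[ℂ] MvPolynomial (Fin k ⊕ σ) ℂ).toRingHom
      (aeval (Sum.elim (gpt k) val) : MvPolynomial (Fin k ⊕ σ) ℂ →ₐ[ℂ] GenF k).toRingHom g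
    refine Eq.trans this ?_
    rw [← hq, Polynomial.aeval_def]
    congr 1
    refine RingHom.ext fun b => ?_
    rw [← ph_aeval_gpt]
    change aeval (Sum.elim (gpt k) val) (aeval τ b) = _
    rw [comp_aeval_apply]
    congr 2
    funext j
    simp [hτ]
  have h2 := hz _ h1
  have h3 := Polynomial.hom_eval₂ q (aeval τ : MvPolynomial (Fin k) ℂ →ₐ[ℂ] MvPolynomial (Fin k ⊕ σ) ℂ).toRingHom
      (eval (Sum.elim c z)) g
  rw [h2, h0] at h3
  rw [Polynomial.eval₂_at_zero] at h3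
  rw [h3]
  change eval c (q.coeff 0) = eval (Sum.elim c z) (aeval τ (q.coeff 0))
  rw [← ph_eval_pmap]
  congr 2
  funext j
  simp [pmap, hτ]

/-- **generic fibre of a Noether projection = `vdeg` points.**  Let `m = vdeg V = #sheets` (`ph_vdeg_eq_sheets`).  Choose a linear form `e` taking `m` distinct values on the sheets (avoid finitely many hyperplanes).  `μ(T,E) := ∏_ζ (E - e(ζ))` has coefficients in `ℂ[T]`
(integral over `ℂ[T]`, Galois invariant/ or: minimal polynomial of `e` mod `p` over `ℂ(T)`, monic with coefficients in `ℂ[T]` since `ℂ[T]` is integrally closed: `minpoly.isIntegrallyClosed_eq_field_fractions`), `μ(t, e) ∈ p`, `disc μ =: a₀(T) ≠ 0`.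
`≥`: for `a₀(c) ≠ 0`, `μ(c,E)` has `m` distinct roots `ε`; each is `e(x)` for a point `x` of the fibre: apply `ph_fibre_nonempty` to the prime.. simpler: the `k+1` polynomials `(t, e)` map `V` ONTO the hypersurface `μ = 0` (`NPos`-type finiteness + the image is closed of dimension `k` inside the irreducible `Z(μ)`).
`≤`: `ph_fibre_card_le`. -/
theorem ph_gen_points {k : ℕ} (p : Ideal (MvPolynomial ι ℂ)) (hp : p.IsPrime)
    (t : Fin k → MvPolynomial ι ℂ) (ht : NPos p t) :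
    ∃ a : MvPolynomial (Fin k) ℂ, a ≠ 0 ∧ ∀ c : Fin k → ℂ, eval c a ≠ 0 →
      {x ∈ zeroLocus ℂ p | ∀ i, eval x (t i) = c i}.ncard = vdeg (zeroLocus ℂ p) := by
  classical
  have hfin := ph_sheets_finite p hp t ht
  letI : Fintype ↥(sheets p t) := hfin.fintype
  set val : ↥(sheets p t) × ι → GenF k := fun si => si.1.1 si.2 with hval
  have hint : ∀ s, IsIntegral (MvPolynomial (Fin k) ℂ) (val s) := fun s =>
    ph_sheet_integral p t ht.fin s.1.2 s.2
  -- separating polynomials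
  have hsep : ∀ s s' : ↥(sheets p t), ∃ a : MvPolynomial (Fin k) ℂ, a ≠ 0 ∧ (s ≠ s' →
      ∀ (c : Fin k → ℂ) (z : ↥(sheets p t) × ι → ℂ),
      (∀ f : MvPolynomial (Fin k ⊕ ↥(sheets p t) × ι) ℂ, aeval (Sum.elim (gpt k) val) f = 0 →
        eval (Sum.elim c z) f = 0) → eval c a ≠ 0 → (fun i => z (s, i)) ≠ fun i => z (s', i)) := by
    intro s s'
    by_cases hss : s = s'
    · exact ⟨1, one_ne_zero, fun h => absurd hss h⟩
    · have : ∃ i, s.1 i ≠ s'.1 i := by
        by_contra hcon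
        push Not at hcon
        exact hss (Subtype.ext (funext hcon))
      obtain ⟨i, hi⟩ := this
      obtain ⟨a, ha, h⟩ := ph_spec_ne val (X (Sum.inr (s, i)) - X (Sum.inr (s', i))) (by
        simpa [hval, sub_eq_zero] using hi)
      refine ⟨a, ha, fun _ c z hz hc heq => h c z hz hc ?_⟩
      have := congrFun heq i
      simpa [sub_eq_zero] using this
  choose a ha hsep using hsep
  refine ⟨∏ s, ∏ s', a s s', Finset.prod_ne_zero_iff.2 fun s _ => Finset.prod_ne_zero_iff.2 fun s' _ => ha s s',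
    fun c hc => le_antisymm (ph_fibre_card_le p hp t ht c) ?_⟩
  have hc' : ∀ s s', eval c (a s s') ≠ 0 := by
    intro s s' h0
    apply hc
    rw [map_prod]
    apply Finset.prod_eq_zero (Finset.mem_univ s)
    rw [map_prod]
    exact Finset.prod_eq_zero (Finset.mem_univ s') h0
  obtain ⟨z, hz⟩ := ph_specialise val hint c
  rw [ph_vdeg_eq_sheets p hp t ht]
  set x : ↥(sheets p t) → ι → ℂ := fun s i => z (s, i) with hx
  have hxinj : Function.Injective x := by
    intro s s' hss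
    by_contra hne
    exact hsep s s' hne c z hz (hc' s s') hss
  have hev : ∀ (s : ↥(sheets p t)) (f : MvPolynomial ι ℂ),
      eval (x s) f = eval (Sum.elim c z) (rename (fun i => Sum.inr (s, i)) f) := by
    intro s f
    rw [eval_rename]
    rfl
  have hav : ∀ (s : ↥(sheets p t)) (f : MvPolynomial ι ℂ),
      aeval (Sum.elim (gpt k) val) (rename (fun i => (Sum.inr (s, i) : Fin k ⊕ ↥(sheets p t) × ι)) f) = aeval s.1 f := by
    intro s f
    rw [aeval_rename]
    rfl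
  have hsub : Set.range x ⊆ {x ∈ zeroLocus ℂ p | ∀ i, eval x (t i) = c i} := by
    rintro _ ⟨s, rfl⟩
    refine ⟨?_, fun j => ?_⟩
    · rw [ph_mem_zeroLocus]
      intro f hf
      rw [hev]
      apply hz
      rw [hav]
      exact (mem_zeroLocus_iff.mp s.2.1) f hf
    · have h1 := hz (rename (fun i => (Sum.inr (s, i) : Fin k ⊕ ↥(sheets p t) × ι)) (t j) - X (Sum.inl j)) (by
        rw [map_sub, hav, s.2.2 j]
        simp)
      rw [map_sub, ← hev, sub_eq_zero] at h1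
      rw [h1]
      simp
  calc (sheets p t).ncard = Nat.card ↥(sheets p t) := (Nat.card_coe_set_eq _).symm
    _ = (Set.range x).ncard := by
      rw [← Set.image_univ, Set.ncard_image_of_injective _ hxinj, Set.ncard_univ]
    _ ≤ _ := Set.ncard_le_ncard hsub (ph_fibre_finite p t ht.fin c)

omit [Fintype ι] in
/-- congruent substitutions give congruent values -/
theorem ph_aeval_congr_mod {κ : Type*} (q : Ideal (MvPolynomial ι ℂ)) (u v : κ → MvPolynomial ι ℂ)
    (h : ∀ i, u i - v i ∈ q) (a : MvPolynomial κ ℂ) : aeval u a - aeval v a ∈ q := by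
  rw [← Ideal.Quotient.eq]
  change (Ideal.Quotient.mkₐ ℂ q) (aeval u a) = (Ideal.Quotient.mkₐ ℂ q) (aeval v a)
  rw [comp_aeval_apply, comp_aeval_apply]
  congr 2
  funext i
  exact Ideal.Quotient.eq.2 (h i)

omit [Fintype ι] in
/-- (N2) passes to a section `t_last = c` -/
theorem ph_filtfin_cut {j : ℕ} (p q : Ideal (MvPolynomial ι ℂ)) (hpq : p ≤ q)
    (t : Fin (j + 1) → MvPolynomial ι ℂ) (ht : FiltFin p t) (c : ℂ)
    (hc : t (Fin.last j) - C c ∈ q) : FiltFin q (fun i : Fin j => t i.castSucc) := by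
  obtain ⟨m, b, hb⟩ := ht
  refine ⟨m, b, fun f => ?_⟩
  obtain ⟨a, ha1, ha2⟩ := hb f
  set s : Fin (j + 1) → MvPolynomial (Fin j) ℂ := Fin.snoc (fun i => X i) (C c) with hs
  have hs1 : ∀ i, (s i).totalDegree ≤ 1 := by
    intro i
    refine Fin.lastCases ?_ (fun i => ?_) i
    · simp [hs]
    · simp [hs]
  refine ⟨fun l => aeval s (a l), fun l => ?_, ?_⟩
  · rcases ha1 l with h | h
    · left; simp [h]
    · right
      have := ph_totalDegree_aeval_le s hs1 (a l)
      simp only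
      omega
  · have key : f - ∑ l, aeval (fun i : Fin j => t i.castSucc) (aeval s (a l)) * b l
        = (f - ∑ l, aeval t (a l) * b l)
          + ∑ l, (aeval t (a l) - aeval (fun i : Fin j => t i.castSucc) (aeval s (a l))) * b l := by
      simp only [sub_mul, Finset.sum_sub_distrib]
      ring
    rw [key]
    refine q.add_mem (hpq ha2) (q.sum_mem fun l _ => q.mul_mem_right _ ?_)
    rw [comp_aeval_apply]
    apply ph_aeval_congr_mod
    intro i
    refine Fin.lastCases ?_ (fun i => ?_) i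
    · simpa [hs] using hc
    · simp [hs]

/-- **[GEN-SEC]** for all but finitely many `c` the section `V ∩ {t_last = c}` has total degree `vdeg V` (all its components have dimension `dim V - 1` by `ph_pit`).
`≤` is `ph_bezout_cut`.  `≥`: `a` from `ph_gen_points`; take `c` with `a(T', c) ≠ 0`; the components `W_i` are in Noether position for `t' = (t_0..t_{j-1})`; choose `c'` with `a(c', c) ≠ 0`: `vdeg V = #fibre_V(c',c) ≤ ∑ #fibre_{W_i}(c') ≤ ∑ vdeg W_i` (`ph_fibre_card_le`). -/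
theorem ph_gen_section {j : ℕ} (p : Ideal (MvPolynomial ι ℂ)) (hp : p.IsPrime)
    (t : Fin (j + 1) → MvPolynomial ι ℂ) (ht : NPos p t) :
    ∃ B : Finset ℂ, ∀ c ∉ B, ∀ 𝒲 : Finset (Set (ι → ℂ)),
      (∀ W, W ∈ 𝒲 ↔ IsCompOf W (insert (t (Fin.last j) - C c) (p : Set (MvPolynomial ι ℂ)))) →
        ∑ W ∈ 𝒲, vdeg W = vdeg (zeroLocus ℂ p) := by
  classical
  obtain ⟨a, ha0, ha⟩ := ph_gen_points p hp t ht
  obtain ⟨c₀, hc₀⟩ : ∃ c₀ : Fin (j + 1) → ℂ, eval c₀ a ≠ 0 := by
    by_contra hcon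
    push Not at hcon
    exact ha0 (MvPolynomial.funext fun x => by rw [hcon x, map_zero])
  set c' : Fin j → ℂ := fun i => c₀ i.castSucc with hc'
  set u : Polynomial ℂ := aeval (Fin.snoc (fun i => Polynomial.C (c' i)) Polynomial.X :
    Fin (j + 1) → Polynomial ℂ) a with hu
  have hue : ∀ c : ℂ, u.eval c = eval (Fin.snoc c' c : Fin (j + 1) → ℂ) a := by
    intro c
    have h1 : u.eval c = (Polynomial.aeval c : Polynomial ℂ →ₐ[ℂ] ℂ) u := by
      rw [Polynomial.coe_aeval_eq_eval]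
    rw [h1, hu, comp_aeval_apply, ← aeval_eq_eval]
    congr 2
    funext i
    refine Fin.lastCases ?_ (fun i => ?_) i
    · simp
    · simp
  have hu0 : u ≠ 0 := by
    intro h0
    apply hc₀
    have := hue (c₀ (Fin.last j))
    rw [h0, Polynomial.eval_zero] at this
    rw [this]
    congr 2
    funext i
    refine Fin.lastCases ?_ (fun i => ?_) i
    · simp
    · simp [hc']
  refine ⟨u.roots.toFinset, fun c hc 𝒲 h𝒲 => ?_⟩
  have hac : eval (Fin.snoc c' c : Fin (j + 1) → ℂ) a ≠ 0 := by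
    rw [← hue]
    intro h0
    apply hc
    rw [Multiset.mem_toFinset, Polynomial.mem_roots hu0]
    exact h0
  set g : MvPolynomial ι ℂ := t (Fin.last j) - C c with hg
  have hV : IsVar (zeroLocus ℂ p) := ⟨p, hp, rfl⟩
  have hG₀ : Zl (p : Set (MvPolynomial ι ℂ)) = zeroLocus ℂ p := by
    rw [ph_Zl_eq_zeroLocus, Ideal.span_eq]
  have hgne : ∃ x ∈ zeroLocus ℂ p, eval x g ≠ 0 := by
    obtain ⟨x, hx, hxc⟩ := ph_fibre_nonempty p hp t ht (fun _ => c + 1)
    refine ⟨x, hx, ?_⟩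
    rw [hg, map_sub, hxc, eval_C]
    simp
  have hgdeg : g.totalDegree ≤ 1 := by
    refine (totalDegree_sub _ _).trans ?_
    rw [totalDegree_C]
    exact max_le (ht.lin _) (Nat.zero_le _)
  apply le_antisymm
  · refine (ph_bezout_cut _ hV _ hG₀ g hgne 𝒲 fun W hW => (h𝒲 W).1 hW).trans ?_
    calc g.totalDegree * vdeg (zeroLocus ℂ p) ≤ 1 * vdeg (zeroLocus ℂ p) := Nat.mul_le_mul_right _ hgdeg
      _ = _ := one_mul _
  · rw [← ha _ hac]
    have hk := ph_vdim_of_npos p hp t ht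
    have hW : ∀ W ∈ 𝒲, {x ∈ W | ∀ i : Fin j, eval x (t i.castSucc) = c' i}.ncard ≤ vdeg W := by
      intro W hW
      have hcomp := (h𝒲 W).1 hW
      have hdim := ph_pit _ hV _ hG₀ g hgne W hcomp
      obtain ⟨q, hq, rfl⟩ := hcomp
      have hqp : q.IsPrime := hq.1.1
      have hle : Ideal.span (insert g (p : Set (MvPolynomial ι ℂ))) ≤ q := hq.1.2
      have hpq : p ≤ q := fun f hf => hle (Ideal.subset_span (Set.mem_insert_of_mem _ hf))
      have hgq : g ∈ q := hle (Ideal.subset_span (Set.mem_insert _ _))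
      have hff := ph_filtfin_cut p q hpq t ht.fin c hgq
      have hlin : ∀ i : Fin j, (t i.castSucc).totalDegree ≤ 1 := fun i => ht.lin _
      have hn : NPos q (fun i : Fin j => t i.castSucc) :=
        ⟨hlin, ph_inj_of_filtfin_of_vdim q hqp _ hlin hff (by omega), hff⟩
      exact ph_fibre_card_le q hqp _ hn c'
    have hWfin : ∀ W ∈ 𝒲, {x ∈ W | ∀ i : Fin j, eval x (t i.castSucc) = c' i}.Finite := by
      intro W hW
      obtain ⟨q, hq, rfl⟩ := (h𝒲 W).1 hW
      have hle : Ideal.span (insert g (p : Set (MvPolynomial ι ℂ))) ≤ q := hq.1.2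
      have hpq : p ≤ q := fun f hf => hle (Ideal.subset_span (Set.mem_insert_of_mem _ hf))
      have hgq : g ∈ q := hle (Ideal.subset_span (Set.mem_insert _ _))
      exact ph_fibre_finite q _ (ph_filtfin_cut p q hpq t ht.fin c hgq) c'
    have hsub : {x ∈ zeroLocus ℂ p | ∀ i, eval x (t i) = (Fin.snoc c' c : Fin (j + 1) → ℂ) i}
        ⊆ ⋃ W ∈ 𝒲, {x ∈ W | ∀ i : Fin j, eval x (t i.castSucc) = c' i} := by
      rintro x ⟨hx, hxt⟩
      have hxZ : x ∈ Zl (insert g (p : Set (MvPolynomial ι ℂ))) := by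
        intro f hf
        rcases hf with rfl | hf
        · have := hxt (Fin.last j)
          rw [Fin.snoc_last] at this
          rw [hg, map_sub, this, eval_C, sub_self]
        · exact (ph_mem_zeroLocus p x).1 hx f hf
      rw [ph_Zl_eq_iUnion_comps] at hxZ
      simp only [Set.mem_iUnion, Set.mem_setOf_eq, exists_prop] at hxZ ⊢
      obtain ⟨W, hW, hxW⟩ := hxZ
      refine ⟨W, (h𝒲 W).2 hW, hxW, fun i => ?_⟩
      have := hxt i.castSucc
      rwa [Fin.snoc_castSucc] at this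
    calc _ ≤ (⋃ W ∈ 𝒲, {x ∈ W | ∀ i : Fin j, eval x (t i.castSucc) = c' i}).ncard :=
          Set.ncard_le_ncard hsub (Set.Finite.biUnion 𝒲.finite_toSet hWfin)
      _ ≤ ∑ W ∈ 𝒲, {x ∈ W | ∀ i : Fin j, eval x (t i.castSucc) = c' i}.ncard :=
          Finset.set_ncard_biUnion_le _ _
      _ ≤ _ := Finset.sum_le_sum hW

end Claimed.Agent.R273
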