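-- KEEP
import Claimed.Agent.R273.Top
import Claimed.Agent.R273.PhMap

/-!
# Row 273, Appendix A (uniform concentration of evaluation flats): THE CHART MODEL.  Chief architect helper69.  Prefix `cn` / `cn_` / `Cn`.

`e = r + 1`, `r ≥ 2`, `s0 = binom(r,2)`, `n = s0 + r = binom(r+1,2)`.

In the chart `v_a = 1` a skew `e × e` matrix is a pair `(Z, x)`, `Z` skew `r × r`, `x ∈ ℂ^r` (the column `a`), and the evaluation flat of `[v:y]` is
`Φ_μ = {(Z, x) | x = y - Z v}`, `μ = (v, y) ∈ ℂ^r × ℂ^r` (the remaining coordinates of `v`, `y`).  So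
* the ambient space is the FULL affine space `ℂ^(CnI r)`, `CnI r = CnSk r ⊕ Fin r`  (`CnSk r` = positions above the diagonal);
* the parameter space is the FULL affine space `ℂ^(CnP r)`, `CnP r = Fin r ⊕ Fin r`  (`inl` = `v`, `inr` = `y`): no cones, no projective closures;
* `polar(μ, μ') = 0  ⇔  (y - y') · (v - v') = 0`  (`cnPolar`); two flats `Φ_μ`, `Φ_μ'` with `v ≠ v'` meet iff `cnPolar μ μ' = 0`.
-/

set_option autoImplicit false

namespace Claimed.Agent.R273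

open MvPolynomial

/-- positions strictly above the diagonal of an `r × r` matrix -/
abbrev CnSk (r : ℕ) := {p : Fin r × Fin r // p.1 < p.2}

/-- coordinates of the chart `S = Skew_r × ℂ^r ∋ (Z, x)` -/
abbrev CnI (r : ℕ) := CnSk r ⊕ Fin r

/-- coordinates of the parameter space `∋ (v, y)` -/
abbrev CnP (r : ℕ) := Fin r ⊕ Fin r

/-- the skew matrix with entries `Z` above the diagonal -/
def cnMat {r : ℕ} (Z : CnSk r → ℂ) (i j : Fin r) : ℂ :=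
  if h : i < j then Z ⟨(i, j), h⟩ else if h : j < i then - Z ⟨(j, i), h⟩ else 0

/-- the `Z`-part of a point of the chart -/
def cnZ {r : ℕ} (z : CnI r → ℂ) : CnSk r → ℂ := fun p => z (Sum.inl p)

/-- the `x`-part of a point of the chart -/
def cnX {r : ℕ} (z : CnI r → ℂ) : Fin r → ℂ := fun i => z (Sum.inr i)

/-- the `v`-part of a parameter -/
def cnV {r : ℕ} (μ : CnP r → ℂ) : Fin r → ℂ := fun i => μ (Sum.inl i)

/-- the `y`-part of a parameter -/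
def cnY {r : ℕ} (μ : CnP r → ℂ) : Fin r → ℂ := fun i => μ (Sum.inr i)

/-- the slice map `π_Z(μ) = y - Z v` -/
def cnPi {r : ℕ} (Z : CnSk r → ℂ) (μ : CnP r → ℂ) : Fin r → ℂ :=
  fun i => cnY μ i - ∑ j, cnMat Z i j * cnV μ j

/-- the chart flat `Φ_μ = {(Z, y - Z v)}` -/
def cnFlat {r : ℕ} (μ : CnP r → ℂ) : Set (CnI r → ℂ) := {z | cnX z = cnPi (cnZ z) μ}

/-- the polar form in the chart (up to sign) -/
def cnPolar {r : ℕ} (a b : CnP r → ℂ) : ℂ := ∑ i, (cnY a i - cnY b i) * (cnV a i - cnV b i)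

/-- Hypotheses (i), (ii) of `conc:theorem` in the chart. -/
structure CnHyp (r : ℕ) (C0 A : ℝ) (F : Finset (CnP r → ℂ)) : Prop where
  /-- (i) separators of degree at most `C0 A` (not homogeneous) -/
  sep : ∀ μ ∈ F, ∃ s : MvPolynomial (CnP r) ℂ, (s.totalDegree : ℝ) ≤ C0 * A ∧ eval μ s ≠ 0 ∧
    ∀ m ∈ F, m ≠ μ → eval m s = 0
  /-- (ii) a pairwise orthogonal subfamily has at most `C0 A^{r-1}` members -/
  iso : ∀ F' ⊆ F, (∀ a ∈ F', ∀ b ∈ F', cnPolar a b = 0) → (F'.card : ℝ) ≤ C0 * A ^ (r - 1)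

/-- (GLOB) in the chart. -/
def CnGlob (r : ℕ) : Prop :=
  ∀ C0 : ℝ, 1 ≤ C0 → ∃ c : ℝ, 0 < c ∧ ∀ (A : ℝ) (F : Finset (CnP r → ℂ)), 1 ≤ A →
    CnHyp r C0 A F → (F.card : ℝ) ≤ C0 * A ^ r →
    c * (F.card : ℝ) * A ^ (r.choose 2) ≤ (hA (⋃ μ ∈ F, cnFlat μ) ⌊A⌋₊ : ℝ)

/-- (LOC) in the chart. -/
def CnLoc (r : ℕ) : Prop :=
  ∀ C0 : ℝ, 1 ≤ C0 → ∃ C : ℝ, 0 < C ∧ ∀ (A : ℝ) (F : Finset (CnP r → ℂ)), 1 ≤ A →
    CnHyp r C0 A F →
    ∀ f : MvPolynomial (CnI r) ℂ, (f.totalDegree : ℝ) ≤ C0 * A → f ≠ 0 →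
      ∀ F' ⊆ F, (∀ μ ∈ F', ∀ z ∈ cnFlat μ, eval z f = 0) → (F'.card : ℝ) ≤ C * A ^ r

/-- the system of all equations of `V` of degree `≤ T` (its zero set is `Env V T`) -/
def cnSys {ι : Type*} (V : Set (ι → ℂ)) (T : ℕ) : Set (MvPolynomial ι ℂ) :=
  {f | f.totalDegree ≤ T ∧ ∀ x ∈ V, eval x f = 0}

/-- A class `𝒜` of "allowed" irreducible varieties (settings (a), (b) of `conc:theorem` at once). -/
structure CnAllowed (r : ℕ) (C0 A : ℝ) (F : Finset (CnP r → ℂ)) (𝒜 : Set (Set (CnI r → ℂ))) :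
    Prop where
  isVar : ∀ V ∈ 𝒜, IsVar V
  /-- irreducible subvarieties of allowed varieties are allowed -/
  down : ∀ V ∈ 𝒜, ∀ W, IsVar W → W ⊆ V → W ∈ 𝒜
  /-- the component through `V` of the envelope of `V` at a degree `T ≥ C0 A` is allowed -/
  up : ∀ V ∈ 𝒜, ∀ T : ℕ, C0 * A ≤ (T : ℝ) → ∀ W, IsCompOf W (cnSys V T) → V ⊆ W → W ∈ 𝒜
  /-- if the ambient space is allowed, the family has at most `C0 A^r` members -/
  top : Set.univ ∈ 𝒜 → (F.card : ℝ) ≤ C0 * A ^ r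

/-- (COUNT) = `conc:theorem` (a) and (b): the number of flats of the family inside an allowed `V` is `≤ C deg(V) A^h`, `dim V = s0 + h`. -/
def CnCore (r : ℕ) : Prop :=
  ∀ C0 : ℝ, 1 ≤ C0 → ∃ C : ℝ, 0 < C ∧ ∀ (A : ℝ) (F : Finset (CnP r → ℂ)), 1 ≤ A →
    CnHyp r C0 A F → ∀ 𝒜 : Set (Set (CnI r → ℂ)), CnAllowed r C0 A F 𝒜 →
    ∀ V ∈ 𝒜, ∀ F' ⊆ F, (∀ μ ∈ F', cnFlat μ ⊆ V) →
      (F'.card : ℝ) ≤ C * (vdeg V : ℝ) * A ^ (vdim V - r.choose 2)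

/-- (REG) with the constant `Cn` -/
def CnRegAt (ι : Type) [Fintype ι] (Cn : ℕ) : Prop :=
  ∀ (V : Set (ι → ℂ)) (G : Set (MvPolynomial ι ℂ)) (L : ℕ), 1 ≤ L →
    (∀ g ∈ G, g.totalDegree ≤ L) → IsCompOf V G → ∀ c : ℕ, c + vdim V = Fintype.card ι →
    ∃ g : Fin c → MvPolynomial ι ℂ, (∀ i, (g i).totalDegree ≤ Cn * L) ∧
      (∀ i, ∀ x ∈ V, eval x (g i) = 0) ∧
      ∃ x ∈ V, LinearIndependent ℂ (fun i => fun j => eval x (pderiv j (g i)))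

/-- (REG) = `conc:regularity`: a component `V` of a system of degree `≤ L` has `c = codim V` equations of degree `≤ Cn L` with independent differentials at some point of `V`. -/
def CnReg (ι : Type) [Fintype ι] : Prop := ∃ Cn : ℕ, 0 < Cn ∧ CnRegAt ι Cn

/-- (LOW) with the constants `C`, `Ce` -/
def CnLowAt (r : ℕ) (C0 C : ℝ) (Ce : ℕ) : Prop :=
  ∀ (V : Set (CnI r → ℂ)), IsVar V →
    ∀ h c : ℕ, 1 ≤ h → 1 ≤ c → c + h = r → vdim V = r.choose 2 + h →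
    ∀ (D : ℕ) (g : Fin c → MvPolynomial (CnI r) ℂ), 1 ≤ D → (∀ i, (g i).totalDegree ≤ D) →
      (∀ i, ∀ x ∈ V, eval x (g i) = 0) →
      (∃ x ∈ V, LinearIndependent ℂ (fun i => fun j => eval x (pderiv j (g i)))) →
    ∃ H : MvPolynomial (CnI r) ℂ, H.totalDegree ≤ Ce * D ∧ (∃ x ∈ V, eval x H ≠ 0) ∧
      ∀ (A : ℝ) (F : Finset (CnP r → ℂ)), 1 ≤ A → CnHyp r C0 A F →
        ∀ F' ⊆ F, (∀ μ ∈ F', cnFlat μ ⊆ V ∧ ∃ z ∈ cnFlat μ, eval z H ≠ 0) →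
          (F'.card : ℝ) ≤ C * (vdeg V : ℝ) * A ^ h

/-- (LOW) = `conc:rulings` + `conc:degree` + `conc:separators` + hypothesis (ii): outside a section of degree `≤ Ce D` an irreducible `V` with regular equations of degree `≤ D` contains `≤ C deg(V) A^h` flats of the family. -/
def CnLow (r : ℕ) : Prop :=
  ∀ C0 : ℝ, 1 ≤ C0 → ∃ (C : ℝ) (Ce : ℕ), 0 < C ∧ CnLowAt r C0 C Ce

end Claimed.Agent.R273
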