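import Claimed.Agent.R273.CnDegA

/-!
# Row 273, App A, unit DEG': `deg Y ≤ 2^n κ deg V` for a covering family `Y` of flats of `V` with at most `κ` flats through a general point.  Architect helper69.
Replaces the Chern/Segre class computation of `conc:degree`.

`Y = zeroLocus p`, `p` prime, `h = vdim Y < r`, `t := cnPiPoly Z₀` (the `r` linear forms `μ ↦ π_{Z₀} μ`), `W := zcl (π_{Z₀} Y) = zeroLocus q`, `q := comap (aeval t) p` (`ph_zcl_image`, `cn_pmap_piPoly`).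

## LEAF CN-DEG-D (`cn_deg_Z0`): choice of the slice
`C := cnInf p` is a cone (`cn_inf_cone`) of dimension `≤ h < r` (`cn_inf_vdim`); `β` from `cn_bad_poly`.  `μ₁ ∈ Y`, `z₁ ∈ cnFlat μ₁`, `H z₁ ≠ 0`; `β_H := aeval (Sum.elim X (cnPiZ μ₁)) H ∈ MvPolynomial (CnSk r) ℂ`, `eval Z β_H = eval (cnGr μ₁ Z) H` (`cn_eval_piZ`), and `z₁ = cnGr μ₁ (cnZ z₁)` (`cn_flat_eq_range`), so `β_H ≠ 0`.
Choose `Z₀` with `eval Z₀ (β * β_H) ≠ 0` (`MvPolynomial.funext` / `exists_eval_ne_zero`-type over the infinite field `ℂ`).  `cn_filtfin_of_inf p (cnPiPoly Z₀)` (`cn_piPoly_homog`, `cn_eval_piPoly`).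

## LEAF CN-DEG-E (`cn_deg_count`): counting in a generic fibre
`q` is prime (`Ideal.comap_isPrime`), `≠ ⊤`.  `ph_exists_npos q`: `k'`, `s`, `NPos q s`.  `cn_npos_comp`: `NPos p (s ∘ t)`.  `ph_vdim_of_npos` twice: `vdim Y = k' = vdim W`.
`u := aeval (Sum.elim (fun p => C (Z₀ p)) X) H ∈ MvPolynomial (Fin r) ℂ`, `eval w u = eval (Sum.elim Z₀ w) H`; `u ∉ q` because `u(π_{Z₀} μ₁) = eval (cnGr μ₁ Z₀) H ≠ 0` and `π_{Z₀} μ₁ ∈ W`.  `a'` from `cn_gen_avoid q s u`, `a` from `ph_gen_points p (s ∘ t)`; choose `c` with `eval c (a * a') ≠ 0`.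
`𝔄 := {μ ∈ Y | ∀ i, eval μ (aeval t (s i)) = c i}`, `ncard 𝔄 = vdeg Y`, finite (`ph_fibre_finite`);  `𝔅 := {w ∈ W | ∀ i, eval w (s i) = c i}`, finite, `ncard 𝔅 ≤ vdeg W` (`ph_fibre_card_le`).
`π_{Z₀}` maps `𝔄` to `𝔅` (`eval μ (aeval t g) = eval (π_{Z₀} μ) g`); for `w ∈ 𝔅`: `u(w) ≠ 0` (`a'(c) ≠ 0`), so `z := Sum.elim Z₀ w` has `H z ≠ 0`, and `μ ∈ Y`, `π_{Z₀} μ = w` means `z ∈ cnFlat μ`: at most `κ` such `μ` (`CnFew`).
`Finset.card_le_mul_card_image` (after `Set.Finite.toFinset`): `ncard 𝔄 ≤ κ ncard 𝔅`.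
-/

set_option autoImplicit false

namespace Claimed.Agent.R273

open MvPolynomial Module

variable {r : ℕ}

/-- a nonzero polynomial over `ℂ` has a non-zero value -/
theorem cn_deg_exists_ne {ι : Type*} (f : MvPolynomial ι ℂ) (hf : f ≠ 0) : ∃ x, eval x f ≠ 0 := by
  by_contra hcon
  push Not at hcon
  exact hf (MvPolynomial.funext fun x => by rw [hcon x, map_zero])

theorem cn_deg_Z0 (p : Ideal (MvPolynomial (CnP r) ℂ)) (hp : p.IsPrime)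
    (hdim : vdim (zeroLocus ℂ p) < r) (H : MvPolynomial (CnI r) ℂ)
    (hne : ∃ μ ∈ zeroLocus ℂ p, ∃ z ∈ cnFlat μ, eval z H ≠ 0) :
    ∃ Z₀ : CnSk r → ℂ, FiltFin p (cnPiPoly Z₀) ∧ ∃ μ ∈ zeroLocus ℂ p, eval (cnGr μ Z₀) H ≠ 0 := by
  obtain ⟨β, hβ0, hβ⟩ := cn_bad_poly (cnInf p) (cn_inf_cone p) ((cn_inf_vdim p hp).trans_lt hdim)
  obtain ⟨μ₁, hμ₁, z₁, hz₁, hH⟩ := hne
  set βH : MvPolynomial (CnSk r) ℂ :=
    aeval (Sum.elim (X : CnSk r → MvPolynomial (CnSk r) ℂ) (cnPiZ μ₁)) H with hβH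
  have hev : ∀ Z : CnSk r → ℂ, eval Z βH = eval (cnGr μ₁ Z) H := by
    intro Z
    rw [hβH, ← ph_eval_pmap]
    congr 2
    funext i
    rcases i with i | i
    · simp [pmap, cnGr]
    · simp [pmap, cnGr, cn_eval_piZ]
  have hβH0 : βH ≠ 0 := by
    rw [cn_flat_eq_range] at hz₁
    obtain ⟨Z, rfl⟩ := hz₁
    intro h0
    apply hH
    rw [← hev, h0, map_zero]
  obtain ⟨Z₀, hZ₀⟩ := cn_deg_exists_ne (β * βH) (mul_ne_zero hβ0 hβH0)
  rw [map_mul] at hZ₀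
  refine ⟨Z₀, cn_filtfin_of_inf p (cnPiPoly Z₀) (cn_piPoly_homog Z₀) fun x hx h0 => ?_,
    μ₁, hμ₁, ?_⟩
  · refine hβ Z₀ (left_ne_zero_of_mul hZ₀) x hx (funext fun i => ?_)
    rw [← cn_eval_piPoly]
    exact h0 i
  · rw [← hev]
    exact right_ne_zero_of_mul hZ₀

theorem cn_deg_count (p : Ideal (MvPolynomial (CnP r) ℂ)) (hp : p.IsPrime)
    (H : MvPolynomial (CnI r) ℂ) (κ : ℕ) (hfew : ∀ z, eval z H ≠ 0 → CnFew (zeroLocus ℂ p) z κ)
    (Z₀ : CnSk r → ℂ) (hfin : FiltFin p (cnPiPoly Z₀))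
    (hne : ∃ μ ∈ zeroLocus ℂ p, eval (cnGr μ Z₀) H ≠ 0) :
    IsVar (zcl (cnPi Z₀ '' zeroLocus ℂ p)) ∧
      vdim (zcl (cnPi Z₀ '' zeroLocus ℂ p)) = vdim (zeroLocus ℂ p) ∧
      vdeg (zeroLocus ℂ p) ≤ κ * vdeg (zcl (cnPi Z₀ '' zeroLocus ℂ p)) := by
  classical
  set t := cnPiPoly Z₀ with ht
  set q : Ideal (MvPolynomial (Fin r) ℂ) :=
    p.comap (aeval t : MvPolynomial (Fin r) ℂ →ₐ[ℂ] MvPolynomial (CnP r) ℂ) with hq
  have hqp : q.IsPrime := Ideal.comap_isPrime _ _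
  have hW : zcl (cnPi Z₀ '' zeroLocus ℂ p) = zeroLocus ℂ q := by
    rw [← cn_pmap_piPoly, ph_zcl_image p hp]
  rw [hW]
  obtain ⟨k', s, _, hs⟩ := ph_exists_npos q hqp.ne_top
  have hlin : ∀ i, (t i).totalDegree ≤ 1 := fun i => (cn_piPoly_homog Z₀ i).totalDegree_le
  have hs' : NPos p (fun i => aeval t (s i)) := cn_npos_comp p t hlin hfin s hs
  have hd1 : vdim (zeroLocus ℂ q) = k' := ph_vdim_of_npos q hqp s hs
  have hd2 : vdim (zeroLocus ℂ p) = k' := ph_vdim_of_npos p hp _ hs'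
  refine ⟨⟨q, hqp, rfl⟩, hd1.trans hd2.symm, ?_⟩
  -- the image of a point of `Y`
  have hmap : ∀ μ ∈ zeroLocus ℂ p, cnPi Z₀ μ ∈ zeroLocus ℂ q := by
    intro μ hμ
    rw [ph_mem_zeroLocus] at hμ ⊢
    intro g hg
    rw [← cn_pmap_piPoly, ph_eval_pmap]
    exact hμ _ hg
  -- the test polynomial on the slice
  set u : MvPolynomial (Fin r) ℂ :=
    aeval (Sum.elim (fun a : CnSk r => (C (Z₀ a) : MvPolynomial (Fin r) ℂ)) X) H with hu
  have hev : ∀ w : Fin r → ℂ, eval w u = eval (Sum.elim Z₀ w) H := by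
    intro w
    rw [hu, ← ph_eval_pmap]
    congr 2
    funext i
    rcases i with i | i
    · simp [pmap]
    · simp [pmap]
  have huq : u ∉ q := by
    obtain ⟨μ₁, hμ₁, hH⟩ := hne
    intro hmem
    apply hH
    have := (ph_mem_zeroLocus q _).1 (hmap μ₁ hμ₁) u hmem
    rw [hev] at this
    exact this
  obtain ⟨a', ha'0, ha'⟩ := cn_gen_avoid q hqp s hs u huq
  obtain ⟨a, ha0, ha⟩ := ph_gen_points p hp _ hs'
  obtain ⟨c, hc⟩ := cn_deg_exists_ne (a * a') (mul_ne_zero ha0 ha'0)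
  rw [map_mul] at hc
  have hA1 := ha c (left_ne_zero_of_mul hc)
  have hAfin := ph_fibre_finite p _ hs'.fin c
  have hBfin := ph_fibre_finite q s hs.fin c
  have hB1 := ph_fibre_card_le q hqp s hs c
  rw [← hA1, Set.ncard_eq_toFinset_card _ hAfin]
  rw [Set.ncard_eq_toFinset_card _ hBfin] at hB1
  have himg : hAfin.toFinset.image (cnPi Z₀) ⊆ hBfin.toFinset := by
    intro w hw
    obtain ⟨μ, hμ, rfl⟩ := Finset.mem_image.1 hw
    rw [hAfin.mem_toFinset] at hμ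
    rw [hBfin.mem_toFinset]
    refine ⟨hmap μ hμ.1, fun i => ?_⟩
    rw [← cn_pmap_piPoly, ph_eval_pmap]
    exact hμ.2 i
  have hfib : ∀ w ∈ hAfin.toFinset.image (cnPi Z₀),
      (hAfin.toFinset.filter fun μ => cnPi Z₀ μ = w).card ≤ κ := by
    intro w hw
    have hwB := (hBfin.mem_toFinset).1 (himg hw)
    have huw : eval w u ≠ 0 := by
      intro h0
      apply right_ne_zero_of_mul hc
      have := ha' w hwB.1 h0
      have e : (fun i => eval w (s i)) = c := funext hwB.2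
      rwa [e] at this
    rw [hev] at huw
    refine hfew _ huw _ fun μ hμ => ?_
    obtain ⟨hμA, hμw⟩ := Finset.mem_filter.1 hμ
    exact ⟨((hAfin.mem_toFinset).1 hμA).1, hμw.symm⟩
  calc hAfin.toFinset.card ≤ κ * (hAfin.toFinset.image (cnPi Z₀)).card :=
        Finset.card_le_mul_card_image _ _ hfib
    _ ≤ κ * hBfin.toFinset.card := Nat.mul_le_mul_left _ (Finset.card_le_card himg)
    _ ≤ κ * vdeg (zeroLocus ℂ q) := Nat.mul_le_mul_left _ hB1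

theorem cn_deg {r : ℕ} (hr : 2 ≤ r) : CnDegStmt r := by
  refine ⟨2 ^ (r.choose 2 + r), ?_⟩
  intro h κ V Y H hV hY hh hdimV hdimY hYV hne hfew
  obtain ⟨p, hp, rfl⟩ := hY
  obtain ⟨Z₀, hfin, hne'⟩ := cn_deg_Z0 p hp (by omega) H hne
  obtain ⟨hW, hWdim, hle⟩ := cn_deg_count p hp H κ hfew Z₀ hfin hne'
  have h2 := cn_slice_vdeg hV (zeroLocus ℂ p) hYV Z₀ hW (by rw [hWdim, hdimV, hdimY])
  have h3 : 2 ^ vdim V ≤ 2 ^ (r.choose 2 + r) :=
    Nat.pow_le_pow_right (by norm_num) (by omega)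
  calc vdeg (zeroLocus ℂ p) ≤ κ * vdeg (zcl (cnPi Z₀ '' zeroLocus ℂ p)) := hle
    _ ≤ κ * (2 ^ vdim V * vdeg V) := Nat.mul_le_mul_left _ h2
    _ ≤ κ * (2 ^ (r.choose 2 + r) * vdeg V) :=
        Nat.mul_le_mul_left _ (Nat.mul_le_mul_right _ h3)
    _ = 2 ^ (r.choose 2 + r) * κ * vdeg V := by ring

end Claimed.Agent.R273
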