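import Claimed.Agent.R273.PhMap

/-!
# Row 273, App A, unit DEG': GENERAL LEMMAS on top of POLY-A (arbitrary index types, nothing about flats).  Architect helper69.  Prefix `cn_`.

Tools (all sorry-free in PhLin.lean): `ph_hA_eq_hI`, `ph_finrank_le_hI` (an injective-mod-`I` linear family of polynomials of degree `≤ D` has dimension `≤ hI I D`), `ph_card_le_hI`, `ph_hI_le_card`, `ph_rank_le_hI`.

## LEAF CN-GEN-A (dimension of arbitrary sets): `cn_hA_le_of_vdim` .. `cn_exists_poly_of_vdim_lt`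
* `cn_hA_le_of_vdim`: the set in the definition of `vdim` is nonempty (`k = card ι`: `rk_hA_le_choose`, `binom(n+D,D) ≤ (D+1)^n`), `Nat.sInf_mem`.   `cn_vdim_le_of_pow`: `Nat.sInf_le`.
* `cn_hA_image_le`: `g ↦ aeval ψ g` maps degree `≤ D` to degree `≤ e D` (as `ph_totalDegree_aeval_le`, with `e` instead of `1`) and `g` vanishes on `ψ(T)` iff `aeval ψ g` vanishes on `T`:
   `hA (ψ T) D = hI (vanishingIdeal (ψ T)) D`; apply `ph_hI_le_finrank`/`ph_finrank_map_le_of_ker`-type comparison: choose `f_1..f_m` of degree `≤ D` independent on `ψ(T)`, `m = hA (ψ T) D` (e.g. a basis of a complement); `aeval ψ f_i` are independent on `T`: `ph_card_le_hI`.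
* `cn_vdim_image_le`: `e := ∑ j, (ψ j).totalDegree`; `hA T (e D) ≤ C (e D + 1)^k ≤ C (e+1)^k (D+1)^k`.
* `cn_hA_prod_le`: from `ph_prod_hA`: every factor `hA Y (D - a) ≤ hA Y D` (`rk_hA_mono_deg`) and the first factors telescope to `hA X D`.
* `cn_exists_poly_of_vdim_lt`: otherwise `vanishingIdeal T = ⊥`, `hA T D = hA univ D = binom(n + D, D) ≥ (D+1)^n / n!`, against `hA T D ≤ C (D+1)^(n-1)` for `D + 1 > C n!`.

## LEAF CN-GEN-B (cone lemma): `cn_cone_hA`, `cn_cone_vdim`
`C_i := {x ∈ C | x i = 1}`.  For `f` of degree `≤ D` and `D ≤ e` put `F_e(f) := ∑_{d ≤ D} X_i^(e-d) * homogeneousComponent d f` (linear in `f`, degree `≤ e`); for `x ∈ C_i`, `s ∈ ℂ`: `eval (s • x) (F_e f) = s^e eval x f`.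
`E := (Fin (D+1) → U)`, `U` := a complement of `{f | f = 0 on C_i}` in degree `≤ D` (or: `U` spanned by `m = hA C_i D` polynomials independent on `C_i`; use `ph_card_le_hI` with the index type `Fin (D+1) × Fin m`):
if `∑_{e,j} c_{e,j} F_{D+e}(f_j)` vanishes on `C` then for `x ∈ C_i` the polynomial `s ↦ ∑_e s^(D+e) (∑_j c_{e,j} f_j(x))` vanishes identically, so each coefficient vanishes (`Polynomial.funext`/Vandermonde), so `c = 0`.
`cn_cone_vdim`: `h := vdim C`, `hA C D ≤ c (D+1)^h`.  `h = 0` is impossible (`(D+1) hA C_i D ≤ c`, `hA C_i D ≥ 1` as `C_i ≠ ∅`).  `h ≥ 1`: `(D+1) hA C_i D ≤ c (2D+1)^h ≤ c 2^h (D+1)^h`; cancel; `cn_vdim_le_of_pow`.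

## LEAF CN-GEN-C (asymptotic cone): `cn_graded_dim`, `cn_inf_cone`, `cn_inf_hA`, `cn_inf_vdim`
`cnLead f` = top homogeneous component; `cnInf I` = common zeros of the `cnLead f`, `f ∈ I`.
`cn_inf_hA`: `U := I ∩ P_{≤D}`, `U' := {f ∈ P_{≤D} | f = 0 on cnInf I}`; `hI I D = dim P_{≤D} - dim U`, `hA (cnInf I) D = dim P_{≤D} - dim U'`; `dim U ≤ dim U'`:
 `U_d := U ∩ P_{≤d}`; `homogeneousComponent d : U_d → U' ∩ (forms of degree d)` has kernel `U_{d-1}` (for `f ∈ U_d` the component of degree `d` is `0` or `cnLead f`); the spaces `U' ∩ (forms of degree d)`, `d ≤ D`, are independent inside `U'`.  (Induction on `d`: `dim U_d ≤ dim (U' ∩ P_{≤d})`.)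
`cn_inf_vdim`: `hA (cnInf p) D ≤ hI p D = hA (zeroLocus p) D` (`ph_hA_zeroLocus_prime`), `cn_hA_le_of_vdim`, `cn_vdim_le_of_pow`.

## LEAF CN-GEN-D (**NP-crit**: no common zero at infinity ⇒ filtered finiteness): `cn_filtfin_of_inf`
`J := span (cnLead '' I ∪ range t)`.  `zeroLocus J ⊆ {0}`, so every `X i` lies in `J.radical` (Nullstellensatz `vanishingIdeal_zeroLocus_eq_radical`), `X i ^ N ∈ J`; with `N' := card ι * N` every monomial of degree `≥ N'` lies in `J`.
(H) a form `F` of degree `d` in `J` is `∑_l u_l cnLead(g_l) + ∑_i w_i t_i`, `g_l ∈ I`, `u_l` a form of degree `d - deg g_l` (or `0`), `w_i` a form of degree `d - 1` (or `0`): take the component of degree `d` of an arbitrary representation (`homogeneousComponent` of `u * G`, `G` a form of degree `e`, is `homogeneousComponent (d - e) u * G`, `0` if `d < e`).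
`b` := the monomials of degree `< N'`.  Claim by strong induction on `d`: every `f` of degree `≤ d` is `≡ ∑ a_j(t) b_j` with `a_j = 0 ∨ deg a_j + deg b_j ≤ deg f`.  `deg f < N'`: constants.  `deg f = d ≥ N'`: `cnLead f = ∑ u_l cnLead g_l + ∑ w_i t_i`; `f' := f - ∑ u_l g_l - ∑ w_i t_i` has degree `< d`; `f ≡ f' + ∑ w_i t_i`; induction for `f'` and the `w_i` (degree `d - 1`); `a_j := a'_j + ∑_i X_i a^{(i)}_j`.

## LEAF CN-GEN-E: `cn_npos_comp` (helper94's plan of `ph_npos_comp`; only `lin` and `FiltFin` of `t` are used), `cn_gen_avoid`, `cn_low_var`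
* `cn_gen_avoid` (helper120): `u` is integral over `ℂ[s]` modulo `q` (`ph_filtfin_integral`); take a monic relation `u^N + a_1(s) u^(N-1) + .. + a_N(s) ∈ q` of minimal `N`; `a_N ≠ 0` (otherwise cancel `u`: `q` prime, `u ∉ q`; `N ≥ 1` because `1 ∉ q`); `u(x) = 0 ⇒ a_N(s(x)) = 0`.
* `cn_low_var`: `V = zeroLocus p`, `p = span S`, `S` finite (`IsNoetherian`), `L` := max degree; `p ∈ minimalPrimes (span S)`; `ph_hilbert_low` with `𝒱 = {V}`; `q := n (L - 1)`.
-/

set_option autoImplicit false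

namespace Claimed.Agent.R273

open MvPolynomial Module

variable {ι κ : Type*} [Fintype ι] [Fintype κ]

/-! ### CN-GEN-A -/

theorem cn_hA_le_of_vdim (T : Set (ι → ℂ)) : ∃ C : ℕ, ∀ D, hA T D ≤ C * (D + 1) ^ vdim T := by
  have hne : {k | ∃ C : ℕ, ∀ D, hA T D ≤ C * (D + 1) ^ k}.Nonempty :=
    ⟨Fintype.card ι, 1, fun D => (ph_hA_le_choose T D).trans
      (Nat.mul_le_mul_left _ (ph_choose_le_pow D _))⟩
  exact Nat.sInf_mem hne

theorem cn_vdim_le_of_pow (T : Set (ι → ℂ)) (k C : ℕ) (h : ∀ D, hA T D ≤ C * (D + 1) ^ k) :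
    vdim T ≤ k :=
  Nat.sInf_le ⟨C, h⟩

theorem cn_hA_image_le (ψ : κ → MvPolynomial ι ℂ) (e : ℕ) (hψ : ∀ j, (ψ j).totalDegree ≤ e)
    (T : Set (ι → ℂ)) (D : ℕ) : hA (pmap ψ '' T) D ≤ hA T (e * D) :=
  ph_hA_image_le ψ e hψ T D

theorem cn_vdim_image_le (ψ : κ → MvPolynomial ι ℂ) (T : Set (ι → ℂ)) :
    vdim (pmap ψ '' T) ≤ vdim T :=
  ph_vdim_pmap_image_le ψ T

theorem cn_telescope (f : ℕ → ℕ) (hf : Monotone f) (D : ℕ) :
    ∑ a ∈ Finset.range (D + 1), (f a - if a = 0 then 0 else f (a - 1)) = f D := by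
  induction D with
  | zero => simp
  | succ D ih =>
    rw [Finset.sum_range_succ, ih, if_neg (Nat.succ_ne_zero D), Nat.add_sub_cancel]
    have : f D ≤ f (D + 1) := hf (Nat.le_succ D)
    omega

theorem cn_hA_prod_le (X : Set (ι → ℂ)) (Y : Set (κ → ℂ)) (D : ℕ) :
    hA (prodSet X Y) D ≤ hA X D * hA Y D := by
  rw [ph_prod_hA, ← cn_telescope (fun a => hA X a) (fun a b h => rk_hA_mono_deg X h) D,
    Finset.sum_mul]
  refine Finset.sum_le_sum fun a _ => Nat.mul_le_mul_left _ ?_
  exact rk_hA_mono_deg Y (Nat.sub_le D a)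

theorem cn_vdim_prod_le (X : Set (ι → ℂ)) (Y : Set (κ → ℂ)) :
    vdim (prodSet X Y) ≤ vdim X + vdim Y := by
  obtain ⟨C, hC⟩ := cn_hA_le_of_vdim X
  obtain ⟨C', hC'⟩ := cn_hA_le_of_vdim Y
  refine cn_vdim_le_of_pow _ _ (C * C') fun D => ?_
  calc hA (prodSet X Y) D ≤ hA X D * hA Y D := cn_hA_prod_le X Y D
    _ ≤ (C * (D + 1) ^ vdim X) * (C' * (D + 1) ^ vdim Y) := Nat.mul_le_mul (hC D) (hC' D)
    _ = C * C' * (D + 1) ^ (vdim X + vdim Y) := by rw [pow_add]; ring

theorem cn_exists_poly_of_vdim_lt (T : Set (ι → ℂ)) (h : vdim T < Fintype.card ι) :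
    ∃ β : MvPolynomial ι ℂ, β ≠ 0 ∧ ∀ x ∈ T, eval x β = 0 := by
  by_contra hcon
  push Not at hcon
  have hA_eq : ∀ D, hA T D = hA (Set.univ : Set (ι → ℂ)) D := by
    intro D
    apply rk_rkOn_congr_ker
    intro f _
    constructor
    · intro h0 x _
      by_cases hf : f = 0
      · rw [hf, map_zero]
      · obtain ⟨y, hy, hne⟩ := hcon f hf
        exact absurd (h0 y hy) hne
    · exact fun h0 x _ => h0 x (Set.mem_univ x)
  have hv : vdim T = vdim (Set.univ : Set (ι → ℂ)) := by
    unfold vdim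
    simp only [hA_eq]
  rw [hv, (ph_univ (ι := ι)).2.1] at h
  exact lt_irrefl _ h

/-! ### CN-GEN-B -/

theorem cn_exists_indep (T : Set (ι → ℂ)) (D : ℕ) :
    ∃ f : Fin (hA T D) → MvPolynomial ι ℂ, (∀ j, (f j).totalDegree ≤ D) ∧
      ∀ c : Fin (hA T D) → ℂ, (∀ x ∈ T, ∑ j, c j * eval x (f j) = 0) → ∀ j, c j = 0 := by
  rw [ph_hA_eq_map]
  have hb := Module.finBasis ℂ ((restrictTotalDegree ι ℂ D).map (phRes T))
  have hex : ∀ j, ∃ f : MvPolynomial ι ℂ, f.totalDegree ≤ D ∧ phRes T f = (hb j : T → ℂ) := by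
    intro j
    obtain ⟨f, hf, hfe⟩ := (hb j).2
    exact ⟨f, (mem_restrictTotalDegree ι D f).mp hf, hfe⟩
  choose f hf1 hf2 using hex
  refine ⟨f, hf1, fun c hc => ?_⟩
  have hli := hb.linearIndependent
  rw [Fintype.linearIndependent_iff] at hli
  apply hli c
  apply Subtype.ext
  funext x
  simp only [Submodule.coe_sum, Submodule.coe_smul, ZeroMemClass.coe_zero, Finset.sum_apply,
    Pi.smul_apply, Pi.zero_apply, smul_eq_mul, ← hf2]
  exact hc x.1 x.2

theorem cn_homog_eval_smul {F : MvPolynomial ι ℂ} {a : ℕ} (hF : F.IsHomogeneous a) (t : ℂ)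
    (v : ι → ℂ) : eval (t • v) F = t ^ a * eval v F := by
  rw [eval_eq', eval_eq', Finset.mul_sum]
  refine Finset.sum_congr rfl fun d hd => ?_
  have hdeg : ∑ i, d i = a := by
    have := hF (mem_support_iff.mp hd)
    rw [← Finsupp.degree_eq_sum, Finsupp.degree_eq_weight_one]
    exact this
  simp only [Pi.smul_apply, smul_eq_mul, mul_pow, Finset.prod_mul_distrib,
    Finset.prod_pow_eq_pow_sum, hdeg]
  ring

/-- homogenisation to degree `e` with respect to the variable `i` -/
noncomputable def cnHom (i : ι) (D e : ℕ) (f : MvPolynomial ι ℂ) : MvPolynomial ι ℂ :=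
  ∑ d ∈ Finset.range (D + 1), X i ^ (e - d) * homogeneousComponent d f

omit [Fintype ι] in
theorem cn_hom_deg (i : ι) (D e : ℕ) (h : D ≤ e) (f : MvPolynomial ι ℂ) :
    (cnHom i D e f).totalDegree ≤ e := by
  refine totalDegree_finsetSum_le fun d hd => ?_
  have hd' : d ≤ D := Nat.lt_succ_iff.mp (Finset.mem_range.mp hd)
  refine (totalDegree_mul _ _).trans ?_
  have h1 : (X i ^ (e - d) : MvPolynomial ι ℂ).totalDegree ≤ e - d := by
    refine (totalDegree_pow _ _).trans ?_
    rw [totalDegree_X, mul_one]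
  have h2 := (homogeneousComponent_isHomogeneous d f).totalDegree_le
  omega

theorem cn_hom_eval (i : ι) (D e : ℕ) (h : D ≤ e) (f : MvPolynomial ι ℂ) (hf : f.totalDegree ≤ D)
    (x : ι → ℂ) (hx : x i = 1) (s : ℂ) : eval (s • x) (cnHom i D e f) = s ^ e * eval x f := by
  have hsum : f = ∑ d ∈ Finset.range (D + 1), homogeneousComponent d f := by
    conv_lhs => rw [← sum_homogeneousComponent f]
    refine Finset.sum_subset (Finset.range_mono (by omega)) fun d _ hd => ?_
    apply homogeneousComponent_eq_zero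
    rw [Finset.mem_range] at hd
    omega
  conv_rhs => rw [hsum]
  rw [cnHom, map_sum, map_sum, Finset.mul_sum]
  refine Finset.sum_congr rfl fun d hd => ?_
  have hd' : d ≤ D := Nat.lt_succ_iff.mp (Finset.mem_range.mp hd)
  rw [map_mul, map_pow, eval_X, cn_homog_eval_smul (homogeneousComponent_isHomogeneous d f),
    Pi.smul_apply, hx, smul_eq_mul, mul_one, ← mul_assoc, ← pow_add]
  congr 2
  omega

theorem cn_cone_hA (C : Set (ι → ℂ)) (hC : ∀ x ∈ C, ∀ s : ℂ, s • x ∈ C) (i : ι) (D : ℕ) :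
    (D + 1) * hA {x ∈ C | x i = 1} D ≤ hA C (2 * D) := by
  classical
  have hex := cn_exists_indep {x ∈ C | x i = 1} D
  obtain ⟨m, hm⟩ : ∃ m, m = hA {x ∈ C | x i = 1} D := ⟨_, rfl⟩
  rw [← hm] at hex ⊢
  obtain ⟨f, hf1, hf2⟩ := hex
  rw [ph_hA_eq_hI]
  have hcard : Fintype.card (Fin (D + 1) × Fin m) = (D + 1) * m := by simp
  rw [← hcard]
  apply ph_card_le_hI _ _ (fun ej : Fin (D + 1) × Fin m => cnHom i D (D + ej.1) (f ej.2))
  · intro ej
    refine (cn_hom_deg i D _ (Nat.le_add_right _ _) _).trans ?_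
    have := ej.1.2
    omega
  · intro c hc
    rw [ph_mem_vanishingIdeal] at hc
    have key : ∀ x ∈ {x ∈ C | x i = 1}, ∀ e : Fin (D + 1), ∑ j, c (e, j) * eval x (f j) = 0 := by
      intro x hx
      have hP : (∑ e : Fin (D + 1), Polynomial.C (∑ j, c (e, j) * eval x (f j)) *
          Polynomial.X ^ (D + (e : ℕ)) : Polynomial ℂ) = 0 := by
        apply Polynomial.funext
        intro s
        have := hc (s • x) (hC x hx.1 s)
        rw [map_sum, Fintype.sum_prod_type] at this
        rw [Polynomial.eval_finsetSum, Polynomial.eval_zero, ← this]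
        refine Finset.sum_congr rfl fun e _ => ?_
        rw [Polynomial.eval_mul, Polynomial.eval_C, Polynomial.eval_pow, Polynomial.eval_X,
          Finset.sum_mul]
        refine Finset.sum_congr rfl fun j _ => ?_
        rw [map_mul, eval_C, cn_hom_eval i D _ (Nat.le_add_right _ _) _ (hf1 j) x hx.2]
        ring
      intro e
      have := congrArg (fun P => Polynomial.coeff P (D + (e : ℕ))) hP
      simp only [Polynomial.finsetSum_coeff, Polynomial.coeff_C_mul, Polynomial.coeff_X_pow,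
        Polynomial.coeff_zero] at this
      rw [Finset.sum_eq_single e] at this
      · simpa using this
      · intro e' _ hne
        rw [if_neg, mul_zero]
        intro h
        apply hne
        apply Fin.ext
        omega
      · intro h; exact absurd (Finset.mem_univ e) h
    intro ej
    exact hf2 (fun j => c (ej.1, j)) (fun x hx => key x hx ej.1) ej.2

theorem cn_cone_vdim (C : Set (ι → ℂ)) (hC : ∀ x ∈ C, ∀ s : ℂ, s • x ∈ C) (i : ι)
    (hne : ∃ x ∈ C, x i = 1) : vdim {x ∈ C | x i = 1} + 1 ≤ vdim C := by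
  obtain ⟨c, hc⟩ := cn_hA_le_of_vdim C
  obtain ⟨h, hh⟩ : ∃ h, h = vdim C := ⟨_, rfl⟩
  rw [← hh] at hc ⊢
  have hne' : {x ∈ C | x i = 1}.Nonempty := by
    obtain ⟨x, hx, hxi⟩ := hne
    exact ⟨x, hx, hxi⟩
  have h1 : ∀ D, 1 ≤ hA {x ∈ C | x i = 1} D := fun D => by
    rw [← rk_hA_zero _ hne']
    exact rk_hA_mono_deg _ (Nat.zero_le D)
  rcases Nat.eq_zero_or_pos h with h0 | h0
  · exfalso
    have h2 := cn_cone_hA C hC i c
    have h3 := hc (2 * c)
    rw [h0, pow_zero, mul_one] at h3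
    have h4 : (c + 1) * 1 ≤ (c + 1) * hA {x ∈ C | x i = 1} c := Nat.mul_le_mul_left _ (h1 c)
    omega
  · obtain ⟨k, rfl⟩ : ∃ k, h = k + 1 := ⟨h - 1, by omega⟩
    refine Nat.succ_le_succ (cn_vdim_le_of_pow _ _ (c * 2 ^ (k + 1)) fun D => ?_)
    have h2 := cn_cone_hA C hC i D
    have h3 := hc (2 * D)
    have h4 : (2 * D + 1) ^ (k + 1) ≤ (2 * (D + 1)) ^ (k + 1) := Nat.pow_le_pow_left (by omega) _
    have h5 : (D + 1) * hA {x ∈ C | x i = 1} D ≤ (D + 1) * (c * 2 ^ (k + 1) * (D + 1) ^ k) := by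
      calc (D + 1) * hA {x ∈ C | x i = 1} D ≤ hA C (2 * D) := h2
        _ ≤ c * (2 * D + 1) ^ (k + 1) := h3
        _ ≤ c * (2 * (D + 1)) ^ (k + 1) := Nat.mul_le_mul_left _ h4
        _ = (D + 1) * (c * 2 ^ (k + 1) * (D + 1) ^ k) := by rw [mul_pow, pow_succ (D + 1)]; ring
    exact Nat.le_of_mul_le_mul_left h5 (Nat.succ_pos D)

/-! ### CN-GEN-C -/

/-- the leading form -/
noncomputable def cnLead (f : MvPolynomial ι ℂ) : MvPolynomial ι ℂ :=
  homogeneousComponent f.totalDegree f

/-- the asymptotic cone of an ideal: the common zeros of the leading forms -/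
def cnInf (I : Ideal (MvPolynomial ι ℂ)) : Set (ι → ℂ) := {x | ∀ f ∈ I, eval x (cnLead f) = 0}

theorem cn_inf_cone (I : Ideal (MvPolynomial ι ℂ)) : ∀ x ∈ cnInf I, ∀ s : ℂ, s • x ∈ cnInf I := by
  intro x hx s f hf
  have h1 : (cnLead f).IsHomogeneous f.totalDegree := homogeneousComponent_isHomogeneous _ _
  rw [cn_homog_eval_smul h1, hx f hf, mul_zero]

omit [Fintype ι] in
/-- a polynomial of degree `≤ d + 1` without component of degree `d + 1` has degree `≤ d` -/
theorem cn_degree_le_of_hc {f : MvPolynomial ι ℂ} {d : ℕ} (h1 : f.totalDegree ≤ d + 1)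
    (h2 : homogeneousComponent (d + 1) f = 0) : f.totalDegree ≤ d := by
  unfold totalDegree
  rw [Finset.sup_le_iff]
  intro s hs
  have h3 : s.degree ≤ d + 1 := (le_totalDegree hs).trans h1
  have h4 : s.degree ≠ d + 1 := by
    intro h
    have := congrArg (coeff s) h2
    rw [coeff_homogeneousComponent, if_pos h, coeff_zero] at this
    exact (mem_support_iff.mp hs) this
  have h5 : s.degree ≤ d := by omega
  exact h5

/-- the part of degree `≤ d` of an ideal -/
noncomputable def cnTr (K : Ideal (MvPolynomial ι ℂ)) (d : ℕ) : Submodule ℂ (MvPolynomial ι ℂ) :=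
  K.restrictScalars ℂ ⊓ restrictTotalDegree ι ℂ d

omit [Fintype ι] in
theorem cn_mem_tr {K : Ideal (MvPolynomial ι ℂ)} {d : ℕ} {f : MvPolynomial ι ℂ} :
    f ∈ cnTr K d ↔ f ∈ K ∧ f.totalDegree ≤ d := by
  unfold cnTr
  rw [Submodule.mem_inf, Submodule.restrictScalars_mem, mem_restrictTotalDegree]

instance cn_tr_finite (K : Ideal (MvPolynomial ι ℂ)) (d : ℕ) : Module.Finite ℂ (cnTr K d) :=
  Submodule.finiteDimensional_of_le (inf_le_right : cnTr K d ≤ restrictTotalDegree ι ℂ d)

theorem cn_hI_add_tr (K : Ideal (MvPolynomial ι ℂ)) (d : ℕ) :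
    hI K d + finrank ℂ (cnTr K d) = finrank ℂ (restrictTotalDegree ι ℂ d) := by
  apply le_antisymm
  · refine ph_finrank_map_add_le _ _ _ inf_le_right ?_
    intro f hf
    rw [LinearMap.mem_ker, ph_mkQ_eq_zero]
    exact (cn_mem_tr.mp hf).1
  · set π := (Ideal.Quotient.mkₐ ℂ K).toLinearMap with hπ
    set A := restrictTotalDegree ι ℂ d with hA
    have h1 := LinearMap.finrank_range_add_finrank_ker (π.domRestrict A)
    rw [LinearMap.range_domRestrict] at h1
    have h2 : LinearMap.ker (π.domRestrict A) ≤ (cnTr K d).comap A.subtype := by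
      intro f hf
      rw [LinearMap.mem_ker, LinearMap.domRestrict_apply, hπ, ph_mkQ_eq_zero] at hf
      rw [Submodule.mem_comap, cn_mem_tr]
      exact ⟨hf, (mem_restrictTotalDegree ι d _).mp f.2⟩
    have h3 := Submodule.finrank_mono h2
    have h4 : finrank ℂ ((cnTr K d).comap A.subtype) = finrank ℂ (cnTr K d) :=
      (Submodule.comapSubtypeEquivOfLe (inf_le_right : cnTr K d ≤ A)).finrank_eq
    have h5 : hI K d = finrank ℂ (A.map π) := rfl
    omega

omit [Fintype ι] in
theorem cn_hc_mem_vanishing (I : Ideal (MvPolynomial ι ℂ)) {f : MvPolynomial ι ℂ} (hf : f ∈ I)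
    {e : ℕ} (he : f.totalDegree ≤ e) :
    homogeneousComponent e f ∈ vanishingIdeal ℂ (cnInf I) := by
  rcases he.eq_or_lt with h | h
  · rw [mem_vanishingIdeal_iff]
    intro x hx
    rw [aeval_eq_eval, ← h]
    exact hx f hf
  · rw [homogeneousComponent_eq_zero _ _ h]
    exact Submodule.zero_mem _

theorem cn_tr_finrank_le (I : Ideal (MvPolynomial ι ℂ)) (d : ℕ) :
    finrank ℂ (cnTr I d) ≤ finrank ℂ (cnTr (vanishingIdeal ℂ (cnInf I)) d) := by
  set J := vanishingIdeal ℂ (cnInf I) with hJ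
  induction d with
  | zero =>
    apply Submodule.finrank_mono
    intro f hf
    obtain ⟨h1, h2⟩ := cn_mem_tr.mp hf
    refine cn_mem_tr.mpr ⟨?_, h2⟩
    have h3 := cn_hc_mem_vanishing I h1 h2
    have h4 : homogeneousComponent 0 f = f := by
      apply homogeneousComponent_eq_self
      exact isHomogeneous_of_totalDegree_zero _ (Nat.le_zero.mp h2)
    rwa [h4] at h3
  | succ d ih =>
    set G : Submodule ℂ (MvPolynomial ι ℂ) :=
      J.restrictScalars ℂ ⊓ homogeneousSubmodule ι ℂ (d + 1) with hG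
    have hGle : G ≤ cnTr J (d + 1) := inf_le_inf_left _ (rk_homog_le_restrict (d + 1))
    have : Module.Finite ℂ G := Submodule.finiteDimensional_of_le hGle
    -- upper bound
    have hup : finrank ℂ (cnTr I (d + 1)) ≤ finrank ℂ (cnTr I d) + finrank ℂ G := by
      set φ := (homogeneousComponent (d + 1) : MvPolynomial ι ℂ →ₗ[ℂ] MvPolynomial ι ℂ).domRestrict
        (cnTr I (d + 1)) with hφ
      have h1 := LinearMap.finrank_range_add_finrank_ker φ
      have h2 : LinearMap.range φ ≤ G := by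
        rintro _ ⟨f, rfl⟩
        obtain ⟨h3, h4⟩ := cn_mem_tr.mp f.2
        rw [hφ, LinearMap.domRestrict_apply]
        exact ⟨cn_hc_mem_vanishing I h3 h4, homogeneousComponent_mem _ _⟩
      have hle : cnTr I d ≤ cnTr I (d + 1) := inf_le_inf_left _ (rk_restrict_mono (Nat.le_succ d))
      have h3 : LinearMap.ker φ ≤ (cnTr I d).comap (cnTr I (d + 1)).subtype := by
        intro f hf
        rw [LinearMap.mem_ker, hφ, LinearMap.domRestrict_apply] at hf
        obtain ⟨h3, h4⟩ := cn_mem_tr.mp f.2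
        rw [Submodule.mem_comap]
        exact cn_mem_tr.mpr ⟨h3, cn_degree_le_of_hc h4 hf⟩
      have h4 := Submodule.finrank_mono h2
      have h5 := Submodule.finrank_mono h3
      have h6 : finrank ℂ ((cnTr I d).comap (cnTr I (d + 1)).subtype) = finrank ℂ (cnTr I d) :=
        (Submodule.comapSubtypeEquivOfLe hle).finrank_eq
      omega
    -- lower bound
    have hlow : finrank ℂ (cnTr J d) + finrank ℂ G ≤ finrank ℂ (cnTr J (d + 1)) := by
      have hle : cnTr J d ≤ cnTr J (d + 1) := inf_le_inf_left _ (rk_restrict_mono (Nat.le_succ d))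
      have h1 := Submodule.finrank_sup_add_finrank_inf_eq (cnTr J d) G
      have h2 : cnTr J d ⊓ G = ⊥ := by
        rw [eq_bot_iff]
        intro f hf
        obtain ⟨h3, h4⟩ := Submodule.mem_inf.mp hf
        rw [Submodule.mem_bot]
        by_contra hne
        have h5 : f.IsHomogeneous (d + 1) := h4.2
        have h6 := h5.totalDegree hne
        have h7 := (cn_mem_tr.mp h3).2
        omega
      rw [h2, finrank_bot, add_zero] at h1
      rw [← h1]
      exact Submodule.finrank_mono (sup_le hle hGle)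
    omega

theorem cn_inf_hA (I : Ideal (MvPolynomial ι ℂ)) (D : ℕ) : hA (cnInf I) D ≤ hI I D := by
  rw [ph_hA_eq_hI]
  have h1 := cn_hI_add_tr I D
  have h2 := cn_hI_add_tr (vanishingIdeal ℂ (cnInf I)) D
  have h3 := cn_tr_finrank_le I D
  omega

theorem cn_inf_vdim (p : Ideal (MvPolynomial ι ℂ)) (hp : p.IsPrime) :
    vdim (cnInf p) ≤ vdim (zeroLocus ℂ p) := by
  obtain ⟨C, hC⟩ := cn_hA_le_of_vdim (zeroLocus ℂ p)
  refine cn_vdim_le_of_pow _ _ C fun D => ?_
  calc hA (cnInf p) D ≤ hI p D := cn_inf_hA p D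
    _ = hA (zeroLocus ℂ p) D := (ph_hA_zeroLocus_prime p hp D).symm
    _ ≤ _ := hC D

/-! ### CN-GEN-D -/

omit [Fintype ι] in
theorem cn_hc_X_mul_succ (i : ι) (F : MvPolynomial ι ℂ) (d : ℕ) :
    homogeneousComponent (d + 1) (X i * F) = X i * homogeneousComponent d F := by
  classical
  ext m
  rw [coeff_homogeneousComponent, coeff_X_mul', coeff_X_mul']
  by_cases hi : i ∈ m.support
  · rw [if_pos hi, if_pos hi, coeff_homogeneousComponent]
    have h1 : m.degree = (m - Finsupp.single i 1).degree + 1 := by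
      have h2 : m = (m - Finsupp.single i 1) + Finsupp.single i 1 := by
        ext j
        by_cases hj : j = i
        · subst hj
          have : 1 ≤ m j := Nat.one_le_iff_ne_zero.mpr (Finsupp.mem_support_iff.mp hi)
          simp [this]
        · simp [Finsupp.single_apply, Ne.symm hj]
      conv_lhs => rw [h2]
      rw [map_add, Finsupp.degree_single]
    by_cases hd : (m - Finsupp.single i 1).degree = d
    · rw [if_pos hd, if_pos (by omega)]
    · rw [if_neg hd, if_neg (by omega)]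
  · rw [if_neg hi, if_neg hi]
    simp

omit [Fintype ι] in
theorem cn_hc_X_mul_zero (i : ι) (F : MvPolynomial ι ℂ) :
    homogeneousComponent 0 (X i * F) = 0 := by
  classical
  rw [homogeneousComponent_zero, coeff_X_mul']
  simp

/-- degree bookkeeping: `a = 0` or `deg a + n ≤ e` -/
def CnDg {σ : Type*} (a : MvPolynomial σ ℂ) (n e : ℕ) : Prop := a = 0 ∨ a.totalDegree + n ≤ e

theorem CnDg.zero {σ : Type*} (n e : ℕ) : CnDg (0 : MvPolynomial σ ℂ) n e := Or.inl rfl

theorem CnDg.add {σ : Type*} {a b : MvPolynomial σ ℂ} {n e : ℕ} (ha : CnDg a n e) (hb : CnDg b n e) :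
    CnDg (a + b) n e := by
  rcases ha with rfl | ha
  · rwa [zero_add]
  rcases hb with rfl | hb
  · rw [add_zero]; exact Or.inr ha
  · right
    have := totalDegree_add a b
    omega

theorem CnDg.sum {σ α : Type*} (s : Finset α) {a : α → MvPolynomial σ ℂ} {n e : ℕ}
    (ha : ∀ i ∈ s, CnDg (a i) n e) : CnDg (∑ i ∈ s, a i) n e := by
  classical
  induction s using Finset.induction_on with
  | empty => simpa using CnDg.zero n e
  | insert i s hi ih =>
    rw [Finset.sum_insert hi]
    exact (ha i (Finset.mem_insert_self i s)).add (ih fun j hj => ha j (Finset.mem_insert_of_mem hj))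

theorem CnDg.mul_left {σ : Type*} {a : MvPolynomial σ ℂ} {n e : ℕ} (ha : CnDg a n e)
    (u : MvPolynomial σ ℂ) {c : ℕ} (hu : u.totalDegree ≤ c) : CnDg (u * a) n (e + c) := by
  rcases ha with rfl | ha
  · rw [mul_zero]; exact CnDg.zero _ _
  · right
    have := totalDegree_mul u a
    omega

theorem CnDg.mono {σ : Type*} {a : MvPolynomial σ ℂ} {n e e' : ℕ} (ha : CnDg a n e) (h : e ≤ e') :
    CnDg a n e' := by
  rcases ha with rfl | ha
  · exact CnDg.zero _ _
  · exact Or.inr (ha.trans h)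

theorem CnDg.degree_le {σ : Type*} {a : MvPolynomial σ ℂ} {n e : ℕ} (ha : CnDg a n e) :
    a.totalDegree ≤ e - n := by
  rcases ha with rfl | ha
  · simp
  · omega

/-- the component of degree `d` of `F` is the component of degree `d` of an element of
`I + ∑ (degree ≤ d - 1) t_i` of degree `≤ d` -/
def CnQ {k : ℕ} (I : Ideal (MvPolynomial ι ℂ)) (t : Fin k → MvPolynomial ι ℂ)
    (F : MvPolynomial ι ℂ) (d : ℕ) : Prop :=
  ∃ g ∈ I, ∃ w : Fin k → MvPolynomial ι ℂ, g.totalDegree ≤ d ∧ (∀ i, CnDg (w i) 1 d) ∧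
    homogeneousComponent d (g + ∑ i, w i * t i) = homogeneousComponent d F

omit [Fintype ι] in
theorem cn_Q_of_hc_zero {k : ℕ} (I : Ideal (MvPolynomial ι ℂ)) (t : Fin k → MvPolynomial ι ℂ)
    {F : MvPolynomial ι ℂ} {d : ℕ} (h : homogeneousComponent d F = 0) : CnQ I t F d :=
  ⟨0, I.zero_mem, fun _ => 0, by simp, fun _ => CnDg.zero _ _, by simp [h]⟩

omit [Fintype ι] in
theorem CnQ.add {k : ℕ} {I : Ideal (MvPolynomial ι ℂ)} {t : Fin k → MvPolynomial ι ℂ}
    {F F' : MvPolynomial ι ℂ} {d : ℕ} (h : CnQ I t F d) (h' : CnQ I t F' d) : CnQ I t (F + F') d := by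
  obtain ⟨g, hg, w, h1, h2, h3⟩ := h
  obtain ⟨g', hg', w', h1', h2', h3'⟩ := h'
  refine ⟨g + g', I.add_mem hg hg', fun i => w i + w' i, ?_, fun i => (h2 i).add (h2' i), ?_⟩
  · exact (totalDegree_add g g').trans (max_le h1 h1')
  · rw [map_add _ F F', ← h3, ← h3', ← map_add]
    congr 1
    simp only [add_mul, Finset.sum_add_distrib]
    ring

omit [Fintype ι] in
theorem CnQ.C_mul {k : ℕ} {I : Ideal (MvPolynomial ι ℂ)} {t : Fin k → MvPolynomial ι ℂ}
    {F : MvPolynomial ι ℂ} {d : ℕ} (h : CnQ I t F d) (c : ℂ) : CnQ I t (C c * F) d := by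
  obtain ⟨g, hg, w, h1, h2, h3⟩ := h
  refine ⟨C c * g, I.mul_mem_left _ hg, fun i => C c * w i, ?_, fun i => ?_, ?_⟩
  · refine (totalDegree_mul _ _).trans ?_
    rw [totalDegree_C, zero_add]
    exact h1
  · simpa using (h2 i).mul_left (C c) (c := 0) (by rw [totalDegree_C])
  · rw [homogeneousComponent_C_mul, ← h3, ← homogeneousComponent_C_mul]
    congr 1
    rw [mul_add, Finset.mul_sum]
    simp only [mul_assoc]

omit [Fintype ι] in
theorem cn_Q_X_mul {k : ℕ} {I : Ideal (MvPolynomial ι ℂ)} {t : Fin k → MvPolynomial ι ℂ}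
    {F : MvPolynomial ι ℂ} (h : ∀ d, CnQ I t F d) (i : ι) : ∀ d, CnQ I t (X i * F) d := by
  intro d
  cases d with
  | zero => exact cn_Q_of_hc_zero I t (cn_hc_X_mul_zero i F)
  | succ d =>
    obtain ⟨g, hg, w, h1, h2, h3⟩ := h d
    refine ⟨X i * g, I.mul_mem_left _ hg, fun j => X i * w j, ?_, fun j => ?_, ?_⟩
    · refine (totalDegree_mul _ _).trans ?_
      rw [totalDegree_X]
      omega
    · exact (h2 j).mul_left (X i) (by rw [totalDegree_X])
    · rw [cn_hc_X_mul_succ, ← h3, ← cn_hc_X_mul_succ]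
      congr 1
      rw [mul_add, Finset.mul_sum]
      simp only [mul_assoc]

omit [Fintype ι] in
theorem cn_Q_mul {k : ℕ} {I : Ideal (MvPolynomial ι ℂ)} {t : Fin k → MvPolynomial ι ℂ}
    {F : MvPolynomial ι ℂ} (h : ∀ d, CnQ I t F d) (u : MvPolynomial ι ℂ) :
    ∀ d, CnQ I t (u * F) d := by
  induction u using MvPolynomial.induction_on with
  | C c => exact fun d => (h d).C_mul c
  | add p q hp hq =>
    intro d
    rw [add_mul]
    exact (hp d).add (hq d)
  | mul_X p i hp =>
    have := cn_Q_X_mul hp i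
    intro d
    have e : p * X i * F = X i * (p * F) := by ring
    rw [e]
    exact this d

omit [Fintype ι] in
theorem cn_Q_of_mem {k : ℕ} (I : Ideal (MvPolynomial ι ℂ)) (t : Fin k → MvPolynomial ι ℂ)
    (ht : ∀ i, (t i).IsHomogeneous 1) {F : MvPolynomial ι ℂ}
    (hF : F ∈ Ideal.span (cnLead '' (I : Set (MvPolynomial ι ℂ)) ∪ Set.range t)) :
    ∀ d, CnQ I t F d := by
  classical
  induction hF using Submodule.span_induction with
  | mem x hx =>
    intro d
    rcases hx with ⟨g, hg, rfl⟩ | ⟨i, rfl⟩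
    · by_cases hd : d = g.totalDegree
      · subst hd
        refine ⟨g, hg, fun _ => 0, le_rfl, fun _ => CnDg.zero _ _, ?_⟩
        have h1 : (cnLead g).IsHomogeneous g.totalDegree := homogeneousComponent_isHomogeneous _ _
        rw [homogeneousComponent_eq_self h1]
        simp [cnLead]
      · apply cn_Q_of_hc_zero
        have h1 : cnLead g ∈ homogeneousSubmodule ι ℂ g.totalDegree := homogeneousComponent_mem _ _
        rw [homogeneousComponent_of_mem h1, if_neg hd]
    · by_cases hd : d = 1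
      · subst hd
        refine ⟨0, I.zero_mem, fun j => if j = i then 1 else 0, by simp, fun j => ?_, ?_⟩
        · show CnDg (if j = i then 1 else 0) 1 1
          by_cases hj : j = i
          · rw [if_pos hj]
            right
            simp
          · rw [if_neg hj]
            exact CnDg.zero _ _
        · congr 1
          simp
      · apply cn_Q_of_hc_zero
        rw [homogeneousComponent_of_mem (ht i), if_neg hd]
  | zero => exact fun d => cn_Q_of_hc_zero I t (by simp)
  | add x y _ _ hx hy => exact fun d => (hx d).add (hy d)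
  | smul a x _ hx => exact cn_Q_mul hx a

theorem cn_exists_N {k : ℕ} (I : Ideal (MvPolynomial ι ℂ)) (t : Fin k → MvPolynomial ι ℂ)
    (h : ∀ x ∈ cnInf I, (∀ i, eval x (t i) = 0) → x = 0) :
    ∃ N : ℕ, 1 ≤ N ∧ ∀ (F : MvPolynomial ι ℂ) (e : ℕ), N ≤ e → F.IsHomogeneous e →
      F ∈ Ideal.span (cnLead '' (I : Set (MvPolynomial ι ℂ)) ∪ Set.range t) := by
  classical
  set J := Ideal.span (cnLead '' (I : Set (MvPolynomial ι ℂ)) ∪ Set.range t) with hJ
  have hX : ∀ i : ι, (X i : MvPolynomial ι ℂ) ∈ J.radical := by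
    intro i
    rw [← vanishingIdeal_zeroLocus_eq_radical (K := ℂ), mem_vanishingIdeal_iff]
    intro x hx
    rw [mem_zeroLocus_iff] at hx
    have hx0 : x = 0 := by
      apply h x
      · intro f hf
        have := hx (cnLead f) (Ideal.subset_span (Or.inl ⟨f, hf, rfl⟩))
        rwa [aeval_eq_eval] at this
      · intro j
        have := hx (t j) (Ideal.subset_span (Or.inr ⟨j, rfl⟩))
        rwa [aeval_eq_eval] at this
    simp [hx0]
  choose n hn using hX
  refine ⟨1 + ∑ i, n i, by omega, fun F e he hF => ?_⟩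
  rw [← support_sum_monomial_coeff F]
  refine Ideal.sum_mem _ fun m hm => ?_
  have hdeg : m.degree = e := by
    by_contra hne
    exact (mem_support_iff.mp hm) (hF.coeff_eq_zero hne)
  have hex : ∃ i, n i ≤ m i := by
    by_contra hcon
    push Not at hcon
    have h1 : m.degree ≤ ∑ i, n i := by
      rw [Finsupp.degree_eq_sum]
      exact Finset.sum_le_sum fun i _ => (hcon i).le
    omega
  obtain ⟨i, hi⟩ := hex
  have e1 : monomial m (coeff m F) =
      monomial (m - Finsupp.single i (n i)) (coeff m F) * X i ^ n i := by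
    rw [X_pow_eq_monomial, monomial_mul, mul_one]
    have e2 : m = (m - Finsupp.single i (n i)) + Finsupp.single i (n i) := by
      ext j
      by_cases hj : j = i
      · subst hj
        simp [hi]
      · simp [Finsupp.single_apply, Ne.symm hj]
    rw [← e2]
  rw [e1]
  exact J.mul_mem_left _ (hn i)

omit [Fintype ι] in
/-- filtered finiteness from a family indexed by an arbitrary finite type -/
theorem cn_filtfin_of_fintype {k : ℕ} {α : Type*} [Fintype α] (I : Ideal (MvPolynomial ι ℂ))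
    (t : Fin k → MvPolynomial ι ℂ) (b : α → MvPolynomial ι ℂ)
    (h : ∀ f : MvPolynomial ι ℂ, ∃ a : α → MvPolynomial (Fin k) ℂ,
      (∀ j, a j = 0 ∨ (a j).totalDegree + (b j).totalDegree ≤ f.totalDegree) ∧
        f - ∑ j, aeval t (a j) * b j ∈ I) : FiltFin I t := by
  refine ⟨Fintype.card α, b ∘ (Fintype.equivFin α).symm, fun f => ?_⟩
  obtain ⟨a, h1, h2⟩ := h f
  refine ⟨a ∘ (Fintype.equivFin α).symm, fun j => h1 _, ?_⟩
  have e1 : ∑ j, aeval t ((a ∘ (Fintype.equivFin α).symm) j) * (b ∘ (Fintype.equivFin α).symm) j =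
      ∑ j, aeval t (a j) * b j :=
    Equiv.sum_comp (Fintype.equivFin α).symm (fun j => aeval t (a j) * b j)
  rw [e1]
  exact h2

omit [Fintype ι] in
theorem cn_rep {k : ℕ} (I : Ideal (MvPolynomial ι ℂ)) (t : Fin k → MvPolynomial ι ℂ)
    (ht : ∀ i, (t i).IsHomogeneous 1) (N : ℕ) (hN1 : 1 ≤ N)
    (hN : ∀ (F : MvPolynomial ι ℂ) (e : ℕ), N ≤ e → F.IsHomogeneous e →
      F ∈ Ideal.span (cnLead '' (I : Set (MvPolynomial ι ℂ)) ∪ Set.range t))
    [Fintype {s : ι →₀ ℕ // s.degree < N}] (e : ℕ) :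
    ∀ f : MvPolynomial ι ℂ, f.totalDegree ≤ e →
      ∃ a : {s : ι →₀ ℕ // s.degree < N} → MvPolynomial (Fin k) ℂ,
        (∀ j, CnDg (a j) j.1.degree e) ∧ f - ∑ j, aeval t (a j) * monomial j.1 1 ∈ I := by
  classical
  induction e using Nat.strong_induction_on with
  | _ e ih =>
  intro f hf
  by_cases he : e < N
  · refine ⟨fun j => C (coeff j.1 f), fun j => ?_, ?_⟩
    · show CnDg (C (coeff j.1 f)) j.1.degree e
      by_cases hc : coeff j.1 f = 0
      · left
        rw [hc, C_0]
      · right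
        rw [totalDegree_C, zero_add]
        exact (le_totalDegree (mem_support_iff.mpr hc)).trans hf
    · have e1 : ∑ j : {s : ι →₀ ℕ // s.degree < N},
          aeval t (C (coeff j.1 f) : MvPolynomial (Fin k) ℂ) * monomial j.1 1 = f := by
        ext m
        rw [coeff_sum]
        simp only [aeval_C, algebraMap_eq, coeff_C_mul, coeff_monomial]
        by_cases hm : m.degree < N
        · rw [Finset.sum_eq_single (⟨m, hm⟩ : {s : ι →₀ ℕ // s.degree < N})]
          · simp
          · intro j _ hj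
            rw [if_neg (fun h => hj (Subtype.ext h)), mul_zero]
          · intro h
            exact absurd (Finset.mem_univ _) h
        · rw [Finset.sum_eq_zero]
          · symm
            apply coeff_eq_zero_of_totalDegree_lt
            have : N ≤ m.degree := not_lt.mp hm
            have h2 : m.degree = ∑ i ∈ m.support, m i := rfl
            omega
          · intro j _
            have hjm : ¬ (j.1 = m) := fun h => hm (by rw [← h]; exact j.2)
            rw [if_neg hjm, mul_zero]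
      rw [e1, sub_self]
      exact I.zero_mem
  · obtain ⟨e', rfl⟩ : ∃ e', e = e' + 1 := ⟨e - 1, by omega⟩
    have hFh : (homogeneousComponent (e' + 1) f).IsHomogeneous (e' + 1) :=
      homogeneousComponent_isHomogeneous _ _
    obtain ⟨g, hg, w, h1, h2, h3⟩ :=
      cn_Q_of_mem I t ht (hN _ (e' + 1) (not_lt.mp he) hFh) (e' + 1)
    rw [homogeneousComponent_eq_self hFh] at h3
    have hwt : ∀ i, (w i * t i).totalDegree ≤ e' + 1 := by
      intro i
      rcases h2 i with h0 | h0
      · rw [h0, zero_mul, totalDegree_zero]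
        exact Nat.zero_le _
      · have := totalDegree_mul (w i) (t i)
        have h4 := (ht i).totalDegree_le
        omega
    have hG : (g + ∑ i, w i * t i).totalDegree ≤ e' + 1 :=
      (totalDegree_add _ _).trans (max_le h1 (totalDegree_finsetSum_le fun i _ => hwt i))
    have hf' : (f - (g + ∑ i, w i * t i)).totalDegree ≤ e' := by
      apply cn_degree_le_of_hc
      · exact (totalDegree_sub _ _).trans (max_le hf hG)
      · rw [map_sub, h3, sub_self]
    obtain ⟨a', ha1, ha2⟩ := ih e' (Nat.lt_succ_self e') _ hf'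
    have hw : ∀ i, ∃ a : {s : ι →₀ ℕ // s.degree < N} → MvPolynomial (Fin k) ℂ,
        (∀ j, CnDg (a j) j.1.degree e') ∧ w i - ∑ j, aeval t (a j) * monomial j.1 1 ∈ I := by
      intro i
      apply ih e' (Nat.lt_succ_self e')
      simpa using (h2 i).degree_le
    choose aw haw1 haw2 using hw
    refine ⟨fun j => a' j + ∑ i, X i * aw i j, fun j => ?_, ?_⟩
    · refine ((ha1 j).mono (Nat.le_succ e')).add (CnDg.sum _ fun i _ => ?_)
      exact (haw1 i j).mul_left (X i) (by rw [totalDegree_X])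
    · have e1 : f - ∑ j, aeval t (a' j + ∑ i, X i * aw i j) * monomial j.1 1 =
          ((f - (g + ∑ i, w i * t i)) - ∑ j, aeval t (a' j) * monomial j.1 1) + g +
            ∑ i, t i * (w i - ∑ j, aeval t (aw i j) * monomial j.1 1) := by
        have e2 : ∑ j : {s : ι →₀ ℕ // s.degree < N},
            aeval t (a' j + ∑ i, X i * aw i j) * monomial j.1 (1 : ℂ) =
            ∑ j, aeval t (a' j) * monomial j.1 1 +
              ∑ i, t i * ∑ j, aeval t (aw i j) * monomial j.1 1 := by
          simp only [map_add, map_sum, map_mul, aeval_X, add_mul, Finset.sum_add_distrib,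
            Finset.sum_mul, Finset.mul_sum]
          congr 1
          rw [Finset.sum_comm]
          refine Finset.sum_congr rfl fun i _ => Finset.sum_congr rfl fun j _ => ?_
          ring
        rw [e2]
        simp only [mul_sub, Finset.sum_sub_distrib]
        have e3 : ∑ i, w i * t i = ∑ i, t i * w i :=
          Finset.sum_congr rfl fun i _ => mul_comm _ _
        rw [e3]
        ring
      rw [e1]
      exact I.add_mem (I.add_mem ha2 hg) (Ideal.sum_mem _ fun i _ => I.mul_mem_left _ (haw2 i))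

/-- **NP-crit** -/
theorem cn_filtfin_of_inf {k : ℕ} (I : Ideal (MvPolynomial ι ℂ)) (t : Fin k → MvPolynomial ι ℂ)
    (ht : ∀ i, (t i).IsHomogeneous 1)
    (h : ∀ x ∈ cnInf I, (∀ i, eval x (t i) = 0) → x = 0) : FiltFin I t := by
  obtain ⟨N, hN1, hN⟩ := cn_exists_N I t h
  have hfin : Finite {s : ι →₀ ℕ // s.degree < N} := Finsupp.finite_of_degree_lt N
  have : Fintype {s : ι →₀ ℕ // s.degree < N} := Fintype.ofFinite _
  refine cn_filtfin_of_fintype I t (fun j : {s : ι →₀ ℕ // s.degree < N} => monomial j.1 1)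
    fun f => ?_
  obtain ⟨a, h1, h2⟩ := cn_rep I t ht N hN1 hN f.totalDegree f le_rfl
  refine ⟨a, fun j => ?_, h2⟩
  rw [totalDegree_monomial _ one_ne_zero]
  exact h1 j

/-! ### CN-GEN-E -/

/-- composition of a filtered-finite linear projection with a Noether position of the image -/
theorem cn_npos_comp {k j : ℕ} (p : Ideal (MvPolynomial ι ℂ)) (t : Fin k → MvPolynomial ι ℂ)
    (hlin : ∀ i, (t i).totalDegree ≤ 1) (hfin : FiltFin p t) (s : Fin j → MvPolynomial (Fin k) ℂ)
    (hs : NPos (p.comap (aeval t : MvPolynomial (Fin k) ℂ →ₐ[ℂ] MvPolynomial ι ℂ)) s) :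
    NPos p (fun i => aeval t (s i)) := by
  classical
  refine ⟨fun i => (ph_totalDegree_aeval_le t hlin (s i)).trans (hs.lin i), ?_, ?_⟩
  · intro g hg
    rw [ph_aeval_aeval] at hg
    exact hs.inj g hg
  · obtain ⟨m, b, hb⟩ := hfin
    obtain ⟨m', b', hb'⟩ := hs.fin
    apply ph_filtfin_of_fintype p _ (fun lu : Fin m × Fin m' => aeval t (b' lu.2) * b lu.1)
    intro f
    obtain ⟨a, ha1, ha2⟩ := hb f
    have hc : ∀ l : Fin m, ∃ c : Fin m' → MvPolynomial (Fin j) ℂ,
        (∀ u, c u = 0 ∨ (c u).totalDegree + (b' u).totalDegree + (b l).totalDegree ≤ f.totalDegree) ∧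
          a l - ∑ u, aeval s (c u) * b' u ∈
            p.comap (aeval t : MvPolynomial (Fin k) ℂ →ₐ[ℂ] MvPolynomial ι ℂ) := by
      intro l
      rcases ha1 l with h0 | h0
      · refine ⟨fun _ => 0, fun _ => Or.inl rfl, ?_⟩
        simp [h0]
      · obtain ⟨c, hc1, hc2⟩ := hb' (a l)
        refine ⟨c, fun u => ?_, hc2⟩
        rcases hc1 u with h | h
        · exact Or.inl h
        · exact Or.inr (by omega)
    choose c hc1 hc2 using hc
    refine ⟨fun lu => c lu.1 lu.2, fun lu => ?_, ?_⟩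
    · rcases hc1 lu.1 lu.2 with h | h
      · exact Or.inl h
      · refine Or.inr ?_
        have h1 := totalDegree_mul (aeval t (b' lu.2)) (b lu.1)
        have h2 := ph_totalDegree_aeval_le t hlin (b' lu.2)
        show (c lu.1 lu.2).totalDegree + _ ≤ _
        omega
    · have key : f - ∑ lu : Fin m × Fin m', aeval (fun i => aeval t (s i)) (c lu.1 lu.2) *
            (aeval t (b' lu.2) * b lu.1)
          = (f - ∑ l, aeval t (a l) * b l)
            + ∑ l, aeval t (a l - ∑ u, aeval s (c l u) * b' u) * b l := by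
        rw [Fintype.sum_prod_type]
        simp only [ph_aeval_aeval, map_sub, map_sum, map_mul, sub_mul, Finset.sum_sub_distrib,
          Finset.sum_mul]
        have : ∀ l : Fin m, ∀ u : Fin m', aeval t (aeval s (c l u)) * (aeval t (b' u) * b l)
            = aeval t (aeval s (c l u)) * aeval t (b' u) * b l := fun l u => by ring
        simp only [this]
        ring
      rw [key]
      refine p.add_mem ha2 (p.sum_mem fun l _ => p.mul_mem_right _ ?_)
      exact hc2 l

/-- the generic fibre of a Noether projection avoids a given proper closed subset -/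
theorem cn_gen_avoid {k : ℕ} (q : Ideal (MvPolynomial ι ℂ)) (hq : q.IsPrime)
    (s : Fin k → MvPolynomial ι ℂ) (hs : NPos q s) (u : MvPolynomial ι ℂ) (hu : u ∉ q) :
    ∃ a : MvPolynomial (Fin k) ℂ, a ≠ 0 ∧ ∀ x ∈ zeroLocus ℂ q, eval x u = 0 →
      eval (fun i => eval x (s i)) a = 0 := by
  classical
  have hint := ph_filtfin_integral q s hs.fin (Ideal.Quotient.mk q u)
  -- the set of degrees of monic relations
  obtain ⟨φ, hφ⟩ : ∃ φ : MvPolynomial (Fin k) ℂ →+* (MvPolynomial ι ℂ ⧸ q), φ = (Ideal.Quotient.mk q).comp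
      (aeval s : MvPolynomial (Fin k) ℂ →ₐ[ℂ] MvPolynomial ι ℂ).toRingHom := ⟨_, rfl⟩
  rw [← hφ] at hint
  have hφinj : ∀ g, φ g = 0 → g = 0 := by
    intro g hg
    apply hs.inj g
    rw [hφ] at hg
    exact Ideal.Quotient.eq_zero_iff_mem.mp hg
  have hu0 : Ideal.Quotient.mk q u ≠ 0 := fun h => hu (Ideal.Quotient.eq_zero_iff_mem.mp h)
  have : IsDomain (MvPolynomial ι ℂ ⧸ q) := Ideal.Quotient.isDomain q
  have hex : ∃ N : ℕ, ∃ P : Polynomial (MvPolynomial (Fin k) ℂ), P.Monic ∧ P.natDegree = N ∧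
      Polynomial.eval₂ φ (Ideal.Quotient.mk q u) P = 0 := by
    obtain ⟨P, hP1, hP2⟩ := hint
    exact ⟨_, P, hP1, rfl, hP2⟩
  obtain ⟨P, hP1, hP2, hP3⟩ := Nat.find_spec hex
  have hmin := fun m (hm : m < Nat.find hex) => Nat.find_min hex hm
  refine ⟨P.coeff 0, ?_, ?_⟩
  · intro h0
    -- P = X * Q
    have hX : Polynomial.X ∣ P := Polynomial.X_dvd_iff.mpr h0
    obtain ⟨Q, hQ⟩ := hX
    have hQm : Q.Monic := by
      rw [hQ] at hP1
      exact (Polynomial.Monic.of_mul_monic_left Polynomial.monic_X hP1)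
    have hdeg : P.natDegree = Q.natDegree + 1 := by
      rw [hQ, Polynomial.natDegree_X_mul hQm.ne_zero]
    apply hmin Q.natDegree (by omega)
    refine ⟨Q, hQm, rfl, ?_⟩
    rw [hQ, Polynomial.eval₂_mul, Polynomial.eval₂_X] at hP3
    exact (mul_eq_zero.mp hP3).resolve_left hu0
  · intro x hx hux
    have h1 : Polynomial.eval₂ (aeval s : MvPolynomial (Fin k) ℂ →ₐ[ℂ] MvPolynomial ι ℂ).toRingHom u P
        ∈ q := by
      rw [← Ideal.Quotient.eq_zero_iff_mem, Polynomial.hom_eval₂, ← hφ]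
      exact hP3
    have h2 := (ph_mem_zeroLocus q x).mp hx _ h1
    rw [Polynomial.hom_eval₂, hux, Polynomial.eval₂_at_zero] at h2
    have h3 := ph_eval_pmap s x (P.coeff 0)
    rw [show (fun i => eval x (s i)) = pmap s x from rfl, h3]
    exact h2

/-- asymptotically sharp lower bound for the Hilbert function of an irreducible variety -/
theorem cn_low_var (V : Set (ι → ℂ)) (hV : IsVar V) :
    ∃ q : ℕ, ∀ D, q ≤ D → vdeg V * (D - q + vdim V).choose (vdim V) ≤ hA V D :=
  ph_var_low V hV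

end Claimed.Agent.R273
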