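import Claimed.Agent.R273.CnLow
import Claimed.Agent.R273.CnGen

/-!
# Row 273, App A, unit DEG', part A: the slice inequality and the choice of the slice `Z₀`.  Architect helper69.

`π_Z μ = cnPi Z μ = y - Z v`.  `cnPiPoly Z i` = its components as linear forms in `μ`; `cnPiZ μ i` = its components as polynomials (degree `≤ 1`) in `Z`.

## LEAF CN-DEG-A (`cn_eval_piPoly` .. `cn_slice_hA`): THE SLICE INEQUALITY   `binom(D1 + s0, s0) * hA (π_{Z₀} Y) D2 ≤ hA V (D1 + D2)`  (any `Z₀`, any set `Y` of parameters whose flats lie in `V`)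
`m := hA (π_{Z₀} Y) D2`.  `rk_exists_indep` + `rk_indep_iff_sep` (`W = restrictTotalDegree (Fin r) ℂ D2`): a finite `S ⊆ π_{Z₀} Y`, `|S| = m`, and `b_w` (`w ∈ S`) of degree `≤ D2` with `b_w(w) ≠ 0`, `b_w(w') = 0` (`w' ≠ w`).  Choose `μ_w ∈ Y`, `π_{Z₀} μ_w = w`.
`M := Matrix S S (MvPolynomial (CnSk r) ℂ)`, `M w w' := aeval (cnPiZ μ_{w'}) b_w`; `Δ := det M`; `eval Z₀ Δ = det (diagonal) = ∏ b_w(w) ≠ 0` (`RingHom.map_det`), so `Δ ≠ 0`.
`E := S → restrictTotalDegree (CnSk r) ℂ D1` (dimension `m binom(D1 + s0, s0)`: `rk_hA_univ`-type count / `finrank` of `restrictTotalDegree`; `cn_card_sk`), `Ψ a := ∑_w rename inl (a w) * rename inr (b_w)`, of degree `≤ D1 + D2`.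
If `Ψ a` vanishes on `V`: evaluate at `cnGr μ_{w'} Z ∈ cnFlat μ_{w'} ⊆ V`: `∑_w a_w(Z) M(Z)_{w w'} = 0` for all `Z, w'`; multiply by the adjugate: `Δ(Z) a_w(Z) = 0` for all `Z`; `MvPolynomial.funext`, no zero divisors: `a_w = 0`.
`ph_finrank_le_hI` with `I = vanishingIdeal ℂ V`, `ph_hA_eq_hI`.

## LEAF CN-DEG-B (`cn_choose_mul_ge`, `cn_choose_two_mul`, `cn_slice_vdeg`)
`W := zcl (π_{Z₀} Y)`, `k = s0 + h`, `h = vdim W`.  `cn_low_var W`: `vdeg W binom(D - q + h, h) ≤ hA W D = hA (π_{Z₀} Y) D` (`ph_hA_zcl`).  `cn_slice_hA` with `D1 = D2 = D`, `ph_up_var V`: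
`binom(D + s0, s0) vdeg W binom(D - q + h, h) ≤ vdeg V binom(2D + k, k)`.  `binom(D - q + k, k) ≤ binom(D - q + s0, s0) binom(D - q + h, h) ≤ binom(D + s0, s0) binom(D - q + h, h)` (`cn_choose_mul_ge`) and `binom(2D + k, k) ≤ 2^k binom(D + k, k)` (`cn_choose_two_mul`).
So `vdeg W binom(D - q + k, k) ≤ 2^k vdeg V binom(D + k, k)` for `D ≥ q`: `ph_choose_asymp`.
`cn_choose_mul_ge`: induction (Pascal) or count: monomials of degree `≤ D` in `a + b` variables inject into pairs.  E.g. Vandermonde `Nat.add_choose_eq`: `binom((D+a)+b.., ..)`; or induction on `D` and `b` with `Nat.choose_succ_succ`.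
`cn_choose_two_mul`: induction on `k`: `binom(2D+k+1,k+1) (k+1) = (2D+k+1) binom(2D+k,k) ≤ 2 (D+k+1) 2^k binom(D+k,k) = 2^(k+1) (k+1) binom(D+k+1,k+1)`.

## LEAF CN-DEG-C (`cn_card_skI`, `cn_solve_spec`, `cn_bad_vdim`, `cn_bad_poly`): THE BAD SLICES
Solving `Z v̇ = ẏ` for a skew `Z` when `v̇_i = 1`: the entries `Z_{jl}`, `j, l ≠ i`, are free (`CnSkI r i`, `binom(r-1,2) = s0 - (r-1)` of them) and `Z_{ji} = ẏ_j - ∑_{l ≠ i} Z_{jl} v̇_l`.  `cnSolve i` is this polynomial map `(λ, Z') ↦ Z` (degree `≤ 2`).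
`cn_solve_spec`: row `j ≠ i` of `π_Z λ = 0`.   `cn_card_skI`: `CnSk r` = `CnSkI r i` ⊔ {pairs containing `i`} and the latter is in bijection with `{j // j ≠ i}`.
`cn_bad_vdim`: the set is contained in `pmap (cnSolve i) '' prodSet {λ ∈ C | λ (inl i) = 1} univ`; `ph_vdim_mono`, `cn_vdim_image_le`, `cn_vdim_prod_le`, `ph_univ`.
`cn_bad_poly`: for each `i` with `{λ ∈ C | λ (inl i) = 1} ≠ ∅`: `cn_cone_vdim`, `cn_bad_vdim`, `cn_card_skI`: `vdim B_i ≤ (vdim C - 1) + (s0 - (r-1)) < s0 = card (CnSk r)`; `cn_exists_poly_of_vdim_lt` gives `β_i ≠ 0` (`β_i := 1` if the set is empty); `β := ∏ β_i`.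
If `λ ∈ C`, `π_{Z₀} λ = 0`, `λ ≠ 0`: `cnV λ ≠ 0` (otherwise `cnY λ = π_{Z₀} λ = 0`); `cnV λ i ≠ 0`; `λ' := (cnV λ i)⁻¹ • λ ∈ C`, `π_{Z₀} λ' = 0` (`cnPi` is linear in `λ`): `Z₀ ∈ B_i`.
-/

set_option autoImplicit false

namespace Claimed.Agent.R273

open MvPolynomial Module

variable {r : ℕ}

/-! ### CN-DEG-A -/

/-- the components of `μ ↦ π_Z μ`, linear forms in `μ` -/
noncomputable def cnPiPoly (Z : CnSk r → ℂ) (i : Fin r) : MvPolynomial (CnP r) ℂ :=
  X (Sum.inr i) - ∑ j, C (cnMat Z i j) * X (Sum.inl j)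

/-- the generic skew matrix -/
noncomputable def cnMatX (i j : Fin r) : MvPolynomial (CnSk r) ℂ :=
  if h : i < j then X ⟨(i, j), h⟩ else if h : j < i then - X ⟨(j, i), h⟩ else 0

/-- the components of `Z ↦ π_Z μ`, polynomials of degree `≤ 1` in `Z` -/
noncomputable def cnPiZ (μ : CnP r → ℂ) (i : Fin r) : MvPolynomial (CnSk r) ℂ :=
  C (cnY μ i) - ∑ j, cnMatX i j * C (cnV μ j)

theorem cn_eval_piPoly (Z : CnSk r → ℂ) (μ : CnP r → ℂ) (i : Fin r) :
    eval μ (cnPiPoly Z i) = cnPi Z μ i := by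
  simp only [cnPiPoly, cnPi, cnY, cnV, map_sub, map_sum, map_mul, eval_X, eval_C]

theorem cn_pmap_piPoly (Z : CnSk r → ℂ) : pmap (cnPiPoly Z) = cnPi Z := by
  funext μ i; exact cn_eval_piPoly Z μ i

theorem cn_piPoly_homog (Z : CnSk r → ℂ) (i : Fin r) : (cnPiPoly Z i).IsHomogeneous 1 := by
  refine (isHomogeneous_X ℂ _).sub (IsHomogeneous.sum _ _ _ fun j _ => ?_)
  have := (isHomogeneous_C (CnP r) (cnMat Z i j)).mul (isHomogeneous_X ℂ (Sum.inl j : CnP r))
  rwa [zero_add] at this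

theorem cn_eval_matX (Z : CnSk r → ℂ) (i j : Fin r) : eval Z (cnMatX i j) = cnMat Z i j := by
  unfold cnMatX cnMat
  split_ifs <;> simp

theorem cn_eval_piZ (Z : CnSk r → ℂ) (μ : CnP r → ℂ) (i : Fin r) :
    eval Z (cnPiZ μ i) = cnPi Z μ i := by
  simp only [cnPiZ, cnPi, map_sub, map_sum, map_mul, eval_C, cn_eval_matX]

/-- **the slice inequality** -/
theorem cn_slice_hA (V : Set (CnI r → ℂ)) (Y : Set (CnP r → ℂ)) (hYV : ∀ μ ∈ Y, cnFlat μ ⊆ V)
    (Z₀ : CnSk r → ℂ) (D1 D2 : ℕ) :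
    (D1 + r.choose 2).choose (r.choose 2) * hA (cnPi Z₀ '' Y) D2 ≤ hA V (D1 + D2) := by
  classical
  obtain ⟨S, hST, hScard, hSr⟩ := rk_exists_indep (restrictTotalDegree (Fin r) ℂ D2) (cnPi Z₀ '' Y)
  rw [rk_indep_iff_sep] at hSr
  have hb : ∀ w : S, ∃ b : MvPolynomial (Fin r) ℂ, b.totalDegree ≤ D2 ∧ eval w.1 b ≠ 0 ∧
      ∀ y : S, y ≠ w → eval y.1 b = 0 := by
    intro w
    obtain ⟨b, hb1, hb2, hb3⟩ := hSr w.1 w.2
    exact ⟨b, (mem_restrictTotalDegree _ _ _).mp hb1, hb2,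
      fun y hy => hb3 y.1 y.2 fun h => hy (Subtype.ext h)⟩
  choose b hb1 hb2 hb3 using hb
  have hμ : ∀ w : S, ∃ μ ∈ Y, cnPi Z₀ μ = w.1 := fun w => hST w.2
  choose μ hμ1 hμ2 using hμ
  obtain ⟨M, hM⟩ : ∃ M : Matrix S S (MvPolynomial (CnSk r) ℂ),
      M = fun w w' => aeval (cnPiZ (μ w')) (b w) := ⟨_, rfl⟩
  have hMeval : ∀ Z w w', eval Z (M w w') = eval (cnPi Z (μ w')) (b w) := by
    intro Z w w'
    have h1 : pmap (cnPiZ (μ w')) Z = cnPi Z (μ w') := by
      funext i; exact cn_eval_piZ Z (μ w') i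
    rw [hM, ← ph_eval_pmap, h1]
  have hdet : M.det ≠ 0 := by
    intro h0
    have h1 := congrArg (eval Z₀) h0
    rw [RingHom.map_det, map_zero] at h1
    have h2 : (eval Z₀).mapMatrix M = Matrix.diagonal fun w => eval w.1 (b w) := by
      ext w w'
      rw [RingHom.mapMatrix_apply, Matrix.map_apply, hMeval, hμ2]
      by_cases h : w = w'
      · rw [h, Matrix.diagonal_apply_eq]
      · rw [Matrix.diagonal_apply_ne _ h]
        exact hb3 w w' (Ne.symm h)
    rw [h2, Matrix.det_diagonal, Finset.prod_eq_zero_iff] at h1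
    obtain ⟨w, _, hw⟩ := h1
    exact hb2 w hw
  obtain ⟨Ψ, hΨ⟩ : ∃ Ψ : (S → restrictTotalDegree (CnSk r) ℂ D1) →ₗ[ℂ] MvPolynomial (CnI r) ℂ,
      ∀ a, Ψ a = ∑ w, rename Sum.inl (a w).1 * rename Sum.inr (b w) := by
    refine ⟨{ toFun := fun a => ∑ w, rename Sum.inl (a w).1 * rename Sum.inr (b w)
              map_add' := ?_, map_smul' := ?_ }, fun a => rfl⟩
    · intro a a'
      simp only [Pi.add_apply, Submodule.coe_add, map_add, add_mul, Finset.sum_add_distrib]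
    · intro c a
      simp only [Pi.smul_apply, Submodule.coe_smul, map_smul, smul_mul_assoc, Finset.smul_sum,
        RingHom.id_apply]
  have hfr : finrank ℂ (S → restrictTotalDegree (CnSk r) ℂ D1)
      = (D1 + r.choose 2).choose (r.choose 2) * hA (cnPi Z₀ '' Y) D2 := by
    rw [Module.finrank_pi_fintype]
    simp only [rk_finrank_restrict, cn_card_sk, Finset.sum_const, Finset.card_univ,
      Fintype.card_coe, smul_eq_mul, hScard]
    rw [hA, mul_comm, add_comm (r.choose 2) D1, Nat.choose_symm_add]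
  rw [← hfr, ph_hA_eq_hI]
  apply ph_finrank_le_hI _ _ Ψ
  · intro a
    rw [hΨ]
    refine totalDegree_finsetSum_le fun w _ => ?_
    refine (totalDegree_mul _ _).trans (Nat.add_le_add ?_ ?_)
    · exact (totalDegree_rename_le _ _).trans ((mem_restrictTotalDegree _ _ _).mp (a w).2)
    · exact (totalDegree_rename_le _ _).trans (hb1 w)
  · intro a ha
    rw [ph_mem_vanishingIdeal, hΨ] at ha
    have hv : Matrix.vecMul (fun w => (a w).1) M = 0 := by
      funext w'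
      apply MvPolynomial.funext
      intro Z
      have h1 := ha (cnGr (μ w') Z) (hYV _ (hμ1 w') (cn_gr_mem _ _))
      rw [Pi.zero_apply, map_zero, ← h1, Matrix.vecMul, dotProduct, map_sum, map_sum]
      refine Finset.sum_congr rfl fun w _ => ?_
      rw [map_mul, map_mul, hMeval, eval_rename, eval_rename]
      rfl
    have h0 := Matrix.eq_zero_of_vecMul_eq_zero hdet hv
    funext w
    apply Subtype.ext
    exact congrFun h0 w

/-! ### CN-DEG-B -/

theorem cn_choose_mul_ge (D a b : ℕ) :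
    (D + (a + b)).choose (a + b) ≤ (D + a).choose a * (D + b).choose b := by
  induction b with
  | zero => simp
  | succ b ih =>
    have h1 : (D + (a + (b + 1))).choose (a + (b + 1)) * (a + b + 1)
        = (D + (a + b) + 1) * (D + (a + b)).choose (a + b) :=
      (Nat.add_one_mul_choose_eq (D + (a + b)) (a + b)).symm
    have h2 : (D + (b + 1)).choose (b + 1) * (b + 1) = (D + b + 1) * (D + b).choose b :=
      (Nat.add_one_mul_choose_eq (D + b) b).symm
    have h3 : (D + (a + (b + 1))).choose (a + (b + 1)) * ((a + b + 1) * (b + 1))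
        ≤ ((D + a).choose a * (D + (b + 1)).choose (b + 1)) * ((a + b + 1) * (b + 1)) := by
      calc (D + (a + (b + 1))).choose (a + (b + 1)) * ((a + b + 1) * (b + 1))
          = ((D + (a + (b + 1))).choose (a + (b + 1)) * (a + b + 1)) * (b + 1) := by ring
        _ = ((D + (a + b) + 1) * (b + 1)) * (D + (a + b)).choose (a + b) := by rw [h1]; ring
        _ ≤ ((D + b + 1) * (a + b + 1)) * ((D + a).choose a * (D + b).choose b) := by
            refine Nat.mul_le_mul ?_ ih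
            nlinarith [Nat.zero_le (D * a)]
        _ = (D + a).choose a * ((D + b + 1) * (D + b).choose b) * (a + b + 1) := by ring
        _ = ((D + a).choose a * (D + (b + 1)).choose (b + 1)) * ((a + b + 1) * (b + 1)) := by
            rw [← h2]; ring
    exact Nat.le_of_mul_le_mul_right h3 (by positivity)

theorem cn_choose_two_mul (D k : ℕ) : (2 * D + k).choose k ≤ 2 ^ k * (D + k).choose k := by
  induction k with
  | zero => simp
  | succ k ih =>
    have h1 : (2 * D + (k + 1)).choose (k + 1) * (k + 1) = (2 * D + k + 1) * (2 * D + k).choose k := by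
      have := Nat.add_one_mul_choose_eq (2 * D + k) k
      rw [← add_assoc]
      linarith
    have h2 : (D + (k + 1)).choose (k + 1) * (k + 1) = (D + k + 1) * (D + k).choose k := by
      have := Nat.add_one_mul_choose_eq (D + k) k
      rw [← add_assoc]
      linarith
    have h3 : (2 * D + (k + 1)).choose (k + 1) * (k + 1)
        ≤ (2 ^ (k + 1) * (D + (k + 1)).choose (k + 1)) * (k + 1) := by
      rw [h1, mul_assoc, h2]
      calc (2 * D + k + 1) * (2 * D + k).choose k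
          ≤ (2 * (D + k + 1)) * (2 ^ k * (D + k).choose k) := Nat.mul_le_mul (by omega) ih
        _ = 2 ^ (k + 1) * ((D + k + 1) * (D + k).choose k) := by ring
    exact Nat.le_of_mul_le_mul_right h3 (Nat.succ_pos k)

/-- the degree of a slice of the family is at most `2^dim V deg V` -/
theorem cn_slice_vdeg {V : Set (CnI r → ℂ)} (hV : IsVar V) (Y : Set (CnP r → ℂ))
    (hYV : ∀ μ ∈ Y, cnFlat μ ⊆ V) (Z₀ : CnSk r → ℂ) (hW : IsVar (zcl (cnPi Z₀ '' Y)))
    (hdim : vdim V = r.choose 2 + vdim (zcl (cnPi Z₀ '' Y))) :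
    vdeg (zcl (cnPi Z₀ '' Y)) ≤ 2 ^ vdim V * vdeg V := by
  obtain ⟨q, hq⟩ := cn_low_var _ hW
  refine ph_choose_asymp _ _ q (vdim V) fun D hD => ?_
  have h1 := hq D hD
  rw [ph_hA_zcl] at h1
  have h2 := cn_slice_hA V Y hYV Z₀ D D
  have h3 := ph_up_var V hV (D + D)
  have h4 := cn_choose_two_mul D (vdim V)
  have h5 := cn_choose_mul_ge (D - q) (r.choose 2) (vdim (zcl (cnPi Z₀ '' Y)))
  have h6 : (D - q + r.choose 2).choose (r.choose 2) ≤ (D + r.choose 2).choose (r.choose 2) :=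
    Nat.choose_le_choose _ (by omega)
  rw [← hdim] at h5
  rw [← two_mul] at h3
  calc vdeg (zcl (cnPi Z₀ '' Y)) * (D - q + vdim V).choose (vdim V)
      ≤ vdeg (zcl (cnPi Z₀ '' Y)) * ((D - q + r.choose 2).choose (r.choose 2)
          * (D - q + vdim (zcl (cnPi Z₀ '' Y))).choose (vdim (zcl (cnPi Z₀ '' Y)))) :=
        Nat.mul_le_mul_left _ h5
    _ ≤ vdeg (zcl (cnPi Z₀ '' Y)) * ((D + r.choose 2).choose (r.choose 2)
          * (D - q + vdim (zcl (cnPi Z₀ '' Y))).choose (vdim (zcl (cnPi Z₀ '' Y)))) :=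
        Nat.mul_le_mul_left _ (Nat.mul_le_mul_right _ h6)
    _ = (D + r.choose 2).choose (r.choose 2) * (vdeg (zcl (cnPi Z₀ '' Y))
          * (D - q + vdim (zcl (cnPi Z₀ '' Y))).choose (vdim (zcl (cnPi Z₀ '' Y)))) := by ring
    _ ≤ (D + r.choose 2).choose (r.choose 2) * hA (cnPi Z₀ '' Y) D := Nat.mul_le_mul_left _ h1
    _ ≤ hA V (D + D) := h2
    _ = hA V (2 * D) := by rw [two_mul]
    _ ≤ vdeg V * (2 * D + vdim V).choose (vdim V) := h3
    _ ≤ vdeg V * (2 ^ vdim V * (D + vdim V).choose (vdim V)) := Nat.mul_le_mul_left _ h4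
    _ = 2 ^ vdim V * vdeg V * (D + vdim V).choose (vdim V) := by ring

/-! ### CN-DEG-C -/

/-- positions above the diagonal which do not involve the index `i` -/
abbrev CnSkI (r : ℕ) (i : Fin r) := {p : CnSk r // p.1.1 ≠ i ∧ p.1.2 ≠ i}

theorem cn_card_skI (i : Fin r) : Fintype.card (CnSkI r i) + (r - 1) = r.choose 2 := by
  classical
  rw [← cn_card_sk r, ← Fintype.card_congr (Equiv.sumCompl fun p : CnSk r => p.1.1 ≠ i ∧ p.1.2 ≠ i),
    Fintype.card_sum]
  congr 1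
  have h1 : Fintype.card {j : Fin r // j ≠ i} = r - 1 := by
    rw [Fintype.card_subtype_compl, Fintype.card_subtype_eq, Fintype.card_fin]
  rw [← h1]
  have hf : ∀ j : {j : Fin r // j ≠ i}, ∃ p : {p : CnSk r // ¬ (p.1.1 ≠ i ∧ p.1.2 ≠ i)},
      (p.1.1.1 = j.1 ∧ p.1.1.2 = i) ∨ (p.1.1.1 = i ∧ p.1.1.2 = j.1) := by
    intro j
    rcases lt_or_gt_of_ne j.2 with h | h
    · exact ⟨⟨⟨(j.1, i), h⟩, fun hc => hc.2 rfl⟩, Or.inl ⟨rfl, rfl⟩⟩
    · exact ⟨⟨⟨(i, j.1), h⟩, fun hc => hc.1 rfl⟩, Or.inr ⟨rfl, rfl⟩⟩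
  choose f hf using hf
  apply Fintype.card_of_bijective (f := f)
  constructor
  · intro j j' hjj
    have h1 := hf j
    have h2 := hf j'
    rw [hjj] at h1
    apply Subtype.ext
    rcases h1 with ⟨a1, a2⟩ | ⟨a1, a2⟩ <;> rcases h2 with ⟨b1, b2⟩ | ⟨b1, b2⟩
    · rw [← a1, b1]
    · exact absurd (a1.symm.trans b1) j.2
    · exact absurd (b1.symm.trans a1) j'.2
    · rw [← a2, b2]
  · intro p
    have hp := p.2
    have hlt := p.1.2
    by_cases h1 : p.1.1.1 = i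
    · have hne : p.1.1.2 ≠ i := fun h => by rw [h1, h] at hlt; exact lt_irrefl _ hlt
      refine ⟨⟨p.1.1.2, hne⟩, ?_⟩
      apply Subtype.ext; apply Subtype.ext
      rcases hf ⟨p.1.1.2, hne⟩ with ⟨a1, a2⟩ | ⟨a1, a2⟩
      · exfalso
        have := (f ⟨p.1.1.2, hne⟩).1.2
        rw [a1, a2] at this
        rw [h1] at hlt
        exact lt_asymm this hlt
      · exact Prod.ext (a1.trans h1.symm) a2
    · have h2 : p.1.1.2 = i := by
        by_contra h2
        exact hp ⟨h1, h2⟩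
      refine ⟨⟨p.1.1.1, h1⟩, ?_⟩
      apply Subtype.ext; apply Subtype.ext
      rcases hf ⟨p.1.1.1, h1⟩ with ⟨a1, a2⟩ | ⟨a1, a2⟩
      · exact Prod.ext a1 (a2.trans h2.symm)
      · exfalso
        have := (f ⟨p.1.1.1, h1⟩).1.2
        rw [a1, a2] at this
        rw [h2] at hlt
        exact lt_asymm this hlt

/-- the generic skew matrix on the indices `≠ i` (zero in row and column `i`) -/
noncomputable def cnMatI (i j l : Fin r) : MvPolynomial (CnP r ⊕ CnSkI r i) ℂ :=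
  if h : j < l ∧ j ≠ i ∧ l ≠ i then X (Sum.inr ⟨⟨(j, l), h.1⟩, h.2⟩)
  else if h : l < j ∧ l ≠ i ∧ j ≠ i then - X (Sum.inr ⟨⟨(l, j), h.1⟩, h.2⟩) else 0

/-- the entry `Z_{ji} = ẏ_j - ∑_l Z'_{jl} v̇_l` -/
noncomputable def cnColI (i j : Fin r) : MvPolynomial (CnP r ⊕ CnSkI r i) ℂ :=
  X (Sum.inl (Sum.inr j)) - ∑ l, cnMatI i j l * X (Sum.inl (Sum.inl l))

/-- the solution `Z` of `Z v̇ = ẏ` (`v̇_i = 1`) with prescribed entries outside row and column `i` -/
noncomputable def cnSolve (i : Fin r) (p : CnSk r) : MvPolynomial (CnP r ⊕ CnSkI r i) ℂ :=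
  if h : p.1.1 ≠ i ∧ p.1.2 ≠ i then X (Sum.inr ⟨p, h⟩)
  else if p.1.2 = i then cnColI i p.1.1 else - cnColI i p.1.2

theorem cn_eval_matI (i j l : Fin r) (lam : CnP r → ℂ) (Z : CnSk r → ℂ) (hj : j ≠ i) :
    eval (Sum.elim lam (fun p : CnSkI r i => Z p.1)) (cnMatI i j l)
      = if l = i then 0 else cnMat Z j l := by
  unfold cnMatI cnMat
  by_cases hl : l = i
  · rw [if_pos hl, dif_neg (fun h => h.2.2 hl), dif_neg (fun h => h.2.1 hl), map_zero]
  · rw [if_neg hl]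
    by_cases h1 : j < l
    · rw [dif_pos ⟨h1, hj, hl⟩, dif_pos h1, eval_X]
      rfl
    · rw [dif_neg (fun h => h1 h.1), dif_neg h1]
      by_cases h2 : l < j
      · rw [dif_pos ⟨h2, hl, hj⟩, dif_pos h2, map_neg, eval_X]
        rfl
      · rw [dif_neg (fun h => h2 h.1), dif_neg h2, map_zero]

theorem cn_eval_colI (i j : Fin r) (lam : CnP r → ℂ) (hl : cnV lam i = 1) (Z : CnSk r → ℂ)
    (hZ : cnPi Z lam = 0) (hj : j ≠ i) :
    eval (Sum.elim lam (fun p : CnSkI r i => Z p.1)) (cnColI i j) = cnMat Z j i := by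
  classical
  have h1 := congrFun hZ j
  rw [cnPi, Pi.zero_apply, ← Finset.add_sum_erase _ _ (Finset.mem_univ i), hl, mul_one] at h1
  simp only [cnColI, map_sub, map_sum, map_mul, eval_X, Sum.elim_inl, cn_eval_matI i j _ lam Z hj]
  rw [← Finset.add_sum_erase _ _ (Finset.mem_univ i), if_pos rfl, zero_mul, zero_add]
  have h2 : ∑ x ∈ Finset.univ.erase i, (if x = i then 0 else cnMat Z j x) * lam (Sum.inl x)
      = ∑ x ∈ Finset.univ.erase i, cnMat Z j x * cnV lam x := by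
    refine Finset.sum_congr rfl fun x hx => ?_
    rw [if_neg (Finset.ne_of_mem_erase hx)]
    rfl
  rw [h2]
  have h3 : cnY lam j = lam (Sum.inr j) := rfl
  rw [← h3]
  linear_combination h1

theorem cn_solve_spec (i : Fin r) (lam : CnP r → ℂ) (hl : cnV lam i = 1) (Z : CnSk r → ℂ)
    (hZ : cnPi Z lam = 0) :
    Z = pmap (cnSolve i) (Sum.elim lam (fun p : CnSkI r i => Z p.1)) := by
  funext p
  rw [pmap, cnSolve]
  have hlt := p.2
  by_cases h : p.1.1 ≠ i ∧ p.1.2 ≠ i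
  · rw [dif_pos h, eval_X]
    rfl
  · rw [dif_neg h]
    by_cases h2 : p.1.2 = i
    · have h1 : p.1.1 ≠ i := fun h1 => by rw [h1, h2] at hlt; exact lt_irrefl _ hlt
      rw [if_pos h2, cn_eval_colI i _ lam hl Z hZ h1, ← h2, cnMat, dif_pos hlt]
    · have h1 : p.1.1 = i := by
        by_contra h1
        exact h ⟨h1, h2⟩
      rw [if_neg h2, map_neg, cn_eval_colI i _ lam hl Z hZ h2, ← h1, cnMat,
        dif_neg (lt_asymm hlt), dif_pos hlt, neg_neg]

theorem cn_bad_vdim (C : Set (CnP r → ℂ)) (i : Fin r) :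
    vdim {Z : CnSk r → ℂ | ∃ lam ∈ C, cnV lam i = 1 ∧ cnPi Z lam = 0}
      ≤ vdim {lam ∈ C | lam (Sum.inl i) = 1} + Fintype.card (CnSkI r i) := by
  have hsub : {Z : CnSk r → ℂ | ∃ lam ∈ C, cnV lam i = 1 ∧ cnPi Z lam = 0}
      ⊆ pmap (cnSolve i) '' prodSet {lam ∈ C | lam (Sum.inl i) = 1}
        (Set.univ : Set (CnSkI r i → ℂ)) := by
    rintro Z ⟨lam, hlC, hl, hZ⟩
    exact ⟨_, (ph_mem_prodSet _ _ _ _).mpr ⟨⟨hlC, hl⟩, Set.mem_univ _⟩,
      (cn_solve_spec i lam hl Z hZ).symm⟩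
  refine (ph_vdim_mono hsub).trans ((cn_vdim_image_le _ _).trans ((cn_vdim_prod_le _ _).trans ?_))
  rw [(ph_univ (ι := CnSkI r i)).2.1]

theorem cn_pi_smul (Z : CnSk r → ℂ) (c : ℂ) (lam : CnP r → ℂ) :
    cnPi Z (c • lam) = c • cnPi Z lam := by
  funext i
  simp only [cnPi, cnY, cnV, Pi.smul_apply, smul_eq_mul, mul_sub, Finset.mul_sum]
  congr 1
  refine Finset.sum_congr rfl fun j _ => ?_
  ring

/-- for a cone `C` of dimension `< r` in the parameter space, the generic slice map `π_{Z₀}` has no nonzero zero on `C` -/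
theorem cn_bad_poly (C : Set (CnP r → ℂ)) (hC : ∀ x ∈ C, ∀ s : ℂ, s • x ∈ C) (hdim : vdim C < r) :
    ∃ β : MvPolynomial (CnSk r) ℂ, β ≠ 0 ∧ ∀ Z₀, eval Z₀ β ≠ 0 →
      ∀ lam ∈ C, cnPi Z₀ lam = 0 → lam = 0 := by
  classical
  have hβ : ∀ i : Fin r, ∃ β : MvPolynomial (CnSk r) ℂ, β ≠ 0 ∧
      ∀ Z ∈ {Z : CnSk r → ℂ | ∃ lam ∈ C, cnV lam i = 1 ∧ cnPi Z lam = 0}, eval Z β = 0 := by
    intro i
    by_cases hne : ∃ x ∈ C, x (Sum.inl i) = 1
    · apply cn_exists_poly_of_vdim_lt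
      have h1 := cn_cone_vdim C hC (Sum.inl i) hne
      have h2 := cn_bad_vdim C i
      have h3 := cn_card_skI i
      rw [cn_card_sk]
      omega
    · refine ⟨1, one_ne_zero, ?_⟩
      rintro Z ⟨lam, hlC, hl, _⟩
      exact absurd ⟨lam, hlC, hl⟩ hne
  choose β hβ1 hβ2 using hβ
  refine ⟨∏ i, β i, Finset.prod_ne_zero_iff.mpr fun i _ => hβ1 i, ?_⟩
  intro Z₀ hZ₀ lam hlC hl
  by_contra hne
  rw [map_prod, Finset.prod_ne_zero_iff] at hZ₀
  have hv : ∃ i, cnV lam i ≠ 0 := by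
    by_contra hcon
    push Not at hcon
    apply hne
    funext s
    rcases s with i | i
    · exact hcon i
    · have := congrFun hl i
      simp only [cnPi, hcon, mul_zero, Finset.sum_const_zero, sub_zero, Pi.zero_apply] at this
      exact this
  obtain ⟨i, hi⟩ := hv
  apply hZ₀ i (Finset.mem_univ i)
  apply hβ2 i
  refine ⟨(cnV lam i)⁻¹ • lam, hC lam hlC _, ?_, ?_⟩
  · show (cnV lam i)⁻¹ * cnV lam i = 1
    exact inv_mul_cancel₀ hi
  · rw [cn_pi_smul, hl, smul_zero]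

end Claimed.Agent.R273
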