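import Claimed.Agent.R273.CnLow

/-!
# Row 273, App A, block LOW, unit RUL, file 1: derivations, invariance, straight flows; the incidence space.  Architect helper120.  Prefix `cn`.

PART 1 (general, any finite `ι`).  `cnLie X f = ∑ X_i ∂_i f` (derivative along a polynomial vector field `X`).
* `cn_dirderiv`  : `f(σ + t u) = 0` for all `t` ⟹ `df_σ(u) = 0`.
* `cn_inv` (INV) : `P` prime, `G ⊆ P` a system whose tangent space at the points of a dense open subset of `Z(P)` is not larger than `dim Z(P)`, and `X g = 0` there for `g ∈ G` ⟹ `X P ⊆ P`.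
* `cn_flow` (FLOW): if `X` is constant along its own straight lines `σ + t X(σ)` and `X P ⊆ P` then `Z(P)` contains these lines.  NO analysis: a polynomial in `t`.
* `cn_dense`, `cn_isVar_eq`, `cn_vdim_finite`, `cn_open_isVar`, minors.

PART 2 (incidence space).  `CnJ r = CnI r ⊕ Fin r ∋ σ = (z, v) = ((Z, x), v)`.  `cnFld W` = the vector field `(W, - W v, 0)`, `W ∈ ℂ^(CnSk r)`; `δ_W = cnLie (cnFld W)`; its lines are `θ_{tW}(Z, x, v) = (Z + tW, x - tWv, v)`.
`cnLift μ Z = (Z, y - Z v, v)` (lifted flat); `θ_W (cnLift μ Z) = cnLift μ (Z + W)`.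
`CnCon V f` ("`f` is a CONSTRAINT"): `f ∈ ℂ[Z,x,v]` vanishes on all lifted flats `cnLift μ ·` with `Φ_μ ⊆ V`.  Constraints form an ideal, stable under all `δ_W` (`cn_con_del`), containing `I(V)`.
`cnHat m N W` = the vector field `(m W, - W N)` on `ℂ^(CnI r)`: at a point `(z, v)` with `m(z) v = N(z)` it is `m(z)` times the `z`-part of `cnFld W` (`cn_hat_eval`).

All leaves of this file are 20-150 lines, elementary; black boxes: `ph_*` (PhTan, PhMap, PhDeg).
-/

set_option autoImplicit false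

namespace Claimed.Agent.R273

open MvPolynomial Module

/-! ## Part 1: general lemmas -/

section general

variable {ι : Type*} [Fintype ι]

/-- derivative of `f` along the polynomial vector field `X` -/
noncomputable def cnLie (X : ι → MvPolynomial ι ℂ) (f : MvPolynomial ι ℂ) : MvPolynomial ι ℂ :=
  ∑ i, X i * pderiv i f

/-! ### LEAF CN-DER-A: calculus of `cnLie` -/

theorem cn_eval_lie (X : ι → MvPolynomial ι ℂ) (f : MvPolynomial ι ℂ) (σ : ι → ℂ) :
    eval σ (cnLie X f) = dAt f σ (fun i => eval σ (X i)) := by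
  unfold cnLie dAt
  rw [map_sum]
  refine Finset.sum_congr rfl fun i _ => ?_
  rw [map_mul, aeval_eq_eval, mul_comm]

theorem cn_lie_add (X : ι → MvPolynomial ι ℂ) (f g : MvPolynomial ι ℂ) :
    cnLie X (f + g) = cnLie X f + cnLie X g := by
  unfold cnLie
  rw [← Finset.sum_add_distrib]
  exact Finset.sum_congr rfl fun i _ => by rw [map_add, mul_add]

theorem cn_lie_sub (X : ι → MvPolynomial ι ℂ) (f g : MvPolynomial ι ℂ) :
    cnLie X (f - g) = cnLie X f - cnLie X g := by
  unfold cnLie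
  rw [← Finset.sum_sub_distrib]
  exact Finset.sum_congr rfl fun i _ => by rw [map_sub, mul_sub]

theorem cn_lie_mul (X : ι → MvPolynomial ι ℂ) (f g : MvPolynomial ι ℂ) :
    cnLie X (f * g) = f * cnLie X g + g * cnLie X f := by
  unfold cnLie
  rw [Finset.mul_sum, Finset.mul_sum, ← Finset.sum_add_distrib]
  refine Finset.sum_congr rfl fun i _ => ?_
  rw [Derivation.leibniz, smul_eq_mul, smul_eq_mul]
  ring

theorem cn_lie_C (X : ι → MvPolynomial ι ℂ) (a : ℂ) : cnLie X (C a) = 0 := by
  unfold cnLie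
  simp

theorem cn_lie_X (X : ι → MvPolynomial ι ℂ) (i : ι) : cnLie X (MvPolynomial.X i) = X i := by
  classical
  unfold cnLie
  rw [Finset.sum_eq_single i]
  · rw [pderiv_X_self, mul_one]
  · intro j _ hj
    rw [pderiv_X_of_ne (Ne.symm hj), mul_zero]
  · intro h
    exact absurd (Finset.mem_univ i) h

omit [Fintype ι] in
theorem cn_pderiv_degree (p : MvPolynomial ι ℂ) (i : ι) :
    (pderiv i p).totalDegree ≤ p.totalDegree := by
  unfold totalDegree
  apply Finset.sup_le
  intro m hm
  rw [MvPolynomial.mem_support_iff, coeff_pderiv] at hm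
  have h1 : m + Finsupp.single i 1 ∈ p.support := by
    rw [MvPolynomial.mem_support_iff]
    intro h0
    apply hm
    rw [h0, zero_mul]
  have h2 := MvPolynomial.le_totalDegree h1
  rw [Finsupp.sum_add_index' (fun _ => rfl) (fun _ _ _ => rfl), Finsupp.sum_single_index rfl] at h2
  unfold totalDegree at h2
  omega

/-- `deg (X f) ≤ a + deg f` if all components of `X` have degree `≤ a` (`totalDegree_finset_sum_le`-type, `totalDegree_mul`, `totalDegree_pderiv_le`) -/
theorem cn_lie_degree (X : ι → MvPolynomial ι ℂ) (a : ℕ) (hX : ∀ i, (X i).totalDegree ≤ a)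
    (f : MvPolynomial ι ℂ) : (cnLie X f).totalDegree ≤ a + f.totalDegree := by
  unfold cnLie
  refine totalDegree_finsetSum_le fun i _ => ?_
  exact (totalDegree_mul _ _).trans (add_le_add (hX i) (cn_pderiv_degree f i))

/-- PLAN: `s i := C (σ i) + C (u i) * X () : MvPolynomial Unit ℂ`; `aeval s f = 0` by `MvPolynomial.funext` (its value at `t` is `eval (σ + t u) f`); `ph_dAt_aeval s f 0 1` (`Ω = ℂ`) reads `0 = dAt f σ u`. -/
theorem cn_dirderiv (f : MvPolynomial ι ℂ) (σ u : ι → ℂ)
    (h : ∀ t : ℂ, eval (fun i => σ i + t * u i) f = 0) : dAt f σ u = 0 := by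
  set s : ι → MvPolynomial Unit ℂ := fun i => C (σ i) + C (u i) * MvPolynomial.X () with hs
  have h0 : aeval s f = 0 := by
    apply MvPolynomial.funext
    intro t
    rw [map_zero, ← aeval_eq_eval, comp_aeval_apply, aeval_eq_eval]
    have : (fun i => (aeval t) (s i)) = fun i => σ i + t () * u i := by
      funext i
      simp [hs, mul_comm]
    rw [this]
    exact h (t ())
  have h1 := ph_dAt_aeval s f (fun _ : Unit => (0 : ℂ)) (fun _ : Unit => (1 : ℂ))
  rw [h0] at h1
  have h2 : dAt (0 : MvPolynomial Unit ℂ) (fun _ : Unit => (0 : ℂ)) (fun _ : Unit => (1 : ℂ)) = 0 := by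
    simp [dAt]
  rw [h2] at h1
  have h3 : (fun j => (aeval fun _ : Unit => (0 : ℂ)) (s j)) = σ := by
    funext j
    simp [hs]
  have h4 : (fun j => dAt (s j) (fun _ : Unit => (0 : ℂ)) (fun _ : Unit => (1 : ℂ))) = u := by
    funext j
    simp only [hs]
    rw [ph_dAt_add, ph_dAt_C, ph_dAt_mul, ph_dAt_C, ph_dAt_X]
    simp
  rw [h3, h4] at h1
  exact h1.symm

/-! ### LEAF CN-DER-B: (INV) and (FLOW) -/

/-- **(INV)**.  PLAN: let `σ ∈ Z(P)`, `h₀(σ) ≠ 0`.  `tanSp P σ ≤ tanSp (span G) σ` (`span G ≤ P`), `vdim ≤ finrank (tanSp P σ)` (`ph_tan_ge`), so both are equal (`Submodule.eq_of_le_of_finrank_le`).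
`u := X(σ) ∈ tanSp (span G) σ` by `ph_mem_tanSp_span`, `cn_eval_lie`, `htest`.  So `dAt f σ u = 0` for `f ∈ P`, i.e. `(X f)(σ) = 0`.  Hence `h₀ * X f` vanishes on `Z(P)`, lies in `P` (`IsPrime.vanishingIdeal_zeroLocus`), and `h₀ ∉ P`. -/
theorem cn_inv (P : Ideal (MvPolynomial ι ℂ)) (hP : P.IsPrime) (X : ι → MvPolynomial ι ℂ)
    (G : Set (MvPolynomial ι ℂ)) (hG : G ⊆ P) (h₀ : MvPolynomial ι ℂ) (hh₀ : h₀ ∉ P)
    (hker : ∀ σ ∈ zeroLocus ℂ P, eval σ h₀ ≠ 0 →
      finrank ℂ (tanSp (Ideal.span G) σ) ≤ vdim (zeroLocus ℂ P))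
    (htest : ∀ σ ∈ zeroLocus ℂ P, eval σ h₀ ≠ 0 → ∀ g ∈ G, eval σ (cnLie X g) = 0) :
    ∀ f ∈ P, cnLie X f ∈ P := by
  intro f hf
  have key : ∀ σ ∈ zeroLocus ℂ P, eval σ (h₀ * cnLie X f) = 0 := by
    intro σ hσ
    rw [map_mul]
    by_cases h0 : eval σ h₀ = 0
    · rw [h0, zero_mul]
    · have hle : tanSp P σ ≤ tanSp (Ideal.span G) σ :=
        fun v hv g hg => hv g (Ideal.span_le.mpr hG hg)
      have h1 := ph_tan_ge P hP σ hσ
      have h2 := hker σ hσ h0
      have heq : tanSp P σ = tanSp (Ideal.span G) σ :=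
        Submodule.eq_of_le_of_finrank_le hle (h2.trans h1)
      have hu : (fun i => eval σ (X i)) ∈ tanSp (Ideal.span G) σ := by
        rw [ph_mem_tanSp_span G σ fun g hg => (mem_zeroLocus_iff.mp hσ) g (hG hg)]
        intro g hg
        rw [← cn_eval_lie]
        exact htest σ hσ h0 g hg
      rw [← heq] at hu
      have h3 := hu f hf
      rw [cn_eval_lie, h3, mul_zero]
  have hmem : h₀ * cnLie X f ∈ P := by
    rw [← ph_vanishing_prime P hP, ph_mem_vanishingIdeal]
    exact key
  exact (hP.mem_or_mem hmem).resolve_left hh₀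

/-- restriction of `f` to the line `σ + t u` -/
noncomputable def cnLine (σ u : ι → ℂ) (f : MvPolynomial ι ℂ) : Polynomial ℂ :=
  aeval (fun i => Polynomial.C (σ i) + Polynomial.X * Polynomial.C (u i)) f

omit [Fintype ι] in
theorem cn_line_eval (σ u : ι → ℂ) (f : MvPolynomial ι ℂ) (t : ℂ) :
    (cnLine σ u f).eval t = eval (fun i => σ i + t * u i) f := by
  unfold cnLine
  rw [← Polynomial.coe_aeval_eq_eval, comp_aeval_apply, aeval_eq_eval]
  congr 2
  funext i
  simp only [map_add, map_mul, Polynomial.aeval_C, Polynomial.aeval_X, Algebra.algebraMap_self,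
    RingHom.id_apply]

theorem cn_line_derivative (σ u : ι → ℂ) (f : MvPolynomial ι ℂ) :
    Polynomial.derivative (cnLine σ u f) = ∑ i, Polynomial.C (u i) * cnLine σ u (pderiv i f) := by
  classical
  induction f using MvPolynomial.induction_on with
  | C c => simp [cnLine]
  | add f g hf hg =>
    have h1 : cnLine σ u (f + g) = cnLine σ u f + cnLine σ u g := by
      unfold cnLine
      rw [map_add]
    rw [h1, Polynomial.derivative_add, hf, hg, ← Finset.sum_add_distrib]
    refine Finset.sum_congr rfl fun i _ => ?_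
    unfold cnLine
    rw [map_add, map_add, mul_add]
  | mul_X f j hf =>
    have h1 : ∀ g h : MvPolynomial ι ℂ, cnLine σ u (g * h) = cnLine σ u g * cnLine σ u h := by
      intro g h
      unfold cnLine
      rw [map_mul]
    have h2 : cnLine σ u (MvPolynomial.X j)
        = Polynomial.C (σ j) + Polynomial.X * Polynomial.C (u j) := by
      unfold cnLine
      rw [aeval_X]
    have h3 : ∀ i, cnLine σ u (pderiv i (f * MvPolynomial.X j))
        = cnLine σ u (pderiv i f) * cnLine σ u (MvPolynomial.X j)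
          + cnLine σ u f * (if i = j then 1 else 0) := by
      intro i
      rw [Derivation.leibniz, smul_eq_mul, smul_eq_mul]
      have : cnLine σ u (f * pderiv i (MvPolynomial.X j) + MvPolynomial.X j * pderiv i f)
          = cnLine σ u f * cnLine σ u (pderiv i (MvPolynomial.X j))
            + cnLine σ u (MvPolynomial.X j) * cnLine σ u (pderiv i f) := by
        rw [← h1, ← h1]
        unfold cnLine
        rw [map_add]
      rw [this]
      by_cases hij : i = j
      · subst hij
        rw [pderiv_X_self, if_pos rfl]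
        have : cnLine σ u (1 : MvPolynomial ι ℂ) = 1 := by
          unfold cnLine
          rw [map_one]
        rw [this]
        ring
      · rw [pderiv_X_of_ne (Ne.symm hij), if_neg hij]
        have : cnLine σ u (0 : MvPolynomial ι ℂ) = 0 := by
          unfold cnLine
          rw [map_zero]
        rw [this]
        ring
    have hL : Polynomial.derivative (cnLine σ u (MvPolynomial.X j)) = Polynomial.C (u j) := by
      rw [h2]
      simp
    have h4 : ∑ i, Polynomial.C (u i) * (cnLine σ u f * (if i = j then 1 else 0))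
        = cnLine σ u f * Polynomial.C (u j) := by
      rw [Finset.sum_eq_single j]
      · rw [if_pos rfl]
        ring
      · intro i _ hi
        rw [if_neg hi]
        ring
      · intro h
        exact absurd (Finset.mem_univ j) h
    rw [h1, Polynomial.derivative_mul, hf, hL, ← h4, Finset.sum_mul, ← Finset.sum_add_distrib]
    refine Finset.sum_congr rfl fun i _ => ?_
    rw [h3 i]
    ring

/-- **(FLOW)**.  PLAN: fix `σ ∈ Z(P)`, `u := X(σ)`.  `φ_f := aeval (fun i => Polynomial.C (σ i) + Polynomial.X * Polynomial.C (u i)) f : Polynomial ℂ`; `φ_f.eval t = eval (σ + t u) f`;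
`derivative φ_f = φ_{X f}` as functions of `t`: chain rule `derivative φ_f = ∑ C (u i) * φ_{∂_i f}` (induction on `f`, or `ph_dAt_aeval`) and `u i = X_i(σ) = X_i(σ + t u)` (`hX`); two polynomials with the same values are equal (`Polynomial.funext`).
Claim: `∀ n, ∀ f ∈ P, φ_f.natDegree ≤ n → φ_f = 0`, induction on `n`: `derivative φ_f = φ_{X f}` has degree `≤ n - 1` (for `n = 0` it is `0`), `X f ∈ P`, so it is `0`; then `φ_f` is constant (`Polynomial.natDegree_eq_zero_of_derivative_eq_zero`), `= φ_f(0) = f(σ) = 0`. -/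
theorem cn_flow (P : Ideal (MvPolynomial ι ℂ)) (X : ι → MvPolynomial ι ℂ)
    (hX : ∀ (σ : ι → ℂ) (t : ℂ) (k : ι),
      eval (fun i => σ i + t * eval σ (X i)) (X k) = eval σ (X k))
    (hinv : ∀ f ∈ P, cnLie X f ∈ P) (σ : ι → ℂ) (hσ : σ ∈ zeroLocus ℂ P) (t : ℂ) :
    (fun i => σ i + t * eval σ (X i)) ∈ zeroLocus ℂ P := by
  set u : ι → ℂ := fun i => eval σ (X i) with hu
  have hder : ∀ f, Polynomial.derivative (cnLine σ u f) = cnLine σ u (cnLie X f) := by
    intro f
    apply Polynomial.funext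
    intro s
    rw [cn_line_derivative, cn_line_eval, Polynomial.eval_finsetSum]
    unfold cnLie
    rw [map_sum]
    refine Finset.sum_congr rfl fun i _ => ?_
    rw [Polynomial.eval_mul, Polynomial.eval_C, cn_line_eval, map_mul, hX σ s i]
  have hconst : ∀ f ∈ P, (cnLine σ u f).natDegree = 0 → cnLine σ u f = 0 := by
    intro f hf h0
    rw [Polynomial.eq_C_of_natDegree_eq_zero h0]
    have h1 : (cnLine σ u f).coeff 0 = (cnLine σ u f).eval 0 := by
      rw [Polynomial.coeff_zero_eq_eval_zero]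
    rw [h1, cn_line_eval]
    have h2 : (fun i => σ i + 0 * u i) = σ := by
      funext i
      ring
    rw [h2]
    have h3 := (mem_zeroLocus_iff.mp hσ) f hf
    rw [aeval_eq_eval] at h3
    have h4 : eval σ f = 0 := h3
    rw [h4, Polynomial.C_0]
  have claim : ∀ n : ℕ, ∀ f ∈ P, (cnLine σ u f).natDegree ≤ n → cnLine σ u f = 0 := by
    intro n
    induction n with
    | zero =>
      intro f hf h0
      exact hconst f hf (Nat.le_zero.mp h0)
    | succ n ih =>
      intro f hf hn
      have h1 : cnLine σ u (cnLie X f) = 0 := by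
        apply ih _ (hinv f hf)
        rw [← hder]
        have := Polynomial.natDegree_derivative_le (cnLine σ u f)
        omega
      rw [← hder] at h1
      exact hconst f hf (Polynomial.derivative_eq_zero.mp h1)
  rw [mem_zeroLocus_iff]
  intro f hf
  rw [aeval_eq_eval]
  have := claim _ f hf le_rfl
  have h5 := cn_line_eval σ u f t
  rw [this, Polynomial.eval_zero] at h5
  exact h5.symm

/-! ### LEAF CN-DER-C: density, equality of irreducible sets, finite sets -/

/-- a polynomial vanishing on a nonempty principal open subset of an irreducible `V` vanishes on `V` (`ph_isVar_mul` for `h * f`) -/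
theorem cn_dense {V : Set (ι → ℂ)} (hV : IsVar V) (h : MvPolynomial ι ℂ)
    (hh : ∃ x ∈ V, eval x h ≠ 0) (f : MvPolynomial ι ℂ)
    (hf : ∀ x ∈ V, eval x h ≠ 0 → eval x f = 0) : ∀ x ∈ V, eval x f = 0 := by
  have h1 : ∀ x ∈ V, eval x (h * f) = 0 := by
    intro x hx
    rw [map_mul]
    by_cases h0 : eval x h = 0
    · rw [h0, zero_mul]
    · rw [hf x hx h0, mul_zero]
  rcases ph_isVar_mul hV h f h1 with h2 | h2
  · obtain ⟨x, hx, hne⟩ := hh
    exact absurd (h2 x hx) hne
  · exact h2

/-- finitely many polynomials, none vanishing identically on the irreducible `V`: their product does not vanish identically (`Finset.induction_on`, `ph_isVar_mul`, `ph_isVar_nonempty`) -/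
theorem cn_prod_ne {V : Set (ι → ℂ)} (hV : IsVar V) {α : Type*} (s : Finset α)
    (f : α → MvPolynomial ι ℂ) (hf : ∀ a ∈ s, ∃ x ∈ V, eval x (f a) ≠ 0) :
    ∃ x ∈ V, eval x (∏ a ∈ s, f a) ≠ 0 := by
  classical
  induction s using Finset.induction_on with
  | empty =>
    obtain ⟨x, hx⟩ := ph_isVar_nonempty V hV
    exact ⟨x, hx, by simp⟩
  | insert a s ha ih =>
    rw [Finset.prod_insert ha]
    by_contra hcon
    simp only [not_exists, not_and, not_not] at hcon
    rcases ph_isVar_mul hV _ _ hcon with h2 | h2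
    · obtain ⟨x, hx, hne⟩ := hf a (Finset.mem_insert_self a s)
      exact hne (h2 x hx)
    · obtain ⟨x, hx, hne⟩ := ih fun b hb => hf b (Finset.mem_insert_of_mem hb)
      exact hne (h2 x hx)

/-- membership in an irreducible (or any closed) set is tested by its equations -/
theorem cn_mem_of_isVar {V : Set (ι → ℂ)} (hV : IsVar V) (x : ι → ℂ)
    (h : ∀ f : MvPolynomial ι ℂ, (∀ y ∈ V, eval y f = 0) → eval x f = 0) : x ∈ V := by
  rw [← ph_zcl_of_isVar hV, ph_mem_zcl]
  exact h

/-- `V = Zl (I(V))` -/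
theorem cn_Zl_vanishing {V : Set (ι → ℂ)} (hV : IsVar V) :
    Zl {f : MvPolynomial ι ℂ | ∀ y ∈ V, eval y f = 0} = V := by
  ext x
  constructor
  · intro hx
    exact cn_mem_of_isVar hV x fun f hf => hx f hf
  · intro hx f hf
    exact hf x hx

/-- PLAN: if `W ≠ V` take `x ∈ V \ W`, `g` vanishing on `W` with `g(x) ≠ 0` (`cn_mem_of_isVar`); `ph_vdim_lt_of_ssubset`, `ph_isVar_nonempty`. -/
theorem cn_isVar_eq {V W : Set (ι → ℂ)} (hV : IsVar V) (hW : IsVar W) (h : W ⊆ V)
    (hd : vdim V ≤ vdim W) : W = V := by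
  by_contra hne
  obtain ⟨x, hxV, hxW⟩ : ∃ x ∈ V, x ∉ W := by
    by_contra hcon
    simp only [not_exists, not_and, not_not] at hcon
    exact hne (Set.Subset.antisymm h hcon)
  obtain ⟨g, hgW, hgx⟩ : ∃ g : MvPolynomial ι ℂ, (∀ y ∈ W, eval y g = 0) ∧ eval x g ≠ 0 := by
    by_contra hcon
    simp only [not_exists, not_and, not_not] at hcon
    exact hxW (cn_mem_of_isVar hW x hcon)
  have := ph_vdim_lt_of_ssubset hV h g hgW ⟨x, hxV, hgx⟩ (ph_isVar_nonempty W hW)
  omega

/-- PLAN: `hA S D ≤ card S` (`rkOn` is the rank of a map into functions on `S`; RkBasic has `rk_rkOn_le_card`-type lemmas, otherwise `finrank_range_le` + `finrank_fintype_fun_eq_card`); `ph_vdim_le_of_bound` with `k = 0`. -/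
theorem cn_vdim_finite (S : Set (ι → ℂ)) (hS : S.Finite) : vdim S = 0 := by
  have h := ph_vdim_le_of_bound S 0 S.ncard fun D => by
    rw [Nat.choose_zero_right, mul_one]
    exact rk_rkOn_le_ncard _ S hS
  omega

/-- an irreducible set with a finite nonempty principal open subset has dimension `0`.  PLAN: `Φ ⊆ zcl S`, `S := Φ ∩ {h ≠ 0}` (`cn_dense`: every `f` vanishing on `S` vanishes on `Φ`); `ph_vdim_mono`, `ph_vdim_zcl`, `cn_vdim_finite`. -/
theorem cn_vdim_zero_of_open_finite {Φ : Set (ι → ℂ)} (hΦ : IsVar Φ) (h : MvPolynomial ι ℂ)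
    (hh : ∃ x ∈ Φ, eval x h ≠ 0) (hfin : {x ∈ Φ | eval x h ≠ 0}.Finite) : vdim Φ = 0 := by
  have h1 : Φ ⊆ zcl {x ∈ Φ | eval x h ≠ 0} := by
    intro x hx
    rw [ph_mem_zcl]
    intro f hf
    exact cn_dense hΦ h hh f (fun y hy hne => hf y ⟨hy, hne⟩) x hx
  have h2 := ph_vdim_mono h1
  rw [ph_vdim_zcl, cn_vdim_finite _ hfin] at h2
  omega

/-! ### LEAF CN-DER-D: principal open subsets as closed sets -/

/-- the principal open subset `B ∩ {m ≠ 0}` as a closed subset of `ℂ^(ι ⊕ Unit)` (Rabinowitsch) -/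
def cnOpen (B : Set (ι → ℂ)) (m : MvPolynomial ι ℂ) : Set (ι ⊕ Unit → ℂ) :=
  {w | (fun i => w (Sum.inl i)) ∈ B ∧ w (Sum.inr ()) * eval (fun i => w (Sum.inl i)) m = 1}

omit [Fintype ι] in
/-- clearing the denominators: `f♯(x) = m(x)^d f(x, 1/m(x))` -/
theorem cn_open_sharp (m : MvPolynomial ι ℂ) (f : MvPolynomial (ι ⊕ Unit) ℂ) :
    ∃ (d : ℕ) (F : MvPolynomial ι ℂ), ∀ w : ι ⊕ Unit → ℂ,
      w (Sum.inr ()) * eval (fun i => w (Sum.inl i)) m = 1 →
      eval (fun i => w (Sum.inl i)) F = eval (fun i => w (Sum.inl i)) m ^ d * eval w f := by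
  induction f using MvPolynomial.induction_on with
  | C c => exact ⟨0, C c, fun w _ => by simp⟩
  | add f g hf hg =>
    obtain ⟨d1, F1, h1⟩ := hf
    obtain ⟨d2, F2, h2⟩ := hg
    refine ⟨d1 + d2, m ^ d2 * F1 + m ^ d1 * F2, fun w hw => ?_⟩
    rw [map_add, map_mul, map_mul, map_pow, map_pow, h1 w hw, h2 w hw, map_add]
    ring
  | mul_X f k hf =>
    obtain ⟨d1, F1, h1⟩ := hf
    rcases k with i | u
    · refine ⟨d1, F1 * MvPolynomial.X i, fun w hw => ?_⟩
      rw [map_mul, map_mul, h1 w hw, eval_X, eval_X]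
      ring
    · refine ⟨d1 + 1, F1, fun w hw => ?_⟩
      rw [map_mul, h1 w hw, eval_X]
      have hu : u = () := rfl
      rw [hu]
      calc eval (fun i => w (Sum.inl i)) m ^ d1 * eval w f
          = eval (fun i => w (Sum.inl i)) m ^ d1 * eval w f
            * (w (Sum.inr ()) * eval (fun i => w (Sum.inl i)) m) := by rw [hw, mul_one]
        _ = _ := by ring

/-- PLAN: `cnOpen B m` is closed: it is `Zl (rename inl '' I(B) ∪ {X (inr ()) * rename inl m - 1})`, so `zcl (cnOpen B m) = cnOpen B m` (`ph_zcl_Zl`).  Irreducible by `ph_isVar_zcl_iff`: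
for `f ∈ ℂ[x, τ]` there are `d` and `f♯ ∈ ℂ[x]` with `f♯(x) = m(x)^d f(x, 1/m(x))` whenever `m(x) ≠ 0` (induction on `f`: `MvPolynomial.induction_on`; for a sum take the max of the two exponents).
If `f g = 0` on `cnOpen B m` then `m f♯ g♯ = 0` on `B`; `ph_isVar_mul` twice. -/
theorem cn_open_isVar {B : Set (ι → ℂ)} (hB : IsVar B) (m : MvPolynomial ι ℂ)
    (hm : ∃ x ∈ B, eval x m ≠ 0) : IsVar (cnOpen B m) := by
  have hcl : zcl (cnOpen B m) = cnOpen B m := by
    have h1 : cnOpen B m = Zl (rename (Sum.inl : ι → ι ⊕ Unit) ''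
        {f : MvPolynomial ι ℂ | ∀ y ∈ B, eval y f = 0}
          ∪ {MvPolynomial.X (Sum.inr ()) * rename (Sum.inl : ι → ι ⊕ Unit) m - 1}) := by
      ext w
      constructor
      · rintro ⟨hw1, hw2⟩ g hg
        rcases hg with ⟨f, hf, rfl⟩ | hg
        · rw [eval_rename]
          exact hf _ hw1
        · rw [Set.mem_singleton_iff] at hg
          rw [hg, map_sub, map_mul, eval_X, eval_rename, map_one, sub_eq_zero]
          exact hw2
      · intro hw
        refine ⟨cn_mem_of_isVar hB _ fun f hf => ?_, ?_⟩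
        · have := hw _ (Or.inl ⟨f, hf, rfl⟩)
          rwa [eval_rename] at this
        · have := hw _ (Or.inr rfl)
          rw [map_sub, map_mul, eval_X, eval_rename, map_one, sub_eq_zero] at this
          exact this
    rw [h1, ph_zcl_Zl]
  rw [← hcl, ph_isVar_zcl_iff]
  have hpt : ∀ x ∈ B, eval x m ≠ 0 → Sum.elim x (fun _ : Unit => (eval x m)⁻¹) ∈ cnOpen B m := by
    intro x hx hne
    exact ⟨hx, inv_mul_cancel₀ hne⟩
  refine ⟨?_, fun f g hfg => ?_⟩
  · obtain ⟨x, hx, hne⟩ := hm
    exact ⟨_, hpt x hx hne⟩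
  · obtain ⟨d1, F1, h1⟩ := cn_open_sharp m f
    obtain ⟨d2, F2, h2⟩ := cn_open_sharp m g
    have hzero : ∀ x ∈ B, eval x (m * (F1 * F2)) = 0 := by
      intro x hx
      rw [map_mul]
      by_cases hne : eval x m = 0
      · rw [hne, zero_mul]
      · have hw := hpt x hx hne
        have e1 := h1 _ hw.2
        have e2 := h2 _ hw.2
        simp only [Sum.elim_inl] at e1 e2
        rw [map_mul, e1, e2]
        have := hfg _ hw
        rw [show eval x m ^ d1 * eval (Sum.elim x fun _ : Unit => (eval x m)⁻¹) f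
            * (eval x m ^ d2 * eval (Sum.elim x fun _ : Unit => (eval x m)⁻¹) g)
            = eval x m ^ d1 * eval x m ^ d2 * (eval (Sum.elim x fun _ : Unit => (eval x m)⁻¹) f
              * eval (Sum.elim x fun _ : Unit => (eval x m)⁻¹) g) by ring, this]
        ring
    have hfin : ∀ (d : ℕ) (F : MvPolynomial ι ℂ) (f : MvPolynomial (ι ⊕ Unit) ℂ),
        (∀ w : ι ⊕ Unit → ℂ, w (Sum.inr ()) * eval (fun i => w (Sum.inl i)) m = 1 →
          eval (fun i => w (Sum.inl i)) F = eval (fun i => w (Sum.inl i)) m ^ d * eval w f) →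
        (∀ x ∈ B, eval x F = 0) → ∀ w ∈ cnOpen B m, eval w f = 0 := by
      intro d F f hF h0 w hw
      have e := hF w hw.2
      rw [h0 _ hw.1] at e
      have hne : eval (fun i => w (Sum.inl i)) m ≠ 0 := by
        intro h
        have := hw.2
        rw [h, mul_zero] at this
        exact zero_ne_one this
      rcases mul_eq_zero.mp e.symm with h | h
      · exact absurd h (pow_ne_zero _ hne)
      · exact h
    rcases ph_isVar_mul hB _ _ hzero with h | h
    · obtain ⟨x, hx, hne⟩ := hm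
      exact absurd (h x hx) hne
    · rcases ph_isVar_mul hB _ _ h with h | h
      · exact Or.inl (hfin d1 F1 f h1 h)
      · exact Or.inr (hfin d2 F2 g h2 h)

/-! ### LEAF CN-DER-E: minors -/

/-- PLAN: the `c × κ` matrix `M` has rank `c` (`LinearIndependent.rank_matrix`); its column space is `ℂ^c`, so `c` of the columns form a basis (`exists_linearIndependent`/`Basis.ofSpan`-type: extract a basis of `⊤` from the spanning family of columns);
a square matrix with independent columns has `det ≠ 0` (`Matrix.linearIndependent_cols_iff_isUnit`, `Matrix.isUnit_iff_isUnit_det`).  Alternative: induction on `c`. -/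
theorem cn_exists_minor {c : ℕ} {κ : Type*} [Fintype κ] (M : Fin c → κ → ℂ)
    (h : LinearIndependent ℂ M) :
    ∃ e : Fin c → κ, (Matrix.of fun i j => M i (e j)).det ≠ 0 := by
  have hrk : (Matrix.of M).rank = c := by
    have := LinearIndependent.rank_matrix (M := Matrix.of M) h
    simpa using this
  have hr : finrank ℂ (Submodule.span ℂ (Set.range (Matrix.of M).col)) = c := by
    rw [← Matrix.rank_eq_finrank_span_cols, hrk]
  obtain ⟨f, hf, -, hli⟩ := Submodule.exists_fun_fin_finrank_span_eq ℂ (Set.range (Matrix.of M).col)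
  choose e he using hf
  refine ⟨fun j => e (Fin.cast hr.symm j), ?_⟩
  have hcol : (Matrix.of fun i j => M i (e (Fin.cast hr.symm j))).col = f ∘ Fin.cast hr.symm := by
    funext j
    rw [Function.comp_apply, ← he]
    rfl
  have hli2 : LinearIndependent ℂ (Matrix.of fun i j => M i (e (Fin.cast hr.symm j))).col := by
    rw [hcol]
    exact hli.comp _ (Fin.cast_injective _)
  rw [Matrix.linearIndependent_cols_iff_isUnit, Matrix.isUnit_iff_isUnit_det] at hli2
  exact hli2.ne_zero

/-- PLAN: a relation `∑ a_i M_i = 0` restricts to the columns `e j`; `Matrix.linearIndependent_rows_iff_isUnit`. -/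
theorem cn_indep_of_minor {c : ℕ} {κ : Type*} (M : Fin c → κ → ℂ) (e : Fin c → κ)
    (h : (Matrix.of fun i j => M i (e j)).det ≠ 0) : LinearIndependent ℂ M := by
  have h1 : IsUnit (Matrix.of fun i j => M i (e j)) := by
    rw [Matrix.isUnit_iff_isUnit_det]
    exact isUnit_iff_ne_zero.2 h
  rw [← Matrix.linearIndependent_rows_iff_isUnit] at h1
  refine LinearIndependent.of_comp (LinearMap.funLeft ℂ ℂ e) ?_
  exact h1

/-- PLAN: `Matrix.det_apply`, `totalDegree_finset_sum_le`, `totalDegree_smul_le`, `totalDegree_finset_prod`. (cf. `ph_totalDegree_det_le`) -/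
theorem cn_det_degree {c : ℕ} (M : Matrix (Fin c) (Fin c) (MvPolynomial ι ℂ)) (D : ℕ)
    (h : ∀ i j, (M i j).totalDegree ≤ D) : M.det.totalDegree ≤ c * D := by
  rw [Matrix.det_apply]
  apply totalDegree_finsetSum_le
  intro σ _
  refine (totalDegree_smul_le _ _).trans ?_
  refine (totalDegree_finsetProd _ _).trans ?_
  calc ∑ i, (M (σ i) i).totalDegree ≤ ∑ _i : Fin c, D := Finset.sum_le_sum fun i _ => h _ _
    _ = c * D := by simp

/-- `dim {u | M_i · u = 0 ∀ i} = card κ - c` for independent rows.  PLAN: the map `u ↦ (M_i · u)_i` is onto `ℂ^c` (its transpose is injective; or `Matrix.rank`), rank-nullity `LinearMap.finrank_range_add_finrank_ker`. -/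
theorem cn_ker_finrank {c : ℕ} {κ : Type*} [Fintype κ] (M : Fin c → κ → ℂ)
    (h : LinearIndependent ℂ M) (K : Submodule ℂ (κ → ℂ))
    (hK : ∀ u, u ∈ K ↔ ∀ i, ∑ k, M i k * u k = 0) : finrank ℂ K + c = Fintype.card κ := by
  have hrk : (Matrix.of M).rank = c := by
    have := LinearIndependent.rank_matrix (M := Matrix.of M) h
    simpa using this
  have hKer : K = LinearMap.ker (Matrix.of M).mulVecLin := by
    ext u
    rw [hK, LinearMap.mem_ker, Matrix.mulVecLin_apply, funext_iff]
    rfl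
  have := LinearMap.finrank_range_add_finrank_ker (Matrix.of M).mulVecLin
  rw [finrank_fintype_fun_eq_card] at this
  have hrk' : finrank ℂ (LinearMap.range (Matrix.of M).mulVecLin) = c := hrk
  rw [hKer]
  omega

end general

/-! ## Part 2: the incidence space -/

section incidence

variable {r : ℕ}

/-- coordinates of the incidence space `∋ σ = (z, v)` -/
abbrev CnJ (r : ℕ) := CnI r ⊕ Fin r

/-- the `z`-part of a point of the incidence space -/
def cnJz (σ : CnJ r → ℂ) : CnI r → ℂ := fun i => σ (Sum.inl i)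

/-- the `v`-part of a point of the incidence space -/
def cnJv (σ : CnJ r → ℂ) : Fin r → ℂ := fun i => σ (Sum.inr i)

/-- the point `(Z, y - Z v, v)` of the lifted flat -/
def cnLift (μ : CnP r → ℂ) (Z : CnSk r → ℂ) : CnJ r → ℂ := Sum.elim (cnGr μ Z) (cnV μ)

/-- skew extension of a family of polynomials indexed by the positions above the diagonal -/
noncomputable def cnSkw {ι : Type*} (a : CnSk r → MvPolynomial ι ℂ) (i j : Fin r) : MvPolynomial ι ℂ :=
  if h : i < j then a ⟨(i, j), h⟩ else if h : j < i then - a ⟨(j, i), h⟩ else 0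

/-- the vector field `(W, - W v, 0)` -/
noncomputable def cnFld (W : CnSk r → ℂ) : CnJ r → MvPolynomial (CnJ r) ℂ :=
  Sum.elim (Sum.elim (fun q => C (W q)) (fun i => - ∑ j, C (cnMat W i j) * X (Sum.inr j)))
    (fun _ => 0)

/-- the vector field `(m W, - W N)` on the chart -/
noncomputable def cnHat (m : MvPolynomial (CnI r) ℂ) (N : Fin r → MvPolynomial (CnI r) ℂ)
    (W : CnSk r → ℂ) : CnI r → MvPolynomial (CnI r) ℂ :=
  Sum.elim (fun q => C (W q) * m) (fun i => - ∑ j, C (cnMat W i j) * N j)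

/-- `θ_W (Z, x, v) = (Z + W, x - W v, v)` -/
noncomputable def cnTh (W : CnSk r → ℂ) (σ : CnJ r → ℂ) : CnJ r → ℂ :=
  fun k => σ k + eval σ (cnFld W k)

/-- `f` is a CONSTRAINT for the flats of `V` -/
def CnCon (V : Set (CnI r → ℂ)) (f : MvPolynomial (CnJ r) ℂ) : Prop :=
  ∀ μ, cnFlat μ ⊆ V → ∀ Z, eval (cnLift μ Z) f = 0

/-- the elementary skew matrix `E_ab - E_ba` (zero if `a = b`) -/
def cnEl (a b : Fin r) : CnSk r → ℂ :=
  fun q => if q.1 = (a, b) then 1 else if q.1 = (b, a) then -1 else 0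

/-! ### LEAF CN-DER-F: elementary identities -/

theorem cn_eval_skw {ι : Type*} (a : CnSk r → MvPolynomial ι ℂ) (z : ι → ℂ) (i j : Fin r) :
    eval z (cnSkw a i j) = cnMat (fun q => eval z (a q)) i j := by
  unfold cnSkw cnMat
  split_ifs <;> simp

theorem cn_skw_degree {ι : Type*} (a : CnSk r → MvPolynomial ι ℂ) (D : ℕ)
    (h : ∀ q, (a q).totalDegree ≤ D) (i j : Fin r) : (cnSkw a i j).totalDegree ≤ D := by
  unfold cnSkw
  split_ifs
  · exact h _
  · rw [totalDegree_neg]
    exact h _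
  · simp

theorem cn_Jz_lift (μ : CnP r → ℂ) (Z : CnSk r → ℂ) : cnJz (cnLift μ Z) = cnGr μ Z := rfl

theorem cn_Jv_lift (μ : CnP r → ℂ) (Z : CnSk r → ℂ) : cnJv (cnLift μ Z) = cnV μ := rfl

/-- `cnMat (cnEl a b) i j = δ_ia δ_jb - δ_ib δ_ja` -/
theorem cn_mat_el (a b i j : Fin r) :
    cnMat (cnEl a b) i j
      = (if i = a ∧ j = b then 1 else 0) - (if i = b ∧ j = a then 1 else 0) := by
  unfold cnMat cnEl
  simp only [Prod.mk.injEq]
  rcases lt_trichotomy i j with hij | hij | hij
  · rw [dif_pos hij]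
    by_cases h1 : i = a ∧ j = b
    · have h2 : ¬ (i = b ∧ j = a) := by
        rintro ⟨h3, h4⟩
        rw [h1.1, h1.2, ← h4, h1.2] at hij
        exact lt_irrefl _ hij
      rw [if_pos h1, if_pos h1, if_neg h2, sub_zero]
    · rw [if_neg h1, if_neg h1]
      by_cases h2 : i = b ∧ j = a
      · rw [if_pos h2, if_pos h2, zero_sub]
      · rw [if_neg h2, if_neg h2, sub_zero]
  · subst hij
    rw [dif_neg (lt_irrefl _), dif_neg (lt_irrefl _)]
    by_cases h1 : i = a ∧ i = b
    · rw [if_pos h1, if_pos ⟨h1.2, h1.1⟩, sub_self]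
    · rw [if_neg h1, if_neg fun h => h1 ⟨h.2, h.1⟩, sub_self]
  · rw [dif_neg (not_lt.mpr hij.le), dif_pos hij]
    have e1 : (i = b ∧ j = a) ↔ (j = a ∧ i = b) := and_comm
    have e2 : (i = a ∧ j = b) ↔ (j = b ∧ i = a) := and_comm
    simp only [e1, e2]
    by_cases h1 : j = a ∧ i = b
    · have h2 : ¬ (j = b ∧ i = a) := by
        rintro ⟨h3, h4⟩
        rw [h1.1, h1.2, ← h3, h1.1] at hij
        exact lt_irrefl _ hij
      simp only [if_pos h1, if_neg h2]
      ring
    · by_cases h2 : j = b ∧ i = a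
      · simp only [if_neg h1, if_pos h2]
        ring
      · simp only [if_neg h1, if_neg h2]
        ring

/-- `∑_q W_q A_q = A_ab` (skew extension) for `W = E_ab - E_ba` -/
theorem cn_sum_el (A : CnSk r → ℂ) (a b : Fin r) : ∑ q, cnEl a b q * A q = cnMat A a b := by
  unfold cnMat
  rcases lt_trichotomy a b with hab | hab | hab
  · rw [dif_pos hab, Finset.sum_eq_single (⟨(a, b), hab⟩ : CnSk r)]
    · simp [cnEl]
    · intro q _ hq
      have h1 : q.1 ≠ (a, b) := fun h => hq (Subtype.ext h)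
      have h2 : q.1 ≠ (b, a) := fun h => by
        have := q.2
        rw [h] at this
        exact lt_asymm hab this
      simp [cnEl, h1, h2]
    · intro h
      exact absurd (Finset.mem_univ _) h
  · subst hab
    rw [dif_neg (lt_irrefl _), dif_neg (lt_irrefl _)]
    refine Finset.sum_eq_zero fun q _ => ?_
    have h1 : q.1 ≠ (a, a) := fun h => by
      have := q.2
      rw [h] at this
      exact lt_irrefl _ this
    simp [cnEl, h1]
  · rw [dif_neg (not_lt.mpr hab.le), dif_pos hab, Finset.sum_eq_single (⟨(b, a), hab⟩ : CnSk r)]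
    · have h1 : ((b, a) : Fin r × Fin r) ≠ (a, b) := fun h => by
        have := (Prod.mk.injEq _ _ _ _ ▸ h : b = a ∧ a = b)
        rw [this.1] at hab
        exact lt_irrefl _ hab
      simp [cnEl, h1]
    · intro q _ hq
      have h1 : q.1 ≠ (b, a) := fun h => hq (Subtype.ext h)
      have h2 : q.1 ≠ (a, b) := fun h => by
        have := q.2
        rw [h] at this
        exact lt_asymm hab this
      simp [cnEl, h1, h2]
    · intro h
      exact absurd (Finset.mem_univ _) h

theorem cn_eval_fld_Z (W : CnSk r → ℂ) (σ : CnJ r → ℂ) (q : CnSk r) :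
    eval σ (cnFld W (Sum.inl (Sum.inl q))) = W q := by
  simp [cnFld]

theorem cn_eval_fld_x (W : CnSk r → ℂ) (σ : CnJ r → ℂ) (i : Fin r) :
    eval σ (cnFld W (Sum.inl (Sum.inr i))) = - ∑ j, cnMat W i j * cnJv σ j := by
  simp [cnFld, cnJv]

theorem cn_eval_fld_v (W : CnSk r → ℂ) (σ : CnJ r → ℂ) (i : Fin r) :
    eval σ (cnFld W (Sum.inr i)) = 0 := by
  simp [cnFld]

/-- the field only depends on `v`, which is constant along its lines -/
theorem cn_fld_line (W : CnSk r → ℂ) (σ : CnJ r → ℂ) (t : ℂ) (k : CnJ r) :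
    eval (fun i => σ i + t * eval σ (cnFld W i)) (cnFld W k) = eval σ (cnFld W k) := by
  rcases k with (q | i) | i <;> simp [cnFld]

/-- the field is linear in `W` -/
theorem cn_fld_smul (W : CnSk r → ℂ) (σ : CnJ r → ℂ) (t : ℂ) (k : CnJ r) :
    eval σ (cnFld (t • W) k) = t * eval σ (cnFld W k) := by
  rcases k with (q | i) | i
  · simp [cnFld]
  · rw [cn_eval_fld_x, cn_eval_fld_x, mul_neg, Finset.mul_sum]
    congr 1
    refine Finset.sum_congr rfl fun j _ => ?_
    rw [cn_mat_smul]
    ring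
  · simp [cnFld]

theorem cn_th_lift (μ : CnP r → ℂ) (Z W : CnSk r → ℂ) : cnTh W (cnLift μ Z) = cnLift μ (Z + W) := by
  funext k
  unfold cnTh
  rcases k with (q | i) | i
  · rw [cn_eval_fld_Z]
    rfl
  · rw [cn_eval_fld_x, cn_Jv_lift]
    show cnPi Z μ i + _ = cnPi (Z + W) μ i
    unfold cnPi
    simp only [cn_mat_add, add_mul, Finset.sum_add_distrib]
    ring
  · rw [cn_eval_fld_v, add_zero]
    rfl

/-- every point of the incidence space is on exactly one lifted flat: `σ = cnLift μ Z` with `Z = cnZ (cnJz σ)`, `μ = (v, x + Z v)` -/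
theorem cn_eq_lift (σ : CnJ r → ℂ) :
    σ = cnLift (Sum.elim (cnJv σ) (fun i => cnX (cnJz σ) i + ∑ j, cnMat (cnZ (cnJz σ)) i j * cnJv σ j))
      (cnZ (cnJz σ)) := by
  funext k
  rcases k with (q | i) | i
  · rfl
  · show σ (Sum.inl (Sum.inr i)) = cnPi _ _ i
    unfold cnPi cnY cnV
    simp only [Sum.elim_inr, Sum.elim_inl]
    rw [add_sub_cancel_right]
    rfl
  · rfl

/-- `z ∈ Φ_μ ↔ (z, v_μ)` is the point of the lifted flat over `Z = cnZ z` -/
theorem cn_mem_flat_iff (μ : CnP r → ℂ) (z : CnI r → ℂ) : z ∈ cnFlat μ ↔ z = cnGr μ (cnZ z) := by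
  constructor
  · intro h
    funext k
    rcases k with q | i
    · rfl
    · exact congrFun h i
  · intro h
    show cnX z = cnPi (cnZ z) μ
    funext i
    exact congrFun h (Sum.inr i)

theorem cn_fld_degree (W : CnSk r → ℂ) (k : CnJ r) : (cnFld W k).totalDegree ≤ 1 := by
  rcases k with (q | i) | i
  · simp [cnFld]
  · simp only [cnFld, Sum.elim_inl, Sum.elim_inr]
    rw [totalDegree_neg]
    refine totalDegree_finsetSum_le fun j _ => ?_
    refine (totalDegree_mul _ _).trans ?_
    rw [totalDegree_C, totalDegree_X]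
  · simp [cnFld]

theorem cn_hat_degree (m : MvPolynomial (CnI r) ℂ) (N : Fin r → MvPolynomial (CnI r) ℂ)
    (W : CnSk r → ℂ) (a : ℕ) (hm : m.totalDegree ≤ a) (hN : ∀ j, (N j).totalDegree ≤ a)
    (k : CnI r) : (cnHat m N W k).totalDegree ≤ a := by
  rcases k with q | i
  · simp only [cnHat, Sum.elim_inl]
    refine (totalDegree_mul _ _).trans ?_
    rw [totalDegree_C, zero_add]
    exact hm
  · simp only [cnHat, Sum.elim_inr]
    rw [totalDegree_neg]
    refine totalDegree_finsetSum_le fun j _ => ?_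
    refine (totalDegree_mul _ _).trans ?_
    rw [totalDegree_C, zero_add]
    exact hN j

/-! ### LEAF CN-DER-G: constraints -/

/-- PLAN: `cn_dirderiv` at `σ = cnLift μ Z`, `u = (cnFld W)(σ)`: `σ + t u = cnLift μ (Z + t • W)` (`cn_th_lift`, `cn_fld_smul`); `cn_eval_lie`. -/
theorem cn_flat_del (μ : CnP r → ℂ) (f : MvPolynomial (CnJ r) ℂ)
    (hf : ∀ Z, eval (cnLift μ Z) f = 0) (W Z : CnSk r → ℂ) :
    eval (cnLift μ Z) (cnLie (cnFld W) f) = 0 := by
  rw [cn_eval_lie]
  apply cn_dirderiv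
  intro t
  have h1 : (fun i => cnLift μ Z i + t * eval (cnLift μ Z) (cnFld W i)) = cnLift μ (Z + t • W) := by
    rw [← cn_th_lift]
    funext k
    unfold cnTh
    rw [cn_fld_smul]
  rw [h1]
  exact hf _

theorem cn_con_del {V : Set (CnI r → ℂ)} {f : MvPolynomial (CnJ r) ℂ} (hf : CnCon V f)
    (W : CnSk r → ℂ) : CnCon V (cnLie (cnFld W) f) :=
  fun μ hμ Z => cn_flat_del μ f (hf μ hμ) W Z

theorem cn_con_rename {V : Set (CnI r → ℂ)} {f : MvPolynomial (CnI r) ℂ}
    (hf : ∀ z ∈ V, eval z f = 0) : CnCon V (rename Sum.inl f) := by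
  intro μ hμ Z
  rw [eval_rename]
  exact hf _ (hμ (cn_gr_mem μ Z))

/-- `δ_W` of a polynomial in `z` only: `(δ_W f~)(z, v) = ∑_q W_q ∂f/∂Z_q (z) - ∑_i (W v)_i ∂f/∂x_i (z)`.  (`pderiv_rename` for the injective `Sum.inl`; `pderiv (inr _) (rename inl f) = 0`: `pderiv_eq_zero_of_notMem_vars`, `vars_rename`.) -/
theorem cn_del_rename (W : CnSk r → ℂ) (f : MvPolynomial (CnI r) ℂ) (σ : CnJ r → ℂ) :
    eval σ (cnLie (cnFld W) (rename Sum.inl f))
      = ∑ q, W q * eval (cnJz σ) (pderiv (Sum.inl q) f)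
        - ∑ i, (∑ j, cnMat W i j * cnJv σ j) * eval (cnJz σ) (pderiv (Sum.inr i) f) := by
  have hren : ∀ (k : CnI r), eval σ (pderiv (Sum.inl k) (rename (Sum.inl : CnI r → CnJ r) f))
      = eval (cnJz σ) (pderiv k f) := by
    intro k
    rw [pderiv_rename Sum.inl_injective, eval_rename]
    rfl
  unfold cnLie
  rw [map_sum, Fintype.sum_sum_type, Fintype.sum_sum_type]
  simp only [map_mul, hren, cn_eval_fld_Z, cn_eval_fld_x, cn_eval_fld_v, zero_mul,
    Finset.sum_const_zero, add_zero, neg_mul, Finset.sum_neg_distrib]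
  ring

/-- **(HAT)** -/
theorem cn_hat_eval (m : MvPolynomial (CnI r) ℂ) (N : Fin r → MvPolynomial (CnI r) ℂ)
    (W : CnSk r → ℂ) (f : MvPolynomial (CnI r) ℂ) (σ : CnJ r → ℂ)
    (h : ∀ j, eval (cnJz σ) m * cnJv σ j = eval (cnJz σ) (N j)) :
    eval (cnJz σ) (cnLie (cnHat m N W) f)
      = eval (cnJz σ) m * eval σ (cnLie (cnFld W) (rename Sum.inl f)) := by
  rw [cn_del_rename]
  unfold cnLie
  rw [map_sum, Fintype.sum_sum_type, mul_sub, Finset.mul_sum, Finset.mul_sum, sub_eq_add_neg,
    ← Finset.sum_neg_distrib]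
  congr 1
  · refine Finset.sum_congr rfl fun q _ => ?_
    simp only [cnHat, Sum.elim_inl, map_mul, eval_C]
    ring
  · refine Finset.sum_congr rfl fun i _ => ?_
    simp only [cnHat, Sum.elim_inr, map_mul, map_neg, map_sum, eval_C]
    rw [← mul_assoc, Finset.mul_sum, neg_mul]
    congr 2
    refine Finset.sum_congr rfl fun j _ => ?_
    rw [← h j]
    ring

/-- a polynomial in `z` vanishing on ONE flat: its hat-derivative vanishes on the flat (`cn_hat_eval`, `cn_flat_del`) -/
theorem cn_flat_hat (μ : CnP r → ℂ) (f : MvPolynomial (CnI r) ℂ) (hf : ∀ z ∈ cnFlat μ, eval z f = 0)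
    (m : MvPolynomial (CnI r) ℂ) (N : Fin r → MvPolynomial (CnI r) ℂ) (W : CnSk r → ℂ)
    (z : CnI r → ℂ) (hz : z ∈ cnFlat μ) (h : ∀ j, eval z m * cnV μ j = eval z (N j)) :
    eval z (cnLie (cnHat m N W) f) = 0 := by
  have hz' : cnJz (cnLift μ (cnZ z)) = z := by
    rw [cn_Jz_lift]
    exact ((cn_mem_flat_iff μ z).mp hz).symm
  have h1 := cn_hat_eval m N W f (cnLift μ (cnZ z)) (by
    rw [hz', cn_Jv_lift]
    exact h)
  rw [hz'] at h1
  rw [h1, cn_flat_del μ (rename Sum.inl f) (fun Z => by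
    rw [eval_rename]
    exact hf _ (cn_gr_mem μ Z)) W (cnZ z), mul_zero]

/-- **tangent equations** `A = ξ ∧ v` along a flat contained in `Z(f)`: `A_ab = ξ_a v_b - ξ_b v_a`, `A` = skew extension of `∂f/∂Z`, `ξ = ∇_x f`.  (`cn_flat_del` for `rename inl f`, `W = cnEl a b`; `cn_del_rename`, `cn_sum_el`, `cn_mat_el`.) -/
theorem cn_tangent (μ : CnP r → ℂ) (f : MvPolynomial (CnI r) ℂ) (hf : ∀ z ∈ cnFlat μ, eval z f = 0)
    (z : CnI r → ℂ) (hz : z ∈ cnFlat μ) (a b : Fin r) :
    eval z (cnSkw (fun q => pderiv (Sum.inl q) f) a b)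
      = eval z (pderiv (Sum.inr a) f) * cnV μ b - eval z (pderiv (Sum.inr b) f) * cnV μ a := by
  have hz' : cnJz (cnLift μ (cnZ z)) = z := by
    rw [cn_Jz_lift]
    exact ((cn_mem_flat_iff μ z).mp hz).symm
  have h1 := cn_flat_del μ (rename Sum.inl f) (fun Z => by
    rw [eval_rename]
    exact hf _ (cn_gr_mem μ Z)) (cnEl a b) (cnZ z)
  rw [cn_del_rename, hz', cn_Jv_lift, cn_sum_el] at h1
  rw [cn_eval_skw]
  have h2 : ∀ i, ∑ j, cnMat (cnEl a b) i j * cnV μ j
      = (if i = a then cnV μ b else 0) - (if i = b then cnV μ a else 0) := by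
    intro i
    simp only [cn_mat_el, sub_mul, Finset.sum_sub_distrib]
    congr 1
    · by_cases hi : i = a
      · simp [hi]
      · simp [hi]
    · by_cases hi : i = b
      · simp [hi]
      · simp [hi]
  simp only [h2, sub_mul, Finset.sum_sub_distrib, ite_mul, zero_mul, Finset.sum_ite_eq',
    Finset.mem_univ, if_true] at h1
  linear_combination h1

end incidence

end Claimed.Agent.R273
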