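import Claimed.Agent.R273.CnFlat

/-!
# Row 273, App A, package CN-ENV: the envelope dichotomy (REPLACES Walsh's approximate complete intersections `aci:theorem`, the carriers and their Bezout bound),
and the deductions `CnCore r → CnGlob r`, `CnCore r → CnLoc r`.  Architect helper69.

## The dichotomy
`V` irreducible, `T ≥ 1`, `W` the component of `Env V T = Zl (cnSys V T)` containing `V`.  Then `hA W T = hA V T` (`V ⊆ W ⊆ Env V T`, `ph_hA_env`), `W` is a component of a system of degree `≤ T`, so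
`vdeg W binom(T + dim W, dim W) ≤ (n+1)^n hA W T = (n+1)^n hA V T ≤ (n+1)^n vdeg V binom(T + dim V, dim V)`   (`ph_hilbert_at`, `ph_up_var`).
Either `W = V` (LOW case: `V` is a component of a system of degree `≤ T`, `CnReg` applies) or `dim W > dim V` and `vdeg W T^(dim W - dim V) ≤ C_n vdeg V` (HIGH case).

## GLOB
`X = ⋃ flats`, `D = ⌊A⌋ ≥ 1`, `G = cnSys X D`.  Every flat lies in a component of `Zl G` (`cn_flat_isVar`, `ph_isVar_subset_comp`, `ph_subset_env`).  `𝒱_k` := the components of dimension `k` (`ph_comps_finite`), `k = s0 + h`, `0 ≤ h ≤ r` (`cn_vdim_ge_of_flat`, `ph_vdim_le`, `cn_card_I`).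
`ph_hilbert_at`: `(∑_{V ∈ 𝒱_k} vdeg V) binom(D+k,k) ≤ (n+1)^n hA (⋃ 𝒱_k) D ≤ (n+1)^n hA (Env X D) D = (n+1)^n hA X D`.
`CnCore` with `𝒜 = {V | IsVar V}` (`cn_allowed_all`): `#{μ ∈ F | Φ_μ ⊆ V} ≤ C vdeg V A^h`.  Sum: `|F| ≤ ∑_h C A^h (n+1)^n hA X D / binom(D+s0+h, s0+h)`, and `binom(D+k,k) ≥ D^k / k! ≥ (A/2)^k / n!`, so `A^h A^{s0} ≤ 2^n n! binom(D+k,k)`.
Hence `|F| A^{s0} ≤ (r+1) C (n+1)^n 2^n n! hA X D`.

## LOC
`f ≠ 0`, `deg f ≤ C0 A`.  Components `V` of `Zl {f}`: `ph_bezout_cut univ` with `G₀ = ∅` (`Zl ∅ = univ`, `insert f ∅ = {f}`): `∑ vdeg V ≤ deg f`; `ph_pit`: `vdim V + 1 = n`, i.e. `vdim V - s0 = r - 1`.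
`CnCore` with `𝒜 = {V | IsVar V ∧ ∃ q ≠ 0, deg q ≤ C0 A ∧ V ⊆ Z(q)}` (`cn_allowed_hyp`).  `|F'| ≤ ∑_V C vdeg V A^{r-1} ≤ C C0 A^r`.
-/

set_option autoImplicit false

namespace Claimed.Agent.R273

open MvPolynomial

section general

variable {ι : Type*} [Fintype ι]

theorem cn_Zl_sys (V : Set (ι → ℂ)) (T : ℕ) : Zl (cnSys V T) = Env V T := rfl

/-- **the envelope dichotomy, Hilbert form** -/
theorem cn_dich {V W : Set (ι → ℂ)} (hV : IsVar V) (T : ℕ) (hW : IsCompOf W (cnSys V T))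
    (hVW : V ⊆ W) :
    vdeg W * (T + vdim W).choose (vdim W)
      ≤ (Fintype.card ι + 1) ^ Fintype.card ι * (vdeg V * (T + vdim V).choose (vdim V)) := by
  have h1 := ph_hilbert_at (cnSys V T) T (fun g hg => hg.1) {W}
    (fun U hU => by rw [Finset.mem_singleton] at hU; rw [hU]; exact hW) (vdim W)
    (fun U hU => by rw [Finset.mem_singleton] at hU; rw [hU])
  rw [Finset.sum_singleton, Finset.set_biUnion_singleton] at h1
  have h2 : hA W T ≤ hA V T := by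
    rw [← ph_hA_env V T]
    exact rk_hA_mono_set T (ph_isCompOf_subset hW)
  exact h1.trans (Nat.mul_le_mul_left _ (h2.trans (ph_up_var V hV T)))

/-- PLAN: induction on `m`; `(T+k+1).choose (k+1) * (k+1) = (T+k+1) * (T+k).choose k` (`Nat.succ_mul_choose_eq` / `Nat.add_one_mul_choose_eq`). -/
theorem cn_choose_pow (T k m n : ℕ) (h : k + m ≤ n) :
    (T + k).choose k * T ^ m ≤ (T + (k + m)).choose (k + m) * n ^ m := by
  induction m with
  | zero => simp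
  | succ m ih =>
    have ih' := ih (by omega)
    have h1 : (T + (k + m)).choose (k + m) * T
        ≤ (T + (k + (m + 1))).choose (k + (m + 1)) * n := by
      have h2 := Nat.add_one_mul_choose_eq (T + (k + m)) (k + m)
      calc (T + (k + m)).choose (k + m) * T
          ≤ (T + (k + m) + 1) * (T + (k + m)).choose (k + m) := by
            rw [mul_comm]
            exact Nat.mul_le_mul_right _ (by omega)
        _ = (T + (k + m) + 1).choose (k + m + 1) * (k + m + 1) := h2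
        _ ≤ (T + (k + (m + 1))).choose (k + (m + 1)) * n := by
            have e1 : T + (k + m) + 1 = T + (k + (m + 1)) := by omega
            have e2 : k + m + 1 = k + (m + 1) := by omega
            rw [e1, e2]
            exact Nat.mul_le_mul_left _ h
    calc (T + k).choose k * T ^ (m + 1) = ((T + k).choose k * T ^ m) * T := by ring
      _ ≤ ((T + (k + m)).choose (k + m) * n ^ m) * T := Nat.mul_le_mul_right _ ih'
      _ = ((T + (k + m)).choose (k + m) * T) * n ^ m := by ring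
      _ ≤ ((T + (k + (m + 1))).choose (k + (m + 1)) * n) * n ^ m := Nat.mul_le_mul_right _ h1
      _ = _ := by ring

/-- **the envelope dichotomy, power form** -/
theorem cn_dich_pow {V W : Set (ι → ℂ)} (hV : IsVar V) (T : ℕ) (hW : IsCompOf W (cnSys V T))
    (hVW : V ⊆ W) :
    vdeg W * T ^ (vdim W - vdim V) ≤ (Fintype.card ι + 1) ^ (2 * Fintype.card ι) * vdeg V := by
  have h1 := cn_dich hV T hW hVW
  have hle : vdim V ≤ vdim W := ph_vdim_mono hVW
  have hN : vdim W ≤ Fintype.card ι := ph_vdim_le W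
  obtain ⟨N, hNe⟩ : ∃ N, N = Fintype.card ι := ⟨_, rfl⟩
  obtain ⟨k, hk⟩ : ∃ k, k = vdim V := ⟨_, rfl⟩
  obtain ⟨m, hm⟩ : ∃ m, vdim W = k + m := ⟨vdim W - k, by omega⟩
  rw [← hNe, ← hk, hm] at h1 ⊢
  rw [← hNe, hm] at hN
  have h2 := cn_choose_pow T k m N hN
  have e : k + m - k = m := by omega
  rw [e]
  have hpos : 0 < (T + k).choose k := Nat.choose_pos (by omega)
  refine Nat.le_of_mul_le_mul_right ?_ hpos
  have h3 : N ^ m ≤ (N + 1) ^ N :=
    (Nat.pow_le_pow_left (Nat.le_succ N) m).trans (Nat.pow_le_pow_right (Nat.succ_pos N) (by omega))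
  calc vdeg W * T ^ m * (T + k).choose k = vdeg W * ((T + k).choose k * T ^ m) := by ring
    _ ≤ vdeg W * ((T + (k + m)).choose (k + m) * N ^ m) := Nat.mul_le_mul_left _ h2
    _ = (vdeg W * (T + (k + m)).choose (k + m)) * N ^ m := by ring
    _ ≤ ((N + 1) ^ N * (vdeg V * (T + k).choose k)) * (N + 1) ^ N := Nat.mul_le_mul h1 h3
    _ = (N + 1) ^ (2 * N) * vdeg V * (T + k).choose k := by ring

/-- if the dimensions agree, `W = V` (`ph_vdim_lt_of_ssubset`: `V` is closed, a point of `W \ V` is detected by an equation of `V`) -/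
theorem cn_dich_eq {V W : Set (ι → ℂ)} (hV : IsVar V) (hW : IsVar W) (hVW : V ⊆ W)
    (hd : vdim W ≤ vdim V) : W = V := by
  refine Set.Subset.antisymm ?_ hVW
  by_contra hne
  obtain ⟨x, hxW, hxV⟩ := Set.not_subset.mp hne
  have hVne := ph_isVar_nonempty V hV
  obtain ⟨p, hp, rfl⟩ := hV
  rw [ph_mem_zeroLocus] at hxV
  push Not at hxV
  obtain ⟨f, hf, hfx⟩ := hxV
  have := ph_vdim_lt_of_ssubset hW hVW f (fun y hy => (ph_mem_zeroLocus p y).mp hy f hf)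
    ⟨x, hxW, hfx⟩ hVne
  omega

/-- existence of the component through `V` -/
theorem cn_dich_exists {V : Set (ι → ℂ)} (hV : IsVar V) (T : ℕ) :
    ∃ W, IsCompOf W (cnSys V T) ∧ V ⊆ W :=
  ph_isVar_subset_comp hV (ph_subset_env V T)

end general

variable {r : ℕ}

/-- setting (a) -/
theorem cn_allowed_all (C0 A : ℝ) (F : Finset (CnP r → ℂ)) (hF : (F.card : ℝ) ≤ C0 * A ^ r) :
    CnAllowed r C0 A F {V | IsVar V} where
  isVar := fun _ h => h
  down := fun _ _ _ hW _ => hW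
  up := fun _ _ _ _ _ hW _ => ph_isCompOf_isVar hW
  top := fun _ => hF

/-- setting (b) -/
theorem cn_allowed_hyp (C0 A : ℝ) (F : Finset (CnP r → ℂ)) :
    CnAllowed r C0 A F {V | IsVar V ∧ ∃ q : MvPolynomial (CnI r) ℂ, q ≠ 0 ∧
      (q.totalDegree : ℝ) ≤ C0 * A ∧ ∀ x ∈ V, eval x q = 0} where
  isVar := fun _ h => h.1
  down := fun V hV W hW hWV => by
    obtain ⟨_, q, hq0, hqd, hqV⟩ := hV
    exact ⟨hW, q, hq0, hqd, fun x hx => hqV x (hWV hx)⟩
  up := fun V hV T hT W hW _ => by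
    obtain ⟨_, q, hq0, hqd, hqV⟩ := hV
    refine ⟨ph_isCompOf_isVar hW, q, hq0, hqd, fun x hx => ?_⟩
    have hqT : q.totalDegree ≤ T := by exact_mod_cast hqd.trans hT
    exact ph_isCompOf_subset hW hx q ⟨hqT, hqV⟩
  top := fun h => by
    obtain ⟨_, q, hq0, _, hqV⟩ := h
    exact absurd (MvPolynomial.funext fun x => by rw [hqV x (Set.mem_univ x), map_zero]) hq0

/-- numeric: `A^k ≤ 2^k k! binom(⌊A⌋ + k, k)` for `A ≥ 1` -/
theorem cn_pow_le_choose (A : ℝ) (hA : 1 ≤ A) (k : ℕ) :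
    A ^ k ≤ 2 ^ k * (k.factorial : ℝ) * ((⌊A⌋₊ + k).choose k : ℝ) := by
  have h1 : A ≤ ((⌊A⌋₊ + 1 : ℕ) : ℝ) := by
    push_cast
    exact (Nat.lt_floor_add_one A).le
  have h2 : (⌊A⌋₊ + 1) ^ k ≤ k.factorial * (⌊A⌋₊ + k).choose k := by
    rw [← Nat.descFactorial_eq_factorial_mul_choose]
    have := Nat.pow_sub_le_descFactorial (⌊A⌋₊ + k) k
    have e : ⌊A⌋₊ + k + 1 - k = ⌊A⌋₊ + 1 := by omega
    rwa [e] at this
  have h3 : A ^ k ≤ (k.factorial : ℝ) * ((⌊A⌋₊ + k).choose k : ℝ) := by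
    calc A ^ k ≤ ((⌊A⌋₊ + 1 : ℕ) : ℝ) ^ k := pow_le_pow_left₀ (by linarith) h1 k
      _ ≤ _ := by exact_mod_cast h2
  have h4 : (1 : ℝ) ≤ 2 ^ k := one_le_pow₀ (by norm_num)
  have h5 : (0 : ℝ) ≤ (k.factorial : ℝ) * ((⌊A⌋₊ + k).choose k : ℝ) := by positivity
  calc A ^ k ≤ 1 * ((k.factorial : ℝ) * ((⌊A⌋₊ + k).choose k : ℝ)) := by rw [one_mul]; exact h3
    _ ≤ 2 ^ k * ((k.factorial : ℝ) * ((⌊A⌋₊ + k).choose k : ℝ)) :=
        mul_le_mul_of_nonneg_right h4 h5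
    _ = _ := by ring

/-- sum over all components of the envelope, grouped by dimension -/
theorem cn_env_sum {ι : Type*} [Fintype ι] (X : Set (ι → ℂ)) (D : ℕ) (𝒱 : Finset (Set (ι → ℂ)))
    (h𝒱 : ∀ V ∈ 𝒱, IsCompOf V (cnSys X D)) :
    ∑ V ∈ 𝒱, vdeg V * (D + vdim V).choose (vdim V)
      ≤ (Fintype.card ι + 1) * ((Fintype.card ι + 1) ^ Fintype.card ι * hA X D) := by
  classical
  have h1 : ∑ V ∈ 𝒱, vdeg V * (D + vdim V).choose (vdim V)
      = ∑ k ∈ Finset.range (Fintype.card ι + 1),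
        ∑ V ∈ 𝒱 with vdim V = k, vdeg V * (D + vdim V).choose (vdim V) :=
    (Finset.sum_fiberwise_of_maps_to (fun V _ => Finset.mem_range.mpr
      (Nat.lt_succ_of_le (ph_vdim_le V))) _).symm
  rw [h1]
  have h2 : ∀ k ∈ Finset.range (Fintype.card ι + 1),
      ∑ V ∈ 𝒱 with vdim V = k, vdeg V * (D + vdim V).choose (vdim V)
        ≤ (Fintype.card ι + 1) ^ Fintype.card ι * hA X D := by
    intro k _
    have h3 := ph_hilbert_at (cnSys X D) D (fun g hg => hg.1) (𝒱.filter fun V => vdim V = k)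
      (fun V hV => h𝒱 V (Finset.mem_filter.mp hV).1) k (fun V hV => (Finset.mem_filter.mp hV).2)
    have h4 : hA (⋃ V ∈ 𝒱.filter fun V => vdim V = k, V) D ≤ hA X D := by
      rw [← ph_hA_env X D]
      refine rk_hA_mono_set D (Set.iUnion₂_subset fun V hV => ?_)
      exact ph_isCompOf_subset (h𝒱 V (Finset.mem_filter.mp hV).1)
    have h5 : ∑ V ∈ 𝒱 with vdim V = k, vdeg V * (D + vdim V).choose (vdim V)
        = (∑ V ∈ 𝒱 with vdim V = k, vdeg V) * (D + k).choose k := by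
      rw [Finset.sum_mul]
      refine Finset.sum_congr rfl fun V hV => ?_
      rw [(Finset.mem_filter.mp hV).2]
    rw [h5]
    exact h3.trans (Nat.mul_le_mul_left _ h4)
  have h6 := Finset.sum_le_card_nsmul _ _ _ h2
  rwa [Finset.card_range, smul_eq_mul] at h6

/-- counting the members of a family through a finite cover -/
theorem cn_env_card_le_sum {α β : Type*} (F : Finset α) (𝒱 : Finset β) (R : α → β → Prop)
    [∀ V, DecidablePred fun a => R a V]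
    (h : ∀ a ∈ F, ∃ V ∈ 𝒱, R a V) : F.card ≤ ∑ V ∈ 𝒱, (F.filter fun a => R a V).card := by
  classical
  refine le_trans (Finset.card_le_card ?_) Finset.card_biUnion_le
  intro a ha
  obtain ⟨V, hV, hR⟩ := h a ha
  exact Finset.mem_biUnion.mpr ⟨V, hV, Finset.mem_filter.mpr ⟨ha, hR⟩⟩

theorem cn_glob_of_core (hr : 2 ≤ r) (h : CnCore r) : CnGlob r := by
  classical
  intro C0 hC0
  obtain ⟨C, hCpos, hC⟩ := h C0 hC0
  obtain ⟨n, hn⟩ : ∃ n, n = Fintype.card (CnI r) := ⟨_, rfl⟩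
  obtain ⟨M, hM⟩ : ∃ M : ℝ, M = C * (2 ^ n * (n.factorial : ℝ)) * (((n + 1) * (n + 1) ^ n : ℕ) : ℝ) :=
    ⟨_, rfl⟩
  have hMpos : 0 < M := by rw [hM]; positivity
  refine ⟨1 / M, by positivity, fun A F hA1 hyp hF => ?_⟩
  obtain ⟨X, hX⟩ : ∃ X : Set (CnI r → ℂ), X = ⋃ μ ∈ F, cnFlat μ := ⟨_, rfl⟩
  obtain ⟨D, hD⟩ : ∃ D, D = ⌊A⌋₊ := ⟨_, rfl⟩
  rw [← hX, ← hD]
  have hA0 : 0 ≤ A := by linarith
  obtain ⟨𝒱, h𝒱⟩ : ∃ 𝒱 : Finset (Set (CnI r → ℂ)), 𝒱
      = (ph_comps_finite (cnSys X D)).toFinset.filter fun V => r.choose 2 ≤ vdim V := ⟨_, rfl⟩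
  have hcomp : ∀ V ∈ 𝒱, IsCompOf V (cnSys X D) := by
    intro V hV
    rw [h𝒱, Finset.mem_filter, Set.Finite.mem_toFinset] at hV
    exact hV.1
  have hdim : ∀ V ∈ 𝒱, r.choose 2 ≤ vdim V := by
    intro V hV
    rw [h𝒱, Finset.mem_filter] at hV
    exact hV.2
  have hcov : ∀ μ ∈ F, ∃ V ∈ 𝒱, cnFlat μ ⊆ V := by
    intro μ hμ
    have h1 : cnFlat μ ⊆ Zl (cnSys X D) := by
      refine Set.Subset.trans ?_ (ph_subset_env X D)
      rw [hX]
      exact Set.subset_biUnion_of_mem (u := fun μ => cnFlat μ) hμ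
    obtain ⟨V, hV, hsub⟩ := ph_isVar_subset_comp (cn_flat_isVar μ) h1
    refine ⟨V, ?_, hsub⟩
    rw [h𝒱, Finset.mem_filter, Set.Finite.mem_toFinset]
    exact ⟨hV, cn_vdim_ge_of_flat hsub⟩
  have h1 : (F.card : ℝ) ≤ ∑ V ∈ 𝒱, ((F.filter fun μ => cnFlat μ ⊆ V).card : ℝ) := by
    exact_mod_cast cn_env_card_le_sum F 𝒱 (fun μ V => cnFlat μ ⊆ V) hcov
  have h2 : ∀ V ∈ 𝒱, ((F.filter fun μ => cnFlat μ ⊆ V).card : ℝ) * A ^ (r.choose 2)
      ≤ C * (2 ^ n * (n.factorial : ℝ)) * ((vdeg V * (D + vdim V).choose (vdim V) : ℕ) : ℝ) := by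
    intro V hV
    have h3 := hC A F hA1 hyp {V | IsVar V} (cn_allowed_all C0 A F hF) V
      (ph_isCompOf_isVar (hcomp V hV)) (F.filter fun μ => cnFlat μ ⊆ V) (Finset.filter_subset _ _)
      (fun μ hμ => (Finset.mem_filter.mp hμ).2)
    have h4 : A ^ (vdim V - r.choose 2) * A ^ (r.choose 2) = A ^ vdim V := by
      rw [← pow_add, Nat.sub_add_cancel (hdim V hV)]
    have h5 := cn_pow_le_choose A hA1 (vdim V)
    rw [← hD] at h5
    have hk : vdim V ≤ n := hn ▸ ph_vdim_le V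
    have h6 : (2 : ℝ) ^ vdim V * ((vdim V).factorial : ℝ) ≤ 2 ^ n * (n.factorial : ℝ) := by
      refine mul_le_mul (pow_le_pow_right₀ (by norm_num) hk) ?_ (by positivity) (by positivity)
      exact_mod_cast Nat.factorial_le hk
    have h7 : A ^ vdim V ≤ 2 ^ n * (n.factorial : ℝ) * ((D + vdim V).choose (vdim V) : ℝ) :=
      h5.trans (mul_le_mul_of_nonneg_right h6 (by positivity))
    calc ((F.filter fun μ => cnFlat μ ⊆ V).card : ℝ) * A ^ (r.choose 2)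
        ≤ (C * (vdeg V : ℝ) * A ^ (vdim V - r.choose 2)) * A ^ (r.choose 2) :=
          mul_le_mul_of_nonneg_right h3 (by positivity)
      _ = C * (vdeg V : ℝ) * A ^ vdim V := by rw [mul_assoc, h4]
      _ ≤ C * (vdeg V : ℝ) * (2 ^ n * (n.factorial : ℝ) * ((D + vdim V).choose (vdim V) : ℝ)) :=
          mul_le_mul_of_nonneg_left h7 (by positivity)
      _ = _ := by push_cast; ring
  have h8 : (F.card : ℝ) * A ^ (r.choose 2) ≤ M * (hA X D : ℝ) := by
    calc (F.card : ℝ) * A ^ (r.choose 2)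
        ≤ (∑ V ∈ 𝒱, ((F.filter fun μ => cnFlat μ ⊆ V).card : ℝ)) * A ^ (r.choose 2) :=
          mul_le_mul_of_nonneg_right h1 (by positivity)
      _ = ∑ V ∈ 𝒱, ((F.filter fun μ => cnFlat μ ⊆ V).card : ℝ) * A ^ (r.choose 2) :=
          Finset.sum_mul _ _ _
      _ ≤ ∑ V ∈ 𝒱, C * (2 ^ n * (n.factorial : ℝ))
            * ((vdeg V * (D + vdim V).choose (vdim V) : ℕ) : ℝ) := Finset.sum_le_sum h2
      _ = C * (2 ^ n * (n.factorial : ℝ))
            * ((∑ V ∈ 𝒱, vdeg V * (D + vdim V).choose (vdim V) : ℕ) : ℝ) := by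
          rw [Nat.cast_sum, Finset.mul_sum]
      _ ≤ C * (2 ^ n * (n.factorial : ℝ)) * (((n + 1) * ((n + 1) ^ n * hA X D) : ℕ) : ℝ) := by
          refine mul_le_mul_of_nonneg_left ?_ (by positivity)
          have := cn_env_sum X D 𝒱 hcomp
          rw [← hn] at this
          exact_mod_cast this
      _ = M * (hA X D : ℝ) := by rw [hM]; push_cast; ring
  calc 1 / M * (F.card : ℝ) * A ^ (r.choose 2) = ((F.card : ℝ) * A ^ (r.choose 2)) / M := by
        field_simp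
    _ ≤ (hA X D : ℝ) := by
        rw [div_le_iff₀ hMpos, mul_comm (hA X D : ℝ) M]
        exact h8

theorem cn_loc_of_core (hr : 2 ≤ r) (h : CnCore r) : CnLoc r := by
  classical
  intro C0 hC0
  obtain ⟨C, hCpos, hC⟩ := h C0 hC0
  refine ⟨C * C0, by positivity, fun A F hA1 hyp f hfd hf0 F' hF' hvan => ?_⟩
  have hA0 : 0 ≤ A := by linarith
  have hins : (insert f (∅ : Set (MvPolynomial (CnI r) ℂ))) = {f} := by simp
  have hZ0 : Zl (∅ : Set (MvPolynomial (CnI r) ℂ)) = Set.univ :=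
    Set.eq_univ_of_forall fun x g hg => absurd hg (Set.notMem_empty g)
  have hne : ∃ x ∈ (Set.univ : Set (CnI r → ℂ)), eval x f ≠ 0 := by
    by_contra hcon
    push Not at hcon
    exact hf0 (MvPolynomial.funext fun x => by rw [hcon x (Set.mem_univ x), map_zero])
  obtain ⟨𝒲, h𝒲⟩ : ∃ 𝒲 : Finset (Set (CnI r → ℂ)), 𝒲
      = (ph_comps_finite ({f} : Set (MvPolynomial (CnI r) ℂ))).toFinset := ⟨_, rfl⟩
  have hcomp : ∀ V ∈ 𝒲, IsCompOf V (insert f (∅ : Set (MvPolynomial (CnI r) ℂ))) := by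
    intro V hV
    rw [h𝒲, Set.Finite.mem_toFinset] at hV
    rw [hins]
    exact hV
  have hcov : ∀ μ ∈ F', ∃ V ∈ 𝒲, cnFlat μ ⊆ V := by
    intro μ hμ
    have h1 : cnFlat μ ⊆ Zl ({f} : Set (MvPolynomial (CnI r) ℂ)) := by
      intro z hz g hg
      rw [Set.mem_singleton_iff] at hg
      rw [hg]
      exact hvan μ hμ z hz
    obtain ⟨V, hV, hsub⟩ := ph_isVar_subset_comp (cn_flat_isVar μ) h1
    refine ⟨V, ?_, hsub⟩
    rw [h𝒲, Set.Finite.mem_toFinset]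
    exact hV
  have h1 : (F'.card : ℝ) ≤ ∑ V ∈ 𝒲, ((F'.filter fun μ => cnFlat μ ⊆ V).card : ℝ) := by
    exact_mod_cast cn_env_card_le_sum F' 𝒲 (fun μ V => cnFlat μ ⊆ V) hcov
  have h2 : ∀ V ∈ 𝒲, ((F'.filter fun μ => cnFlat μ ⊆ V).card : ℝ)
      ≤ C * A ^ (r - 1) * (vdeg V : ℝ) := by
    intro V hV
    have hVf : ∀ x ∈ V, eval x f = 0 := fun x hx =>
      ph_isCompOf_subset (hcomp V hV) hx f (Set.mem_insert _ _)
    have h3 := hC A F hA1 hyp _ (cn_allowed_hyp C0 A F) V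
      ⟨ph_isCompOf_isVar (hcomp V hV), f, hf0, hfd, hVf⟩
      (F'.filter fun μ => cnFlat μ ⊆ V) ((Finset.filter_subset _ _).trans hF')
      (fun μ hμ => (Finset.mem_filter.mp hμ).2)
    have h4 := ph_pit Set.univ ph_univ.1 ∅ hZ0 f hne V (hcomp V hV)
    rw [ph_univ.2.1, cn_card_I] at h4
    have h5 : vdim V - r.choose 2 = r - 1 := by omega
    rw [h5] at h3
    calc _ ≤ _ := h3
      _ = _ := by ring
  have h6 : ((∑ V ∈ 𝒲, vdeg V : ℕ) : ℝ) ≤ C0 * A := by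
    have := ph_bezout_cut Set.univ ph_univ.1 ∅ hZ0 f hne 𝒲 hcomp
    rw [ph_univ.2.2, mul_one] at this
    exact le_trans (by exact_mod_cast this) hfd
  calc (F'.card : ℝ) ≤ ∑ V ∈ 𝒲, ((F'.filter fun μ => cnFlat μ ⊆ V).card : ℝ) := h1
    _ ≤ ∑ V ∈ 𝒲, C * A ^ (r - 1) * (vdeg V : ℝ) := Finset.sum_le_sum h2
    _ = C * A ^ (r - 1) * ((∑ V ∈ 𝒲, vdeg V : ℕ) : ℝ) := by rw [Nat.cast_sum, Finset.mul_sum]
    _ ≤ C * A ^ (r - 1) * (C0 * A) := mul_le_mul_of_nonneg_left h6 (by positivity)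
    _ = C * C0 * (A ^ (r - 1) * A) := by ring
    _ = C * C0 * A ^ r := by rw [← pow_succ, Nat.sub_add_cancel (by omega)]

end Claimed.Agent.R273
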