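import Claimed.Agent.R273.PmbLoc

/-!
# Row 273, S3b, poly:polar, part 2: substitutions, rescaling, affine charts of the projective plane.  helper5.  Prefix `pmb_`.

* `pmb_ord_aeval`: `ord_{z'} (g ∘ P) ≥ ord_{P(z')} g` for a polynomial map `P`  (`P^* 𝔪_{P(z')} ⊆ 𝔪_{z'}`).
* `pmb_homog_scale`, `pmb_homog_eval_smul`, `pmb_ord_smul`: forms under rescaling.
* `pmb_exists_form`: a linear form which vanishes at none of finitely many nonzero vectors.
* chart `{∑ a_i x_i = 1}`, `a 2 ≠ 0`: `pmbD a` (dehomogenisation, an algebra map `ℂ[X0,X1,X2] → ℂ[x,y]`), which does not raise the degree,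
  is injective on forms of a given degree and does not lower the order at the points of the chart.
-/

set_option autoImplicit false

namespace Claimed.Agent.R273

open MvPolynomial Module

section general
variable {K : Type*} [Field K] {ι κ : Type*}

theorem pmb_eval_aeval (P : ι → MvPolynomial κ K) (x : κ → K) (g : MvPolynomial ι K) :
    eval x (aeval P g) = eval (fun i => eval x (P i)) g := by
  induction g using MvPolynomial.induction_on with
  | C a => simp
  | add p q hp hq => simp only [map_add, hp, hq]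
  | mul_X p i hp => simp only [map_mul, hp, aeval_X, eval_X]

/-- the order of vanishing does not drop under polynomial substitutions -/
theorem pmb_ord_aeval (P : ι → MvPolynomial κ K) (z' : κ → K) (r : ℕ) (g : MvPolynomial ι K)
    (h : OrdGE (fun i => eval z' (P i)) r g) : OrdGE z' r (aeval P g) := by
  rw [← pmb_mem_pow] at h ⊢
  have h1 := Ideal.mem_map_of_mem (aeval P).toRingHom h
  rw [Ideal.map_pow] at h1
  refine Ideal.pow_right_mono ?_ r h1
  rw [pmbM, Ideal.map_span, Ideal.span_le]
  rintro _ ⟨_, ⟨i, rfl⟩, rfl⟩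
  have h2 : OrdGE z' 1 (P i - C (eval z' (P i))) := by
    rw [ph_ord_one_iff]; simp
  have h3 := (pmb_mem_pow z' 1 _).mpr h2
  rw [pow_one] at h3
  simpa using h3

theorem pmb_homog_scale {F : MvPolynomial ι K} {a : ℕ} (hF : F.IsHomogeneous a) (t : K) :
    aeval (fun i => C t * X i : ι → MvPolynomial ι K) F = C (t ^ a) * F := by
  conv_lhs => rw [F.as_sum]
  conv_rhs => rw [F.as_sum]
  rw [map_sum, Finset.mul_sum]
  apply Finset.sum_congr rfl
  intro d hd
  have hdeg : d.degree = a := by
    have := hF (mem_support_iff.mp hd)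
    rw [Finsupp.degree_eq_weight_one]; exact this
  rw [aeval_monomial]
  simp only [mul_pow, Finsupp.prod_mul]
  have h1 : (d.prod fun _ e => (C t : MvPolynomial ι K) ^ e) = C (t ^ a) := by
    rw [Finsupp.prod, Finset.prod_pow_eq_pow_sum, map_pow, ← hdeg, Finsupp.degree_apply]
  rw [h1, monomial_eq, algebraMap_eq]
  ring

theorem pmb_homog_eval_smul {F : MvPolynomial ι K} {a : ℕ} (hF : F.IsHomogeneous a) (t : K)
    (v : ι → K) : eval (t • v) F = t ^ a * eval v F := by
  have h := congrArg (eval v) (pmb_homog_scale hF t)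
  rw [pmb_eval_aeval, map_mul, eval_C] at h
  rw [← h]
  congr 2
  funext i
  simp

/-- the order of a form at a vector only depends on the line -/
theorem pmb_ord_smul {F : MvPolynomial ι K} {a : ℕ} (hF : F.IsHomogeneous a) {t : K} (ht : t ≠ 0)
    {q : ι → K} {m : ℕ} (h : OrdGE q m F) : OrdGE (t⁻¹ • q) m F := by
  have h1 := pmb_ord_aeval (fun i => C t * X i : ι → MvPolynomial ι K) (t⁻¹ • q) m F (by
    convert h using 1
    funext i
    simp [ht])
  rw [pmb_homog_scale hF] at h1
  exact ph_ord_cancel (by simp [ht]) h1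

/-- substitution of polynomials of degree `≤ 1` does not raise the total degree -/
theorem pmb_totalDegree_aeval_le (P : ι → MvPolynomial κ K) (hP : ∀ i, (P i).totalDegree ≤ 1)
    (g : MvPolynomial ι K) : (aeval P g).totalDegree ≤ g.totalDegree := by
  rw [aeval_def, eval₂_eq]
  apply totalDegree_finsetSum_le
  intro m hm
  refine (totalDegree_mul _ _).trans ?_
  have h1 : (algebraMap K (MvPolynomial κ K) (coeff m g)).totalDegree = 0 := totalDegree_C _
  rw [h1, zero_add]
  refine (totalDegree_finsetProd _ _).trans ?_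
  refine le_trans (Finset.sum_le_sum (g := fun i => m i) fun i _ => ?_) (le_totalDegree hm)
  refine (totalDegree_pow _ _).trans ?_
  calc m i * _ ≤ m i * 1 := Nat.mul_le_mul_left _ (hP i)
    _ = m i := mul_one _

/-- a linear form which vanishes at none of finitely many nonzero vectors -/
theorem pmb_exists_form [Infinite K] [Fintype ι] (T : Finset (ι → K)) (h0 : (0 : ι → K) ∉ T) :
    ∃ a : ι → K, ∀ x ∈ T, ∑ i, a i * x i ≠ 0 := by
  classical
  set P : MvPolynomial ι K := ∏ x ∈ T, ∑ i, X i * C (x i) with hP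
  have hne : P ≠ 0 := by
    rw [hP, Finset.prod_ne_zero_iff]
    intro x hx h
    apply h0
    have : x = 0 := by
      funext j
      have h1 := congrArg (eval (Pi.single j (1 : K))) h
      simpa [Pi.single_apply] using h1
    rwa [this] at hx
  obtain ⟨a, ha⟩ : ∃ a : ι → K, eval a P ≠ 0 := by
    by_contra hcon
    push Not at hcon
    exact hne (MvPolynomial.funext fun x => by simpa using hcon x)
  refine ⟨a, fun x hx h => ha ?_⟩
  rw [hP, map_prod]
  apply Finset.prod_eq_zero hx
  simpa using h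

end general

section chart

variable (a : Fin 3 → ℂ)

/-- parametrisation of the plane `∑ a_i x_i = 1` (for `a 2 ≠ 0`) -/
noncomputable def pmbP : Fin 3 → MvPolynomial (Fin 2) ℂ :=
  ![X 0, X 1, C (a 2)⁻¹ * (1 - C (a 0) * X 0 - C (a 1) * X 1)]

/-- dehomogenisation with respect to the linear form `a` -/
noncomputable def pmbD : MvPolynomial (Fin 3) ℂ →ₐ[ℂ] MvPolynomial (Fin 2) ℂ := aeval (pmbP a)

/-- the chart -/
noncomputable def pmbPt (q : Fin 3 → ℂ) : Fin 2 → ℂ :=
  ![(∑ i, a i * q i)⁻¹ * q 0, (∑ i, a i * q i)⁻¹ * q 1]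

variable {a}

theorem pmb_eval_P (ha : a 2 ≠ 0) (v : Fin 3 → ℂ) (hv : ∑ i, a i * v i = 1) :
    (fun i => eval ![v 0, v 1] (pmbP a i)) = v := by
  rw [Fin.sum_univ_three] at hv
  funext i
  fin_cases i
  · simp [pmbP]
  · simp [pmbP]
  · simp only [pmbP]
    simp
    field_simp
    linear_combination (-1 : ℂ) * hv

theorem pmb_D_degree (u : MvPolynomial (Fin 3) ℂ) : (pmbD a u).totalDegree ≤ u.totalDegree := by
  apply pmb_totalDegree_aeval_le
  intro i
  fin_cases i
  · simp [pmbP]
  · simp [pmbP]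
  · have h1 : (pmbP a 2) = C (a 2)⁻¹ * (1 - C (a 0) * X 0 - C (a 1) * X 1) := rfl
    change (pmbP a 2).totalDegree ≤ 1
    rw [h1]
    refine (totalDegree_mul _ _).trans ?_
    rw [totalDegree_C, zero_add]
    refine (totalDegree_sub _ _).trans (max_le ((totalDegree_sub _ _).trans (max_le ?_ ?_)) ?_)
    · simp
    · refine (totalDegree_mul _ _).trans ?_
      simp
    · refine (totalDegree_mul _ _).trans ?_
      simp

theorem pmb_D_inj (ha : a 2 ≠ 0) {k : ℕ} {u : MvPolynomial (Fin 3) ℂ} (hu : u.IsHomogeneous k)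
    (h : pmbD a u = 0) : u = 0 := by
  set L : MvPolynomial (Fin 3) ℂ := ∑ i, C (a i) * X i with hL
  have hL0 : L ≠ 0 := by
    intro h0
    have h1 := congrArg (eval (Pi.single 2 (1 : ℂ))) h0
    simp [hL, Fin.sum_univ_three] at h1
    exact ha h1
  have h2 : L * u = 0 := by
    apply MvPolynomial.funext
    intro v
    rw [map_mul, map_zero]
    by_cases ht : ∑ i, a i * v i = 0
    · have : eval v L = 0 := by simpa [hL] using ht
      rw [this, zero_mul]
    · set t := ∑ i, a i * v i with htdef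
      have hv' : ∑ i, a i * (t⁻¹ • v) i = 1 := by
        simp only [Pi.smul_apply, smul_eq_mul]
        have : ∑ i, a i * (t⁻¹ * v i) = t⁻¹ * ∑ i, a i * v i := by
          rw [Finset.mul_sum]; apply Finset.sum_congr rfl; intro i _; ring
        rw [this, ← htdef, inv_mul_cancel₀ ht]
      have h3 := congrArg (eval ![(t⁻¹ • v) 0, (t⁻¹ • v) 1]) h
      rw [pmbD, pmb_eval_aeval, pmb_eval_P ha _ hv', map_zero, pmb_homog_eval_smul hu] at h3
      have h4 : eval v u = 0 := by
        rcases mul_eq_zero.mp h3 with h5 | h5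
        · exact absurd h5 (pow_ne_zero _ (inv_ne_zero ht))
        · exact h5
      rw [h4, mul_zero]
  exact (mul_eq_zero.mp h2).resolve_left hL0

theorem pmb_D_ord (ha : a 2 ≠ 0) {F : MvPolynomial (Fin 3) ℂ} {d : ℕ} (hF : F.IsHomogeneous d)
    {q : Fin 3 → ℂ} (hq : ∑ i, a i * q i ≠ 0) {m : ℕ} (h : OrdGE q m F) :
    OrdGE (pmbPt a q) m (pmbD a F) := by
  set t := ∑ i, a i * q i with htdef
  have h1 := pmb_ord_smul hF hq h
  have hv' : ∑ i, a i * (t⁻¹ • q) i = 1 := by
    simp only [Pi.smul_apply, smul_eq_mul]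
    have : ∑ i, a i * (t⁻¹ * q i) = t⁻¹ * ∑ i, a i * q i := by
      rw [Finset.mul_sum]; apply Finset.sum_congr rfl; intro i _; ring
    rw [this, ← htdef, inv_mul_cancel₀ hq]
  apply pmb_ord_aeval
  have h2 := pmb_eval_P ha _ hv'
  have h3 : pmbPt a q = ![(t⁻¹ • q) 0, (t⁻¹ • q) 1] := by
    simp [pmbPt, htdef]
  rw [h3, h2]
  exact h1

end chart

end Claimed.Agent.R273
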