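import Claimed.Agent.R273.RkBasic
import Claimed.Agent.R273.PmbChart

/-!
# Row 273, rank library [RK], part 4: behaviour under linear / affine maps and under rescaling

Everything follows from the pull-back principle `rk_rkOn_le_of_pull` (RkBasic): the pull-back of `f` under
`x ↦ L x + b` is `aeval (fun k => ∑ i, C (L (Pi.single i 1) k) * X i + C (b k)) f`, of total degree `≤ deg f`
(`MvPolynomial.aeval`-degree bound `rk_totalDegree_aeval_le`), homogeneous of the same degree if `b = 0`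
(`MvPolynomial.IsHomogeneous.aeval`).  Injective `L` has a linear left inverse (`LinearMap.exists_leftInverse_of_injective`),
which gives the reverse inequality: `T = (fun y => L' (y - b)) '' ((fun x => L x + b) '' T)`.
LEAF RK-map (this file).
-/

set_option autoImplicit false

namespace Claimed.Agent.R273

open MvPolynomial Module

variable {ι κ : Type*}

/-- the polynomial map attached to `x ↦ L x + b` -/
noncomputable def affPoly [Fintype ι] (L : (ι → ℂ) →ₗ[ℂ] (κ → ℂ)) (b : κ → ℂ) (k : κ) : MvPolynomial ι ℂ :=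
  open Classical in ∑ i, C (L (Pi.single i 1) k) * X i + C (b k)

theorem rk_eval_affPoly [Fintype ι] (L : (ι → ℂ) →ₗ[ℂ] (κ → ℂ)) (b : κ → ℂ) (k : κ) (x : ι → ℂ) :
    eval x (affPoly L b k) = (L x + b) k := by
  classical
  have h1 : L x = ∑ i, x i • L (Pi.single i 1) := by
    conv_lhs => rw [← Finset.univ_sum_single x]
    rw [map_sum]
    apply Finset.sum_congr rfl
    intro i _
    rw [← map_smul]
    congr 1
    rw [← Pi.single_smul, smul_eq_mul, mul_one]
  simp only [affPoly, map_add, map_sum, map_mul, eval_C, eval_X, Pi.add_apply]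
  rw [h1, Finset.sum_apply]
  congr 1
  apply Finset.sum_congr rfl
  intro i _
  rw [Pi.smul_apply, smul_eq_mul, mul_comm]

theorem rk_eval_aeval_affPoly [Fintype ι] (L : (ι → ℂ) →ₗ[ℂ] (κ → ℂ)) (b : κ → ℂ) (f : MvPolynomial κ ℂ)
    (x : ι → ℂ) : eval x (aeval (affPoly L b) f) = eval (L x + b) f := by
  rw [pmb_eval_aeval]
  congr 2
  funext k
  exact rk_eval_affPoly L b k x

/-- substitution of polynomials of degree `≤ 1` does not raise the total degree -/
theorem rk_totalDegree_aeval_le (a : κ → MvPolynomial ι ℂ) (ha : ∀ k, (a k).totalDegree ≤ 1)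
    (f : MvPolynomial κ ℂ) : (aeval a f).totalDegree ≤ f.totalDegree := by
  exact pmb_totalDegree_aeval_le a ha f

theorem rk_map_affPoly_degree [Fintype ι] (L : (ι → ℂ) →ₗ[ℂ] (κ → ℂ)) (b : κ → ℂ) (k : κ) :
    (affPoly L b k).totalDegree ≤ 1 := by
  unfold affPoly
  refine (totalDegree_add _ _).trans (max_le ?_ (by simp))
  apply totalDegree_finsetSum_le
  intro i _
  refine (totalDegree_mul _ _).trans ?_
  simp

theorem rk_map_affPoly_homog [Fintype ι] (L : (ι → ℂ) →ₗ[ℂ] (κ → ℂ)) (k : κ) :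
    (affPoly L 0 k).IsHomogeneous 1 := by
  unfold affPoly
  simp only [Pi.zero_apply, map_zero, add_zero]
  apply IsHomogeneous.sum
  intro i _
  simpa using (isHomogeneous_C ι _).mul (isHomogeneous_X ℂ i)

variable [Fintype ι] [Finite κ]

theorem rk_hA_map_le (L : (ι → ℂ) →ₗ[ℂ] (κ → ℂ)) (b : κ → ℂ) (T : Set (ι → ℂ)) (D : ℕ) :
    hA ((fun x => L x + b) '' T) D ≤ hA T D := by
  apply rk_rkOn_le_of_pull _ T _ (fun x => L x + b) (fun _ => 1) (fun _ _ => one_ne_zero)
  intro f hf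
  refine ⟨aeval (affPoly L b) f, ?_, fun x _ => ?_⟩
  · rw [mem_restrictTotalDegree] at hf ⊢
    exact (rk_totalDegree_aeval_le _ (rk_map_affPoly_degree L b) f).trans hf
  · rw [rk_eval_aeval_affPoly, one_mul]

theorem rk_hA_map_eq (L : (ι → ℂ) →ₗ[ℂ] (κ → ℂ)) (hL : Function.Injective L) (b : κ → ℂ) (T : Set (ι → ℂ))
    (D : ℕ) : hA ((fun x => L x + b) '' T) D = hA T D := by
  apply le_antisymm (rk_hA_map_le L b T D)
  have := Fintype.ofFinite κ
  obtain ⟨L', hL'⟩ := LinearMap.exists_leftInverse_of_injective L (LinearMap.ker_eq_bot.mpr hL)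
  have h1 := rk_hA_map_le L' (-(L' b)) ((fun x => L x + b) '' T) D
  have h2 : (fun y => L' y + -(L' b)) '' ((fun x => L x + b) '' T) = T := by
    rw [Set.image_image]
    have h3 : (fun x => L' (L x + b) + -(L' b)) = id := by
      funext x
      have : L' (L x) = x := congrArg (fun φ : (ι → ℂ) →ₗ[ℂ] (ι → ℂ) => φ x) hL'
      simp [this]
    rw [h3, Set.image_id]
  rwa [h2] at h1

theorem rk_hP_map_le (L : (ι → ℂ) →ₗ[ℂ] (κ → ℂ)) (T : Set (ι → ℂ)) (D : ℕ) : hP (L '' T) D ≤ hP T D := by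
  apply rk_rkOn_le_of_pull _ T _ L (fun _ => 1) (fun _ _ => one_ne_zero)
  intro f hf
  refine ⟨aeval (affPoly L 0) f, ?_, fun x _ => ?_⟩
  · have := IsHomogeneous.aeval (R := ℂ) hf (affPoly L 0) (rk_map_affPoly_homog L)
    rwa [one_mul] at this
  · rw [rk_eval_aeval_affPoly, one_mul, add_zero]

theorem rk_hP_map_eq (L : (ι → ℂ) →ₗ[ℂ] (κ → ℂ)) (hL : Function.Injective L) (T : Set (ι → ℂ)) (D : ℕ) :
    hP (L '' T) D = hP T D := by
  apply le_antisymm (rk_hP_map_le L T D)
  have := Fintype.ofFinite κ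
  obtain ⟨L', hL'⟩ := LinearMap.exists_leftInverse_of_injective L (LinearMap.ker_eq_bot.mpr hL)
  have h1 := rk_hP_map_le L' (L '' T) D
  have h2 : L' '' (L '' T) = T := by
    rw [Set.image_image]
    have h3 : (fun x => L' (L x)) = id := by
      funext x
      exact congrArg (fun φ : (ι → ℂ) →ₗ[ℂ] (ι → ℂ) => φ x) hL'
    rw [h3, Set.image_id]
  rwa [h2] at h1

omit [Finite κ] in
/-- rescaling the vectors does not change the projective rank -/
theorem rk_hP_smul (c : (ι → ℂ) → ℂ) (T : Set (ι → ℂ)) (hc : ∀ x ∈ T, c x ≠ 0) (D : ℕ) :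
    hP ((fun x => c x • x) '' T) D = hP T D := by
  apply rk_rkOn_eq_of_pull _ T _ (fun x => c x • x) (fun x => (c x ^ D)⁻¹)
    (fun x hx => inv_ne_zero (pow_ne_zero _ (hc x hx)))
  · intro f hf
    refine ⟨f, hf, fun x hx => ?_⟩
    rw [pmb_homog_eval_smul hf, ← mul_assoc, inv_mul_cancel₀ (pow_ne_zero _ (hc x hx)), one_mul]
  · intro f hf
    refine ⟨f, hf, fun x hx => ?_⟩
    rw [pmb_homog_eval_smul hf, ← mul_assoc, inv_mul_cancel₀ (pow_ne_zero _ (hc x hx)), one_mul]

omit [Finite κ] in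
/-- two sets of vectors with the same lines have the same projective rank -/
theorem rk_hP_congr_lines (T T' : Set (ι → ℂ)) (h : ∀ x ∈ T, ∃ c : ℂ, c ≠ 0 ∧ c • x ∈ T')
    (h' : ∀ y ∈ T', ∃ c : ℂ, c ≠ 0 ∧ c • y ∈ T) (D : ℕ) : hP T D = hP T' D := by
  classical
  have key : ∀ S S' : Set (ι → ℂ), (∀ x ∈ S, ∃ c : ℂ, c ≠ 0 ∧ c • x ∈ S') → hP S D ≤ hP S' D := by
    intro S S' hS
    let c : (ι → ℂ) → ℂ := fun x => if hx : x ∈ S then (hS x hx).choose else 1
    have hc : ∀ x ∈ S, c x ≠ 0 ∧ c x • x ∈ S' := by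
      intro x hx
      simp only [c, dif_pos hx]
      exact (hS x hx).choose_spec
    rw [← rk_hP_smul c S (fun x hx => (hc x hx).1) D]
    apply rk_hP_mono_set
    rintro _ ⟨x, hx, rfl⟩
    exact (hc x hx).2
  exact le_antisymm (key T T' h) (key T' T h')

end Claimed.Agent.R273
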