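import Claimed.Agent.R273.CnDefs
import Claimed.Agent.R273.RkMap
import Claimed.Agent.R273.RkDim

/-!
# Row 273, App A, package CN-FLAT: elementary facts on the chart flats `cnFlat μ`.  Architect helper69.

`cnFlat μ` is the graph of the affine map `Z ↦ y - Z v` over `ℂ^(CnSk r)`: the image of `univ` under the injective affine map `cnGr μ`.
All Hilbert-function facts come from `rk_hA_map_eq` + `rk_hA_univ` / `ph_univ` (`vdim`, `vdeg` only depend on the function `hA T ·`: unfold the definitions and rewrite).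
-/

set_option autoImplicit false

namespace Claimed.Agent.R273

open MvPolynomial

variable {r : ℕ}

/-- PLAN: `CnSk r ≃ {s : Finset (Fin r) // s.card = 2}` or: `Fin r × Fin r` splits into `<`, `=`, `>`: `r^2 = 2 card + r`, and `r.choose 2 = r (r-1)/2` (`Nat.choose_two_right`). -/
theorem cn_card_sk (r : ℕ) : Fintype.card (CnSk r) = r.choose 2 := by
  rw [Fintype.card_subtype, Finset.card_filter, Fintype.sum_prod_type_right]
  have h : ∀ j : Fin r, ∑ i : Fin r, (if i < j then 1 else 0) = (j : ℕ) := by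
    intro j
    rw [← Finset.card_filter]
    have : (Finset.univ.filter fun i : Fin r => i < j) = Finset.Iio j := by ext; simp
    rw [this, Fin.card_Iio]
  simp only [h]
  rw [Fin.sum_univ_eq_sum_range (fun i => i) r, Finset.sum_range_id, Nat.choose_two_right]

theorem cn_card_I (r : ℕ) : Fintype.card (CnI r) = r.choose 2 + r := by
  rw [Fintype.card_sum, cn_card_sk, Fintype.card_fin]

theorem cn_mat_skew (Z : CnSk r → ℂ) (i j : Fin r) : cnMat Z i j = - cnMat Z j i := by
  rcases lt_trichotomy i j with h | h | h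
  · simp [cnMat, h, h.not_gt]
  · subst h
    simp [cnMat]
  · simp [cnMat, h, h.not_gt]

theorem cn_mat_self (Z : CnSk r → ℂ) (i : Fin r) : cnMat Z i i = 0 := by
  simp [cnMat]

theorem cn_mat_add (Z W : CnSk r → ℂ) (i j : Fin r) : cnMat (Z + W) i j = cnMat Z i j + cnMat W i j := by
  unfold cnMat
  split_ifs
  · simp
  · simp
    ring
  · simp

theorem cn_mat_smul (c : ℂ) (Z : CnSk r → ℂ) (i j : Fin r) : cnMat (c • Z) i j = c * cnMat Z i j := by
  unfold cnMat
  split_ifs <;> simp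

/-- `v^T Z v = 0` -/
theorem cn_mat_quad (Z : CnSk r → ℂ) (v : Fin r → ℂ) : ∑ i, v i * ∑ j, cnMat Z i j * v j = 0 := by
  have h : ∑ i, v i * ∑ j, cnMat Z i j * v j = - ∑ i, v i * ∑ j, cnMat Z i j * v j := by
    simp only [Finset.mul_sum]
    conv_lhs => rw [Finset.sum_comm]
    rw [← Finset.sum_neg_distrib]
    refine Finset.sum_congr rfl fun i _ => ?_
    rw [← Finset.sum_neg_distrib]
    refine Finset.sum_congr rfl fun j _ => ?_
    rw [cn_mat_skew Z j i]
    ring
  linear_combination (1 / 2 : ℂ) * h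

/-- the point `(Z, y - Z v)` of the flat -/
def cnGr (μ : CnP r → ℂ) (Z : CnSk r → ℂ) : CnI r → ℂ := Sum.elim Z (cnPi Z μ)

theorem cn_flat_eq_range (μ : CnP r → ℂ) : cnFlat μ = Set.range (cnGr μ) := by
  ext z
  constructor
  · intro h
    refine ⟨cnZ z, ?_⟩
    funext k
    rcases k with p | i
    · rfl
    · exact (congrFun h i).symm
  · rintro ⟨Z, rfl⟩
    rfl

theorem cn_gr_mem (μ : CnP r → ℂ) (Z : CnSk r → ℂ) : cnGr μ Z ∈ cnFlat μ := by
  rw [cn_flat_eq_range]
  exact ⟨Z, rfl⟩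

/-- the equations of the flat -/
noncomputable def cnFlatEq (μ : CnP r → ℂ) (i : Fin r) : MvPolynomial (CnI r) ℂ :=
  X (Sum.inr i) - C (cnY μ i)
    + ∑ j, (if h : i < j then X (Sum.inl ⟨(i, j), h⟩) else if h : j < i then - X (Sum.inl ⟨(j, i), h⟩) else 0)
        * C (cnV μ j)

theorem cn_eval_entry {κ : Type*} (w : κ → ℂ) (e : CnSk r → κ) (i j : Fin r) :
    eval w ((if h : i < j then X (e ⟨(i, j), h⟩) else if h : j < i then - X (e ⟨(j, i), h⟩) else 0 :
      MvPolynomial κ ℂ)) = cnMat (fun p => w (e p)) i j := by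
  unfold cnMat
  split_ifs <;> simp

theorem cn_eval_flatEq (μ : CnP r → ℂ) (i : Fin r) (z : CnI r → ℂ) :
    eval z (cnFlatEq μ i) = z (Sum.inr i) - cnY μ i + ∑ j, cnMat (cnZ z) i j * cnV μ j := by
  unfold cnFlatEq
  rw [map_add, map_sub, eval_X, eval_C, map_sum]
  congr 1
  refine Finset.sum_congr rfl fun j _ => ?_
  rw [map_mul, eval_C, cn_eval_entry z Sum.inl i j]
  rfl

theorem cn_flat_eq_Zl (μ : CnP r → ℂ) : cnFlat μ = Zl (Set.range (cnFlatEq μ)) := by
  ext z
  constructor
  · rintro h g ⟨i, rfl⟩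
    rw [cn_eval_flatEq, ← sub_eq_zero.2 (congrFun h i)]
    unfold cnPi cnX
    ring
  · intro h
    funext i
    have := h _ ⟨i, rfl⟩
    rw [cn_eval_flatEq] at this
    unfold cnPi
    show z (Sum.inr i) = _
    linear_combination this

/-- the linear part of `cnGr μ` -/
def cnLin (μ : CnP r → ℂ) : (CnSk r → ℂ) →ₗ[ℂ] (CnI r → ℂ) where
  toFun Z := Sum.elim Z (fun i => - ∑ j, cnMat Z i j * cnV μ j)
  map_add' Z W := by
    funext k
    rcases k with p | i
    · rfl
    · simp only [Sum.elim_inr, Pi.add_apply, cn_mat_add, add_mul, Finset.sum_add_distrib]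
      ring
  map_smul' c Z := by
    funext k
    rcases k with p | i
    · rfl
    · simp only [Sum.elim_inr, Pi.smul_apply, cn_mat_smul, RingHom.id_apply, smul_eq_mul, mul_assoc,
        ← Finset.mul_sum]
      ring

theorem cn_lin_inj (μ : CnP r → ℂ) : Function.Injective (cnLin μ) := by
  intro Z W h
  funext p
  exact congrFun h (Sum.inl p)

/-- PLAN: `rk_hA_map_eq` for `L Z = Sum.elim Z (- Z v)`, `b = Sum.elim 0 y`; `rk_hA_univ`; `cn_card_sk`. -/
theorem cn_flat_hA (μ : CnP r → ℂ) (D : ℕ) : hA (cnFlat μ) D = (r.choose 2 + D).choose D := by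
  have himg : cnFlat μ = (fun Z => cnLin μ Z + (Sum.elim 0 (cnY μ) : CnI r → ℂ)) '' Set.univ := by
    rw [cn_flat_eq_range, Set.image_univ]
    congr 1
    funext Z k
    rcases k with p | i
    · simp [cnGr, cnLin]
    · simp [cnGr, cnLin, cnPi]
      ring
  rw [himg, rk_hA_map_eq (cnLin μ) (cn_lin_inj μ), rk_hA_univ, cn_card_sk]

/-- the polynomial components of `cnGr μ` -/
noncomputable def cnGrPoly (μ : CnP r → ℂ) : CnI r → MvPolynomial (CnSk r) ℂ :=
  Sum.elim X (fun i => C (cnY μ i)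
    - ∑ j, (if h : i < j then X ⟨(i, j), h⟩ else if h : j < i then - X ⟨(j, i), h⟩ else 0) * C (cnV μ j))

theorem cn_pmap_grPoly (μ : CnP r → ℂ) (Z : CnSk r → ℂ) : pmap (cnGrPoly μ) Z = cnGr μ Z := by
  funext k
  rcases k with p | i
  · simp [pmap, cnGrPoly, cnGr]
  · simp only [pmap, cnGrPoly, cnGr, Sum.elim_inr, cnPi]
    rw [map_sub, eval_C, map_sum]
    congr 1
    refine Finset.sum_congr rfl fun j _ => ?_
    rw [map_mul, eval_C]
    congr 1
    exact cn_eval_entry Z id i j

/-- PLAN: `ph_isVar_zcl_image ph_univ.1 ψ` with `ψ` the polynomial components of `cnGr μ`; `pmap ψ '' univ = cnFlat μ`; `zcl (cnFlat μ) = cnFlat μ` by `cn_flat_eq_Zl`, `ph_zcl_Zl`. -/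
theorem cn_flat_isVar (μ : CnP r → ℂ) : IsVar (cnFlat μ) := by
  have h := ph_isVar_zcl_image (ph_univ (ι := CnSk r)).1 (cnGrPoly μ)
  have himg : pmap (cnGrPoly μ) '' Set.univ = cnFlat μ := by
    rw [cn_flat_eq_range, Set.image_univ]
    congr 1
    funext Z
    exact cn_pmap_grPoly μ Z
  rw [himg, cn_flat_eq_Zl, ph_zcl_Zl, ← cn_flat_eq_Zl] at h
  exact h

/-- PLAN: `ph_vdim_eq_of_bounds` with `C = 1` and `cn_flat_hA` (`Nat.choose_symm_add`). -/
theorem cn_flat_vdim (μ : CnP r → ℂ) : vdim (cnFlat μ) = r.choose 2 := by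
  apply ph_vdim_eq_of_bounds (cnFlat μ) (r.choose 2) 1
  · intro D
    rw [cn_flat_hA, add_comm D, Nat.choose_symm_add]
  · intro D
    rw [cn_flat_hA, add_comm D, Nat.choose_symm_add, one_mul]

theorem cn_vdim_ge_of_flat {μ : CnP r → ℂ} {V : Set (CnI r → ℂ)} (h : cnFlat μ ⊆ V) :
    r.choose 2 ≤ vdim V := by
  rw [← cn_flat_vdim μ]; exact ph_vdim_mono h

theorem cn_single_row_fst {a b : Fin r} (hab : a < b) (w : Fin r → ℂ) :
    ∑ k, cnMat (Pi.single (⟨(a, b), hab⟩ : CnSk r) (1 : ℂ)) a k * w k = w b := by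
  rw [Finset.sum_eq_single b]
  · simp [cnMat, hab]
  · intro k _ hk
    have : cnMat (Pi.single (⟨(a, b), hab⟩ : CnSk r) (1 : ℂ)) a k = 0 := by
      unfold cnMat
      split_ifs with h1 h2
      · rw [Pi.single_eq_of_ne]
        intro he
        exact hk (congrArg (fun p : CnSk r => p.1.2) he)
      · rw [Pi.single_eq_of_ne, neg_zero]
        intro he
        have : k = a := congrArg (fun p : CnSk r => p.1.1) he
        exact absurd this h2.ne
      · rfl
    rw [this, zero_mul]
  · intro h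
    exact absurd (Finset.mem_univ b) h

theorem cn_single_row_snd {a b : Fin r} (hab : a < b) (w : Fin r → ℂ) :
    ∑ k, cnMat (Pi.single (⟨(a, b), hab⟩ : CnSk r) (1 : ℂ)) b k * w k = - w a := by
  rw [Finset.sum_eq_single a]
  · simp [cnMat, hab, hab.not_gt]
  · intro k _ hk
    have : cnMat (Pi.single (⟨(a, b), hab⟩ : CnSk r) (1 : ℂ)) b k = 0 := by
      unfold cnMat
      split_ifs with h1 h2
      · rw [Pi.single_eq_of_ne]
        intro he
        have : b = a := congrArg (fun p : CnSk r => p.1.1) he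
        exact absurd this hab.ne'
      · rw [Pi.single_eq_of_ne, neg_zero]
        intro he
        exact hk (congrArg (fun p : CnSk r => p.1.1) he)
      · rfl
    rw [this, zero_mul]
  · intro h
    exact absurd (Finset.mem_univ a) h

/-- distinct parameters give distinct flats.  PLAN: the point over `Z = 0` gives `y = y'`; then `Z v = Z v'` for all `Z`; for `i ≠ j` the elementary skew matrix `E_ij - E_ji` gives `v_j = v'_j` (`r ≥ 2` provides `i ≠ j` for each `j`). -/
theorem cn_flat_inj (hr : 2 ≤ r) {μ μ' : CnP r → ℂ} (h : cnFlat μ ⊆ cnFlat μ') : μ = μ' := by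
  have hpi : ∀ Z : CnSk r → ℂ, cnPi Z μ = cnPi Z μ' := fun Z => h (cn_gr_mem μ Z)
  have hy : cnY μ = cnY μ' := by
    funext i
    have := congrFun (hpi 0) i
    have h0 : ∀ i j : Fin r, cnMat (0 : CnSk r → ℂ) i j = 0 := by
      intro i j
      unfold cnMat
      split_ifs <;> simp
    simpa [cnPi, h0] using this
  have hrow : ∀ (Z : CnSk r → ℂ) (i : Fin r),
      ∑ j, cnMat Z i j * cnV μ j = ∑ j, cnMat Z i j * cnV μ' j := by
    intro Z i
    have := congrFun (hpi Z) i
    unfold cnPi at this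
    rw [hy] at this
    linear_combination -this
  have hv : cnV μ = cnV μ' := by
    funext j
    obtain ⟨i, hij⟩ : ∃ i : Fin r, i ≠ j := by
      have : Nontrivial (Fin r) := Fin.nontrivial_iff_two_le.2 hr
      exact exists_ne j
    rcases lt_or_gt_of_ne hij with hlt | hlt
    · have := hrow (Pi.single ⟨(i, j), hlt⟩ 1) i
      rw [cn_single_row_fst hlt, cn_single_row_fst hlt] at this
      exact this
    · have := hrow (Pi.single ⟨(j, i), hlt⟩ 1) i
      rw [cn_single_row_snd hlt, cn_single_row_snd hlt] at this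
      exact neg_injective this
  funext k
  rcases k with i | i
  · exact congrFun hv i
  · exact congrFun hy i

/-- PLAN: if `x ∈ V \ cnFlat μ`, some `cnFlatEq μ i` does not vanish at `x`; `ph_vdim_lt_of_ssubset` contradicts `cn_flat_vdim`. -/
theorem cn_eq_flat_of_vdim {μ : CnP r → ℂ} {V : Set (CnI r → ℂ)} (hV : IsVar V)
    (hd : vdim V ≤ r.choose 2) (h : cnFlat μ ⊆ V) : V = cnFlat μ := by
  by_contra hne
  have hx : ∃ x ∈ V, x ∉ cnFlat μ := by
    by_contra hcon
    push Not at hcon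
    exact hne (Set.Subset.antisymm hcon h)
  obtain ⟨x, hxV, hxF⟩ := hx
  rw [cn_flat_eq_Zl] at hxF
  have : ∃ i, eval x (cnFlatEq μ i) ≠ 0 := by
    by_contra hcon
    push Not at hcon
    apply hxF
    rintro g ⟨i, rfl⟩
    exact hcon i
  obtain ⟨i, hi⟩ := this
  have hlt := ph_vdim_lt_of_ssubset hV h (cnFlatEq μ i)
    (fun z hz => by
      rw [cn_flat_eq_Zl] at hz
      exact hz _ ⟨i, rfl⟩) ⟨x, hxV, hi⟩ ⟨_, cn_gr_mem μ 0⟩
  rw [cn_flat_vdim] at hlt
  omega

/-- base of the recurrence: `R_0 ≤ 1` -/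
theorem cn_count_base (hr : 2 ≤ r) {V : Set (CnI r → ℂ)} (hV : IsVar V) (hd : vdim V ≤ r.choose 2)
    (F' : Finset (CnP r → ℂ)) (h : ∀ μ ∈ F', cnFlat μ ⊆ V) : F'.card ≤ 1 := by
  rw [Finset.card_le_one]
  intro a ha b hb
  apply cn_flat_inj hr
  rw [← cn_eq_flat_of_vdim hV hd (h a ha), ← cn_eq_flat_of_vdim hV hd (h b hb)]

/-- an irreducible variety of full dimension is the whole space.  PLAN: otherwise its prime ideal contains `g ≠ 0`, which does not vanish identically (`MvPolynomial.funext`); `ph_vdim_lt_of_ssubset` inside `univ` (`ph_univ`). -/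
theorem cn_eq_univ_of_vdim {ι : Type*} [Fintype ι] {V : Set (ι → ℂ)} (hV : IsVar V)
    (hd : Fintype.card ι ≤ vdim V) : V = Set.univ := by
  by_contra hne
  have hV' := hV
  obtain ⟨p, hp, rfl⟩ := hV
  have hg : ∃ g ∈ p, g ≠ 0 := by
    by_contra hcon
    push Not at hcon
    apply hne
    ext y
    rw [ph_mem_zeroLocus]
    simp only [Set.mem_univ, iff_true]
    intro f hf
    rw [hcon f hf, map_zero]
  obtain ⟨g, hgp, hg0⟩ := hg
  have hx : ∃ x : ι → ℂ, eval x g ≠ 0 := by
    by_contra hcon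
    push Not at hcon
    apply hg0
    apply MvPolynomial.funext
    intro x
    rw [hcon x, map_zero]
  obtain ⟨x, hx⟩ := hx
  have hlt := ph_vdim_lt_of_ssubset (ph_univ (ι := ι)).1 (Set.subset_univ (zeroLocus ℂ p)) g
    (fun z hz => (ph_mem_zeroLocus p z).1 hz g hgp) ⟨x, Set.mem_univ _, hx⟩
    (ph_isVar_nonempty _ hV')
  rw [(ph_univ (ι := ι)).2.1] at hlt
  omega

end Claimed.Agent.R273
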