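import Claimed.Agent.R273.CnDer
import Claimed.Agent.R273.CnDegA

/-!
# Row 273, App A, block LOW, unit ISO: a family of flats of `V` which is too large is pairwise polar-orthogonal, and `V` is a hypersurface.  Architect helper120.  Prefix `cn`.

`V ⊆ ℂ^(CnI r)` irreducible, `dim V < n = s0 + r`; `Y ⊆ ℂ^(CnP r)` irreducible, `a = dim Y`, `Φ_μ ⊆ V` for `μ ∈ Y`, `dim V + 1 ≤ s0 + a`.  CLAIM: `dim V = n - 1` and `cnPolar μ μ' = 0` on `Y × Y`.
A PURE DIMENSION COUNT (replaces "tangent constraint + singular skew pencil + null tangent rigidity" of conc:degree).  `CnK r = CnSk r ⊕ CnP r ∋ (Z, μ)`.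

Fix `μ₀ ∈ Y`.  `T₀ := {(Z, μ) | μ ∈ Y, Z (v - v₀) = y - y₀} = Zl (cnIsoSys Y μ₀)` = pairs such that `Φ_μ` and `Φ_μ₀` meet over `Z`.
LOWER BOUND (`cn_iso_low`).  `F(Z, μ) = (Z, y - Z v)` maps `X = ℂ^(CnSk r) × Y` (irreducible, dimension `s0 + a`) into `V`; so every component of every fibre of `F|_X` has dimension `≥ j₀ := s0 + a - dim V` (`ph_fib_ge`).
  The fibre of `pr : T₀ → ℂ^(CnSk r)` over `Z₁` IS the fibre of `F|_X` over `F(Z₁, μ₀)`; `pr` is onto (`(Z₁, μ₀) ∈ T₀`).  `cn_fib_sum`: some component `T` of `T₀` has `dim T ≥ s0 + j₀`.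
UPPER BOUND (`cn_iso_up`).  `W := zcl (pr_μ T) ⊆ Y ∩ {cnPolar · μ₀ = 0}` (skew-symmetry: `(v - v₀)·Z(v - v₀) = 0`).  If `dim T > s0` then `T ⊄ ℂ^(CnSk r) × {μ₀}`, and at a generic point `(Z, μ)` of `T`, `μ ≠ μ₀`, hence `v ≠ v₀`, the fibre of `pr_μ` lies in
  `{Z' | Z'(v - v₀) = y - y₀} × {μ}` of dimension `≤ s0 - (r - 1)`; `ph_fib_eq`: `dim T ≤ s0 - (r-1) + dim W`.
CONCLUSION (`cn_iso`, proved below).  `2 s0 + a - dim V ≤ dim T ≤ s0 - (r-1) + dim W`.  With `dim W ≤ a`: `dim V ≥ n - 1`.  If `cnPolar μ₁ μ₀ ≠ 0` for some `μ₁ ∈ Y` then `dim W ≤ a - 1` and `dim V ≥ n`: contradiction.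
-/

set_option autoImplicit false

namespace Claimed.Agent.R273

open MvPolynomial Module

/-! ### LEAF CN-ISO-A: a closed set fibred over an affine space -/

theorem cn_mem_Zl_fib {ι κ : Type*} (G : Set (MvPolynomial ι ℂ))
    (ψ : κ → MvPolynomial ι ℂ) (w : κ → ℂ) (x : ι → ℂ) :
    x ∈ Zl (G ∪ Set.range fun j => ψ j - C (w j)) ↔ x ∈ Zl G ∧ pmap ψ x = w := by
  constructor
  · intro h
    refine ⟨fun g hg => h g (Or.inl hg), ?_⟩
    funext j
    have := h (ψ j - C (w j)) (Or.inr ⟨j, rfl⟩)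
    rw [map_sub, eval_C] at this
    exact sub_eq_zero.mp this
  · rintro ⟨h1, h2⟩ g hg
    rcases hg with hg | ⟨j, rfl⟩
    · exact h1 g hg
    · rw [map_sub, eval_C, ← h2]
      simp [pmap]

theorem cn_fib_sum_dom {ι κ : Type*} [Fintype ι] [Fintype κ] (G : Set (MvPolynomial ι ℂ))
    (ψ : κ → MvPolynomial ι ℂ) (hsurj : ∀ w : κ → ℂ, ∃ x ∈ Zl G, pmap ψ x = w) :
    ∃ T, IsCompOf T G ∧ zcl (pmap ψ '' T) = Set.univ := by
  classical
  have hfin := ph_comps_finite G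
  by_contra hcon
  push Not at hcon
  have h1 : ∀ T, IsCompOf T G →
      ∃ a : MvPolynomial κ ℂ, a ≠ 0 ∧ ∀ y ∈ pmap ψ '' T, eval y a = 0 := by
    intro T hT
    by_contra h2
    push Not at h2
    apply hcon T hT
    ext x
    simp only [Set.mem_univ, iff_true]
    rw [ph_mem_zcl]
    intro f hf
    by_cases hf0 : f = 0
    · simp [hf0]
    · obtain ⟨y, hy, hne⟩ := h2 f hf0
      exact absurd (hf y hy) hne
  choose! a ha0 ha1 using h1
  have hprod : ∏ T ∈ hfin.toFinset, a T ≠ 0 := by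
    rw [Finset.prod_ne_zero_iff]
    intro T hT
    exact ha0 T (by simpa using hT)
  apply hprod
  apply MvPolynomial.funext
  intro w
  obtain ⟨x, hx, rfl⟩ := hsurj w
  rw [ph_Zl_eq_iUnion_comps] at hx
  simp only [Set.mem_iUnion] at hx
  obtain ⟨T, hT, hxT⟩ := hx
  rw [map_prod, map_zero]
  exact Finset.prod_eq_zero (i := T) (by simpa using hT) (ha1 T hT _ ⟨x, hxT, rfl⟩)

/-- **(FIB-SUM)**.  PLAN.  The components `T_1..T_m` of `G` (`ph_comps_finite`) cover `Zl G` (`ph_Zl_eq_iUnion_comps`).  (a) Some `T_1` has `zcl (ψ '' T_1) = univ`: otherwise each `zcl (ψ '' T_i)` is a proper closed subset, so there is `a_i ≠ 0` vanishing on `ψ '' T_i`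
(if every polynomial vanishing on it were `0`, then `zcl = zeroLocus ⊥ = univ`); `∏ a_i ≠ 0` vanishes at every `w` by `hsurj`; `MvPolynomial.funext`.  So `vdim (zcl (ψ '' T_1)) = card κ` (`ph_univ`).
(b) `h₁` from `ph_fib_eq` for `T_1` (`G₀ := I(T_1)`, `cn_Zl_vanishing`).  For every other component `T_i`: `T_1 ⊄ T_i` (`ph_comp_not_subset`), so some `f_i` vanishes on `T_i` and not identically on `T_1` (`cn_mem_of_isVar`).  `cn_prod_ne`: `x ∈ T_1` with `h₁(x) ≠ 0`, `f_i(x) ≠ 0` for all `i ≠ 1`.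
(c) `w := ψ(x)`; `x` lies on a component `Φ` of `G ∪ {ψ_j - w_j}` (`ph_Zl_eq_iUnion_comps`); `j₀ ≤ vdim Φ`.  `Φ` is irreducible and `⊆ Zl G`, so `Φ ⊆ T_i` for some `i` (`ph_isVar_subset_comp`); `x ∈ T_i` forces `i = 1`.
`Φ` is a component of `I(T_1) ∪ {ψ_j - w_j}` (`ph_isCompOf_iff`: irreducible, contained, and maximal because `Zl (I(T_1) ∪ ..) ⊆ Zl (G ∪ ..)`).  `ph_fib_eq`: `vdim Φ + card κ = vdim T_1`. -/
theorem cn_fib_sum {ι κ : Type*} [Fintype ι] [Fintype κ] (G : Set (MvPolynomial ι ℂ))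
    (ψ : κ → MvPolynomial ι ℂ) (j₀ : ℕ) (hsurj : ∀ w : κ → ℂ, ∃ x ∈ Zl G, pmap ψ x = w)
    (hfib : ∀ (w : κ → ℂ) (Φ : Set (ι → ℂ)),
      IsCompOf Φ (G ∪ Set.range fun j => ψ j - C (w j)) → j₀ ≤ vdim Φ) :
    ∃ T, IsCompOf T G ∧ Fintype.card κ + j₀ ≤ vdim T := by
  classical
  have hfin := ph_comps_finite G
  obtain ⟨T, hT, hTu⟩ := cn_fib_sum_dom G ψ hsurj
  have hTV := ph_isCompOf_isVar hT
  obtain ⟨h, ⟨x0, hx0, hx0h⟩, hh⟩ := ph_fib_eq hTV _ (cn_Zl_vanishing hTV) ψ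
  have hb : ∀ T', IsCompOf T' G → T' ≠ T →
      ∃ f : MvPolynomial ι ℂ, (∀ y ∈ T', eval y f = 0) ∧ ∃ x ∈ T, eval x f ≠ 0 := by
    intro T' hT' hne
    by_contra hcon
    push Not at hcon
    apply hne
    symm
    apply ph_comp_not_subset hT hT'
    intro x hx
    exact cn_mem_of_isVar (ph_isCompOf_isVar hT') x (fun f hf => hcon f hf x hx)
  choose! f hf0 hf1 using hb
  have hx : ∃ x ∈ T, eval x (h * ∏ T' ∈ hfin.toFinset.erase T, f T') ≠ 0 := by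
    by_contra hcon
    push Not at hcon
    rcases ph_isVar_mul hTV _ _ hcon with h1 | h1
    · exact hx0h (h1 x0 hx0)
    · obtain ⟨x, hxT, hx⟩ := cn_prod_ne hTV (hfin.toFinset.erase T) f (by
        intro T' hT'
        rw [Finset.mem_erase] at hT'
        exact hf1 T' (by simpa using hT'.2) hT'.1)
      exact hx (h1 x hxT)
  obtain ⟨x, hxT, hx⟩ := hx
  rw [map_mul] at hx
  have hxh : eval x h ≠ 0 := left_ne_zero_of_mul hx
  have hxf : eval x (∏ T' ∈ hfin.toFinset.erase T, f T') ≠ 0 := right_ne_zero_of_mul hx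
  have hxG : x ∈ Zl (G ∪ Set.range fun j => ψ j - C (pmap ψ x j)) := by
    intro g hg
    rcases hg with hg | ⟨j, rfl⟩
    · exact ph_isCompOf_subset hT hxT g hg
    · simp [pmap]
  rw [ph_Zl_eq_iUnion_comps] at hxG
  simp only [Set.mem_iUnion] at hxG
  obtain ⟨Φ, hΦ, hxΦ⟩ := hxG
  have hΦ' : IsCompOf Φ (G ∪ Set.range fun j => ψ j - C (pmap ψ x j)) := hΦ
  have hj := hfib _ Φ hΦ'
  have hΦV := ph_isCompOf_isVar hΦ'
  have hΦs := ph_isCompOf_subset hΦ'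
  obtain ⟨T', hT', hΦT'⟩ := ph_isVar_subset_comp hΦV (G := G)
    (fun y hy g hg => hΦs hy g (Or.inl hg))
  have hTT : T' = T := by
    by_contra hne
    apply hxf
    rw [map_prod]
    exact Finset.prod_eq_zero (i := T') (by
      rw [Finset.mem_erase]
      exact ⟨hne, by simpa using hT'⟩) (hf0 T' hT' hne x (hΦT' hxΦ))
  subst hTT
  have hcomp : IsCompOf Φ ({f : MvPolynomial ι ℂ | ∀ y ∈ T', eval y f = 0} ∪
      Set.range fun j => ψ j - C (pmap ψ x j)) := by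
    rw [ph_isCompOf_iff]
    refine ⟨hΦV, ?_, ?_⟩
    · intro y hy g hg
      rcases hg with hg | hg
      · exact hg y (hΦT' hy)
      · exact hΦs hy g (Or.inr hg)
    · intro V' hV' hsub hV'Z
      refine ((ph_isCompOf_iff _ _).1 hΦ').2.2 V' hV' hsub ?_
      intro y hy g hg
      rcases hg with hg | hg
      · have hyT : y ∈ T' := by
          rw [← cn_Zl_vanishing hTV]
          exact fun g' hg' => hV'Z hy g' (Or.inl hg')
        exact ph_isCompOf_subset hT hyT g hg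
      · exact hV'Z hy g (Or.inr hg)
  have := hh x hxT hxh Φ hcomp hxΦ
  rw [hTu, ph_univ.2.1] at this
  exact ⟨T', hT, by omega⟩

variable {r : ℕ}

/-- coordinates of `ℂ^(CnSk r) × ℂ^(CnP r) ∋ (Z, μ)` -/
abbrev CnK (r : ℕ) := CnSk r ⊕ CnP r

/-- `F(Z, μ) = (Z, y - Z v)` -/
noncomputable def cnIsoF : CnI r → MvPolynomial (CnK r) ℂ :=
  Sum.elim (fun q => X (Sum.inl q))
    (fun i => X (Sum.inr (Sum.inr i))
      - ∑ j, cnSkw (fun q => X (Sum.inl q)) i j * X (Sum.inr (Sum.inl j)))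

/-- the equations `(y - y₀) - Z (v - v₀) = 0` -/
noncomputable def cnIsoQ (μ₀ : CnP r → ℂ) (i : Fin r) : MvPolynomial (CnK r) ℂ :=
  (X (Sum.inr (Sum.inr i)) - C (cnY μ₀ i))
    - ∑ j, cnSkw (fun q => X (Sum.inl q)) i j * (X (Sum.inr (Sum.inl j)) - C (cnV μ₀ j))

/-- the system of `T₀` -/
def cnIsoSys (Y : Set (CnP r → ℂ)) (μ₀ : CnP r → ℂ) : Set (MvPolynomial (CnK r) ℂ) :=
  (rename Sum.inr '' {f : MvPolynomial (CnP r) ℂ | ∀ y ∈ Y, eval y f = 0}) ∪ Set.range (cnIsoQ μ₀)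

/-- `cnPolar · μ₀` as a polynomial -/
noncomputable def cnPolP (μ₀ : CnP r → ℂ) : MvPolynomial (CnP r) ℂ :=
  ∑ i, (X (Sum.inr i) - C (cnY μ₀ i)) * (X (Sum.inl i) - C (cnV μ₀ i))

/-! ### LEAF CN-ISO-B: elementary facts -/

theorem cn_eval_polP (μ₀ μ : CnP r → ℂ) : eval μ (cnPolP μ₀) = cnPolar μ μ₀ := by
  unfold cnPolP cnPolar cnY cnV
  simp only [map_sum, map_mul, map_sub, eval_X, eval_C]

theorem cn_pmap_isoF (Z : CnSk r → ℂ) (μ : CnP r → ℂ) :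
    pmap cnIsoF (Sum.elim Z μ : CnK r → ℂ) = cnGr μ Z := by
  funext k
  rcases k with q | i
  · simp [pmap, cnIsoF, cnGr]
  · simp only [pmap, cnIsoF, cnGr, Sum.elim_inr, map_sub, map_sum, map_mul, eval_X, cn_eval_skw,
      Sum.elim_inl, cnPi, cnY, cnV]

theorem cn_eval_isoQ (μ₀ : CnP r → ℂ) (Z : CnSk r → ℂ) (μ : CnP r → ℂ) (i : Fin r) :
    eval (Sum.elim Z μ : CnK r → ℂ) (cnIsoQ μ₀ i) = cnPi Z μ i - cnPi Z μ₀ i := by
  simp only [cnIsoQ, map_sub, map_sum, map_mul, eval_X, eval_C, cn_eval_skw, Sum.elim_inl,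
    Sum.elim_inr, cnPi, mul_sub, Finset.sum_sub_distrib]
  simp only [cnY, cnV]
  ring

/-- `Zl (rename inr '' I(Y)) = ℂ^(CnSk r) × Y` (`cn_mem_of_isVar`, `eval_rename`) -/
theorem cn_Zl_rename_inr {Y : Set (CnP r → ℂ)} (hY : IsVar Y) :
    Zl (rename Sum.inr '' {f : MvPolynomial (CnP r) ℂ | ∀ y ∈ Y, eval y f = 0} :
      Set (MvPolynomial (CnK r) ℂ)) = prodSet Set.univ Y := by
  ext z
  constructor
  · intro h
    refine ⟨trivial, cn_mem_of_isVar hY _ fun f hf => ?_⟩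
    have := h (rename Sum.inr f) ⟨f, hf, rfl⟩
    rwa [eval_rename] at this
  · rintro ⟨_, h1⟩ _ ⟨f, hf, rfl⟩
    rw [eval_rename]
    exact hf _ h1

theorem cn_mem_isoSys {Y : Set (CnP r → ℂ)} (hY : IsVar Y) (μ₀ : CnP r → ℂ) (x : CnK r → ℂ) :
    x ∈ Zl (cnIsoSys Y μ₀) ↔ (fun k => x (Sum.inr k)) ∈ Y ∧
      cnPi (fun q => x (Sum.inl q)) (fun k => x (Sum.inr k)) = cnPi (fun q => x (Sum.inl q)) μ₀ := by
  have hx : x = Sum.elim (fun q => x (Sum.inl q)) (fun k => x (Sum.inr k)) := by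
    funext k
    rcases k with q | k <;> rfl
  have hQ : ∀ i, eval x (cnIsoQ μ₀ i) = cnPi (fun q => x (Sum.inl q)) (fun k => x (Sum.inr k)) i
      - cnPi (fun q => x (Sum.inl q)) μ₀ i := by
    intro i
    conv_lhs => rw [hx]
    exact cn_eval_isoQ μ₀ _ _ i
  constructor
  · intro h
    have h1 : x ∈ Zl (rename Sum.inr '' {f : MvPolynomial (CnP r) ℂ | ∀ y ∈ Y, eval y f = 0} :
        Set (MvPolynomial (CnK r) ℂ)) := fun g hg => h g (Or.inl hg)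
    rw [cn_Zl_rename_inr hY] at h1
    refine ⟨h1.2, ?_⟩
    funext i
    have h2 := h (cnIsoQ μ₀ i) (Or.inr ⟨i, rfl⟩)
    rw [hQ i] at h2
    exact sub_eq_zero.mp h2
  · rintro ⟨h1, h2⟩ g hg
    rcases hg with hg | ⟨i, rfl⟩
    · have h3 : x ∈ Zl (rename Sum.inr '' {f : MvPolynomial (CnP r) ℂ | ∀ y ∈ Y, eval y f = 0} :
          Set (MvPolynomial (CnK r) ℂ)) := by
        rw [cn_Zl_rename_inr hY]
        exact ⟨trivial, h1⟩
      exact h3 g hg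
    · rw [hQ i, h2, sub_self]

/-- two flats which meet are polar-orthogonal: `y - y₀ = Z (v - v₀)`, `cn_mat_quad` -/
theorem cn_polar_of_meet (Z : CnSk r → ℂ) (μ μ₀ : CnP r → ℂ) (h : cnPi Z μ = cnPi Z μ₀) :
    cnPolar μ μ₀ = 0 := by
  have h1 : ∀ i, cnY μ i - cnY μ₀ i = ∑ j, cnMat Z i j * (cnV μ j - cnV μ₀ j) := by
    intro i
    have := congrFun h i
    simp only [cnPi] at this
    simp only [mul_sub, Finset.sum_sub_distrib]
    linear_combination this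
  unfold cnPolar
  have h2 := cn_mat_quad Z (fun j => cnV μ j - cnV μ₀ j)
  rw [← h2]
  apply Finset.sum_congr rfl
  intro i _
  rw [h1 i]
  ring

/-- the set of `Z` over which two DISTINCT flats meet has dimension `≤ s0 - (r - 1)`.  PLAN: `λ := μ - μ₀ ≠ 0`; if the set is empty `vdim = 0` (`cn_vdim_finite`).  Otherwise `cnV λ ≠ 0` (else `cnY λ = 0`); `cnV λ i ≠ 0`; `λ' := (cnV λ i)⁻¹ • λ`;
the set is contained in `{Z | ∃ lam ∈ {λ'}, cnV lam i = 1 ∧ cnPi Z lam = 0}`; `ph_vdim_mono`, `cn_bad_vdim`, `cn_vdim_finite` (a subset of a singleton), `cn_card_skI`. -/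
theorem cn_vdim_meet_le (μ μ₀ : CnP r → ℂ) (hne : μ ≠ μ₀) :
    vdim {Z : CnSk r → ℂ | cnPi Z μ = cnPi Z μ₀} + (r - 1) ≤ r.choose 2 := by
  rcases Set.eq_empty_or_nonempty {Z : CnSk r → ℂ | cnPi Z μ = cnPi Z μ₀} with he | ⟨Z₁, hZ₁⟩
  · rw [he, cn_vdim_finite _ Set.finite_empty, zero_add]
    rcases Nat.eq_zero_or_pos r with rfl | hr
    · simp
    · have := cn_card_skI (⟨0, hr⟩ : Fin r)
      omega
  -- linearity of `cnPi`
  have hlin : ∀ (Z : CnSk r → ℂ) (t : ℂ), cnPi Z (t • (μ - μ₀)) = t • (cnPi Z μ - cnPi Z μ₀) := by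
    intro Z t
    funext i
    simp only [cnPi, cnY, cnV, Pi.smul_apply, Pi.sub_apply, smul_eq_mul, mul_sub,
      Finset.sum_sub_distrib, Finset.mul_sum]
    have e1 : ∀ ν : CnP r → ℂ, ∑ j, cnMat Z i j * (t * ν (Sum.inl j)) = ∑ j, t * (cnMat Z i j * ν (Sum.inl j)) := by
      intro ν
      apply Finset.sum_congr rfl
      intro j _
      ring
    rw [e1, e1]
    ring
  have hV : ∃ i, cnV μ i - cnV μ₀ i ≠ 0 := by
    by_contra hcon
    push Not at hcon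
    apply hne
    have hZ : cnPi Z₁ μ = cnPi Z₁ μ₀ := hZ₁
    funext k
    rcases k with i | i
    · have := hcon i
      simp only [cnV] at this
      exact sub_eq_zero.mp this
    · have h1 := congrFun hZ i
      simp only [cnPi] at h1
      have h2 : ∑ j, cnMat Z₁ i j * cnV μ j = ∑ j, cnMat Z₁ i j * cnV μ₀ j := by
        apply Finset.sum_congr rfl
        intro j _
        rw [sub_eq_zero.mp (hcon j)]
      rw [h2] at h1
      simp only [cnY] at h1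
      exact sub_left_injective h1
  obtain ⟨i, hi⟩ := hV
  obtain ⟨lam, hlam⟩ : ∃ lam : CnP r → ℂ, lam = (cnV μ i - cnV μ₀ i)⁻¹ • (μ - μ₀) := ⟨_, rfl⟩
  have hsub : {Z : CnSk r → ℂ | cnPi Z μ = cnPi Z μ₀} ⊆
      {Z : CnSk r → ℂ | ∃ l ∈ ({lam} : Set (CnP r → ℂ)), cnV l i = 1 ∧ cnPi Z l = 0} := by
    intro Z hZ
    refine ⟨lam, rfl, ?_, ?_⟩
    · rw [hlam]
      simp only [cnV, Pi.smul_apply, Pi.sub_apply, smul_eq_mul]
      simp only [cnV] at hi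
      exact inv_mul_cancel₀ hi
    · have hZ' : cnPi Z μ = cnPi Z μ₀ := hZ
      rw [hlam, hlin, hZ', sub_self, smul_zero]
  have h1 := ph_vdim_mono hsub
  have h2 := cn_bad_vdim ({lam} : Set (CnP r → ℂ)) i
  have h3 : vdim {l ∈ ({lam} : Set (CnP r → ℂ)) | l (Sum.inl i) = 1} = 0 := by
    apply cn_vdim_finite
    exact (Set.finite_singleton lam).subset (fun l hl => hl.1)
  have h4 := cn_card_skI i
  omega

/-! ### LEAF CN-ISO-C: the lower bound -/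

/-- PLAN: see the header.  `X := prodSet univ Y`, `G₀ := rename inr '' I(Y)` (`cn_Zl_rename_inr`), `ph_prod_isVar`, `ph_prod_vdim`, `ph_univ`, `cn_card_sk`.  `pmap cnIsoF '' X ⊆ V` (`cn_pmap_isoF`, `cn_gr_mem`), so `zcl .. ⊆ V` (`ph_zcl_mono`, `ph_zcl_of_isVar`) and `vdim (zcl ..) ≤ vdim V`.
`cn_fib_sum` with `G = cnIsoSys Y μ₀`, `ψ q = X (inl q)`, `j₀ = r.choose 2 + vdim Y - vdim V`.  `hsurj`: `x = Sum.elim Z₁ μ₀` (`cn_mem_isoSys`).  `hfib`: `Zl (cnIsoSys Y μ₀ ∪ range (X (inl q) - C (Z₁ q))) = Zl (G₀ ∪ range (cnIsoF k - C (cnGr μ₀ Z₁ k)))`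
(both are `{(Z₁, μ) | μ ∈ Y, π_{Z₁} μ = π_{Z₁} μ₀}`); `ph_isCompOf_congr`; `ph_fib_ge`. -/
theorem cn_iso_low {V : Set (CnI r → ℂ)} {Y : Set (CnP r → ℂ)} (hV : IsVar V) (hY : IsVar Y)
    (hYV : ∀ μ ∈ Y, cnFlat μ ⊆ V) (μ₀ : CnP r → ℂ) (hμ₀ : μ₀ ∈ Y) :
    ∃ T, IsCompOf T (cnIsoSys Y μ₀) ∧ r.choose 2 + (r.choose 2 + vdim Y) ≤ vdim T + vdim V := by
  have hX : IsVar (prodSet (Set.univ : Set (CnSk r → ℂ)) Y) := ph_prod_isVar ph_univ.1 hY
  have hXd : vdim (prodSet (Set.univ : Set (CnSk r → ℂ)) Y) = r.choose 2 + vdim Y := by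
    rw [ph_prod_vdim ph_univ.1 hY, ph_univ.2.1, cn_card_sk]
  have hel : ∀ x : CnK r → ℂ, x = Sum.elim (fun q => x (Sum.inl q)) (fun k => x (Sum.inr k)) := by
    intro x
    funext k
    rcases k with q | k <;> rfl
  have himg : vdim (zcl (pmap cnIsoF '' prodSet (Set.univ : Set (CnSk r → ℂ)) Y)) ≤ vdim V := by
    apply ph_vdim_mono
    have h1 : pmap cnIsoF '' prodSet (Set.univ : Set (CnSk r → ℂ)) Y ⊆ V := by
      rintro _ ⟨x, hx, rfl⟩
      rw [hel x, cn_pmap_isoF]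
      exact hYV _ hx.2 (cn_gr_mem _ _)
    have h2 := ph_zcl_mono h1
    rwa [ph_zcl_of_isVar hV] at h2
  obtain ⟨T, hT, hTd⟩ := cn_fib_sum (cnIsoSys Y μ₀) (fun q => X (Sum.inl q))
    (r.choose 2 + vdim Y - vdim V) (by
      intro Z₁
      refine ⟨Sum.elim Z₁ μ₀, ?_, ?_⟩
      · rw [cn_mem_isoSys hY]
        exact ⟨hμ₀, rfl⟩
      · funext q
        simp [pmap]) (by
      intro Z₁ Φ hΦ
      have hZl : Zl (cnIsoSys Y μ₀ ∪ Set.range fun q => (X (Sum.inl q) : MvPolynomial (CnK r) ℂ) - C (Z₁ q)) =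
          Zl ((rename Sum.inr '' {f : MvPolynomial (CnP r) ℂ | ∀ y ∈ Y, eval y f = 0} :
            Set (MvPolynomial (CnK r) ℂ)) ∪ Set.range fun k => cnIsoF k - C (cnGr μ₀ Z₁ k)) := by
        ext x
        rw [cn_mem_Zl_fib, cn_mem_Zl_fib, cn_mem_isoSys hY, cn_Zl_rename_inr hY]
        have e1 : pmap (fun q => (X (Sum.inl q) : MvPolynomial (CnK r) ℂ)) x = fun q => x (Sum.inl q) := by
          funext q
          simp [pmap]
        have e2 : pmap cnIsoF x = cnGr (fun k => x (Sum.inr k)) (fun q => x (Sum.inl q)) := by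
          conv_lhs => rw [hel x]
          exact cn_pmap_isoF _ _
        rw [e1, e2]
        constructor
        · rintro ⟨⟨h1, h2⟩, h3⟩
          refine ⟨⟨trivial, h1⟩, ?_⟩
          rw [h3] at h2 ⊢
          unfold cnGr
          rw [h2]
        · rintro ⟨⟨_, h1⟩, h2⟩
          unfold cnGr at h2
          have h3 : (fun q => x (Sum.inl q)) = Z₁ := by
            funext q
            exact congrFun h2 (Sum.inl q)
          have h4 : cnPi (fun q => x (Sum.inl q)) (fun k => x (Sum.inr k)) = cnPi Z₁ μ₀ := by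
            funext i
            exact congrFun h2 (Sum.inr i)
          refine ⟨⟨h1, ?_⟩, h3⟩
          rw [h4, h3]
      rw [ph_isCompOf_congr hZl] at hΦ
      have := ph_fib_ge hX _ (cn_Zl_rename_inr hY) cnIsoF (cnGr μ₀ Z₁) Φ hΦ
      omega)
  refine ⟨T, hT, ?_⟩
  rw [cn_card_sk] at hTd
  omega

/-! ### LEAF CN-ISO-D: the upper bound -/

/-- PLAN: see the header.  `T` is irreducible (`ph_isCompOf_isVar`), `T ⊆ Zl (cnIsoSys Y μ₀)` (`ph_isCompOf_subset`, `cn_mem_isoSys`).  `q k := X (inr k)`, `W := zcl (pmap q '' T)` (`ph_isVar_zcl_image`); `W ⊆ Y` (`ph_zcl_mono`, `ph_zcl_of_isVar`); `W ⊆ Zl {cnPolP μ₀}` (`ph_zcl_subset_iff`, `cn_polar_of_meet`, `cn_eval_polP`).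
`h` from `ph_fib_eq` for `T` (`G₀ := I(T)`, `cn_Zl_vanishing`), `ψ = q`.  Some `X (inr k) - C (μ₀ k)` does not vanish identically on `T`: otherwise `T ⊆ prodSet univ {μ₀}`, `vdim T ≤ s0 + 0` (`ph_vdim_mono`, `cn_vdim_prod_le`, `ph_univ`, `cn_card_sk`, `cn_vdim_finite`).
`ph_isVar_mul`: `x = (Z, μ) ∈ T` with `h(x) ≠ 0`, `μ ≠ μ₀`.  A component `Φ ∋ x` of the fibre (`ph_Zl_eq_iUnion_comps`): `vdim Φ + vdim W = vdim T`.  `Φ ⊆ prodSet {Z' | π_{Z'} μ = π_{Z'} μ₀} {μ}` (`ph_isCompOf_subset`), so `vdim Φ ≤ vdim {..} + 0` (`cn_vdim_prod_le`); `cn_vdim_meet_le`. -/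
theorem cn_iso_up {Y : Set (CnP r → ℂ)} (hY : IsVar Y) (μ₀ : CnP r → ℂ) (T : Set (CnK r → ℂ))
    (hT : IsCompOf T (cnIsoSys Y μ₀)) (hTd : r.choose 2 < vdim T) :
    ∃ W : Set (CnP r → ℂ), IsVar W ∧ W ⊆ Y ∧ (∀ μ ∈ W, cnPolar μ μ₀ = 0) ∧
      vdim T + (r - 1) ≤ r.choose 2 + vdim W := by
  have hTV := ph_isCompOf_isVar hT
  have hTs : ∀ x ∈ T, (fun k => x (Sum.inr k)) ∈ Y ∧
      cnPi (fun q => x (Sum.inl q)) (fun k => x (Sum.inr k)) = cnPi (fun q => x (Sum.inl q)) μ₀ :=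
    fun x hx => (cn_mem_isoSys hY μ₀ x).1 (ph_isCompOf_subset hT hx)
  obtain ⟨q, hq⟩ : ∃ q : CnP r → MvPolynomial (CnK r) ℂ, q = fun k => X (Sum.inr k) := ⟨_, rfl⟩
  have hpq : ∀ x, pmap q x = fun k => x (Sum.inr k) := by
    intro x
    funext k
    simp [pmap, hq]
  refine ⟨zcl (pmap q '' T), ph_isVar_zcl_image hTV q, ?_, ?_, ?_⟩
  · have h1 : pmap q '' T ⊆ Y := by
      rintro _ ⟨x, hx, rfl⟩
      rw [hpq]
      exact (hTs x hx).1
    have h2 := ph_zcl_mono h1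
    rwa [ph_zcl_of_isVar hY] at h2
  · have h1 : zcl (pmap q '' T) ⊆ Zl {cnPolP μ₀} := by
      rw [ph_zcl_subset_iff]
      rintro _ ⟨x, hx, rfl⟩ g hg
      rw [Set.mem_singleton_iff] at hg
      subst hg
      rw [cn_eval_polP, hpq]
      exact cn_polar_of_meet _ _ _ (hTs x hx).2
    intro μ hμ
    rw [← cn_eval_polP]
    exact h1 hμ _ rfl
  · obtain ⟨h, ⟨x0, hx0, hx0h⟩, hh⟩ := ph_fib_eq hTV _ (cn_Zl_vanishing hTV) q
    have hk : ∃ k, ∃ x ∈ T, eval x (X (Sum.inr k) - C (μ₀ k) : MvPolynomial (CnK r) ℂ) ≠ 0 := by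
      by_contra hcon
      push Not at hcon
      have hsub : T ⊆ prodSet (Set.univ : Set (CnSk r → ℂ)) {μ₀} := by
        intro x hx
        refine ⟨trivial, ?_⟩
        rw [Set.mem_singleton_iff]
        funext k
        have := hcon k x hx
        simpa [sub_eq_zero] using this
      have h1 := ph_vdim_mono hsub
      have h2 := cn_vdim_prod_le (Set.univ : Set (CnSk r → ℂ)) ({μ₀} : Set (CnP r → ℂ))
      rw [ph_univ.2.1, cn_card_sk, cn_vdim_finite _ (Set.finite_singleton _)] at h2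
      omega
    obtain ⟨k, x1, hx1, hx1k⟩ := hk
    have hx : ∃ x ∈ T, eval x (h * (X (Sum.inr k) - C (μ₀ k))) ≠ 0 := by
      by_contra hcon
      push Not at hcon
      rcases ph_isVar_mul hTV _ _ hcon with h1 | h1
      · exact hx0h (h1 x0 hx0)
      · exact hx1k (h1 x1 hx1)
    obtain ⟨x, hxT, hx⟩ := hx
    rw [map_mul] at hx
    have hxh := left_ne_zero_of_mul hx
    have hxk := right_ne_zero_of_mul hx
    have hxG : x ∈ Zl ({f : MvPolynomial (CnK r) ℂ | ∀ y ∈ T, eval y f = 0} ∪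
        Set.range fun j => q j - C (pmap q x j)) := by
      rw [cn_mem_Zl_fib, cn_Zl_vanishing hTV]
      exact ⟨hxT, rfl⟩
    rw [ph_Zl_eq_iUnion_comps] at hxG
    simp only [Set.mem_iUnion] at hxG
    obtain ⟨Φ, hΦ, hxΦ⟩ := hxG
    have hΦ' : IsCompOf Φ ({f : MvPolynomial (CnK r) ℂ | ∀ y ∈ T, eval y f = 0} ∪
        Set.range fun j => q j - C (pmap q x j)) := hΦ
    have heq := hh x hxT hxh Φ hΦ' hxΦ
    have hne : (fun k => x (Sum.inr k)) ≠ μ₀ := by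
      intro he
      apply hxk
      rw [map_sub, eval_X, eval_C, ← he, sub_self]
    have hsub : Φ ⊆ prodSet {Z' : CnSk r → ℂ | cnPi Z' (fun k => x (Sum.inr k)) = cnPi Z' μ₀}
        {fun k => x (Sum.inr k)} := by
      intro y hy
      have h1 := ph_isCompOf_subset hΦ' hy
      rw [cn_mem_Zl_fib, cn_Zl_vanishing hTV, hpq, hpq] at h1
      refine ⟨?_, h1.2⟩
      have := (hTs y h1.1).2
      rw [h1.2] at this
      exact this
    have h1 := ph_vdim_mono hsub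
    have h2 := cn_vdim_prod_le {Z' : CnSk r → ℂ | cnPi Z' (fun k => x (Sum.inr k)) = cnPi Z' μ₀}
      ({fun k => x (Sum.inr k)} : Set (CnP r → ℂ))
    rw [cn_vdim_finite _ (Set.finite_singleton _)] at h2
    have h3 := cn_vdim_meet_le _ μ₀ hne
    omega

/-! ### ISO: glue -/

theorem cn_iso {r : ℕ} (hr : 2 ≤ r) : CnIsoStmt r := by
  intro V Y hV hY hlt hYV hbig
  have key : ∀ μ₀ ∈ Y, ∃ W : Set (CnP r → ℂ), IsVar W ∧ W ⊆ Y ∧ (∀ μ ∈ W, cnPolar μ μ₀ = 0) ∧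
      r.choose 2 + vdim Y + (r - 1) ≤ vdim W + vdim V := by
    intro μ₀ hμ₀
    obtain ⟨T, hT, hlow⟩ := cn_iso_low hV hY hYV μ₀ hμ₀
    obtain ⟨W, hW, hWY, hpol, hup⟩ := cn_iso_up hY μ₀ T hT (by omega)
    exact ⟨W, hW, hWY, hpol, by omega⟩
  constructor
  · obtain ⟨μ₀, hμ₀⟩ := ph_isVar_nonempty Y hY
    obtain ⟨W, _, hWY, _, h1⟩ := key μ₀ hμ₀
    have := ph_vdim_mono hWY
    omega
  · intro μ₁ hμ₁ μ₀ hμ₀
    by_contra hne
    obtain ⟨W, hW, hWY, hpol, h1⟩ := key μ₀ hμ₀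
    have := ph_vdim_lt_of_ssubset hY hWY (cnPolP μ₀)
      (fun x hx => by rw [cn_eval_polP]; exact hpol x hx)
      ⟨μ₁, hμ₁, by rw [cn_eval_polP]; exact hne⟩ (ph_isVar_nonempty W hW)
    omega

end Claimed.Agent.R273
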