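-- KEEP
import Claimed.Agent.R273.CnFlat

/-!
# Row 273, App A, block LOW = RUL + DEG' + ISO + SEP, CHART MODEL (architects helper120, helper69).  Prefix `cn`.

Notation (CnDefs.lean): `r ≥ 2`, `s0 = binom(r,2)`, `n = s0 + r`, ambient `ℂ^(CnI r) ∋ z = (Z, x)`, parameters `μ = (v, y) ∈ ℂ^(CnP r)`, `Φ_μ = cnFlat μ = {(Z, y - Z v)}`.

EXPORT `CnLow r` (CnDefs.lean) = the "low degree" alternative (conc:low-recurrence) of the proof of conc:theorem, without the induction.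
It is proved (glue below) from three contracts, ALL ALGEBRAIC (no Chern classes, no flows, no analytic geometry, no pencils), which speak about PARAMETER VARIETIES `Y ⊆ ℂ^(CnP r)`:
* `CnRulStmt r` (files CnDer, CnRulA (c ≥ 2), CnRulB (c = 1)): `H` and `≤ Ce` irreducible closed `Y` all of whose flats lie in `V`, containing every `μ` with `Φ_μ ⊆ V`, `Φ_μ ⊄ Z(H)`;
   for each `Y` either (pos) `dim Y ≥ h + 1` or (fin) `dim Y = h` and at most `Ce` flats of `Y` pass through a point `z` with `H(z) ≠ 0`.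
* `CnIsoStmt r` (file CnIso): (pos) ⟹ `h = r - 1` and the members of `Y` are pairwise polar-orthogonal, so `CnHyp.iso` counts them.  Proof = a dimension count; replaces "tangent constraint + singular skew pencil + null tangent rigidity" of conc:degree.
* `CnDegStmt r` (files CnDeg*): (fin) ⟹ `vdeg Y ≤ Cd κ vdeg V`.  Linear projection `μ ↦ y - Z₀ v` to a generic slice; replaces the Chern/Segre class computation of conc:degree.
`cn_sep` (= conc:separators, no induction): `#(F ∩ Y) ≤ hA Y ⌊C0 A⌋ ≤ vdeg Y binom(⌊C0 A⌋ + dim Y, dim Y)`.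
-/

set_option autoImplicit false

namespace Claimed.Agent.R273

open MvPolynomial Module

/-- the hypotheses on the carrier `V` and its regular equations (output of REG) -/
structure CnCar (r h c D : ℕ) (V : Set (CnI r → ℂ)) (g : Fin c → MvPolynomial (CnI r) ℂ) : Prop where
  isVar : IsVar V
  hh : 1 ≤ h
  hc : 1 ≤ c
  hsum : c + h = r
  dim : vdim V = r.choose 2 + h
  hD : 1 ≤ D
  deg : ∀ i, (g i).totalDegree ≤ D
  van : ∀ i, ∀ z ∈ V, eval z (g i) = 0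
  reg : ∃ z ∈ V, LinearIndependent ℂ (fun i => fun j => eval z (pderiv j (g i)))

/-- at most `κ` flats of the family `Y` pass through `z` -/
def CnFew {r : ℕ} (Y : Set (CnP r → ℂ)) (z : CnI r → ℂ) (κ : ℕ) : Prop :=
  ∀ T : Finset (CnP r → ℂ), (∀ μ ∈ T, μ ∈ Y ∧ z ∈ cnFlat μ) → T.card ≤ κ

/-- **RUL** (conc:rulings, algebraic form) -/
def CnRulStmt (r : ℕ) : Prop :=
  ∃ Ce : ℕ, ∀ (h c D : ℕ) (V : Set (CnI r → ℂ)) (g : Fin c → MvPolynomial (CnI r) ℂ),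
    CnCar r h c D V g →
    ∃ (H : MvPolynomial (CnI r) ℂ) (𝒴 : Finset (Set (CnP r → ℂ))),
      H.totalDegree ≤ Ce * D ∧ (∃ z ∈ V, eval z H ≠ 0) ∧ 𝒴.card ≤ Ce ∧
      (∀ Y ∈ 𝒴, IsVar Y ∧ (∀ μ ∈ Y, cnFlat μ ⊆ V) ∧
        (h + 1 ≤ vdim Y ∨ (vdim Y = h ∧ ∀ z, eval z H ≠ 0 → CnFew Y z Ce))) ∧
      (∀ μ, cnFlat μ ⊆ V → (∃ z ∈ cnFlat μ, eval z H ≠ 0) → ∃ Y ∈ 𝒴, μ ∈ Y)

/-- **ISO** -/
def CnIsoStmt (r : ℕ) : Prop :=
  ∀ (V : Set (CnI r → ℂ)) (Y : Set (CnP r → ℂ)), IsVar V → IsVar Y → vdim V < r.choose 2 + r →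
    (∀ μ ∈ Y, cnFlat μ ⊆ V) → vdim V + 1 ≤ r.choose 2 + vdim Y →
    vdim V + 1 = r.choose 2 + r ∧ ∀ μ ∈ Y, ∀ μ' ∈ Y, cnPolar μ μ' = 0

/-- **DEG'** -/
def CnDegStmt (r : ℕ) : Prop :=
  ∃ Cd : ℕ, ∀ (h κ : ℕ) (V : Set (CnI r → ℂ)) (Y : Set (CnP r → ℂ)) (H : MvPolynomial (CnI r) ℂ),
    IsVar V → IsVar Y → h < r → vdim V = r.choose 2 + h → vdim Y = h → (∀ μ ∈ Y, cnFlat μ ⊆ V) →
    (∃ μ ∈ Y, ∃ z ∈ cnFlat μ, eval z H ≠ 0) → (∀ z, eval z H ≠ 0 → CnFew Y z κ) →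
    vdeg Y ≤ Cd * κ * vdeg V

/-- **SEP** (conc:separators).  `rk_card_le_rkOn_of_sep` with `W = restrictTotalDegree _ _ m`, `m = ⌊C0 A⌋₊`; `ph_up_var`. -/
theorem cn_sep {r : ℕ} {C0 A : ℝ} {F : Finset (CnP r → ℂ)} (hF : CnHyp r C0 A F)
    {Y : Set (CnP r → ℂ)} (hY : IsVar Y) (F' : Finset (CnP r → ℂ)) (hF' : F' ⊆ F)
    (hY' : ∀ μ ∈ F', μ ∈ Y) :
    F'.card ≤ vdeg Y * (⌊C0 * A⌋₊ + vdim Y).choose (vdim Y) := by
  refine le_trans ?_ (ph_up_var Y hY ⌊C0 * A⌋₊)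
  refine rk_card_le_rkOn_of_sep (restrictTotalDegree (CnP r) ℂ ⌊C0 * A⌋₊) Y F' (fun μ hμ => hY' μ hμ) ?_
  intro μ hμ
  obtain ⟨s, hs, hne, hz⟩ := hF.sep μ (hF' hμ)
  refine ⟨s, ?_, hne, fun m hm hmμ => hz m (hF' hm) hmμ⟩
  rw [mem_restrictTotalDegree]
  exact Nat.le_floor hs

/-- numeric: `binom(⌊x⌋ + h, h) ≤ (2 x)^h` for `x ≥ 1` (`Nat.choose_le_pow`-type: `binom(m+h,h) ≤ (m+1)^h`) -/
theorem cn_choose_le_pow (x : ℝ) (hx : 1 ≤ x) (h : ℕ) :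
    ((⌊x⌋₊ + h).choose h : ℝ) ≤ (2 * x) ^ h := by
  have h4 : ((⌊x⌋₊ + h).choose h : ℝ) ≤ ((⌊x⌋₊ + 1 : ℕ) : ℝ) ^ h := by
    exact_mod_cast ph_choose_le_pow _ _
  have h5 : ((⌊x⌋₊ + 1 : ℕ) : ℝ) ≤ 2 * x := by
    have : (⌊x⌋₊ : ℝ) ≤ x := Nat.floor_le (by linarith)
    push_cast
    linarith
  exact h4.trans (pow_le_pow_left₀ (by positivity) h5 h)

theorem cn_low_of_parts (r : ℕ) (hr : 2 ≤ r) (hrul : CnRulStmt r) (hiso : CnIsoStmt r)
    (hdeg : CnDegStmt r) : CnLow r := by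
  classical
  intro C0 hC0
  obtain ⟨Ce, hCe⟩ := hrul
  obtain ⟨Cd, hCd⟩ := hdeg
  refine ⟨Ce * ((Cd * Ce : ℕ) * (2 * C0) ^ r + C0) + 1, Ce, by positivity, ?_⟩
  intro V hV h c hh hc hsum hdim D g hD hgdeg hgvan hgreg
  have hcar : CnCar r h c D V g := ⟨hV, hh, hc, hsum, hdim, hD, hgdeg, hgvan, hgreg⟩
  obtain ⟨H, 𝒴, hHdeg, hHne, hcard, hY, hcov⟩ := hCe h c D V g hcar
  refine ⟨H, hHdeg, hHne, ?_⟩
  intro A F hA hF F' hF'F hF'
  have hvd : (1 : ℝ) ≤ vdeg V := by exact_mod_cast ph_vdeg_pos V hV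
  have hAh : (1 : ℝ) ≤ A ^ h := one_le_pow₀ hA
  have hA0 : (0 : ℝ) ≤ A := by linarith
  have hC00 : (0 : ℝ) ≤ C0 := by linarith
  set K : ℝ := (Cd * Ce : ℕ) * (2 * C0) ^ r + C0 with hK
  let P : Set (CnP r → ℂ) → Finset (CnP r → ℂ) := fun Y => F'.filter fun μ => μ ∈ Y
  have hcover : F' ⊆ 𝒴.biUnion P := by
    intro μ hμ
    obtain ⟨hsub, hz⟩ := hF' μ hμ
    obtain ⟨Y, hYm, hμY⟩ := hcov μ hsub hz
    exact Finset.mem_biUnion.mpr ⟨Y, hYm, Finset.mem_filter.mpr ⟨hμ, hμY⟩⟩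
  have hpart : ∀ Y ∈ 𝒴, ((P Y).card : ℝ) ≤ K * vdeg V * A ^ h := by
    intro Y hYm
    obtain ⟨hYv, hYsub, halt⟩ := hY Y hYm
    have hPF : P Y ⊆ F := (Finset.filter_subset _ _).trans hF'F
    have hPY : ∀ μ ∈ P Y, μ ∈ Y := fun μ hμ => (Finset.mem_filter.mp hμ).2
    have hpos1 : (0 : ℝ) ≤ ((Cd * Ce : ℕ) : ℝ) * (2 * C0) ^ r := by positivity
    rcases halt with hpos | ⟨hdimY, hfew⟩
    · have hlt : vdim V < r.choose 2 + r := by rw [hdim]; omega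
      obtain ⟨hn, hpol⟩ := hiso V Y hV hYv hlt hYsub (by rw [hdim]; omega)
      have hh' : r - 1 = h := by rw [hdim] at hn; omega
      have := hF.iso (P Y) hPF (fun a ha b hb => hpol a (hPY a ha) b (hPY b hb))
      rw [hh'] at this
      calc ((P Y).card : ℝ) ≤ C0 * A ^ h := this
        _ ≤ C0 * (vdeg V * A ^ h) := by
            apply mul_le_mul_of_nonneg_left _ hC00
            nlinarith
        _ ≤ K * vdeg V * A ^ h := by
            have h0 : (0 : ℝ) ≤ vdeg V * A ^ h := by positivity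
            rw [hK]; nlinarith
    · rcases (P Y).eq_empty_or_nonempty with hemp | ⟨μ0, hμ0⟩
      · rw [hemp]; simp only [Finset.card_empty, Nat.cast_zero]; rw [hK]; positivity
      · have hμ0F' : μ0 ∈ F' := (Finset.mem_filter.mp hμ0).1
        have hne : ∃ μ ∈ Y, ∃ z ∈ cnFlat μ, eval z H ≠ 0 := ⟨μ0, hPY μ0 hμ0, (hF' μ0 hμ0F').2⟩
        have hdY := hCd h Ce V Y H hV hYv (by omega) hdim hdimY hYsub hne hfew
        have hsep := cn_sep hF hYv (P Y) hPF hPY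
        rw [hdimY] at hsep
        have hx : (1 : ℝ) ≤ C0 * A := by nlinarith
        have hch := cn_choose_le_pow (C0 * A) hx h
        have hpow : (2 * (C0 * A)) ^ h ≤ (2 * C0) ^ r * A ^ h := by
          have : (2 * (C0 * A)) ^ h = (2 * C0) ^ h * A ^ h := by rw [← mul_pow]; ring_nf
          rw [this]
          apply mul_le_mul_of_nonneg_right _ (by positivity)
          exact pow_le_pow_right₀ (by linarith) (by omega)
        calc ((P Y).card : ℝ) ≤ (vdeg Y : ℝ) * ((⌊C0 * A⌋₊ + h).choose h : ℝ) := by exact_mod_cast hsep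
          _ ≤ ((Cd * Ce * vdeg V : ℕ) : ℝ) * ((2 * C0) ^ r * A ^ h) := by
              apply mul_le_mul _ (hch.trans hpow) (by positivity) (by positivity)
              exact_mod_cast hdY
          _ = ((Cd * Ce : ℕ) : ℝ) * (2 * C0) ^ r * (vdeg V * A ^ h) := by push_cast; ring
          _ ≤ K * vdeg V * A ^ h := by
              have h0 : (0 : ℝ) ≤ vdeg V * A ^ h := by positivity
              rw [hK]; nlinarith
  have hK0 : (0 : ℝ) ≤ K := by rw [hK]; positivity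
  calc (F'.card : ℝ) ≤ ((𝒴.biUnion P).card : ℝ) := by exact_mod_cast Finset.card_le_card hcover
    _ ≤ ∑ Y ∈ 𝒴, ((P Y).card : ℝ) := by exact_mod_cast Finset.card_biUnion_le
    _ ≤ ∑ _Y ∈ 𝒴, K * vdeg V * A ^ h := Finset.sum_le_sum hpart
    _ = 𝒴.card * (K * vdeg V * A ^ h) := by rw [Finset.sum_const, nsmul_eq_mul]
    _ ≤ Ce * (K * vdeg V * A ^ h) := by
        have : (𝒴.card : ℝ) ≤ Ce := by exact_mod_cast hcard
        have h0 : (0:ℝ) ≤ K * vdeg V * A ^ h := by positivity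
        exact mul_le_mul_of_nonneg_right this h0
    _ ≤ (Ce * K + 1) * vdeg V * A ^ h := by
        have h0 : (0:ℝ) ≤ vdeg V * A ^ h := by positivity
        nlinarith

end Claimed.Agent.R273
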