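import Claimed.Agent.R273.CnRul
import Claimed.Agent.R273.CnIso
import Claimed.Agent.R273.CnDeg

/-!
# Row 273, App A, block LOW: `CnLow r`.
-/

set_option autoImplicit false

namespace Claimed.Agent.R273

theorem cn_low {r : ℕ} (hr : 2 ≤ r) : CnLow r :=
  cn_low_of_parts r hr (cn_rul hr) (cn_iso hr) (cn_deg hr)

end Claimed.Agent.R273
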