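import Claimed.Agent.R273.PrfFam

/-!
# Row 273, S3: `poly:separators` (physical separators and sample bounds).  helper161.  Prefix `sep_`.  SORRY-FREE modulo `ph_up_var`, `ph_hilbert_up_family` (POLY-A).

* `sepPoly P p`      : `∏_{ρ ∈ Δ(P)} (|x - p|² - ρ²)/(-ρ²)`, degree `≤ 2 (M - 1)`, `= 1` at `p`, `= 0` at the other points of `P`;
* `sep_card_le_hA`   : `|T| ≤ H_V(2(M-1))` for `T ⊆ P ∩ V`, `V` ANY set (no induction on the dimension, no Bezout);
* `sep_count_var`    : `|P ∩ V| ≤ deg V binom(2(M-1)+u,u)` for irreducible `V`;  `sep_count_curve`: `≤ 2 M deg V` for curves;  `sep_count_family`.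
-/

set_option autoImplicit false

namespace Claimed.Agent.R273

open MvPolynomial Module Claims.C0444

variable {d : ℕ}

/-- one factor of the separator -/
noncomputable def sepFac (p : Pt d) (ρ : ℝ) : PrfPol d :=
  C ((-((ρ : ℂ) ^ 2))⁻¹) * (∑ i, (X i - C ((p i : ℝ) : ℂ)) ^ 2 - C ((ρ : ℂ) ^ 2))

/-- the physical separator of `p` -/
noncomputable def sepPoly (P : Finset (Pt d)) (p : Pt d) : PrfPol d :=
  ∏ ρ ∈ distinctDistances P, sepFac p ρ

theorem sep_fac_deg (p : Pt d) (ρ : ℝ) : (sepFac p ρ).totalDegree ≤ 2 := by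
  unfold sepFac
  refine (totalDegree_mul _ _).trans ?_
  rw [totalDegree_C, zero_add]
  refine (totalDegree_sub _ _).trans ?_
  rw [totalDegree_C]
  refine max_le ?_ (Nat.zero_le _)
  refine totalDegree_finsetSum_le fun i _ => ?_
  refine (totalDegree_pow _ _).trans ?_
  have : (X i - C ((p i : ℝ) : ℂ) : PrfPol d).totalDegree ≤ 1 := by
    refine (totalDegree_sub _ _).trans ?_
    rw [totalDegree_C, totalDegree_X]
    simp
  omega

theorem sep_deg (P : Finset (Pt d)) (p : Pt d) : (sepPoly P p).totalDegree ≤ 2 * (dM P - 1) := by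
  unfold sepPoly
  refine (totalDegree_finsetProd _ _).trans ?_
  calc ∑ ρ ∈ distinctDistances P, (sepFac p ρ).totalDegree
      ≤ ∑ _ρ ∈ distinctDistances P, 2 := Finset.sum_le_sum fun ρ _ => sep_fac_deg p ρ
    _ = 2 * (dM P - 1) := by
        rw [Finset.sum_const, smul_eq_mul, dM]
        omega

theorem sep_fac_eval (p q : Pt d) (ρ : ℝ) :
    eval (prfPt q) (sepFac p ρ) = (-((ρ : ℂ) ^ 2))⁻¹ * (((dist q p ^ 2 : ℝ) : ℂ) - (ρ : ℂ) ^ 2) := by
  have h : ((dist q p ^ 2 : ℝ) : ℂ) = ∑ i, (((q i : ℝ) : ℂ) - ((p i : ℝ) : ℂ)) ^ 2 := by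
    rw [EuclideanSpace.dist_eq, Real.sq_sqrt (Finset.sum_nonneg fun i _ => sq_nonneg _)]
    push_cast
    refine Finset.sum_congr rfl fun i _ => ?_
    rw [Real.dist_eq, ← Complex.ofReal_sub, ← Complex.ofReal_pow, ← Complex.ofReal_pow, sq_abs]
  rw [h]
  simp [sepFac, prfPt]

theorem sep_pos_of_mem {P : Finset (Pt d)} {ρ : ℝ} (h : ρ ∈ distinctDistances P) : ρ ≠ 0 := by
  unfold distinctDistances at h
  obtain ⟨z, hz, rfl⟩ := Finset.mem_image.mp h
  exact (dist_pos.mpr (Finset.mem_filter.mp hz).2).ne'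

theorem sep_self (P : Finset (Pt d)) (p : Pt d) : eval (prfPt p) (sepPoly P p) = 1 := by
  unfold sepPoly
  rw [map_prod]
  refine Finset.prod_eq_one fun ρ hρ => ?_
  rw [sep_fac_eval, dist_self]
  have h0 : (ρ : ℂ) ^ 2 ≠ 0 := pow_ne_zero _ (Complex.ofReal_ne_zero.mpr (sep_pos_of_mem hρ))
  have : (((0 : ℝ) ^ 2 : ℝ) : ℂ) - (ρ : ℂ) ^ 2 = -((ρ : ℂ) ^ 2) := by simp
  rw [this, inv_mul_cancel₀ (neg_ne_zero.mpr h0)]

theorem sep_other (P : Finset (Pt d)) {p q : Pt d} (hp : p ∈ P) (hq : q ∈ P) (hne : q ≠ p) :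
    eval (prfPt q) (sepPoly P p) = 0 := by
  unfold sepPoly
  rw [map_prod]
  have hmem : dist q p ∈ distinctDistances P := by
    unfold distinctDistances
    exact Finset.mem_image.mpr ⟨(q, p), Finset.mem_filter.mpr ⟨Finset.mem_product.mpr ⟨hq, hp⟩, hne⟩,
      rfl⟩
  refine Finset.prod_eq_zero hmem ?_
  rw [sep_fac_eval]
  simp

/-- **poly:separators**, first assertion -/
theorem sep_exists (P : Finset (Pt d)) (p : Pt d) (hp : p ∈ P) :
    ∃ s : PrfPol d, s.totalDegree ≤ 2 * (dM P - 1) ∧ eval (prfPt p) s = 1 ∧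
      ∀ q ∈ P, q ≠ p → eval (prfPt q) s = 0 :=
  ⟨sepPoly P p, sep_deg P p, sep_self P p, fun _ hq hne => sep_other P hp hq hne⟩

/-- sample points in ANY set `V` are counted by the Hilbert function of `V` at the degree `2(M-1)` -/
theorem sep_card_le_hA (P : Finset (Pt d)) (V : Set (Fin d → ℂ)) (T : Finset (Fin d → ℂ))
    (hT : T ⊆ P.image prfPt) (hV : (T : Set (Fin d → ℂ)) ⊆ V) :
    T.card ≤ hA V (2 * (dM P - 1)) := by
  classical
  refine rk_card_le_rkOn_of_sep _ V T hV fun x hx => ?_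
  obtain ⟨p, hp, rfl⟩ := Finset.mem_image.mp (hT hx)
  refine ⟨sepPoly P p, (mem_restrictTotalDegree _ _ _).mpr (sep_deg P p), ?_, ?_⟩
  · rw [sep_self]
    exact one_ne_zero
  · intro y hy hne
    obtain ⟨q, hq, rfl⟩ := Finset.mem_image.mp (hT hy)
    exact sep_other P hp hq fun h => hne (by rw [h])

/-- **poly:physical-count** for an irreducible variety -/
theorem sep_count_var (P : Finset (Pt d)) (V : Set (Fin d → ℂ)) (hVar : IsVar V)
    (T : Finset (Fin d → ℂ)) (hT : T ⊆ P.image prfPt) (hV : (T : Set (Fin d → ℂ)) ⊆ V) :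
    T.card ≤ vdeg V * (2 * (dM P - 1) + vdim V).choose (vdim V) :=
  (sep_card_le_hA P V T hT hV).trans (ph_up_var V hVar _)

/-- **poly:physical-count** for curves: `|P ∩ V| ≤ 2 M deg V` -/
theorem sep_count_curve (P : Finset (Pt d)) (V : Set (Fin d → ℂ)) (hVar : IsVar V)
    (h1 : vdim V = 1) (T : Finset (Fin d → ℂ)) (hT : T ⊆ P.image prfPt)
    (hV : (T : Set (Fin d → ℂ)) ⊆ V) : T.card ≤ 2 * dM P * vdeg V := by
  have h := sep_count_var P V hVar T hT hV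
  rw [h1, Nat.choose_one_right] at h
  have hM : 1 ≤ dM P := by unfold dM; omega
  calc T.card ≤ vdeg V * (2 * (dM P - 1) + 1) := h
    _ ≤ vdeg V * (2 * dM P) := Nat.mul_le_mul_left _ (by omega)
    _ = 2 * dM P * vdeg V := by ring

/-- **poly:physical-count** for a pure `u`-dimensional family -/
theorem sep_count_family (P : Finset (Pt d)) (𝒱 : Finset (Set (Fin d → ℂ))) (u : ℕ)
    (h𝒱 : ∀ V ∈ 𝒱, IsVar V ∧ vdim V = u) (T : Finset (Fin d → ℂ)) (hT : T ⊆ P.image prfPt)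
    (hV : (T : Set (Fin d → ℂ)) ⊆ ⋃ V ∈ 𝒱, V) :
    T.card ≤ (∑ V ∈ 𝒱, vdeg V) * (2 * (dM P - 1) + u).choose u :=
  (sep_card_le_hA P _ T hT hV).trans
    (ph_hilbert_up_family 𝒱 (fun V hV => (h𝒱 V hV).1) u (fun V hV => (h𝒱 V hV).2) _)

/-- the same with the crude bound `(2M)^u` -/
theorem sep_count_pow (P : Finset (Pt d)) (𝒱 : Finset (Set (Fin d → ℂ))) (u : ℕ)
    (h𝒱 : ∀ V ∈ 𝒱, IsVar V ∧ vdim V = u) (T : Finset (Fin d → ℂ)) (hT : T ⊆ P.image prfPt)
    (hV : (T : Set (Fin d → ℂ)) ⊆ ⋃ V ∈ 𝒱, V) :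
    T.card ≤ (∑ V ∈ 𝒱, vdeg V) * (2 * dM P) ^ u := by
  refine (sep_count_family P 𝒱 u h𝒱 T hT hV).trans (Nat.mul_le_mul_left _ ?_)
  refine (ph_choose_le_pow _ _).trans (Nat.pow_le_pow_left ?_ _)
  have hM : 1 ≤ dM P := by unfold dM; omega
  omega

end Claimed.Agent.R273
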