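import Claimed.Agent.R273.PrfRegD
import Claimed.Agent.R273.PrfSep

/-!
# Row 273, S5: THE VARIETY-LEVEL FACTS used by profiles.tex (architect helper161): collector file.

* `PrfFam.lean`   : `prfGrad`, `prfJacRk`, `PrfFam`; bridges `prf_dim`, `prf_dim_lt`, `prf_point`, `prf_deg_pos`, `prf_cut_dim`, `prf_bezout_cut`, `prf_up`, `prf_low`, `prf_low_at`.
* `PrfPool.lean`  : `prf_pool` = poly:pooling (PROVED from leaves PRFP-*), `prf_num`.
* `PrfRegA/B/C/D` : `prfr_reg ι` (ANY finite index type), `prf_reg n`, `prfr_reg_var`, `prfr_reg_tan` (Ph language) = poly:regularity, algebraic part (PROVED from leaves PRFR-*).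
* `PrfSep.lean`   : `poly:separators`: `sepPoly`, `sep_exists`, `sep_card_le_hA`, `sep_count_var`, `sep_count_curve`, `sep_count_family`, `sep_count_pow` (PROVED).
* this file       : `prf_jac`.

LEAF PRF-jac (`prf_jac`).  `c := n - k` (`k ≤ n` by `ph_vdim_le`).
 1. From `c ≤ prfJacRk F x = finrank (span ((prfGrad · x) '' F))` choose `f : Fin c → PrfPol n`, `f j ∈ F`, with `LinearIndependent ℂ (fun j => prfGrad (f j) x)`
    (e.g. `prfr_exists_minor` + the argument of `prfr_rank_of_minor`: a nonzero `c × c` minor gives independent rows).   `prfGrad (f j) x = fun i => eval x (pderiv i (f j))` by definition.   `eval x (f j) = 0` since `f j ∈ p`, `x ∈ Z(p)`.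
 2. `ph_jac f x ..`: `p₀ ∈ (span (range f)).minimalPrimes`, `x ∈ Z(p₀)`, unique such, `vdim Z(p₀) + c = n`, and `∀ g ∈ p₀, ∃ w, w(x) ≠ 0 ∧ w g ∈ span (range f)`.
 3. For ANY prime `q` with `vdim Z(q) = k`, `F ⊆ q`, `x ∈ Z(q)`: `span (range f) ≤ q`; `Ideal.exists_minimalPrimes_le` gives `p₁ ≤ q` minimal; `Z(q) ⊆ Z(p₁)` so `x ∈ Z(p₁)`, `p₁ = p₀`; `p₀ ≤ q` and equal dimensions: `p₀ = q` (else `p₀ < q`, `prf_dim_lt`).  Apply to `q` and to `p`.
 4. `g ∈ p = p₀`: `w g = ∑ a_j f_j` (`Ideal.mem_span_range_iff_exists_fun`/`Submodule.span_induction`).  Differentiate at `x` (`Derivation.leibniz`): `w(x) ∇g(x) + g(x) ∇w(x) = ∑ a_j(x) ∇f_j(x) + f_j(x) ∇a_j(x)`, `g(x) = f_j(x) = 0`; divide by `w(x)`.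
-/

set_option autoImplicit false

namespace Claimed.Agent.R273

open MvPolynomial Module

variable {n : ℕ}

/-- JAC: full Jacobian rank at `x` ⇒ the component through `x` is unique and its equations have
gradients in the span of the given gradients (`ker Jac = T_x`). -/
theorem prf_jac {k : ℕ} (F : Set (PrfPol n)) (x : Fin n → ℂ) (hrk : n - k ≤ prfJacRk F x)
    (p : Ideal (PrfPol n)) (hp : p.IsPrime) (hk : vdim (zeroLocus ℂ p) = k)
    (hF : ∀ f ∈ F, f ∈ p) (hx : x ∈ zeroLocus ℂ p) :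
    (∀ q : Ideal (PrfPol n), q.IsPrime → vdim (zeroLocus ℂ q) = k → (∀ f ∈ F, f ∈ q) →
      x ∈ zeroLocus ℂ q → q = p) ∧
    ∀ f ∈ p, prfGrad f x ∈ Submodule.span ℂ ((fun f => prfGrad f x) '' F) := by
  classical
  have hkn : k ≤ n := by
    have := ph_vdim_le (zeroLocus ℂ p)
    rw [hk, Fintype.card_fin] at this
    exact this
  have hz : ∀ {q : Ideal (PrfPol n)} {g : PrfPol n}, x ∈ zeroLocus ℂ q → g ∈ q → eval x g = 0 := by
    intro q g hy hg
    have := (mem_zeroLocus_iff.mp hy) g hg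
    rwa [aeval_eq_eval] at this
  obtain ⟨B, hBS, hBspan, hBli⟩ := exists_linearIndependent ℂ ((fun f => prfGrad f x) '' F)
  have hfin : Finite B := hBli.finite
  haveI := Fintype.ofFinite B
  have hcard : Fintype.card B = prfJacRk F x := by
    unfold prfJacRk
    rw [← hBspan, ← finrank_span_eq_card hBli, Subtype.range_coe]
  obtain ⟨e⟩ : Nonempty (Fin (n - k) ↪ B) :=
    Function.Embedding.nonempty_of_card_le (by rw [Fintype.card_fin, hcard]; exact hrk)
  have hch : ∀ j : Fin (n - k), ∃ f ∈ F, prfGrad f x = (e j : Fin n → ℂ) := fun j => by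
    obtain ⟨f, hf, he⟩ := hBS (e j).2
    exact ⟨f, hf, he⟩
  choose f hfF hfe using hch
  have hJ : LinearIndependent ℂ (fun j => fun i => eval x (pderiv i (f j))) := by
    have h1 : (fun j => fun i => eval x (pderiv i (f j))) = (Subtype.val : B → Fin n → ℂ) ∘ e := by
      funext j
      exact hfe j
    rw [h1]
    exact hBli.comp e e.injective
  have hfx : ∀ j, eval x (f j) = 0 := fun j => hz hx (hF _ (hfF j))
  obtain ⟨p₀, hp₀, hxp₀, huniq, hloc, hdim, -⟩ := ph_jac f x hfx hJ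
  rw [Fintype.card_fin] at hdim
  have key : ∀ q : Ideal (PrfPol n), q.IsPrime → vdim (zeroLocus ℂ q) = k → (∀ f ∈ F, f ∈ q) →
      x ∈ zeroLocus ℂ q → q = p₀ := by
    intro q hq hqk hqF hxq
    have hle : Ideal.span (Set.range f) ≤ q := Ideal.span_le.2 (by
      rintro _ ⟨j, rfl⟩
      exact hqF _ (hfF j))
    obtain ⟨p₁, hp₁, hp₁q⟩ := Ideal.exists_minimalPrimes_le hle
    have h1 : p₁ = p₀ := huniq p₁ hp₁ (zeroLocus_anti_mono hp₁q hxq)
    rw [h1] at hp₁q
    by_contra hne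
    have hlt : p₀ < q := lt_of_le_of_ne hp₁q (Ne.symm hne)
    have := prf_dim_lt p₀ q hp₀.1.1 hq hlt
    omega
  have hpp₀ : p = p₀ := key p hp hk hF hx
  refine ⟨fun q hq hqk hqF hxq => (key q hq hqk hqF hxq).trans hpp₀.symm, ?_⟩
  intro g hg
  have hgx : eval x g = 0 := hz hx hg
  rw [hpp₀] at hg
  obtain ⟨w, hw, hwg⟩ := hloc g hg
  obtain ⟨a, ha⟩ := ph_grad_span f x hfx _ hwg
  have hsum : prfGrad g x = ∑ j, ((eval x w)⁻¹ * a j) • prfGrad (f j) x := by
    funext i
    have h1 := ha i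
    rw [Derivation.leibniz, smul_eq_mul, smul_eq_mul, map_add, map_mul, map_mul, hgx, zero_mul, add_zero] at h1
    simp only [prfGrad, Finset.sum_apply, Pi.smul_apply, smul_eq_mul]
    calc eval x (pderiv i g) = (eval x w)⁻¹ * (eval x w * eval x (pderiv i g)) := by
          rw [← mul_assoc, inv_mul_cancel₀ hw, one_mul]
      _ = (eval x w)⁻¹ * ∑ j, a j * eval x (pderiv i (f j)) := by rw [h1]
      _ = ∑ j, (eval x w)⁻¹ * a j * eval x (pderiv i (f j)) := by
          rw [Finset.mul_sum]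
          exact Finset.sum_congr rfl fun j _ => by ring
  rw [hsum]
  exact Submodule.sum_mem _ fun j _ => Submodule.smul_mem _ _ (Submodule.subset_span ⟨f j, hfF j, rfl⟩)

end Claimed.Agent.R273
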