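import Claimed.Agent.R273.CnDefs
import Claimed.Agent.R273.PrfFacts
import Claimed.Agent.R273.RkMap

/-!
# Row 273, App A, package CN-REG: regular equations of controlled degree (`conc:regularity`) as a COROLLARY of `prf_reg` (= `poly:regularity`, helper161).  Architect helper69.
The local algebra of the paper's proof of `conc:regularity` (lengths, Cohen-Macaulay, adic orders) is NOT needed.

## Over `Fin n` (`cn_reg_fin`)
`V = zeroLocus p`, `p ∈ minimalPrimes (span G)`, `deg G ≤ L`, `k = vdim V`.  Let `Cn` be the constant of `prf_reg n`.  Apply it with `ν = Unit`, `s = {()}`, `𝒜 = {p}`, `D := Cn * L + 1`: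
`F`, `g`, `ℰ ⊆ {p}` with `prfDeg ℰ * D ≤ Cn * prfDeg {p} * L`.  If `p ∈ ℰ` then `ℰ = {p}` and `vdeg V * (Cn L + 1) ≤ Cn * vdeg V * L`, impossible (`prf_deg_pos`).  So `g ∉ p`; by the Nullstellensatz (`p` prime: `IsPrime.vanishingIdeal_zeroLocus`) there is
`x ∈ V` with `g x ≠ 0`; there `n - k ≤ prfJacRk F x`, i.e. the gradients at `x` of the members of `F` span a space of dimension `≥ c = n - k`; choose `c` members with independent gradients
(`exists_linearIndependent` / `Submodule.finrank_span..`: a spanning set of a space of dimension `≥ c` contains `c` independent vectors; `LinearIndependent` subfamily of size exactly `c` via `Fin c ↪`).  Degrees `≤ Cn L + 1 ≤ (Cn + 1) L`.  New constant `Cn + 1`.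

## Transport to an arbitrary index type (`cn_reg`)
`e : ι ≃ Fin n` (`Fintype.equivFin`), `ρ := rename e : MvPolynomial ι ℂ ≃ₐ MvPolynomial (Fin n) ℂ` (`renameEquiv`), `τ x := x ∘ e.symm`.  `eval (τ x) (ρ f) = eval x f` (`eval_rename`), `totalDegree (ρ f) = totalDegree f` (`totalDegree_rename_of_injective`), `pderiv (e i) (ρ f) = ρ (pderiv i f)` (`pderiv_rename`, injective),
`hA (τ '' T) D = hA T D` (`rk_hA_map_eq`, `τ` linear injective), so `vdim`, `vdeg` are preserved (they only depend on `hA T ·`); `IsCompOf (τ '' V) (ρ '' G)`: `Ideal.map ρ` is an order isomorphism of ideals preserving primes, `span (ρ '' G) = map ρ (span G)`, `zeroLocus (map ρ p) = τ '' zeroLocus p`.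
-/

set_option autoImplicit false

namespace Claimed.Agent.R273

open MvPolynomial Module

/-- (REG) for every finite index type, directly from `prfr_reg_var` -/
theorem cn_reg_gen (ι : Type) [Fintype ι] : CnReg ι := by
  classical
  obtain ⟨Cn, hCn, H⟩ := prfr_reg_var ι
  refine ⟨Cn + 1, by omega, ?_⟩
  intro V G L hL hG hV c hc
  have hVar : IsVar V := by
    obtain ⟨p, hp, hVp⟩ := hV
    exact ⟨p, hp.1.1, hVp⟩
  obtain ⟨ℱ, g, ℰ, h1, h2, -, h4, h5, h6⟩ := H G L hL hG (vdim V) {V}
    (by intro W hW; rw [Finset.mem_singleton] at hW; subst hW; exact ⟨hV, rfl⟩) (Cn * L + 1) (by omega)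
  have hVE : V ∉ ℰ := by
    intro hVE
    have hE : ℰ = {V} := by
      apply Finset.Subset.antisymm h1
      intro W hW
      rw [Finset.mem_singleton] at hW
      subst hW
      exact hVE
    rw [hE, Finset.sum_singleton] at h4
    have := ph_vdeg_pos V hVar
    nlinarith
  obtain ⟨x, hxV, hxg⟩ := h5 V (Finset.mem_singleton_self V) hVE
  have hrk := h6 x hxg
  have hc' : c = Fintype.card ι - vdim V := by omega
  rw [← hc'] at hrk
  obtain ⟨φ, cc, hφ, hdet⟩ := prfr_exists_minor (fun (f : MvPolynomial ι ℂ) => fun i => eval x (pderiv i f))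
    (ℱ : Set (MvPolynomial ι ℂ)) hrk
  refine ⟨φ, fun i => ?_, fun i y hy => ?_, x, hxV, ?_⟩
  · have := (h2 (φ i) (hφ i)).1
    nlinarith
  · exact (h2 (φ i) (hφ i)).2 V (Finset.mem_singleton_self V) y hy
  · have hli := Matrix.linearIndependent_rows_of_det_ne_zero hdet
    exact LinearIndependent.of_comp (LinearMap.funLeft ℂ ℂ cc) hli

theorem cn_reg_fin (n : ℕ) : CnReg (Fin n) := by
  exact cn_reg_gen (Fin n)

section transport

variable {ι κ : Type} [Fintype ι] [Fintype κ] (e : ι ≃ κ)

/-- relabelling of the coordinates -/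
def cnRe (x : ι → ℂ) : κ → ℂ := fun j => x (e.symm j)

theorem cn_re_eval (x : ι → ℂ) (f : MvPolynomial ι ℂ) : eval (cnRe e x) (rename e f) = eval x f := by
  rw [eval_rename]
  congr 2
  funext i
  simp [cnRe]

theorem cn_re_hA (T : Set (ι → ℂ)) (D : ℕ) : hA (cnRe e '' T) D = hA T D := by
  have h := rk_hA_map_eq (LinearMap.funLeft ℂ ℂ e.symm)
    (LinearMap.funLeft_injective_of_surjective ℂ ℂ e.symm e.symm.surjective) 0 T D
  simp only [add_zero] at h
  exact h

theorem cn_re_vdim (T : Set (ι → ℂ)) : vdim (cnRe e '' T) = vdim T := by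
  unfold vdim
  simp only [cn_re_hA]

theorem cn_re_isCompOf {V : Set (ι → ℂ)} {G : Set (MvPolynomial ι ℂ)} (h : IsCompOf V G) :
    IsCompOf (cnRe e '' V) (rename e '' G) := by
  obtain ⟨p, hp, rfl⟩ := h
  have hsurj : Function.Surjective ((rename e.symm : MvPolynomial κ ℂ →ₐ[ℂ] MvPolynomial ι ℂ) : MvPolynomial κ ℂ →+* MvPolynomial ι ℂ) := by
    intro f
    exact ⟨rename e f, by simp [rename_rename]⟩
  have hrr : ∀ f : MvPolynomial κ ℂ, rename e (rename e.symm f) = f := by
    intro f
    simp [rename_rename]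
  have hrr' : ∀ f : MvPolynomial ι ℂ, rename e.symm (rename e f) = f := by
    intro f
    simp [rename_rename]
  have hq := Ideal.minimalPrimes_comap_of_surjective hsurj hp
  have hspan : (Ideal.span G).comap ((rename e.symm : MvPolynomial κ ℂ →ₐ[ℂ] MvPolynomial ι ℂ) : MvPolynomial κ ℂ →+* MvPolynomial ι ℂ)
      = Ideal.span (rename e '' G) := by
    apply le_antisymm
    · intro f hf
      rw [Ideal.mem_comap] at hf
      have h1 : Ideal.span G ≤ (Ideal.span (rename e '' G)).comap
          ((rename e : MvPolynomial ι ℂ →ₐ[ℂ] MvPolynomial κ ℂ) : MvPolynomial ι ℂ →+* MvPolynomial κ ℂ) := by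
        rw [Ideal.span_le]
        intro g hg
        exact Ideal.subset_span ⟨g, hg, rfl⟩
      have h2 := h1 hf
      rw [Ideal.mem_comap] at h2
      simpa [hrr] using h2
    · rw [Ideal.span_le]
      rintro _ ⟨g, hg, rfl⟩
      change _ ∈ Ideal.span G
      simpa [hrr'] using Ideal.subset_span hg
  rw [hspan] at hq
  refine ⟨_, hq, ?_⟩
  ext y
  simp only [Set.mem_image, mem_zeroLocus_iff, Ideal.mem_comap]
  constructor
  · rintro ⟨x, hx, rfl⟩ f hf
    have := hx _ hf
    have h4 := cn_re_eval e x (rename e.symm f)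
    rw [hrr f] at h4
    rw [aeval_eq_eval] at this ⊢
    change eval (cnRe e x) f = 0
    rw [h4]
    exact this
  · intro hy
    refine ⟨cnRe e.symm y, fun f hf => ?_, ?_⟩
    · have := hy (rename e f) (by simpa [hrr'] using hf)
      have h3 : cnRe e (cnRe e.symm y) = y := by
        funext j
        simp [cnRe]
      rw [← h3] at this
      simpa [aeval_eq_eval, cn_re_eval] using this
    · funext j
      simp [cnRe]

include e in
theorem cn_reg_transport (h : CnReg κ) : CnReg ι := by
  exact cn_reg_gen ι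

end transport

theorem cn_reg (ι : Type) [Fintype ι] : CnReg ι :=
  cn_reg_transport (Fintype.equivFin ι) (cn_reg_fin _)

end Claimed.Agent.R273
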