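import Claimed.Agent.R273.CnRulB

/-!
# Row 273, App A, block LOW: top of the unit RUL.  `CnRulStmt r` from the case `c ≥ 2` (`cn_rul_ge2`, CnRulA.lean) and the case `c = 1` (CnRulB*.lean, helper69).
-/

set_option autoImplicit false

namespace Claimed.Agent.R273

open MvPolynomial

/-- from the output format `CnRulOut` to the format of `CnRulStmt` -/
theorem cn_rul_of_cases {r : ℕ} (C1 κ1 : ℕ)
    (h1 : ∀ (h D : ℕ) (V : Set (CnI r → ℂ)) (g : Fin 1 → MvPolynomial (CnI r) ℂ),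
      CnCar r h 1 D V g → ∃ H : MvPolynomial (CnI r) ℂ, H.totalDegree ≤ C1 * D ∧ CnRulOut r V h κ1 H) :
    CnRulStmt r := by
  refine ⟨C1 + κ1 + 13 + r, ?_⟩
  intro h c D V g hcar
  have key : ∃ H : MvPolynomial (CnI r) ℂ, H.totalDegree ≤ (C1 + κ1 + 13 + r) * D ∧
      CnRulOut r V h (C1 + κ1 + 13 + r) H := by
    rcases Nat.lt_or_ge c 2 with hc | hc
    · have hc1 : c = 1 := by have := hcar.hc; omega
      subst hc1
      obtain ⟨H, hH, hO⟩ := h1 h D V g hcar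
      exact ⟨H, hH.trans (Nat.mul_le_mul_right D (by omega)), cn_rulOut_mono (by omega) hO⟩
    · obtain ⟨H, hH, hO⟩ := cn_rul_ge2 hcar hc
      exact ⟨H, hH.trans (Nat.mul_le_mul_right D (by omega)), cn_rulOut_mono (by omega) hO⟩
  obtain ⟨H, hH, hne, 𝒴, hcard, hY, hcov⟩ := key
  exact ⟨H, 𝒴, hH, hne, hcard, hY, hcov⟩

theorem cn_rul {r : ℕ} (_hr : 2 ≤ r) : CnRulStmt r :=
  cn_rul_of_cases (40 + r) 2 fun _ _ _ _ hcar => cn_rul_eq1 hcar

end Claimed.Agent.R273
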