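import Claimed.Agent.R273.CnTerm

/-!
# Row 273, App A, block LOW, unit RUL, file 3: RATIONAL CANDIDATES (`cn_rat`) and the case `c ≥ 2` (`cn_rul_ge2`).  Architect helper120.  Prefix `cn`.

**(RAT)** `m, N_1..N_r ∈ ℂ[Z,x]` of degree `≤ K D`, `m ≢ 0` on `V`, and `m(z) v_μ = N(z)` for every flat `Φ_μ ⊆ V` and every `z ∈ Φ_μ` ("the vector of a flat of `V` through `z` is `N(z)/m(z)`").
`X^ := cnLie (cnHat m N W)` (the field `(mW, -WN)`), `E_j := m~ v_j - N~_j` (`cnRatE`).  TESTS (polynomials on the chart, for every `W ∈ ℂ^(CnSk r)`):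
  `T0_{W,i} := X^ g_i`,   `T1_{W,j} := (X^ m) N_j - m (X^ N_j)`.
They vanish on every flat of `V` (`cn_rat_test_flat`).  If one of them is `≢ 0` on `V`: `H :=` this test, no flat of `V` meets `{H ≠ 0}` (`cn_excl`).
If all vanish on `V`: `cn_term_fin` with `E`, `H := m J0` (`J0` = a `c × c` minor of the Jacobian of `g`, `cn_exists_J0`), `κ = 1`.

**`c ≥ 2`**: `ξ^i = ∇_x g_i`, `A^i` = skew extension of `∂g_i/∂Z`; on a flat `A^i = ξ^i ∧ v` (`cn_tangent`).  If all `2 × 2` minors `ξ^i_a ξ^{i'}_b - ξ^i_b ξ^{i'}_a` vanish on `V`, then `J0` vanishes on all flats of `V` (`cn_ge2_excl`).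
Otherwise `m₂ :=` such a minor `≢ 0`, and `m₂² v_j = cnCand .. j` on the flats (`cn_ge2_cand`): (RAT) with `K = 4`.
-/

set_option autoImplicit false

namespace Claimed.Agent.R273

open MvPolynomial Module

variable {r : ℕ}

/-- the equations `m v_j - N_j` of the graph of the rational candidate -/
noncomputable def cnRatE (m : MvPolynomial (CnI r) ℂ) (N : Fin r → MvPolynomial (CnI r) ℂ) (j : Fin r) :
    MvPolynomial (CnJ r) ℂ :=
  rename Sum.inl m * X (Sum.inr j) - rename Sum.inl (N j)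

/-- the first order test -/
noncomputable def cnRatT (m : MvPolynomial (CnI r) ℂ) (N : Fin r → MvPolynomial (CnI r) ℂ)
    (W : CnSk r → ℂ) (j : Fin r) : MvPolynomial (CnI r) ℂ :=
  cnLie (cnHat m N W) m * N j - m * cnLie (cnHat m N W) (N j)

/-! ### LEAF CN-RAT-A: the Jacobian minor, constraints, tests on the flats, degrees -/

/-- PLAN: `cn_exists_minor` at the regular point; `J0 := det (pderiv (e j) (g i))`; `eval z (det M) = det (eval z ∘ M)` (`RingHom.map_det`); `cn_det_degree` (`totalDegree_pderiv_le`); `cn_indep_of_minor`. -/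
theorem cn_exists_J0 {h c D : ℕ} {V : Set (CnI r → ℂ)} {g : Fin c → MvPolynomial (CnI r) ℂ}
    (hcar : CnCar r h c D V g) :
    ∃ J0 : MvPolynomial (CnI r) ℂ, J0.totalDegree ≤ c * D ∧ (∃ z ∈ V, eval z J0 ≠ 0) ∧
      ∀ z, eval z J0 ≠ 0 → LinearIndependent ℂ (fun i => fun j => eval z (pderiv j (g i))) := by
  obtain ⟨z0, hz0, hind⟩ := hcar.reg
  obtain ⟨e, he⟩ := cn_exists_minor (fun i j => eval z0 (pderiv j (g i))) hind
  have key : ∀ z : CnI r → ℂ, eval z (Matrix.of fun i j => pderiv (e j) (g i)).det =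
      (Matrix.of fun i j => eval z (pderiv (e j) (g i))).det := by
    intro z
    rw [RingHom.map_det]
    rfl
  refine ⟨(Matrix.of fun i j => pderiv (e j) (g i)).det,
    cn_det_degree _ D (fun i j => (cn_pderiv_degree _ _).trans (hcar.deg i)),
    ⟨z0, hz0, by rw [key]; exact he⟩, fun z hz => ?_⟩
  rw [key] at hz
  exact cn_indep_of_minor (fun i j => eval z (pderiv j (g i))) e hz

theorem cn_eval_ratE (m : MvPolynomial (CnI r) ℂ) (N : Fin r → MvPolynomial (CnI r) ℂ) (j : Fin r)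
    (σ : CnJ r → ℂ) :
    eval σ (cnRatE m N j) = eval (cnJz σ) m * cnJv σ j - eval (cnJz σ) (N j) := by
  unfold cnRatE
  rw [map_sub, map_mul, eval_rename, eval_rename, eval_X]
  rfl

theorem cn_rat_con {V : Set (CnI r → ℂ)} (m : MvPolynomial (CnI r) ℂ)
    (N : Fin r → MvPolynomial (CnI r) ℂ)
    (hcon : ∀ μ, cnFlat μ ⊆ V → ∀ z ∈ cnFlat μ, ∀ j, eval z m * cnV μ j = eval z (N j)) (j : Fin r) :
    CnCon V (cnRatE m N j) := by
  intro μ hμ Z
  rw [cn_eval_ratE, cn_Jz_lift, cn_Jv_lift, hcon μ hμ _ (cn_gr_mem μ Z) j, sub_self]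

/-- `T0` vanishes on the flats of `V`: `cn_flat_hat` for `f = g` -/
theorem cn_rat_test0_flat {V : Set (CnI r → ℂ)} (m : MvPolynomial (CnI r) ℂ)
    (N : Fin r → MvPolynomial (CnI r) ℂ)
    (hcon : ∀ μ, cnFlat μ ⊆ V → ∀ z ∈ cnFlat μ, ∀ j, eval z m * cnV μ j = eval z (N j))
    (f : MvPolynomial (CnI r) ℂ) (hf : ∀ z ∈ V, eval z f = 0) (W : CnSk r → ℂ) :
    ∀ μ, cnFlat μ ⊆ V → ∀ z ∈ cnFlat μ, eval z (cnLie (cnHat m N W) f) = 0 := by
  intro μ hμ z hz
  exact cn_flat_hat μ f (fun z hz => hf z (hμ hz)) m N W z hz (hcon μ hμ z hz)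

/-- `T1` vanishes on the flats of `V`: `cn_flat_hat` for `f = m * C (v_j) - N_j` (which vanishes on `Φ_μ`) gives `v_j (X^ m)(z) = (X^ N_j)(z)` (`cn_lie_sub`, `cn_lie_mul`, `cn_lie_C`); multiply by `m(z)` and use `m(z) v_j = N_j(z)`. -/
theorem cn_rat_test1_flat {V : Set (CnI r → ℂ)} (m : MvPolynomial (CnI r) ℂ)
    (N : Fin r → MvPolynomial (CnI r) ℂ)
    (hcon : ∀ μ, cnFlat μ ⊆ V → ∀ z ∈ cnFlat μ, ∀ j, eval z m * cnV μ j = eval z (N j))
    (W : CnSk r → ℂ) (j : Fin r) :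
    ∀ μ, cnFlat μ ⊆ V → ∀ z ∈ cnFlat μ, eval z (cnRatT m N W j) = 0 := by
  intro μ hμ z hz
  have h1 := cn_flat_hat μ (m * C (cnV μ j) - N j)
    (fun z hz => by rw [map_sub, map_mul, eval_C, hcon μ hμ z hz j, sub_self]) m N W z hz
    (hcon μ hμ z hz)
  rw [cn_lie_sub, cn_lie_mul, cn_lie_C, mul_zero, zero_add, map_sub, map_mul, eval_C] at h1
  have h2 := hcon μ hμ z hz j
  unfold cnRatT
  rw [map_sub, map_mul, map_mul, ← h2]
  linear_combination eval z m * h1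

/-- `cn_lie_degree`, `cn_hat_degree` -/
theorem cn_rat_deg0 (m : MvPolynomial (CnI r) ℂ) (N : Fin r → MvPolynomial (CnI r) ℂ) (a b : ℕ)
    (hm : m.totalDegree ≤ a) (hN : ∀ j, (N j).totalDegree ≤ a) (f : MvPolynomial (CnI r) ℂ)
    (hf : f.totalDegree ≤ b) (W : CnSk r → ℂ) : (cnLie (cnHat m N W) f).totalDegree ≤ a + b := by
  exact (cn_lie_degree (cnHat m N W) a (cn_hat_degree m N W a hm hN) f).trans (Nat.add_le_add_left hf a)

theorem cn_rat_deg1 (m : MvPolynomial (CnI r) ℂ) (N : Fin r → MvPolynomial (CnI r) ℂ) (a : ℕ)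
    (hm : m.totalDegree ≤ a) (hN : ∀ j, (N j).totalDegree ≤ a) (W : CnSk r → ℂ) (j : Fin r) :
    (cnRatT m N W j).totalDegree ≤ 3 * a := by
  unfold cnRatT
  refine (totalDegree_sub _ _).trans (max_le ?_ ?_)
  · refine (totalDegree_mul _ _).trans ?_
    have := cn_rat_deg0 m N a a hm hN m hm W
    have := hN j
    omega
  · refine (totalDegree_mul _ _).trans ?_
    have := cn_rat_deg0 m N a a hm hN (N j) (hN j) W
    omega

/-! ### LEAF CN-RAT-B: (reg), (test), (few) at the good points of the graph -/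

/-- the differential of a polynomial in `z` only, in a direction with zero `z`-part -/
theorem cn_ratb_dAt_rename (f : MvPolynomial (CnI r) ℂ) (σ u : CnJ r → ℂ)
    (hu : ∀ i, u (Sum.inl i) = 0) : dAt (rename Sum.inl f) σ u = 0 := by
  classical
  unfold dAt
  rw [Fintype.sum_sum_type]
  have h2 : ∀ k : Fin r, pderiv (Sum.inr k : CnJ r) (rename Sum.inl f) = 0 := by
    intro k
    apply pderiv_eq_zero_of_notMem_vars
    intro hk
    have := vars_rename (Sum.inl : CnI r → CnJ r) f hk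
    simp at this
  simp only [hu, h2, map_zero, zero_mul, mul_zero, Finset.sum_const_zero, add_zero]

theorem cn_ratb_aeval_rename (f : MvPolynomial (CnI r) ℂ) (σ : CnJ r → ℂ) :
    aeval σ (rename Sum.inl f) = eval (cnJz σ) f := by
  rw [aeval_rename]
  rfl

/-- (reg).  PLAN: `cn_reg_crit` with `s = ∅`.  `hinj`: `u` tangent, `u ∘ inl = 0`; `dAt (cnRatE m N j) σ u = m(z) u (inr j) + (terms in u ∘ inl)` (`ph_dAt_mul`, `ph_dAt_X`, and `dAt (rename inl f) σ u = dAt f z (u ∘ inl)`), so `u (inr j) = 0`. -/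
theorem cn_rat_reg {c : ℕ} (g : Fin c → MvPolynomial (CnI r) ℂ) (m : MvPolynomial (CnI r) ℂ)
    (N : Fin r → MvPolynomial (CnI r) ℂ) (σ : CnJ r → ℂ) (hm : eval (cnJz σ) m ≠ 0)
    (hind : LinearIndependent ℂ (fun i => fun j => eval (cnJz σ) (pderiv j (g i)))) :
    finrank ℂ (tanSp (Ideal.span (cnSysJ g (cnRatE m N))) σ) + c ≤ r.choose 2 + r := by
  have key := cn_reg_crit g (cnRatE m N) σ hind ∅ ?_
  · simpa using key
  intro u hu hu0 _
  funext k
  rcases k with i | j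
  · exact hu0 i
  · have h1 : dAt (cnRatE m N j) σ u = 0 := hu _ (Ideal.subset_span (Or.inr ⟨j, rfl⟩))
    have h2 : dAt (cnRatE m N j) σ u
        = dAt (rename Sum.inl m * X (Sum.inr j)) σ u - dAt (rename Sum.inl (N j)) σ u := by
      simp only [cnRatE, dAt, map_sub, sub_mul, Finset.sum_sub_distrib]
    rw [h2, ph_dAt_mul, ph_dAt_X, cn_ratb_dAt_rename m σ u hu0, cn_ratb_dAt_rename (N j) σ u hu0,
      cn_ratb_aeval_rename, mul_zero, add_zero, sub_zero] at h1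
    exact (mul_eq_zero.1 h1).resolve_left hm

/-- (test).  PLAN: `z = cnJz σ`, `m(z) v = N(z)` (from `E_j(σ) = 0`, `cn_eval_ratE`).  For `f = g~_i`: `cn_hat_eval`: `0 = T0(z) = m(z) (δ_W g~_i)(σ)`.
For `f = E_j`: `δ_W E_j = v_j δ_W m~ - δ_W N~_j` (`cn_lie_sub`, `cn_lie_mul`, `cn_lie_X`, `cnFld W (inr j) = 0`); `m(z)^2 (δ_W E_j)(σ) = N_j(z) (X^ m)(z) - m(z) (X^ N_j)(z) = T1(z) = 0`. -/
theorem cn_rat_test {c : ℕ} {V : Set (CnI r → ℂ)} (g : Fin c → MvPolynomial (CnI r) ℂ)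
    (m : MvPolynomial (CnI r) ℂ) (N : Fin r → MvPolynomial (CnI r) ℂ)
    (h0 : ∀ W i, ∀ z ∈ V, eval z (cnLie (cnHat m N W) (g i)) = 0)
    (h1 : ∀ W j, ∀ z ∈ V, eval z (cnRatT m N W j) = 0)
    (σ : CnJ r → ℂ) (hσV : cnJz σ ∈ V) (hσE : ∀ j, eval σ (cnRatE m N j) = 0)
    (hm : eval (cnJz σ) m ≠ 0) (W : CnSk r → ℂ) :
    ∀ f ∈ cnSysJ g (cnRatE m N), eval σ (cnLie (cnFld W) f) = 0 := by
  have hv : ∀ j, eval (cnJz σ) m * cnJv σ j = eval (cnJz σ) (N j) := by
    intro j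
    have := hσE j
    rw [cn_eval_ratE] at this
    exact sub_eq_zero.1 this
  rintro f (⟨i, rfl⟩ | ⟨j, rfl⟩)
  · have h2 := cn_hat_eval m N W (g i) σ hv
    rw [h0 W i _ hσV] at h2
    exact (mul_eq_zero.1 h2.symm).resolve_left hm
  · have hA := cn_hat_eval m N W m σ hv
    have hB := cn_hat_eval m N W (N j) σ hv
    have hT := h1 W j _ hσV
    simp only [cnRatT, map_sub, map_mul] at hT
    rw [hA, hB, ← hv j] at hT
    have hE : eval σ (cnLie (cnFld W) (cnRatE m N j))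
        = cnJv σ j * eval σ (cnLie (cnFld W) (rename Sum.inl m))
          - eval σ (cnLie (cnFld W) (rename Sum.inl (N j))) := by
      simp only [cnRatE]
      rw [cn_lie_sub, cn_lie_mul, cn_lie_X, map_sub, map_add, map_mul, map_mul, cn_eval_fld_v,
        mul_zero, zero_add, eval_X]
      rfl
    rw [hE]
    have h3 : eval (cnJz σ) m ^ 2 * (cnJv σ j * eval σ (cnLie (cnFld W) (rename Sum.inl m))
          - eval σ (cnLie (cnFld W) (rename Sum.inl (N j)))) = 0 := by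
      rw [← hT]
      ring
    exact (mul_eq_zero.1 h3).resolve_left (pow_ne_zero 2 hm)

/-- (few): `v = N(z)/m(z)` -/
theorem cn_rat_few (m : MvPolynomial (CnI r) ℂ) (N : Fin r → MvPolynomial (CnI r) ℂ)
    (z : CnI r → ℂ) (hm : eval z m ≠ 0) (S : Finset (Fin r → ℂ))
    (hS : ∀ v ∈ S, ∀ j, eval (Sum.elim z v : CnJ r → ℂ) (cnRatE m N j) = 0) : S.card ≤ 1 := by
  have hv : ∀ v ∈ S, ∀ j, eval z m * v j = eval z (N j) := by
    intro v hv j
    have := hS v hv j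
    rw [cn_eval_ratE] at this
    exact sub_eq_zero.1 this
  rw [Finset.card_le_one]
  intro a ha b hb
  funext j
  exact mul_left_cancel₀ hm ((hv a ha j).trans (hv b hb j).symm)

/-! ### (RAT): glue -/

theorem cn_rat {h c D K : ℕ} {V : Set (CnI r → ℂ)} {g : Fin c → MvPolynomial (CnI r) ℂ}
    (hcar : CnCar r h c D V g) (m : MvPolynomial (CnI r) ℂ) (N : Fin r → MvPolynomial (CnI r) ℂ)
    (hm : m.totalDegree ≤ K * D) (hN : ∀ j, (N j).totalDegree ≤ K * D)
    (hm0 : ∃ z ∈ V, eval z m ≠ 0)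
    (hcon : ∀ μ, cnFlat μ ⊆ V → ∀ z ∈ cnFlat μ, ∀ j, eval z m * cnV μ j = eval z (N j)) :
    ∃ H : MvPolynomial (CnI r) ℂ, H.totalDegree ≤ (3 * K + r + 1) * D ∧ CnRulOut r V h 1 H := by
  classical
  by_cases h0 : ∀ W i, ∀ z ∈ V, eval z (cnLie (cnHat m N W) (g i)) = 0
  swap
  · push Not at h0
    obtain ⟨W, i, z, hz, hne⟩ := h0
    refine ⟨cnLie (cnHat m N W) (g i), ?_, cn_excl h 1 _ ⟨z, hz, hne⟩
      (cn_rat_test0_flat m N hcon (g i) (hcar.van i) W)⟩
    refine (cn_rat_deg0 m N (K * D) D hm hN (g i) (hcar.deg i) W).trans ?_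
    nlinarith [Nat.zero_le (K * D), Nat.zero_le (r * D)]
  by_cases h1 : ∀ W j, ∀ z ∈ V, eval z (cnRatT m N W j) = 0
  swap
  · push Not at h1
    obtain ⟨W, j, z, hz, hne⟩ := h1
    refine ⟨cnRatT m N W j, ?_, cn_excl h 1 _ ⟨z, hz, hne⟩ (cn_rat_test1_flat m N hcon W j)⟩
    refine (cn_rat_deg1 m N (K * D) hm hN W j).trans ?_
    nlinarith [Nat.zero_le (K * D), Nat.zero_le (r * D), Nat.zero_le D]
  obtain ⟨J0, hJdeg, hJne, hJind⟩ := cn_exists_J0 hcar
  have hHne : ∃ z ∈ V, eval z (m * J0) ≠ 0 := by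
    by_contra hcon'
    push Not at hcon'
    rcases ph_isVar_mul hcar.isVar m J0 hcon' with h2 | h2
    · obtain ⟨z, hz, hne⟩ := hm0
      exact hne (h2 z hz)
    · obtain ⟨z, hz, hne⟩ := hJne
      exact hne (h2 z hz)
  have hgood : ∀ σ, CnGood V (cnRatE m N) (m * J0) σ →
      eval (cnJz σ) m ≠ 0 ∧ eval (cnJz σ) J0 ≠ 0 := by
    intro σ hσ
    have := hσ.2.2
    rw [map_mul] at this
    exact ⟨left_ne_zero_of_mul this, right_ne_zero_of_mul this⟩
  refine ⟨m * J0, ?_, cn_term_fin hcar.isVar hcar.dim (m * J0) hHne g hcar.van (cnRatE m N)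
    (cn_rat_con m N hcon) (Fintype.card_fin r) ?_ ?_ ?_⟩
  · refine (totalDegree_mul _ _).trans ?_
    have hcr : c ≤ r := by have := hcar.hsum; omega
    have : c * D ≤ r * D := Nat.mul_le_mul_right D hcr
    nlinarith [Nat.zero_le (K * D), Nat.zero_le D]
  · intro σ hσ
    have := cn_rat_reg g m N σ (hgood σ hσ).1 (hJind _ (hgood σ hσ).2)
    have := hcar.hsum
    omega
  · intro σ hσ W
    exact cn_rat_test g m N h0 h1 σ hσ.1 hσ.2.1 (hgood σ hσ).1 W
  · intro z S hS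
    rcases S.eq_empty_or_nonempty with rfl | ⟨v, hv⟩
    · simp
    · exact cn_rat_few m N z (hgood _ (hS v hv)).1 S fun v hv => (hS v hv).2.1

/-! ### LEAF CN-RAT-C: the case `c ≥ 2` -/

/-- the `2 × 2` minor `ξ_a η_b - ξ_b η_a`, `ξ = ∇_x f`, `η = ∇_x f'` -/
noncomputable def cnMin2 (f f' : MvPolynomial (CnI r) ℂ) (a b : Fin r) : MvPolynomial (CnI r) ℂ :=
  pderiv (Sum.inr a) f * pderiv (Sum.inr b) f' - pderiv (Sum.inr b) f * pderiv (Sum.inr a) f'

/-- the numerator of the candidate: `m₂ (η_b A_aj - ξ_b B_aj) + (η_b ξ_j - ξ_b η_j)(η_a A_ab - ξ_a B_ab)` -/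
noncomputable def cnCand (f f' : MvPolynomial (CnI r) ℂ) (a b j : Fin r) : MvPolynomial (CnI r) ℂ :=
  cnMin2 f f' a b *
      (pderiv (Sum.inr b) f' * cnSkw (fun q => pderiv (Sum.inl q) f) a j
        - pderiv (Sum.inr b) f * cnSkw (fun q => pderiv (Sum.inl q) f') a j)
    + (pderiv (Sum.inr b) f' * pderiv (Sum.inr j) f - pderiv (Sum.inr b) f * pderiv (Sum.inr j) f') *
      (pderiv (Sum.inr a) f' * cnSkw (fun q => pderiv (Sum.inl q) f) a b
        - pderiv (Sum.inr a) f * cnSkw (fun q => pderiv (Sum.inl q) f') a b)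

/-- PLAN: four instances of `cn_tangent` (`f`, `f'`; pairs `(a,j)`, `(a,b)`), then `simp only [cnCand, cnMin2, map_add, map_sub, map_mul, map_pow]`, rewrite, `ring`. -/
theorem cn_ge2_cand (f f' : MvPolynomial (CnI r) ℂ) (a b : Fin r) (μ : CnP r → ℂ)
    (hf : ∀ z ∈ cnFlat μ, eval z f = 0) (hf' : ∀ z ∈ cnFlat μ, eval z f' = 0)
    (z : CnI r → ℂ) (hz : z ∈ cnFlat μ) (j : Fin r) :
    eval z (cnMin2 f f' a b ^ 2) * cnV μ j = eval z (cnCand f f' a b j) := by
  have h1 := cn_tangent μ f hf z hz a j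
  have h2 := cn_tangent μ f' hf' z hz a j
  have h3 := cn_tangent μ f hf z hz a b
  have h4 := cn_tangent μ f' hf' z hz a b
  simp only [cnCand, cnMin2, map_add, map_sub, map_mul, map_pow]
  rw [h1, h2, h3, h4]
  ring

theorem cn_ge2_deg (f f' : MvPolynomial (CnI r) ℂ) (D : ℕ) (hf : f.totalDegree ≤ D)
    (hf' : f'.totalDegree ≤ D) (a b : Fin r) :
    (cnMin2 f f' a b ^ 2).totalDegree ≤ 4 * D ∧ ∀ j, (cnCand f f' a b j).totalDegree ≤ 4 * D := by
  have hp : ∀ k, (pderiv k f).totalDegree ≤ D := fun k => (cn_pderiv_degree f k).trans hf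
  have hp' : ∀ k, (pderiv k f').totalDegree ≤ D := fun k => (cn_pderiv_degree f' k).trans hf'
  have hs : ∀ i j, (cnSkw (fun q => pderiv (Sum.inl q) f) i j).totalDegree ≤ D :=
    fun i j => cn_skw_degree _ D (fun q => hp _) i j
  have hs' : ∀ i j, (cnSkw (fun q => pderiv (Sum.inl q) f') i j).totalDegree ≤ D :=
    fun i j => cn_skw_degree _ D (fun q => hp' _) i j
  have hmul : ∀ (p q : MvPolynomial (CnI r) ℂ) (x y : ℕ), p.totalDegree ≤ x → q.totalDegree ≤ y →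
      (p * q).totalDegree ≤ x + y := fun p q x y h1 h2 =>
    (totalDegree_mul p q).trans (add_le_add h1 h2)
  have hsub : ∀ (p q : MvPolynomial (CnI r) ℂ) (x : ℕ), p.totalDegree ≤ x → q.totalDegree ≤ x →
      (p - q).totalDegree ≤ x := fun p q x h1 h2 =>
    (totalDegree_sub p q).trans (max_le h1 h2)
  have hadd : ∀ (p q : MvPolynomial (CnI r) ℂ) (x : ℕ), p.totalDegree ≤ x → q.totalDegree ≤ x →
      (p + q).totalDegree ≤ x := fun p q x h1 h2 =>
    (totalDegree_add p q).trans (max_le h1 h2)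
  have hmin : (cnMin2 f f' a b).totalDegree ≤ D + D :=
    hsub _ _ _ (hmul _ _ _ _ (hp _) (hp' _)) (hmul _ _ _ _ (hp _) (hp' _))
  refine ⟨?_, fun j => ?_⟩
  · rw [pow_two]
    exact (hmul _ _ _ _ hmin hmin).trans (by omega)
  · have h4 : (D + D) + (D + D) ≤ 4 * D := by omega
    refine le_trans (hadd _ _ ((D + D) + (D + D)) ?_ ?_) h4
    · exact hmul _ _ _ _ hmin
        (hsub _ _ _ (hmul _ _ _ _ (hp' _) (hs _ _)) (hmul _ _ _ _ (hp _) (hs' _ _)))
    · exact hmul _ _ _ _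
        (hsub _ _ _ (hmul _ _ _ _ (hp' _) (hp _)) (hmul _ _ _ _ (hp _) (hp' _)))
        (hsub _ _ _ (hmul _ _ _ _ (hp' _) (hs _ _)) (hmul _ _ _ _ (hp _) (hs' _ _)))

/-- PLAN: let `z ∈ Φ_μ ⊆ V` and suppose the rows `dg_i(z)` are independent.  `ξ^i := ∇_x g_i(z)`.  Take the rows `i = 0, 1` (`2 ≤ c`).  There is `(λ_0, λ_1) ≠ 0` with `λ_0 ξ^0 + λ_1 ξ^1 = 0`: if `ξ^0 = 0` take `(1, 0)`; otherwise `ξ^0_a ≠ 0`, take `(- ξ^1_a, ξ^0_a)` and use the vanishing minors.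
By `cn_tangent` `λ_0 A^0 + λ_1 A^1 = (λ_0 ξ^0 + λ_1 ξ^1) ∧ v = 0`; for `q = (a,b)`, `a < b`: `cnSkw .. a b` is `∂/∂Z_q`.  So `λ_0 dg_0(z) + λ_1 dg_1(z) = 0`, contradiction (`LinearIndependent.pair_iff`-type via `linearIndependent_iff'` with the finset `{0, 1}`, or `Fintype.linearIndependent_iff`). -/
theorem cn_ge2_excl {h c D : ℕ} {V : Set (CnI r → ℂ)} {g : Fin c → MvPolynomial (CnI r) ℂ}
    (hcar : CnCar r h c D V g) (hc : 2 ≤ c)
    (hmin : ∀ i i' a b, ∀ z ∈ V, eval z (cnMin2 (g i) (g i') a b) = 0)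
    (μ : CnP r → ℂ) (hμ : cnFlat μ ⊆ V) (z : CnI r → ℂ) (hz : z ∈ cnFlat μ) :
    ¬ LinearIndependent ℂ (fun i => fun j => eval z (pderiv j (g i))) := by
  intro hli
  set i0 : Fin c := ⟨0, by omega⟩ with hi0
  set i1 : Fin c := ⟨1, by omega⟩ with hi1
  have hne : i0 ≠ i1 := by
    intro h
    have := congrArg Fin.val h
    simp [hi0, hi1] at this
  -- a relation between the `x`-gradients
  obtain ⟨l0, l1, hl, hrel⟩ : ∃ l0 l1 : ℂ, (l0 ≠ 0 ∨ l1 ≠ 0) ∧
      ∀ a : Fin r, l0 * eval z (pderiv (Sum.inr a) (g i0))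
        + l1 * eval z (pderiv (Sum.inr a) (g i1)) = 0 := by
    by_cases h0 : ∀ a : Fin r, eval z (pderiv (Sum.inr a) (g i0)) = 0
    · exact ⟨1, 0, Or.inl one_ne_zero, fun a => by rw [h0 a]; ring⟩
    · push Not at h0
      obtain ⟨a, ha⟩ := h0
      refine ⟨- eval z (pderiv (Sum.inr a) (g i1)), eval z (pderiv (Sum.inr a) (g i0)),
        Or.inr ha, fun b => ?_⟩
      have := hmin i0 i1 a b z (hμ hz)
      simp only [cnMin2, map_sub, map_mul] at this
      rw [← this]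
      ring
  -- the relation between the full gradients
  have hfull : l0 • (fun j => eval z (pderiv j (g i0))) + l1 • (fun j => eval z (pderiv j (g i1)))
      = 0 := by
    funext k
    simp only [Pi.add_apply, Pi.smul_apply, smul_eq_mul, Pi.zero_apply]
    rcases k with q | a
    · obtain ⟨⟨a, b⟩, hab⟩ := q
      have hsk : ∀ f : MvPolynomial (CnI r) ℂ,
          cnSkw (fun q => pderiv (Sum.inl q) f) a b = pderiv (Sum.inl ⟨(a, b), hab⟩) f := by
        intro f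
        have hab' : a < b := hab
        simp only [cnSkw, dif_pos hab']
      have h1 := cn_tangent μ (g i0) (fun z hz => hcar.van i0 z (hμ hz)) z hz a b
      have h2 := cn_tangent μ (g i1) (fun z hz => hcar.van i1 z (hμ hz)) z hz a b
      rw [hsk] at h1 h2
      rw [h1, h2]
      have ha := hrel a
      have hb := hrel b
      linear_combination cnV μ b * ha - cnV μ a * hb
    · exact hrel a
  have hpair : LinearIndependent ℂ
      ![(fun j => eval z (pderiv j (g i0))), (fun j => eval z (pderiv j (g i1)))] := by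
    have hinj : Function.Injective ![i0, i1] := by
      intro x y hxy
      fin_cases x <;> fin_cases y <;> simp_all
    have := hli.comp ![i0, i1] hinj
    convert this using 1
    funext x
    fin_cases x <;> rfl
  obtain ⟨e0, e1⟩ := LinearIndependent.pair_iff.1 hpair l0 l1 hfull
  rcases hl with h | h
  · exact h e0
  · exact h e1

/-! ### `c ≥ 2`: glue -/

theorem cn_rul_ge2 {h c D : ℕ} {V : Set (CnI r → ℂ)} {g : Fin c → MvPolynomial (CnI r) ℂ}
    (hcar : CnCar r h c D V g) (hc : 2 ≤ c) :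
    ∃ H : MvPolynomial (CnI r) ℂ, H.totalDegree ≤ (13 + r) * D ∧ CnRulOut r V h 1 H := by
  classical
  by_cases hmin : ∀ i i' a b, ∀ z ∈ V, eval z (cnMin2 (g i) (g i') a b) = 0
  · obtain ⟨J0, hJdeg, hJne, hJind⟩ := cn_exists_J0 hcar
    refine ⟨J0, ?_, cn_excl h 1 J0 hJne fun μ hμ z hz => ?_⟩
    · have hcr : c ≤ r := by have := hcar.hsum; omega
      have : c * D ≤ r * D := Nat.mul_le_mul_right D hcr
      nlinarith [Nat.zero_le D]
    · by_contra hne
      exact cn_ge2_excl hcar hc hmin μ hμ z hz (hJind z hne)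
  · push Not at hmin
    obtain ⟨i, i', a, b, z, hz, hne⟩ := hmin
    obtain ⟨hd1, hd2⟩ := cn_ge2_deg (g i) (g i') D (hcar.deg i) (hcar.deg i') a b
    obtain ⟨H, hH, hO⟩ := cn_rat (K := 4) hcar (cnMin2 (g i) (g i') a b ^ 2)
      (cnCand (g i) (g i') a b) hd1 hd2 ⟨z, hz, by rw [map_pow]; exact pow_ne_zero 2 hne⟩
      (fun μ hμ z hz j => cn_ge2_cand (g i) (g i') a b μ (fun z hz => hcar.van i z (hμ hz))
        (fun z hz => hcar.van i' z (hμ hz)) z hz j)
    exact ⟨H, hH.trans (by nlinarith [Nat.zero_le D]), hO⟩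

end Claimed.Agent.R273
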