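import Claimed.Agent.R273.CnRulA

/-!
# Row 273, App A, block LOW, unit RUL, file 4: THE HYPERSURFACE CASE `c = 1` (`cn_rul_eq1`).  Architect helper69 (tree: helper120 + helper69).  Prefix `cn`, `cn_b_`.

`f := g 0`, `V ⊆ Z(f)` irreducible of dimension `n - 1` (`h = r - 1`).  `ξ_i := ∂f/∂x_i` (`cnXi`), `A_ij :=` skew extension of `∂f/∂Z` (`cnAm`).  On a flat `Φ_μ ⊆ Z(f)`: `A_ab = ξ_a v_b - ξ_b v_a` (`cn_tangent`).
Fix `i0`, `τ := v_{i0}`.  Then `ξ_{i0} v_j = A_{i0 j} + τ ξ_j` (`cn_b_tan`): the candidates form a line with parameter `τ`.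
`L0 := cnLie (cnHat ξ_{i0} A_{i0·} W)`, `L1 := cnLie (cnHat 0 ξ W)` (`cnL0`, `cnL1`): for fixed `τ` the field `cnHat ξ_{i0} (A_{i0·} + τ ξ) W` is `L0 + τ L1`; it is `ξ_{i0}(z)` times the `z`-part of `cnFld W` at `(z, v)`.
**(B2)** if `F ∈ ℂ[z]` vanishes on ONE flat `Φ_μ ⊆ Z(f)` then `(L0 F)(z) + τ_μ (L1 F)(z) = 0` on it.

THE TREE (all pivots are polynomials on the chart of degree `≤ 11 D`):
(0) all `ξ_i ≡ 0` on `V`: some `∂f/∂Z_q ≢ 0` (regular point) and it vanishes on all flats of `V`: `cn_excl`.   Otherwise `i0` with `ξ_{i0} ≢ 0` on `V`.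
(1) PLUECKER: `L0_W f` vanishes on the flats ((B2) for `F = f`; `L1 f = - ξ^T W ξ = 0`).  If `L0_W f ≢ 0` on `V` for some `W`: `cn_excl`.
(2) FIRST TESTS `c2 τ² + c1 τ + c0` (`cnF2, cnF1, cnF0`; `= ξ_{i0} X^ N_j - N_j X^ ξ_{i0}`, `N_j = A_{i0 j} + τ ξ_j`, `X^ = L0 + τ L1`) vanish on the flats ((B2) for `F = ξ_{i0} C(v_j) - A_{i0 j} - C(τ) ξ_j`).
    All coefficients `≡ 0` on `V` for all `W, j`: `cn_term_pos` (`cn_b_pos`), line family, `H = ξ_{i0}`.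
(3) otherwise a triple `(A, B, C) = (c2, c1, c0)` not `≡ 0`.  `A ≡ 0`: LIN`(B, C)` or `cn_excl C`.   `A ≢ 0`: QUAD`(A, B, C)`:
    remainders of the first tests: `A (c2 τ² + c1 τ + c0) = c2 G + (A c1 - c2 B) τ + (A c0 - c2 C)`, `G = A τ² + B τ + C`;
    the cubic `X^ G = p3 τ³ + p2 τ² + p1 τ + p0`, `p3 = L1 A`, `p2 = L0 A + L1 B`, `p1 = L0 B + L1 C`, `p0 = L0 C` ((B2) for `F = C(τ²) A + C(τ) B + C`), `A² X^G = (A p3 τ + s) G + (A² p1 - A p3 C - s B) τ + (A² p0 - s C)`, `s = A p2 - p3 B`.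
    Some remainder `(u1, u0) ≢ 0`: LIN`(u1, u0)` or `cn_excl u0`.   All `≡ 0`: `disc = B² - 4 A C ≡ 0`: LIN`(2A, B)` (`(2Aτ + B)² = disc + 4 A G`);  otherwise `cn_term_fin` (`cn_b_quad`), `H = ξ_{i0} A disc`, `κ = 2`.
LIN`(u1, u0)` (`u1 ≢ 0`, `u1 τ + u0 = 0` on the flats): `cn_rat` with `m = ξ_{i0} u1`, `N_j = u1 A_{i0 j} - u0 ξ_j`.

LEAVES: CN-RULB-A (flat calculus: `cn_b_tan` .. `cn_b_cubic_flat`), CN-RULB-B (degrees), CN-RULB-C (calculus at a point of the incidence space: `cn_b_rel` .. `cn_b_test_Q`), CN-RULB-D (`cn_b_pos`), CN-RULB-E (`cn_b_quad`), CN-RULB-F (`cn_b_zero`, `cn_b_lin`).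
-/

set_option autoImplicit false

namespace Claimed.Agent.R273

open MvPolynomial Module

variable {r : ℕ}

/-- `ξ = ∇_x f` -/
noncomputable def cnXi (f : MvPolynomial (CnI r) ℂ) (i : Fin r) : MvPolynomial (CnI r) ℂ :=
  pderiv (Sum.inr i) f

/-- `A` = the skew extension of `∂f/∂Z` -/
noncomputable def cnAm (f : MvPolynomial (CnI r) ℂ) (i j : Fin r) : MvPolynomial (CnI r) ℂ :=
  cnSkw (fun q => pderiv (Sum.inl q) f) i j

/-- the derivation `L0 = (ξ_{i0} W, - W A_{i0·})` -/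
noncomputable def cnL0 (f : MvPolynomial (CnI r) ℂ) (i0 : Fin r) (W : CnSk r → ℂ)
    (F : MvPolynomial (CnI r) ℂ) : MvPolynomial (CnI r) ℂ :=
  cnLie (cnHat (cnXi f i0) (cnAm f i0) W) F

/-- the derivation `L1 = (0, - W ξ)` -/
noncomputable def cnL1 (f : MvPolynomial (CnI r) ℂ) (W : CnSk r → ℂ)
    (F : MvPolynomial (CnI r) ℂ) : MvPolynomial (CnI r) ℂ :=
  cnLie (cnHat 0 (cnXi f) W) F

/-- coefficient of `τ²` of the first test -/
noncomputable def cnF2 (f : MvPolynomial (CnI r) ℂ) (i0 : Fin r) (W : CnSk r → ℂ) (j : Fin r) :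
    MvPolynomial (CnI r) ℂ :=
  cnXi f i0 * cnL1 f W (cnXi f j) - cnXi f j * cnL1 f W (cnXi f i0)

/-- coefficient of `τ` of the first test -/
noncomputable def cnF1 (f : MvPolynomial (CnI r) ℂ) (i0 : Fin r) (W : CnSk r → ℂ) (j : Fin r) :
    MvPolynomial (CnI r) ℂ :=
  cnXi f i0 * (cnL0 f i0 W (cnXi f j) + cnL1 f W (cnAm f i0 j)) - cnXi f j * cnL0 f i0 W (cnXi f i0)
    - cnAm f i0 j * cnL1 f W (cnXi f i0)

/-- constant coefficient of the first test -/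
noncomputable def cnF0 (f : MvPolynomial (CnI r) ℂ) (i0 : Fin r) (W : CnSk r → ℂ) (j : Fin r) :
    MvPolynomial (CnI r) ℂ :=
  cnXi f i0 * cnL0 f i0 W (cnAm f i0 j) - cnAm f i0 j * cnL0 f i0 W (cnXi f i0)

/-- `A τ² + B τ + C = 0` on all flats of `V` (`τ = v_{i0}`) -/
def CnQd (V : Set (CnI r → ℂ)) (i0 : Fin r) (A B C : MvPolynomial (CnI r) ℂ) : Prop :=
  ∀ μ, cnFlat μ ⊆ V → ∀ z ∈ cnFlat μ,
    eval z A * cnV μ i0 ^ 2 + eval z B * cnV μ i0 + eval z C = 0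

/-- `u1 τ + u0 = 0` on all flats of `V` -/
def CnLn (V : Set (CnI r → ℂ)) (i0 : Fin r) (u1 u0 : MvPolynomial (CnI r) ℂ) : Prop :=
  ∀ μ, cnFlat μ ⊆ V → ∀ z ∈ cnFlat μ, eval z u1 * cnV μ i0 + eval z u0 = 0

/-- `f ≡ 0` on `V` -/
def CnVan (V : Set (CnI r → ℂ)) (F : MvPolynomial (CnI r) ℂ) : Prop := ∀ z ∈ V, eval z F = 0

/-- remainders of a quadratic `c2 τ² + c1 τ + c0` modulo `A τ² + B τ + C` -/
noncomputable def cnRq1 (A B c2 c1 : MvPolynomial (CnI r) ℂ) : MvPolynomial (CnI r) ℂ :=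
  A * c1 - c2 * B

noncomputable def cnRq0 (A C c2 c0 : MvPolynomial (CnI r) ℂ) : MvPolynomial (CnI r) ℂ :=
  A * c0 - c2 * C

/-- remainders of the cubic `X^ G` modulo `G = A τ² + B τ + C` -/
noncomputable def cnRc1 (f : MvPolynomial (CnI r) ℂ) (i0 : Fin r) (W : CnSk r → ℂ)
    (A B C : MvPolynomial (CnI r) ℂ) : MvPolynomial (CnI r) ℂ :=
  A ^ 2 * (cnL0 f i0 W B + cnL1 f W C) - A * cnL1 f W A * C
    - (A * (cnL0 f i0 W A + cnL1 f W B) - cnL1 f W A * B) * B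

noncomputable def cnRc0 (f : MvPolynomial (CnI r) ℂ) (i0 : Fin r) (W : CnSk r → ℂ)
    (A B C : MvPolynomial (CnI r) ℂ) : MvPolynomial (CnI r) ℂ :=
  A ^ 2 * cnL0 f i0 W C - (A * (cnL0 f i0 W A + cnL1 f W B) - cnL1 f W A * B) * C

/-- the equations `ξ_{i0} v_j - ξ_j v_{i0} - A_{i0 j}` of the line of candidates -/
noncomputable def cnBE (f : MvPolynomial (CnI r) ℂ) (i0 j : Fin r) : MvPolynomial (CnJ r) ℂ :=
  rename Sum.inl (cnXi f i0) * X (Sum.inr j) - rename Sum.inl (cnXi f j) * X (Sum.inr i0)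
    - rename Sum.inl (cnAm f i0 j)

/-- the equation `A v_{i0}² + B v_{i0} + C` -/
noncomputable def cnBQ (i0 : Fin r) (A B C : MvPolynomial (CnI r) ℂ) : MvPolynomial (CnJ r) ℂ :=
  rename Sum.inl A * X (Sum.inr i0) ^ 2 + rename Sum.inl B * X (Sum.inr i0) + rename Sum.inl C

/-- the `r` equations of the quadratic terminal node -/
noncomputable def cnBEQ (f : MvPolynomial (CnI r) ℂ) (i0 : Fin r) (A B C : MvPolynomial (CnI r) ℂ)
    (j : Fin r) : MvPolynomial (CnJ r) ℂ :=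
  if j = i0 then cnBQ i0 A B C else cnBE f i0 j

/-! ### LEAF CN-RULB-A: calculus on one flat -/

/-- `cn_tangent` with `(a, b) = (i0, j)` -/
theorem cn_b_tan (f : MvPolynomial (CnI r) ℂ) (μ : CnP r → ℂ) (hf : ∀ z ∈ cnFlat μ, eval z f = 0)
    (z : CnI r → ℂ) (hz : z ∈ cnFlat μ) (i0 j : Fin r) :
    eval z (cnXi f i0) * cnV μ j = eval z (cnAm f i0 j) + cnV μ i0 * eval z (cnXi f j) := by
  have h := cn_tangent μ f hf z hz i0 j
  unfold cnXi cnAm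
  linear_combination -h

/-- the field `cnHat m (N0 + τ N1) W` is `cnHat m N0 W + τ cnHat 0 N1 W` (unfold `cnLie`, `cnHat`; `Fintype.sum_sum_type`; `Finset.sum_add_distrib`, `Finset.mul_sum`; `ring`) -/
theorem cn_b_hat_lin (m : MvPolynomial (CnI r) ℂ) (N0 N1 : Fin r → MvPolynomial (CnI r) ℂ) (t : ℂ)
    (W : CnSk r → ℂ) (F : MvPolynomial (CnI r) ℂ) (z : CnI r → ℂ) :
    eval z (cnLie (cnHat m (fun j => N0 j + C t * N1 j) W) F)
      = eval z (cnLie (cnHat m N0 W) F) + t * eval z (cnLie (cnHat 0 N1 W) F) := by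
  unfold cnLie cnHat
  simp only [Fintype.sum_sum_type, Sum.elim_inl, Sum.elim_inr, map_add, map_sum, map_mul, map_neg, eval_C,
    map_zero, mul_zero, zero_mul, Finset.sum_const_zero, zero_add]
  rw [add_assoc, Finset.mul_sum, ← Finset.sum_add_distrib]
  congr 1
  refine Finset.sum_congr rfl fun i _ => ?_
  simp only [mul_add, Finset.sum_add_distrib]
  have : ∑ j, cnMat W i j * (t * eval z (N1 j)) = t * ∑ j, cnMat W i j * eval z (N1 j) := by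
    rw [Finset.mul_sum]
    exact Finset.sum_congr rfl fun j _ => by ring
  rw [this]
  ring

/-- **(B2)**: `cn_flat_hat` with `m = ξ_{i0}`, `N_j = A_{i0 j} + C τ ξ_j` (`cn_b_tan`), then `cn_b_hat_lin` -/
theorem cn_b_flat (f : MvPolynomial (CnI r) ℂ) (μ : CnP r → ℂ) (hf : ∀ z ∈ cnFlat μ, eval z f = 0)
    (i0 : Fin r) (W : CnSk r → ℂ) (F : MvPolynomial (CnI r) ℂ) (hF : ∀ z ∈ cnFlat μ, eval z F = 0)
    (z : CnI r → ℂ) (hz : z ∈ cnFlat μ) :
    eval z (cnL0 f i0 W F) + cnV μ i0 * eval z (cnL1 f W F) = 0 := by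
  have h := cn_flat_hat μ F hF (cnXi f i0) (fun j => cnAm f i0 j + C (cnV μ i0) * cnXi f j) W z hz
    (fun j => by
      rw [cn_b_tan f μ hf z hz i0 j, map_add, map_mul, eval_C])
  rw [cn_b_hat_lin] at h
  exact h

/-- `L1 f = - ξ^T W ξ = 0` (`cn_mat_quad`) -/
theorem cn_b_L1_self (f : MvPolynomial (CnI r) ℂ) (W : CnSk r → ℂ) (z : CnI r → ℂ) :
    eval z (cnL1 f W f) = 0 := by
  have hq := cn_mat_quad W (fun i => eval z (cnXi f i))
  unfold cnL1 cnLie cnHat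
  simp only [Fintype.sum_sum_type, Sum.elim_inl, Sum.elim_inr, map_add, map_sum, map_mul, map_neg, eval_C,
    map_zero, mul_zero, zero_mul, Finset.sum_const_zero, zero_add]
  have : ∑ x, -(∑ j, cnMat W x j * eval z (cnXi f j)) * eval z (pderiv (Sum.inr x) f)
      = -∑ i, eval z (cnXi f i) * ∑ j, cnMat W i j * eval z (cnXi f j) := by
    rw [← Finset.sum_neg_distrib]
    refine Finset.sum_congr rfl fun i _ => ?_
    unfold cnXi
    ring
  rw [this, hq, neg_zero]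

/-- PLUECKER on the flats -/
theorem cn_b_pluecker_flat (f : MvPolynomial (CnI r) ℂ) (μ : CnP r → ℂ)
    (hf : ∀ z ∈ cnFlat μ, eval z f = 0) (i0 : Fin r) (W : CnSk r → ℂ) (z : CnI r → ℂ)
    (hz : z ∈ cnFlat μ) : eval z (cnL0 f i0 W f) = 0 := by
  have h := cn_b_flat f μ hf i0 W f hf z hz
  rwa [cn_b_L1_self, mul_zero, add_zero] at h

theorem cn_b_L0_add (f : MvPolynomial (CnI r) ℂ) (i0 : Fin r) (W : CnSk r → ℂ)
    (F G : MvPolynomial (CnI r) ℂ) : cnL0 f i0 W (F + G) = cnL0 f i0 W F + cnL0 f i0 W G :=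
  cn_lie_add _ _ _

theorem cn_b_L0_sub (f : MvPolynomial (CnI r) ℂ) (i0 : Fin r) (W : CnSk r → ℂ)
    (F G : MvPolynomial (CnI r) ℂ) : cnL0 f i0 W (F - G) = cnL0 f i0 W F - cnL0 f i0 W G :=
  cn_lie_sub _ _ _

theorem cn_b_L0_C_mul (f : MvPolynomial (CnI r) ℂ) (i0 : Fin r) (W : CnSk r → ℂ) (a : ℂ)
    (F : MvPolynomial (CnI r) ℂ) : cnL0 f i0 W (C a * F) = C a * cnL0 f i0 W F := by
  unfold cnL0
  rw [cn_lie_mul, cn_lie_C, mul_zero, add_zero]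

theorem cn_b_L1_add (f : MvPolynomial (CnI r) ℂ) (W : CnSk r → ℂ)
    (F G : MvPolynomial (CnI r) ℂ) : cnL1 f W (F + G) = cnL1 f W F + cnL1 f W G :=
  cn_lie_add _ _ _

theorem cn_b_L1_sub (f : MvPolynomial (CnI r) ℂ) (W : CnSk r → ℂ)
    (F G : MvPolynomial (CnI r) ℂ) : cnL1 f W (F - G) = cnL1 f W F - cnL1 f W G :=
  cn_lie_sub _ _ _

theorem cn_b_L1_C_mul (f : MvPolynomial (CnI r) ℂ) (W : CnSk r → ℂ) (a : ℂ)
    (F : MvPolynomial (CnI r) ℂ) : cnL1 f W (C a * F) = C a * cnL1 f W F := by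
  unfold cnL1
  rw [cn_lie_mul, cn_lie_C, mul_zero, add_zero]

/-- the first tests vanish on the flats.  PLAN: (B2) for `F = ξ_{i0} * C (v_j) - A_{i0 j} - C τ * ξ_j` (vanishes on the flat by `cn_b_tan`); expand `cnL0`, `cnL1` with `cn_lie_sub`, `cn_lie_mul`, `cn_lie_C`; multiply by `ξ_{i0}(z)`, replace `ξ_{i0}(z) v_j` by `cn_b_tan`; `linear_combination`. -/
theorem cn_b_first_flat {V : Set (CnI r → ℂ)} (f : MvPolynomial (CnI r) ℂ) (hf : CnVan V f)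
    (i0 : Fin r) (W : CnSk r → ℂ) (j : Fin r) :
    CnQd V i0 (cnF2 f i0 W j) (cnF1 f i0 W j) (cnF0 f i0 W j) := by
  intro μ hμ z hz
  have hfμ : ∀ z ∈ cnFlat μ, eval z f = 0 := fun z hz => hf z (hμ hz)
  have hF : ∀ z ∈ cnFlat μ,
      eval z (C (cnV μ j) * cnXi f i0 - cnAm f i0 j - C (cnV μ i0) * cnXi f j) = 0 := by
    intro z hz
    have := cn_b_tan f μ hfμ z hz i0 j
    simp only [map_sub, map_mul, eval_C]
    linear_combination this
  have h := cn_b_flat f μ hfμ i0 W _ hF z hz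
  have ht := cn_b_tan f μ hfμ z hz i0 j
  simp only [cn_b_L0_sub, cn_b_L0_C_mul, cn_b_L1_sub, cn_b_L1_C_mul, map_sub, map_mul, eval_C] at h
  unfold cnF2 cnF1 cnF0
  simp only [map_sub, map_mul, map_add]
  linear_combination (-(eval z (cnXi f i0))) * h
    + (eval z (cnL0 f i0 W (cnXi f i0)) + cnV μ i0 * eval z (cnL1 f W (cnXi f i0))) * ht

/-- the cubic `X^ G` vanishes on the flats.  PLAN: (B2) for `F = C (τ^2) * A + C τ * B + C'`. -/
theorem cn_b_cubic_flat {V : Set (CnI r → ℂ)} (f : MvPolynomial (CnI r) ℂ) (hf : CnVan V f)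
    (i0 : Fin r) (W : CnSk r → ℂ) (A B C' : MvPolynomial (CnI r) ℂ) (hQ : CnQd V i0 A B C') :
    ∀ μ, cnFlat μ ⊆ V → ∀ z ∈ cnFlat μ,
      eval z (cnL1 f W A) * cnV μ i0 ^ 3 + eval z (cnL0 f i0 W A + cnL1 f W B) * cnV μ i0 ^ 2
        + eval z (cnL0 f i0 W B + cnL1 f W C') * cnV μ i0 + eval z (cnL0 f i0 W C') = 0 := by
  intro μ hμ z hz
  have hfμ : ∀ z ∈ cnFlat μ, eval z f = 0 := fun z hz => hf z (hμ hz)
  have hF : ∀ z ∈ cnFlat μ, eval z (C (cnV μ i0 ^ 2) * A + C (cnV μ i0) * B + C') = 0 := by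
    intro z hz
    have := hQ μ hμ z hz
    simp only [map_add, map_mul, eval_C]
    linear_combination this
  have h := cn_b_flat f μ hfμ i0 W _ hF z hz
  simp only [cn_b_L0_add, cn_b_L0_C_mul, cn_b_L1_add, cn_b_L1_C_mul, map_add, map_mul, eval_C] at h
  simp only [map_add]
  linear_combination h

/-- remainder of a quadratic constraint: `A (c2 τ² + c1 τ + c0) - c2 (A τ² + B τ + C) = ..` (`linear_combination`) -/
theorem cn_b_rq_flat {V : Set (CnI r → ℂ)} (i0 : Fin r) (A B C' c2 c1 c0 : MvPolynomial (CnI r) ℂ)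
    (hQ : CnQd V i0 A B C') (hc : CnQd V i0 c2 c1 c0) :
    CnLn V i0 (cnRq1 A B c2 c1) (cnRq0 A C' c2 c0) := by
  intro μ hμ z hz
  have h1 := hQ μ hμ z hz
  have h2 := hc μ hμ z hz
  unfold cnRq1 cnRq0
  simp only [map_sub, map_mul]
  linear_combination eval z A * h2 - eval z c2 * h1

/-- remainder of the cubic (`cn_b_cubic_flat`, `linear_combination`) -/
theorem cn_b_rc_flat {V : Set (CnI r → ℂ)} (f : MvPolynomial (CnI r) ℂ) (hf : CnVan V f)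
    (i0 : Fin r) (W : CnSk r → ℂ) (A B C' : MvPolynomial (CnI r) ℂ) (hQ : CnQd V i0 A B C') :
    CnLn V i0 (cnRc1 f i0 W A B C') (cnRc0 f i0 W A B C') := by
  intro μ hμ z hz
  have h1 := hQ μ hμ z hz
  have h2 := cn_b_cubic_flat f hf i0 W A B C' hQ μ hμ z hz
  unfold cnRc1 cnRc0
  simp only [map_sub, map_mul, map_add, map_pow] at h2 ⊢
  linear_combination eval z A ^ 2 * h2
    - (eval z A * eval z (cnL1 f W A) * cnV μ i0
      + (eval z A * (eval z (cnL0 f i0 W A) + eval z (cnL1 f W B)) - eval z (cnL1 f W A) * eval z B)) * h1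

/-- `disc ≡ 0` on `V`: `(2 A τ + B)² = disc + 4 A G = 0` -/
theorem cn_b_disc_flat {V : Set (CnI r → ℂ)} (i0 : Fin r) (A B C' : MvPolynomial (CnI r) ℂ)
    (hQ : CnQd V i0 A B C') (hd : CnVan V (B ^ 2 - 4 * A * C')) : CnLn V i0 (2 * A) B := by
  intro μ hμ z hz
  have h1 := hQ μ hμ z hz
  have h2 := hd z (hμ hz)
  simp only [map_sub, map_mul, map_pow] at h2
  have e4 : eval z (4 : MvPolynomial (CnI r) ℂ) = 4 := by
    have : (4 : MvPolynomial (CnI r) ℂ) = C 4 := (map_ofNat C 4).symm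
    rw [this, eval_C]
  have e2 : eval z (2 : MvPolynomial (CnI r) ℂ) = 2 := by
    have : (2 : MvPolynomial (CnI r) ℂ) = C 2 := (map_ofNat C 2).symm
    rw [this, eval_C]
  rw [e4] at h2
  rw [map_mul, e2]
  have hsq : (2 * eval z A * cnV μ i0 + eval z B) ^ 2 = 0 := by
    linear_combination h2 + 4 * eval z A * h1
  exact pow_eq_zero_iff (two_ne_zero) |>.1 hsq

/-! ### LEAF CN-RULB-B: degrees (`cn_lie_degree`, `cn_hat_degree`, `cn_skw_degree`, `totalDegree_pderiv_le`, `totalDegree_mul`, `totalDegree_add/sub`) -/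

theorem cn_b_dgmul {ι : Type*} {p q : MvPolynomial ι ℂ} {a b c : ℕ} (hp : p.totalDegree ≤ a)
    (hq : q.totalDegree ≤ b) (hc : a + b ≤ c) : (p * q).totalDegree ≤ c :=
  (totalDegree_mul _ _).trans ((add_le_add hp hq).trans hc)

theorem cn_b_dgadd {ι : Type*} {p q : MvPolynomial ι ℂ} {c : ℕ} (hp : p.totalDegree ≤ c)
    (hq : q.totalDegree ≤ c) : (p + q).totalDegree ≤ c :=
  (totalDegree_add _ _).trans (max_le hp hq)

theorem cn_b_dgsub {ι : Type*} {p q : MvPolynomial ι ℂ} {c : ℕ} (hp : p.totalDegree ≤ c)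
    (hq : q.totalDegree ≤ c) : (p - q).totalDegree ≤ c :=
  (totalDegree_sub _ _).trans (max_le hp hq)

theorem cn_b_dgsq {ι : Type*} {p : MvPolynomial ι ℂ} {a c : ℕ} (hp : p.totalDegree ≤ a)
    (hc : 2 * a ≤ c) : (p ^ 2).totalDegree ≤ c := by
  rw [sq]
  exact cn_b_dgmul hp hp (by omega)

theorem cn_b_deg_xi (f : MvPolynomial (CnI r) ℂ) (D : ℕ) (hf : f.totalDegree ≤ D) (i : Fin r) :
    (cnXi f i).totalDegree ≤ D := by
  exact (cn_pderiv_degree f _).trans hf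

theorem cn_b_deg_am (f : MvPolynomial (CnI r) ℂ) (D : ℕ) (hf : f.totalDegree ≤ D) (i j : Fin r) :
    (cnAm f i j).totalDegree ≤ D := by
  exact cn_skw_degree _ D (fun q => (cn_pderiv_degree f _).trans hf) i j

theorem cn_b_deg_L0 (f : MvPolynomial (CnI r) ℂ) (D : ℕ) (hf : f.totalDegree ≤ D) (i0 : Fin r)
    (W : CnSk r → ℂ) (F : MvPolynomial (CnI r) ℂ) (a : ℕ) (hF : F.totalDegree ≤ a) :
    (cnL0 f i0 W F).totalDegree ≤ D + a := by
  unfold cnL0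
  refine (cn_lie_degree _ D (fun k => cn_hat_degree _ _ W D (cn_b_deg_xi f D hf i0)
    (fun j => cn_b_deg_am f D hf i0 j) k) F).trans ?_
  omega

theorem cn_b_deg_L1 (f : MvPolynomial (CnI r) ℂ) (D : ℕ) (hf : f.totalDegree ≤ D)
    (W : CnSk r → ℂ) (F : MvPolynomial (CnI r) ℂ) (a : ℕ) (hF : F.totalDegree ≤ a) :
    (cnL1 f W F).totalDegree ≤ D + a := by
  unfold cnL1
  refine (cn_lie_degree _ D (fun k => cn_hat_degree _ _ W D (by simp)
    (fun j => cn_b_deg_xi f D hf j) k) F).trans ?_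
  omega

theorem cn_b_deg_first (f : MvPolynomial (CnI r) ℂ) (D : ℕ) (hf : f.totalDegree ≤ D) (i0 : Fin r)
    (W : CnSk r → ℂ) (j : Fin r) :
    (cnF2 f i0 W j).totalDegree ≤ 3 * D ∧ (cnF1 f i0 W j).totalDegree ≤ 3 * D ∧
      (cnF0 f i0 W j).totalDegree ≤ 3 * D := by
  have hx : ∀ i, (cnXi f i).totalDegree ≤ D := cn_b_deg_xi f D hf
  have ha : ∀ i j, (cnAm f i j).totalDegree ≤ D := cn_b_deg_am f D hf
  have h0 : ∀ F : MvPolynomial (CnI r) ℂ, F.totalDegree ≤ D → (cnL0 f i0 W F).totalDegree ≤ D + D :=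
    fun F hF => cn_b_deg_L0 f D hf i0 W F D hF
  have h1 : ∀ F : MvPolynomial (CnI r) ℂ, F.totalDegree ≤ D → (cnL1 f W F).totalDegree ≤ D + D :=
    fun F hF => cn_b_deg_L1 f D hf W F D hF
  refine ⟨?_, ?_, ?_⟩
  · unfold cnF2
    exact cn_b_dgsub (cn_b_dgmul (hx _) (h1 _ (hx _)) (by omega))
      (cn_b_dgmul (hx _) (h1 _ (hx _)) (by omega))
  · unfold cnF1
    exact cn_b_dgsub (cn_b_dgsub
      (cn_b_dgmul (hx _) (cn_b_dgadd (h0 _ (hx _)) (h1 _ (ha _ _))) (by omega))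
      (cn_b_dgmul (hx _) (h0 _ (hx _)) (by omega)))
      (cn_b_dgmul (ha _ _) (h1 _ (hx _)) (by omega))
  · unfold cnF0
    exact cn_b_dgsub (cn_b_dgmul (hx _) (h0 _ (ha _ _)) (by omega))
      (cn_b_dgmul (ha _ _) (h0 _ (hx _)) (by omega))

theorem cn_b_deg_rq (A B C' c2 c1 c0 : MvPolynomial (CnI r) ℂ) (a : ℕ) (hA : A.totalDegree ≤ a)
    (hB : B.totalDegree ≤ a) (hC : C'.totalDegree ≤ a) (h2 : c2.totalDegree ≤ a)
    (h1 : c1.totalDegree ≤ a) (h0 : c0.totalDegree ≤ a) :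
    (cnRq1 A B c2 c1).totalDegree ≤ 2 * a ∧ (cnRq0 A C' c2 c0).totalDegree ≤ 2 * a := by
  refine ⟨?_, ?_⟩
  · unfold cnRq1
    exact cn_b_dgsub (cn_b_dgmul hA h1 (by omega)) (cn_b_dgmul h2 hB (by omega))
  · unfold cnRq0
    exact cn_b_dgsub (cn_b_dgmul hA h0 (by omega)) (cn_b_dgmul h2 hC (by omega))

theorem cn_b_deg_rc (f : MvPolynomial (CnI r) ℂ) (D : ℕ) (hf : f.totalDegree ≤ D) (i0 : Fin r)
    (W : CnSk r → ℂ) (A B C' : MvPolynomial (CnI r) ℂ) (hA : A.totalDegree ≤ 3 * D)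
    (hB : B.totalDegree ≤ 3 * D) (hC : C'.totalDegree ≤ 3 * D) :
    (cnRc1 f i0 W A B C').totalDegree ≤ 10 * D ∧ (cnRc0 f i0 W A B C').totalDegree ≤ 10 * D := by
  have h0 : ∀ F : MvPolynomial (CnI r) ℂ, F.totalDegree ≤ 3 * D →
      (cnL0 f i0 W F).totalDegree ≤ D + 3 * D := fun F hF => cn_b_deg_L0 f D hf i0 W F _ hF
  have h1 : ∀ F : MvPolynomial (CnI r) ℂ, F.totalDegree ≤ 3 * D →
      (cnL1 f W F).totalDegree ≤ D + 3 * D := fun F hF => cn_b_deg_L1 f D hf W F _ hF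
  have hs : (A * (cnL0 f i0 W A + cnL1 f W B) - cnL1 f W A * B).totalDegree ≤ 7 * D :=
    cn_b_dgsub (cn_b_dgmul hA (cn_b_dgadd (h0 _ hA) (h1 _ hB)) (by omega))
      (cn_b_dgmul (h1 _ hA) hB (by omega))
  have hA2 : (A ^ 2).totalDegree ≤ 6 * D := cn_b_dgsq hA (by omega)
  refine ⟨?_, ?_⟩
  · unfold cnRc1
    exact cn_b_dgsub (cn_b_dgsub (cn_b_dgmul hA2 (cn_b_dgadd (h0 _ hB) (h1 _ hC)) (by omega))
      (cn_b_dgmul (cn_b_dgmul hA (h1 _ hA) le_rfl) hC (by omega)))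
      (cn_b_dgmul hs hB (by omega))
  · unfold cnRc0
    exact cn_b_dgsub (cn_b_dgmul hA2 (h0 _ hC) (by omega)) (cn_b_dgmul hs hC (by omega))

theorem cn_b_deg_two (A : MvPolynomial (CnI r) ℂ) (a : ℕ) (hA : A.totalDegree ≤ a) :
    (2 * A).totalDegree ≤ a := by
  have h2 : (2 : MvPolynomial (CnI r) ℂ) = C 2 := (map_ofNat C 2).symm
  rw [h2]
  exact cn_b_dgmul (totalDegree_C _).le hA (by omega)

theorem cn_b_deg_H (x A B C' : MvPolynomial (CnI r) ℂ) (D : ℕ) (hx : x.totalDegree ≤ D)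
    (hA : A.totalDegree ≤ 3 * D) (hB : B.totalDegree ≤ 3 * D) (hC : C'.totalDegree ≤ 3 * D) :
    (x * A * (B ^ 2 - 4 * A * C')).totalDegree ≤ 10 * D := by
  have h4 : (4 : MvPolynomial (CnI r) ℂ) = C 4 := (map_ofNat C 4).symm
  have h4A : (4 * A).totalDegree ≤ 3 * D := by
    rw [h4]
    exact cn_b_dgmul (totalDegree_C _).le hA (by omega)
  exact cn_b_dgmul (cn_b_dgmul hx hA le_rfl)
    (cn_b_dgsub (cn_b_dgsq hB (c := 6 * D) (by omega)) (cn_b_dgmul h4A hC (by omega))) (by omega)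

/-! ### LEAF CN-RULB-C: calculus at a point `σ = (z, v)` of the incidence space with `ξ_{i0}(z) v_j = A_{i0 j}(z) + v_{i0} ξ_j(z)` -/

theorem cn_b_eval_BE (f : MvPolynomial (CnI r) ℂ) (i0 j : Fin r) (σ : CnJ r → ℂ) :
    eval σ (cnBE f i0 j) = eval (cnJz σ) (cnXi f i0) * cnJv σ j
      - eval (cnJz σ) (cnXi f j) * cnJv σ i0 - eval (cnJz σ) (cnAm f i0 j) := by
  unfold cnBE
  rw [map_sub, map_sub, map_mul, map_mul, eval_rename, eval_rename, eval_rename, eval_X, eval_X]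
  rfl

theorem cn_b_eval_BQ (i0 : Fin r) (A B C' : MvPolynomial (CnI r) ℂ) (σ : CnJ r → ℂ) :
    eval σ (cnBQ i0 A B C') = eval (cnJz σ) A * cnJv σ i0 ^ 2 + eval (cnJz σ) B * cnJv σ i0
      + eval (cnJz σ) C' := by
  unfold cnBQ
  rw [map_add, map_add, map_mul, map_mul, map_pow, eval_rename, eval_rename, eval_rename, eval_X]
  rfl

theorem cn_b_am_self (f : MvPolynomial (CnI r) ℂ) (i0 : Fin r) : cnAm f i0 i0 = 0 := by
  unfold cnAm cnSkw
  rw [dif_neg (lt_irrefl _), dif_neg (lt_irrefl _)]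

/-- the relation at `σ`; for `j = i0` it is trivial (`cnAm f i0 i0 = 0`) -/
theorem cn_b_rel (f : MvPolynomial (CnI r) ℂ) (i0 : Fin r) (σ : CnJ r → ℂ)
    (h : ∀ j, j ≠ i0 → eval σ (cnBE f i0 j) = 0) (j : Fin r) :
    eval (cnJz σ) (cnXi f i0) * cnJv σ j
      = eval (cnJz σ) (cnAm f i0 j + C (cnJv σ i0) * cnXi f j) := by
  rw [map_add, map_mul, eval_C]
  by_cases hj : j = i0
  · subst hj
    rw [cn_b_am_self, map_zero]
    ring
  · have h1 := h j hj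
    rw [cn_b_eval_BE] at h1
    linear_combination h1

/-- `ξ_{i0}(z) (δ_W F~)(σ) = (L0 F)(z) + τ (L1 F)(z)`  (`cn_hat_eval`, `cn_b_hat_lin`) -/
theorem cn_b_del (f : MvPolynomial (CnI r) ℂ) (i0 : Fin r) (σ : CnJ r → ℂ)
    (h : ∀ j, j ≠ i0 → eval σ (cnBE f i0 j) = 0) (W : CnSk r → ℂ) (F : MvPolynomial (CnI r) ℂ) :
    eval (cnJz σ) (cnXi f i0) * eval σ (cnLie (cnFld W) (rename Sum.inl F))
      = eval (cnJz σ) (cnL0 f i0 W F) + cnJv σ i0 * eval (cnJz σ) (cnL1 f W F) := by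
  have h1 := cn_hat_eval (cnXi f i0) (fun j => cnAm f i0 j + C (cnJv σ i0) * cnXi f j) W F σ
    (cn_b_rel f i0 σ h)
  rw [cn_b_hat_lin] at h1
  exact h1.symm

/-- `ξ_{i0}(z)² (δ_W E_j)(σ) = - (c2 τ² + c1 τ + c0)(z)`.  PLAN: `δ_W E_j = v_j δ_W ξ~_{i0} - v_{i0} δ_W ξ~_j - δ_W A~_{i0 j}` (`cn_lie_sub`, `cn_lie_mul`, `cn_lie_X`, `cn_eval_fld_v`); `cn_b_del` three times; `cn_b_rel`; `linear_combination`. -/
theorem cn_b_test_E (f : MvPolynomial (CnI r) ℂ) (i0 : Fin r) (σ : CnJ r → ℂ)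
    (h : ∀ j, j ≠ i0 → eval σ (cnBE f i0 j) = 0) (W : CnSk r → ℂ) (j : Fin r) :
    eval (cnJz σ) (cnXi f i0) ^ 2 * eval σ (cnLie (cnFld W) (cnBE f i0 j))
      = - (eval (cnJz σ) (cnF2 f i0 W j) * cnJv σ i0 ^ 2 + eval (cnJz σ) (cnF1 f i0 W j) * cnJv σ i0
          + eval (cnJz σ) (cnF0 f i0 W j)) := by
  have hE : eval σ (cnLie (cnFld W) (cnBE f i0 j))
      = cnJv σ j * eval σ (cnLie (cnFld W) (rename Sum.inl (cnXi f i0)))
        - cnJv σ i0 * eval σ (cnLie (cnFld W) (rename Sum.inl (cnXi f j)))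
        - eval σ (cnLie (cnFld W) (rename Sum.inl (cnAm f i0 j))) := by
    simp only [cnBE]
    rw [cn_lie_sub, cn_lie_sub, cn_lie_mul, cn_lie_mul, cn_lie_X, cn_lie_X, map_sub, map_sub,
      map_add, map_add, map_mul, map_mul, map_mul, map_mul, cn_eval_fld_v, cn_eval_fld_v,
      mul_zero, mul_zero, zero_add, zero_add, eval_X, eval_X]
    rfl
  have d1 := cn_b_del f i0 σ h W (cnXi f i0)
  have d2 := cn_b_del f i0 σ h W (cnXi f j)
  have d3 := cn_b_del f i0 σ h W (cnAm f i0 j)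
  have hr := cn_b_rel f i0 σ h j
  rw [map_add, map_mul, eval_C] at hr
  rw [hE]
  unfold cnF2 cnF1 cnF0
  simp only [map_sub, map_mul, map_add]
  linear_combination (eval (cnJz σ) (cnXi f i0) * cnJv σ j) * d1
    - (eval (cnJz σ) (cnXi f i0) * cnJv σ i0) * d2 - (eval (cnJz σ) (cnXi f i0)) * d3
    + (eval (cnJz σ) (cnL0 f i0 W (cnXi f i0)) + cnJv σ i0 * eval (cnJz σ) (cnL1 f W (cnXi f i0))) * hr

/-- `ξ_{i0}(z) (δ_W E_Q)(σ) = (p3 τ³ + p2 τ² + p1 τ + p0)(z)` -/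
theorem cn_b_test_Q (f : MvPolynomial (CnI r) ℂ) (i0 : Fin r) (σ : CnJ r → ℂ)
    (h : ∀ j, j ≠ i0 → eval σ (cnBE f i0 j) = 0) (W : CnSk r → ℂ)
    (A B C' : MvPolynomial (CnI r) ℂ) :
    eval (cnJz σ) (cnXi f i0) * eval σ (cnLie (cnFld W) (cnBQ i0 A B C'))
      = eval (cnJz σ) (cnL1 f W A) * cnJv σ i0 ^ 3
        + eval (cnJz σ) (cnL0 f i0 W A + cnL1 f W B) * cnJv σ i0 ^ 2
        + eval (cnJz σ) (cnL0 f i0 W B + cnL1 f W C') * cnJv σ i0
        + eval (cnJz σ) (cnL0 f i0 W C') := by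
  have hE : eval σ (cnLie (cnFld W) (cnBQ i0 A B C'))
      = cnJv σ i0 ^ 2 * eval σ (cnLie (cnFld W) (rename Sum.inl A))
        + cnJv σ i0 * eval σ (cnLie (cnFld W) (rename Sum.inl B))
        + eval σ (cnLie (cnFld W) (rename Sum.inl C')) := by
    simp only [cnBQ, sq]
    rw [cn_lie_add, cn_lie_add, cn_lie_mul, cn_lie_mul, cn_lie_mul, cn_lie_X]
    simp only [map_add, map_mul, cn_eval_fld_v, mul_zero, zero_add, add_zero, eval_X]
    rfl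
  have d1 := cn_b_del f i0 σ h W A
  have d2 := cn_b_del f i0 σ h W B
  have d3 := cn_b_del f i0 σ h W C'
  rw [hE]
  simp only [map_add]
  linear_combination (cnJv σ i0 ^ 2) * d1 + (cnJv σ i0) * d2 + d3

/-- the equations `E_j` are constraints (`cn_b_tan`, `cn_b_eval_BE`, `cn_Jz_lift`, `cn_Jv_lift`, `cn_gr_mem`) -/
theorem cn_b_con_BE {V : Set (CnI r → ℂ)} (f : MvPolynomial (CnI r) ℂ) (hf : CnVan V f)
    (i0 j : Fin r) : CnCon V (cnBE f i0 j) := by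
  intro μ hμ Z
  rw [cn_b_eval_BE, cn_Jz_lift, cn_Jv_lift]
  have := cn_b_tan f μ (fun z hz => hf z (hμ hz)) _ (cn_gr_mem μ Z) i0 j
  linear_combination this

theorem cn_b_con_BQ {V : Set (CnI r → ℂ)} (i0 : Fin r) (A B C' : MvPolynomial (CnI r) ℂ)
    (hQ : CnQd V i0 A B C') : CnCon V (cnBQ i0 A B C') := by
  intro μ hμ Z
  rw [cn_b_eval_BQ, cn_Jz_lift, cn_Jv_lift]
  exact hQ μ hμ _ (cn_gr_mem μ Z)

/-- a single nonzero row is independent (`linearIndependent_unique_iff`) -/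
theorem cn_b_ind (g : Fin 1 → MvPolynomial (CnI r) ℂ) (z : CnI r → ℂ) (i0 : Fin r)
    (h : eval z (cnXi (g 0) i0) ≠ 0) :
    LinearIndependent ℂ (fun i => fun j => eval z (pderiv j (g i))) := by
  rw [linearIndependent_unique_iff]
  intro h0
  exact h (congrFun h0 (Sum.inr i0))

theorem cn_b_dAt_sub {ι : Type*} [Fintype ι] (p q : MvPolynomial ι ℂ) (z v : ι → ℂ) :
    dAt (p - q) z v = dAt p z v - dAt q z v := by
  simp only [dAt, map_sub, sub_mul, Finset.sum_sub_distrib]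

/-- differential of `E_j` on a vertical vector: `dAt (cnBE f i0 j) σ u = ξ_{i0}(z) u_{v,j} - ξ_j(z) u_{v,i0}` if `u ∘ inl = 0` -/
theorem cn_b_dAt_BE (f : MvPolynomial (CnI r) ℂ) (i0 j : Fin r) (σ u : CnJ r → ℂ)
    (hu : ∀ i, u (Sum.inl i) = 0) :
    dAt (cnBE f i0 j) σ u = eval (cnJz σ) (cnXi f i0) * u (Sum.inr j)
      - eval (cnJz σ) (cnXi f j) * u (Sum.inr i0) := by
  unfold cnBE
  rw [cn_b_dAt_sub, cn_b_dAt_sub, ph_dAt_mul, ph_dAt_mul, ph_dAt_X, ph_dAt_X,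
    cn_ratb_dAt_rename _ σ u hu, cn_ratb_dAt_rename _ σ u hu, cn_ratb_dAt_rename _ σ u hu,
    cn_ratb_aeval_rename, cn_ratb_aeval_rename]
  ring

/-- `dAt (cnBQ i0 A B C) σ u = (2 A(z) τ + B(z)) u_{v,i0}` if `u ∘ inl = 0` -/
theorem cn_b_dAt_BQ (i0 : Fin r) (A B C' : MvPolynomial (CnI r) ℂ) (σ u : CnJ r → ℂ)
    (hu : ∀ i, u (Sum.inl i) = 0) :
    dAt (cnBQ i0 A B C') σ u
      = (2 * eval (cnJz σ) A * cnJv σ i0 + eval (cnJz σ) B) * u (Sum.inr i0) := by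
  unfold cnBQ
  rw [sq, ph_dAt_add, ph_dAt_add, ph_dAt_mul, ph_dAt_mul, ph_dAt_mul, ph_dAt_X,
    cn_ratb_dAt_rename _ σ u hu, cn_ratb_dAt_rename _ σ u hu, cn_ratb_dAt_rename _ σ u hu,
    cn_ratb_aeval_rename, cn_ratb_aeval_rename, aeval_X]
  unfold cnJv
  ring

/-! ### LEAF CN-RULB-D: the line family -/

theorem cn_b_card_ne (i0 : Fin r) : Fintype.card {j : Fin r // j ≠ i0} + 1 = r := by
  classical
  have h := Fintype.card_subtype_compl (fun j : Fin r => j = i0)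
  have h1 : Fintype.card {j : Fin r // j = i0} = 1 := Fintype.card_subtype_eq i0
  have hr : 0 < r := i0.pos
  rw [h1, Fintype.card_fin] at h
  have h2 : Fintype.card {j : Fin r // j ≠ i0} = r - 1 := h
  omega

/-- two nonvanishing polynomials on an irreducible set have a nonvanishing product -/
theorem cn_b_mul_ne {V : Set (CnI r → ℂ)} (hV : IsVar V) (a b : MvPolynomial (CnI r) ℂ)
    (ha : ∃ z ∈ V, eval z a ≠ 0) (hb : ∃ z ∈ V, eval z b ≠ 0) : ∃ z ∈ V, eval z (a * b) ≠ 0 := by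
  by_contra hcon
  push Not at hcon
  rcases ph_isVar_mul hV a b hcon with h2 | h2
  · obtain ⟨z, hz, hne⟩ := ha
    exact hne (h2 z hz)
  · obtain ⟨z, hz, hne⟩ := hb
    exact hne (h2 z hz)

/-- (test) for `f~` at a point of the line of candidates -/
theorem cn_b_test_f {V : Set (CnI r → ℂ)} (f : MvPolynomial (CnI r) ℂ) (i0 : Fin r)
    (hpl : ∀ W, CnVan V (cnL0 f i0 W f)) (σ : CnJ r → ℂ) (hσV : cnJz σ ∈ V)
    (hrel : ∀ j, j ≠ i0 → eval σ (cnBE f i0 j) = 0) (hne : eval (cnJz σ) (cnXi f i0) ≠ 0)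
    (W : CnSk r → ℂ) : eval σ (cnLie (cnFld W) (rename Sum.inl f)) = 0 := by
  have h := cn_b_del f i0 σ hrel W f
  rw [hpl W _ hσV, cn_b_L1_self, mul_zero, add_zero] at h
  exact (mul_eq_zero.1 h).resolve_left hne

/-- the vector is determined by `z` and `τ` -/
theorem cn_b_det (f : MvPolynomial (CnI r) ℂ) (i0 : Fin r) (σ σ' : CnJ r → ℂ)
    (hrel : ∀ j, j ≠ i0 → eval σ (cnBE f i0 j) = 0)
    (hrel' : ∀ j, j ≠ i0 → eval σ' (cnBE f i0 j) = 0) (hne : eval (cnJz σ) (cnXi f i0) ≠ 0)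
    (hz : cnJz σ = cnJz σ') (hv : cnJv σ i0 = cnJv σ' i0) : σ = σ' := by
  funext k
  rcases k with k | j
  · exact congrFun hz k
  · have h1 := cn_b_rel f i0 σ hrel j
    have h2 := cn_b_rel f i0 σ' hrel' j
    rw [← hz, ← hv, ← h1] at h2
    exact (mul_left_cancel₀ hne h2).symm

/-- **(POS)**.  PLAN: `cn_term_pos` with `κ' = {j // j ≠ i0}` (`Fintype.card_subtype_compl`/`Fintype.card_subtype_ne`-type: `card + 1 = r`), `E j = cnBE f i0 j`, `H = ξ_{i0}`, `c = 1`.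
(reg) `cn_reg_crit` with `s = {i0}`, `cn_b_ind`; `hinj`: `u ∈ tanSp`, so `dAt (E j) σ u = 0` (`Ideal.subset_span`), `cn_b_dAt_BE`: `ξ_{i0}(z) u_{v,j} = 0`; `1 + h = r`.
(test) `f~`: `cn_b_del` with `F = f`, `hpl`, `cn_b_L1_self`, cancel `ξ_{i0}(z)`;  `E_j`: `cn_b_test_E`, `hfirst`, cancel `ξ_{i0}(z)²`.
(few) `cn_b_rel` for `σ` and `σ'`: `v_j = v'_j`; `σ = Sum.elim (cnJz σ) (cnJv σ)`. -/
theorem cn_b_pos {h D : ℕ} {V : Set (CnI r → ℂ)} {g : Fin 1 → MvPolynomial (CnI r) ℂ}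
    (hcar : CnCar r h 1 D V g) (i0 : Fin r) (hxi : ∃ z ∈ V, eval z (cnXi (g 0) i0) ≠ 0)
    (hpl : ∀ W, CnVan V (cnL0 (g 0) i0 W (g 0)))
    (hfirst : ∀ W j, CnVan V (cnF2 (g 0) i0 W j) ∧ CnVan V (cnF1 (g 0) i0 W j) ∧
      CnVan V (cnF0 (g 0) i0 W j)) :
    CnRulOut r V h 1 (cnXi (g 0) i0) := by
  classical
  have hf : CnVan V (g 0) := hcar.van 0
  have hrel : ∀ σ, CnGood V (fun j : {j : Fin r // j ≠ i0} => cnBE (g 0) i0 j.1) (cnXi (g 0) i0) σ →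
      ∀ j, j ≠ i0 → eval σ (cnBE (g 0) i0 j) = 0 := fun σ hσ j hj => hσ.2.1 ⟨j, hj⟩
  refine cn_term_pos (κ' := {j : Fin r // j ≠ i0}) hcar.isVar hcar.dim (cnXi (g 0) i0) hxi g hcar.van
    (fun j => cnBE (g 0) i0 j.1) (fun j => cn_b_con_BE (g 0) hf i0 j.1) (cn_b_card_ne i0) i0 ?_ ?_ ?_
  · intro σ hσ
    have h1 := cn_reg_crit g (fun j : {j : Fin r // j ≠ i0} => cnBE (g 0) i0 j.1) σ
      (cn_b_ind g (cnJz σ) i0 hσ.2.2) {i0} (by
        intro u hu hu1 hu2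
        have hu0 : u (Sum.inr i0) = 0 := hu2 i0 (Finset.mem_singleton_self _)
        funext k
        rcases k with k | j
        · exact hu1 k
        · by_cases hj : j = i0
          · rw [hj]; exact hu0
          · have h2 := hu (cnBE (g 0) i0 j) (Ideal.subset_span (Or.inr ⟨⟨j, hj⟩, rfl⟩))
            rw [cn_b_dAt_BE (g 0) i0 j σ u hu1, hu0, mul_zero, sub_zero] at h2
            exact (mul_eq_zero.1 h2).resolve_left hσ.2.2)
    have h2 := hcar.hsum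
    rw [Finset.card_singleton] at h1
    omega
  · rintro σ hσ W f' (⟨i, rfl⟩ | ⟨j, rfl⟩)
    · have hi : i = 0 := Subsingleton.elim _ _
      subst hi
      exact cn_b_test_f (g 0) i0 hpl σ hσ.1 (hrel σ hσ) hσ.2.2 W
    · have h1 := cn_b_test_E (g 0) i0 σ (hrel σ hσ) W j.1
      obtain ⟨e2, e1, e0⟩ := hfirst W j.1
      rw [e2 _ hσ.1, e1 _ hσ.1, e0 _ hσ.1] at h1
      have h2 : eval (cnJz σ) (cnXi (g 0) i0) ^ 2 * eval σ (cnLie (cnFld W) (cnBE (g 0) i0 j.1)) = 0 := by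
        rw [h1]; ring
      exact (mul_eq_zero.1 h2).resolve_left (pow_ne_zero 2 hσ.2.2)
  · intro σ σ' hσ hσ' hz hv
    exact cn_b_det (g 0) i0 σ σ' (hrel σ hσ) (hrel σ' hσ') hσ.2.2 hz hv

/-! ### LEAF CN-RULB-E: the quadratic terminal node -/

/-- a quadratic with nonzero leading coefficient has at most two roots -/
theorem cn_b_three_roots (a b c t1 t2 t3 : ℂ) (ha : a ≠ 0) (h1 : a * t1 ^ 2 + b * t1 + c = 0)
    (h2 : a * t2 ^ 2 + b * t2 + c = 0) (h3 : a * t3 ^ 2 + b * t3 + c = 0) (h12 : t1 ≠ t2)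
    (h13 : t1 ≠ t3) (h23 : t2 ≠ t3) : False := by
  have e12 : a * (t1 + t2) + b = 0 := by
    have : (t1 - t2) * (a * (t1 + t2) + b) = 0 := by linear_combination h1 - h2
    exact (mul_eq_zero.1 this).resolve_left (sub_ne_zero.2 h12)
  have e13 : a * (t1 + t3) + b = 0 := by
    have : (t1 - t3) * (a * (t1 + t3) + b) = 0 := by linear_combination h1 - h3
    exact (mul_eq_zero.1 this).resolve_left (sub_ne_zero.2 h13)
  have : a * (t2 - t3) = 0 := by linear_combination e12 - e13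
  exact (mul_eq_zero.1 this).elim ha (sub_ne_zero.2 h23)

/-- **(QUAD-TERM)**.  PLAN: `cn_term_fin` with `κ' = Fin r`, `E = cnBEQ f i0 A B C`, `H = ξ_{i0} * A * disc`, `κ = 2`.  At a good `σ`: `ξ_{i0}(z), A(z), disc(z) ≠ 0`, `E_j(σ) = 0` (`j ≠ i0`), `G(σ) := A τ² + B τ + C = 0`.
`H ≢ 0` on `V`: `ph_isVar_mul` twice (or `cn_prod_ne`).   constraints: `cn_b_con_BE`, `cn_b_con_BQ`.
(reg) `cn_reg_crit` with `s = ∅`: `(2Aτ + B)² = disc + 4 A G = disc ≠ 0`, so `cn_b_dAt_BQ` gives `u_{v,i0} = 0`, then `cn_b_dAt_BE` gives `u_{v,j} = 0`.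
(test) `f~` as in (POS).  `E_j`: `cn_b_test_E`; `A (c2 τ² + c1 τ + c0) = c2 G + Rq1 τ + Rq0 = 0`.  `E_Q`: `cn_b_test_Q`; `A² (cubic) = (A p3 τ + s) G + Rc1 τ + Rc0 = 0`.
(few) the `v ∈ S` have `A(z) v_{i0}² + B(z) v_{i0} + C(z) = 0`, `A(z) ≠ 0`: at most two values of `v_{i0}` (three distinct roots are impossible: subtract and factor; or `Polynomial.card_roots'`), and `v` is determined by `v_{i0}` (`cn_b_rel`): `Finset.card_le_card_of_injOn` into the root set. -/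
theorem cn_b_quad {h D : ℕ} {V : Set (CnI r → ℂ)} {g : Fin 1 → MvPolynomial (CnI r) ℂ}
    (hcar : CnCar r h 1 D V g) (i0 : Fin r) (hxi : ∃ z ∈ V, eval z (cnXi (g 0) i0) ≠ 0)
    (hpl : ∀ W, CnVan V (cnL0 (g 0) i0 W (g 0)))
    (A B C' : MvPolynomial (CnI r) ℂ) (hQ : CnQd V i0 A B C') (hA : ∃ z ∈ V, eval z A ≠ 0)
    (hdisc : ∃ z ∈ V, eval z (B ^ 2 - 4 * A * C') ≠ 0)
    (hrq : ∀ W j, CnVan V (cnRq1 A B (cnF2 (g 0) i0 W j) (cnF1 (g 0) i0 W j)) ∧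
      CnVan V (cnRq0 A C' (cnF2 (g 0) i0 W j) (cnF0 (g 0) i0 W j)))
    (hrc : ∀ W, CnVan V (cnRc1 (g 0) i0 W A B C') ∧ CnVan V (cnRc0 (g 0) i0 W A B C')) :
    CnRulOut r V h 2 (cnXi (g 0) i0 * A * (B ^ 2 - 4 * A * C')) := by
  classical
  have hf : CnVan V (g 0) := hcar.van 0
  set H := cnXi (g 0) i0 * A * (B ^ 2 - 4 * A * C') with hH
  -- what a good point knows
  have hgood : ∀ σ, CnGood V (cnBEQ (g 0) i0 A B C') H σ →
      eval (cnJz σ) (cnXi (g 0) i0) ≠ 0 ∧ eval (cnJz σ) A ≠ 0 ∧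
      eval (cnJz σ) B ^ 2 - 4 * eval (cnJz σ) A * eval (cnJz σ) C' ≠ 0 ∧
      (∀ j, j ≠ i0 → eval σ (cnBE (g 0) i0 j) = 0) ∧
      eval (cnJz σ) A * cnJv σ i0 ^ 2 + eval (cnJz σ) B * cnJv σ i0 + eval (cnJz σ) C' = 0 := by
    intro σ hσ
    have h1 := hσ.2.2
    rw [hH, map_mul, map_mul] at h1
    have h2 := left_ne_zero_of_mul h1
    have h3 := right_ne_zero_of_mul h1
    refine ⟨left_ne_zero_of_mul h2, right_ne_zero_of_mul h2, ?_, ?_, ?_⟩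
    · simpa only [map_sub, map_mul, map_pow, map_ofNat] using h3
    · intro j hj
      have := hσ.2.1 j
      rwa [cnBEQ, if_neg hj] at this
    · have := hσ.2.1 i0
      rwa [cnBEQ, if_pos rfl, cn_b_eval_BQ] at this
  refine cn_term_fin hcar.isVar hcar.dim H
    (cn_b_mul_ne hcar.isVar _ _ (cn_b_mul_ne hcar.isVar _ _ hxi hA) hdisc) g hcar.van
    (cnBEQ (g 0) i0 A B C') ?_ (Fintype.card_fin r) ?_ ?_ ?_
  · intro j
    unfold cnBEQ
    split_ifs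
    · exact cn_b_con_BQ i0 A B C' hQ
    · exact cn_b_con_BE (g 0) hf i0 j
  · intro σ hσ
    obtain ⟨hx, ha, hd, hrel, hG⟩ := hgood σ hσ
    have h1 := cn_reg_crit g (cnBEQ (g 0) i0 A B C') σ (cn_b_ind g (cnJz σ) i0 hx) ∅ (by
        intro u hu hu1 _
        have hu0 : u (Sum.inr i0) = 0 := by
          have h2 := hu (cnBEQ (g 0) i0 A B C' i0) (Ideal.subset_span (Or.inr ⟨i0, rfl⟩))
          rw [cnBEQ, if_pos rfl, cn_b_dAt_BQ i0 A B C' σ u hu1] at h2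
          refine (mul_eq_zero.1 h2).resolve_left fun h0 => hd ?_
          linear_combination (2 * eval (cnJz σ) A * cnJv σ i0 + eval (cnJz σ) B) * h0
            - 4 * eval (cnJz σ) A * hG
        funext k
        rcases k with k | j
        · exact hu1 k
        · by_cases hj : j = i0
          · rw [hj]; exact hu0
          · have h2 := hu (cnBEQ (g 0) i0 A B C' j) (Ideal.subset_span (Or.inr ⟨j, rfl⟩))
            rw [cnBEQ, if_neg hj, cn_b_dAt_BE (g 0) i0 j σ u hu1, hu0, mul_zero, sub_zero] at h2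
            exact (mul_eq_zero.1 h2).resolve_left hx)
    have h2 := hcar.hsum
    rw [Finset.card_empty] at h1
    omega
  · rintro σ hσ W f' (⟨i, rfl⟩ | ⟨j, rfl⟩)
    · obtain ⟨hx, ha, hd, hrel, hG⟩ := hgood σ hσ
      have hi : i = 0 := Subsingleton.elim _ _
      subst hi
      exact cn_b_test_f (g 0) i0 hpl σ hσ.1 hrel hx W
    · obtain ⟨hx, ha, hd, hrel, hG⟩ := hgood σ hσ
      by_cases hj : j = i0
      · rw [cnBEQ, if_pos hj]
        have h1 := cn_b_test_Q (g 0) i0 σ hrel W A B C'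
        obtain ⟨e1, e0⟩ := hrc W
        have e1' := e1 _ hσ.1
        have e0' := e0 _ hσ.1
        simp only [cnRc1, cnRc0, map_sub, map_mul, map_add, map_pow] at e1' e0'
        simp only [map_add] at h1
        have h2 : eval (cnJz σ) A ^ 2 * eval (cnJz σ) (cnXi (g 0) i0) *
            eval σ (cnLie (cnFld W) (cnBQ i0 A B C')) = 0 := by
          linear_combination (eval (cnJz σ) A ^ 2) * h1 + cnJv σ i0 * e1' + e0'
            + (eval (cnJz σ) A * eval (cnJz σ) (cnL1 (g 0) W A) * cnJv σ i0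
              + (eval (cnJz σ) A * (eval (cnJz σ) (cnL0 (g 0) i0 W A)
                + eval (cnJz σ) (cnL1 (g 0) W B)) - eval (cnJz σ) (cnL1 (g 0) W A) * eval (cnJz σ) B)) * hG
        exact (mul_eq_zero.1 h2).resolve_left (mul_ne_zero (pow_ne_zero 2 ha) hx)
      · rw [cnBEQ, if_neg hj]
        have h1 := cn_b_test_E (g 0) i0 σ hrel W j
        obtain ⟨e1, e0⟩ := hrq W j
        have e1' := e1 _ hσ.1
        have e0' := e0 _ hσ.1
        simp only [cnRq1, cnRq0, map_sub, map_mul] at e1' e0'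
        have h2 : eval (cnJz σ) A * eval (cnJz σ) (cnXi (g 0) i0) ^ 2 *
            eval σ (cnLie (cnFld W) (cnBE (g 0) i0 j)) = 0 := by
          linear_combination (eval (cnJz σ) A) * h1 - cnJv σ i0 * e1' - e0'
            - eval (cnJz σ) (cnF2 (g 0) i0 W j) * hG
        exact (mul_eq_zero.1 h2).resolve_left (mul_ne_zero ha (pow_ne_zero 2 hx))
  · intro z S hS
    by_contra hcard
    push Not at hcard
    obtain ⟨v1, v2, v3, m1, m2, m3, n12, n13, n23⟩ := Finset.two_lt_card_iff.1 hcard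
    obtain ⟨hx1, ha1, -, hrel1, hG1⟩ := hgood _ (hS v1 m1)
    obtain ⟨hx2, -, -, hrel2, hG2⟩ := hgood _ (hS v2 m2)
    obtain ⟨hx3, -, -, hrel3, hG3⟩ := hgood _ (hS v3 m3)
    have hinj : ∀ v v' : Fin r → ℂ,
        (∀ j, j ≠ i0 → eval (Sum.elim z v : CnJ r → ℂ) (cnBE (g 0) i0 j) = 0) →
        (∀ j, j ≠ i0 → eval (Sum.elim z v' : CnJ r → ℂ) (cnBE (g 0) i0 j) = 0) →
        v ≠ v' → v i0 ≠ v' i0 := by
      intro v v' hr hr' hne heq
      apply hne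
      have := cn_b_det (g 0) i0 (Sum.elim z v) (Sum.elim z v') hr hr' hx1 rfl heq
      funext j
      exact congrFun this (Sum.inr j)
    exact cn_b_three_roots _ _ _ _ _ _ ha1 hG1 hG2 hG3 (hinj v1 v2 hrel1 hrel2 n12)
      (hinj v1 v3 hrel1 hrel3 n13) (hinj v2 v3 hrel2 hrel3 n23)

/-! ### LEAF CN-RULB-F: the nodes (0) and LIN -/

/-- node (0).  PLAN: at the regular point `z₀` the row `df(z₀) ≠ 0` (`LinearIndependent.ne_zero`), its `x`-entries vanish (`hxi`), so `∂f/∂Z_q (z₀) ≠ 0` for some `q`.  On a flat `Φ_μ ⊆ V`: `cn_tangent` with `(a, b) = q`, `ξ(z) = 0`; `cnSkw a q.1.1 q.1.2 = a q` (`dif_pos q.2`).  `cn_excl`. -/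
theorem cn_b_zero {h D : ℕ} {V : Set (CnI r → ℂ)} {g : Fin 1 → MvPolynomial (CnI r) ℂ}
    (hcar : CnCar r h 1 D V g) (hxi : ∀ i, CnVan V (cnXi (g 0) i)) :
    ∃ H : MvPolynomial (CnI r) ℂ, H.totalDegree ≤ D ∧ CnRulOut r V h 1 H := by
  obtain ⟨z₀, hz₀, hind⟩ := hcar.reg
  have hne : (fun j => eval z₀ (pderiv j (g 0))) ≠ 0 := hind.ne_zero 0
  have hex : ∃ j, eval z₀ (pderiv j (g 0)) ≠ 0 := by
    by_contra hcon
    push Not at hcon
    exact hne (funext hcon)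
  obtain ⟨j, hj⟩ := hex
  rcases j with q | i
  · refine ⟨pderiv (Sum.inl q) (g 0), (cn_pderiv_degree _ _).trans (hcar.deg 0),
      cn_excl h 1 _ ⟨z₀, hz₀, hj⟩ fun μ hμ z hz => ?_⟩
    have h1 := cn_tangent μ (g 0) (fun z hz => hcar.van 0 z (hμ hz)) z hz q.1.1 q.1.2
    have e1 : eval z (pderiv (Sum.inr q.1.1) (g 0)) = 0 := hxi q.1.1 z (hμ hz)
    have e2 : eval z (pderiv (Sum.inr q.1.2) (g 0)) = 0 := hxi q.1.2 z (hμ hz)
    rw [e1, e2, zero_mul, zero_mul, sub_zero] at h1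
    unfold cnSkw at h1
    rw [dif_pos q.2] at h1
    exact h1
  · exact absurd (hxi i z₀ hz₀) hj

/-- LIN.  PLAN: `cn_rat (K := K + 1)` with `m = ξ_{i0} * u1`, `N_j = u1 * A_{i0 j} - u0 * ξ_j`: `m v_j = u1 (A_{i0 j} + τ ξ_j) = u1 A_{i0 j} - u0 ξ_j` (`cn_b_tan`, `hlin`); `m ≢ 0` by `ph_isVar_mul`; degrees `≤ D + K D`. -/
theorem cn_b_lin {h D K : ℕ} {V : Set (CnI r → ℂ)} {g : Fin 1 → MvPolynomial (CnI r) ℂ}
    (hcar : CnCar r h 1 D V g) (i0 : Fin r) (hxi : ∃ z ∈ V, eval z (cnXi (g 0) i0) ≠ 0)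
    (u1 u0 : MvPolynomial (CnI r) ℂ) (hd1 : u1.totalDegree ≤ K * D) (hd0 : u0.totalDegree ≤ K * D)
    (hu1 : ∃ z ∈ V, eval z u1 ≠ 0) (hlin : CnLn V i0 u1 u0) :
    ∃ H : MvPolynomial (CnI r) ℂ, H.totalDegree ≤ (3 * (K + 1) + r + 1) * D ∧
      CnRulOut r V h 1 H := by
  have hf : CnVan V (g 0) := hcar.van 0
  have hfd := hcar.deg 0
  have hKD : (K + 1) * D = K * D + D := by ring
  refine cn_rat (K := K + 1) hcar (cnXi (g 0) i0 * u1)
    (fun j => u1 * cnAm (g 0) i0 j - u0 * cnXi (g 0) j) ?_ ?_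
    (cn_b_mul_ne hcar.isVar _ _ hxi hu1) ?_
  · have := cn_b_deg_xi (g 0) D hfd i0
    refine (totalDegree_mul _ _).trans ?_
    omega
  · intro j
    have h1 := cn_b_deg_xi (g 0) D hfd j
    have h2 := cn_b_deg_am (g 0) D hfd i0 j
    refine (totalDegree_sub _ _).trans (max_le ?_ ?_)
    · refine (totalDegree_mul _ _).trans ?_
      omega
    · refine (totalDegree_mul _ _).trans ?_
      omega
  · intro μ hμ z hz j
    have h1 := cn_b_tan (g 0) μ (fun z hz => hf z (hμ hz)) z hz i0 j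
    have h2 := hlin μ hμ z hz
    simp only [map_mul, map_sub]
    linear_combination (eval z u1) * h1 + (eval z (cnXi (g 0) j)) * h2

/-! ### Glue: the tree -/

/-- LIN or EXCL -/
theorem cn_b_lin' {h D K : ℕ} {V : Set (CnI r → ℂ)} {g : Fin 1 → MvPolynomial (CnI r) ℂ}
    (hcar : CnCar r h 1 D V g) (i0 : Fin r) (hxi : ∃ z ∈ V, eval z (cnXi (g 0) i0) ≠ 0)
    (u1 u0 : MvPolynomial (CnI r) ℂ) (hd1 : u1.totalDegree ≤ K * D) (hd0 : u0.totalDegree ≤ K * D)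
    (hne : ¬ (CnVan V u1 ∧ CnVan V u0)) (hlin : CnLn V i0 u1 u0) :
    ∃ H : MvPolynomial (CnI r) ℂ, H.totalDegree ≤ (3 * (K + 1) + r + 1) * D ∧
      CnRulOut r V h 1 H := by
  by_cases h1 : CnVan V u1
  · have h0 : ¬ CnVan V u0 := fun h0 => hne ⟨h1, h0⟩
    unfold CnVan at h0
    push Not at h0
    obtain ⟨z, hz, hzne⟩ := h0
    refine ⟨u0, hd0.trans (Nat.mul_le_mul_right D (by omega)),
      cn_excl h 1 u0 ⟨z, hz, hzne⟩ fun μ hμ z hz => ?_⟩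
    have := hlin μ hμ z hz
    rwa [h1 z (hμ hz), zero_mul, zero_add] at this
  · unfold CnVan at h1
    push Not at h1
    exact cn_b_lin hcar i0 hxi u1 u0 hd1 hd0 h1 hlin

/-- **RUL for `c = 1`** -/
theorem cn_rul_eq1 {h D : ℕ} {V : Set (CnI r → ℂ)} {g : Fin 1 → MvPolynomial (CnI r) ℂ}
    (hcar : CnCar r h 1 D V g) :
    ∃ H : MvPolynomial (CnI r) ℂ, H.totalDegree ≤ (40 + r) * D ∧ CnRulOut r V h 2 H := by
  classical
  have hf : CnVan V (g 0) := hcar.van 0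
  have hfd : (g 0).totalDegree ≤ D := hcar.deg 0
  have hfin : ∀ {K : ℕ}, K ≤ 40 + r → (∃ H : MvPolynomial (CnI r) ℂ, H.totalDegree ≤ K * D ∧
      CnRulOut r V h 1 H) → ∃ H : MvPolynomial (CnI r) ℂ, H.totalDegree ≤ (40 + r) * D ∧
      CnRulOut r V h 2 H := by
    rintro K hK ⟨H, hd, hO⟩
    exact ⟨H, hd.trans (Nat.mul_le_mul_right D hK), cn_rulOut_mono (by norm_num) hO⟩
  -- node (0)
  by_cases hxi : ∀ i, CnVan V (cnXi (g 0) i)
  · obtain ⟨H, hd, hO⟩ := cn_b_zero hcar hxi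
    exact hfin (K := 1) (by omega) ⟨H, by simpa using hd, hO⟩
  push Not at hxi
  obtain ⟨i0, hxi0⟩ := hxi
  unfold CnVan at hxi0
  push Not at hxi0
  -- node (1)
  by_cases hpl : ∀ W, CnVan V (cnL0 (g 0) i0 W (g 0))
  swap
  · push Not at hpl
    obtain ⟨W, hW⟩ := hpl
    unfold CnVan at hW
    push Not at hW
    refine hfin (K := 2) (by omega) ⟨cnL0 (g 0) i0 W (g 0), ?_, cn_excl h 1 _ hW fun μ hμ z hz =>
      cn_b_pluecker_flat (g 0) μ (fun z hz => hf z (hμ hz)) i0 W z hz⟩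
    have := cn_b_deg_L0 (g 0) D hfd i0 W (g 0) D hfd
    omega
  -- node (2)
  by_cases hfirst : ∀ W j, CnVan V (cnF2 (g 0) i0 W j) ∧ CnVan V (cnF1 (g 0) i0 W j) ∧
      CnVan V (cnF0 (g 0) i0 W j)
  · exact hfin (K := 1) (by omega) ⟨cnXi (g 0) i0, by simpa using cn_b_deg_xi (g 0) D hfd i0,
      cn_b_pos hcar i0 hxi0 hpl hfirst⟩
  push Not at hfirst
  obtain ⟨W, j, hWj⟩ := hfirst
  obtain ⟨hdA, hdB, hdC⟩ := cn_b_deg_first (g 0) D hfd i0 W j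
  have hQ := cn_b_first_flat (g 0) hf i0 W j
  set A := cnF2 (g 0) i0 W j with hAdef
  set B := cnF1 (g 0) i0 W j with hBdef
  set C' := cnF0 (g 0) i0 W j with hCdef
  -- node (3)
  by_cases hA : CnVan V A
  · have hlin : CnLn V i0 B C' := fun μ hμ z hz => by
      have := hQ μ hμ z hz
      rwa [hA z (hμ hz), zero_mul, zero_add] at this
    exact hfin (by omega) (cn_b_lin' (K := 3) hcar i0 hxi0 B C' hdB hdC
      (fun hBC => hWj hA hBC.1 hBC.2) hlin)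
  have hA' : ∃ z ∈ V, eval z A ≠ 0 := by
    unfold CnVan at hA
    push Not at hA
    exact hA
  by_cases hrq : ∀ W j, CnVan V (cnRq1 A B (cnF2 (g 0) i0 W j) (cnF1 (g 0) i0 W j)) ∧
      CnVan V (cnRq0 A C' (cnF2 (g 0) i0 W j) (cnF0 (g 0) i0 W j))
  swap
  · push Not at hrq
    obtain ⟨W', j', hne⟩ := hrq
    obtain ⟨h2, h1, h0⟩ := cn_b_deg_first (g 0) D hfd i0 W' j'
    obtain ⟨e1, e0⟩ := cn_b_deg_rq A B C' _ _ _ (3 * D) hdA hdB hdC h2 h1 h0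
    exact hfin (by omega) (cn_b_lin' (K := 6) hcar i0 hxi0 _ _ (by omega) (by omega)
      (fun hh => hne hh.1 hh.2) (cn_b_rq_flat i0 A B C' _ _ _ hQ (cn_b_first_flat (g 0) hf i0 W' j')))
  by_cases hrc : ∀ W, CnVan V (cnRc1 (g 0) i0 W A B C') ∧ CnVan V (cnRc0 (g 0) i0 W A B C')
  swap
  · push Not at hrc
    obtain ⟨W', hne⟩ := hrc
    obtain ⟨e1, e0⟩ := cn_b_deg_rc (g 0) D hfd i0 W' A B C' hdA hdB hdC
    exact hfin (by omega) (cn_b_lin' (K := 10) hcar i0 hxi0 _ _ e1 e0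
      (fun hh => hne hh.1 hh.2) (cn_b_rc_flat (g 0) hf i0 W' A B C' hQ))
  by_cases hdisc : CnVan V (B ^ 2 - 4 * A * C')
  · refine hfin (by omega) (cn_b_lin (K := 3) hcar i0 hxi0 (2 * A) B (cn_b_deg_two A _ hdA) hdB ?_
      (cn_b_disc_flat i0 A B C' hQ hdisc))
    obtain ⟨z, hz, hne⟩ := hA'
    exact ⟨z, hz, by rw [map_mul]; exact mul_ne_zero (by simp) hne⟩
  · unfold CnVan at hdisc
    push Not at hdisc
    exact ⟨_, (cn_b_deg_H _ A B C' D (cn_b_deg_xi (g 0) D hfd i0) hdA hdB hdC).trans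
      (Nat.mul_le_mul_right D (by omega)), cn_b_quad hcar i0 hxi0 hpl A B C' hQ hA' hdisc hrq hrc⟩

end Claimed.Agent.R273
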