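import Claimed.Agent.R273.CnDer

/-!
# Row 273, App A, block LOW, unit RUL, file 2: the TERMINAL THEOREM `cn_term`.  Architect helper120.  Prefix `cn`.

Situation at a terminal node of the decision tree of RUL.  `V` irreducible, `dim V = s0 + h`, `g_i ∈ I(V)`; EXPLICIT constraints `E_j ∈ ℂ[Z,x,v]`, `j ∈ κ'` (`CnCon V (E j)`), a section `H ∈ ℂ[Z,x]`.
`T = {σ = (z,v) | z ∈ V, E_j(σ) = 0}`; `σ ∈ T` is GOOD if `H(z) ≠ 0` (`CnGood`).  `d := s0 + h + r - card κ'`.  Hypotheses: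
 (reg)  at a good point the tangent space of the system `(g~_i, E_j)` has dimension `≤ d`;
 (test) at a good point `δ_W g~_i = 0`, `δ_W E_j = 0` for all `W`;
 (few)  a polynomial map `ψ` from `T` to an irreducible `B` of dimension `d` has `≤ κ` good points in each fibre.
Conclusion: `≤ κ` irreducible families `Y`, `dim Y = d - s0`, all flats in `V`, containing every `μ` with `Φ_μ ⊆ V`, `Φ_μ ⊄ Z(H)`.

PROOF (`cn_term`).  `G := rename inl '' I(V) ∪ range E`, `Zl G = T`.  `𝒲` := the components `Σ` of `G` containing a good point (finite: `ph_comps_finite`).  For `Σ = Z(P) ∈ 𝒲`: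
 (1) `dim Σ ≥ d`: `ph_krull_rel` for `prodSet V univ` (irreducible of dimension `s0 + h + r`) cut by the `card κ'` equations `E_j`.
 (2) at a good `σ ∈ Σ`: `dim Σ ≤ finrank tanSp P σ ≤ finrank tanSp (span (g~, E)) σ ≤ d` (`ph_tan_ge`, (reg)).  So `dim Σ = d`.
 (3) `cn_inv` with `h₀ = rename inl H ∉ P`: `δ_W P ⊆ P`.  (4) `cn_flow`, `cn_fld_line`: `θ_W Σ ⊆ Σ`.  (5) `cn_family`: `Y_Σ := zcl (ρ(Σ))`, `ρ(Z,x,v) = (v, x + Zv)`.
 (6) `card 𝒲 ≤ κ`: `cn_comp_count`; only one component passes through a good point (`ph_smooth_unique`, (reg), (1)).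
 (7) covering: `Φ_μ ⊆ V`, `z = cnGr μ Z`, `H(z) ≠ 0`: `σ = cnLift μ Z ∈ T` is good (`E_j` are constraints), lies on a component `Σ ∈ 𝒲` (`ph_Zl_eq_iUnion_comps`), `μ = ρ(σ) ∈ Y_Σ`.
-/

set_option autoImplicit false

namespace Claimed.Agent.R273

open MvPolynomial Module

/-! ### LEAF CN-TERM-A: counting components by the fibres of a map -/

/-- one component: the image of its good points contains a dense open subset of `B` -/
theorem cn_comp_dense {ι β : Type*} [Fintype ι] [Fintype β] (G : Set (MvPolynomial ι ℂ))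
    (h₀ : MvPolynomial ι ℂ) (B : Set (β → ℂ)) (hB : IsVar B) (ψ : β → MvPolynomial ι ℂ)
    (hψ : ∀ σ ∈ Zl G, pmap ψ σ ∈ B) (κ : ℕ)
    (hfew : ∀ S : Finset (ι → ℂ), (∀ σ ∈ S, σ ∈ Zl G ∧ eval σ h₀ ≠ 0) →
      (∀ σ ∈ S, ∀ σ' ∈ S, pmap ψ σ = pmap ψ σ') → S.card ≤ κ)
    (W : Set (ι → ℂ)) (hWc : IsCompOf W G) (hgood : ∃ σ ∈ W, eval σ h₀ ≠ 0)
    (hdim : vdim B ≤ vdim W) :
    ∃ a : MvPolynomial β ℂ, (∃ b ∈ B, eval b a ≠ 0) ∧
      ∀ b ∈ B, eval b a ≠ 0 → ∃ σ ∈ W, eval σ h₀ ≠ 0 ∧ pmap ψ σ = b := by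
  classical
  have hW : IsVar W := ph_isCompOf_isVar hWc
  have hWG : W ⊆ Zl G := ph_isCompOf_subset hWc
  obtain ⟨σ, hσW, hσne⟩ := hgood
  -- (a) the fibre component through `σ`
  set G₀ : Set (MvPolynomial ι ℂ) := {f | ∀ y ∈ W, eval y f = 0} with hG₀
  have hZ₀ : Zl G₀ = W := cn_Zl_vanishing hW
  set G₁ : Set (MvPolynomial ι ℂ) := G₀ ∪ Set.range fun j => ψ j - C (pmap ψ σ j) with hG₁
  have hσ₁ : σ ∈ Zl G₁ := by
    rintro f (hf | ⟨j, rfl⟩)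
    · exact hf σ hσW
    · rw [map_sub, eval_C, sub_eq_zero]
      rfl
  rw [ph_Zl_eq_iUnion_comps G₁] at hσ₁
  obtain ⟨Φ, hΦ, hσΦ⟩ := Set.mem_iUnion₂.mp hσ₁
  have hΦ : IsCompOf Φ G₁ := hΦ
  have hΦsub : Φ ⊆ Zl G₁ := ph_isCompOf_subset hΦ
  have hΦW : Φ ⊆ W := by
    intro x hx
    rw [← hZ₀]
    exact fun f hf => hΦsub hx f (Or.inl hf)
  have hΦψ : ∀ x ∈ Φ, pmap ψ x = pmap ψ σ := by
    intro x hx
    funext j
    have := hΦsub hx _ (Or.inr ⟨j, rfl⟩)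
    rw [map_sub, eval_C, sub_eq_zero] at this
    exact this
  have hfin : {x ∈ Φ | eval x h₀ ≠ 0}.Finite := by
    by_contra hinf
    obtain ⟨S, hS, hcard⟩ := Set.Infinite.exists_subset_card_eq hinf (κ + 1)
    have := hfew S (fun x hx => ⟨hWG (hΦW (hS hx).1), (hS hx).2⟩)
      (fun x hx x' hx' => by rw [hΦψ x (hS hx).1, hΦψ x' (hS hx').1])
    omega
  have hΦ0 : vdim Φ = 0 :=
    cn_vdim_zero_of_open_finite (ph_isCompOf_isVar hΦ) h₀ ⟨σ, hσΦ, hσne⟩ hfin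
  -- (b) the image is dense
  have hge := ph_fib_ge hW G₀ hZ₀ ψ (pmap ψ σ) Φ hΦ
  rw [hΦ0, zero_add] at hge
  have hsubB : zcl (pmap ψ '' W) ⊆ B := by
    rw [← ph_zcl_of_isVar hB]
    apply ph_zcl_mono
    rintro _ ⟨x, hx, rfl⟩
    exact hψ x (hWG hx)
  have hzB : zcl (pmap ψ '' W) = B :=
    cn_isVar_eq hB (ph_isVar_zcl_image hW ψ) hsubB (hdim.trans hge)
  -- (c) the open part
  have hWo : IsVar (cnOpen W h₀) := cn_open_isVar hW h₀ ⟨σ, hσW, hσne⟩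
  set ψo : β → MvPolynomial (ι ⊕ Unit) ℂ := fun j => rename Sum.inl (ψ j) with hψo
  have hpo : ∀ w : ι ⊕ Unit → ℂ, pmap ψo w = pmap ψ (fun i => w (Sum.inl i)) := by
    intro w
    funext j
    show eval w (rename Sum.inl (ψ j)) = _
    rw [eval_rename]
    rfl
  have hzo : zcl (pmap ψo '' cnOpen W h₀) = B := by
    apply Set.Subset.antisymm
    · rw [← hzB]
      apply ph_zcl_mono
      rintro _ ⟨w, hw, rfl⟩
      exact ⟨_, hw.1, (hpo w).symm⟩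
    · intro b hb
      rw [ph_mem_zcl]
      intro f hf
      rw [← hzB, ph_mem_zcl] at hb
      apply hb f
      rintro _ ⟨y, hy, rfl⟩
      rw [ph_eval_pmap]
      refine cn_dense hW h₀ ⟨σ, hσW, hσne⟩ (aeval ψ f) (fun x hx hne => ?_) y hy
      rw [← ph_eval_pmap]
      apply hf
      refine ⟨Sum.elim x (fun _ => (eval x h₀)⁻¹), ⟨hx, ?_⟩, ?_⟩
      · show (eval x h₀)⁻¹ * eval x h₀ = 1
        exact inv_mul_cancel₀ hne
      · rw [hpo]
        rfl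
  obtain ⟨a, ha1, ha2⟩ := ph_image_dense hWo ψo
  rw [hzo] at ha1 ha2
  refine ⟨a, ha1, fun b hb hne => ?_⟩
  obtain ⟨w, hw, rfl⟩ := ha2 b hb hne
  refine ⟨_, hw.1, ?_, (hpo w).symm⟩
  intro h0
  have := hw.2
  rw [h0, mul_zero] at this
  exact zero_ne_one this

/-- **(COUNT-COMP)**.  PLAN.  Let `W ∈ 𝒲`, `σ ∈ W` good (`h₀(σ) ≠ 0`).  (a) A component `Φ ∋ σ` of the fibre of `ψ|_W` through `σ` has `vdim Φ = 0`: `Φ ∩ {h₀ ≠ 0}` is a set of good points of `Zl G` in one fibre of `ψ`, all its finite subsets have `≤ κ` elements, so it is finite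
(`Set.finite_of_forall_finset_card_le`-type: otherwise `Set.Infinite.exists_subset_card_eq`); `cn_vdim_zero_of_open_finite`.  (b) `ph_fib_ge` (with `G₀ := I(W)`, `cn_Zl_vanishing`; a component through `σ` exists by `ph_Zl_eq_iUnion_comps`): `vdim W ≤ vdim (zcl (ψ '' W))`; `zcl (ψ '' W) ⊆ B` (`B` closed: `ph_zcl_of_isVar`, `ph_zcl_mono`),
it is irreducible (`ph_isVar_zcl_image`) with `vdim ≥ vdim B`, so `= B` (`cn_isVar_eq`).  (c) `W° := cnOpen W h₀` is irreducible (`cn_open_isVar`); `ψ° := ψ ∘ pr` (`rename inl`); `ψ° '' W° = ψ '' (W ∩ {h₀ ≠ 0})`; `zcl` of it is again `B` (a polynomial `a` vanishing on it: `a ∘ ψ` vanishes on `W ∩ {h₀ ≠ 0}`, hence on `W` by `cn_dense`, hence `a = 0` on `zcl (ψ '' W) = B`).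
`ph_image_dense` for `W°`: `a_W` with `a_W ≢ 0` on `B` and `B \ Z(a_W) ⊆ ψ '' (W ∩ {h₀ ≠ 0})`.  (d) `cn_prod_ne`: a point `b ∈ B` with `a_W(b) ≠ 0` for all `W ∈ 𝒲`; choose good `σ_W ∈ W` with `ψ(σ_W) = b`; `W ↦ σ_W` is injective on `𝒲` by `huniq`; `hfew` for the image finset. -/
theorem cn_comp_count {ι β : Type*} [Fintype ι] [Fintype β] (G : Set (MvPolynomial ι ℂ))
    (h₀ : MvPolynomial ι ℂ) (B : Set (β → ℂ)) (hB : IsVar B) (ψ : β → MvPolynomial ι ℂ)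
    (hψ : ∀ σ ∈ Zl G, pmap ψ σ ∈ B) (κ : ℕ)
    (hfew : ∀ S : Finset (ι → ℂ), (∀ σ ∈ S, σ ∈ Zl G ∧ eval σ h₀ ≠ 0) →
      (∀ σ ∈ S, ∀ σ' ∈ S, pmap ψ σ = pmap ψ σ') → S.card ≤ κ)
    (𝒲 : Finset (Set (ι → ℂ)))
    (h𝒲 : ∀ W ∈ 𝒲, IsCompOf W G ∧ (∃ σ ∈ W, eval σ h₀ ≠ 0) ∧ vdim B ≤ vdim W)
    (huniq : ∀ W ∈ 𝒲, ∀ W' ∈ 𝒲, ∀ σ ∈ W, σ ∈ W' → eval σ h₀ ≠ 0 → W = W') :
    𝒲.card ≤ κ := by
  classical
  have hex : ∀ W : Set (ι → ℂ), ∃ a : MvPolynomial β ℂ, W ∈ 𝒲 → ((∃ b ∈ B, eval b a ≠ 0) ∧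
      ∀ b ∈ B, eval b a ≠ 0 → ∃ σ ∈ W, eval σ h₀ ≠ 0 ∧ pmap ψ σ = b) := by
    intro W
    by_cases hW : W ∈ 𝒲
    · obtain ⟨h1, h2, h3⟩ := h𝒲 W hW
      obtain ⟨a, ha⟩ := cn_comp_dense G h₀ B hB ψ hψ κ hfew W h1 h2 h3
      exact ⟨a, fun _ => ha⟩
    · exact ⟨0, fun h => absurd h hW⟩
  choose a ha using hex
  obtain ⟨b, hbB, hb⟩ := cn_prod_ne hB 𝒲 a (fun W hW => (ha W hW).1)
  rw [map_prod, Finset.prod_ne_zero_iff] at hb
  have hex2 : ∀ W : Set (ι → ℂ), ∃ σ : ι → ℂ, W ∈ 𝒲 → (σ ∈ W ∧ eval σ h₀ ≠ 0 ∧ pmap ψ σ = b) := by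
    intro W
    by_cases hW : W ∈ 𝒲
    · obtain ⟨σ, hσ⟩ := (ha W hW).2 b hbB (hb W hW)
      exact ⟨σ, fun _ => hσ⟩
    · exact ⟨0, fun h => absurd h hW⟩
  choose s hs using hex2
  have hinj : Set.InjOn s (𝒲 : Set (Set (ι → ℂ))) := by
    intro W hW W' hW' he
    have h1 := hs W hW
    have h2 := hs W' hW'
    exact huniq W hW W' hW' (s W) h1.1 (he ▸ h2.1) h1.2.1
  rw [← Finset.card_image_of_injOn hinj]
  apply hfew
  · intro σ hσ
    obtain ⟨W, hW, rfl⟩ := Finset.mem_image.mp hσ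
    exact ⟨ph_isCompOf_subset (h𝒲 W hW).1 (hs W hW).1, (hs W hW).2.1⟩
  · intro σ hσ σ' hσ'
    obtain ⟨W, hW, rfl⟩ := Finset.mem_image.mp hσ
    obtain ⟨W', hW', rfl⟩ := Finset.mem_image.mp hσ'
    rw [(hs W hW).2.2, (hs W' hW').2.2]

variable {r : ℕ}

/-! ### LEAF CN-TERM-B: the family of an invariant incidence variety -/

/-- `ρ(Z, x, v) = (v, x + Z v)`: the parameter of the flat through `(Z, x)` with vector `v` -/
noncomputable def cnRho : CnP r → MvPolynomial (CnJ r) ℂ :=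
  Sum.elim (fun i => X (Sum.inr i))
    (fun i => X (Sum.inl (Sum.inr i))
      + ∑ j, cnSkw (fun q => X (Sum.inl (Sum.inl q))) i j * X (Sum.inr j))

/-- the value of `ρ` -/
theorem cn_pmap_rho (σ : CnJ r → ℂ) : pmap cnRho σ
    = Sum.elim (cnJv σ) (fun i => cnX (cnJz σ) i + ∑ j, cnMat (cnZ (cnJz σ)) i j * cnJv σ j) := by
  funext k
  rcases k with i | i
  · simp [pmap, cnRho, cnJv]
  · simp only [pmap, cnRho, Sum.elim_inr]
    rw [map_add, eval_X, map_sum]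
    congr 1
    refine Finset.sum_congr rfl fun j _ => ?_
    rw [map_mul, eval_X, cn_eval_skw]
    simp only [eval_X]
    rfl

theorem cn_rho_lift (μ : CnP r → ℂ) (Z : CnSk r → ℂ) : pmap cnRho (cnLift μ Z) = μ := by
  rw [cn_pmap_rho]
  funext k
  rcases k with i | i
  · rfl
  · show cnPi Z μ i + ∑ j, cnMat Z i j * cnV μ j = μ (Sum.inr i)
    unfold cnPi
    rw [sub_add_cancel]
    rfl

/-- `σ = cnLift (ρ σ) Z_σ` (`cn_eq_lift`) -/
theorem cn_lift_rho (σ : CnJ r → ℂ) : cnLift (pmap cnRho σ) (cnZ (cnJz σ)) = σ := by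
  rw [cn_pmap_rho]
  exact (cn_eq_lift σ).symm

/-- the polynomial map `Θ(Z, μ) = cnLift μ Z` -/
noncomputable def cnLiftPoly : CnJ r → MvPolynomial (CnSk r ⊕ CnP r) ℂ :=
  Sum.elim (Sum.elim (fun q => X (Sum.inl q))
    (fun i => X (Sum.inr (Sum.inr i))
      - ∑ j, cnSkw (fun q => X (Sum.inl q)) i j * X (Sum.inr (Sum.inl j))))
    (fun i => X (Sum.inr (Sum.inl i)))

theorem cn_pmap_liftPoly (Z : CnSk r → ℂ) (μ : CnP r → ℂ) :
    pmap cnLiftPoly (Sum.elim Z μ) = cnLift μ Z := by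
  funext k
  rcases k with (q | i) | i
  · simp [pmap, cnLiftPoly, cnLift, cnGr]
  · simp only [pmap, cnLiftPoly, cnLift, cnGr, Sum.elim_inl, Sum.elim_inr, cnPi]
    rw [map_sub, eval_X, map_sum]
    congr 1
    refine Finset.sum_congr rfl fun j _ => ?_
    rw [map_mul, eval_X, cn_eval_skw]
    simp only [eval_X]
    rfl
  · simp [pmap, cnLiftPoly, cnLift, cnV]

/-- all lifted flats with parameter in the closure of `ρ(Σ)` lie in the invariant `Σ` -/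
theorem cn_lift_mem (Sg : Set (CnJ r → ℂ)) (hS : IsVar Sg)
    (hinv : ∀ σ ∈ Sg, ∀ W, cnTh W σ ∈ Sg) (μ : CnP r → ℂ) (hμ : μ ∈ zcl (pmap cnRho '' Sg))
    (Z : CnSk r → ℂ) : cnLift μ Z ∈ Sg := by
  have h0 : ∀ μ' ∈ pmap cnRho '' Sg, cnLift μ' Z ∈ Sg := by
    rintro _ ⟨σ, hσ, rfl⟩
    have h1 := hinv σ hσ (Z - cnZ (cnJz σ))
    have h2 : cnTh (Z - cnZ (cnJz σ)) σ = cnLift (pmap cnRho σ) Z := by
      conv_lhs => rw [← cn_lift_rho σ]
      rw [cn_th_lift, cn_lift_rho σ, add_sub_cancel]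
    rw [h2] at h1
    exact h1
  have hp : ∀ μ' : CnP r → ℂ, pmap (Sum.elim (fun q => C (Z q)) X :
      CnSk r ⊕ CnP r → MvPolynomial (CnP r) ℂ) μ' = Sum.elim Z μ' := by
    intro μ'
    funext k
    rcases k with q | k <;> simp [pmap]
  apply cn_mem_of_isVar hS
  intro f hf
  rw [← cn_pmap_liftPoly, ← hp, ph_eval_pmap, ph_eval_pmap]
  apply (ph_mem_zcl _ μ).mp hμ
  intro μ' hμ'
  rw [← ph_eval_pmap, ← ph_eval_pmap, hp, cn_pmap_liftPoly]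
  exact hf _ (h0 μ' hμ')

/-- **(FAMILY)**.  `Y := zcl (ρ '' Σ)`.  PLAN.  (a) `ph_isVar_zcl_image`.
(b) for `μ = ρ(σ)`, `σ ∈ Σ`: the point `cnGr μ Z'` of `Φ_μ` is `cnJz (θ_{Z' - Z_σ} σ)` (`cn_lift_rho`, `cn_th_lift`), in `V` by `hinv`, `hsub`.  For `μ ∈ Y`: fix `Z'` and `f ∈ I(V)`; `μ ↦ f(cnGr μ Z')` is a polynomial in `μ`
(`aeval` of the affine components of `cnGr · Z'`), vanishing on `ρ '' Σ`, hence on `zcl`; `cn_mem_of_isVar`; `cn_flat_eq_range`.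
(c) `vdim Σ ≤ s0 + vdim Y`: `Σ ⊆ Θ '' (prodSet univ Y)`, `Θ(Z, μ) = cnLift μ Z` polynomial; `ph_vdim_mono`, `ph_subset_zcl`, `ph_vdim_zcl_image_le` (`ph_prod_isVar`), `ph_prod_vdim`, `ph_univ`, `cn_card_sk`.
(d) `s0 + vdim Y ≤ vdim Σ`: `cnLift μ Z' ∈ Σ` for `μ ∈ ρ '' Σ` (`hinv`), hence for `μ ∈ Y` (same closure argument with `f ∈ I(Σ)`); so `prodSet univ Y ⊆ Θ' '' Σ`, `Θ'(σ) = (Z_σ, ρ σ)`; `ph_vdim_zcl_image_le` for `Σ`. -/
theorem cn_family {V : Set (CnI r → ℂ)} (hV : IsVar V) (Sg : Set (CnJ r → ℂ)) (hS : IsVar Sg)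
    (hsub : ∀ σ ∈ Sg, cnJz σ ∈ V) (hinv : ∀ σ ∈ Sg, ∀ W, cnTh W σ ∈ Sg) :
    IsVar (zcl (pmap cnRho '' Sg)) ∧ (∀ μ ∈ zcl (pmap cnRho '' Sg), cnFlat μ ⊆ V) ∧
      r.choose 2 + vdim (zcl (pmap cnRho '' Sg)) = vdim Sg := by
  have hY : IsVar (zcl (pmap cnRho '' Sg)) := ph_isVar_zcl_image hS cnRho
  have hP : IsVar (prodSet (Set.univ : Set (CnSk r → ℂ)) (zcl (pmap cnRho '' Sg))) :=
    ph_prod_isVar ph_univ.1 hY
  have hPd : vdim (prodSet (Set.univ : Set (CnSk r → ℂ)) (zcl (pmap cnRho '' Sg)))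
      = r.choose 2 + vdim (zcl (pmap cnRho '' Sg)) := by
    rw [ph_prod_vdim ph_univ.1 hY, ph_univ.2.1, cn_card_sk]
  refine ⟨hY, ?_, ?_⟩
  · intro μ hμ z hz
    have hz' : z = cnGr μ (cnZ z) := (cn_mem_flat_iff μ z).mp hz
    rw [hz', ← cn_Jz_lift]
    exact hsub _ (cn_lift_mem Sg hS hinv μ hμ _)
  · rw [← hPd]
    apply le_antisymm
    · -- `univ × Y ⊆ Θ'(Σ)`
      have h1 : prodSet (Set.univ : Set (CnSk r → ℂ)) (zcl (pmap cnRho '' Sg))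
          ⊆ zcl (pmap (Sum.elim (fun q => X (Sum.inl (Sum.inl q))) cnRho :
            CnSk r ⊕ CnP r → MvPolynomial (CnJ r) ℂ) '' Sg) := by
        refine Set.Subset.trans ?_ (ph_subset_zcl _)
        intro w hw
        refine ⟨cnLift (fun k => w (Sum.inr k)) (fun q => w (Sum.inl q)),
          cn_lift_mem Sg hS hinv _ hw.2 _, ?_⟩
        funext k
        rcases k with q | k
        · simp [pmap, cnLift, cnGr]
        · exact congrFun (cn_rho_lift (fun k => w (Sum.inr k)) (fun q => w (Sum.inl q))) k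
      exact (ph_vdim_mono h1).trans (ph_vdim_zcl_image_le hS _)
    · -- `Σ ⊆ Θ(univ × Y)`
      have h1 : Sg ⊆ zcl (pmap cnLiftPoly ''
          prodSet (Set.univ : Set (CnSk r → ℂ)) (zcl (pmap cnRho '' Sg))) := by
        refine Set.Subset.trans ?_ (ph_subset_zcl _)
        intro σ hσ
        refine ⟨Sum.elim (cnZ (cnJz σ)) (pmap cnRho σ), ⟨trivial, ?_⟩, ?_⟩
        · exact ph_subset_zcl _ ⟨σ, hσ, rfl⟩
        · rw [cn_pmap_liftPoly, cn_lift_rho]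
      exact (ph_vdim_mono h1).trans (ph_vdim_zcl_image_le hP _)

/-! ### The terminal theorem -/

/-- good points of the incidence set `T` -/
def CnGood {κ' : Type} (V : Set (CnI r → ℂ)) (E : κ' → MvPolynomial (CnJ r) ℂ)
    (H : MvPolynomial (CnI r) ℂ) (σ : CnJ r → ℂ) : Prop :=
  cnJz σ ∈ V ∧ (∀ j, eval σ (E j) = 0) ∧ eval (cnJz σ) H ≠ 0

/-- the system `(g~_i, E_j)` -/
def cnSysJ {c : ℕ} {κ' : Type} (g : Fin c → MvPolynomial (CnI r) ℂ)
    (E : κ' → MvPolynomial (CnJ r) ℂ) : Set (MvPolynomial (CnJ r) ℂ) :=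
  Set.range (fun i => rename Sum.inl (g i)) ∪ Set.range E

theorem cn_Zl_rename_inl {ι κ : Type*} [Fintype ι] [Fintype κ] {V : Set (ι → ℂ)} (hV : IsVar V) :
    Zl (rename Sum.inl '' {f : MvPolynomial ι ℂ | ∀ y ∈ V, eval y f = 0} :
      Set (MvPolynomial (ι ⊕ κ) ℂ)) = prodSet V Set.univ := by
  ext z
  constructor
  · intro h
    refine ⟨cn_mem_of_isVar hV _ fun f hf => ?_, trivial⟩
    have := h (rename Sum.inl f) ⟨f, hf, rfl⟩
    rwa [eval_rename] at this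
  · rintro ⟨h1, _⟩ _ ⟨f, hf, rfl⟩
    rw [eval_rename]
    exact hf _ h1

theorem cn_tanSp_anti {ι : Type*} [Fintype ι] {I J : Ideal (MvPolynomial ι ℂ)} (h : I ≤ J)
    (z : ι → ℂ) : tanSp J z ≤ tanSp I z := fun _ hv f hf => hv f (h hf)

/-- **(TERM)** -/
theorem cn_term {h c d κ : ℕ} {κ' β : Type} [Fintype κ'] [Fintype β]
    {V : Set (CnI r → ℂ)} (hV : IsVar V) (hdim : vdim V = r.choose 2 + h)
    (H : MvPolynomial (CnI r) ℂ)
    (g : Fin c → MvPolynomial (CnI r) ℂ) (hg : ∀ i, ∀ z ∈ V, eval z (g i) = 0)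
    (E : κ' → MvPolynomial (CnJ r) ℂ) (hcon : ∀ j, CnCon V (E j))
    (hd : d + Fintype.card κ' = r.choose 2 + h + r)
    (hreg : ∀ σ, CnGood V E H σ → finrank ℂ (tanSp (Ideal.span (cnSysJ g E)) σ) ≤ d)
    (htest : ∀ σ, CnGood V E H σ → ∀ W, ∀ f ∈ cnSysJ g E, eval σ (cnLie (cnFld W) f) = 0)
    (B : Set (β → ℂ)) (hB : IsVar B) (hBd : vdim B = d) (ψ : β → MvPolynomial (CnJ r) ℂ)
    (hψ : ∀ σ, cnJz σ ∈ V → pmap ψ σ ∈ B)
    (hfew : ∀ S : Finset (CnJ r → ℂ), (∀ σ ∈ S, CnGood V E H σ) →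
      (∀ σ ∈ S, ∀ σ' ∈ S, pmap ψ σ = pmap ψ σ') → S.card ≤ κ) :
    ∃ 𝒴 : Finset (Set (CnP r → ℂ)), 𝒴.card ≤ κ ∧
      (∀ Y ∈ 𝒴, IsVar Y ∧ (∀ μ ∈ Y, cnFlat μ ⊆ V) ∧ r.choose 2 + vdim Y = d) ∧
      ∀ μ, cnFlat μ ⊆ V → (∃ z ∈ cnFlat μ, eval z H ≠ 0) → ∃ Y ∈ 𝒴, μ ∈ Y := by
  classical
  set G₀ : Set (MvPolynomial (CnJ r) ℂ) :=
    rename Sum.inl '' {f : MvPolynomial (CnI r) ℂ | ∀ y ∈ V, eval y f = 0} with hG₀
  set G : Set (MvPolynomial (CnJ r) ℂ) := G₀ ∪ Set.range E with hG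
  have hZ₀ : Zl G₀ = prodSet V (Set.univ : Set (Fin r → ℂ)) := cn_Zl_rename_inl hV
  have hX : IsVar (prodSet V (Set.univ : Set (Fin r → ℂ))) := ph_prod_isVar hV ph_univ.1
  have hXd : vdim (prodSet V (Set.univ : Set (Fin r → ℂ))) = r.choose 2 + h + r := by
    rw [ph_prod_vdim hV ph_univ.1, hdim, ph_univ.2.1, Fintype.card_fin]
  have hmemG : ∀ σ, σ ∈ Zl G ↔ cnJz σ ∈ V ∧ ∀ j, eval σ (E j) = 0 := by
    intro σ
    constructor
    · intro hσ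
      have h1 : σ ∈ Zl G₀ := fun f hf => hσ f (Or.inl hf)
      rw [hZ₀] at h1
      exact ⟨h1.1, fun j => hσ (E j) (Or.inr ⟨j, rfl⟩)⟩
    · rintro ⟨h1, h2⟩ f (hf | ⟨j, rfl⟩)
      · have : σ ∈ Zl G₀ := by rw [hZ₀]; exact ⟨h1, trivial⟩
        exact this f hf
      · exact h2 j
  have hsys : cnSysJ g E ⊆ G := by
    rintro f (⟨i, rfl⟩ | ⟨j, rfl⟩)
    · exact Or.inl ⟨g i, hg i, rfl⟩
    · exact Or.inr ⟨j, rfl⟩
  have hevH : ∀ σ : CnJ r → ℂ, eval σ (rename Sum.inl H) = eval (cnJz σ) H := by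
    intro σ
    rw [eval_rename]
    rfl
  -- the components through good points
  have hfin : {S | IsCompOf S G ∧ ∃ σ ∈ S, eval (cnJz σ) H ≠ 0}.Finite :=
    (ph_comps_finite G).subset fun S hS => hS.1
  set 𝒲 := hfin.toFinset with h𝒲def
  have hm𝒲 : ∀ S, S ∈ 𝒲 ↔ IsCompOf S G ∧ ∃ σ ∈ S, eval (cnJz σ) H ≠ 0 := by
    intro S
    rw [h𝒲def, Set.Finite.mem_toFinset]
    rfl
  -- properties of one component
  have hgoodpt : ∀ S, IsCompOf S G → ∀ σ ∈ S, eval (cnJz σ) H ≠ 0 → CnGood V E H σ := by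
    intro S hS σ hσ hne
    have := (hmemG σ).mp (ph_isCompOf_subset hS hσ)
    exact ⟨this.1, this.2, hne⟩
  have hlow : ∀ S, IsCompOf S G → d ≤ vdim S := by
    intro S hS
    have hr' : Set.range (fun i => E ((Fintype.equivFin κ').symm i)) = Set.range E :=
      (Fintype.equivFin κ').symm.surjective.range_comp E
    have := ph_krull_rel hX G₀ hZ₀ (fun i => E ((Fintype.equivFin κ').symm i)) S (by rw [hr']; exact hS)
    omega
  have hprime : ∀ p ∈ (Ideal.span G).minimalPrimes, ∀ σ ∈ zeroLocus ℂ p,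
      eval (cnJz σ) H ≠ 0 →
      finrank ℂ (tanSp (Ideal.span G) σ) ≤ d ∧ finrank ℂ (tanSp (Ideal.span (cnSysJ g E)) σ) ≤ d := by
    intro p hp σ hσ hne
    have hgd := hgoodpt _ ⟨p, hp, rfl⟩ σ hσ hne
    exact ⟨(Submodule.finrank_mono (cn_tanSp_anti (Ideal.span_mono hsys) σ)).trans (hreg σ hgd),
      hreg σ hgd⟩
  have hcomp : ∀ S ∈ 𝒲, IsVar S ∧ (∀ σ ∈ S, cnJz σ ∈ V) ∧ (∀ σ ∈ S, ∀ W, cnTh W σ ∈ S) ∧
      vdim S = d := by
    intro S hS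
    obtain ⟨hSc, σ₀, hσ₀, hne₀⟩ := (hm𝒲 S).mp hS
    obtain ⟨p, hp, rfl⟩ := hSc
    have hpp : p.IsPrime := hp.1.1
    have hGp : Ideal.span G ≤ p := hp.1.2
    have hsysp : cnSysJ g E ⊆ p := fun f hf => hGp (Ideal.subset_span (hsys hf))
    have hup : vdim (zeroLocus ℂ p) ≤ d := by
      refine (ph_tan_ge p hpp σ₀ hσ₀).trans ?_
      refine (Submodule.finrank_mono (cn_tanSp_anti (Ideal.span_le.mpr hsysp) σ₀)).trans ?_
      exact (hprime p hp σ₀ hσ₀ hne₀).2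
    have hdS : vdim (zeroLocus ℂ p) = d := le_antisymm hup (hlow _ ⟨p, hp, rfl⟩)
    have hh₀ : rename Sum.inl H ∉ p := by
      intro hmem
      have := (mem_zeroLocus_iff.mp hσ₀) _ hmem
      rw [aeval_eq_eval, hevH] at this
      exact hne₀ this
    refine ⟨⟨p, hpp, rfl⟩, fun σ hσ => ((hmemG σ).mp (ph_isCompOf_subset ⟨p, hp, rfl⟩ hσ)).1, ?_, hdS⟩
    intro σ hσ W
    have hinv := cn_inv p hpp (cnFld W) (cnSysJ g E) hsysp (rename Sum.inl H) hh₀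
      (fun σ hσ hne => by
        rw [hevH] at hne
        rw [hdS]
        exact (hprime p hp σ hσ hne).2)
      (fun σ hσ hne f hf => by
        rw [hevH] at hne
        exact htest σ (hgoodpt _ ⟨p, hp, rfl⟩ σ hσ hne) W f hf)
    have := cn_flow p (cnFld W) (cn_fld_line W) hinv σ hσ 1
    have he : cnTh W σ = fun i => σ i + 1 * eval σ (cnFld W i) := by
      funext i
      rw [one_mul]
      rfl
    rw [he]
    exact this
  have hcount : 𝒲.card ≤ κ := by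
    refine cn_comp_count G (rename Sum.inl H) B hB ψ (fun σ hσ => hψ σ ((hmemG σ).mp hσ).1) κ ?_ 𝒲 ?_ ?_
    · intro S hS hS'
      refine hfew S (fun σ hσ => ?_) hS'
      obtain ⟨h1, h2⟩ := hS σ hσ
      rw [hevH] at h2
      exact ⟨((hmemG σ).mp h1).1, ((hmemG σ).mp h1).2, h2⟩
    · intro S hS
      obtain ⟨hSc, σ₀, hσ₀, hne₀⟩ := (hm𝒲 S).mp hS
      exact ⟨hSc, ⟨σ₀, hσ₀, by rw [hevH]; exact hne₀⟩, by rw [hBd]; exact hlow S hSc⟩
    · intro S hS S' hS' σ hσ hσ' hne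
      rw [hevH] at hne
      obtain ⟨⟨p, hp, rfl⟩, -⟩ := (hm𝒲 S).mp hS
      obtain ⟨⟨p', hp', rfl⟩, -⟩ := (hm𝒲 S').mp hS'
      have h1 := ph_smooth_unique G σ p hp hσ
        ((hprime p hp σ hσ hne).1.trans (hlow _ ⟨p, hp, rfl⟩))
      rw [h1.1 p' hp' hσ']
  refine ⟨𝒲.image fun S => zcl (pmap cnRho '' S), Finset.card_image_le.trans hcount, ?_, ?_⟩
  · intro Y hY
    obtain ⟨S, hS, rfl⟩ := Finset.mem_image.mp hY
    obtain ⟨h1, h2, h3, h4⟩ := hcomp S hS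
    obtain ⟨a, b, c⟩ := cn_family hV S h1 h2 h3
    exact ⟨a, b, by rw [c, h4]⟩
  · rintro μ hμ ⟨z, hz, hne⟩
    have hzeq : z = cnGr μ (cnZ z) := (cn_mem_flat_iff μ z).mp hz
    set σ := cnLift μ (cnZ z) with hσdef
    have hσz : cnJz σ = z := by rw [hσdef, cn_Jz_lift]; exact hzeq.symm
    have hσG : σ ∈ Zl G := (hmemG σ).mpr ⟨by rw [hσz]; exact hμ hz, fun j => hcon j μ hμ _⟩
    rw [ph_Zl_eq_iUnion_comps G] at hσG
    obtain ⟨S, hS, hσS⟩ := Set.mem_iUnion₂.mp hσG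
    refine ⟨zcl (pmap cnRho '' S), Finset.mem_image.mpr ⟨S, (hm𝒲 S).mpr ⟨hS, σ, hσS, by rw [hσz]; exact hne⟩, rfl⟩, ?_⟩
    apply ph_subset_zcl
    exact ⟨σ, hσS, cn_rho_lift μ _⟩

/-! ### The output format of RUL -/

/-- the conclusion of RUL for the section `H`, with the constant `κ` -/
def CnRulOut (r : ℕ) (V : Set (CnI r → ℂ)) (h κ : ℕ) (H : MvPolynomial (CnI r) ℂ) : Prop :=
  (∃ z ∈ V, eval z H ≠ 0) ∧ ∃ 𝒴 : Finset (Set (CnP r → ℂ)), 𝒴.card ≤ κ ∧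
    (∀ Y ∈ 𝒴, IsVar Y ∧ (∀ μ ∈ Y, cnFlat μ ⊆ V) ∧
      (h + 1 ≤ vdim Y ∨ (vdim Y = h ∧ ∀ z, eval z H ≠ 0 → CnFew Y z κ))) ∧
    ∀ μ, cnFlat μ ⊆ V → (∃ z ∈ cnFlat μ, eval z H ≠ 0) → ∃ Y ∈ 𝒴, μ ∈ Y

theorem cn_rulOut_mono {V : Set (CnI r → ℂ)} {h κ κ₁ : ℕ} {H : MvPolynomial (CnI r) ℂ}
    (hκ : κ ≤ κ₁) (hO : CnRulOut r V h κ H) : CnRulOut r V h κ₁ H := by
  obtain ⟨h1, 𝒴, h2, h3, h4⟩ := hO
  refine ⟨h1, 𝒴, h2.trans hκ, fun Y hY => ?_, h4⟩
  obtain ⟨a, b, c⟩ := h3 Y hY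
  refine ⟨a, b, c.imp id fun ⟨e, f⟩ => ⟨e, fun z hz T hT => (f z hz T hT).trans hκ⟩⟩

/-- **(EXCL)** a polynomial `T ≢ 0` on `V` which vanishes on all flats of `V`: no flat meets `{T ≠ 0}` -/
theorem cn_excl {V : Set (CnI r → ℂ)} (h κ : ℕ) (T : MvPolynomial (CnI r) ℂ)
    (hT : ∃ z ∈ V, eval z T ≠ 0) (hflat : ∀ μ, cnFlat μ ⊆ V → ∀ z ∈ cnFlat μ, eval z T = 0) :
    CnRulOut r V h κ T :=
  ⟨hT, ∅, by simp, by simp, fun μ hμ ⟨z, hz, hne⟩ => absurd (hflat μ hμ z hz) hne⟩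

/-- (few) for the families, from (few) for the good points over one `z` -/
theorem cn_few_of_good {κ' : Type} {V : Set (CnI r → ℂ)} (E : κ' → MvPolynomial (CnJ r) ℂ)
    (hcon : ∀ j, CnCon V (E j)) (H : MvPolynomial (CnI r) ℂ) (κ : ℕ)
    (hfew : ∀ (z : CnI r → ℂ) (S : Finset (Fin r → ℂ)),
      (∀ v ∈ S, CnGood V E H (Sum.elim z v)) → S.card ≤ κ)
    (Y : Set (CnP r → ℂ)) (hY : ∀ μ ∈ Y, cnFlat μ ⊆ V) (z : CnI r → ℂ) (hz : eval z H ≠ 0) :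
    CnFew Y z κ := by
  classical
  intro T hT
  have hlift : ∀ μ ∈ T, (Sum.elim z (cnV μ) : CnJ r → ℂ) = cnLift μ (cnZ z) := by
    intro μ hμ
    have hz' : z = cnGr μ (cnZ z) := (cn_mem_flat_iff μ z).mp (hT μ hμ).2
    unfold cnLift
    rw [← hz']
  have hinj : Set.InjOn (cnV : (CnP r → ℂ) → Fin r → ℂ) (T : Set (CnP r → ℂ)) := by
    intro μ hμ μ' hμ' hv
    have h1 : cnX z = cnPi (cnZ z) μ := (hT μ hμ).2
    have h2 : cnX z = cnPi (cnZ z) μ' := (hT μ' hμ').2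
    funext k
    rcases k with i | i
    · exact congrFun hv i
    · have h3 := congrFun (h1.symm.trans h2) i
      unfold cnPi at h3
      rw [hv] at h3
      exact sub_left_injective h3
  rw [← Finset.card_image_of_injOn hinj]
  apply hfew z
  intro v hv
  obtain ⟨μ, hμ, rfl⟩ := Finset.mem_image.mp hv
  refine ⟨hY μ (hT μ hμ).1 (hT μ hμ).2, fun j => ?_, hz⟩
  rw [hlift μ hμ]
  exact hcon j μ (hY μ (hT μ hμ).1) _

/-- **(TERM-FIN)**: `card κ' = r`, `B = V`, `ψ` = projection -/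
theorem cn_term_fin {h c κ : ℕ} {κ' : Type} [Fintype κ']
    {V : Set (CnI r → ℂ)} (hV : IsVar V) (hdim : vdim V = r.choose 2 + h)
    (H : MvPolynomial (CnI r) ℂ) (hH : ∃ z ∈ V, eval z H ≠ 0)
    (g : Fin c → MvPolynomial (CnI r) ℂ) (hg : ∀ i, ∀ z ∈ V, eval z (g i) = 0)
    (E : κ' → MvPolynomial (CnJ r) ℂ) (hcon : ∀ j, CnCon V (E j)) (hcard : Fintype.card κ' = r)
    (hreg : ∀ σ, CnGood V E H σ →
      finrank ℂ (tanSp (Ideal.span (cnSysJ g E)) σ) ≤ r.choose 2 + h)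
    (htest : ∀ σ, CnGood V E H σ → ∀ W, ∀ f ∈ cnSysJ g E, eval σ (cnLie (cnFld W) f) = 0)
    (hfew : ∀ (z : CnI r → ℂ) (S : Finset (Fin r → ℂ)),
      (∀ v ∈ S, CnGood V E H (Sum.elim z v)) → S.card ≤ κ) :
    CnRulOut r V h κ H := by
  classical
  have hJ : ∀ σ : CnJ r → ℂ, (Sum.elim (cnJz σ) (cnJv σ) : CnJ r → ℂ) = σ := by
    intro σ
    funext k
    rcases k with i | i <;> rfl
  have hψe : ∀ σ : CnJ r → ℂ, pmap (fun i : CnI r => (X (Sum.inl i) : MvPolynomial (CnJ r) ℂ)) σ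
      = cnJz σ := by
    intro σ
    funext i
    simp [pmap, cnJz]
  obtain ⟨𝒴, h1, h2, h3⟩ := cn_term (d := r.choose 2 + h) (κ := κ) hV hdim H g hg E hcon
    (by rw [hcard]) hreg htest V hV hdim (fun i => X (Sum.inl i))
    (fun σ hσ => by rw [hψe]; exact hσ)
    (by
      intro S hS hS'
      rcases S.eq_empty_or_nonempty with rfl | ⟨σ₀, hσ₀⟩
      · simp
      have hinj : Set.InjOn (cnJv : (CnJ r → ℂ) → Fin r → ℂ) (S : Set (CnJ r → ℂ)) := by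
        intro σ hσ σ' hσ' hv
        have hz := hS' σ hσ σ' hσ'
        rw [hψe, hψe] at hz
        rw [← hJ σ, ← hJ σ', hz, hv]
      rw [← Finset.card_image_of_injOn hinj]
      apply hfew (cnJz σ₀)
      intro v hv
      obtain ⟨σ, hσ, rfl⟩ := Finset.mem_image.mp hv
      have hz := hS' σ₀ hσ₀ σ hσ
      rw [hψe, hψe] at hz
      rw [hz, hJ]
      exact hS σ hσ)
  refine ⟨hH, 𝒴, h1, fun Y hY => ?_, h3⟩
  obtain ⟨a, b, c⟩ := h2 Y hY
  exact ⟨a, b, Or.inr ⟨by omega, fun z hz => cn_few_of_good E hcon H κ hfew Y b z hz⟩⟩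

/-- **(TERM-POS)**: `card κ' = r - 1`, `B = V × ℂ`, `ψ = (z, v_{i0})` -/
theorem cn_term_pos {h c : ℕ} {κ' : Type} [Fintype κ']
    {V : Set (CnI r → ℂ)} (hV : IsVar V) (hdim : vdim V = r.choose 2 + h)
    (H : MvPolynomial (CnI r) ℂ) (hH : ∃ z ∈ V, eval z H ≠ 0)
    (g : Fin c → MvPolynomial (CnI r) ℂ) (hg : ∀ i, ∀ z ∈ V, eval z (g i) = 0)
    (E : κ' → MvPolynomial (CnJ r) ℂ) (hcon : ∀ j, CnCon V (E j))
    (hcard : Fintype.card κ' + 1 = r) (i0 : Fin r)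
    (hreg : ∀ σ, CnGood V E H σ →
      finrank ℂ (tanSp (Ideal.span (cnSysJ g E)) σ) ≤ r.choose 2 + h + 1)
    (htest : ∀ σ, CnGood V E H σ → ∀ W, ∀ f ∈ cnSysJ g E, eval σ (cnLie (cnFld W) f) = 0)
    (hfew : ∀ σ σ', CnGood V E H σ → CnGood V E H σ' → cnJz σ = cnJz σ' →
      cnJv σ i0 = cnJv σ' i0 → σ = σ') :
    CnRulOut r V h 1 H := by
  classical
  have hψ1 : ∀ (σ : CnJ r → ℂ) (i : CnI r), pmap (Sum.elim (fun i : CnI r => (X (Sum.inl i) : MvPolynomial (CnJ r) ℂ))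
      (fun _ : Unit => X (Sum.inr i0))) σ (Sum.inl i) = cnJz σ i := by
    intro σ i
    simp [pmap, cnJz]
  have hψ2 : ∀ (σ : CnJ r → ℂ), pmap (Sum.elim (fun i : CnI r => (X (Sum.inl i) : MvPolynomial (CnJ r) ℂ))
      (fun _ : Unit => X (Sum.inr i0))) σ (Sum.inr ()) = cnJv σ i0 := by
    intro σ
    simp [pmap, cnJv]
  obtain ⟨𝒴, h1, h2, h3⟩ := cn_term (d := r.choose 2 + h + 1) (κ := 1) (β := CnI r ⊕ Unit) hV hdim H g hg E hcon
    (by omega) hreg htest (prodSet V (Set.univ : Set (Unit → ℂ))) (ph_prod_isVar hV ph_univ.1)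
    (by rw [ph_prod_vdim hV ph_univ.1, hdim, ph_univ.2.1, Fintype.card_unit])
    (Sum.elim (fun i => X (Sum.inl i)) (fun _ => X (Sum.inr i0)))
    (fun σ hσ => by
      refine ⟨?_, trivial⟩
      have : (fun i => pmap (Sum.elim (fun i : CnI r => (X (Sum.inl i) : MvPolynomial (CnJ r) ℂ))
          (fun _ : Unit => X (Sum.inr i0))) σ (Sum.inl i)) = cnJz σ := funext (hψ1 σ)
      rw [this]
      exact hσ)
    (by
      intro S hS hS'
      rw [Finset.card_le_one]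
      intro σ hσ σ' hσ'
      have he := hS' σ hσ σ' hσ'
      apply hfew σ σ' (hS σ hσ) (hS σ' hσ')
      · funext i
        rw [← hψ1 σ i, ← hψ1 σ' i, he]
      · rw [← hψ2 σ, ← hψ2 σ', he])
  refine ⟨hH, 𝒴, h1, fun Y hY => ?_, h3⟩
  obtain ⟨a, b, c⟩ := h2 Y hY
  exact ⟨a, b, Or.inl (by omega)⟩

/-! ### LEAF CN-TERM-C: the regularity criterion -/

/-- **(REG-CRIT)**: `dg_i(z)` independent; a tangent vector `u` of the system `(g~, E)` at `σ = (z, v)` with `u_z = 0` and `u_{v,k} = 0` for `k ∈ s` vanishes ⟹ `dim ≤ n - c + card s`.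
PLAN: `K := {w ∈ ℂ^(CnI r) | dg_i(z) w = 0}`, `finrank K + c = n` (`cn_ker_finrank`, `cn_card_I`).  The linear map `tanSp → K × ℂ^s`, `u ↦ (u ∘ inl, (u (inr k))_{k ∈ s})` is well defined
(`dAt (rename inl g) σ u = dAt g z (u ∘ inl)`: `pderiv_rename`, as in `cn_del_rename`; `Ideal.subset_span`) and injective by `hinj`; `LinearMap.finrank_le_finrank_of_injective`, `finrank_prod`. -/
theorem cn_reg_crit {c : ℕ} {κ' : Type} (g : Fin c → MvPolynomial (CnI r) ℂ)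
    (E : κ' → MvPolynomial (CnJ r) ℂ) (σ : CnJ r → ℂ)
    (hind : LinearIndependent ℂ (fun i => fun j => eval (cnJz σ) (pderiv j (g i))))
    (s : Finset (Fin r))
    (hinj : ∀ u ∈ tanSp (Ideal.span (cnSysJ g E)) σ, (∀ i, u (Sum.inl i) = 0) →
      (∀ k ∈ s, u (Sum.inr k) = 0) → u = 0) :
    finrank ℂ (tanSp (Ideal.span (cnSysJ g E)) σ) + c ≤ r.choose 2 + r + s.card := by
  classical
  -- the differential of a polynomial in `z` only
  have hd : ∀ (f : MvPolynomial (CnI r) ℂ) (u : CnJ r → ℂ),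
      dAt (rename Sum.inl f) σ u = ∑ j, eval (cnJz σ) (pderiv j f) * u (Sum.inl j) := by
    intro f u
    unfold dAt
    rw [Fintype.sum_sum_type]
    have h2 : ∀ k : Fin r, pderiv (Sum.inr k : CnJ r) (rename Sum.inl f) = 0 := by
      intro k
      apply pderiv_eq_zero_of_notMem_vars
      intro hk
      have := vars_rename (Sum.inl : CnI r → CnJ r) f hk
      simp at this
    have h1 : ∀ j : CnI r, aeval σ (pderiv (Sum.inl j : CnJ r) (rename Sum.inl f))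
        = eval (cnJz σ) (pderiv j f) := by
      intro j
      rw [pderiv_rename Sum.inl_injective, aeval_rename]
      rfl
    simp only [h1, h2, map_zero, zero_mul, Finset.sum_const_zero, add_zero]
  -- the kernel of the differentials
  let K : Submodule ℂ (CnI r → ℂ) :=
    { carrier := {w | ∀ i, ∑ j, eval (cnJz σ) (pderiv j (g i)) * w j = 0}
      add_mem' := by
        intro a b ha hb i
        simp only [Pi.add_apply, mul_add, Finset.sum_add_distrib]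
        rw [ha i, hb i, add_zero]
      zero_mem' := by
        intro i
        simp
      smul_mem' := by
        intro t a ha i
        have : ∑ j, eval (cnJz σ) (pderiv j (g i)) * (t • a) j
            = t * ∑ j, eval (cnJz σ) (pderiv j (g i)) * a j := by
          rw [Finset.mul_sum]
          apply Finset.sum_congr rfl
          intro j _
          simp only [Pi.smul_apply, smul_eq_mul]
          ring
        rw [this, ha i, mul_zero] }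
  have hK : finrank ℂ K + c = Fintype.card (CnI r) :=
    cn_ker_finrank (fun i => fun j => eval (cnJz σ) (pderiv j (g i))) hind K (fun u => Iff.rfl)
  rw [cn_card_I] at hK
  -- the linear map
  let Φ : tanSp (Ideal.span (cnSysJ g E)) σ →ₗ[ℂ] (K × (s → ℂ)) :=
    { toFun := fun u => (⟨fun j => u.1 (Sum.inl j), by
          intro i
          have h1 := u.2 (rename Sum.inl (g i)) (Ideal.subset_span (Or.inl ⟨i, rfl⟩))
          rw [hd] at h1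
          exact h1⟩, fun k => u.1 (Sum.inr k.1))
      map_add' := by
        intro a b
        rfl
      map_smul' := by
        intro t a
        rfl }
  have hΦ : Function.Injective Φ := by
    rw [← LinearMap.ker_eq_bot, LinearMap.ker_eq_bot']
    intro u hu
    have h1 : ∀ i, u.1 (Sum.inl i) = 0 := by
      intro i
      have := congrArg (fun p => (p.1 : CnI r → ℂ) i) hu
      exact this
    have h2 : ∀ k ∈ s, u.1 (Sum.inr k) = 0 := by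
      intro k hk
      have := congrArg (fun p => p.2 ⟨k, hk⟩) hu
      exact this
    exact Subtype.ext (hinj u.1 u.2 h1 h2)
  have hle := LinearMap.finrank_le_finrank_of_injective hΦ
  rw [Module.finrank_prod, Module.finrank_fintype_fun_eq_card, Fintype.card_coe] at hle
  omega

end Claimed.Agent.R273
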