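-- KEEP
import Claimed.Agent.R273.CnChart
import Claimed.Agent.R273.CnCount
import Claimed.Agent.R273.CnReg
import Claimed.Agent.R273.CnLowTop

/-!
# Row 273, Appendix A: `GlobStmt e` and `LocStmt e` for all `e ≥ 3`.  Chief architect helper69.

```
 GlobStmt (r+1)  ⇐ CnGlob r  (CnChart)      LocStmt (r+1) ⇐ CnLoc r  (CnChart)
 CnGlob r, CnLoc r ⇐ CnCore r               (CnEnv : envelope + poly:hilbert; Bezout for one hypersurface)
 CnCore r ⇐ CnLow r, CnReg (CnI r)          (CnCount: envelope dichotomy + abstract closing lemma CnClose)
 CnReg ι  ⇐ prf_reg                         (CnReg)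
 CnLow r                                    (CnLow : rulings, degree of the parameter variety, isotropic exception; helper120)
```
Differences with the paper: Walsh's approximate complete intersections (approximation.tex), the carriers and the isolated-component Bezout bound are replaced by the envelope dichotomy `cn_dich`;
`conc:regularity` is a corollary of `poly:regularity`; everything is done in ONE affine chart.
-/

set_option autoImplicit false

namespace Claimed.Agent.R273

theorem cn_core {r : ℕ} (hr : 2 ≤ r) : CnCore r := cn_core_of_low hr (cn_low hr) (cn_reg _)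

theorem cn_globStmt (e : ℕ) (he : 3 ≤ e) : GlobStmt e := by
  obtain ⟨r, rfl⟩ : ∃ r, e = r + 1 := ⟨e - 1, by omega⟩
  have hr : 2 ≤ r := by omega
  exact cn_glob_of_chart hr (cn_glob_of_core hr (cn_core hr))

theorem cn_locStmt (e : ℕ) (he : 3 ≤ e) : LocStmt e := by
  obtain ⟨r, rfl⟩ : ∃ r, e = r + 1 := ⟨e - 1, by omega⟩
  have hr : 2 ≤ r := by omega
  exact cn_loc_of_chart hr (cn_loc_of_core hr (cn_core hr))

end Claimed.Agent.R273
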