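import Claimed.Agent.R273.PrfTreeWin

/-!
# Row 273, S5: `prf_partition`: iteration over the windows and `prft_main` (architect helper60).  Prefix `prft`.

Widths `s_m = log B / 2^m`.  `prft_iter`: induction on `m` as long as `s_{m'} > 2 s_*` for `m' < m`; invariant: unresolved set `U` with the entry conditions of the window `m`,
a list of (piece, width), discarded mass `≤ 2 N (2^m - 1)/log B`.  `prft_main`: stop at the first `m` with `s_m ≤ 2 s_*` (then `s_m > s_*`); the core is `U`; separators by `ph_separator`.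
-/

set_option autoImplicit false

namespace Claimed.Agent.R273

open MvPolynomial

variable {n : ℕ}

/-- total mass of a list of pieces with widths -/
def prftMassW (l : List (PrfPiece n × ℝ)) : ℕ := (l.map fun p => p.1.S.card).sum

theorem prft_massW_append (l : List (PrfPiece n × ℝ)) (l' : List (PrfPiece n)) (s : ℝ) :
    prftMassW (l ++ l'.map fun π => (π, s)) = prftMassW l + prftMass l' := by
  unfold prftMassW prftMass
  rw [List.map_append, List.sum_append, List.map_map]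
  rfl

/-- ITERATION over the windows. -/
theorem prft_iter (hn : 1 ≤ n) (N B s₀ sst : ℝ) (hN : 0 < N) (hB : 1 < B)
    (hnum : ∀ s, s₀ ≤ s → PrftNum n s) (hsst : s₀ ≤ sst) (X : Finset (Fin n → ℂ))
    (hX : (X.card : ℝ) = N)
    (hiso : PrftIso X (prfT B (Real.log B) (prftTop n (Real.log B)))) :
    ∀ m : ℕ, (∀ m' < m, 2 * sst < Real.log B / 2 ^ m') →
      ∃ (U : Finset (Fin n → ℂ)) (l : List (PrfPiece n × ℝ)), U ⊆ X ∧
        (∀ p ∈ l, p.1.S ⊆ X ∧ Disjoint U p.1.S) ∧
        l.Pairwise (fun p p' => Disjoint p.1.S p'.1.S) ∧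
        (X.card : ℝ) - U.card - prftMassW l ≤ 2 * N * (2 ^ m / Real.log B - 1 / Real.log B) ∧
        PrftIso U (prfT B (Real.log B / 2 ^ m) (prftTop n (Real.log B / 2 ^ m))) ∧
        PrftLow U B (Real.log B / 2 ^ m) (N * Real.exp (-Real.sqrt (2 * (Real.log B / 2 ^ m)))) ∧
        ∀ p ∈ l, 2 * sst < p.2 ∧ (∃ m' : ℕ, p.2 = Real.log B / 2 ^ m') ∧
          PrftGoodPiece N B p.2 p.1 := by
  have hs₀ : 1 < s₀ := (hnum s₀ le_rfl).one_lt
  have hlogB : 0 < Real.log B := Real.log_pos hB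
  intro m
  induction m with
  | zero =>
    intro _
    refine ⟨X, [], subset_rfl, by simp, List.Pairwise.nil, ?_, by simpa using hiso, ?_, by simp⟩
    · simp [prftMassW]
    · intro h1
      exfalso
      have : prfT B (Real.log B / 2 ^ 0) (-1) = 1 := by
        unfold prfT
        rw [pow_zero, div_one, neg_one_mul, Real.exp_neg, Real.exp_log (by linarith)]
        exact mul_inv_cancel₀ (by linarith)
      rw [this] at h1
      exact lt_irrefl _ h1
  | succ m ih =>
    intro hm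
    obtain ⟨U, l, hUX, hl1, hl2, hl3, hiso', hlow', hl4⟩ := ih fun m' hm' => hm m' (by omega)
    obtain ⟨s, hsdef⟩ : ∃ s : ℝ, s = Real.log B / 2 ^ m := ⟨_, rfl⟩
    rw [← hsdef] at hiso' hlow'
    have hs2 : 2 * sst < s := by rw [hsdef]; exact hm m (by omega)
    have hs : PrftNum n s := hnum s (by linarith)
    have hshalf : s / 2 = Real.log B / 2 ^ (m + 1) := by
      rw [hsdef, pow_succ]; field_simp
    have hUN : (U.card : ℝ) ≤ N := by
      rw [← hX]; exact_mod_cast Finset.card_le_card hUX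
    obtain ⟨U', lw, hU'U, hw1, hw2, hw3, hw4, hw5, hw6⟩ :=
      prft_window hn N B s hN hB hs U hUN hiso' hlow'
    rw [hshalf] at hw4 hw5
    refine ⟨U', l ++ lw.map fun π => (π, s), hU'U.trans hUX, ?_, ?_, ?_, hw4, hw5, ?_⟩
    · intro p hp
      rcases List.mem_append.1 hp with hp | hp
      · exact ⟨(hl1 p hp).1, Finset.disjoint_of_subset_left hU'U (hl1 p hp).2⟩
      · obtain ⟨π, hπ, rfl⟩ := List.mem_map.1 hp
        exact ⟨(hw1 π hπ).1.trans hUX, (hw1 π hπ).2⟩
    · rw [List.pairwise_append]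
      refine ⟨hl2, ?_, ?_⟩
      · rw [List.pairwise_map]
        exact hw2
      · intro p hp p' hp'
        obtain ⟨π, hπ, rfl⟩ := List.mem_map.1 hp'
        exact (Finset.disjoint_of_subset_left (hw1 π hπ).1 (hl1 p hp).2).symm
    · rw [prft_massW_append, Nat.cast_add]
      have e : 2 / s * N = 2 * N * (2 ^ m / Real.log B) := by
        rw [hsdef]; field_simp
      have e2 : (2 : ℝ) ^ (m + 1) / Real.log B = 2 * (2 ^ m / Real.log B) := by
        rw [pow_succ]; ring
      rw [e2]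
      rw [e] at hw3
      linarith
    · intro p hp
      rcases List.mem_append.1 hp with hp | hp
      · exact hl4 p hp
      · obtain ⟨π, hπ, rfl⟩ := List.mem_map.1 hp
        exact ⟨hs2, ⟨m, hsdef⟩, hw6 π hπ⟩

/-- THE MULTISCALE PARTITION with explicit error functions, list form. -/
theorem prft_main (d : ℕ) (hd : 1 ≤ d) : ∃ s₀ : ℝ, ∀ (P : Finset (Pt d)) (B sst : ℝ),
    B = (P.card : ℝ) ^ ((1 : ℝ) / d) → s₀ ≤ sst → sst ≤ Real.log B / 4 →
    2 * (dM P : ℝ) + 1 ≤ B ^ 2 →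
    ∃ (K : Finset (Fin d → ℂ)) (l : List (PrfPiece d × ℝ)), K ⊆ P.image prfPt ∧
      (∀ p ∈ l, p.1.S ⊆ P.image prfPt ∧ Disjoint K p.1.S) ∧
      l.Pairwise (fun p p' => Disjoint p.1.S p'.1.S) ∧
      (P.card : ℝ) - K.card - prftMassW l ≤ prftOm sst * P.card ∧
      (∀ z ∈ K, ∃ σ : PrfPol d, (σ.totalDegree : ℝ) ≤ B * Real.exp (3 * sst) ∧ eval z σ = 1 ∧
        ∀ y ∈ K, y ≠ z → eval y σ = 0) ∧
      ∀ p ∈ l, sst ≤ p.2 ∧ (∃ m : ℕ, p.2 = Real.log B / 2 ^ m) ∧
        PrftGoodPiece (P.card : ℝ) B p.2 p.1 := by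
  classical
  obtain ⟨s₀, hnum⟩ := prft_num d hd
  refine ⟨s₀, fun P B sst hBdef hsst hsstB hM => ?_⟩
  have hs₀ : 1 < s₀ := (hnum s₀ le_rfl).one_lt
  have hsst1 : 1 < sst := by linarith
  have hlogB : 0 < Real.log B := by linarith
  have hB0 : 0 ≤ B := by rw [hBdef]; positivity
  have hB : 1 < B := (Real.log_pos_iff hB0).1 hlogB
  have hd0 : (0 : ℝ) < d := by exact_mod_cast hd
  have hN : (0 : ℝ) < P.card := by
    rcases Nat.eq_zero_or_pos P.card with h | h
    · exfalso
      rw [h, Nat.cast_zero, Real.zero_rpow (by positivity)] at hBdef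
      linarith
    · exact_mod_cast h
  have hX : ((P.image prfPt).card : ℝ) = P.card := by
    rw [Finset.card_image_of_injective _ (prft_prfPt_injective d)]
  have hmu0 := prft_mu_pos d (Real.log B)
  have hiso : PrftIso (P.image prfPt) (prfT B (Real.log B) (prftTop d (Real.log B))) := by
    obtain ⟨G, hG, hz⟩ := prft_iso_init P
    refine ⟨G, 2 * dM P + 1, ?_, hG, hz⟩
    push_cast
    refine hM.trans ?_
    unfold prfT prftTop
    have h1 : B = Real.exp (Real.log B) := (Real.exp_log (by linarith)).symm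
    have h2 : Real.exp (Real.log B) ≤ Real.exp ((1 + prftMu d (Real.log B)) * Real.log B) := by
      rw [Real.exp_le_exp]
      nlinarith
    calc B ^ 2 = B * Real.exp (Real.log B) := by rw [← h1]; ring
      _ ≤ B * Real.exp ((1 + prftMu d (Real.log B)) * Real.log B) :=
        mul_le_mul_of_nonneg_left h2 hB0
  -- the last window
  have hex : ∃ m : ℕ, Real.log B / 2 ^ m ≤ 2 * sst := by
    obtain ⟨m, hm⟩ := pow_unbounded_of_one_lt (Real.log B / (2 * sst)) (one_lt_two (α := ℝ))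
    refine ⟨m, ?_⟩
    rw [div_lt_iff₀ (by linarith)] at hm
    rw [div_le_iff₀ (by positivity)]
    linarith
  obtain ⟨m, hm, hmin⟩ : ∃ m : ℕ, Real.log B / 2 ^ m ≤ 2 * sst ∧
      ∀ m' < m, 2 * sst < Real.log B / 2 ^ m' :=
    ⟨Nat.find hex, Nat.find_spec hex, fun m' hm' => not_le.1 (Nat.find_min hex hm')⟩
  obtain ⟨sf, hsf⟩ : ∃ sf : ℝ, sf = Real.log B / 2 ^ m := ⟨_, rfl⟩
  have hsf1 : sst < sf := by
    rcases Nat.eq_zero_or_pos m with h0 | hpos
    · subst h0
      simp only [pow_zero, div_one] at hm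
      linarith
    · obtain ⟨m₁, rfl⟩ : ∃ m₁, m = m₁ + 1 := ⟨m - 1, by omega⟩
      have h1 := hmin m₁ (by omega)
      rw [hsf, pow_succ]
      have h2 : Real.log B / (2 ^ m₁ * 2) = Real.log B / 2 ^ m₁ / 2 := by field_simp
      rw [h2]
      linarith
  obtain ⟨U, l, hUX, hl1, hl2, hl3, hisoU, -, hl4⟩ :=
    prft_iter hd (P.card : ℝ) B s₀ sst hN hB hnum hsst (P.image prfPt) hX hiso m hmin
  rw [← hsf] at hisoU hm
  have hnf : PrftNum d sf := hnum sf (by linarith)
  refine ⟨U, l, hUX, hl1, hl2, ?_, ?_, fun p hp => ⟨by linarith [(hl4 p hp).1], (hl4 p hp).2⟩⟩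
  · rw [hX] at hl3
    refine hl3.trans ?_
    unfold prftOm
    rw [abs_of_pos (by linarith)]
    have e : (2 : ℝ) ^ m / Real.log B = 1 / sf := by rw [hsf]; field_simp
    rw [e]
    have h1 : 1 / sf ≤ 1 / sst := one_div_le_one_div_of_le (by linarith) hsf1.le
    have h2 : 0 < 1 / Real.log B := by positivity
    have h3 : 2 * (P.card : ℝ) * (1 / sf - 1 / Real.log B) ≤ 2 * (P.card : ℝ) * (1 / sst) :=
      mul_le_mul_of_nonneg_left (by linarith) (by positivity)
    calc 2 * (P.card : ℝ) * (1 / sf - 1 / Real.log B) ≤ 2 * (P.card : ℝ) * (1 / sst) := h3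
      _ = 2 / sst * P.card := by ring
  · obtain ⟨G, L, hL, hG, hz⟩ := hisoU
    intro z hzU
    obtain ⟨σ, h1, h2, h3⟩ := ph_separator G L hG z (hz z hzU)
    refine ⟨σ, ?_, h2, fun y hy hyz => h3 y hyz (hz y hy).1⟩
    rw [Fintype.card_fin] at h1
    have h4 : (σ.totalDegree : ℝ) ≤ d * L := by
      have : σ.totalDegree ≤ d * L := h1.trans (Nat.mul_le_mul_left _ (Nat.sub_le _ _))
      exact_mod_cast this
    have h5 : (d : ℝ) ≤ Real.exp (sf / 4) := by
      rw [← Real.exp_log hd0, Real.exp_le_exp]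
      exact hnf.logn
    have h6 : prfT B sf (prftTop d sf) ≤ B * Real.exp (5 / 4 * sf) := by
      unfold prfT prftTop
      refine mul_le_mul_of_nonneg_left ?_ hB0
      rw [Real.exp_le_exp]
      have := hnf.mu_le
      have hsf0 : 0 < sf := by linarith
      nlinarith
    calc (σ.totalDegree : ℝ) ≤ d * L := h4
      _ ≤ Real.exp (sf / 4) * (B * Real.exp (5 / 4 * sf)) :=
        mul_le_mul h5 (hL.trans h6) (by positivity) (Real.exp_pos _).le
      _ = B * Real.exp (sf / 4 + 5 / 4 * sf) := by rw [Real.exp_add]; ring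
      _ ≤ B * Real.exp (3 * sst) := by
        refine mul_le_mul_of_nonneg_left ?_ hB0
        rw [Real.exp_le_exp]
        linarith

/-- the default entry of a list of pieces with widths -/
noncomputable def prftDflt (n : ℕ) : PrfPiece n × ℝ := (⟨∅, 0, 0⟩, 0)

theorem prft_massW_eq_sum (l : List (PrfPiece n × ℝ)) :
    prftMassW l = ∑ a ∈ Finset.range l.length, (l.getD a (prftDflt n)).1.S.card := by
  induction l with
  | nil => simp [prftMassW]
  | cons p l ih =>
    rw [List.length_cons, Finset.sum_range_succ']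
    simp only [List.getD_cons_succ, List.getD_cons_zero]
    rw [← ih]
    simp [prftMassW, add_comm]

/-- THE MULTISCALE PARTITION with explicit error functions, indexed form. -/
theorem prft_partition (d : ℕ) (hd : 1 ≤ d) : ∃ s₀ : ℝ, ∀ (P : Finset (Pt d)) (B sst : ℝ),
    B = (P.card : ℝ) ^ ((1 : ℝ) / d) → s₀ ≤ sst → sst ≤ Real.log B / 4 →
    2 * (dM P : ℝ) + 1 ≤ B ^ 2 →
    ∃ (K : Finset (Fin d → ℂ)) (I : Finset ℕ) (π : ℕ → PrfPiece d) (w : ℕ → ℝ),
      K ⊆ P.image prfPt ∧ (∀ a ∈ I, (π a).S ⊆ P.image prfPt) ∧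
      (∀ a ∈ I, Disjoint K (π a).S) ∧
      (∀ a ∈ I, ∀ b ∈ I, a ≠ b → Disjoint (π a).S (π b).S) ∧
      (P.card : ℝ) - K.card - ∑ a ∈ I, ((π a).S.card : ℝ) ≤ prftOm sst * P.card ∧
      (∀ z ∈ K, ∃ σ : PrfPol d, (σ.totalDegree : ℝ) ≤ B * Real.exp (3 * sst) ∧ eval z σ = 1 ∧
        ∀ y ∈ K, y ≠ z → eval y σ = 0) ∧
      ∀ a ∈ I, sst ≤ w a ∧ (∃ m : ℕ, w a = Real.log B / 2 ^ m) ∧
        PrftGoodPiece (P.card : ℝ) B (w a) (π a) := by
  obtain ⟨s₀, h⟩ := prft_main d hd
  refine ⟨s₀, fun P B sst h1 h2 h3 h4 => ?_⟩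
  obtain ⟨K, l, hK, hl1, hl2, hl3, hl4, hl5⟩ := h P B sst h1 h2 h3 h4
  have hmem : ∀ a ∈ Finset.range l.length, l.getD a (prftDflt d) ∈ l := by
    intro a ha
    rw [Finset.mem_range] at ha
    rw [List.getD_eq_getElem _ _ ha]
    exact List.getElem_mem ha
  refine ⟨K, Finset.range l.length, fun a => (l.getD a (prftDflt d)).1,
    fun a => (l.getD a (prftDflt d)).2, hK, fun a ha => (hl1 _ (hmem a ha)).1,
    fun a ha => (hl1 _ (hmem a ha)).2, ?_, ?_, hl4, fun a ha => hl5 _ (hmem a ha)⟩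
  · intro a ha b hb hab
    rw [Finset.mem_range] at ha hb
    rw [List.pairwise_iff_getElem] at hl2
    simp only [List.getD_eq_getElem _ _ ha, List.getD_eq_getElem _ _ hb]
    rcases lt_or_gt_of_ne hab with h | h
    · exact hl2 a b ha hb h
    · exact (hl2 b a hb ha h).symm
  · rw [prft_massW_eq_sum] at hl3
    push_cast at hl3
    exact hl3

end Claimed.Agent.R273
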