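import Claimed.Agent.R273.PrfReg
import Claimed.Agent.R273.PrfTreeMain
import Claimed.Agent.R273.RkFlat

/-!
# Row 273, S5: prof:partition in FINITE FORM, the core alternative, and the plan of prof:pair-selection
(architect helper161)

## `prf_partition`
One statement for ONE finite set `P` and one parameter `s_*`; the error functions `κ` (capture fraction), `μ` (mesh), `ρ` (size loss, `ρ(s) = o(s)`), `ω` (discarded fraction)
depend on `d` only.  Paper's values: `κ(s) = exp(-(7/18) s^{1/10})`, `μ(s) ~ 1/√(log s)`, `ρ(s) = √s + s^{1/5}`, `ω(u) = C (1+√(log u)) exp(-u^{1/10}/2)`.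
PROOF = the paper's, which is PURE COMBINATORICS of greedy extraction over an abstract capture relation, plus 3 algebraic inputs:
 (a) `P` is the exact zero set of a system of degree `≤ 2M+1` (poly:separators, elementary);
 (b) isolated zeros of a system of degree `≤ L` have separators of degree `≤ n(L-1)` and exact isolation systems (`ph_separator`, `ph_exact_iso`; union of lists: products, degrees add);
 (c) FINISHING A PATH: if every `x ∈ S` is an isolated zero of the system `G` and the path so far is proper at the points of `S` with `j < n` cuts, a generic linear combination `g` of (a finite basis of the span of) `G`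
     is a proper cut at every `x ∈ S`: no local carrier `p` (dimension `n-j ≥ 1`, `prf_pure`) contains `G` (else `Z(p) ⊆ Z(G)` would be a positive-dimensional subset through the isolated zero `x`: `IsoZero` gives `u (X_i - x_i)^N ∈ span G ≤ p`, `u ∉ p`, so `p = 𝔪_x`).
 LEAVES: PRF-tree (abstract regularisation tree: thresholds `λ_i = exp(-a_i)`, `a_i = 10 a_{i+1}`; outputs terminal pieces with `nocap`; ~600 lines, no algebra),
 PRF-win (the shrinking windows: two greedy removals per window, entry invariants; ~500 lines), PRF-sum (summability of the discarded fractions; ~200 lines, real analysis), PRF-fin ((c); ~150 lines), PRF-imb (imbalance; ~100 lines).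

## `prf_core`
The core alternative of prof:pair-selection WITHOUT Bezout: pull back by `x ↦ p + φ x` (`φ : ℂ³ → ℂ^d` injective): the points of the core on the cone become `m` points of `Z(F) ⊆ ℂ³` with separators of degree `≤ L`,
so `m = hA (..) L ≤ hA (Z F) L ≤ binom(L+3,3) - binom(L-e+3,3) ≤ e binom(L+2,2)` (`rk_hA_zset_le`).

## Plan of prof:pair-selection (the only place of S5 where limits are needed)
Frame: a sequence of counterexamples `(P_m, C_m, U_m)`, `δ_m = 1/(m+1)`, ONE ultrafilter `𝒰 = hyperfilter ℕ`; `s_*(m) := min(log B_m / 4, log(1/δ_m)/12)`, so `δ e^{6 s_*} ≤ √δ → 0`.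
 Step 0: TERM (geo:terminal) for the global assignment `q ↦` one carrier after `d-1` cuts (dimension 1 by `prf_pure`); nonreal lines: `≤ prfDeg ≤ degLo (d-1)` points per piece, a fraction `≤ C e^{..}/T_s(τ_{d-1})`.
 Step 1: `prf_core` kills a core with `|K| ≥ αN`.
 Step 2 (finite pigeonhole): bins of diameter `1/h` for `(τ_0..τ_{d-1}, s/log B) ∈ [-1,2]^d × [0,1]` and the dyadic index mod `h`; `K_h` bins; pairs of pieces in one bin carry `≥ (∑|S_a|)²/K_h` pairs (Cauchy-Schwarz);
   so some pair of pieces in one bin has uncovered fraction `≤ K_h · (uncovered fraction)`.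
 Step 3 (diagonal): `h(m) := max {h ≤ m : K_h · unc(m) ≤ 1/h}` tends to infinity; the profiles of the two selected pieces have the same `𝒰`-limits `b_i`; dyadic indices equal, or differ by `≥ h(m)`.
 Step 4: outermost pool, light lines: as in the paper (finite statements + the same diagonal).
-/

set_option autoImplicit false

namespace Claimed.Agent.R273

open MvPolynomial Filter Topology

/-- The error functions of the partition. -/
structure PrfErr (κ μ ρ ω : ℝ → ℝ) : Prop where
  kap : Tendsto κ atTop (𝓝 0)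
  mu : Tendsto μ atTop (𝓝 0)
  rho : Tendsto (fun s => ρ s / s) atTop (𝓝 0)
  om : Tendsto ω atTop (𝓝 0)
  pos : ∀ s, 0 < κ s ∧ 0 < μ s ∧ 0 ≤ ρ s ∧ 0 ≤ ω s

/-- MULTISCALE PARTITION (prof:partition), finite form.  `m a` is the dyadic index of the window of the
piece `π a` (width `log B / 2^(m a)`); the time grid and its top depend on the WINDOW only. -/
theorem prf_partition (d : ℕ) (hd : 1 ≤ d) : ∃ (κ μ ρ ω : ℝ → ℝ) (s₀ : ℝ), PrfErr κ μ ρ ω ∧
    ∀ (P : Finset (Pt d)) (B sst : ℝ), B = (P.card : ℝ) ^ ((1 : ℝ) / d) →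
      s₀ ≤ sst → sst ≤ Real.log B / 4 → 2 * (dM P : ℝ) + 1 ≤ B ^ 2 →
      ∃ (K : Finset (Fin d → ℂ)) (I : Finset ℕ) (π : ℕ → PrfPiece d) (m : ℕ → ℕ) (top : ℕ → ℝ)
        (grid : ℕ → Finset ℝ),
        K ⊆ P.image prfPt ∧ (∀ a ∈ I, (π a).S ⊆ P.image prfPt) ∧
        (∀ a ∈ I, Disjoint K (π a).S) ∧
        (∀ a ∈ I, ∀ b ∈ I, a ≠ b → Disjoint (π a).S (π b).S) ∧
        (P.card : ℝ) - K.card - ∑ a ∈ I, ((π a).S.card : ℝ) ≤ ω sst * P.card ∧
        (∀ z ∈ K, ∃ σ : PrfPol d, (σ.totalDegree : ℝ) ≤ B * Real.exp (3 * sst) ∧ eval z σ = 1 ∧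
          ∀ y ∈ K, y ≠ z → eval y σ = 0) ∧
        ∀ a ∈ I, ∀ w : ℝ, w = Real.log B / 2 ^ (m a) → sst ≤ w ∧
          (π a).Ok B w (κ w) (grid (m a)) ∧ PrfGrid (grid (m a)) (μ w) (top (m a)) ∧
          1 ≤ top (m a) ∧ top (m a) ≤ 1 + μ w ∧
          (P.card : ℝ) * Real.exp (-(ρ w)) ≤ (π a).S.card ∧
          ((π a).τ 0 ≤ -1 / 2 + μ w ∨ 1 / 2 < (π a).τ (d - 1)) := by
  classical
  obtain ⟨s₀, h⟩ := prft_partition d hd
  refine ⟨prftKap, prftMu d, prftRho d, prftOm, s₀,
    ⟨prft_tendsto_kap, prft_tendsto_mu d hd, prft_tendsto_rho d hd, prft_tendsto_om,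
      prft_pos d⟩, fun P B sst h1 h2 h3 h4 => ?_⟩
  obtain ⟨K, I, π, w, hK, hI1, hI2, hI3, hI4, hI5, hI6⟩ := h P B sst h1 h2 h3 h4
  have hm : ∀ a, ∃ m : ℕ, a ∈ I → w a = Real.log B / 2 ^ m := by
    intro a
    by_cases ha : a ∈ I
    · obtain ⟨m, hm⟩ := (hI6 a ha).2.1
      exact ⟨m, fun _ => hm⟩
    · exact ⟨0, fun h => absurd h ha⟩
  choose m hm using hm
  refine ⟨K, I, π, m, fun k => prftTop d (Real.log B / 2 ^ k),
    fun k => prftGrid d (Real.log B / 2 ^ k), hK, hI1, hI2, hI3, hI4, hI5, ?_⟩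
  intro a ha w' hw'
  obtain ⟨h5, -, h6, h7, h8⟩ := hI6 a ha
  rw [hm a ha, ← hw'] at h5 h6 h7 h8
  simp only [← hw']
  exact ⟨h5, h6, prft_grid d w', by
    have := prft_mu_pos d w'
    unfold prftTop
    linarith, le_rfl, h7, h8⟩

theorem prf_core_choose (m e : ℕ) :
    (3 + (m + e)).choose (m + e) ≤ (3 + m).choose m + e * (m + e + 2).choose 2 := by
  induction e with
  | zero => simp
  | succ e ih =>
    have h1 : (3 + (m + (e + 1))).choose (m + (e + 1)) =
        (3 + (m + e)).choose (m + e) + (m + e + 3).choose 2 := by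
      have h2 : 3 + (m + (e + 1)) = (3 + (m + e)) + 1 := by ring
      have h3 : m + (e + 1) = (m + e) + 1 := by ring
      rw [h2, h3, Nat.choose_succ_succ]
      congr 1
      have h4 : (3 + (m + e)) = 2 + (m + e + 1) := by ring
      rw [h4, ← Nat.choose_symm_add]
      congr 1
      ring
    have h5 : (m + e + 2).choose 2 ≤ (m + e + 3).choose 2 := Nat.choose_le_choose 2 (by omega)
    have h6 : m + (e + 1) + 2 = m + e + 3 := by ring
    rw [h1, h6]
    calc (3 + (m + e)).choose (m + e) + (m + e + 3).choose 2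
        ≤ ((3 + m).choose m + e * (m + e + 2).choose 2) + (m + e + 3).choose 2 := by omega
      _ ≤ ((3 + m).choose m + e * (m + e + 3).choose 2) + (m + e + 3).choose 2 := by
          have := Nat.mul_le_mul_left e h5
          omega
      _ = (3 + m).choose m + (e + 1) * (m + e + 3).choose 2 := by ring

theorem prf_core_zset (F : MvPolynomial (Fin 3) ℂ) (hF : F ≠ 0) (e : ℕ) (he : F.totalDegree ≤ e) (L : ℕ) :
    hA (zset F) L ≤ e * (L + 2).choose 2 := by
  by_cases h : e ≤ L
  · have h1 := rk_hA_zset_le F hF he h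
    obtain ⟨m, rfl⟩ := Nat.exists_eq_add_of_le' h
    have h2 := prf_core_choose m e
    simp only [Fintype.card_fin, Nat.add_sub_cancel] at h1
    omega
  · have h1 := rk_hA_le_choose (zset F) L
    have h2 := prf_core_choose 0 L
    simp only [Fintype.card_fin, zero_add, Nat.choose_zero_right, add_zero] at h1 h2
    have h3 : (L + 1) * (L + 2).choose 2 ≤ e * (L + 2).choose 2 := Nat.mul_le_mul_right _ (by omega)
    have h4 : 1 ≤ (L + 2).choose 2 := Nat.choose_pos (by omega)
    have h5 : (L + 1) * (L + 2).choose 2 = L * (L + 2).choose 2 + (L + 2).choose 2 := by ring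
    omega

/-- THE CORE ALTERNATIVE: a set with separators of degree `≤ L` meets the cone over a planar
directional curve of degree `e` in at most `e binom(L+2,2)` points. -/
theorem prf_core {d : ℕ} (K : Finset (Fin d → ℂ)) (L : ℕ)
    (hK : ∀ z ∈ K, ∃ σ : PrfPol d, σ.totalDegree ≤ L ∧ eval z σ = 1 ∧
      ∀ y ∈ K, y ≠ z → eval y σ = 0)
    (c : PCurve d) (p : Fin d → ℂ) (K' : Finset (Fin d → ℂ)) (hK' : K' ⊆ K)
    (hc : ∀ z ∈ K', c.Mem (z - p)) :
    K'.card ≤ c.deg * (L + 2).choose 2 := by
  have h1 : K'.card ≤ hA ((fun x => c.φ x + p) '' zset c.F) L := by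
    apply rk_card_le_rkOn_of_sep
    · intro z hz
      obtain ⟨x, hx, hx0⟩ := hc z hz
      exact ⟨x, hx0, by simp [hx]⟩
    · intro z hz
      obtain ⟨σ, h1, h2, h3⟩ := hK z (hK' hz)
      refine ⟨σ, (mem_restrictTotalDegree _ _ _).2 h1, by rw [h2]; exact one_ne_zero, ?_⟩
      intro y hy hyz
      exact h3 y (hK' hy) hyz
  exact h1.trans ((rk_hA_map_le c.φ p _ L).trans
    (prf_core_zset c.F c.ne c.deg (c.hom.totalDegree c.ne).le L))

end Claimed.Agent.R273
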