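-- KEEP
import Claimed.Agent.R273.PrfPart
import Claimed.Agent.R273.PhMap

/-!
# Row 273, SPARSE (`SparseStmt d`): THE THETA-FRAME.  Architect helper37.  Prefix `sp` / `Sp`.

No sequences, no ultrafilters, no `o(s)`.  Every lemma of S4 / S5-limit / S6 / depth is stated as

  `∀ b (reference profile), fixed times, tolerances ε, densities α, ∃ θ > 0, ∀ single-index data that are θ-good, conclusion with error exp(ε s)`.

Dictionary with the paper (profiles.tex, sparse-cones.tex):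
* `N = |P|`, `B = N^{1/d}`, `A = B² = dA P`, `E = δ N / A`, `T_s(t) = prfT B s t = B e^{t s}`;
* `D_i = T_s(b_i)` (`spD`), `e_j = ∏_{i<j} D_i` (`spE`), `σ(t) = ∏_i min(T_s(t), D_i)` (`spSigma`): all defined by the FIXED profile `b : ℕ → ℝ` (indices `0..d-1`);
* a POOL (`SpPool`) is a finite family of pieces of one window (one piece: `I = {a}`) with ONE time grid; `SpPool.Ok D s θ b`: capture fraction, mesh, `|τ_i - b_i|`, `log(N/|S_a|)/s` are all `≤ θ`;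
* `SpData.Reg θ`: the regime `δ ≤ θ`, `N ≥ 1/δ`, `M ≤ δ A`, degrees `≤ E`, IRREDUCIBLE directional curves, and the FLAT CAPS in complex form (`SpCaps`; lines `2 δ B²`, planes `B^{8/3}` (`st_plane_cap`), `u`-flats `B^u`);
  so nothing below the selection uses the induction hypothesis;
* a CONFIGURATION (`SpCfg`) = output of prof:pair-selection: source pool `X` (centres, width `v`), target pool `Y` (width `s`), covered graph `Γ` of density `α`, global terminal assignment `cho`,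
  terminal deletion, light lines;  three types `Common`, `Outer`, `Sep`.
* LABELS WITHOUT CHARTS: `spLab Γ = {(x, λ (y - x))} ⊆ ℂ^{d ⊕ d}`, a cone in the second variable; `spPsi` is the polynomial map `(x, y, λ) ↦ (x, λ (y - x))`.
  Compared with the paper every label rank has one more factor `T`, and the product images have dimension `2k + 1`.

All `θ`-conditions are monotone (`*.mono`), so lemmas compose by taking minima of their `θ`'s.
-/

set_option autoImplicit false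

namespace Claimed.Agent.R273

open MvPolynomial Module

variable {d : ℕ}

/-- complex `d`-space -/
abbrev SpC (d : ℕ) := Fin d → ℂ

/-- the real part of a complex point -/
noncomputable def spRe (x : SpC d) : Pt d := WithLp.toLp 2 fun i => (x i).re

theorem sp_re_pt (p : Pt d) : spRe (prfPt p) = p := by
  ext i
  simp [spRe, prfPt]

theorem sp_pt_injective : Function.Injective (prfPt : Pt d → SpC d) :=
  Function.LeftInverse.injective sp_re_pt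

theorem sp_cdir (p q : Pt d) : cdir p q = prfPt q - prfPt p := by
  funext i
  simp [cdir, prfPt]

/-! ## Data and regime -/

/-- FLAT CAPS, complex form: `T ⊆ P` lies in a translate of the complex subspace `W`. -/
structure SpCaps (P : Finset (SpC d)) (B δ : ℝ) : Prop where
  line : ∀ W : Submodule ℂ (SpC d), finrank ℂ W ≤ 1 → ∀ T ⊆ P, (∀ x ∈ T, ∀ y ∈ T, x - y ∈ W) →
    (T.card : ℝ) ≤ 2 * δ * B ^ 2
  plane : ∀ W : Submodule ℂ (SpC d), finrank ℂ W ≤ 2 → ∀ T ⊆ P, (∀ x ∈ T, ∀ y ∈ T, x - y ∈ W) →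
    (T.card : ℝ) ≤ B ^ ((8 : ℝ) / 3)
  flat : ∀ u : ℕ, 3 ≤ u → u < d → ∀ W : Submodule ℂ (SpC d), finrank ℂ W ≤ u → ∀ T ⊆ P,
    (∀ x ∈ T, ∀ y ∈ T, x - y ∈ W) → (T.card : ℝ) ≤ B ^ u

/-- The data of the sparse-cones assertion. -/
structure SpData (d : ℕ) where
  P : Finset (Pt d)
  C : Pt d → List (PCurve d)
  δ : ℝ

namespace SpData

/-- the sample points, in `ℂ^d` -/
noncomputable def pts (D : SpData d) : Finset (SpC d) := D.P.image prfPt

noncomputable def N (D : SpData d) : ℝ := (D.P.card : ℝ)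

noncomputable def B (D : SpData d) : ℝ := D.N ^ ((1 : ℝ) / d)

/-- `E = δ N / A` -/
noncomputable def E (D : SpData d) : ℝ := D.δ * D.N / dA D.P

/-- `y` is covered from the centre `x` -/
def Cov (D : SpData d) (x y : SpC d) : Prop := ∃ c ∈ D.C (spRe x), c.Mem (y - x)

/-- the regime, with tolerance `θ` -/
structure Reg (D : SpData d) (θ : ℝ) : Prop where
  pos : 0 < D.δ
  le : D.δ ≤ θ
  big : 1 ≤ D.δ * D.N
  dist : (dM D.P : ℝ) ≤ D.δ * dA D.P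
  deg : ∀ p ∈ D.P, ((((D.C p).map PCurve.deg).sum : ℕ) : ℝ) ≤ D.E
  /-- the directional curves are irreducible -/
  irr : ∀ p ∈ D.P, ∀ c ∈ D.C p, Irreducible c.F
  caps : SpCaps D.pts D.B D.δ

theorem Reg.mono {D : SpData d} {θ θ' : ℝ} (h : D.Reg θ) (hθ : θ ≤ θ') : D.Reg θ' :=
  { h with le := h.le.trans hθ }

end SpData

/-! ## Profile functions of the fixed reference profile -/

/-- `D_i = T_s(b_i)` -/
noncomputable def spD (B s : ℝ) (b : ℕ → ℝ) (i : ℕ) : ℝ := prfT B s (b i)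

/-- `e_j = ∏_{i<j} D_i` -/
noncomputable def spE (B s : ℝ) (b : ℕ → ℝ) (j : ℕ) : ℝ := ∏ i ∈ Finset.range j, spD B s b i

/-- `σ(t) = ∏_{i<d} min(T_s(t), D_i)` -/
noncomputable def spSigma (d : ℕ) (B s : ℝ) (b : ℕ → ℝ) (t : ℝ) : ℝ :=
  ∏ i ∈ Finset.range d, min (prfT B s t) (spD B s b i)

/-- ADMISSIBLE profiles: monotone, in `[-1,1]`, balanced, imbalanced window. -/
structure SpAdm (d : ℕ) (b : ℕ → ℝ) : Prop where
  mono : ∀ i j, i ≤ j → j < d → b i ≤ b j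
  lo : -1 ≤ b 0
  hi : b (d - 1) ≤ 1
  bal : ∑ i ∈ Finset.range d, b i = 0
  imb : b 0 ≤ -1 / 2 ∨ 1 / 2 ≤ b (d - 1)

/-- The open plateau of `b` after `j` cuts contains `t`. -/
def SpPlat (d : ℕ) (b : ℕ → ℝ) (j : ℕ) (t : ℝ) : Prop :=
  j ≤ d ∧ (∀ i < j, b i < t) ∧ ∀ i, j ≤ i → i < d → t < b i

/-! ## Pools -/

/-- A pool of pieces of one window. -/
structure SpPool (d : ℕ) where
  I : Finset ℕ
  π : ℕ → PrfPiece d
  grid : Finset ℝ
  top : ℝ

/-- the points of a pool -/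
noncomputable def SpPool.pts (X : SpPool d) : Finset (SpC d) := X.I.biUnion fun a => (X.π a).S

/-- the carriers of a pool after `j` cuts -/
def SpPool.carriers (X : SpPool d) (j : ℕ) : Set (Ideal (PrfPol d)) :=
  {p | ∃ a ∈ X.I, p ∈ (X.π a).carriers j}

/-- `θ`-good pools of width `s` with reference profile `b`. -/
structure SpPool.Ok (X : SpPool d) (D : SpData d) (s θ : ℝ) (b : ℕ → ℝ) : Prop where
  s_ge : 1 / θ ≤ s
  s_le : s ≤ Real.log D.B
  ne : X.I.Nonempty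
  piece : ∀ a ∈ X.I, (X.π a).Ok D.B s θ X.grid
  grid : PrfGrid X.grid θ X.top
  top_ge : 1 ≤ X.top
  top_le : X.top ≤ 1 + θ
  sub : ∀ a ∈ X.I, (X.π a).S ⊆ D.pts
  disj : ∀ a ∈ X.I, ∀ a' ∈ X.I, a ≠ a' → Disjoint (X.π a).S (X.π a').S
  size : ∀ a ∈ X.I, D.N * Real.exp (-(θ * s)) ≤ ((X.π a).S.card : ℝ)
  prof : ∀ a ∈ X.I, ∀ i < d, |(X.π a).τ i - b i| ≤ θ
  imb : ∀ a ∈ X.I, (X.π a).τ 0 ≤ -1 / 2 + θ ∨ 1 / 2 < (X.π a).τ (d - 1)

theorem PrfPiece.Ok.mono_kappa {n : ℕ} {π : PrfPiece n} {B s κ κ' : ℝ} {grid : Finset ℝ}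
    (h : π.Ok B s κ grid) (hκ : κ ≤ κ') : π.Ok B s κ' grid where
  mono := h.mono
  mem := h.mem
  deg := h.deg
  path := h.path
  nocap := fun t ht j hj h1 h2 g hg S' hS' hx =>
    (h.nocap t ht j hj h1 h2 g hg S' hS' hx).trans
      (mul_le_mul_of_nonneg_right hκ (Nat.cast_nonneg _))
  low := fun hB g hg hd S' hS' hx =>
    (h.low hB g hg hd S' hS' hx).trans (mul_le_mul_of_nonneg_right hκ (Nat.cast_nonneg _))

theorem PrfGrid.mono_mu {grid : Finset ℝ} {μ μ' top : ℝ} (h : PrfGrid grid μ top) (hμ : μ ≤ μ') :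
    PrfGrid grid μ' top where
  neg_one := h.neg_one
  top_mem := h.top_mem
  range := h.range
  mesh := fun b hb hb' => by
    obtain ⟨t, ht, h1, h2⟩ := h.mesh b hb hb'
    exact ⟨t, ht, h1, by linarith⟩
  pred := fun t ht ht' => by
    obtain ⟨t', h1, h2, h3, h4⟩ := h.pred t ht ht'
    exact ⟨t', h1, h2, by linarith, h4⟩

theorem SpPool.Ok.mono {X : SpPool d} {D : SpData d} {s θ θ' : ℝ} {b : ℕ → ℝ}
    (h : X.Ok D s θ b) (h0 : 0 < θ) (hθ : θ ≤ θ') : X.Ok D s θ' b where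
  s_ge := (one_div_le_one_div_of_le h0 hθ).trans h.s_ge
  s_le := h.s_le
  ne := h.ne
  piece := fun a ha => (h.piece a ha).mono_kappa hθ
  grid := h.grid.mono_mu hθ
  top_ge := h.top_ge
  top_le := by linarith [h.top_le]
  sub := h.sub
  disj := h.disj
  size := fun a ha => by
    have hs : 0 ≤ s := le_trans (by positivity) h.s_ge
    refine le_trans ?_ (h.size a ha)
    refine mul_le_mul_of_nonneg_left ?_ (by unfold SpData.N; positivity)
    exact Real.exp_le_exp.mpr (by nlinarith)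
  prof := fun a ha i hi => (h.prof a ha i hi).trans hθ
  imb := fun a ha => (h.imb a ha).imp (fun h' => by linarith) id

/-! ## Terminal curves, labels -/

/-- the cone from `x` over the curve `Z(𝔶)` lies in the directional family of the centre `x` -/
def SpTerm (D : SpData d) (x : SpC d) (𝔶 : Ideal (PrfPol d)) : Prop :=
  ∀ y ∈ zeroLocus ℂ 𝔶, y ≠ x → D.Cov x y

/-- a point of `ℂ^d` with real coordinates -/
def SpReal (x : SpC d) : Prop := ∀ i, (x i).im = 0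

/-- a NONREAL FLAT: degree one and its real points do not span it; for lines: at most one real point -/
def SpThin (𝔶 : Ideal (PrfPol d)) : Prop :=
  vdeg (zeroLocus ℂ 𝔶) = 1 ∧ vdim (zeroLocus ℂ 𝔶) = 1 ∧
    ∀ x ∈ zeroLocus ℂ 𝔶, ∀ y ∈ zeroLocus ℂ 𝔶, SpReal x → SpReal y → x = y

/-- LABELS (affine cone form) of a set of ordered pairs -/
def spLab (Γ : Set (SpC d × SpC d)) : Set (Fin d ⊕ Fin d → ℂ) :=
  {w | ∃ z ∈ Γ, ∃ lam : ℂ, w = Sum.elim z.1 (lam • (z.2 - z.1))}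

/-- the label map `(x, y, λ) ↦ (x, λ (y - x))` as a polynomial map on `ℂ^{(d ⊕ d) ⊕ 1}` -/
noncomputable def spPsi (d : ℕ) : Fin d ⊕ Fin d → MvPolynomial ((Fin d ⊕ Fin d) ⊕ Unit) ℂ :=
  Sum.elim (fun i => X (Sum.inl (Sum.inl i)))
    (fun i => X (Sum.inr ()) * (X (Sum.inl (Sum.inr i)) - X (Sum.inl (Sum.inl i))))

/-- the closed product image `Z_{X,Y}` (cone form) of two sets -/
def spImg (V W : Set (SpC d)) : Set (Fin d ⊕ Fin d → ℂ) :=
  zcl (spLab {z | z.1 ∈ V ∧ z.2 ∈ W})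

/-- the cone of directions from the centre `x` to a set -/
def spCone (x : SpC d) (W : Set (SpC d)) : Set (SpC d) :=
  {w | ∃ y ∈ W, ∃ lam : ℂ, w = lam • (y - x)}

/-! ## Configurations -/

/-- The output of the pair selection. -/
structure SpCfg (d : ℕ) where
  D : SpData d
  X : SpPool d
  Y : SpPool d
  v : ℝ
  s : ℝ
  Γ : Finset (SpC d × SpC d)
  cho : SpC d → Ideal (PrfPol d)

/-- `θ`-good configurations with reference profile `b` and density `α`. -/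
structure SpCfg.Ok (𝔠 : SpCfg d) (b : ℕ → ℝ) (α θ : ℝ) : Prop where
  reg : 𝔠.D.Reg θ
  okX : 𝔠.X.Ok 𝔠.D 𝔠.v θ b
  okY : 𝔠.Y.Ok 𝔠.D 𝔠.s θ b
  sub : 𝔠.Γ ⊆ 𝔠.X.pts ×ˢ 𝔠.Y.pts
  off : ∀ z ∈ 𝔠.Γ, z.1 ≠ z.2
  cov : ∀ z ∈ 𝔠.Γ, 𝔠.D.Cov z.1 z.2
  dense : α * (𝔠.X.pts.card : ℝ) * (𝔠.Y.pts.card : ℝ) ≤ (𝔠.Γ.card : ℝ)
  /-- the global assignment of the target points to carrier curves after `d - 1` cuts -/
  cho_mem : ∀ a ∈ 𝔠.Y.I, ∀ y ∈ (𝔠.Y.π a).S, 𝔠.cho y ∈ prfCarr (prfSys (𝔠.Y.π a).f (d - 1)) y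
  /-- global terminal deletion -/
  term : ∀ z ∈ 𝔠.Γ, ¬ SpTerm 𝔠.D z.1 (𝔠.cho z.2)
  thick : ∀ z ∈ 𝔠.Γ, ¬ SpThin (𝔠.cho z.2)
  /-- light lines -/
  light : ∀ z ∈ 𝔠.Γ, ∀ T ⊆ 𝔠.D.pts, (∀ w ∈ T, ∃ c : ℂ, w - z.1 = c • (z.2 - z.1)) →
    (T.card : ℝ) ≤ 𝔠.D.B ^ θ

/-- common window, not the outermost endpoint -/
def SpCfg.Common (𝔠 : SpCfg d) (b : ℕ → ℝ) : Prop :=
  𝔠.v = 𝔠.s ∧ 𝔠.X.grid = 𝔠.Y.grid ∧ 𝔠.X.top = 𝔠.Y.top ∧
    (2 * 𝔠.s ≤ Real.log 𝔠.D.B ∨ b (d - 1) < 1)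

/-- the outermost endpoint: one pool in both roles -/
def SpCfg.Outer (𝔠 : SpCfg d) (b : ℕ → ℝ) : Prop :=
  𝔠.X = 𝔠.Y ∧ 𝔠.v = 𝔠.s ∧ 𝔠.s = Real.log 𝔠.D.B ∧ b (d - 1) = 1 ∧
    𝔠.D.N * Real.sqrt 𝔠.D.δ ≤ (𝔠.X.pts.card : ℝ)

/-- two widely separated subpower windows, single pieces -/
def SpCfg.Sep (𝔠 : SpCfg d) (θ : ℝ) : Prop :=
  (𝔠.v ≤ θ * 𝔠.s ∨ 𝔠.s ≤ θ * 𝔠.v) ∧ 𝔠.v ≤ θ * Real.log 𝔠.D.B ∧ 𝔠.s ≤ θ * Real.log 𝔠.D.B ∧
    (∃ a, 𝔠.X.I = {a}) ∧ ∃ a, 𝔠.Y.I = {a}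

theorem SpData.Reg.one_le_N {D : SpData d} {θ : ℝ} (h : D.Reg θ) (hθ : θ ≤ 1) : 1 ≤ D.N := by
  have h1 := h.big
  have h2 := h.pos
  have h3 : D.δ ≤ 1 := h.le.trans hθ
  have h4 : 0 ≤ D.N := by unfold SpData.N; positivity
  nlinarith

theorem SpData.Reg.one_le_B {D : SpData d} {θ : ℝ} (h : D.Reg θ) (hθ : θ ≤ 1) : 1 ≤ D.B :=
  Real.one_le_rpow (h.one_le_N hθ) (by positivity)

theorem SpCfg.Ok.mono {𝔠 : SpCfg d} {b : ℕ → ℝ} {α θ θ' : ℝ} (h : 𝔠.Ok b α θ) (h0 : 0 < θ)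
    (hθ : θ ≤ θ') (h1 : θ ≤ 1) : 𝔠.Ok b α θ' where
  reg := h.reg.mono hθ
  okX := h.okX.mono h0 hθ
  okY := h.okY.mono h0 hθ
  sub := h.sub
  off := h.off
  cov := h.cov
  dense := h.dense
  cho_mem := h.cho_mem
  term := h.term
  thick := h.thick
  light := fun z hz T hT hw => (h.light z hz T hT hw).trans
    (Real.rpow_le_rpow_of_exponent_le (h.reg.one_le_B h1) hθ)

end Claimed.Agent.R273
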