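-- KEEP
import Claimed.Agent.R273.SpFrame

/-!
# Row 273, SPARSE: the top interfaces and the final assembly of `SparseStmt d`.  Architect helper37.

`sparse_of_parts : SpFactorStmt d → SpCapStmt d → SpSelStmt d → SpNoCommon d → SpNoOuter d → SpNoSep d → SparseStmt d`  (PROVED here).

* `SpFactorStmt d` the directional curves may be taken irreducible.

* `SpCapStmt d`   red:flat-caps in complex form (induction hypothesis, `st_plane_cap`, `dirc_line`).
* `SpTermStmt d`  geo:terminal, uniform form (S4).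
* `SpSelStmt d`   prof:pair-selection in GAUGE FORM: for every gauge `Θ : profiles → (0,∞)` there is `δ₀` such that every `δ₀`-regular, `δ₀`-almost covered datum has
                  a `Θ(b)`-good configuration of one of the three types, for some reference profile `b`, with density `1/4`.
                  (Compactness = Lebesgue number of the cover of `[-1,1]^d` by the balls `B(b, Θ(b)/2)`; no sequence, no diagonal argument.)
* `SpNoCommon d`  sparse-cones.tex, "Product images and rank in a common window" (S6a).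
* `SpNoOuter d`   sparse-cones.tex, "The outermost endpoint" (S6a/S6b).
* `SpNoSep d`     sparse-cones.tex, separated windows + depth.tex (S6b/S6c).
-/

set_option autoImplicit false

namespace Claimed.Agent.R273

open MvPolynomial Module

/-- (CAP) the flat caps in the regime. -/
def SpCapStmt (d : ℕ) : Prop :=
  (∀ u, 3 ≤ u → u < d → MainStmt u) →
  ∃ δ₀ : ℝ, 0 < δ₀ ∧ ∀ (P : Finset (Pt d)) (δ : ℝ), 0 < δ → δ ≤ δ₀ → 1 ≤ δ * (P.card : ℝ) →
    (dM P : ℝ) ≤ δ * dA P → SpCaps (P.image prfPt) ((P.card : ℝ) ^ ((1 : ℝ) / d)) δ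

/-- (FAC) a planar directional curve is the union of irreducible ones, of the same total degree (factorisation of the form `F`; the factors of a form are forms). -/
def SpFactorStmt (d : ℕ) : Prop :=
  ∀ c : PCurve d, ∃ l : List (PCurve d), (∀ c' ∈ l, Irreducible c'.F) ∧
    (l.map PCurve.deg).sum ≤ c.deg ∧ ∀ w, c.Mem w → ∃ c' ∈ l, c'.Mem w

/-- (TERM) geo:terminal, uniform form: a partial assignment (`Q` = assigned points) of sample points to
irreducible curves through them, no nonreal lines; the terminal pairs are `≤ ε N²`. -/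
def SpTermStmt (d : ℕ) : Prop :=
  ∀ ε : ℝ, 0 < ε → ∃ δ₀ : ℝ, 0 < δ₀ ∧ ∀ D : SpData d, D.Reg δ₀ →
    ∀ (cho : SpC d → Ideal (PrfPol d)) (Q : Finset (SpC d)), Q ⊆ D.pts →
      (∀ y ∈ Q, (cho y).IsPrime ∧ vdim (zeroLocus ℂ (cho y)) = 1 ∧ y ∈ zeroLocus ℂ (cho y) ∧
        ¬ SpThin (cho y)) →
      ∀ Γ ⊆ D.pts ×ˢ Q, (∀ z ∈ Γ, z.1 ≠ z.2 ∧ SpTerm D z.1 (cho z.2)) →
        (Γ.card : ℝ) ≤ ε * D.N ^ 2

/-- (SEL) prof:pair-selection, gauge form. -/
def SpSelStmt (d : ℕ) : Prop :=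
  ∀ Θ : (ℕ → ℝ) → ℝ, (∀ b, 0 < Θ b) → ∃ δ₀ : ℝ, 0 < δ₀ ∧ ∀ D : SpData d, D.Reg δ₀ →
    ∀ U : Finset (SpC d × SpC d),
      (∀ x ∈ D.pts, ∀ y ∈ D.pts, x ≠ y → (x, y) ∈ U ∨ D.Cov x y ∨ D.Cov y x) →
      (U.card : ℝ) ≤ δ₀ * D.N ^ 2 →
      ∃ (b : ℕ → ℝ) (𝔠 : SpCfg d), 𝔠.Ok b (1 / 4) (Θ b) ∧
        (𝔠.Common b ∨ 𝔠.Outer b ∨ 𝔠.Sep (Θ b))

/-- (S6a) no common-window configuration. -/
def SpNoCommon (d : ℕ) : Prop :=
  ∀ (b : ℕ → ℝ) (α : ℝ), 0 < α → ∃ θ : ℝ, 0 < θ ∧ ∀ 𝔠 : SpCfg d, 𝔠.Ok b α θ → ¬ 𝔠.Common b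

/-- (S6a/b) no configuration at the outermost endpoint. -/
def SpNoOuter (d : ℕ) : Prop :=
  ∀ (b : ℕ → ℝ) (α : ℝ), 0 < α → ∃ θ : ℝ, 0 < θ ∧ ∀ 𝔠 : SpCfg d, 𝔠.Ok b α θ → ¬ 𝔠.Outer b

/-- (S6b/c) no configuration in separated windows. -/
def SpNoSep (d : ℕ) : Prop :=
  ∀ (b : ℕ → ℝ) (α : ℝ), 0 < α → ∃ θ : ℝ, 0 < θ ∧ ∀ 𝔠 : SpCfg d, 𝔠.Ok b α θ → ¬ 𝔠.Sep θ

theorem SpCfg.Sep.mono {d : ℕ} {𝔠 : SpCfg d} {b : ℕ → ℝ} {α θ θ' : ℝ} (hok : 𝔠.Ok b α θ)
    (h : 𝔠.Sep θ) (h0 : 0 < θ) (hθ : θ ≤ θ') : 𝔠.Sep θ' := by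
  have hv : 0 ≤ 𝔠.v := le_trans (by positivity) hok.okX.s_ge
  have hs : 0 ≤ 𝔠.s := le_trans (by positivity) hok.okY.s_ge
  have hB : 0 ≤ Real.log 𝔠.D.B := hs.trans hok.okY.s_le
  obtain ⟨h1, h2, h3, h4, h5⟩ := h
  refine ⟨h1.imp (fun h => h.trans (mul_le_mul_of_nonneg_right hθ hs))
    (fun h => h.trans (mul_le_mul_of_nonneg_right hθ hv)),
    h2.trans (mul_le_mul_of_nonneg_right hθ hB), h3.trans (mul_le_mul_of_nonneg_right hθ hB), h4, h5⟩

/-- **The final assembly of the sparse-cones assertion.** -/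
theorem sparse_of_parts {d : ℕ} (hfac : SpFactorStmt d) (hcap : SpCapStmt d) (hsel : SpSelStmt d)
    (hC : SpNoCommon d) (hO : SpNoOuter d) (hS : SpNoSep d) : SparseStmt d := by
  intro IH
  choose fac hfac1 hfac2 hfac3 using hfac
  have hsum : ∀ l : List (PCurve d), ((l.flatMap fac).map PCurve.deg).sum ≤ (l.map PCurve.deg).sum := by
    intro l
    induction l with
    | nil => simp
    | cons c l ih =>
      simp only [List.flatMap_cons, List.map_append, List.sum_append, List.map_cons, List.sum_cons]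
      exact Nat.add_le_add (hfac2 c) ih
  obtain ⟨δ₁, hδ₁, hcaps⟩ := hcap IH
  have h4 : (0 : ℝ) < 1 / 4 := by norm_num
  choose θC hθC hC' using fun b => hC b (1 / 4) h4
  choose θO hθO hO' using fun b => hO b (1 / 4) h4
  choose θS hθS hS' using fun b => hS b (1 / 4) h4
  set Θ : (ℕ → ℝ) → ℝ := fun b => min (min (θC b) (θO b)) (min (θS b) 1) with hΘ
  have hΘpos : ∀ b, 0 < Θ b := fun b =>
    lt_min (lt_min (hθC b) (hθO b)) (lt_min (hθS b) one_pos)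
  obtain ⟨δ₀, hδ₀, hsel'⟩ := hsel Θ hΘpos
  refine ⟨min δ₀ δ₁, lt_min hδ₀ hδ₁, ?_⟩
  intro P hN hM C hdeg U hcov
  by_contra hU
  push Not at hU
  set δ := min δ₀ δ₁ with hδ
  have hδpos : 0 < δ := lt_min hδ₀ hδ₁
  let D : SpData d := ⟨P, fun p => (C p).flatMap fac, δ⟩
  have hreg : D.Reg δ₀ :=
    { pos := hδpos
      le := min_le_left _ _
      big := hN
      dist := hM
      deg := fun p hp => le_trans (by exact_mod_cast hsum (C p)) (hdeg p hp)
      irr := fun p _ c hc => by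
        obtain ⟨c₀, _, hc'⟩ := List.mem_flatMap.mp hc
        exact hfac1 c₀ c hc'
      caps := hcaps P δ hδpos (min_le_right _ _) hN hM }
  let U' : Finset (SpC d × SpC d) := U.image fun z => (prfPt z.1, prfPt z.2)
  have hcov' : ∀ x ∈ D.pts, ∀ y ∈ D.pts, x ≠ y → (x, y) ∈ U' ∨ D.Cov x y ∨ D.Cov y x := by
    intro x hx y hy hxy
    obtain ⟨p, hp, rfl⟩ := Finset.mem_image.mp hx
    obtain ⟨q, hq, rfl⟩ := Finset.mem_image.mp hy
    have hpq : p ≠ q := fun h => hxy (by rw [h])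
    rcases hcov p hp q hq hpq with h | h | h
    · exact Or.inl (Finset.mem_image.mpr ⟨(p, q), h, rfl⟩)
    · refine Or.inr (Or.inl ?_)
      obtain ⟨c, hc, hm⟩ := h
      obtain ⟨c', hc', hm'⟩ := hfac3 c _ hm
      refine ⟨c', ?_, by rwa [← sp_cdir]⟩
      rw [sp_re_pt]
      exact List.mem_flatMap.mpr ⟨c, hc, hc'⟩
    · refine Or.inr (Or.inr ?_)
      obtain ⟨c, hc, hm⟩ := h
      obtain ⟨c', hc', hm'⟩ := hfac3 c _ hm
      refine ⟨c', ?_, by rwa [← sp_cdir]⟩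
      rw [sp_re_pt]
      exact List.mem_flatMap.mpr ⟨c, hc, hc'⟩
  have hU' : (U'.card : ℝ) ≤ δ₀ * D.N ^ 2 := by
    have h1 : (U'.card : ℝ) ≤ (U.card : ℝ) := by exact_mod_cast Finset.card_image_le
    have h2 : δ * (P.card : ℝ) ^ 2 ≤ δ₀ * (P.card : ℝ) ^ 2 :=
      mul_le_mul_of_nonneg_right (min_le_left _ _) (by positivity)
    exact h1.trans (hU.trans h2)
  obtain ⟨b, 𝔠, hok, htype⟩ := hsel' D hreg U' hcov' hU'
  have hΘ1 : Θ b ≤ 1 := (min_le_right _ _).trans (min_le_right _ _)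
  rcases htype with h | h | h
  · exact hC' b 𝔠 (hok.mono (hΘpos b) ((min_le_left _ _).trans (min_le_left _ _)) hΘ1) h
  · exact hO' b 𝔠 (hok.mono (hΘpos b) ((min_le_left _ _).trans (min_le_right _ _)) hΘ1) h
  · have hle : Θ b ≤ θS b := (min_le_right _ _).trans (min_le_left _ _)
    exact hS' b 𝔠 (hok.mono (hΘpos b) hle hΘ1) (h.mono hok (hΘpos b) hle)

end Claimed.Agent.R273
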