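-- KEEP
import Claimed.Agent.R273.SpTop

/-!
# Row 273, S6c = depth.tex (Prop. dep:projected-degree): DEFINITIONS and INTERFACE PROPS.  Architect helper177.  Prefix `dep` / `Dep`, `Sc`.

Frame: helper37's theta-frame (`SpFrame.lean`).  A separated configuration is `𝔠 : SpCfg d` with `𝔠.Ok b α θ`, `𝔠.Sep θ`; centres `𝔠.X.pts` (width `𝔠.v`), targets `𝔠.Y.pts` (width `𝔠.s`);
`ScOr wide 𝔠 θ` fixes the orientation (`wide = true`: `s ≤ θ v`, centres in the WIDER window; `wide = false`: `v ≤ θ s`, NARROWER).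

DIRECTIONS WITHOUT CHARTS: the projection `π_p(W)` is the affine cone `spCone p W = {λ (y - p)} ⊆ ℂ^d`, its closure is `dcone p W`.  A projected carrier of (projective) dimension `l` is a cone of dimension `l + 1`,
its `vdeg` is the projective degree; all direction ranks `hA (spCone p S') T` have one more factor `T` than in the paper.

THE CONCLUSION OF dep:projected-degree IS USED ONLY IN **MASS FORM** (`DepMass`): after deleting a set `Del` of `≤ ρ |X| |Y|` pairs, for EVERY centre `p`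
* every retained target carrier projects with full dimension, and
* for EVERY finite family `𝒢` of irreducible `(l+1)`-dimensional cones the retained targets `q` of the row of `p` with `dcone p (asg q) ∈ 𝒢` number at most `K (∑_𝒢 vdeg) |Y|`, `K = (R / e_j) e^{ε s}`.
(Paper: "every subcollection of mass `≥ ρ|P_y|` has distinct projected degree `≥ (e_j/R) e^{-ε s}`".  The mass form has no density threshold, no typical centres (discarded centres = all their pairs are in `Del`), and is uniform in `𝒢`.)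
`R = B e^{r s} = prfT B s r`: `r = b_0` (first cut), `r = -∑_{i ≥ j} b_i` (narrower centres), `r = -2` (wider centres, `b_j > 0`, `j ≥ 2`).  Indices of `b` are `0..d-1`; "plateau after `j` cuts" = `(b_{j-1}, b_j)`, `l = d - j`.
-/

set_option autoImplicit false

namespace Claimed.Agent.R273

open MvPolynomial Module

variable {d : ℕ}

/-- the closed cone of directions from `x` to `W` -/
def dcone (x : SpC d) (W : Set (SpC d)) : Set (SpC d) := zcl (spCone x W)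

/-- orientation of two separated windows -/
def ScOr (wide : Bool) (𝔠 : SpCfg d) (θ : ℝ) : Prop :=
  (wide = true → 𝔠.s ≤ θ * 𝔠.v) ∧ (wide = false → 𝔠.v ≤ θ * 𝔠.s)

/-- an assignment of the points of a pool to local carriers (of their own piece) after `j` cuts -/
def ScAsg (Y : SpPool d) (j : ℕ) (asg : SpC d → Ideal (PrfPol d)) : Prop :=
  ∀ a ∈ Y.I, ∀ y ∈ (Y.π a).S, asg y ∈ prfCarr (prfSys (Y.π a).f j) y

/-- the points of `U`, other than `p`, on the line through `p` and `y` -/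
def depRoots (p y : SpC d) (U : Set (SpC d)) : Set (SpC d) :=
  {z | z ∈ U ∧ z ≠ p ∧ ∃ c : ℂ, z - p = c • (y - p)}

/-- for a general `y ∈ Y` the line through `p` and `y` contains at most `r` points of `U` other than `p` ("depth `≤ r`") -/
def DepRootLE (p : SpC d) (Y U : Set (SpC d)) (r : ℕ) : Prop :=
  ∃ h : PrfPol d, (∃ y ∈ Y, eval y h ≠ 0) ∧
    ∀ y ∈ Y, eval y h ≠ 0 → (depRoots p y U).Finite ∧ (depRoots p y U).ncard ≤ r

/-- the same for a general pair `(x, y) ∈ X × Y` -/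
def DepRootLE₂ (X Y U : Set (SpC d)) (q : ℕ) : Prop :=
  ∃ H : MvPolynomial (Fin d ⊕ Fin d) ℂ, (∃ x ∈ X, ∃ y ∈ Y, eval (Sum.elim x y) H ≠ 0) ∧
    ∀ x ∈ X, ∀ y ∈ Y, eval (Sum.elim x y) H ≠ 0 →
      (depRoots x y U).Finite ∧ (depRoots x y U).ncard ≤ q

/-- `p` is not a high-multiplicity centre of `Y`: `deg Y ≤ 2 t_p(Y) deg π_p(Y)` (paper: (dep:projection-formula)) -/
def DepHalfGood (p : SpC d) (Y : Set (SpC d)) : Prop :=
  ∀ t : ℕ, DepRootLE p Y Y t → vdeg Y ≤ 2 * t * vdeg (dcone p Y)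

/-- **MASS FORM of the conclusion of dep:projected-degree** on the plateau after `j` cuts, for the assignment `asg`. -/
def DepMass (𝔠 : SpCfg d) (j : ℕ) (asg : SpC d → Ideal (PrfPol d)) (K ρ : ℝ) : Prop :=
  ∃ Del : Finset (SpC d × SpC d),
    (Del.card : ℝ) ≤ ρ * (𝔠.X.pts.card : ℝ) * (𝔠.Y.pts.card : ℝ) ∧
    ∀ p ∈ 𝔠.X.pts,
      (∀ q ∈ 𝔠.Y.pts, (p, q) ∉ Del → vdim (dcone p (zeroLocus ℂ (asg q))) = d - j + 1) ∧
      ∀ 𝒢 : Finset (Set (SpC d)), (∀ W ∈ 𝒢, IsVar W ∧ vdim W = d - j + 1) →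
        ∀ S' ⊆ 𝔠.Y.pts, (∀ q ∈ S', (p, q) ∉ Del ∧ dcone p (zeroLocus ℂ (asg q)) ∈ 𝒢) →
          (S'.card : ℝ) ≤ K * ((∑ W ∈ 𝒢, vdeg W : ℕ) : ℝ) * (𝔠.Y.pts.card : ℝ)

/-- dep:projected-degree with depth denominator `R = B e^{r s}`, theta-form. -/
def DepStmt (d : ℕ) (wide : Bool) (b : ℕ → ℝ) (j : ℕ) (r : ℝ) : Prop :=
  ∀ ε ρ : ℝ, 0 < ε → 0 < ρ → ∃ θ : ℝ, 0 < θ ∧ ∀ (𝔠 : SpCfg d) (α : ℝ), 𝔠.Ok b α θ → 𝔠.Sep θ →
    ScOr wide 𝔠 θ → ∀ asg : SpC d → Ideal (PrfPol d), ScAsg 𝔠.Y j asg →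
      DepMass 𝔠 j asg (prfT 𝔠.D.B 𝔠.s r / spE 𝔠.D.B 𝔠.s b j * Real.exp (ε * 𝔠.s)) ρ

/-- DEPTH FORM (intermediate): after deleting `Del`, at every centre the retained target carriers project with full dimension, are half-good and
the general ray to each of them contains at most `r` points of the retained carriers. -/
def DepDepth (𝔠 : SpCfg d) (j : ℕ) (asg : SpC d → Ideal (PrfPol d)) (r : ℕ)
    (Del : Finset (SpC d × SpC d)) : Prop :=
  ∀ p ∈ 𝔠.X.pts, ∀ q ∈ 𝔠.Y.pts, (p, q) ∉ Del →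
    vdim (dcone p (zeroLocus ℂ (asg q))) = d - j + 1 ∧ DepHalfGood p (zeroLocus ℂ (asg q)) ∧
    DepRootLE p (zeroLocus ℂ (asg q))
      (⋃ q' ∈ {q' | q' ∈ 𝔠.Y.pts ∧ (p, q') ∉ Del}, zeroLocus ℂ (asg q')) r

/-- depth form with `R = B e^{r s}`, theta-form -/
def DepDepthStmt (d : ℕ) (wide : Bool) (b : ℕ → ℝ) (j : ℕ) (r : ℝ) : Prop :=
  ∀ η ρ : ℝ, 0 < η → 0 < ρ → ∃ θ : ℝ, 0 < θ ∧ ∀ (𝔠 : SpCfg d) (α : ℝ), 𝔠.Ok b α θ → 𝔠.Sep θ →
    ScOr wide 𝔠 θ → ∀ asg : SpC d → Ideal (PrfPol d), ScAsg 𝔠.Y j asg →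
      ∃ (Del : Finset (SpC d × SpC d)) (R : ℕ),
        (Del.card : ℝ) ≤ ρ * (𝔠.X.pts.card : ℝ) * (𝔠.Y.pts.card : ℝ) ∧
        (R : ℝ) ≤ prfT 𝔠.D.B 𝔠.s r * Real.exp (η * 𝔠.s) ∧ DepDepth 𝔠 j asg R Del

/-- Output of "Centers in the wider window: the generic lists": source assignment `asgx` on the centre plateau after `jx` cuts (just right of time `0`),
a list `𝓛 X` of target carriers for every source carrier `X`. -/
structure DepLists (𝔠 : SpCfg d) (jx : ℕ) (asg : SpC d → Ideal (PrfPol d)) (ρ : ℝ)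
    (asgx : SpC d → Ideal (PrfPol d)) (𝓛 : Ideal (PrfPol d) → Finset (Ideal (PrfPol d))) : Prop where
  src : ScAsg 𝔠.X jx asgx
  sub : ∀ p ∈ 𝔠.X.pts, ∀ 𝔶 ∈ 𝓛 (asgx p), ∃ q ∈ 𝔠.Y.pts, asg q = 𝔶
  /-- the pairs whose target carrier is not listed are negligible -/
  small : ∀ Del ⊆ 𝔠.X.pts ×ˢ 𝔠.Y.pts, (∀ z ∈ Del, asg z.2 ∉ 𝓛 (asgx z.1)) →
    (Del.card : ℝ) ≤ ρ * (𝔠.X.pts.card : ℝ) * (𝔠.Y.pts.card : ℝ)
  /-- the general connecting direction is not tangent to the target -/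
  tan : ∀ p ∈ 𝔠.X.pts, ∀ 𝔶 ∈ 𝓛 (asgx p), ∃ x ∈ zeroLocus ℂ (asgx p), ∃ y ∈ zeroLocus ℂ 𝔶,
    ∃ f ∈ 𝔶, dAt f y (y - x) ≠ 0
  /-- at most `q ≤ B^{1/2}` roots on the list over a general direction -/
  roots : ∀ p ∈ 𝔠.X.pts, ∀ 𝔶 ∈ 𝓛 (asgx p), ∃ q : ℕ, (q : ℝ) ≤ 𝔠.D.B ^ ((1 : ℝ) / 2) ∧
    DepRootLE₂ (zeroLocus ℂ (asgx p)) (zeroLocus ℂ 𝔶) (⋃ 𝔶' ∈ 𝓛 (asgx p), zeroLocus ℂ 𝔶') q

end Claimed.Agent.R273
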