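import Claimed.Agent.R273.PjMain

/-!
# Row 273, S3b (helper299), layer 4: EXPORTS `pj_proj0`, `pj_half`, `pj_two`.  Prefix `pj_`.

The three exports are GLUE (proved below) from `pj_main`, `pj_model_sep`, `pm_compression` and two leaves:

LEAF PJ-two-a (`pj_ord_two`).  `P := pjLine μ w₁ (w₂ - w₁)`, `natDegree P ≤ deg μ`.  `X^(r₁) ∣ P` (`pj_coeff_pjLine`: the coefficients `j < r₁` are values of `homogeneousComponent j (phSh w₁ μ) = 0`, `ph_ord_iff`/definition of `OrdGE`; `Polynomial.X_pow_dvd_iff`).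
   `P.comp (X + 1) = pjLine μ w₂ (w₂ - w₁)` (algebra homs on `X i`), so `X^(r₂) ∣ P.comp (X + 1)` and `(X - 1)^(r₂) ∣ P` (compose with `X - 1`).  `X^(r₁)` and `(X - 1)^(r₂)` are coprime (`IsCoprime.pow`), the product divides `P`, degree `r₁ + r₂ > natDegree P`: `P = 0`.  `pj_eval_pjLine`.
LEAF PJ-two-b (`pj_model_two`).  `X = zeroLocus ℂ p`, `t : Fin 1 → ..` a Noether position (`ph_exists_npos`, `ph_vdim_of_npos`), `t₀ := t 0`.  `U := {e | ∃ α β : ℂ, e - C α * t₀ - C β ∈ p}` (a subspace).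
   Some coordinate `X i ∉ U` (else `x = β + t₀(x) α` on `X`, contradicting `hnl`); some coordinate `X j` has `o₁ j ≠ o₂ j`.  `e := X i`, `X j` or `X i + X j` satisfies `e ∉ U`, `e o₁ ≠ e o₂`.  `ρ := ![e, t₀]`, `pj_model_exists`.
   If `μ` vanished on the line `w₁ w₂`: `l' := C (v 1) * (X 0 - C (w₁ 0)) - C (v 0) * (X 1 - C (w₁ 1))`, `v = w₂ - w₁ ≠ 0`, is irreducible (degree one) with `zset l'` = that line, so `l' ∣ μ` (`pj_zset_null`), `μ` and `l'` are associated, `aeval ρ l' ∈ p`: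
   `v 1 (e - w₁ 0) - v 0 (t₀ - w₁ 1) ∈ p`.  `v 1 = 0` contradicts (N1) of `t`; `v 1 ≠ 0` gives `e ∈ U`.
-/

set_option autoImplicit false

namespace Claimed.Agent.R273

open MvPolynomial Module

variable {ι κ : Type*}

/-- composition with `ρ` does not lower the order -/
theorem pj_ord_aeval (ρ : κ → MvPolynomial ι ℂ) (μ : MvPolynomial κ ℂ) (x : ι → ℂ) {a : ℕ}
    (h : OrdGE (pmap ρ x) a μ) : OrdGE x a (aeval ρ μ) := by
  apply ph_ord_algHom (aeval ρ) (pmap ρ x) x _ h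
  intro b
  rw [ph_ord_one_iff, pj_eval_aeval]
  simp

/-! ### PJ-two-a -/

theorem pj_X_pow_dvd_pjLine (μ : MvPolynomial κ ℂ) (w v : κ → ℂ) (r : ℕ) (h : OrdGE w r μ) :
    Polynomial.X ^ r ∣ pjLine μ w v := by
  rw [Polynomial.X_pow_dvd_iff]
  intro j hj
  rw [pj_coeff_pjLine, homogeneousComponent_eq_zero', map_zero]
  intro d hd hdj
  have := h d hd
  omega

theorem pj_ord_two (μ : MvPolynomial κ ℂ) (w₁ w₂ : κ → ℂ) (hw : w₁ ≠ w₂) (r₁ r₂ : ℕ)
    (h₁ : OrdGE w₁ r₁ μ) (h₂ : OrdGE w₂ r₂ μ) (hr : μ.totalDegree < r₁ + r₂) (a : ℂ) :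
    eval (w₁ + a • (w₂ - w₁)) μ = 0 := by
  have d1 := pj_X_pow_dvd_pjLine μ w₁ (w₂ - w₁) r₁ h₁
  obtain ⟨S, hS⟩ := pj_X_pow_dvd_pjLine μ w₂ (w₂ - w₁) r₂ h₂
  have d2 : (Polynomial.X - Polynomial.C (1 : ℂ)) ^ r₂ ∣ pjLine μ w₁ (w₂ - w₁) := by
    refine ⟨S.comp (Polynomial.X - Polynomial.C 1), Polynomial.funext (fun b => ?_)⟩
    have e1 : (pjLine μ w₁ (w₂ - w₁)).eval b = (pjLine μ w₂ (w₂ - w₁)).eval (b - 1) := by
      rw [pj_eval_pjLine, pj_eval_pjLine]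
      congr 2
      funext i
      simp only [Pi.add_apply, Pi.smul_apply, Pi.sub_apply, smul_eq_mul]
      ring
    rw [e1, hS]
    simp
  have hcop : IsCoprime ((Polynomial.X : Polynomial ℂ) ^ r₁)
      ((Polynomial.X - Polynomial.C (1 : ℂ)) ^ r₂) := by
    have h0 : IsCoprime (Polynomial.X - Polynomial.C (0 : ℂ)) (Polynomial.X - Polynomial.C (1 : ℂ)) :=
      Polynomial.isCoprime_X_sub_C_of_isUnit_sub (by simp)
    rw [Polynomial.C_0, sub_zero] at h0
    exact h0.pow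
  have d3 := hcop.mul_dvd d1 d2
  have hP : pjLine μ w₁ (w₂ - w₁) = 0 := by
    by_contra hne
    have h3 := Polynomial.natDegree_le_of_dvd d3 hne
    rw [(Polynomial.monic_X_pow r₁).natDegree_mul ((Polynomial.monic_X_sub_C (1 : ℂ)).pow r₂),
      Polynomial.natDegree_X_pow, Polynomial.natDegree_pow, Polynomial.natDegree_X_sub_C] at h3
    have h4 := pj_natDegree_pjLine_le μ w₁ (w₂ - w₁)
    omega
  rw [← pj_eval_pjLine, hP, Polynomial.eval_zero]

variable [Fintype ι]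

/-! ### PJ-two-b -/

theorem pj_irr_line (s c : ℂ) : Irreducible (X 1 - C s * X 0 - C c : MvPolynomial (Fin 2) ℂ) := by
  classical
  have hcoef : coeff (Finsupp.single 1 1) (X 1 - C s * X 0 - C c : MvPolynomial (Fin 2) ℂ) = 1 := by
    have h1 : (Finsupp.single (0 : Fin 2) 1 : Fin 2 →₀ ℕ) ≠ Finsupp.single 1 1 := by
      intro h
      have := congrArg (fun f => f 0) h
      simp at this
    have h2 : (0 : Fin 2 →₀ ℕ) ≠ Finsupp.single 1 1 := by
      intro h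
      have := congrArg (fun f => f 1) h
      simp at this
    rw [coeff_sub, coeff_sub, coeff_C_mul, coeff_X, coeff_X, coeff_C, if_pos rfl, if_neg h1,
      if_neg h2]
    ring
  apply irreducible_of_totalDegree_eq_one
  · apply le_antisymm
    · refine (totalDegree_sub _ _).trans (max_le ((totalDegree_sub _ _).trans
        (max_le (by simp) ?_)) (by simp))
      exact (totalDegree_mul _ _).trans (by simp)
    · have h1 : Finsupp.single 1 1 ∈
          (X 1 - C s * X 0 - C c : MvPolynomial (Fin 2) ℂ).support := by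
        rw [MvPolynomial.mem_support_iff, hcoef]
        exact one_ne_zero
      have h2 := le_totalDegree h1
      simpa using h2
  · intro x hx
    have h1 := hx (Finsupp.single 1 1)
    rw [hcoef] at h1
    exact isUnit_of_dvd_one h1

theorem pj_model_two (X : Set (ι → ℂ)) (hX : IsVar X) (h1 : vdim X = 1)
    (hnl : ¬ ∃ x₀ v : ι → ℂ, ∀ x ∈ X, ∃ c : ℂ, x = x₀ + c • v) (o₁ o₂ : ι → ℂ) (hne : o₁ ≠ o₂) :
    ∃ (ρ : Fin 2 → MvPolynomial ι ℂ) (μ : MvPolynomial (Fin 2) ℂ) (b : ℕ), PjModel X ρ μ b ∧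
      pmap ρ o₁ ≠ pmap ρ o₂ ∧ ∃ a : ℂ, eval (pmap ρ o₁ + a • (pmap ρ o₂ - pmap ρ o₁)) μ ≠ 0 := by
  classical
  obtain ⟨p, hp, rfl⟩ := hX
  obtain ⟨k, t, -, ht⟩ := ph_exists_npos p hp.ne_top
  have hk : k = 1 := by rw [← ph_vdim_of_npos p hp t ht, h1]
  subst hk
  obtain ⟨t₀, ht₀⟩ : ∃ t₀, t₀ = t 0 := ⟨_, rfl⟩
  obtain ⟨U, hU⟩ : ∃ U : MvPolynomial ι ℂ → Prop,
      ∀ e, U e ↔ ∃ α β : ℂ, e - C α * t₀ - C β ∈ p := ⟨_, fun _ => Iff.rfl⟩
  have hUsub : ∀ e e', U e → U e' → U (e - e') := by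
    intro e e' h h'
    rw [hU] at h h' ⊢
    obtain ⟨α, β, h⟩ := h
    obtain ⟨α', β', h'⟩ := h'
    refine ⟨α - α', β - β', ?_⟩
    have h2 := p.sub_mem h h'
    have h3 : e - e' - C (α - α') * t₀ - C (β - β') =
        e - C α * t₀ - C β - (e' - C α' * t₀ - C β') := by
      simp only [map_sub]
      ring
    rw [h3]
    exact h2
  have hex : ∃ i, ¬ U (X i) := by
    by_contra hcon
    push Not at hcon
    simp only [hU] at hcon
    choose α β hαβ using hcon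
    apply hnl
    refine ⟨β, α, fun x hx => ⟨eval x t₀, ?_⟩⟩
    funext i
    have h2 := (ph_mem_zeroLocus p x).1 hx _ (hαβ i)
    simp only [map_sub, map_mul, eval_X, eval_C] at h2
    simp only [Pi.add_apply, Pi.smul_apply, smul_eq_mul]
    linear_combination h2
  obtain ⟨i, hi⟩ := hex
  obtain ⟨j, hj⟩ : ∃ j, o₁ j ≠ o₂ j := Function.ne_iff.1 hne
  obtain ⟨e, he1, heU, heo⟩ : ∃ e : MvPolynomial ι ℂ,
      e.totalDegree ≤ 1 ∧ ¬ U e ∧ eval o₁ e ≠ eval o₂ e := by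
    by_cases hio : o₁ i = o₂ i
    · by_cases hjU : U (X j)
      · refine ⟨X i + X j, ?_, ?_, ?_⟩
        · exact (totalDegree_add _ _).trans (by simp)
        · intro h
          apply hi
          have h2 := hUsub _ _ h hjU
          rwa [add_sub_cancel_right] at h2
        · simp only [map_add, eval_X, hio]
          intro h
          exact hj (add_left_cancel h)
      · exact ⟨X j, by simp, hjU, by simpa using hj⟩
    · exact ⟨X i, by simp, hi, by simpa using hio⟩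
  have hρt : (fun a : Fin 1 => (![e, t₀] : Fin 2 → MvPolynomial ι ℂ) a.succ) = t := by
    funext a
    fin_cases a
    simp [ht₀]
  obtain ⟨μ, b, hM, -, hrel⟩ := pj_model_exists (k := 1) p hp ![e, t₀] (by simpa using he1)
    (by rw [hρt]; exact ht)
  refine ⟨![e, t₀], μ, b, hM, ?_, ?_⟩
  · intro h
    apply heo
    have h2 := congrFun h 0
    simpa [pmap] using h2
  · by_contra hcon
    push Not at hcon
    obtain ⟨w₁, hw₁⟩ : ∃ w₁, w₁ = pmap ![e, t₀] o₁ := ⟨_, rfl⟩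
    obtain ⟨w₂, hw₂⟩ : ∃ w₂, w₂ = pmap ![e, t₀] o₂ := ⟨_, rfl⟩
    rw [← hw₁, ← hw₂] at hcon
    have hv0 : w₂ 0 - w₁ 0 ≠ 0 := by
      rw [hw₁, hw₂]
      simp only [pmap, Matrix.cons_val_zero]
      exact sub_ne_zero.2 (Ne.symm heo)
    obtain ⟨s, hs⟩ : ∃ s, s = (w₂ 1 - w₁ 1) / (w₂ 0 - w₁ 0) := ⟨_, rfl⟩
    obtain ⟨c, hc⟩ : ∃ c, c = w₁ 1 - s * w₁ 0 := ⟨_, rfl⟩
    have hirr := pj_irr_line s c
    have hdvd : (X 1 - C s * X 0 - C c : MvPolynomial (Fin 2) ℂ) ∣ μ := by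
      rw [← pj_zset_null _ hirr]
      intro w hw
      have hw' : w 1 - s * w 0 - c = 0 := by
        have h2 : eval w (X 1 - C s * X 0 - C c : MvPolynomial (Fin 2) ℂ) = 0 := hw
        simpa using h2
      have h3 : w = w₁ + ((w 0 - w₁ 0) / (w₂ 0 - w₁ 0)) • (w₂ - w₁) := by
        funext a
        fin_cases a
        · simp only [Fin.zero_eta, Pi.add_apply, Pi.smul_apply, Pi.sub_apply, smul_eq_mul]
          field_simp
          ring
        · simp only [Fin.mk_one, Pi.add_apply, Pi.smul_apply, Pi.sub_apply, smul_eq_mul]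
          have h4 : w 1 = s * w 0 + c := by linear_combination hw'
          rw [h4, hc, hs]
          field_simp
          ring
      rw [h3]
      exact hcon _
    have hdvd' : μ ∣ (X 1 - C s * X 0 - C c : MvPolynomial (Fin 2) ℂ) :=
      hirr.dvd_symm hM.irr hdvd
    have hmem := (hrel _).2 hdvd'
    have hmem' : t₀ - C s * e - C c ∈ p := by
      simpa using hmem
    by_cases hs0 : s = 0
    · have h2 : aeval t (X 0 - C c : MvPolynomial (Fin 1) ℂ) ∈ p := by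
        rw [hs0] at hmem'
        simpa [ht₀] using hmem'
      have h3 := ht.inj _ h2
      have h4 := congrArg (eval fun _ => c + 1) h3
      simp at h4
    · apply heU
      rw [hU]
      refine ⟨s⁻¹, -(s⁻¹ * c), ?_⟩
      have h2 : e - C s⁻¹ * t₀ - C (-(s⁻¹ * c)) = C (-s⁻¹) * (t₀ - C s * e - C c) := by
        have h3 : (C s⁻¹ * C s : MvPolynomial ι ℂ) = 1 := by
          rw [← C_mul, inv_mul_cancel₀ hs0, C_1]
        simp only [map_neg, map_mul]
        linear_combination (-e) * h3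
      rw [h2]
      exact p.mul_mem_left _ hmem'

/-! ### exports -/

/-- **poly:projection (i), centre outside `X`**: `deg X ≤ t deg π_o(X)`. -/
theorem pj_proj0 (X : Set (ι → ℂ)) (hX : IsVar X) (o : ι → ℂ) (ho : o ∉ X) (t : ℕ)
    (ht : PjRayLE o X t) : vdeg X ≤ t * vdeg (pjK o X) := by
  obtain ⟨ρ, μ, b, hM, hne⟩ := pj_model_sep X hX o ho
  have hr : ¬ OrdGE (pmap ρ o) (0 + 1) μ := by
    rw [zero_add, ph_ord_one_iff]; exact hne
  have h := pj_main hX (by simp) hM o 0 hr t ht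
  rw [Nat.sub_zero] at h
  exact hM.deg.trans h

/-- **poly:high-multiplicity + poly:projection (i)**: ONE polynomial of degree `≤ 2 (n + 1)`, nonzero at the given `x_* ∉ X`, such that `deg X ≤ 2 t deg π_p(X)` at EVERY centre `p` where it does not vanish. -/
theorem pj_half (X : Set (ι → ℂ)) (hX : IsVar X) (xs : ι → ℂ) (hxs : xs ∉ X) :
    ∃ g : MvPolynomial ι ℂ, eval xs g ≠ 0 ∧ g.totalDegree ≤ 2 * (Fintype.card ι + 1) ∧
      ∀ p : ι → ℂ, eval p g ≠ 0 → ∀ t : ℕ, PjRayLE p X t → vdeg X ≤ 2 * t * vdeg (pjK p X) := by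
  obtain ⟨ρ, μ, b, hM, hne⟩ := pj_model_sep X hX xs hxs
  set E := μ.totalDegree with hE
  set r₀ := E / 2 + 1 with hr₀
  obtain ⟨g, hg1, hg2, hg3⟩ := pm_compression {z | OrdGE z r₀ (aeval ρ μ)} xs (aeval ρ μ) E r₀
    (by omega) (ph_totalDegree_aeval_le ρ hM.lin μ) (fun z hz => hz)
    (by rw [pj_eval_aeval]; exact hne)
  refine ⟨g, hg3, ?_, ?_⟩
  · have h2 : E ≤ 2 * r₀ := by omega
    have h3 : r₀ * g.totalDegree ≤ r₀ * (2 * (Fintype.card ι + 1)) := by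
      calc r₀ * g.totalDegree ≤ (Fintype.card ι + 1) * E := hg1
        _ ≤ (Fintype.card ι + 1) * (2 * r₀) := Nat.mul_le_mul_left _ h2
        _ = r₀ * (2 * (Fintype.card ι + 1)) := by ring
    exact Nat.le_of_mul_le_mul_left h3 (by omega)
  · intro p hp t ht
    have hr : ¬ OrdGE (pmap ρ p) (E / 2 + 1) μ := fun h => hp (hg2 p (pj_ord_aeval ρ μ p h))
    have h := pj_main hX (by simp) hM p (E / 2) hr t ht
    have h4 : E ≤ 2 * (E - E / 2) := by omega
    calc vdeg X ≤ b * E := hM.deg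
      _ ≤ b * (2 * (E - E / 2)) := Nat.mul_le_mul_left _ h4
      _ = 2 * (b * (E - E / 2)) := by ring
      _ ≤ 2 * (t * vdeg (pjK p X)) := Nat.mul_le_mul_left _ h
      _ = 2 * t * vdeg (pjK p X) := by ring

/-- the exact order of a nonzero polynomial at a point -/
theorem pj_exists_ord (μ : MvPolynomial κ ℂ) (hμ : μ ≠ 0) (w : κ → ℂ) :
    ∃ r : ℕ, OrdGE w r μ ∧ ¬ OrdGE w (r + 1) μ := by
  classical
  have hex : ∃ r : ℕ, ¬ OrdGE w (r + 1) μ :=
    ⟨μ.totalDegree, fun h => hμ (ph_ord_eq_zero h (Nat.lt_succ_self _))⟩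
  refine ⟨Nat.find hex, ?_, Nat.find_spec hex⟩
  rcases Nat.eq_zero_or_pos (Nat.find hex) with h0 | hpos
  · rw [h0]; exact ph_ord_zero_left w μ
  · have := Nat.find_min hex (m := Nat.find hex - 1) (by omega)
    rw [not_not] at this
    rwa [Nat.sub_add_cancel hpos] at this

/-- **two centres of a nonlinear irreducible curve**: `deg X ≤ t₁ e₁ + t₂ e₂`.  In particular at most one centre has `2 t e < deg X`. -/
theorem pj_two (X : Set (ι → ℂ)) (hX : IsVar X) (h1 : vdim X = 1)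
    (hnl : ¬ ∃ x₀ v : ι → ℂ, ∀ x ∈ X, ∃ c : ℂ, x = x₀ + c • v) (o₁ o₂ : ι → ℂ) (hne : o₁ ≠ o₂)
    (t₁ t₂ : ℕ) (ht₁ : PjRayLE o₁ X t₁) (ht₂ : PjRayLE o₂ X t₂) :
    vdeg X ≤ t₁ * vdeg (pjK o₁ X) + t₂ * vdeg (pjK o₂ X) := by
  obtain ⟨ρ, μ, b, hM, hw, a, ha⟩ := pj_model_two X hX h1 hnl o₁ o₂ hne
  obtain ⟨r₁, hr₁, hr₁'⟩ := pj_exists_ord μ hM.irr.ne_zero (pmap ρ o₁)
  obtain ⟨r₂, hr₂, hr₂'⟩ := pj_exists_ord μ hM.irr.ne_zero (pmap ρ o₂)
  have hsum : r₁ + r₂ ≤ μ.totalDegree := by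
    by_contra hlt
    exact ha (pj_ord_two μ _ _ hw r₁ r₂ hr₁ hr₂ (not_le.mp hlt) a)
  have e₁ := pj_main hX (by rw [h1]; simp) hM o₁ r₁ hr₁' t₁ ht₁
  have e₂ := pj_main hX (by rw [h1]; simp) hM o₂ r₂ hr₂' t₂ ht₂
  have h4 : μ.totalDegree ≤ (μ.totalDegree - r₁) + (μ.totalDegree - r₂) := by omega
  calc vdeg X ≤ b * μ.totalDegree := hM.deg
    _ ≤ b * ((μ.totalDegree - r₁) + (μ.totalDegree - r₂)) := Nat.mul_le_mul_left _ h4
    _ = b * (μ.totalDegree - r₁) + b * (μ.totalDegree - r₂) := by ring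
    _ ≤ _ := Nat.add_le_add e₁ e₂

end Claimed.Agent.R273
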