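import Claimed.Agent.R273.PjRed
import Claimed.Agent.R273.PjHalf
import Claimed.Agent.R273.RkMap

/-!
# Row 273, S3b (helper299), layer 5b: poly:tangent-projection, `vdeg C ≤ 2 t e`.  Prefix `pj_`.

Setting at the origin: `p` prime, `C = zeroLocus ℂ p` a curve through `0`, `𝔐 = idealOfVars ι ℂ`, `l` a linear form, `l ∉ p`, `l ∈ 𝔐² + p`.
PLAN.  `s, u, c` from `pj_reduction0` (`s ≠ 0` at the other zeros of `l` on `C`).  Plane model `ρ = ![l, s]`, equation `μ(L, S)`, `L = X 0`, `S = X 1`.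
 (i) [`pj_tan_rel`] a relation `Ξ = ∑_{k ≤ N} q_k S^(2(N-k)) L^k`, `q_N(0) ≠ 0`, `Ξ(l, s) ∈ p` ("`l / s²` is integral over the local ring of the plane model at `0`"); so `μ ∣ Ξ`.
 (ii) [`pj_weight`] weights `wt S = 1`, `wt L = 2`: the initial form of `Ξ` contains `L^N`, so the initial form of `μ` contains a pure power `L^j`, `wt μ = 2 j`: `ord_0 μ ≤ j`, and the pure monomial `S^i` of `μ` (`L ∤ μ`) has `i ≥ 2 j`: `2 j ≤ deg μ`.
 (iii) `pj_main`: `b (deg μ - j) ≤ t e`, `vdeg C ≤ b deg μ ≤ 2 b (deg μ - j)`.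

LEAF PJ-tan-a (`pj_unit_w`), Mathlib only.  `1 = u α + n`, `n ∈ 𝔫 A` (`Ideal.mem_sup`, `Ideal.mem_span_singleton'`).  `f := LinearMap.mulLeft R n` has range in `𝔫 • ⊤` (`Ideal.smul_top_eq_map`).  `LinearMap.exists_monic_and_coeff_mem_pow_and_aeval_eq_zero_of_range_le_smul` gives a monic `P`, `P.coeff k ∈ 𝔫^(deg - k)`, `aeval f P = 0`, so `aeval n P = 0` (apply to `1`).
   `w := P.eval 1 = ∑ coeff`; `w - 1 ∈ 𝔫` (the leading coefficient is `1`, the others lie in `𝔫`).  `(1 - n) ∣ aeval 1 P - aeval n P` (`Polynomial.sub_dvd_eval_sub` for `P.map (algebraMap R A)`), `1 - n = u α`.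
LEAF PJ-tan-b (`pj_ch_rel`), Mathlib only.  `M' := Mi.restrictScalars R`, a finite `R`-module (`IsNoetherian R A`), `f := r₀ • LinearMap.id`, range in `span {S} • ⊤`; the same Cayley-Hamilton lemma; `aeval f P = (P.eval r₀) • id`; apply to `0 ≠ g ∈ Mi`, `A` a domain.
LEAF PJ-tan-c (`pj_tan_rel`).  `R := MvPolynomial (Fin 2) ℂ`, `A := MvPolynomial ι ℂ ⧸ p`, algebra structure `((Ideal.Quotient.mk p).comp (aeval ![l, s]).toRingHom).toAlgebra`.  `Module.Finite R A`: from `FiltFin p ![s]` the classes of the `b_j` span `A` over `ℂ[s]`, a fortiori over `R`.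
   `𝔫 := span {X 0, X 1}`, `Mi := (𝔐^c).map mk ≠ ⊥` (`s^c ∉ p`).  `pj_unit_w` gives `w`, `eval 0 w = 1`.  `u² l 𝔐^c ⊆ s² 𝔐^c + p` (`l 𝔐^c ⊆ 𝔐^(c+2) + p`, twice `hred`).  `pj_ch_rel` with `r₀ := w² X 0`, `S := (X 1)²`: `P.coeff k = (X 1)^(2(N-k)) p'_k` (`Ideal.span_singleton_pow`, `Ideal.mem_span_singleton`), `q k := p'_k w^(2k)`, `q N = w^(2N)`.
LEAF PJ-tan-d (`pj_weight`), Mathlib + `OrdGE`.  `Θ : MvPolynomial (Fin 2) ℂ →ₐ Polynomial (Polynomial ℂ)`, `X 1 ↦ X`, `X 0 ↦ C X * X^2`.  `coeff_w (Θ G) = ∑_{i + 2 j = w} g_(j,i) X^j`; `Θ` is injective.  For `G ≠ 0`: `wt G := natTrailingDegree (Θ G)`, `dg G := natDegree (trailingCoeff (Θ G))`, `2 dg G ≤ wt G`;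
   both are additive (`Polynomial.natTrailingDegree_mul`, `trailingCoeff_mul`, `natDegree_mul`).  `wt Ξ = 2 N`, `dg Ξ = N`.  So `2 dg μ = wt μ`; `j := dg μ`: the monomial `L^j` has a nonzero coefficient in `μ` (so `¬ OrdGE 0 (j+1) μ`), every monomial `L^a S^i` of `μ` has `i + 2 a ≥ 2 j`; `X 0 ∤ μ` gives a monomial with `a = 0`.
LEAF PJ-tan-e (`pj_K_vdim_of_ray`, `pj_curve_section_finite`, `pj_unit_of_zeros`).
   `pj_K_vdim_of_ray`: `C ⊆ K := pjK 0 C`, `1 ≤ vdim K ≤ 2`.  If `vdim K = 1` then `K = C` (`ph_vdim_lt_of_ssubset`: a polynomial vanishing on `C`, not on `K`), so `C` is stable under scaling.  There is `y ∈ C`, `h y ≠ 0`, `y ≠ 0` (else `X_i h` vanishes on `C` for all `i`, `ph_isVar_mul`: `C ⊆ {0}`, `vdim = 0`); `pjRoots 0 y C ⊇ {c • y | c ≠ 0}` is infinite.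
   `pj_curve_section_finite`: components of `Zl (insert l p)` (`ph_comps_finite`, `ph_Zl_eq_iUnion_comps`) have dimension `0` (`ph_pit`), so they are points (`ph_point_of_vdim_zero`).
   `pj_unit_of_zeros`: weak Nullstellensatz: a proper ideal has a zero (`MvPolynomial.zeroLocus` of a proper ideal is nonempty: `vanishingIdeal_zeroLocus_eq_radical`, `1 ∉ radical`).
GLUE `pj_tangent0` (PROVED below).
LEAF PJ-tan-f (`pj_tangent`): translation to the origin.  `τ := phSh o`, `C' := (· - o) '' C = zeroLocus ℂ (p.map τ)` (`τ` is an automorphism, inverse `phSh (-o)`), `hA C' = hA C` (`rk_hA_map_eq`, `L = id`, `b = -o`) so `vdim`, `vdeg` agree; `pjCone o C = pjCone 0 C'`; `PjRayLE o C t → PjRayLE 0 C' t` (`h ↦ τ h`, `pjRoots 0 (y - o) C' = (· - o) '' pjRoots o y C`, `Set.ncard_image_of_injective`).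
   `l' := τ l` is homogeneous of degree one.  `J := {v | v l ∈ 𝔐_o² + p}` is an ideal containing `𝔐_o` (`l ∈ 𝔐_o`) and `u ∉ 𝔐_o`; `𝔐_o` is maximal, so `1 ∈ J`.  If `o ∉ C` use `pj_proj0`.
-/

set_option autoImplicit false

namespace Claimed.Agent.R273

open MvPolynomial Module

/-! ### PJ-tan-a, PJ-tan-b: commutative algebra -/

theorem pj_unit_w {R A : Type*} [CommRing R] [CommRing A] [Algebra R A] [Module.Finite R A]
    (𝔫 : Ideal R) (u : A) (h : Ideal.span {u} ⊔ 𝔫.map (algebraMap R A) = ⊤) :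
    ∃ w : R, w - 1 ∈ 𝔫 ∧ ∃ β : A, algebraMap R A w = u * β := by
  have h1 : (1 : A) ∈ Ideal.span {u} ⊔ 𝔫.map (algebraMap R A) := by
    rw [h]
    exact Submodule.mem_top
  obtain ⟨a, ha, n, hn, han⟩ := Submodule.mem_sup.1 h1
  obtain ⟨α, rfl⟩ := Ideal.mem_span_singleton'.1 ha
  have hrange : LinearMap.range (Algebra.lmul R A n) ≤ 𝔫 • (⊤ : Submodule R A) := by
    rintro _ ⟨x, rfl⟩
    rw [Ideal.smul_top_eq_map]
    exact Ideal.mul_mem_right x _ hn
  obtain ⟨P, hPm, -, hPc, hP0⟩ :=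
    LinearMap.exists_monic_and_natDegree_eq_and_coeff_mem_pow_and_aeval_eq_zero R (Algebra.lmul R A n) 𝔫 hrange
  have hPn : Polynomial.aeval n P = 0 := by
    rw [Polynomial.aeval_algHom_apply] at hP0
    have := congrArg (fun f : Module.End R A => f 1) hP0
    simpa using this
  refine ⟨P.eval 1, ?_, ?_⟩
  · rw [Polynomial.eval_eq_sum_range, Finset.sum_range_succ, hPm.coeff_natDegree]
    simp only [one_pow, mul_one, add_sub_cancel_right]
    refine Ideal.sum_mem _ fun k hk => ?_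
    exact Ideal.pow_le_self (by have := Finset.mem_range.1 hk; omega) (hPc k)
  · have h2 := Polynomial.sub_dvd_eval_sub (1 : A) n (P.map (algebraMap R A))
    rw [Polynomial.eval_map_algebraMap, Polynomial.eval_map_algebraMap, hPn, sub_zero] at h2
    have h3 : Polynomial.aeval (1 : A) P = algebraMap R A (P.eval 1) := by
      have := Polynomial.aeval_algebraMap_apply A (1 : R) P
      rw [map_one] at this
      rw [this, Polynomial.coe_aeval_eq_eval]
    have h4 : (1 : A) - n = α * u := by rw [← han]; ring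
    rw [h3, h4] at h2
    obtain ⟨γ, hγ⟩ := h2
    exact ⟨α * γ, by rw [hγ]; ring⟩

theorem pj_ch_rel {R A : Type*} [CommRing R] [IsNoetherianRing R] [CommRing A] [IsDomain A]
    [Algebra R A] [Module.Finite R A] (Mi : Ideal A) (hMi : Mi ≠ ⊥) (r₀ S : R)
    (h : ∀ g ∈ Mi, algebraMap R A r₀ * g ∈ Ideal.span {algebraMap R A S} * Mi) :
    ∃ P : Polynomial R, P.Monic ∧ (∀ k, P.coeff k ∈ Ideal.span {S} ^ (P.natDegree - k)) ∧
      algebraMap R A (P.eval r₀) = 0 := by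
  have hN : IsNoetherian R A := isNoetherian_of_isNoetherianRing_of_finite R A
  have hfin : Module.Finite R (Mi.restrictScalars R) := Module.IsNoetherian.finite R _
  have hrange : LinearMap.range (algebraMap R (Module.End R (Mi.restrictScalars R)) r₀)
      ≤ Ideal.span {S} • (⊤ : Submodule R (Mi.restrictScalars R)) := by
    rintro _ ⟨g, rfl⟩
    obtain ⟨g', hg', hgg⟩ := Ideal.mem_span_singleton_mul.1 (h g.1 g.2)
    have e : algebraMap R (Module.End R (Mi.restrictScalars R)) r₀ g = S • (⟨g', hg'⟩ : Mi.restrictScalars R) := by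
      apply Subtype.ext
      simp only [Module.algebraMap_end_apply, Submodule.coe_smul, Algebra.smul_def]
      exact hgg.symm
    rw [e]
    exact Submodule.smul_mem_smul (Ideal.mem_span_singleton_self S) Submodule.mem_top
  obtain ⟨P, hPm, -, hPc, hP0⟩ :=
    LinearMap.exists_monic_and_natDegree_eq_and_coeff_mem_pow_and_aeval_eq_zero R _ _ hrange
  refine ⟨P, hPm, hPc, ?_⟩
  rw [Polynomial.aeval_algebraMap_apply, Polynomial.coe_aeval_eq_eval] at hP0
  obtain ⟨g, hg, hg0⟩ := Submodule.exists_mem_ne_zero_of_ne_bot hMi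
  have h2 := congrArg (fun f : Module.End R (Mi.restrictScalars R) => ((f ⟨g, hg⟩ : Mi.restrictScalars R) : A)) hP0
  simp only [Module.algebraMap_end_apply, Submodule.coe_smul, Algebra.smul_def, LinearMap.zero_apply,
    Submodule.coe_zero] at h2
  exact (mul_eq_zero.1 h2).resolve_right hg0

/-- the abstract form of `pj_tan_rel` -/
theorem pj_tan_abs {R A : Type*} [CommRing R] [IsNoetherianRing R] [CommRing A] [IsDomain A]
    [Algebra R A] [Module.Finite R A] (L₀ S₀ : R) (u : A)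
    (hu : Ideal.span {u} ⊔ (Ideal.span {L₀, S₀}).map (algebraMap R A) = ⊤) (Mi : Ideal A) (hMi : Mi ≠ ⊥)
    (h : ∀ g ∈ Mi, u ^ 2 * algebraMap R A L₀ * g ∈ Ideal.span {algebraMap R A (S₀ ^ 2)} * Mi) :
    ∃ (N : ℕ) (q : ℕ → R), q N - 1 ∈ Ideal.span {L₀, S₀} ∧
      algebraMap R A (∑ k ∈ Finset.range (N + 1), q k * S₀ ^ (2 * (N - k)) * L₀ ^ k) = 0 := by
  obtain ⟨w, hw, β, hβ⟩ := pj_unit_w (Ideal.span {L₀, S₀}) u hu
  obtain ⟨P, hPm, hPc, hP0⟩ := pj_ch_rel Mi hMi (w ^ 2 * L₀) (S₀ ^ 2) (by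
    intro g hg
    have e : algebraMap R A (w ^ 2 * L₀) * g = β ^ 2 * (u ^ 2 * algebraMap R A L₀ * g) := by
      rw [map_mul, map_pow, hβ]
      ring
    rw [e]
    exact Ideal.mul_mem_left _ _ (h g hg))
  have hc : ∀ k, ∃ a, a * (S₀ ^ 2) ^ (P.natDegree - k) = P.coeff k := by
    intro k
    have := hPc k
    rw [Ideal.span_singleton_pow] at this
    exact Ideal.mem_span_singleton'.1 this
  choose p' hp' using hc
  refine ⟨P.natDegree, fun k => p' k * w ^ (2 * k), ?_, ?_⟩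
  · have h1 : p' P.natDegree = 1 := by
      have := hp' P.natDegree
      rwa [Nat.sub_self, pow_zero, mul_one, hPm.coeff_natDegree] at this
    simp only [h1, one_mul]
    obtain ⟨γ, hγ⟩ := sub_dvd_pow_sub_pow w 1 (2 * P.natDegree)
    rw [one_pow] at hγ
    rw [hγ]
    exact Ideal.mul_mem_right _ _ hw
  · rw [← hP0, Polynomial.eval_eq_sum_range]
    congr 1
    refine Finset.sum_congr rfl fun k _ => ?_
    rw [← hp' k]
    ring

/-- two applications of the reduction -/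
theorem pj_red_twice {P : Type*} [CommRing P] (𝔐 p : Ideal P) (s l u : P) (c : ℕ)
    (hl : l ∈ 𝔐 ^ 2 ⊔ p)
    (hred : ∀ f ∈ 𝔐 ^ (c + 1), u * f ∈ Ideal.span {s} * 𝔐 ^ c ⊔ p) :
    ∀ g ∈ 𝔐 ^ c, u ^ 2 * l * g ∈ Ideal.span {s ^ 2} * 𝔐 ^ c ⊔ p := by
  have ha : ∀ f ∈ 𝔐 ^ (c + 2), u * f ∈ Ideal.span {s} * 𝔐 ^ (c + 1) ⊔ p := by
    intro f hf
    rw [show c + 2 = (c + 1) + 1 by ring, pow_succ'] at hf
    refine Submodule.mul_induction_on hf (fun x hx y hy => ?_) (fun a b ha hb => ?_)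
    · obtain ⟨a, ha, b, hb, hab⟩ := Submodule.mem_sup.1 (hred y hy)
      have e : u * (x * y) = x * a + x * b := by rw [← mul_add, hab]; ring
      rw [e]
      refine add_mem (Ideal.mem_sup_left ?_) (Ideal.mem_sup_right (Ideal.mul_mem_left _ _ hb))
      have := Ideal.mul_mem_mul hx ha
      rwa [mul_left_comm, ← pow_succ'] at this
    · rw [mul_add]
      exact add_mem ha hb
  have hb : ∀ f ∈ 𝔐 ^ (c + 2), u * (u * f) ∈ Ideal.span {s ^ 2} * 𝔐 ^ c ⊔ p := by
    intro f hf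
    obtain ⟨a, ha', b, hb, hab⟩ := Submodule.mem_sup.1 (ha f hf)
    obtain ⟨a', ha'', rfl⟩ := Ideal.mem_span_singleton_mul.1 ha'
    obtain ⟨a₂, ha₂, b₂, hb₂, hab₂⟩ := Submodule.mem_sup.1 (hred a' ha'')
    obtain ⟨a₃, ha₃, rfl⟩ := Ideal.mem_span_singleton_mul.1 ha₂
    have e : u * (u * f) = s ^ 2 * a₃ + (s * b₂ + u * b) := by
      rw [← hab, mul_add, show u * (s * a') = s * (u * a') by ring, ← hab₂]
      ring
    rw [e]
    refine add_mem (Ideal.mem_sup_left ?_) (Ideal.mem_sup_right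
      (add_mem (Ideal.mul_mem_left _ _ hb₂) (Ideal.mul_mem_left _ _ hb)))
    exact Ideal.mul_mem_mul (Ideal.mem_span_singleton_self _) ha₃
  intro g hg
  obtain ⟨l₁, hl₁, l₂, hl₂, rfl⟩ := Submodule.mem_sup.1 hl
  have e : u ^ 2 * (l₁ + l₂) * g = u * (u * (l₁ * g)) + u ^ 2 * g * l₂ := by ring
  rw [e]
  refine add_mem (hb _ ?_) (Ideal.mem_sup_right (Ideal.mul_mem_left _ _ hl₂))
  have := Ideal.mul_mem_mul hl₁ hg
  rwa [← pow_add, add_comm] at this

/-- `pj_tan_rel` for an abstract quotient map `π` -/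
theorem pj_tan_gen {R P A : Type*} [CommRing R] [IsNoetherianRing R] [CommRing P] [CommRing A] [IsDomain A]
    (φ : R →+* P) (π : P →+* A) (hπ : Function.Surjective π) (L₀ S₀ : R) (𝔐 : Ideal P) (u : P) (c : ℕ)
    (hfin : ∃ (m : ℕ) (b : Fin m → P), ∀ f : P, ∃ a : Fin m → R, π f = ∑ j, π (φ (a j)) * π (b j))
    (hs : φ S₀ ∈ 𝔐) (hsp : π (φ S₀) ≠ 0) (hl : φ L₀ ∈ 𝔐 ^ 2 ⊔ RingHom.ker π)
    (hred : ∀ f ∈ 𝔐 ^ (c + 1), u * f ∈ Ideal.span {φ S₀} * 𝔐 ^ c ⊔ RingHom.ker π)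
    (hunit : Ideal.span {u, φ S₀, φ L₀} ⊔ RingHom.ker π = ⊤) :
    ∃ (N : ℕ) (q : ℕ → R), q N - 1 ∈ Ideal.span {L₀, S₀} ∧
      π (φ (∑ k ∈ Finset.range (N + 1), q k * S₀ ^ (2 * (N - k)) * L₀ ^ k)) = 0 := by
  let _ : Algebra R A := (π.comp φ).toAlgebra
  have halg : ∀ g : R, algebraMap R A g = π (φ g) := fun g => rfl
  have hker : (RingHom.ker π).map π = ⊥ := (Ideal.map_eq_bot_iff_le_ker π).2 le_rfl
  have : Module.Finite R A := by
    obtain ⟨m, b, hb⟩ := hfin
    refine Module.Finite.of_surjective (Fintype.linearCombination R fun j : Fin m => π (b j)) ?_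
    intro x
    obtain ⟨f, rfl⟩ := hπ x
    obtain ⟨a, ha⟩ := hb f
    refine ⟨a, ?_⟩
    rw [Fintype.linearCombination_apply, ha]
    simp only [Algebra.smul_def, halg]
  have hu : Ideal.span {π u} ⊔ (Ideal.span {L₀, S₀}).map (algebraMap R A) = ⊤ := by
    have h1 := congrArg (Ideal.map π) hunit
    rw [Ideal.map_top, Ideal.map_sup, hker, sup_bot_eq, Ideal.map_span] at h1
    rw [Ideal.map_span, ← h1]
    simp only [Set.image_insert_eq, Set.image_singleton, halg]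
    rw [Ideal.span_insert (π u), Set.pair_comm]
  have hMi : (𝔐 ^ c).map π ≠ ⊥ := by
    intro h0
    have h1 : π (φ S₀ ^ c) ∈ (𝔐 ^ c).map π := Ideal.mem_map_of_mem _ (Ideal.pow_mem_pow hs c)
    rw [h0, Ideal.mem_bot, map_pow] at h1
    exact hsp (eq_zero_of_pow_eq_zero h1)
  have hkey := pj_red_twice 𝔐 (RingHom.ker π) (φ S₀) (φ L₀) u c hl hred
  obtain ⟨N, q, hq1, hq2⟩ := pj_tan_abs L₀ S₀ (π u) hu _ hMi (by
    intro g hg
    obtain ⟨g₀, hg₀, rfl⟩ := (Ideal.mem_map_iff_of_surjective _ hπ).1 hg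
    have h1 := Ideal.mem_map_of_mem π (hkey g₀ hg₀)
    rw [Ideal.map_sup, hker, sup_bot_eq, Ideal.map_mul, Ideal.map_span, Set.image_singleton] at h1
    simpa only [halg, map_mul, map_pow] using h1)
  exact ⟨N, q, hq1, hq2⟩

variable {ι : Type*} [Fintype ι]

/-! ### PJ-tan-c -/

theorem pj_tan_rel (p : Ideal (MvPolynomial ι ℂ)) (hp : p.IsPrime) (s l u : MvPolynomial ι ℂ)
    (c : ℕ) (hs : s ∈ idealOfVars ι ℂ) (hsp : s ∉ p) (hfin : FiltFin p ![s])
    (hl : l ∈ idealOfVars ι ℂ ^ 2 ⊔ p)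
    (hred : ∀ f ∈ idealOfVars ι ℂ ^ (c + 1), u * f ∈ Ideal.span {s} * idealOfVars ι ℂ ^ c ⊔ p)
    (hunit : Ideal.span {u, s, l} ⊔ p = ⊤) :
    ∃ (N : ℕ) (q : ℕ → MvPolynomial (Fin 2) ℂ), eval 0 (q N) ≠ 0 ∧
      aeval ![l, s] (∑ k ∈ Finset.range (N + 1), q k * X 1 ^ (2 * (N - k)) * X 0 ^ k) ∈ p := by
  have : IsDomain (MvPolynomial ι ℂ ⧸ p) := Ideal.Quotient.isDomain p
  have e0 : (aeval ![l, s] : MvPolynomial (Fin 2) ℂ →ₐ[ℂ] MvPolynomial ι ℂ).toRingHom (X 0) = l := by simp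
  have e1 : (aeval ![l, s] : MvPolynomial (Fin 2) ℂ →ₐ[ℂ] MvPolynomial ι ℂ).toRingHom (X 1) = s := by simp
  obtain ⟨N, q, hq1, hq2⟩ := pj_tan_gen
    (aeval ![l, s] : MvPolynomial (Fin 2) ℂ →ₐ[ℂ] MvPolynomial ι ℂ).toRingHom (Ideal.Quotient.mk p)
    Ideal.Quotient.mk_surjective (X 0) (X 1) (idealOfVars ι ℂ) u c (by
      obtain ⟨m, b, hb⟩ := hfin
      refine ⟨m, b, fun f => ?_⟩
      obtain ⟨a, -, ha⟩ := hb f
      refine ⟨fun j => rename (fun _ => 1) (a j), ?_⟩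
      have e : (![l, s] ∘ fun _ : Fin 1 => (1 : Fin 2)) = ![s] := by
        funext i
        fin_cases i
        rfl
      have e2 : ∀ j, (aeval ![l, s] : MvPolynomial (Fin 2) ℂ →ₐ[ℂ] MvPolynomial ι ℂ).toRingHom
          (rename (fun _ => 1) (a j)) = aeval ![s] (a j) := by
        intro j
        show aeval ![l, s] (rename (fun _ => 1) (a j)) = _
        rw [aeval_rename, e]
      simp only [e2, ← map_mul, ← map_sum]
      exact Ideal.Quotient.eq.2 ha)
    (by rw [e1]; exact hs)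
    (by rw [e1]; exact fun h => hsp (Ideal.Quotient.eq_zero_iff_mem.1 h))
    (by rw [e0, Ideal.mk_ker]; exact hl)
    (by rw [e1, Ideal.mk_ker]; exact hred)
    (by rw [e0, e1, Ideal.mk_ker]; exact hunit)
  refine ⟨N, q, ?_, ?_⟩
  · have hle : Ideal.span {(X 0 : MvPolynomial (Fin 2) ℂ), X 1} ≤ RingHom.ker (eval (0 : Fin 2 → ℂ)) := by
      rw [Ideal.span_le]
      rintro x (rfl | rfl) <;> simp [RingHom.mem_ker]
    have h1 := hle hq1
    rw [RingHom.mem_ker, map_sub, map_one, sub_eq_zero] at h1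
    rw [h1]
    exact one_ne_zero
  · exact Ideal.Quotient.eq_zero_iff_mem.1 hq2

/-! ### PJ-tan-d -/

/-- the weighted substitution `X 1 ↦ T`, `X 0 ↦ Y T²` -/
noncomputable def pjTh : MvPolynomial (Fin 2) ℂ →ₐ[ℂ] Polynomial (Polynomial ℂ) :=
  aeval ![Polynomial.C Polynomial.X * Polynomial.X ^ 2, Polynomial.X]

theorem pjTh_eqns_cite : True := by
  have := @pjTh.eq_1
  trivial

theorem pj_th_monomial (u : Fin 2 →₀ ℕ) (c : ℂ) :
    pjTh (monomial u c) = Polynomial.C (Polynomial.C c * Polynomial.X ^ (u 0)) * Polynomial.X ^ (2 * u 0 + u 1) := by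
  rw [pjTh, aeval_monomial, Finsupp.prod_fintype _ _ (by simp), Fin.prod_univ_two]
  simp only [Matrix.cons_val_zero, Matrix.cons_val_one, Polynomial.algebraMap_apply, Polynomial.C_mul,
    Polynomial.C_pow, mul_pow, ← pow_mul, pow_add]
  simp only [Algebra.algebraMap_self, RingHom.id_apply]
  ring

theorem pj_th_coeff (G : MvPolynomial (Fin 2) ℂ) (w a : ℕ) :
    ((pjTh G).coeff w).coeff a
      = if 2 * a ≤ w then G.coeff (Finsupp.single 0 a + Finsupp.single 1 (w - 2 * a)) else 0 := by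
  induction G using MvPolynomial.induction_on' with
  | monomial u c =>
    rw [pj_th_monomial, Polynomial.coeff_C_mul_X_pow, coeff_monomial]
    by_cases h1 : w = 2 * u 0 + u 1
    · rw [if_pos h1, Polynomial.coeff_C_mul_X_pow]
      by_cases h2 : a = u 0
      · rw [if_pos h2, if_pos (by omega), if_pos]
        ext i
        fin_cases i
        · simp [h2]
        · simp [h1, h2]
      · rw [if_neg h2]
        split_ifs with h3 h4
        · exfalso
          apply h2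
          have := DFunLike.congr_fun h4 0
          simpa using this.symm
        · rfl
        · rfl
    · rw [if_neg h1, Polynomial.coeff_zero]
      split_ifs with h3 h4
      · exfalso
        apply h1
        have e0 := DFunLike.congr_fun h4 0
        have e1 := DFunLike.congr_fun h4 1
        simp at e0 e1
        omega
      · rfl
      · rfl
  | add p q hp hq =>
    rw [map_add, Polynomial.coeff_add, Polynomial.coeff_add, hp, hq, coeff_add]
    split_ifs <;> simp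

theorem pj_mono_eq (m : Fin 2 →₀ ℕ) : Finsupp.single 0 (m 0) + Finsupp.single 1 (m 1) = m := by
  ext i
  fin_cases i <;> simp

theorem pj_th_ne_zero {G : MvPolynomial (Fin 2) ℂ} (hG : G ≠ 0) : pjTh G ≠ 0 := by
  obtain ⟨m, hm⟩ := ne_zero_iff.1 hG
  intro h
  have h1 := pj_th_coeff G (2 * m 0 + m 1) (m 0)
  rw [h, if_pos (by omega), show 2 * m 0 + m 1 - 2 * m 0 = m 1 by omega, pj_mono_eq] at h1
  simp at h1
  exact hm h1.symm

/-- the extremal monomial of the initial form -/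
theorem pj_th_trailing {G : MvPolynomial (Fin 2) ℂ} (hG : G ≠ 0) :
    2 * (pjTh G).trailingCoeff.natDegree ≤ (pjTh G).natTrailingDegree ∧
      G.coeff (Finsupp.single 0 (pjTh G).trailingCoeff.natDegree
        + Finsupp.single 1 ((pjTh G).natTrailingDegree - 2 * (pjTh G).trailingCoeff.natDegree)) ≠ 0 := by
  have h1 : (pjTh G).trailingCoeff ≠ 0 := Polynomial.trailingCoeff_nonzero_iff_nonzero.2 (pj_th_ne_zero hG)
  have h2 : (pjTh G).trailingCoeff.coeff (pjTh G).trailingCoeff.natDegree ≠ 0 :=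
    Polynomial.leadingCoeff_ne_zero.2 h1
  have h3 := pj_th_coeff G (pjTh G).natTrailingDegree (pjTh G).trailingCoeff.natDegree
  rw [show (pjTh G).coeff (pjTh G).natTrailingDegree = (pjTh G).trailingCoeff from rfl] at h3
  by_cases h4 : 2 * (pjTh G).trailingCoeff.natDegree ≤ (pjTh G).natTrailingDegree
  · rw [if_pos h4] at h3
    exact ⟨h4, by rwa [← h3]⟩
  · rw [if_neg h4] at h3
    exact absurd h3 h2

theorem pj_th_coeff_zero (q : MvPolynomial (Fin 2) ℂ) : (pjTh q).coeff 0 = Polynomial.C (eval 0 q) := by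
  ext a
  rw [pj_th_coeff, Polynomial.coeff_C]
  by_cases ha : a = 0
  · subst ha
    simp [← constantCoeff_eq, eval_zero]
  · rw [if_neg (by omega), if_neg ha]

/-- the image of the relation -/
theorem pj_th_rel (N : ℕ) (q : ℕ → MvPolynomial (Fin 2) ℂ) :
    pjTh (∑ k ∈ Finset.range (N + 1), q k * X 1 ^ (2 * (N - k)) * X 0 ^ k)
      = Polynomial.X ^ (2 * N) * ∑ k ∈ Finset.range (N + 1), pjTh (q k) * Polynomial.C (Polynomial.X ^ k) := by
  rw [map_sum, Finset.mul_sum]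
  refine Finset.sum_congr rfl fun k hk => ?_
  have hk' : k ≤ N := Nat.lt_succ_iff.1 (Finset.mem_range.1 hk)
  rw [map_mul, map_mul, map_pow, map_pow]
  have e0 : pjTh (X 0) = Polynomial.C Polynomial.X * Polynomial.X ^ 2 := by simp [pjTh]
  have e1 : pjTh (X 1) = Polynomial.X := by simp [pjTh]
  rw [e0, e1, mul_pow, ← pow_mul, Polynomial.C_pow, show 2 * N = 2 * (N - k) + 2 * k by omega, pow_add]
  ring

theorem pj_rel_coeff_zero (N : ℕ) (q : ℕ → MvPolynomial (Fin 2) ℂ) :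
    (∑ k ∈ Finset.range (N + 1), pjTh (q k) * Polynomial.C (Polynomial.X ^ k)).coeff 0
      = ∑ k ∈ Finset.range (N + 1), Polynomial.C (eval 0 (q k)) * Polynomial.X ^ k := by
  rw [Polynomial.finsetSum_coeff]
  refine Finset.sum_congr rfl fun k _ => ?_
  rw [Polynomial.coeff_mul_C, pj_th_coeff_zero]

theorem pj_natDegree_sum (N : ℕ) (c : ℕ → ℂ) (hc : c N ≠ 0) :
    (∑ k ∈ Finset.range (N + 1), Polynomial.C (c k) * (Polynomial.X : Polynomial ℂ) ^ k).natDegree = N := by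
  refine le_antisymm ?_ ?_
  · refine Polynomial.natDegree_sum_le_of_forall_le _ _ fun k hk => ?_
    exact (Polynomial.natDegree_C_mul_X_pow_le _ _).trans (Nat.lt_succ_iff.1 (Finset.mem_range.1 hk))
  · refine Polynomial.le_natDegree_of_ne_zero ?_
    rw [Polynomial.finsetSum_coeff]
    simp only [Polynomial.coeff_C_mul_X_pow]
    rw [Finset.sum_ite_eq]
    simpa using hc

theorem pj_weight (μ ν : MvPolynomial (Fin 2) ℂ) (N : ℕ) (q : ℕ → MvPolynomial (Fin 2) ℂ)
    (hq : eval 0 (q N) ≠ 0)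
    (h : μ * ν = ∑ k ∈ Finset.range (N + 1), q k * X 1 ^ (2 * (N - k)) * X 0 ^ k)
    (hμ : ¬ X 0 ∣ μ) : ∃ j : ℕ, ¬ OrdGE 0 (j + 1) μ ∧ 2 * j ≤ μ.totalDegree := by
  -- the relation
  set R := ∑ k ∈ Finset.range (N + 1), pjTh (q k) * Polynomial.C (Polynomial.X ^ k) with hR
  have hdeg : (R.coeff 0).natDegree = N := by
    rw [hR, pj_rel_coeff_zero]
    exact pj_natDegree_sum N (fun k => eval 0 (q k)) hq
  have hR0 : R.coeff 0 ≠ 0 := by
    intro h0
    have h1 := pj_rel_coeff_zero N q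
    rw [← hR, h0] at h1
    have h2 := congrArg (fun p : Polynomial ℂ => p.coeff N) h1
    simp only [Polynomial.coeff_zero, Polynomial.finsetSum_coeff, Polynomial.coeff_C_mul_X_pow] at h2
    rw [Finset.sum_ite_eq, if_pos (Finset.mem_range.2 (Nat.lt_succ_self N))] at h2
    exact hq h2.symm
  have hRne : R ≠ 0 := fun h0 => hR0 (by rw [h0, Polynomial.coeff_zero])
  have hRt : R.natTrailingDegree = 0 := Nat.le_zero.1 (Polynomial.natTrailingDegree_le_of_ne_zero hR0)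
  have hth : pjTh μ * pjTh ν = Polynomial.X ^ (2 * N) * R := by rw [← map_mul, h, pj_th_rel]
  have hXne : (Polynomial.X : Polynomial (Polynomial ℂ)) ^ (2 * N) ≠ 0 := pow_ne_zero _ Polynomial.X_ne_zero
  have hμ0 : μ ≠ 0 := fun h0 => by
    rw [h0, map_zero, zero_mul] at hth
    exact mul_ne_zero hXne hRne hth.symm
  have hν0 : ν ≠ 0 := fun h0 => by
    rw [h0, map_zero, mul_zero] at hth
    exact mul_ne_zero hXne hRne hth.symm
  have a1 := congrArg Polynomial.natTrailingDegree hth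
  rw [Polynomial.natTrailingDegree_mul (pj_th_ne_zero hμ0) (pj_th_ne_zero hν0),
    Polynomial.natTrailingDegree_mul hXne hRne, Polynomial.natTrailingDegree_X_pow, hRt, add_zero] at a1
  have a2 := congrArg Polynomial.trailingCoeff hth
  rw [Polynomial.trailingCoeff_mul, Polynomial.trailingCoeff_mul] at a2
  have e3 : R.trailingCoeff = R.coeff 0 := by rw [Polynomial.trailingCoeff, hRt]
  have e4 : ((Polynomial.X : Polynomial (Polynomial ℂ)) ^ (2 * N)).trailingCoeff = 1 := by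
    rw [Polynomial.trailingCoeff, Polynomial.natTrailingDegree_X_pow, Polynomial.coeff_X_pow_self]
  rw [e3, e4, one_mul] at a2
  have a3 := congrArg Polynomial.natDegree a2
  rw [Polynomial.natDegree_mul (Polynomial.trailingCoeff_nonzero_iff_nonzero.2 (pj_th_ne_zero hμ0))
    (Polynomial.trailingCoeff_nonzero_iff_nonzero.2 (pj_th_ne_zero hν0)), hdeg] at a3
  obtain ⟨b1, b2⟩ := pj_th_trailing hμ0
  obtain ⟨c1, -⟩ := pj_th_trailing hν0
  set j := (pjTh μ).trailingCoeff.natDegree with hj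
  have hw : (pjTh μ).natTrailingDegree = 2 * j := by omega
  refine ⟨j, ?_, ?_⟩
  · intro hord
    rw [hw, Nat.sub_self, Finsupp.single_zero, add_zero] at b2
    have h5 := hord (Finsupp.single 0 j) (by
      have e : (aeval (fun i => X i + C ((0 : Fin 2 → ℂ) i)) μ : MvPolynomial (Fin 2) ℂ) = μ := ph_phSh_zero μ
      rw [e, MvPolynomial.mem_support_iff]
      exact b2)
    rw [Finsupp.degree_single] at h5
    omega
  · rw [X_dvd_iff_modMonomial_eq_zero] at hμ
    obtain ⟨m, hm⟩ := ne_zero_iff.1 hμ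
    have hle : ¬ Finsupp.single 0 1 ≤ m := fun hle => hm (coeff_modMonomial_of_le _ hle)
    rw [coeff_modMonomial_of_not_le _ hle] at hm
    have hm0 : m 0 = 0 := by
      rw [Finsupp.single_le_iff] at hle
      omega
    have h6 := pj_th_coeff μ (m 1) 0
    rw [if_pos (by omega), Nat.mul_zero, Nat.sub_zero, ← hm0, pj_mono_eq] at h6
    have h7 : (pjTh μ).coeff (m 1) ≠ 0 := fun h0 => by
      rw [h0, Polynomial.coeff_zero] at h6
      exact hm h6.symm
    have h8 := Polynomial.natTrailingDegree_le_of_ne_zero h7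
    have h9 := le_totalDegree (MvPolynomial.mem_support_iff.2 hm)
    rw [Finsupp.sum_fintype _ _ (by simp), Fin.sum_univ_two] at h9
    omega

/-! ### PJ-tan-e -/

theorem pj_K_vdim_of_ray (C : Set (ι → ℂ)) (hC : IsVar C) (h1 : vdim C = 1) (t : ℕ)
    (ht : PjRayLE 0 C t) : vdim (pjK 0 C) = 2 := by
  have hK : IsVar (pjK 0 C) := pj_K_isVar 0 hC
  have hle : vdim (pjK 0 C) ≤ 2 := by
    have := pj_K_vdim_le 0 hC
    omega
  have hCK : C ⊆ pjK 0 C := fun y hy => by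
    have := pj_sub_K 0 C hy 1
    rwa [one_smul, sub_zero] at this
  by_contra hne
  have hKC : pjK 0 C ⊆ C := by
    intro x hx
    by_contra hxC
    obtain ⟨p, hp, rfl⟩ := hC
    rw [ph_mem_zeroLocus] at hxC
    push Not at hxC
    obtain ⟨g, hg, hgx⟩ := hxC
    have := ph_vdim_lt_of_ssubset hK hCK g (fun y hy => (ph_mem_zeroLocus p y).1 hy g hg) ⟨x, hx, hgx⟩
      (ph_isVar_nonempty _ ⟨p, hp, rfl⟩)
    omega
  obtain ⟨h, ⟨y₀, hy₀, hne₀⟩, hall⟩ := ht
  obtain ⟨y, hy, hhy, hy0⟩ : ∃ y ∈ C, eval y h ≠ 0 ∧ y ≠ 0 := by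
    by_contra hcon
    push Not at hcon
    have hX : ∀ i, ∀ x ∈ C, eval x (X i : MvPolynomial ι ℂ) = 0 := by
      intro i
      rcases ph_isVar_mul hC (X i) h (fun x hx => by
        by_cases hx0 : eval x h = 0
        · rw [map_mul, hx0, mul_zero]
        · rw [hcon x hx hx0]
          simp) with h2 | h2
      · exact h2
      · exact absurd (h2 y₀ hy₀) hne₀
    have hsub : C ⊆ {0} := fun x hx => by
      rw [Set.mem_singleton_iff]
      funext i
      simpa using hX i x hx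
    have := ph_vdim_mono hsub
    rw [(ph_point (0 : ι → ℂ)).2.1] at this
    omega
  have hfin := (hall y hy hhy).1
  refine Set.infinite_of_injective_forall_mem (f := fun n : ℕ => (((n + 1 : ℕ) : ℂ)) • y) ?_ ?_ hfin
  · intro a b hab
    simp only at hab
    have h3 := smul_left_injective ℂ hy0 hab
    have h4 : a + 1 = b + 1 := by exact_mod_cast h3
    omega
  · intro n
    have hn : (((n + 1 : ℕ) : ℂ)) ≠ 0 := by exact_mod_cast Nat.succ_ne_zero n
    refine ⟨hKC ?_, smul_ne_zero hn hy0, ((n + 1 : ℕ) : ℂ), by simp⟩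
    have := pj_sub_K 0 C hy ((n + 1 : ℕ) : ℂ)
    rwa [sub_zero] at this

theorem pj_curve_section_finite (p : Ideal (MvPolynomial ι ℂ)) (hp : p.IsPrime)
    (h1 : vdim (zeroLocus ℂ p) = 1) (l : MvPolynomial ι ℂ) (hl : l ∉ p) :
    {x ∈ zeroLocus ℂ p | eval x l = 0}.Finite := by
  have hZ : Zl (p : Set (MvPolynomial ι ℂ)) = zeroLocus ℂ p := by
    ext x
    rw [ph_mem_zeroLocus]
    rfl
  have hex : ∃ x ∈ zeroLocus ℂ p, eval x l ≠ 0 := by
    by_contra hcon
    push Not at hcon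
    apply hl
    rw [← ph_vanishing_prime p hp, ph_mem_vanishingIdeal]
    exact hcon
  have e : {x ∈ zeroLocus ℂ p | eval x l = 0} = Zl (insert l (p : Set (MvPolynomial ι ℂ))) := by
    ext x
    constructor
    · rintro ⟨hx, hxl⟩ g hg
      rcases hg with rfl | hg
      · exact hxl
      · exact (ph_mem_zeroLocus p x).1 hx g hg
    · intro hx
      exact ⟨(ph_mem_zeroLocus p x).2 fun g hg => hx g (Set.mem_insert_of_mem _ hg), hx l (Set.mem_insert _ _)⟩
  rw [e, ph_Zl_eq_iUnion_comps]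
  refine Set.Finite.biUnion (ph_comps_finite _) fun W hW => ?_
  have h2 := ph_pit _ ⟨p, hp, rfl⟩ _ hZ l hex W hW
  have hWv : IsVar W := by
    obtain ⟨q, hq, rfl⟩ := hW
    exact ⟨q, hq.1.1, rfl⟩
  obtain ⟨x, rfl⟩ := ph_point_of_vdim_zero W hWv (by omega)
  exact Set.finite_singleton x

theorem pj_unit_of_zeros (I : Ideal (MvPolynomial ι ℂ)) (h : ∀ x, ¬ ∀ f ∈ I, eval x f = 0) :
    I = ⊤ := by
  have h1 : zeroLocus ℂ I = ∅ := by
    ext x
    simp only [Set.mem_empty_iff_false, iff_false]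
    intro hx
    exact h x ((ph_mem_zeroLocus I x).1 hx)
  have h2 := vanishingIdeal_zeroLocus_eq_radical (K := ℂ) I
  rw [h1] at h2
  rw [← Ideal.radical_eq_top, ← h2]
  ext f
  simp [mem_vanishingIdeal_iff]

/-! ### glue at the origin -/

theorem pj_tangent0 (p : Ideal (MvPolynomial ι ℂ)) (hp : p.IsPrime)
    (h1 : vdim (zeroLocus ℂ p) = 1) (h0 : (0 : ι → ℂ) ∈ zeroLocus ℂ p) (l : MvPolynomial ι ℂ)
    (hl1 : l.IsHomogeneous 1) (hlp : l ∉ p) (hl2 : l ∈ idealOfVars ι ℂ ^ 2 ⊔ p) (t : ℕ)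
    (ht : PjRayLE 0 (zeroLocus ℂ p) t) :
    vdeg (zeroLocus ℂ p) ≤ 2 * t * vdeg (pjK 0 (zeroLocus ℂ p)) := by
  classical
  have hC : IsVar (zeroLocus ℂ p) := ⟨p, hp, rfl⟩
  have hK := pj_K_vdim_of_ray _ hC h1 t ht
  have hfin := pj_curve_section_finite p hp h1 l hlp
  obtain ⟨s, u, c, hs1, hsN, hsZ, hu0, hred⟩ := pj_reduction0 p hp h1 h0 hK (hfin.toFinset.erase 0)
    (fun z hz => by
      rw [Finset.mem_erase, Set.Finite.mem_toFinset] at hz
      exact ⟨hz.2.1, hz.1⟩)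
  have hs𝔐 : s ∈ idealOfVars ι ℂ := by
    have := pj_homog_mem_pow s 1 hs1
    rwa [pow_one] at this
  have hsp : s ∉ p := by
    intro h
    have := hsN.inj (X 0) (by simpa using h)
    exact X_ne_zero _ this
  have hunit : Ideal.span {u, s, l} ⊔ p = ⊤ := by
    apply pj_unit_of_zeros
    intro x hx
    have hxC : x ∈ zeroLocus ℂ p :=
      (pj_mem_zeroLocus_iff p x).mpr fun f hf => hx f (Ideal.mem_sup_right hf)
    have hux : eval x u = 0 := hx u (Ideal.mem_sup_left (Ideal.subset_span (by simp)))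
    have hsx : eval x s = 0 := hx s (Ideal.mem_sup_left (Ideal.subset_span (by simp)))
    have hlx : eval x l = 0 := hx l (Ideal.mem_sup_left (Ideal.subset_span (by simp)))
    by_cases hx0 : x = 0
    · subst hx0; exact hu0 hux
    · refine hsZ x ?_ hsx
      rw [Finset.mem_erase, Set.Finite.mem_toFinset]
      exact ⟨hx0, hxC, hlx⟩
  obtain ⟨N, q, hqN, hΞ⟩ := pj_tan_rel p hp s l u c hs𝔐 hsp hsN.fin hl2 hred hunit
  have hρ : NPos p (fun i : Fin 1 => (![l, s] : Fin 2 → MvPolynomial ι ℂ) i.succ) := by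
    have : (fun i : Fin 1 => (![l, s] : Fin 2 → MvPolynomial ι ℂ) i.succ) = ![s] := by
      funext i; fin_cases i; rfl
    rw [this]; exact hsN
  obtain ⟨μ, b, hM, _, hker⟩ := pj_model_exists p hp ![l, s] hl1.totalDegree_le hρ
  obtain ⟨ν, hν⟩ := (hker _).mp hΞ
  have hX0 : ¬ (X 0 : MvPolynomial (Fin 2) ℂ) ∣ μ := by
    intro hdvd
    have h2 : μ ∣ X 0 := (X_prime (R := ℂ) (i := (0 : Fin 2))).irreducible.dvd_symm hM.irr hdvd
    have h3 := (hker (X 0)).mpr h2
    rw [aeval_X] at h3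
    exact hlp h3
  obtain ⟨j, hj1, hj2⟩ := pj_weight μ ν N q hqN hν.symm hX0
  have hw0 : pmap ![l, s] (0 : ι → ℂ) = 0 := by
    funext i
    fin_cases i
    · exact pj_homog_eval_zero l 1 one_ne_zero hl1
    · exact pj_homog_eval_zero s 1 one_ne_zero hs1
  have hmain := pj_main hC (by rw [h1]; simp) hM 0 j (by rw [hw0]; exact hj1) t ht
  have h4 : μ.totalDegree ≤ 2 * (μ.totalDegree - j) := by omega
  calc vdeg (zeroLocus ℂ p) ≤ b * μ.totalDegree := hM.deg
    _ ≤ b * (2 * (μ.totalDegree - j)) := Nat.mul_le_mul_left _ h4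
    _ = 2 * (b * (μ.totalDegree - j)) := by ring
    _ ≤ 2 * (t * vdeg (pjK 0 (zeroLocus ℂ p))) := Nat.mul_le_mul_left _ hmain
    _ = 2 * t * vdeg (pjK 0 (zeroLocus ℂ p)) := by ring

/-! ### PJ-tan-f -/

/-- **poly:tangent-projection.**  `C` an irreducible curve, `l` of degree `≤ 1` vanishing at `o`, not identically on `C`, and `u l ∈ 𝔪_o² + I(C)` with `u(o) ≠ 0`
(e.g. `C ⊆ X`, `X` smooth at `o`, `l` vanishing on `o + T_oX`).  Then `deg C ≤ 2 t deg π_o(C)`. -/
theorem pj_tangent (C : Set (ι → ℂ)) (hC : IsVar C) (h1 : vdim C = 1) (o : ι → ℂ)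
    (l u g : MvPolynomial ι ℂ) (hl : l.totalDegree ≤ 1) (hlo : eval o l = 0)
    (hlC : ∃ z ∈ C, eval z l ≠ 0) (huo : eval o u ≠ 0) (hg : OrdGE o 2 g)
    (hul : ∀ x ∈ C, eval x (u * l - g) = 0) (t : ℕ) (ht : PjRayLE o C t) :
    vdeg C ≤ 2 * t * vdeg (pjK o C) := by
  by_cases hoC : o ∈ C
  swap
  · have h2 := pj_proj0 C hC o hoC t ht
    calc vdeg C ≤ t * vdeg (pjK o C) := h2
      _ ≤ 2 * t * vdeg (pjK o C) := Nat.mul_le_mul_right _ (by omega)
  obtain ⟨p, hp, rfl⟩ := hC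
  obtain ⟨p', hp'def⟩ : ∃ p' : Ideal (MvPolynomial ι ℂ), p' = p.comap (phSh (-o)) := ⟨_, rfl⟩
  have hp' : p'.IsPrime := by
    rw [hp'def]
    exact Ideal.comap_isPrime _ _
  have hmem' : ∀ f, f ∈ p' ↔ phSh (-o) f ∈ p := by
    intro f
    rw [hp'def]
    exact Ideal.mem_comap
  have hmemSh : ∀ f, phSh o f ∈ p' ↔ f ∈ p := by
    intro f
    rw [hmem', ph_phSh_neg]
  have hZ : ∀ y, y ∈ zeroLocus ℂ p' ↔ y + o ∈ zeroLocus ℂ p := by
    intro y
    rw [ph_mem_zeroLocus, ph_mem_zeroLocus]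
    constructor
    · intro h f hf
      have h2 := h (phSh o f) ((hmemSh f).2 hf)
      rwa [pj_eval_phSh] at h2
    · intro h f hf
      have h2 := h _ ((hmem' f).1 hf)
      rwa [pj_eval_phSh, add_neg_cancel_right] at h2
  have himg : zeroLocus ℂ p' = (fun x => (LinearMap.id : (ι → ℂ) →ₗ[ℂ] (ι → ℂ)) x + (-o)) ''
      zeroLocus ℂ p := by
    ext y
    rw [hZ]
    constructor
    · intro h
      exact ⟨y + o, h, by simp⟩
    · rintro ⟨x, hx, rfl⟩
      simpa using hx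
  have hhA : ∀ D, hA (zeroLocus ℂ p') D = hA (zeroLocus ℂ p) D := by
    intro D
    rw [himg]
    exact rk_hA_map_eq _ (fun _ _ h => h) _ _ D
  have hdim : vdim (zeroLocus ℂ p') = vdim (zeroLocus ℂ p) := by
    unfold vdim
    simp only [hhA]
  have hdegv : vdeg (zeroLocus ℂ p') = vdeg (zeroLocus ℂ p) := by
    unfold vdeg
    simp only [hhA, hdim]
  have hcone : pjCone 0 (zeroLocus ℂ p') = pjCone o (zeroLocus ℂ p) := by
    ext w
    constructor
    · rintro ⟨y, hy, lam, rfl⟩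
      exact ⟨y + o, (hZ y).1 hy, lam, by simp⟩
    · rintro ⟨y, hy, lam, rfl⟩
      exact ⟨y - o, (hZ _).2 (by simpa using hy), lam, by simp⟩
  have hK : pjK 0 (zeroLocus ℂ p') = pjK o (zeroLocus ℂ p) := by
    unfold pjK
    rw [hcone]
  have hray : PjRayLE 0 (zeroLocus ℂ p') t := by
    obtain ⟨h, ⟨y, hy, hyh⟩, hall⟩ := ht
    refine ⟨phSh o h, ⟨y - o, (hZ _).2 (by simpa using hy), ?_⟩, ?_⟩
    · rw [pj_eval_phSh, sub_add_cancel]
      exact hyh
    · intro y' hy' hy'h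
      rw [pj_eval_phSh] at hy'h
      obtain ⟨hf, hn⟩ := hall (y' + o) ((hZ y').1 hy') hy'h
      have hroots : pjRoots 0 y' (zeroLocus ℂ p') =
          (fun z => z - o) '' pjRoots o (y' + o) (zeroLocus ℂ p) := by
        ext z
        constructor
        · rintro ⟨hz, hz0, c, hc⟩
          refine ⟨z + o, ⟨(hZ z).1 hz, ?_, c, ?_⟩, by simp⟩
          · intro h2
            apply hz0
            simpa using h2
          · simpa using hc
        · rintro ⟨x, ⟨hx, hxo, c, hc⟩, rfl⟩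
          refine ⟨(hZ _).2 (by simpa using hx), sub_ne_zero.2 hxo, c, ?_⟩
          simpa using hc
      rw [hroots]
      refine ⟨hf.image _, ?_⟩
      rw [Set.ncard_image_of_injective _ (sub_left_injective)]
      exact hn
  have hM : ∀ f : MvPolynomial ι ℂ, f ∈ idealOfVars ι ℂ ↔ eval 0 f = 0 := by
    intro f
    rw [← ph_ord_one_iff, ph_ord_iff, ph_phSh_zero, pow_one]
  have hl'0 : eval 0 (phSh o l) = 0 := by
    rw [pj_eval_phSh, zero_add]
    exact hlo
  have hl'hom : (phSh o l).IsHomogeneous 1 := by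
    intro d hd
    have h2 := le_totalDegree (MvPolynomial.mem_support_iff.2 hd)
    have h3 := (ph_totalDegree_phSh_le o l).trans hl
    have h4 : d ≠ 0 := by
      rintro rfl
      apply hd
      rw [← constantCoeff_eq, ph_constantCoeff_phSh]
      exact hlo
    have h5 : d.degree ≠ 0 := by
      rw [Ne, Finsupp.degree_eq_zero_iff]
      exact h4
    have h7 : Finsupp.weight 1 d = d.degree :=
      (DFunLike.congr_fun (Finsupp.degree_eq_weight_one (R := ℕ) (σ := ι)) d).symm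
    have h6 : (d.sum fun _ e => e) = d.degree := rfl
    rw [h7]
    omega
  have hl'p : phSh o l ∉ p' := by
    rw [hmemSh]
    obtain ⟨z, hz, hzl⟩ := hlC
    intro h
    exact hzl ((ph_mem_zeroLocus p z).1 hz l h)
  have hl'2 : phSh o l ∈ idealOfVars ι ℂ ^ 2 ⊔ p' := by
    have h2 : u * l - g ∈ p := (pj_mem_prime_iff p hp _).2 hul
    have h3 : phSh o u * phSh o l - phSh o g ∈ p' := by
      rw [← map_mul, ← map_sub, hmemSh]
      exact h2
    have h4 : phSh o g ∈ idealOfVars ι ℂ ^ 2 := (ph_ord_iff o 2 g).1 hg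
    have h5 : phSh o u - C (eval o u) ∈ idealOfVars ι ℂ := by
      rw [hM, map_sub, pj_eval_phSh, zero_add, eval_C, sub_self]
    have h6 : (phSh o u - C (eval o u)) * phSh o l ∈ idealOfVars ι ℂ ^ 2 := by
      rw [pow_two]
      exact Ideal.mul_mem_mul h5 ((hM _).2 hl'0)
    have h7 : C (eval o u) * phSh o l ∈ idealOfVars ι ℂ ^ 2 ⊔ p' := by
      have h8 : C (eval o u) * phSh o l = (phSh o g - (phSh o u - C (eval o u)) * phSh o l) +
          (phSh o u * phSh o l - phSh o g) := by ring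
      rw [h8]
      exact Ideal.add_mem _ (Ideal.mem_sup_left (Ideal.sub_mem _ h4 h6)) (Ideal.mem_sup_right h3)
    have h9 : phSh o l = C (eval o u)⁻¹ * (C (eval o u) * phSh o l) := by
      rw [← mul_assoc, ← C_mul, inv_mul_cancel₀ huo, C_1, one_mul]
    rw [h9]
    exact Ideal.mul_mem_left _ _ h7
  have hfin := pj_tangent0 p' hp' (by rw [hdim, h1]) ((hZ 0).2 (by simpa using hoC)) (phSh o l)
    hl'hom hl'p hl'2 t hray
  rw [hdegv, hK] at hfin
  exact hfin

end Claimed.Agent.R273
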