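-- KEEP
import Claimed.Agent.R273.PjTan
import Claimed.Agent.R273.DepDefs

/-!
# Row 273, S3b (helper299): EXPORTS of the package PROJ in helper177's vocabulary (`dcone`, `DepRootLE`, `DepHalfGood`; DepDefs.lean).  Prefix `pj_`.

For `ι = Fin d`: `pjCone = spCone`, `pjK = dcone`, `pjRoots = depRoots`, `PjRayLE p Y t = DepRootLE p Y Y t`, all by `rfl`.
* `pj_dep_proj0`   : `p ∉ Y` ⟹ `vdeg Y ≤ t vdeg (dcone p Y)`;
* `pj_dep_half`    : = `dep_half` of DepAG.lean (with `Cd = 2 (d + 1)`, `S` arbitrary);  `pj_dep_half'` : ONE `g` for all centres, nonzero at a prescribed `x_* ∉ Y`;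
* `pj_dep_two`     : nonlinear irreducible curve, `p₁ ≠ p₂` ⟹ `vdeg Y ≤ t₁ vdeg (dcone p₁ Y) + t₂ vdeg (dcone p₂ Y)`;
* `pj_dep_tangent` : poly:tangent-projection.
-/

set_option autoImplicit false

namespace Claimed.Agent.R273

open MvPolynomial Module

variable {d : ℕ}

theorem pj_dcone_eq (p : SpC d) (Y : Set (SpC d)) : dcone p Y = pjK p Y := rfl

theorem pj_depRootLE_iff (p : SpC d) (Y : Set (SpC d)) (t : ℕ) :
    DepRootLE p Y Y t ↔ PjRayLE p Y t := Iff.rfl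

/-- a set of dimension `< n` is not everything -/
theorem pj_exists_notMem {ι : Type*} [Fintype ι] (X : Set (ι → ℂ)) (h : vdim X < Fintype.card ι) :
    ∃ xs, xs ∉ X := by
  by_contra hcon
  have : X = Set.univ := Set.eq_univ_of_forall fun x => by_contra fun hx => hcon ⟨x, hx⟩
  rw [this, ph_univ.2.1] at h
  exact lt_irrefl _ h

theorem pj_dep_proj0 (Y : Set (SpC d)) (hY : IsVar Y) (p : SpC d) (hp : p ∉ Y) (t : ℕ)
    (ht : DepRootLE p Y Y t) : vdeg Y ≤ t * vdeg (dcone p Y) :=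
  pj_proj0 Y hY p hp t ht

theorem pj_dep_half' (Y : Set (SpC d)) (hY : IsVar Y) (xs : SpC d) (hxs : xs ∉ Y) :
    ∃ g : PrfPol d, eval xs g ≠ 0 ∧ g.totalDegree ≤ 2 * (d + 1) ∧
      ∀ p : SpC d, eval p g ≠ 0 → DepHalfGood p Y := by
  obtain ⟨g, h1, h2, h3⟩ := pj_half Y hY xs hxs
  rw [Fintype.card_fin] at h2
  exact ⟨g, h1, h2, fun p hp t ht => h3 p hp t ht⟩

/-- `dep_half` of DepAG.lean -/
theorem pj_dep_half (d : ℕ) : ∃ Cd : ℕ, ∀ Y : Set (SpC d), IsVar Y → vdim Y < d →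
    ∀ S : Finset (SpC d), ∃ g : PrfPol d, g ≠ 0 ∧ g.totalDegree ≤ Cd ∧
      ∀ p ∈ S, eval p g ≠ 0 → DepHalfGood p Y := by
  refine ⟨2 * (d + 1), fun Y hY hd S => ?_⟩
  obtain ⟨xs, hxs⟩ := pj_exists_notMem Y (by rwa [Fintype.card_fin])
  obtain ⟨g, h1, h2, h3⟩ := pj_dep_half' Y hY xs hxs
  exact ⟨g, fun h0 => h1 (by rw [h0, map_zero]), h2, fun p _ hp => h3 p hp⟩

theorem pj_dep_two (Y : Set (SpC d)) (hY : IsVar Y) (h1 : vdim Y = 1)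
    (hnl : ¬ ∃ x₀ v : SpC d, ∀ x ∈ Y, ∃ c : ℂ, x = x₀ + c • v) (p₁ p₂ : SpC d) (hne : p₁ ≠ p₂)
    (t₁ t₂ : ℕ) (ht₁ : DepRootLE p₁ Y Y t₁) (ht₂ : DepRootLE p₂ Y Y t₂) :
    vdeg Y ≤ t₁ * vdeg (dcone p₁ Y) + t₂ * vdeg (dcone p₂ Y) :=
  pj_two Y hY h1 hnl p₁ p₂ hne t₁ t₂ ht₁ ht₂

theorem pj_dep_tangent (Y : Set (SpC d)) (hY : IsVar Y) (h1 : vdim Y = 1) (p : SpC d)
    (l u g : PrfPol d) (hl : l.totalDegree ≤ 1) (hlo : eval p l = 0)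
    (hlC : ∃ z ∈ Y, eval z l ≠ 0) (huo : eval p u ≠ 0) (hg : OrdGE p 2 g)
    (hul : ∀ x ∈ Y, eval x (u * l - g) = 0) (t : ℕ) (ht : DepRootLE p Y Y t) :
    vdeg Y ≤ 2 * t * vdeg (dcone p Y) :=
  pj_tangent Y hY h1 p l u g hl hlo hlC huo hg hul t ht

end Claimed.Agent.R273
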