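import Claimed.Agent.R273.DepNag
import Claimed.Agent.R273.PjTop

/-!
# Row 273, S6c = depth.tex: THE ALGEBRAIC-GEOMETRY FACTS (no asymptotics, no sample): COLLECTOR.  Architect helper177.  Prefix `dep_`.

Import chain:  `DepDefs ← DepCone (cones, translations, dep_drop, dep_cone_bezout: sorry-free) ← DepRay (rays, dep_genfib, dep_group) ← DepNag (dep_narrow_count) ← DepAG (dep_half := pj_dep_half, helper299's `Pj*.lean`)`.
`dep_wide_cut`: `DepW*.lean` (sorry-free: helper71, helper270).
-/

set_option autoImplicit false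

namespace Claimed.Agent.R273

open MvPolynomial Module

/-- the centres which are not half-good for `Y` lie on a hypersurface of bounded degree (poly:projection (i) + poly:high-multiplicity) -/
theorem dep_half (d : ℕ) : ∃ Cd : ℕ, ∀ Y : Set (SpC d), IsVar Y → vdim Y < d →
    ∀ S : Finset (SpC d), ∃ g : PrfPol d, g ≠ 0 ∧ g.totalDegree ≤ Cd ∧
      ∀ p ∈ S, eval p g ≠ 0 → DepHalfGood p Y :=
  pj_dep_half d

end Claimed.Agent.R273
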