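import Claimed.Agent.R273.RkDim

/-!
# Row 273, rank library [RK], part 7a: the Koszul dimension count for two coprime forms (any number of variables)

`f R_{b+k} ∩ g R_{a+k} = f g R_k`:  `f u = g v`, `IsRelPrime f g` ⇒ `g ∣ u` (`IsRelPrime.dvd_of_dvd_mul_left`, `MvPolynomial` over a field is
a UFD / GCD-like: `IsRelPrime` suffices), quotient homogeneous by `rk_homog_quot`.
`rk_koszul_dim`: `Submodule.finrank_sup_add_finrank_inf_eq` + `rk_finrank_mulSub` (multiplication by a nonzero polynomial is injective).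
LEAF RK-kos (this file).
-/

set_option autoImplicit false

namespace Claimed.Agent.R273

open MvPolynomial Module

variable {ι : Type*}

theorem rk_kos_component_mul {g w : MvPolynomial ι ℂ} {b : ℕ} (hg : g.IsHomogeneous b) (k : ℕ) :
    homogeneousComponent (b + k) (g * w) = g * homogeneousComponent k w := by
  classical
  conv_lhs => rw [← sum_homogeneousComponent w, Finset.mul_sum, map_sum]
  have h1 : ∀ i, homogeneousComponent (b + k) (g * homogeneousComponent i w) =
      if i = k then g * homogeneousComponent i w else 0 := by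
    intro i
    have hm : g * homogeneousComponent i w ∈ homogeneousSubmodule ι ℂ (b + i) :=
      hg.mul (homogeneousComponent_isHomogeneous i w)
    rw [homogeneousComponent_of_mem hm]
    by_cases hik : i = k
    · subst hik; simp
    · rw [if_neg hik, if_neg (by omega)]
  simp_rw [h1]
  rw [Finset.sum_ite_eq']
  split_ifs with hk
  · rfl
  · have : homogeneousComponent k w = 0 := by
      apply homogeneousComponent_eq_zero
      rw [Finset.mem_range] at hk
      omega
    rw [this, mul_zero]

/-- a homogeneous multiple of a form has a homogeneous quotient -/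
theorem rk_homog_quot {g u w : MvPolynomial ι ℂ} {b k : ℕ} (hg : g.IsHomogeneous b) (hu : u.IsHomogeneous (b + k))
    (h : u = g * w) : u = g * homogeneousComponent k w := by
  rw [← rk_kos_component_mul hg, ← h, homogeneousComponent_of_mem hu, if_pos rfl]

/-- a nonzero homogeneous multiple of a form of degree `b` has degree `≥ b` -/
theorem rk_homog_dvd_degree {g u : MvPolynomial ι ℂ} {b k : ℕ} (hg : g.IsHomogeneous b) (hu : u.IsHomogeneous k)
    (hu0 : u ≠ 0) (h : g ∣ u) : b ≤ k := by
  obtain ⟨w, rfl⟩ := h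
  have hg0 : g ≠ 0 := left_ne_zero_of_mul hu0
  have hw0 : w ≠ 0 := right_ne_zero_of_mul hu0
  have h1 := totalDegree_mul_of_isDomain hg0 hw0
  rw [hu.totalDegree hu0, hg.totalDegree hg0] at h1
  omega

/-- multiples of `f` by forms of degree `k` -/
noncomputable def mulSub (f : MvPolynomial ι ℂ) (k : ℕ) : Submodule ℂ (MvPolynomial ι ℂ) :=
  (homogeneousSubmodule ι ℂ k).map (LinearMap.mulLeft ℂ f)

theorem rk_finrank_mulSub [Fintype ι] {f : MvPolynomial ι ℂ} (hf : f ≠ 0) (k : ℕ) :
    finrank ℂ (mulSub f k) = Nat.multichoose (Fintype.card ι) k := by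
  have hinj : Function.Injective (LinearMap.mulLeft ℂ f) := fun x y hxy =>
    mul_left_cancel₀ hf hxy
  rw [mulSub, ← rk_finrank_homog k]
  exact (Submodule.equivMapOfInjective _ hinj _).finrank_eq.symm

theorem rk_koszul_inter {f g : MvPolynomial ι ℂ} {a b : ℕ} (hf : f.IsHomogeneous a) (hg : g.IsHomogeneous b)
    (hrel : IsRelPrime f g) (k : ℕ) : mulSub f (b + k) ⊓ mulSub g (a + k) = mulSub (f * g) k := by
  apply le_antisymm
  · rintro x ⟨⟨u, hu, rfl⟩, ⟨v, hv, hx⟩⟩
    simp only [LinearMap.mulLeft_apply] at hx ⊢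
    have h1 : g ∣ u * f := ⟨v, by rw [hx, mul_comm]⟩
    obtain ⟨w, hw⟩ := hrel.symm.dvd_of_dvd_mul_right h1
    have h2 := rk_homog_quot hg hu hw
    refine ⟨homogeneousComponent k w, homogeneousComponent_isHomogeneous k w, ?_⟩
    simp only [LinearMap.mulLeft_apply]
    rw [mul_assoc, ← h2]
  · rintro x ⟨w, hw, rfl⟩
    simp only [LinearMap.mulLeft_apply]
    refine ⟨⟨g * w, hg.mul hw, by simp [mul_assoc]⟩, ⟨f * w, hf.mul hw, ?_⟩⟩
    simp only [LinearMap.mulLeft_apply]
    ring

/-- `dim (f R_{b+k} + g R_{a+k}) = h(b+k) + h(a+k) - h(k)` -/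
theorem rk_koszul_dim [Fintype ι] {f g : MvPolynomial ι ℂ} {a b : ℕ} (hf : f.IsHomogeneous a)
    (hg : g.IsHomogeneous b) (hf0 : f ≠ 0) (hg0 : g ≠ 0) (hrel : IsRelPrime f g) (k : ℕ) :
    finrank ℂ (mulSub f (b + k) ⊔ mulSub g (a + k) : Submodule ℂ (MvPolynomial ι ℂ)) +
        Nat.multichoose (Fintype.card ι) k =
      Nat.multichoose (Fintype.card ι) (b + k) + Nat.multichoose (Fintype.card ι) (a + k) := by
  have : Module.Finite ℂ (mulSub f (b + k)) := by unfold mulSub; infer_instance
  have : Module.Finite ℂ (mulSub g (a + k)) := by unfold mulSub; infer_instance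
  have h := Submodule.finrank_sup_add_finrank_inf_eq (mulSub f (b + k)) (mulSub g (a + k))
  rw [rk_koszul_inter hf hg hrel, rk_finrank_mulSub hf0, rk_finrank_mulSub hg0,
    rk_finrank_mulSub (mul_ne_zero hf0 hg0)] at h
  exact h

end Claimed.Agent.R273
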