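import Claimed.Agent.R273.RkChart

/-!
# Row 273, rank library [RK], part 5b: few points impose independent conditions; projectively distinct vectors

`rk_hA_eq_card_of_le`: separators (`rk_indep_iff_sep`) `∏_{y ∈ S, y ≠ x} (X i_y - C (y i_y))`, `i_y` a coordinate with `x i_y ≠ y i_y`,
of degree `|S| - 1 ≤ D`.  Projective form: rescale into a chart (`rk_hP_eq_hA_rescaled`); the rescaling is injective on a
projectively distinct set.
LEAF RK-pts (this file).
-/

set_option autoImplicit false

namespace Claimed.Agent.R273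

open MvPolynomial Module

variable {ι : Type*} [Fintype ι]

/-- `D + 1` distinct points impose independent conditions in degree `D` (products of linear separators) -/
theorem rk_hA_eq_card_of_le (S : Finset (ι → ℂ)) {D : ℕ} (h : S.card ≤ D + 1) :
    hA (S : Set (ι → ℂ)) D = S.card := by
  classical
  rw [hA, rk_indep_iff_sep]
  intro x hx
  have hex : ∀ y : {y // y ∈ S.erase x}, ∃ i, x i ≠ y.1 i := by
    intro y
    obtain ⟨i, hi⟩ := Function.ne_iff.mp (Finset.mem_erase.mp y.2).1
    exact ⟨i, Ne.symm hi⟩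
  choose idx hidx using hex
  refine ⟨∏ y ∈ (S.erase x).attach, (X (idx y) - C (y.1 (idx y))), ?_, ?_, ?_⟩
  · rw [mem_restrictTotalDegree]
    refine (totalDegree_finsetProd _ _).trans ?_
    have h1 : ∀ y ∈ (S.erase x).attach,
        (X (idx y) - C (y.1 (idx y)) : MvPolynomial ι ℂ).totalDegree ≤ 1 := by
      intro y _
      refine (totalDegree_sub _ _).trans ?_
      simp
    refine (Finset.sum_le_sum h1).trans ?_
    rw [Finset.sum_const, Finset.card_attach, Finset.card_erase_of_mem hx, smul_eq_mul, mul_one]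
    omega
  · rw [map_prod, Finset.prod_ne_zero_iff]
    intro y _
    simpa [sub_eq_zero] using hidx y
  · intro y hy hyx
    rw [map_prod]
    apply Finset.prod_eq_zero (Finset.mem_attach _ ⟨y, Finset.mem_erase.mpr ⟨hyx, hy⟩⟩)
    simp

theorem rk_min_le_hA (S : Finset (ι → ℂ)) (D : ℕ) : min S.card (D + 1) ≤ hA (S : Set (ι → ℂ)) D := by
  obtain ⟨S', hS', hcard⟩ := Finset.exists_subset_card_eq (s := S) (n := min S.card (D + 1))
    (min_le_left _ _)
  rw [← hcard, ← rk_hA_eq_card_of_le S' (D := D) (by rw [hcard]; exact min_le_right _ _)]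
  exact rk_hA_mono_set D (by exact_mod_cast hS')

/-- pairwise non-proportional nonzero vectors -/
def ProjDistinct (S : Set (ι → ℂ)) : Prop :=
  (0 : ι → ℂ) ∉ S ∧ ∀ x ∈ S, ∀ y ∈ S, ∀ c : ℂ, y = c • x → y = x

theorem rk_hP_eq_card_of_le (S : Finset (ι → ℂ)) (hS : ProjDistinct (S : Set (ι → ℂ))) {D : ℕ}
    (h : S.card ≤ D + 1) : hP (S : Set (ι → ℂ)) D = S.card := by
  classical
  obtain ⟨c, hc, hcD⟩ := rk_hP_eq_hA_rescaled (S : Set (ι → ℂ)) S.finite_toSet hS.1
  have hinj : Set.InjOn (fun x => c x • x) (S : Set (ι → ℂ)) := by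
    intro x hx y hy hxy
    have h1 : y = ((c y)⁻¹ * c x) • x := by
      rw [mul_smul]
      change c x • x = c y • y at hxy
      rw [hxy, smul_smul, inv_mul_cancel₀ (hc y hy), one_smul]
    exact (hS.2 x hx y hy _ h1).symm
  rw [hcD D, ← Finset.coe_image, rk_hA_eq_card_of_le, Finset.card_image_of_injOn hinj]
  rw [Finset.card_image_of_injOn hinj]
  exact h

theorem rk_min_le_hP (S : Finset (ι → ℂ)) (hS : ProjDistinct (S : Set (ι → ℂ))) (D : ℕ) :
    min S.card (D + 1) ≤ hP (S : Set (ι → ℂ)) D := by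
  obtain ⟨S', hS', hcard⟩ := Finset.exists_subset_card_eq (s := S) (n := min S.card (D + 1))
    (min_le_left _ _)
  have hS'' : ProjDistinct (S' : Set (ι → ℂ)) :=
    ⟨fun h => hS.1 (by exact_mod_cast hS' (by exact_mod_cast h)),
      fun x hx y hy => hS.2 x (by exact_mod_cast hS' (by exact_mod_cast hx)) y
        (by exact_mod_cast hS' (by exact_mod_cast hy))⟩
  rw [← hcard, ← rk_hP_eq_card_of_le S' hS'' (D := D) (by rw [hcard]; exact min_le_right _ _)]
  exact rk_hP_mono_set D (by exact_mod_cast hS')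

/-- an independent set for forms of positive degree consists of pairwise non-proportional nonzero vectors -/
theorem rk_projDistinct_of_indep (S : Finset (ι → ℂ)) {D : ℕ} (hD : 1 ≤ D)
    (h : hP (S : Set (ι → ℂ)) D = S.card) : ProjDistinct (S : Set (ι → ℂ)) := by
  rw [hP, rk_indep_iff_sep] at h
  constructor
  · intro h0
    obtain ⟨f, hf, hf0, _⟩ := h 0 (by exact_mod_cast h0)
    apply hf0
    have := pmb_homog_eval_smul (F := f) (a := D) hf 0 0
    rw [zero_smul, zero_pow (by omega), zero_mul] at this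
    exact this
  · intro x hx y hy c hyx
    by_contra hne
    obtain ⟨f, hf, hf0, hf1⟩ := h y (by exact_mod_cast hy)
    apply hf0
    rw [hyx, pmb_homog_eval_smul (F := f) (a := D) hf, hf1 x (by exact_mod_cast hx) (Ne.symm hne),
      mul_zero]

end Claimed.Agent.R273
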