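import Claimed.Agent.R273.PmbChart
import Claimed.Agent.R273.RkKos
import Claimed.Agent.R273.RkPts

/-!
# Row 273, S3b: plane Bezout with multiplicities and Lemma poly:polar.  Architect + prover helper5.  Prefix `pmb_`, exports `pm_`.

MULTIPLICITY of a form `F ∈ ℂ[X0,X1,X2]` at a point `[q]` of the projective plane := order of vanishing of `F` at the vector `q ≠ 0`
(`OrdGE q m F`, `PhOrd.lean`; it only depends on the line `ℂ q`: `pmb_ord_smul`).
* `pm_bezout_mult`: `F, G` forms of degrees `a, b` without common factor, `Q` finitely many projectively distinct vectors: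
  `∑_q m_q(F) m_q(G) ≤ a b`.  Proof: chart `ℓ = 1` with `ℓ ≠ 0` on `Q` (`PmbChart`), Koszul count `dim R_K / (F R + G R) = a b` (`RkKos`),
  local inequality + CRT (`PmbLoc.pmb_core`).
* `pmb_exists_polar`: a general polar `∑ λ_i ∂_i F` of a squarefree `F` is prime to `F` (any number of variables).
* `pm_polar`, `pm_polar_sq`: `∑ m_q (m_q - 1) ≤ a (a-1)`, `∑_{m_q ≥ 2} m_q^2 ≤ 2 a (a-1)` for a squarefree form of degree `a`.
-/

set_option autoImplicit false

namespace Claimed.Agent.R273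

open MvPolynomial Module

theorem pmb_ord_unit {K : Type*} [Field K] {ι : Type*} {G : MvPolynomial ι K} (hG : IsUnit G) {q : ι → K} {n : ℕ}
    (h : OrdGE q n G) : n = 0 := by
  by_contra hn
  have h1 : OrdGE q 1 G := ph_ord_mono (Nat.one_le_iff_ne_zero.mpr hn) h
  rw [ph_ord_one_iff] at h1
  have h2 := hG.map (eval q)
  rw [h1] at h2
  exact not_isUnit_zero h2

theorem pmb_pt_injOn {a : Fin 3 → ℂ} (ha : a 2 ≠ 0) (Q : Set (Fin 3 → ℂ)) (hQ : ProjDistinct Q)
    (hne : ∀ q ∈ Q, ∑ i, a i * q i ≠ 0) : Set.InjOn (pmbPt a) Q := by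
  intro q hq q' hq' h
  set t := ∑ i, a i * q i with ht
  set t' := ∑ i, a i * q' i with ht'
  have key : ∀ (v : Fin 3 → ℂ) (s : ℂ), s = ∑ i, a i * v i → s ≠ 0 → ∑ i, a i * (s⁻¹ • v) i = 1 := by
    intro v s hs hs0
    simp only [Pi.smul_apply, smul_eq_mul]
    have : ∑ i, a i * (s⁻¹ * v i) = s⁻¹ * ∑ i, a i * v i := by
      rw [Finset.mul_sum]; apply Finset.sum_congr rfl; intro i _; ring
    rw [this, ← hs, inv_mul_cancel₀ hs0]
  have h1 := pmb_eval_P ha _ (key q t ht (hne q hq))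
  have h2 := pmb_eval_P ha _ (key q' t' ht' (hne q' hq'))
  have h3 : ![(t⁻¹ • q) 0, (t⁻¹ • q) 1] = ![(t'⁻¹ • q') 0, (t'⁻¹ • q') 1] := by
    simpa [pmbPt, ht, ht'] using h
  rw [h3, h2] at h1
  -- h1 : t'⁻¹ • q' = t⁻¹ • q
  have h4 : q' = (t' * t⁻¹) • q := by
    rw [mul_smul, ← h1, smul_smul, mul_inv_cancel₀ (hne q' hq'), one_smul]
  exact (hQ.2 q hq q' hq' _ h4).symm

/-- **Plane Bezout with multiplicities** (projective form). -/
theorem pm_bezout_mult {F G : MvPolynomial (Fin 3) ℂ} {a b : ℕ} (hF : F.IsHomogeneous a)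
    (hG : G.IsHomogeneous b) (hrel : IsRelPrime F G) (Q : Finset (Fin 3 → ℂ))
    (hQ : ProjDistinct (Q : Set (Fin 3 → ℂ))) (m n : (Fin 3 → ℂ) → ℕ)
    (hm : ∀ q ∈ Q, OrdGE q (m q) F) (hn : ∀ q ∈ Q, OrdGE q (n q) G) :
    ∑ q ∈ Q, m q * n q ≤ a * b := by
  classical
  by_cases hF0 : F = 0
  · subst hF0
    have hu : IsUnit G := isRelPrime_zero_left.mp hrel
    rw [Finset.sum_eq_zero]
    · exact Nat.zero_le _
    · intro q hq
      rw [pmb_ord_unit hu (hn q hq), mul_zero]
  by_cases hG0 : G = 0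
  · subst hG0
    have hu : IsUnit F := isRelPrime_zero_right.mp hrel
    rw [Finset.sum_eq_zero]
    · exact Nat.zero_le _
    · intro q hq
      rw [pmb_ord_unit hu (hm q hq), zero_mul]
  -- the chart
  obtain ⟨c, hc⟩ := pmb_exists_form (insert (Pi.single 2 1 : Fin 3 → ℂ) Q) (by
    rw [Finset.mem_insert, not_or]
    refine ⟨fun h => ?_, fun h => hQ.1 (by exact_mod_cast h)⟩
    have := congrFun h 2
    simp at this)
  have hc2 : c 2 ≠ 0 := by
    have := hc _ (Finset.mem_insert_self _ _)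
    simpa [Fin.sum_univ_three] using this
  have hcQ : ∀ q ∈ Q, ∑ i, c i * q i ≠ 0 := fun q hq => hc q (Finset.mem_insert_of_mem hq)
  have hinj : Set.InjOn (pmbPt c) (Q : Set (Fin 3 → ℂ)) := pmb_pt_injOn hc2 _ hQ (by exact_mod_cast hcQ)
  set inv := Function.invFunOn (pmbPt c) (Q : Set (Fin 3 → ℂ)) with hinv
  have hinv' : ∀ q ∈ Q, inv (pmbPt c q) = q := fun q hq => hinj.leftInvOn_invFunOn (by exact_mod_cast hq)
  obtain ⟨K0, hK0⟩ := pmb_core (pmbD c F) (pmbD c G) (Q.image (pmbPt c)) (fun y => m (inv y))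
    (fun y => n (inv y)) (by
      intro y hy
      obtain ⟨q, hq, rfl⟩ := Finset.mem_image.mp hy
      simp only [hinv' q hq]
      exact pmb_D_ord hc2 hF (hcQ q hq) (hm q hq)) (by
      intro y hy
      obtain ⟨q, hq, rfl⟩ := Finset.mem_image.mp hy
      simp only [hinv' q hq]
      exact pmb_D_ord hc2 hG (hcQ q hq) (hn q hq))
  set k := K0 with hk
  set I : Submodule ℂ (MvPolynomial (Fin 3) ℂ) := mulSub F (b + k) ⊔ mulSub G (a + k) with hI
  have hIhom : I ≤ homogeneousSubmodule (Fin 3) ℂ (a + b + k) := by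
    rw [hI, sup_le_iff]
    constructor
    · rintro _ ⟨u, hu, rfl⟩
      have := hF.mul hu
      rwa [← add_assoc] at this
    · rintro _ ⟨u, hu, rfl⟩
      have := hG.mul hu
      rwa [← add_assoc, add_comm b a] at this
  have hsum := hK0 (a + b + k) (by omega) (I.map (pmbD c).toLinearMap) (by
    rintro _ ⟨u, hu, rfl⟩
    rw [mem_restrictTotalDegree]
    exact (pmb_D_degree u).trans (IsHomogeneous.totalDegree_le (hIhom hu))) (by
    rintro _ ⟨u, hu, rfl⟩
    obtain ⟨x, ⟨u1, _, rfl⟩, y, ⟨u2, _, rfl⟩, rfl⟩ := Submodule.mem_sup.mp hu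
    simp only [LinearMap.mulLeft_apply, AlgHom.toLinearMap_apply, map_add, map_mul]
    exact Ideal.add_mem _ (Ideal.mul_mem_right _ _ (Ideal.subset_span (by simp)))
      (Ideal.mul_mem_right _ _ (Ideal.subset_span (by simp))))
  have hfr : finrank ℂ (I.map (pmbD c).toLinearMap) = finrank ℂ I := by
    have hinjI : Function.Injective ((pmbD c).toLinearMap.domRestrict I) := by
      rw [← LinearMap.ker_eq_bot, eq_bot_iff]
      intro u hu
      have h1 : pmbD c u.1 = 0 := hu
      exact Subtype.ext (pmb_D_inj hc2 (hIhom u.2) h1)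
    rw [← LinearMap.range_domRestrict, LinearMap.finrank_range_of_inj hinjI]
  have hkos := rk_koszul_dim hF hG hF0 hG0 hrel k
  rw [hfr, Finset.sum_image (by exact_mod_cast hinj), rk_finrank_restrict] at hsum
  have hsum' : finrank ℂ I + ∑ q ∈ Q, m q * n q ≤ (2 + (a + b + k)).choose (a + b + k) := by
    have e : ∑ q ∈ Q, m (inv (pmbPt c q)) * n (inv (pmbPt c q)) = ∑ q ∈ Q, m q * n q :=
      Finset.sum_congr rfl fun q hq => by rw [hinv' q hq]
    rw [e] at hsum
    simpa using hsum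
  have hmc : ∀ j, Nat.multichoose (Fintype.card (Fin 3)) j = (2 + j).choose j := by
    intro j
    rw [Nat.multichoose_eq, Fintype.card_fin]
    congr 1
    omega
  rw [← hI, hmc, hmc, hmc] at hkos
  have e1 := pmb_choose_two (a + b + k)
  have e2 := pmb_choose_two (b + k)
  have e3 := pmb_choose_two (a + k)
  have e4 := pmb_choose_two k
  nlinarith

section polar
variable {ι : Type*}

/-- the directional derivative `∑ λ_i ∂_i` -/
noncomputable def pmbDer [Fintype ι] (lam : ι → ℂ) (F : MvPolynomial ι ℂ) : MvPolynomial ι ℂ :=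
  ∑ i, C (lam i) * pderiv i F

theorem pmb_der_mul [Fintype ι] (lam : ι → ℂ) (F G : MvPolynomial ι ℂ) :
    pmbDer lam (F * G) = pmbDer lam F * G + F * pmbDer lam G := by
  simp only [pmbDer, Derivation.leibniz, smul_eq_mul, Finset.sum_mul, Finset.mul_sum,
    ← Finset.sum_add_distrib]
  apply Finset.sum_congr rfl
  intro i _
  ring

theorem pmb_pderiv_degree (p : MvPolynomial ι ℂ) (i : ι) :
    (pderiv i p).totalDegree ≤ p.totalDegree - 1 := by
  unfold totalDegree
  apply Finset.sup_le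
  intro m hm
  rw [MvPolynomial.mem_support_iff, coeff_pderiv] at hm
  have h1 : m + Finsupp.single i 1 ∈ p.support := by
    rw [MvPolynomial.mem_support_iff]
    intro h0
    apply hm
    rw [h0, zero_mul]
  have h2 := MvPolynomial.le_totalDegree h1
  rw [Finsupp.sum_add_index' (fun _ => rfl) (fun _ _ _ => rfl), Finsupp.sum_single_index rfl] at h2
  unfold totalDegree at h2
  omega

theorem pmb_der_degree [Fintype ι] (lam : ι → ℂ) (F : MvPolynomial ι ℂ) :
    (pmbDer lam F).totalDegree ≤ F.totalDegree - 1 := by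
  apply totalDegree_finsetSum_le
  intro i _
  refine (totalDegree_mul _ _).trans ?_
  rw [totalDegree_C, zero_add]
  exact pmb_pderiv_degree F i

theorem pmb_const_of_pderiv (p : MvPolynomial ι ℂ) (h : ∀ i, pderiv i p = 0) : p = C (coeff 0 p) := by
  classical
  ext d
  rw [coeff_C]
  by_cases hd : 0 = d
  · rw [if_pos hd, hd]
  · rw [if_neg hd]
    have : ∃ i, d i ≠ 0 := by
      by_contra hcon
      push Not at hcon
      apply hd
      ext i
      simp [hcon i]
    obtain ⟨i, hi⟩ := this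
    have h1 := coeff_pderiv (i := i) p (d - Finsupp.single i 1)
    rw [h i, coeff_zero] at h1
    have h2 : d - Finsupp.single i 1 + Finsupp.single i 1 = d := by
      apply tsub_add_cancel_of_le
      rw [Finsupp.single_le_iff]
      omega
    rw [h2] at h1
    rcases mul_eq_zero.1 h1.symm with h3 | h3
    · exact h3
    · exfalso
      have h4 : (((d - Finsupp.single i 1 : ι →₀ ℕ) i + 1 : ℕ) : ℂ) = 0 := by
        push_cast; exact h3
      exact absurd h4 (Nat.cast_ne_zero.mpr (Nat.succ_ne_zero _))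

/-- an irreducible polynomial which divides its directional derivative has zero directional derivative -/
theorem pmb_der_eq_zero [Fintype ι] (lam : ι → ℂ) {P : MvPolynomial ι ℂ} (hP : Irreducible P)
    (h : P ∣ pmbDer lam P) : pmbDer lam P = 0 := by
  by_contra hne
  obtain ⟨w, hw⟩ := h
  have hP0 : P ≠ 0 := hP.ne_zero
  have hw0 : w ≠ 0 := by
    rintro rfl
    exact hne (by rw [hw, mul_zero])
  have h1 := totalDegree_mul_of_isDomain hP0 hw0
  rw [← hw] at h1
  have h2 := pmb_der_degree lam P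
  have h3 : P.totalDegree ≠ 0 := by
    intro h0
    rw [totalDegree_eq_zero_iff_eq_C] at h0
    apply hne
    rw [h0]
    simp [pmbDer]
  omega

/-- a general polar of a squarefree polynomial has no common factor with it -/
theorem pmb_exists_polar [Fintype ι] {F : MvPolynomial ι ℂ} (hF : Squarefree F) :
    ∃ lam : ι → ℂ, IsRelPrime F (pmbDer lam F) := by
  classical
  have hF0 : F ≠ 0 := hF.ne_zero
  -- a nonzero vector for every irreducible polynomial
  have hvec : ∀ P : MvPolynomial ι ℂ, Irreducible P →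
      ∃ d : ι →₀ ℕ, (fun i => coeff d (pderiv i P)) ≠ (0 : ι → ℂ) := by
    intro P hP
    by_contra hcon
    push Not at hcon
    have h1 : ∀ i, pderiv i P = 0 := by
      intro i
      ext d
      simpa using congrFun (hcon d) i
    have h2 := pmb_const_of_pderiv P h1
    rcases eq_or_ne (coeff 0 P) 0 with h3 | h3
    · rw [h3, map_zero] at h2
      exact hP.ne_zero h2
    · apply hP.not_isUnit
      rw [h2]
      exact (isUnit_iff_ne_zero.mpr h3).map C
  let dd : MvPolynomial ι ℂ → (ι →₀ ℕ) := fun P =>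
    if h : Irreducible P then (hvec P h).choose else 0
  let vec : MvPolynomial ι ℂ → (ι → ℂ) := fun P i => coeff (dd P) (pderiv i P)
  have hvec' : ∀ P, Irreducible P → vec P ≠ 0 := by
    intro P hP
    have := (hvec P hP).choose_spec
    simpa only [vec, dd, dif_pos hP] using this
  set S := (UniqueFactorizationMonoid.factors F).toFinset with hS
  obtain ⟨lam, hlam⟩ := pmb_exists_form (S.image vec) (by
    intro h0
    obtain ⟨P, hP, hP0⟩ := Finset.mem_image.mp h0
    exact hvec' P (UniqueFactorizationMonoid.irreducible_of_factor P (Multiset.mem_toFinset.mp hP)) hP0)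
  refine ⟨lam, ?_⟩
  intro d hd1 hd2
  by_contra hdu
  have hd0 : d ≠ 0 := fun h => hF0 (by rw [h] at hd1; exact zero_dvd_iff.mp hd1)
  obtain ⟨P0, hP0, hP0d⟩ := WfDvdMonoid.exists_irreducible_factor hdu hd0
  obtain ⟨P, hPmem, hassoc⟩ :=
    UniqueFactorizationMonoid.exists_mem_factors_of_dvd hF0 hP0 (hP0d.trans hd1)
  have hP : Irreducible P := UniqueFactorizationMonoid.irreducible_of_factor P hPmem
  have hPd : P ∣ d := hassoc.symm.dvd.trans hP0d
  obtain ⟨H, rfl⟩ : P ∣ F := hPd.trans hd1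
  have h1 : P ∣ pmbDer lam (P * H) := hPd.trans hd2
  rw [pmb_der_mul] at h1
  have h2 : P ∣ pmbDer lam P * H := (dvd_add_left (dvd_mul_right P _)).mp h1
  have hprime : Prime P := hP.prime
  rcases hprime.dvd_or_dvd h2 with h3 | h3
  · have h4 := pmb_der_eq_zero lam hP h3
    have h5 := hlam (vec P) (Finset.mem_image_of_mem _ (Multiset.mem_toFinset.mpr hPmem))
    apply h5
    have h6 := congrArg (coeff (dd P)) h4
    simpa [pmbDer, vec, coeff_sum, coeff_C_mul] using h6
  · obtain ⟨H', rfl⟩ := h3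
    exact hP.not_isUnit (hF P ⟨H', by ring⟩)

theorem pmb_der_homog [Fintype ι] (lam : ι → ℂ) {F : MvPolynomial ι ℂ} {a : ℕ} (hF : F.IsHomogeneous a) :
    (pmbDer lam F).IsHomogeneous (a - 1) := by
  apply IsHomogeneous.sum
  intro i _
  simpa using (isHomogeneous_C ι (lam i)).mul (hF.pderiv (i := i))

theorem pmb_der_ord [Fintype ι] (lam : ι → ℂ) {F : MvPolynomial ι ℂ} {q : ι → ℂ} {m : ℕ}
    (h : OrdGE q m F) : OrdGE q (m - 1) (pmbDer lam F) := by
  cases m with
  | zero => exact ph_ord_zero_left _ _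
  | succ m =>
    apply ph_ord_sum
    intro i _
    exact ph_ord_mul_left _ (ph_ord_pderiv h i)

end polar

/-- **Lemma poly:polar**, first inequality. -/
theorem pm_polar {F : MvPolynomial (Fin 3) ℂ} {a : ℕ} (hF : F.IsHomogeneous a) (hsq : Squarefree F)
    (Q : Finset (Fin 3 → ℂ)) (hQ : ProjDistinct (Q : Set (Fin 3 → ℂ))) (m : (Fin 3 → ℂ) → ℕ)
    (hm : ∀ q ∈ Q, OrdGE q (m q) F) : ∑ q ∈ Q, m q * (m q - 1) ≤ a * (a - 1) := by
  obtain ⟨lam, hlam⟩ := pmb_exists_polar hsq
  exact pm_bezout_mult hF (pmb_der_homog lam hF) hlam Q hQ m (fun q => m q - 1) hm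
    (fun q hq => pmb_der_ord lam (hm q hq))

/-- **Lemma poly:polar**, second inequality. -/
theorem pm_polar_sq {F : MvPolynomial (Fin 3) ℂ} {a : ℕ} (hF : F.IsHomogeneous a) (hsq : Squarefree F)
    (Q : Finset (Fin 3 → ℂ)) (hQ : ProjDistinct (Q : Set (Fin 3 → ℂ))) (m : (Fin 3 → ℂ) → ℕ)
    (hm : ∀ q ∈ Q, OrdGE q (m q) F) (h2 : ∀ q ∈ Q, 2 ≤ m q) :
    ∑ q ∈ Q, m q ^ 2 ≤ 2 * (a * (a - 1)) := by
  refine le_trans ?_ (Nat.mul_le_mul_left 2 (pm_polar hF hsq Q hQ m hm))
  rw [Finset.mul_sum]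
  apply Finset.sum_le_sum
  intro q hq
  obtain ⟨k, hk⟩ : ∃ k, m q = k + 2 := ⟨m q - 2, by have := h2 q hq; omega⟩
  rw [hk]
  have : k + 2 - 1 = k + 1 := by omega
  rw [this]
  nlinarith

end Claimed.Agent.R273
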