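import Claimed.Agent.R273.DepDefs
import Claimed.Agent.R273.PmbChart
import Claimed.Agent.R273.PmbMain

/-!
# Row 273, S6c = depth.tex: CONES, TRANSLATIONS, DIMENSION DROP, BEZOUT ON THE CONE.  SORRY-FREE (helper71: DEP-CONE, `depw_vdim_dcone_le`; helper188: DEP-DROP, DEP-CBEZ).  Architect helper177.  Split off from `DepAG.lean` (statements and proofs verbatim) so that `DepRay.lean` can use it.

Import chain:  `DepDefs ← DepCone ← DepRay (dep_genfib, dep_group) ← DepNag (dep_narrow_count) ← DepAG (dep_half; collector)`.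

* LEAF DEP-DROP  (`dep_drop`)  the centres from which the projection of `Y` drops dimension lie in a hyperplane (paper: "this puts `p` in the proper affine tangent flat `y + T_yY`").
   PROOF.  `l = vdim Y`.  `Y - p ⊆ dcone p Y`, both irreducible and closed; `vdim (Y - p) = l` (translation), `vdim (dcone p Y) ≤ l + 1`.  If `vdim (dcone p Y) ≠ l + 1` then `= l` (`ph_vdim_mono`), so `Y - p = dcone p Y` (`ph_vdim_lt_of_ssubset`), i.e. `Y` is a cone with apex `p`:
   for `y ∈ Y` the whole line `p + λ (y - p)` lies in `Y`.  Take `f ≠ 0` of minimal total degree in `I(Y)` (`I(Y) ≠ 0` because `vdim Y < d`, `ph_univ`); `f` is not constant, some `∂_i f ≠ 0` has smaller degree, so `∂_i f ∉ I(Y)`: there is `y₀ ∈ Y` with `∇f(y₀) ≠ 0`.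
   `g(x) := ∑_i ∂_i f(y₀) (x_i - y₀_i)`.  For an apex `p`: `λ ↦ f(y₀ + λ (p - y₀))` vanishes identically, its derivative at `0` is `g(p)`.
* LEAF DEP-CBEZ  (`dep_cone_bezout`)  BEZOUT ON THE CONE; replaces map degrees, the point-projection formula and multiplicities in "The first-cut bound".
   PROOF.  `g̃(w) := g(p + w)`, same degree, not identically `0` on the irreducible `Z`.  Each `Y - p` is irreducible closed of dimension `l`, contained in `Z ∩ Z(g̃)`, hence in a component `W` of it (`ph_isVar_subset_comp`), `vdim W = l` (`ph_pit`), so `Y - p = W`.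
   `ph_bezout_section` (or `ph_bezout_cut`).  `vdeg`, `vdim`, `IsVar` are translation invariant (`hA (T - p) D = hA T D`: substitution `x ↦ x + p` is a degree preserving automorphism).
-/

set_option autoImplicit false

namespace Claimed.Agent.R273

open MvPolynomial Module

variable {d : ℕ}

/-! ### DEP-CONE -/

/-- the polynomial map `(z, λ) ↦ λ (z - p)` -/
noncomputable def depConeMap (p : SpC d) : Fin d → MvPolynomial (Fin d ⊕ Fin 1) ℂ :=
  fun i => X (Sum.inr 0) * (X (Sum.inl i) - C (p i))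

theorem dep_spCone_eq (p : SpC d) (T : Set (SpC d)) :
    spCone p T = pmap (depConeMap p) '' prodSet T (Set.univ : Set (Fin 1 → ℂ)) := by
  ext w
  constructor
  · rintro ⟨y, hy, lam, rfl⟩
    refine ⟨Sum.elim y (fun _ => lam), ⟨by simpa using hy, Set.mem_univ _⟩, ?_⟩
    funext i
    simp [pmap, depConeMap]
  · rintro ⟨z, ⟨hz, -⟩, rfl⟩
    refine ⟨_, hz, z (Sum.inr 0), ?_⟩
    funext i
    simp [pmap, depConeMap]

theorem dep_eval_scale (c : ℂ) (q w : SpC d) (F : PrfPol d) :
    eval w (aeval (fun i => C c * (X i - C (q i)) : Fin d → PrfPol d) F) = eval (c • (w - q)) F := by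
  have := ph_eval_pmap (fun i => C c * (X i - C (q i)) : Fin d → PrfPol d) w F
  rw [← this]
  congr 2
  funext i
  simp [pmap]

theorem dep_dcone_isVar (p : SpC d) {Y : Set (SpC d)} (hY : IsVar Y) : IsVar (dcone p Y) := by
  unfold dcone
  rw [dep_spCone_eq]
  exact ph_isVar_zcl_image (ph_prod_isVar hY ph_univ.1) _

theorem dep_dcone_vdim_le (p : SpC d) {Y : Set (SpC d)} (hY : IsVar Y) :
    vdim (dcone p Y) ≤ vdim Y + 1 := by
  unfold dcone
  rw [dep_spCone_eq]
  refine (ph_vdim_zcl_image_le (ph_prod_isVar hY ph_univ.1) _).trans ?_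
  rw [ph_prod_vdim hY ph_univ.1, ph_univ.2.1]
  simp

theorem dep_sub_dcone (p : SpC d) (Y : Set (SpC d)) {y : SpC d} (hy : y ∈ Y) (c : ℂ) :
    c • (y - p) ∈ dcone p Y :=
  ph_subset_zcl _ ⟨y, hy, c, rfl⟩

theorem dep_dcone_smul (p : SpC d) (Y : Set (SpC d)) {w : SpC d} (hw : w ∈ dcone p Y) (c : ℂ) :
    c • w ∈ dcone p Y := by
  unfold dcone at hw ⊢
  rw [ph_mem_zcl] at hw ⊢
  intro f hf
  have h1 := hw (aeval (fun i => C c * (X i - C ((0 : SpC d) i)) : Fin d → PrfPol d) f) (by
    rintro _ ⟨y, hy, lam, rfl⟩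
    rw [dep_eval_scale, sub_zero, smul_smul]
    exact hf _ ⟨y, hy, _, rfl⟩)
  rwa [dep_eval_scale, sub_zero] at h1

/-- the ideal of a cone is homogeneous -/
theorem dep_dcone_hom (p : SpC d) (T : Set (SpC d)) (F : PrfPol d)
    (hF : ∀ w ∈ spCone p T, eval w F = 0) (k : ℕ) :
    ∀ w ∈ spCone p T, eval w (homogeneousComponent k F) = 0 := by
  rintro w ⟨y, hy, lam, hw⟩
  -- the univariate polynomial
  let Q : Polynomial ℂ := ∑ j ∈ Finset.range (F.totalDegree + 1),
    Polynomial.C (eval w (homogeneousComponent j F)) * Polynomial.X ^ j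
  have hQ : ∀ t : ℂ, Q.eval t = 0 := by
    intro t
    have h1 : eval (t • w) F = 0 := hF _ ⟨y, hy, t * lam, by rw [hw, smul_smul]⟩
    rw [← sum_homogeneousComponent F, map_sum] at h1
    rw [← h1]
    simp only [Q, Polynomial.eval_finsetSum, Polynomial.eval_mul, Polynomial.eval_C,
      Polynomial.eval_pow, Polynomial.eval_X]
    apply Finset.sum_congr rfl
    intro j _
    rw [pmb_homog_eval_smul (homogeneousComponent_isHomogeneous j F) t w, mul_comm]
  have hQ0 : Q = 0 := Polynomial.funext (by simpa using hQ)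
  by_cases hk : k ∈ Finset.range (F.totalDegree + 1)
  · have h2 : Q.coeff k = eval w (homogeneousComponent k F) := by
      simp only [Q, Polynomial.finsetSum_coeff, Polynomial.coeff_C_mul, Polynomial.coeff_X_pow]
      rw [Finset.sum_eq_single k]
      · simp
      · intro j _ hj
        simp [Ne.symm hj]
      · intro h; exact absurd hk h
    rw [← h2, hQ0, Polynomial.coeff_zero]
  · rw [Finset.mem_range, not_lt] at hk
    rw [homogeneousComponent_eq_zero k F (by omega), map_zero]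

/-! ### translation invariance (local lemmas of DEP-DROP / DEP-CBEZ) -/

theorem dep_tr_hA (q : SpC d) (T : Set (SpC d)) (D : ℕ) : hA ((fun x => x + q) '' T) D = hA T D := by
  have := rk_hA_map_eq (LinearMap.id : SpC d →ₗ[ℂ] SpC d) Function.injective_id q T D
  simpa using this

theorem dep_tr_vdim (q : SpC d) (T : Set (SpC d)) : vdim ((fun x => x + q) '' T) = vdim T := by
  unfold vdim
  simp only [dep_tr_hA]

theorem dep_tr_vdeg (q : SpC d) (T : Set (SpC d)) : vdeg ((fun x => x + q) '' T) = vdeg T := by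
  unfold vdeg
  simp only [dep_tr_hA, dep_tr_vdim]

theorem dep_tr_isVar (q : SpC d) {V : Set (SpC d)} (hV : IsVar V) : IsVar ((fun x => x + q) '' V) := by
  have h1 := ph_isVar_zcl_image hV (fun i => X i + C (q i) : Fin d → PrfPol d)
  have himg : pmap (fun i => X i + C (q i) : Fin d → PrfPol d) '' V = (fun x => x + q) '' V := by
    apply Set.image_congr
    intro x _
    funext i
    simp [pmap]
  rw [himg] at h1
  have hcl : zcl ((fun x => x + q) '' V) = (fun x => x + q) '' V := by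
    apply Set.Subset.antisymm _ (ph_subset_zcl _)
    intro x hx
    rw [ph_mem_zcl] at hx
    obtain ⟨p, hp, rfl⟩ := hV
    refine ⟨x - q, ?_, by simp⟩
    rw [ph_mem_zeroLocus]
    intro f hf
    have := hx (aeval (fun i => C 1 * (X i - C (q i)) : Fin d → PrfPol d) f) (by
      rintro _ ⟨y, hy, rfl⟩
      rw [dep_eval_scale, one_smul, add_sub_cancel_right]
      exact (ph_mem_zeroLocus _ _).1 hy f hf)
    rwa [dep_eval_scale, one_smul] at this
  rwa [hcl] at h1

/-- an irreducible variety contained in another one of at most the same dimension is equal to it -/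
theorem dep_var_eq {V W : Set (SpC d)} (hV : IsVar V) (hW : IsVar W) (h : V ⊆ W) (hd : vdim W ≤ vdim V) :
    V = W := by
  apply Set.Subset.antisymm h
  by_contra hno
  obtain ⟨w, hw, hwn⟩ := Set.not_subset.1 hno
  have hne := ph_isVar_nonempty V hV
  obtain ⟨P, hP, rfl⟩ := hV
  rw [ph_mem_zeroLocus] at hwn
  push Not at hwn
  obtain ⟨g, hg, hgw⟩ := hwn
  have := ph_vdim_lt_of_ssubset hW h g (fun x hx => (ph_mem_zeroLocus _ _).1 hx g hg) ⟨w, hw, hgw⟩ hne
  omega

/-! ### DEP-DROP -/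

/-- if the projection from `p` drops the dimension, `Y` is a cone with apex `p` -/
theorem dep_apex {Y : Set (SpC d)} (hY : IsVar Y) (p : SpC d) (h : vdim (dcone p Y) ≠ vdim Y + 1)
    {y : SpC d} (hy : y ∈ Y) (c : ℂ) : p + c • (y - p) ∈ Y := by
  have hV' : IsVar ((fun x => x + (-p)) '' Y) := dep_tr_isVar (-p) hY
  have hd' : vdim ((fun x => x + (-p)) '' Y) = vdim Y := dep_tr_vdim (-p) Y
  have hsub : (fun x => x + (-p)) '' Y ⊆ dcone p Y := by
    rintro _ ⟨z, hz, rfl⟩
    have := dep_sub_dcone p Y hz 1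
    simpa [sub_eq_add_neg] using this
  have hle := dep_dcone_vdim_le p hY
  have hge : vdim ((fun x => x + (-p)) '' Y) ≤ vdim (dcone p Y) := ph_vdim_mono hsub
  have heq := dep_var_eq hV' (dep_dcone_isVar p hY) hsub (by omega)
  have hmem := dep_sub_dcone p Y hy c
  rw [← heq] at hmem
  obtain ⟨z, hz, hzc⟩ := hmem
  have : p + c • (y - p) = z := by
    rw [← hzc]
    simp
  rw [this]
  exact hz

/-- the derivative of `f` along a line on which it vanishes -/
theorem dep_dAt_line (f : PrfPol d) (y v : SpC d) (h : ∀ c : ℂ, eval (y + c • v) f = 0) :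
    ∑ j, eval y (pderiv j f) * v j = 0 := by
  set s : Fin d → MvPolynomial (Fin 1) ℂ := fun j => C (y j) + X 0 * C (v j) with hs
  have hG : aeval s f = 0 := by
    apply MvPolynomial.funext
    intro z
    rw [map_zero, ← ph_eval_pmap]
    have : pmap s z = y + z 0 • v := by
      funext j
      simp [pmap, hs]
    rw [this]
    exact h _
  have h2 := ph_dAt_aeval s f (fun _ => (0 : ℂ)) (fun _ => (1 : ℂ))
  rw [hG] at h2
  have e1 : (fun j => aeval (fun _ : Fin 1 => (0 : ℂ)) (s j)) = y := by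
    funext j
    simp [hs]
  have e2 : (fun j => dAt (s j) (fun _ : Fin 1 => (0 : ℂ)) (fun _ => (1 : ℂ))) = v := by
    funext j
    simp only [hs]
    rw [ph_dAt_add, ph_dAt_C, ph_dAt_mul, ph_dAt_C, ph_dAt_X]
    simp
  rw [e1, e2] at h2
  have e3 : dAt (0 : MvPolynomial (Fin 1) ℂ) (fun _ => (0 : ℂ)) (fun _ => (1 : ℂ)) = 0 := by
    simp [dAt]
  rw [e3] at h2
  rw [h2]
  simp [dAt, aeval_eq_eval]

theorem dep_drop (Y : Set (SpC d)) (hY : IsVar Y) (hd : vdim Y < d) :
    ∃ g : PrfPol d, g ≠ 0 ∧ g.totalDegree ≤ 1 ∧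
      ∀ p : SpC d, vdim (dcone p Y) ≠ vdim Y + 1 → eval p g = 0 := by
  classical
  have hY' := hY
  obtain ⟨P, hP, rfl⟩ := hY
  have hPne : P ≠ ⊥ := by
    rintro rfl
    rw [ph_vdim_bot] at hd
    simp at hd
  obtain ⟨f₀, hf₀, hf₀ne⟩ := Submodule.exists_mem_ne_zero_of_ne_bot hPne
  have hex : ∃ n, ∃ f ∈ P, f ≠ 0 ∧ f.totalDegree = n := ⟨_, f₀, hf₀, hf₀ne, rfl⟩
  obtain ⟨f, hf, hfne, hfdeg⟩ := Nat.find_spec hex
  have hmin : ∀ h ∈ P, h ≠ 0 → f.totalDegree ≤ h.totalDegree := by
    intro h hh hne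
    rw [hfdeg]
    exact Nat.find_min' hex ⟨h, hh, hne, rfl⟩
  have hnc : ∀ c : ℂ, f ≠ C c := by
    intro c hc
    have hc0 : c ≠ 0 := by
      rintro rfl
      exact hfne (by rw [hc, C_0])
    apply hP.ne_top
    rw [Ideal.eq_top_iff_one]
    have : (1 : PrfPol d) = C c⁻¹ * f := by
      rw [hc, ← C_mul, inv_mul_cancel₀ hc0, C_1]
    rw [this]
    exact P.mul_mem_left _ hf
  obtain ⟨i, hi⟩ : ∃ i, pderiv i f ≠ 0 := by
    by_contra hno
    push Not at hno
    exact hnc _ (pmb_const_of_pderiv f hno)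
  have hpos : 0 < f.totalDegree := by
    rw [Nat.pos_iff_ne_zero]
    intro h0
    exact hnc _ (totalDegree_eq_zero_iff_eq_C.1 h0)
  have hnot : pderiv i f ∉ P := fun hmem => by
    have h1 := hmin _ hmem hi
    have h2 := pmb_pderiv_degree f i
    omega
  obtain ⟨y₀, hy₀, hne⟩ := ph_exists_ne_of_notMem P hP _ hnot
  refine ⟨∑ j, C (eval y₀ (pderiv j f)) * (X j - C (y₀ j)), ?_, ?_, ?_⟩
  · intro h0
    have h1 := congrArg (eval (y₀ + Pi.single i 1)) h0
    simp only [map_sum, map_mul, eval_C, map_sub, eval_X, Pi.add_apply, add_sub_cancel_left,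
      map_zero] at h1
    rw [Finset.sum_eq_single i (fun j _ hj => by simp [hj]) (by simp)] at h1
    simp at h1
    exact hne h1
  · apply totalDegree_finsetSum_le
    intro j _
    refine (totalDegree_mul _ _).trans ?_
    rw [totalDegree_C, zero_add]
    refine (totalDegree_sub _ _).trans ?_
    rw [totalDegree_C, totalDegree_X]
    simp
  · intro p hp
    have hline : ∀ c : ℂ, eval (y₀ + c • (p - y₀)) f = 0 := by
      intro c
      have h1 := dep_apex hY' p hp hy₀ (1 - c)
      have e : p + (1 - c) • (y₀ - p) = y₀ + c • (p - y₀) := by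
        funext j
        simp
        ring
      rw [e] at h1
      exact (ph_mem_zeroLocus _ _).1 h1 f hf
    have h2 := dep_dAt_line f y₀ (p - y₀) hline
    simpa using h2

/-! ### DEP-CBEZ -/

theorem dep_eval_phSh (p w : SpC d) (g : PrfPol d) : eval w (phSh p g) = eval (w + p) g := by
  have := ph_eval_pmap (fun i => X i + C (p i) : Fin d → PrfPol d) w g
  rw [phSh, ← this]
  congr 2
  funext i
  simp [pmap]

/-- **Bezout on the cone**: distinct `l`-dimensional varieties inside `(p + Z) ∩ Z(g)`, `Z` irreducible of dimension `l + 1`, `g` not identically zero on `p + Z`. -/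
theorem dep_cone_bezout (p : SpC d) (g : PrfPol d) (Z : Set (SpC d)) (hZ : IsVar Z) (l : ℕ)
    (hl : vdim Z = l + 1) (hg : ∃ w ∈ Z, eval (p + w) g ≠ 0) (𝒴 : Finset (Set (SpC d)))
    (h𝒴 : ∀ Y ∈ 𝒴, IsVar Y ∧ vdim Y = l ∧ (∀ y ∈ Y, eval y g = 0 ∧ y - p ∈ Z)) :
    ∑ Y ∈ 𝒴, vdeg Y ≤ g.totalDegree * vdeg Z := by
  classical
  have hZ' := hZ
  obtain ⟨PZ, hPZ, hZeq⟩ := hZ
  have hG₀ : Zl (PZ : Set (PrfPol d)) = Z := by
    rw [hZeq]
    ext x
    rw [ph_mem_zeroLocus]
    rfl
  have hg' : ∃ x ∈ Z, eval x (phSh p g) ≠ 0 := by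
    obtain ⟨w, hw, hne⟩ := hg
    exact ⟨w, hw, by rwa [dep_eval_phSh, add_comm]⟩
  have hcomp : ∀ Y ∈ 𝒴, IsCompOf ((fun x => x + (-p)) '' Y) (insert (phSh p g) (PZ : Set (PrfPol d))) := by
    intro Y hY
    obtain ⟨h1, h2, h3⟩ := h𝒴 Y hY
    have hV : IsVar ((fun x => x + (-p)) '' Y) := dep_tr_isVar (-p) h1
    have hsub : (fun x => x + (-p)) '' Y ⊆ Zl (insert (phSh p g) (PZ : Set (PrfPol d))) := by
      rintro _ ⟨y, hy, rfl⟩ f hf
      rcases Set.mem_insert_iff.1 hf with rfl | hf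
      · rw [dep_eval_phSh, neg_add_cancel_right]
        exact (h3 y hy).1
      · have h4 : y + -p ∈ Zl (PZ : Set (PrfPol d)) := by
          rw [hG₀, ← sub_eq_add_neg]
          exact (h3 y hy).2
        exact h4 f hf
    obtain ⟨W, hW, hYW⟩ := ph_isVar_subset_comp hV hsub
    have hdW := ph_pit Z hZ' _ hG₀ (phSh p g) hg' W hW
    have hdY : vdim ((fun x => x + (-p)) '' Y) = l := by rw [dep_tr_vdim, h2]
    have := dep_var_eq hV (ph_isCompOf_isVar hW) hYW (by omega)
    rw [this]
    exact hW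
  have hinj : Set.InjOn (fun Y : Set (SpC d) => (fun x => x + (-p)) '' Y) (𝒴 : Set (Set (SpC d))) :=
    (Set.image_injective.2 (add_left_injective (-p))).injOn
  have hbez := ph_bezout_cut Z hZ' _ hG₀ (phSh p g) hg'
    (𝒴.image fun Y : Set (SpC d) => (fun x => x + (-p)) '' Y) (by
      intro W hW
      obtain ⟨Y, hY, rfl⟩ := Finset.mem_image.1 hW
      exact hcomp Y hY)
  rw [Finset.sum_image hinj] at hbez
  simp only [dep_tr_vdeg] at hbez
  exact hbez.trans (Nat.mul_le_mul_right _ (ph_totalDegree_phSh_le p g))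

/-! ### dimension of the cone over an ARBITRARY set (helper71) -/

theorem depw_tele (h : ℕ → ℕ) (hm : Monotone h) (D : ℕ) :
    ∑ a ∈ Finset.range (D + 1), (h a - if a = 0 then 0 else h (a - 1)) = h D := by
  induction D with
  | zero => simp
  | succ n ih =>
    rw [Finset.sum_range_succ, ih]
    have : h n ≤ h (n + 1) := hm (Nat.le_succ n)
    simp only [Nat.add_eq_zero_iff, one_ne_zero, and_false, if_false, Nat.add_sub_cancel]
    omega

theorem depw_vdim_prod_le (T : Set (SpC d)) :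
    vdim (prodSet T (Set.univ : Set (Fin 1 → ℂ))) ≤ vdim T + 1 := by
  have hne : {k | ∃ C : ℕ, ∀ D, hA T D ≤ C * (D + 1) ^ k}.Nonempty :=
    ⟨Fintype.card (Fin d), 1, fun D => (ph_hA_le_choose T D).trans
      (Nat.mul_le_mul_left _ (ph_choose_le_pow D _))⟩
  obtain ⟨C, hC⟩ := Nat.sInf_mem hne
  change ∀ D, hA T D ≤ C * (D + 1) ^ vdim T at hC
  refine Nat.sInf_le ⟨C, fun D => ?_⟩
  rw [ph_prod_hA]
  calc ∑ a ∈ Finset.range (D + 1), (hA T a - if a = 0 then 0 else hA T (a - 1)) *
          hA (Set.univ : Set (Fin 1 → ℂ)) (D - a)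
      ≤ ∑ a ∈ Finset.range (D + 1), (hA T a - if a = 0 then 0 else hA T (a - 1)) * (D + 1) := by
        apply Finset.sum_le_sum
        intro a _
        apply Nat.mul_le_mul_left
        have := ph_hA_le_choose (Set.univ : Set (Fin 1 → ℂ)) (D - a)
        simp only [Fintype.card_fin, Nat.choose_one_right, one_mul] at this
        omega
    _ = hA T D * (D + 1) := by
        rw [← Finset.sum_mul, depw_tele (hA T) (fun a b hab => rk_hA_mono_deg T hab)]
    _ ≤ C * (D + 1) ^ vdim T * (D + 1) := Nat.mul_le_mul_right _ (hC D)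
    _ = C * (D + 1) ^ (vdim T + 1) := by rw [pow_succ, mul_assoc]

theorem depw_vdim_dcone_le (p : SpC d) (T : Set (SpC d)) : vdim (dcone p T) ≤ vdim T + 1 := by
  unfold dcone
  rw [ph_vdim_zcl, dep_spCone_eq]
  exact (ph_vdim_pmap_image_le _ _).trans (depw_vdim_prod_le T)

end Claimed.Agent.R273
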