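import Claimed.Agent.R273.SplReg
import Claimed.Agent.R273.PhInt

/-!
# Row 273, SPARSE, unit S5L (chief helper161): (PROD) and (LOW) of `SpLim.lean` from `prf_prod`, `PrfPiece.Ok.low`, `ph_avoid`.

`T(u) = prfT D.B s u`.  Use the lemmas of `SplBasic.lean`, `SplReg.lean` as black boxes.

LEAF SPL-spec: `spl_specL_eval`, `spl_specR_eval`, `spl_specL_deg`, `spl_specR_deg`, `spl_exists_ne`, `spl_deg_zero` now live in `PrfProd.lean`; here only `spl_van_iff` (`mem_vanishingIdeal_iff`; `w = Sum.elim (w ∘ inl) (w ∘ inr)`).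
 * eval: `prfSpecL G x = aeval (Sum.elim (C ∘ x) X) G`; `eval y ∘ aeval φ = eval₂Hom/aeval (eval y ∘ φ)` (`MvPolynomial.induction_on G`, or `MvPolynomial.aeval_def`, `eval₂_comp`, `comp_aeval`); `Sum.elim` cases.
 * deg: `MvPolynomial.induction_on'`/`as_sum`: `aeval φ (monomial m c) = C c * ∏ φ(i)^{m i}`, `totalDegree_mul_le`, `totalDegree_finset_prod`, `totalDegree_pow_le`, `totalDegree (φ i) ≤ 1`; `le_totalDegree`.   (Or `MvPolynomial.totalDegree_aeval_le`-like lemmas, if present.)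
 * `spl_exists_ne`: `MvPolynomial.funext` (`ℂ` infinite): `G ≠ 0 → ∃ w, eval w G ≠ 0`; `w = Sum.elim (w ∘ inl) (w ∘ inr)` (`Sum.elim_comp_inl_inr`).
 * `spl_deg_zero`: `totalDegree g = 0 → g = C c` (`MvPolynomial.totalDegree_eq_zero_iff_eq_C`), `g ≠ 0 → c ≠ 0`.
LEAF SPL-low (`spl_low_one`, `spl_low`).
 * `spl_low_one`: `PrfPiece.Ok.low` in every member (`hX.piece a ha`), `S' ∩ S_a`, then `spl_sum_members`.
 * `spl_low`: `θ := ε/2`.   `(x₀, y₀)` with `G(x₀, y₀) ≠ 0`; `c := prfSpecR G y₀ ≠ 0`, `deg c ≤ deg G`.   `X₀ := X.pts.filter (eval · c = 0)`, `|X₀| ≤ θ |X.pts|` (`spl_low_one`).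
   For `x ∈ X.pts \ X₀`: `g_x := prfSpecL G x`, `g_x(y₀) = G(x, y₀) = c(x) ≠ 0` so `g_x ≠ 0`; the fibre `Γ_x = (Γ.filter (·.1 = x)).image Prod.snd ⊆ Y.pts` consists of zeros of `g_x`: `|Γ_x| ≤ θ |Y.pts|`.
   `|Γ| = ∑_{x ∈ X.pts} |Γ_x|` (`Finset.card_eq_sum_card_fiberwise`) `≤ |X₀| |Y.pts| + |X.pts| θ |Y.pts| ≤ 2 θ |X.pts| |Y.pts|`.
LEAF SPL-prod-gen (`spl_prod_generic`).   `W := Submodule.span ℂ 𝒢`; `S := Pr.image (fun z => splVan z.1 z.2)`; `ph_avoid W S`: `W ⊄ splVan p q` since some `G ∈ 𝒢 ⊆ W` is not in it (`spl_van_iff`).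
   `G ∈ W`: degree `≤ T` (`Submodule.span_induction`, or `span_le` into `MvPolynomial.restrictTotalDegree _ ℂ T`, `mem_restrictTotalDegree`); vanishing at `w`: `span_le` into `(RingHom.ker (eval w)).restrictScalars ℂ` or `span_induction`.
LEAF SPL-prod-pair (`spl_prod_pair`): constants exactly as in SPL-indiv-main.   `Cn := prf_prod d`; `γ := (b j - t)/4`; `θ ≤ ε/4`, `θ ≤ γ/(2d+1)`, `θ ≤ t - b (j-1)` if `j ≥ 1`; absorption `2 Cn + 1 ≤ e^{γ s}` and `4 Cn e^{-γ s} ≤ ε/4`.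
   `t' ∈ X.grid` with `t + 2γ ≤ t' ≤ t + 2γ + θ`; `spl_plateau` for `X.π a` and `Y.π c` (`Y.grid = X.grid`: rewrite `h.okY.piece c hc` with `h.grid`); `L = L' = ⌊T(t)⌋₊ ≥ 1`; `G.totalDegree ≤ L'` by `Nat.le_floor`.
   `err_a = (Cn L/⌊T t'⌋) degLo_a degHi_a ≤ 2 Cn e^{-2γ s} e^{2 d θ s} N ≤ 2 Cn e^{-2γ s + (2d+1) θ s} |S_a| ≤ (ε/4) |S_a|`.
LEAF SPL-prod-sum (`spl_prod_sum`): `Γ = ⋃_{(a,c) ∈ X.I ×ˢ Y.I} Γ ∩ (S_a ×ˢ S_c)` (`Finset.card_biUnion_le`), `∑_{a,c} ε |S_a| |S_c| = ε (∑_a |S_a|)(∑_c |S_c|)` (`Finset.sum_product`, `Finset.sum_mul_sum`, `spl_pts_card`).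
LEAF SPL-prod-rest (`spl_prod_top`, `spl_prod_low`, `spl_asg_exists`, `spl_carr_prime_dim`).
 * `top` (`j = d`): `z ∈ Γ`, `z.1 ∈ S_a`, `z.2 ∈ S_c`: `Z(asgX z.1) = {z.1}`, `Z(asgY z.2) = {z.2}` (`spl_carr_point`, `Ok.path`), so `PrfVanProd G .. ⟺ G(z) = 0`: contradiction, `Γ = ∅`; `θ := 1`.
 * `low` (`j = 0`, `t < -1`): `θ :=` that of `spl_low` for `ε`.  If `Γ = ∅` trivial.  Else `z₀ ∈ Γ`, `G₀ ∈ 𝒢` with `¬ PrfVanProd`, so `G₀ ≠ 0`; `deg G₀ ≤ T(t) ≤ T(-1)`.  If `1 < T(-1)`: `spl_low`.  Else `deg G₀ ≤ T(t) < T(-1) ≤ 1`, `deg G₀ = 0`, `spl_deg_zero`: `G₀(z₀) ≠ 0`, contradiction.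
 * `spl_asg_exists`: for `x ∈ S_a`: `f_i(x) = 0` (`i < j`, `Ok.path`), so `span (sys j) ≤ 𝔪_x := RingHom.ker (eval x)` (prime), `Ideal.exists_minimalPrimes_le`: `p ≤ 𝔪_x`, i.e. `x ∈ Z(p)`.  The member `a` of `x` is unique (`disj`): define `asg x` by `Classical.choose` on `∃ a ∈ I, x ∈ S_a`.
 * `spl_carr_prime_dim`: `prf_pure`.
`spl_prod_main`, `spl_prod` are PROVED from these.
-/

set_option autoImplicit false

namespace Claimed.Agent.R273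

open MvPolynomial Module

variable {d : ℕ}

/-! ### specialisations -/

/-- the ideal of the product `Z(p) × Z(q)` -/
noncomputable def splVan {n : ℕ} (p q : Ideal (PrfPol n)) :
    Ideal (MvPolynomial (Fin n ⊕ Fin n) ℂ) :=
  vanishingIdeal ℂ {w | (fun i => w (Sum.inl i)) ∈ zeroLocus ℂ p ∧
    (fun i => w (Sum.inr i)) ∈ zeroLocus ℂ q}

theorem spl_van_iff {n : ℕ} (G : MvPolynomial (Fin n ⊕ Fin n) ℂ) (p q : Ideal (PrfPol n)) :
    G ∈ splVan p q ↔ PrfVanProd G p q := by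
  unfold splVan PrfVanProd
  rw [mem_vanishingIdeal_iff]
  constructor
  · intro h x hx y hy
    have := h (Sum.elim x y) ⟨hx, hy⟩
    rwa [aeval_eq_eval] at this
  · rintro h w ⟨h1, h2⟩
    have := h _ h1 _ h2
    have e : Sum.elim (fun i => w (Sum.inl i)) (fun i => w (Sum.inr i)) = w := by
      funext i
      cases i <;> rfl
    rw [e] at this
    rwa [aeval_eq_eval]

/-! ### (LOW) -/

/-- lower boundary for one pool -/
theorem spl_low_one {D : SpData d} {X : SpPool d} {s θ : ℝ} {b : ℕ → ℝ} (hX : X.Ok D s θ b)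
    (h1 : 1 < prfT D.B s (-1)) (g : PrfPol d) (hg : g ≠ 0)
    (hdeg : (g.totalDegree : ℝ) ≤ prfT D.B s (-1)) (S' : Finset (SpC d)) (hS' : S' ⊆ X.pts)
    (hx : ∀ x ∈ S', eval x g = 0) : (S'.card : ℝ) ≤ θ * X.pts.card := by
  refine spl_sum_members hX S' hS' θ fun a ha => ?_
  exact (hX.piece a ha).low h1 g hg hdeg _ Finset.inter_subset_right
    fun x hx' => hx x (Finset.mem_inter.1 hx').1

theorem spl_low : SpLowStmt d := by
  classical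
  intro b hb ε hε
  refine ⟨ε / 2, by positivity, fun D X Y s h h1 G hG hdeg Γ hΓ hz => ?_⟩
  obtain ⟨x₀, y₀, hne⟩ := spl_exists_ne G hG
  set c := prfSpecR G y₀ with hc
  have hc0 : c ≠ 0 := by
    intro h0
    apply hne
    rw [← spl_specR_eval, ← hc, h0, map_zero]
  have hcdeg : (c.totalDegree : ℝ) ≤ prfT D.B s (-1) :=
    le_trans (by exact_mod_cast spl_specR_deg G y₀) hdeg
  set X₀ := X.pts.filter (fun x => eval x c = 0) with hX₀
  have hX₀card : (X₀.card : ℝ) ≤ ε / 2 * X.pts.card :=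
    spl_low_one h.okX h1 c hc0 hcdeg X₀ (Finset.filter_subset _ _) (fun x hx => (Finset.mem_filter.1 hx).2)
  have hfib : ∀ x ∈ X.pts, x ∉ X₀ →
      (((Γ.filter (fun z => z.1 = x)).image Prod.snd).card : ℝ) ≤ ε / 2 * Y.pts.card := by
    intro x hx hx0
    have hg : prfSpecL G x ≠ 0 := by
      intro h0
      apply hx0
      rw [hX₀, Finset.mem_filter]
      refine ⟨hx, ?_⟩
      rw [hc, spl_specR_eval, ← spl_specL_eval, h0, map_zero]
    refine spl_low_one h.okY h1 _ hg (le_trans (by exact_mod_cast spl_specL_deg G x) hdeg) _ ?_ ?_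
    · intro y hy
      obtain ⟨z, hzm, rfl⟩ := Finset.mem_image.1 hy
      exact (Finset.mem_product.1 (hΓ (Finset.mem_filter.1 hzm).1)).2
    · intro y hy
      obtain ⟨z, hzm, rfl⟩ := Finset.mem_image.1 hy
      obtain ⟨hzΓ, rfl⟩ := Finset.mem_filter.1 hzm
      rw [spl_specL_eval]
      exact hz z hzΓ
  set Γ₁ := Γ.filter (fun z => z.1 ∈ X₀) with hΓ₁d
  set Γ₂ := Γ.filter (fun z => ¬ z.1 ∈ X₀) with hΓ₂d
  have hcard : Γ₁.card + Γ₂.card = Γ.card := Finset.card_filter_add_card_filter_not _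
  have hΓ₁ : (Γ₁.card : ℝ) ≤ X₀.card * Y.pts.card := by
    have hsub : Γ₁ ⊆ X₀ ×ˢ Y.pts := by
      intro z hzm
      obtain ⟨hzΓ, hz0⟩ := Finset.mem_filter.1 hzm
      exact Finset.mem_product.2 ⟨hz0, (Finset.mem_product.1 (hΓ hzΓ)).2⟩
    have := Finset.card_le_card hsub
    rw [Finset.card_product] at this
    exact_mod_cast this
  have hΓ₂ : (Γ₂.card : ℝ) ≤ ε / 2 * Y.pts.card * X.pts.card := by
    refine prfq_count_fst X.pts Y.pts Γ₂ ((Finset.filter_subset _ _).trans hΓ) _ fun x hx => ?_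
    by_cases hx0 : x ∈ X₀
    · have he : (Γ₂.filter (fun z => z.1 = x)) = ∅ := by
        rw [Finset.filter_eq_empty_iff]
        intro z hzm hzx
        exact (Finset.mem_filter.1 hzm).2 (hzx ▸ hx0)
      rw [he, Finset.image_empty, Finset.card_empty, Nat.cast_zero]
      positivity
    · refine le_trans ?_ (hfib x hx hx0)
      exact_mod_cast Finset.card_le_card
        (Finset.image_subset_image (Finset.filter_subset_filter _ (Finset.filter_subset _ _)))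
  have e : (Γ.card : ℝ) = Γ₁.card + Γ₂.card := by exact_mod_cast hcard.symm
  have hY0 : (0 : ℝ) ≤ Y.pts.card := Nat.cast_nonneg _
  have h3 : (X₀.card : ℝ) * Y.pts.card ≤ ε / 2 * X.pts.card * Y.pts.card :=
    mul_le_mul_of_nonneg_right hX₀card hY0
  rw [e]
  nlinarith

/-! ### (PROD) -/

/-- generic linear combination of a system -/
theorem spl_prod_generic {n : ℕ} (𝒢 : Set (MvPolynomial (Fin n ⊕ Fin n) ℂ)) (T : ℕ)
    (hdeg : ∀ G ∈ 𝒢, G.totalDegree ≤ T) (Pr : Finset (Ideal (PrfPol n) × Ideal (PrfPol n)))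
    (hPr : ∀ z ∈ Pr, ∃ G ∈ 𝒢, ¬ PrfVanProd G z.1 z.2) :
    ∃ G : MvPolynomial (Fin n ⊕ Fin n) ℂ, G.totalDegree ≤ T ∧
      (∀ w, (∀ G' ∈ 𝒢, eval w G' = 0) → eval w G = 0) ∧ ∀ z ∈ Pr, ¬ PrfVanProd G z.1 z.2 := by
  classical
  obtain ⟨G, hGW, hGS⟩ := ph_avoid (Submodule.span ℂ 𝒢) (Pr.image fun z => splVan z.1 z.2) (by
    intro 𝔮 h𝔮 hsub
    obtain ⟨z, hz, rfl⟩ := Finset.mem_image.1 h𝔮
    obtain ⟨G, hG, hn⟩ := hPr z hz
    exact hn ((spl_van_iff G _ _).1 (hsub (Submodule.subset_span hG))))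
  refine ⟨G, ?_, ?_, ?_⟩
  · have hle : Submodule.span ℂ 𝒢 ≤ MvPolynomial.restrictTotalDegree _ ℂ T :=
      Submodule.span_le.2 fun G hG => (mem_restrictTotalDegree _ _ _).2 (hdeg G hG)
    exact (mem_restrictTotalDegree _ _ _).1 (hle hGW)
  · intro w hw
    clear hGS
    induction hGW using Submodule.span_induction with
    | mem x hx => exact hw x hx
    | zero => simp
    | add x y _ _ hx hy => rw [map_add, hx, hy, add_zero]
    | smul a x _ hx => rw [smul_eval, hx, mul_zero]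
  · intro z hz hv
    exact hGS _ (Finset.mem_image_of_mem _ hz) ((spl_van_iff G _ _).2 hv)

/-- the error term of `prf_prod` in one member -/
theorem spl_prod_err (hd : 1 ≤ d) {b : ℕ → ℝ} (hb : SpAdm d b) {D : SpData d} {X : SpPool d} {s θ : ℝ}
    (hθ : 0 < θ) (hX : X.Ok D s θ b) {a : ℕ} (ha : a ∈ X.I) {j : ℕ} (hj : j ≤ d) {t t' γ ε : ℝ} (Cn : ℕ)
    (ht : -1 ≤ t) (hγ : 0 < γ) (ht' : t + 2 * γ ≤ t') (hθγ : (2 * d + 1) * θ ≤ γ) (hε : 0 < ε)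
    (habs : 8 * Cn / ε ≤ Real.exp (γ * s)) :
    ((Cn * max ⌊prfT D.B s t⌋₊ ⌊prfT D.B s t⌋₊ : ℕ) : ℝ) / (⌊prfT D.B s t'⌋₊ : ℝ) * (X.π a).degLo j
      * (X.π a).degHi j ≤ ε / 4 * (X.π a).S.card := by
  have hs := spl_s_pos hθ hX
  have hB := spl_B_pos hθ hX
  have hT1 : 1 ≤ prfT D.B s t := spl_one_le_T hθ hX ht
  have hTT : prfT D.B s t * Real.exp (2 * γ * s) ≤ prfT D.B s t' := by
    rw [← spl_T_add]
    exact spl_T_mono hB.le hs.le ht'
  have hT'1 : 1 ≤ prfT D.B s t' := spl_one_le_T hθ hX (by linarith)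
  have hF := spl_floor hT'1
  have hL : ((⌊prfT D.B s t⌋₊ : ℕ) : ℝ) ≤ prfT D.B s t := Nat.floor_le (by linarith)
  have hF0 : (0 : ℝ) < (⌊prfT D.B s t'⌋₊ : ℝ) := by linarith
  rw [max_self]
  have hCn0 : (0 : ℝ) ≤ Cn := Nat.cast_nonneg _
  have h1 : ((Cn * ⌊prfT D.B s t⌋₊ : ℕ) : ℝ) / (⌊prfT D.B s t'⌋₊ : ℝ) ≤ 2 * Cn * Real.exp (-(2 * γ * s)) := by
    rw [div_le_iff₀ hF0]
    push_cast
    have e : Real.exp (-(2 * γ * s)) * Real.exp (2 * γ * s) = 1 := by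
      rw [← Real.exp_add]
      simp
    calc (Cn : ℝ) * (⌊prfT D.B s t⌋₊ : ℝ) ≤ Cn * prfT D.B s t := mul_le_mul_of_nonneg_left hL hCn0
      _ = 2 * Cn * Real.exp (-(2 * γ * s)) * (prfT D.B s t * Real.exp (2 * γ * s) / 2) := by
          linear_combination (-(Cn : ℝ) * prfT D.B s t) * e
      _ ≤ 2 * Cn * Real.exp (-(2 * γ * s)) * (⌊prfT D.B s t'⌋₊ : ℝ) :=
          mul_le_mul_of_nonneg_left (by linarith) (by positivity)
  have hlo := spl_degLo_le hθ hX ha hj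
  have hhi := spl_degHi_le hd hb hθ hX ha hj
  have hN := spl_N_le_member hX ha
  have hE := spl_spE_pos hθ hX j
  have hN0 := spl_N_pos hd hθ hX
  have h2 : ((X.π a).degLo j : ℝ) * (X.π a).degHi j ≤
      D.N * (Real.exp (d * θ * s) * Real.exp (d * θ * s)) := by
    calc ((X.π a).degLo j : ℝ) * (X.π a).degHi j
        ≤ (spE D.B s b j * Real.exp (d * θ * s)) * (D.N / spE D.B s b j * Real.exp (d * θ * s)) :=
          mul_le_mul hlo hhi (Nat.cast_nonneg _) (by positivity)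
      _ = D.N * (Real.exp (d * θ * s) * Real.exp (d * θ * s)) := by
          field_simp
  have h3 : 2 * (Cn : ℝ) * Real.exp (-(γ * s)) ≤ ε / 4 := by
    rw [div_le_iff₀ hε] at habs
    have e : Real.exp (-(γ * s)) * Real.exp (γ * s) = 1 := by
      rw [← Real.exp_add]
      simp
    have hp := Real.exp_pos (-(γ * s))
    nlinarith [mul_le_mul_of_nonneg_left habs hp.le]
  have hc0 : (0 : ℝ) ≤ (X.π a).S.card := Nat.cast_nonneg _
  calc ((Cn * ⌊prfT D.B s t⌋₊ : ℕ) : ℝ) / (⌊prfT D.B s t'⌋₊ : ℝ) * (X.π a).degLo j * (X.π a).degHi j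
      = ((Cn * ⌊prfT D.B s t⌋₊ : ℕ) : ℝ) / (⌊prfT D.B s t'⌋₊ : ℝ) * (((X.π a).degLo j : ℝ) * (X.π a).degHi j) := by
        ring
    _ ≤ (2 * Cn * Real.exp (-(2 * γ * s))) * (D.N * (Real.exp (d * θ * s) * Real.exp (d * θ * s))) :=
        mul_le_mul h1 h2 (by positivity) (by positivity)
    _ ≤ (2 * Cn * Real.exp (-(2 * γ * s))) *
          ((((X.π a).S.card : ℝ) * Real.exp (θ * s)) * (Real.exp (d * θ * s) * Real.exp (d * θ * s))) :=
        mul_le_mul_of_nonneg_left (mul_le_mul_of_nonneg_right hN (by positivity)) (by positivity)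
    _ = 2 * Cn * (Real.exp (-(2 * γ * s)) * Real.exp (θ * s) * Real.exp (d * θ * s) * Real.exp (d * θ * s))
          * (X.π a).S.card := by ring
    _ = 2 * Cn * Real.exp (-(2 * γ * s) + θ * s + d * θ * s + d * θ * s) * (X.π a).S.card := by
        rw [Real.exp_add, Real.exp_add, Real.exp_add]
    _ ≤ 2 * Cn * Real.exp (-(γ * s)) * (X.π a).S.card := by
        refine mul_le_mul_of_nonneg_right (mul_le_mul_of_nonneg_left (Real.exp_le_exp.2 ?_) (by positivity)) hc0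
        nlinarith [mul_le_mul_of_nonneg_right hθγ hs.le]
    _ ≤ ε / 4 * (X.π a).S.card := mul_le_mul_of_nonneg_right h3 hc0

/-- product testing for one polynomial and one pair of members -/
theorem spl_prod_pair (hd : 1 ≤ d) {b : ℕ → ℝ} (hb : SpAdm d b) {ε : ℝ} (hε : 0 < ε) {j : ℕ}
    {t : ℝ} (hj : j < d) (ht : -1 ≤ t) (hpl : SpPlat d b j t) :
    ∃ θ : ℝ, 0 < θ ∧ ∀ (D : SpData d) (X Y : SpPool d) (s : ℝ), SpTwo D X Y s θ b →
      ∀ asgX asgY : SpC d → Ideal (PrfPol d), SpAsg X j asgX → SpAsg Y j asgY →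
      ∀ G : MvPolynomial (Fin d ⊕ Fin d) ℂ, (G.totalDegree : ℝ) ≤ prfT D.B s t →
      ∀ a ∈ X.I, ∀ c ∈ Y.I, ∀ Γ ⊆ (X.π a).S ×ˢ (Y.π c).S,
        (∀ z ∈ Γ, eval (Sum.elim z.1 z.2) G = 0 ∧ ¬ PrfVanProd G (asgX z.1) (asgY z.2)) →
        (Γ.card : ℝ) ≤ ε * (X.π a).S.card * (Y.π c).S.card := by
  obtain ⟨Cn, hCn, H⟩ := prf_prod d
  have htb : t < b j := hpl.2.2 j le_rfl hj
  set γ : ℝ := (b j - t) / 4 with hγd
  have hγ : 0 < γ := by
    rw [hγd]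
    linarith
  obtain ⟨θ₁, hθ₁, hθ₁b⟩ : ∃ θ₁ : ℝ, 0 < θ₁ ∧ ∀ i < j, b i + θ₁ ≤ t := by
    rcases Nat.eq_zero_or_pos j with rfl | hj1
    · exact ⟨1, one_pos, fun i hi => absurd hi (Nat.not_lt_zero i)⟩
    · refine ⟨t - b (j - 1), by linarith [hpl.2.1 (j - 1) (by omega)], fun i hi => ?_⟩
      have := hb.mono i (j - 1) (by omega) (by omega)
      linarith
  obtain ⟨θ₂, hθ₂, hab2⟩ := spl_absorb (Cn : ℝ) γ hγ
  obtain ⟨θ₃, hθ₃, hab3⟩ := spl_absorb (8 * Cn / ε) γ hγ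
  have hd0 : (0 : ℝ) < 2 * d + 1 := by positivity
  refine ⟨min (min (ε / 4) (γ / (2 * d + 1))) (min θ₁ (min θ₂ θ₃)), by positivity, ?_⟩
  intro D X Y s h asgX asgY hasX hasY G hG a ha c hc Γ hΓ hz
  set θ : ℝ := min (min (ε / 4) (γ / (2 * d + 1))) (min θ₁ (min θ₂ θ₃)) with hθd
  have hθ : 0 < θ := by
    rw [hθd]
    positivity
  have hθε : θ ≤ ε / 4 := (min_le_left _ _).trans (min_le_left _ _)
  have hθγ' : θ ≤ γ / (2 * d + 1) := (min_le_left _ _).trans (min_le_right _ _)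
  have hθγ : (2 * d + 1) * θ ≤ γ := by
    rw [le_div_iff₀ hd0] at hθγ'
    linarith
  have hθ1 : θ ≤ θ₁ := (min_le_right _ _).trans (min_le_left _ _)
  have hθ2 : θ ≤ θ₂ := (min_le_right _ _).trans ((min_le_right _ _).trans (min_le_left _ _))
  have hθ3 : θ ≤ θ₃ := (min_le_right _ _).trans ((min_le_right _ _).trans (min_le_right _ _))
  have hθltγ : θ < γ := by
    have hdn : (1 : ℝ) ≤ d := by exact_mod_cast hd
    nlinarith [mul_le_mul_of_nonneg_right hdn hθ.le]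
  have hs := spl_s_pos hθ h.okX
  have hB := spl_B_pos hθ h.okX
  have habs2 : (Cn : ℝ) ≤ Real.exp (γ * s) := hab2 θ s hθ hθ2 h.okX.s_ge
  have habs3 : 8 * Cn / ε ≤ Real.exp (γ * s) := hab3 θ s hθ hθ3 h.okX.s_ge
  have hbj : b j ≤ 1 := (hb.mono j (d - 1) (by omega) (by omega)).trans hb.hi
  obtain ⟨t', ht'g, ht'1, ht'2⟩ := h.okX.grid.mesh (t + 2 * γ) (by linarith)
    (by have := h.okX.top_ge; rw [hγd]; linarith)
  have hp1 : ∀ i < j, b i + θ ≤ t' := fun i hi => by linarith [hθ₁b i hi]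
  have hp0 : ∀ i < j, b i + θ ≤ t := fun i hi => by linarith [hθ₁b i hi]
  have hp2 : ∀ i, j ≤ i → i < d → t' < b i - θ := fun i hi hid => by
    have := hb.mono j i hi hid
    have e : b j = t + 4 * γ := by rw [hγd]; ring
    linarith
  have hplX := spl_plateau h.okX ha hj.le hp1 hp2
  have hplY := spl_plateau h.okY hc hj.le hp1 hp2
  have hokY : (Y.π c).Ok D.B s θ X.grid := by
    rw [h.grid]
    exact h.okY.piece c hc
  have hT1 : 1 ≤ prfT D.B s t := spl_one_le_T hθ h.okX ht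
  have hL1 : 1 ≤ ⌊prfT D.B s t⌋₊ := Nat.le_floor (by simpa using hT1)
  have hLle : ((⌊prfT D.B s t⌋₊ : ℕ) : ℝ) ≤ prfT D.B s t := Nat.floor_le (by linarith)
  have hTT : prfT D.B s t * Real.exp (2 * γ * s) ≤ prfT D.B s t' := by
    rw [← spl_T_add]
    exact spl_T_mono hB.le hs.le ht'1
  have hcond : Cn * max ⌊prfT D.B s t⌋₊ ⌊prfT D.B s t⌋₊ ≤ ⌊prfT D.B s t'⌋₊ := by
    rw [max_self]
    refine Nat.le_floor ?_
    push_cast
    have h2 : Real.exp (γ * s) ≤ Real.exp (2 * γ * s) := Real.exp_le_exp.2 (by nlinarith)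
    calc (Cn : ℝ) * (⌊prfT D.B s t⌋₊ : ℝ) ≤ Real.exp (2 * γ * s) * prfT D.B s t :=
          mul_le_mul (habs2.trans h2) hLle (Nat.cast_nonneg _) (Real.exp_pos _).le
      _ ≤ prfT D.B s t' := by linarith
  have key := H (X.π a) (Y.π c) D.B s θ X.grid (h.okX.piece a ha) hokY j t' hj.le ht'g hplX hplY
    ⌊prfT D.B s t⌋₊ ⌊prfT D.B s t⌋₊ hL1 hL1 (spl_cut_deg hθ h.okX ha hj.le hp0) (spl_cut_deg hθ h.okY hc hj.le hp0)
    hcond asgX asgY (hasX a ha) (hasY c hc) G (Nat.le_floor hG) Γ hΓ hz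
  have eX := spl_prod_err hd hb hθ h.okX ha hj.le Cn ht hγ ht'1 hθγ hε habs3
  have eY := spl_prod_err hd hb hθ h.okY hc hj.le Cn ht hγ ht'1 hθγ hε habs3
  have hA0 : (0 : ℝ) ≤ (X.π a).S.card := Nat.cast_nonneg _
  have hC0 : (0 : ℝ) ≤ (Y.π c).S.card := Nat.cast_nonneg _
  refine key.trans ?_
  have k1 : (θ * (X.π a).S.card + ((Cn * max ⌊prfT D.B s t⌋₊ ⌊prfT D.B s t⌋₊ : ℕ) : ℝ) / (⌊prfT D.B s t'⌋₊ : ℝ)
      * (X.π a).degLo j * (X.π a).degHi j) ≤ ε / 2 * (X.π a).S.card := by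
    have := mul_le_mul_of_nonneg_right hθε hA0
    linarith
  have k2 : (θ * (Y.π c).S.card + ((Cn * max ⌊prfT D.B s t⌋₊ ⌊prfT D.B s t⌋₊ : ℕ) : ℝ) / (⌊prfT D.B s t'⌋₊ : ℝ)
      * (Y.π c).degLo j * (Y.π c).degHi j) ≤ ε / 2 * (Y.π c).S.card := by
    have := mul_le_mul_of_nonneg_right hθε hC0
    linarith
  have m1 := mul_le_mul_of_nonneg_right k1 hC0
  have m2 := mul_le_mul_of_nonneg_right k2 hA0
  calc _ ≤ ε / 2 * (X.π a).S.card * (Y.π c).S.card + ε / 2 * (Y.π c).S.card * (X.π a).S.card := add_le_add m1 m2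
    _ = ε * (X.π a).S.card * (Y.π c).S.card := by ring

/-- summation over the pairs of members -/
theorem spl_prod_sum {D : SpData d} {X Y : SpPool d} {s θ : ℝ} {b : ℕ → ℝ}
    (hX : X.Ok D s θ b) (hY : Y.Ok D s θ b) (ε : ℝ) (Γ : Finset (SpC d × SpC d))
    (hΓ : Γ ⊆ X.pts ×ˢ Y.pts)
    (h : ∀ a ∈ X.I, ∀ c ∈ Y.I, ((Γ ∩ ((X.π a).S ×ˢ (Y.π c).S)).card : ℝ) ≤
      ε * (X.π a).S.card * (Y.π c).S.card) :
    (Γ.card : ℝ) ≤ ε * X.pts.card * Y.pts.card := by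
  classical
  have h1 : Γ ⊆ (X.I ×ˢ Y.I).biUnion fun ac => Γ ∩ ((X.π ac.1).S ×ˢ (Y.π ac.2).S) := by
    intro z hz
    obtain ⟨hz1, hz2⟩ := Finset.mem_product.1 (hΓ hz)
    obtain ⟨a, ha, hza⟩ := Finset.mem_biUnion.1 hz1
    obtain ⟨c, hc, hzc⟩ := Finset.mem_biUnion.1 hz2
    exact Finset.mem_biUnion.2 ⟨(a, c), Finset.mem_product.2 ⟨ha, hc⟩,
      Finset.mem_inter.2 ⟨hz, Finset.mem_product.2 ⟨hza, hzc⟩⟩⟩
  have h2 : Γ.card ≤ ∑ ac ∈ X.I ×ˢ Y.I, (Γ ∩ ((X.π ac.1).S ×ˢ (Y.π ac.2).S)).card :=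
    (Finset.card_le_card h1).trans Finset.card_biUnion_le
  calc (Γ.card : ℝ) ≤ ∑ ac ∈ X.I ×ˢ Y.I, ((Γ ∩ ((X.π ac.1).S ×ˢ (Y.π ac.2).S)).card : ℝ) := by
        exact_mod_cast h2
    _ ≤ ∑ ac ∈ X.I ×ˢ Y.I, ε * (X.π ac.1).S.card * (Y.π ac.2).S.card :=
        Finset.sum_le_sum fun ac hac => h _ (Finset.mem_product.1 hac).1 _ (Finset.mem_product.1 hac).2
    _ = ε * X.pts.card * Y.pts.card := by
      rw [spl_pts_card hX, spl_pts_card hY, mul_assoc, Finset.sum_mul_sum, Finset.sum_product, Finset.mul_sum]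
      refine Finset.sum_congr rfl fun a _ => ?_
      rw [Finset.mul_sum]
      exact Finset.sum_congr rfl fun c _ => by ring

/-- the conclusion of (PROD) for fixed `b ε j t` -/
def SplProdAt (d : ℕ) (b : ℕ → ℝ) (ε : ℝ) (j : ℕ) (t : ℝ) : Prop :=
  ∃ θ : ℝ, 0 < θ ∧ ∀ (D : SpData d) (X Y : SpPool d) (s : ℝ), SpTwo D X Y s θ b →
    ∀ asgX asgY : SpC d → Ideal (PrfPol d), SpAsg X j asgX → SpAsg Y j asgY →
    ∀ 𝒢 : Set (MvPolynomial (Fin d ⊕ Fin d) ℂ), (∀ G ∈ 𝒢, (G.totalDegree : ℝ) ≤ prfT D.B s t) →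
    ∀ Γ ⊆ X.pts ×ˢ Y.pts,
      (∀ z ∈ Γ, (∀ G ∈ 𝒢, eval (Sum.elim z.1 z.2) G = 0) ∧
        ∃ G ∈ 𝒢, ¬ PrfVanProd G (asgX z.1) (asgY z.2)) →
      (Γ.card : ℝ) ≤ ε * X.pts.card * Y.pts.card

theorem spl_prod_main (hd : 1 ≤ d) {b : ℕ → ℝ} (hb : SpAdm d b) {ε : ℝ} (hε : 0 < ε) {j : ℕ}
    {t : ℝ} (hj : j < d) (ht : -1 ≤ t) (hpl : SpPlat d b j t) : SplProdAt d b ε j t := by
  classical
  obtain ⟨θ, hθ, H⟩ := spl_prod_pair hd hb hε hj ht hpl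
  refine ⟨θ, hθ, fun D X Y s h asgX asgY hasX hasY 𝒢 hdeg Γ hΓ hz => ?_⟩
  obtain ⟨G, hG1, hG2, hG3⟩ := spl_prod_generic 𝒢 ⌊prfT D.B s t⌋₊
    (fun G hG => Nat.le_floor (hdeg G hG)) (Γ.image fun z => (asgX z.1, asgY z.2)) (by
      intro w hw
      obtain ⟨z, hzΓ, rfl⟩ := Finset.mem_image.mp hw
      exact (hz z hzΓ).2)
  have hT : (0 : ℝ) ≤ prfT D.B s t := (mul_pos (spl_B_pos hθ h.okX) (Real.exp_pos _)).le
  have hGdeg : (G.totalDegree : ℝ) ≤ prfT D.B s t :=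
    le_trans (Nat.cast_le.mpr hG1) (Nat.floor_le hT)
  refine spl_prod_sum h.okX h.okY ε Γ hΓ fun a ha c hc => ?_
  refine H D X Y s h asgX asgY hasX hasY G hGdeg a ha c hc _ Finset.inter_subset_right ?_
  intro z hzm
  have hzΓ : z ∈ Γ := (Finset.mem_inter.mp hzm).1
  exact ⟨hG2 _ (hz z hzΓ).1, hG3 _ (Finset.mem_image_of_mem _ hzΓ)⟩

theorem spl_prod_top (hd : 1 ≤ d) (b : ℕ → ℝ) {ε : ℝ} (hε : 0 < ε) (t : ℝ) :
    SplProdAt d b ε d t := by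
  refine ⟨1, one_pos, fun D X Y s h asgX asgY hasX hasY 𝒢 hdeg Γ hΓ hz => ?_⟩
  have hemp : Γ = ∅ := by
    rw [Finset.eq_empty_iff_forall_notMem]
    intro z hzΓ
    obtain ⟨hz1, hz2⟩ := Finset.mem_product.1 (hΓ hzΓ)
    obtain ⟨a, ha, hza⟩ := Finset.mem_biUnion.1 hz1
    obtain ⟨c, hc, hzc⟩ := Finset.mem_biUnion.1 hz2
    obtain ⟨hall, G, hG, hn⟩ := hz z hzΓ
    apply hn
    have hX := (spl_carr_point (X.π a).f z.1 (fun i hi => (h.okX.piece a ha).path z.1 hza i hi) _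
      (hasX a ha z.1 hza)).1
    have hY := (spl_carr_point (Y.π c).f z.2 (fun i hi => (h.okY.piece c hc).path z.2 hzc i hi) _
      (hasY c hc z.2 hzc)).1
    intro x hx y hy
    rw [hX, Set.mem_singleton_iff] at hx
    rw [hY, Set.mem_singleton_iff] at hy
    rw [hx, hy]
    exact hall G hG
  rw [hemp, Finset.card_empty, Nat.cast_zero]
  positivity

theorem spl_prod_low (hd : 1 ≤ d) {b : ℕ → ℝ} (hb : SpAdm d b) {ε : ℝ} (hε : 0 < ε) {t : ℝ}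
    (ht : t < -1) : SplProdAt d b ε 0 t := by
  obtain ⟨θ, hθ, H⟩ := spl_low b hb ε hε
  refine ⟨θ, hθ, fun D X Y s h asgX asgY hasX hasY 𝒢 hdeg Γ hΓ hz => ?_⟩
  rcases Γ.eq_empty_or_nonempty with rfl | ⟨z₀, hz₀⟩
  · rw [Finset.card_empty, Nat.cast_zero]
    positivity
  obtain ⟨hall, G₀, hG₀, hn⟩ := hz z₀ hz₀
  have hG0 : G₀ ≠ 0 := by
    rintro rfl
    apply hn
    intro x _ y _
    simp
  have hB := spl_B_pos hθ h.okX
  have hs := spl_s_pos hθ h.okX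
  have hT : prfT D.B s t < prfT D.B s (-1) := by
    unfold prfT
    apply mul_lt_mul_of_pos_left _ hB
    apply Real.exp_lt_exp.2
    nlinarith
  by_cases h1 : 1 < prfT D.B s (-1)
  · exact H D X Y s h h1 G₀ hG0 ((hdeg G₀ hG₀).trans hT.le) Γ hΓ fun z hzΓ => (hz z hzΓ).1 G₀ hG₀
  · exfalso
    have hd0 : G₀.totalDegree = 0 := by
      have h2 : (G₀.totalDegree : ℝ) < 1 := lt_of_le_of_lt (hdeg G₀ hG₀) (lt_of_lt_of_le hT (not_lt.1 h1))
      have h3 : G₀.totalDegree < 1 := by exact_mod_cast h2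
      omega
    exact spl_deg_zero G₀ hG0 hd0 _ (hall G₀ hG₀)

theorem spl_prod (hd : 1 ≤ d) : SpProdStmt d := by
  intro b hb ε hε j t hpl
  show SplProdAt d b ε j t
  rcases Nat.lt_or_ge j d with hj | hj
  · rcases le_or_gt (-1) t with ht | ht
    · exact spl_prod_main hd hb hε hj ht hpl
    · have hj0 : j = 0 := by
        by_contra hne
        have h1 : b 0 < t := hpl.2.1 0 (Nat.pos_of_ne_zero hne)
        linarith [hb.lo]
      subst hj0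
      exact spl_prod_low hd hb hε ht
  · have : j = d := le_antisymm hpl.1 hj
    subst this
    exact spl_prod_top hd b hε t

/-! ### extras for the consumers -/

/-- every pool has an own-path assignment -/
theorem spl_asg_exists {D : SpData d} {X : SpPool d} {s θ : ℝ} {b : ℕ → ℝ} (hX : X.Ok D s θ b)
    {j : ℕ} (hj : j ≤ d) : ∃ asg : SpC d → Ideal (PrfPol d), SpAsg X j asg := by
  classical
  have hex : ∀ a ∈ X.I, ∀ x ∈ (X.π a).S, (prfCarr (prfSys (X.π a).f j) x).Nonempty := by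
    intro a ha x hx
    refine prf_carr_exists _ x ?_
    rintro g ⟨i, hi, rfl⟩
    exact ((hX.piece a ha).path x hx i (lt_of_lt_of_le hi hj)).1
  refine ⟨fun x => if h : ∃ a, a ∈ X.I ∧ x ∈ (X.π a).S then
    (hex h.choose h.choose_spec.1 x h.choose_spec.2).some else ⊥, ?_⟩
  intro a ha x hx
  have h : ∃ a, a ∈ X.I ∧ x ∈ (X.π a).S := ⟨a, ha, hx⟩
  have ea : h.choose = a := by
    by_contra hne
    exact Finset.disjoint_left.1 (hX.disj _ h.choose_spec.1 a ha hne) h.choose_spec.2 hx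
  simp only [dif_pos h]
  have key : ∀ a' (h1 : a' ∈ X.I) (h2 : x ∈ (X.π a').S), a' = a →
      (hex a' h1 x h2).some ∈ prfCarr (prfSys (X.π a).f j) x := by
    rintro a' h1 h2 rfl
    exact (hex a' h1 x h2).some_mem
  exact key _ h.choose_spec.1 h.choose_spec.2 ea

/-- carriers are primes of dimension `d - j` -/
theorem spl_carr_prime_dim {D : SpData d} {X : SpPool d} {s θ : ℝ} {b : ℕ → ℝ}
    (hX : X.Ok D s θ b) {j : ℕ} (hj : j ≤ d) {p : Ideal (PrfPol d)} (hp : p ∈ X.carriers j) :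
    p.IsPrime ∧ vdim (zeroLocus ℂ p) = d - j := by
  obtain ⟨a, ha, x, hx, hpx⟩ := hp
  exact ⟨prf_carr_prime hpx, (prf_pure (X.π a).f j x
    (fun i hi => (hX.piece a ha).path x hx i (lt_of_lt_of_le hi hj))).2 p hpx⟩

end Claimed.Agent.R273
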