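import Claimed.Agent.R273.SplBudget
import Claimed.Agent.R273.SplProd

/-!
# Row 273, SPARSE, unit S5L (chief helper161): `sp_lim : SpLimStmt d`.
All ten S5-limit statements of `SpLim.lean`, from the finite forms `Prf*.lean`; the leaves are in `SplBasic`, `SplBudget`, `SplReg`, `SplProd`.
-/

set_option autoImplicit false

namespace Claimed.Agent.R273

theorem sp_lim {d : ℕ} (hd : 1 ≤ d) : SpLimStmt d where
  adm := spl_adm hd
  deg := spl_deg hd
  mass := spl_mass hd
  rank := spl_rank hd
  indiv := spl_indiv hd
  regular := spl_reg hd
  unique := spl_unique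
  nonreal := spl_nonreal hd
  prod := spl_prod hd
  low := spl_low

end Claimed.Agent.R273
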