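import Claimed.Agent.R273.DepAG
import Claimed.Agent.R273.SplMain

/-!
# Row 273, S6c = depth.tex, "The first-cut bound": `R = D_1 = T_s(b_0)`, either orientation.  Architect helper177.  PACKAGE BP-DEP-FIRST: PROVED (helper183) from `dep_drop`, `dep_cone_bezout`, `dep_sub_dcone`, `sp_lim` (regular, mass), `prf_carriers_dim`; no new leaves.

PROOF (simpler than the paper's: no map degrees, no multiplicities).  `𝔠.Y.I = {a}`, `π = 𝔠.Y.π a`, `f = π.f`, `l = d - j`.  `j₁ := #{i < d | b_i = b_0} ≤ j` (the plateau after `j` cuts is nonempty), `b_{j₁-1} = b_0 < b_{j₁}`.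
 DELETIONS.  (D1) `(p, q)` with `vdim (dcone p Z(asg q)) ≠ l + 1`: for fixed `q`, `dep_drop` gives `g ≠ 0` of degree `≤ 1` vanishing at these `p`; `PrfPiece.Ok.low` of the SOURCE piece (`1 < T_v(-1) = B e^{-v}`, `v ≤ θ log B`): at most `θ |X|` centres.
  (D2) exceptional targets: `prf_regular` for `π` on the plateau after `j₁` cuts (two grid times in `(b_0 + θ, b_{j₁} - θ)`): equations `F` vanishing on all carriers after `j₁` cuts, Jacobian rank `≥ j₁ ≥ 1` at all `q ∈ π.S` outside a set `Exc`, `|Exc| ≤ (ρ/4) |Y|`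
   (error term of `prf_regular` + `prf_balance`, or the theta-form of SpLim).  Delete `X.pts × Exc`.
  (D3) `(p, q)`, `q ∉ Exc`, such that ALL `f_i`, `i < j₁`, vanish identically on `p + dcone p Z(asg q)`.  Then the line through `p` and `q` lies in `Zl (prfSys f j₁)`, hence (irreducible: `ph_isVar_subset_comp`) in a component through `q`, i.e. in `Z(𝔭)`, `𝔭 ∈ π.carriers j₁`;
   every `φ ∈ F` vanishes on the line, so `∇φ(q) · (p - q) = 0`; some `∇φ(q) ≠ 0`: `p` lies on a hyperplane depending on `q` only; `low` of the source piece again: `≤ θ |X|` centres for every `q`.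
 MASS.  Fix `p`, `𝒢`, `S'`.  For `W ∈ 𝒢` occurring as `dcone p Z(asg q)`, `q ∈ S'`: some `f_i`, `i < j₁`, does not vanish identically on `p + W`; all `Z(asg q')` with image `W` lie in `Z(f_i)` (`i < j₁ ≤ j`) and in `p + W` (`dep_sub_dcone`): `dep_cone_bezout`:
  `∑ vdeg ≤ deg f_i * vdeg W ≤ T_s(b_0 + θ) vdeg W`.  Then `prf_mass` and the arithmetic of `dep_stmt_of_depth` (DEP-M0b).
-/

set_option autoImplicit false

namespace Claimed.Agent.R273

open MvPolynomial Module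

variable {d : ℕ}

/-! ### elementary tools -/

/-- counting a set of pairs by its columns -/
theorem depf_card_cols {α β : Type*} [DecidableEq α] [DecidableEq β] (X : Finset α) (Y : Finset β)
    (Γ : Finset (α × β)) (hΓ : Γ ⊆ X ×ˢ Y) (c : ℝ)
    (h : ∀ q ∈ Y, ∀ T ⊆ X, (∀ p ∈ T, (p, q) ∈ Γ) → (T.card : ℝ) ≤ c) :
    (Γ.card : ℝ) ≤ c * Y.card := by
  classical
  have h1 : Γ.card = ∑ q ∈ Y, (Γ.filter fun z => z.2 = q).card :=
    Finset.card_eq_sum_card_fiberwise fun z hz => (Finset.mem_product.mp (hΓ hz)).2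
  have h2 : ∀ q ∈ Y, ((Γ.filter fun z => z.2 = q).card : ℝ) ≤ c := by
    intro q hq
    have e : (Γ.filter fun z => z.2 = q).card = ((Γ.filter fun z => z.2 = q).image Prod.fst).card := by
      rw [Finset.card_image_of_injOn]
      intro z hz z' hz' hzz
      have a1 := (Finset.mem_filter.mp (Finset.mem_coe.mp hz)).2
      have a2 := (Finset.mem_filter.mp (Finset.mem_coe.mp hz')).2
      exact Prod.ext hzz (a1.trans a2.symm)
    rw [e]
    refine h q hq _ ?_ ?_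
    · intro p hp
      obtain ⟨z, hz, rfl⟩ := Finset.mem_image.mp hp
      exact (Finset.mem_product.mp (hΓ (Finset.mem_filter.mp hz).1)).1
    · intro p hp
      obtain ⟨z, hz, rfl⟩ := Finset.mem_image.mp hp
      have a1 := Finset.mem_filter.mp hz
      have : (z.1, q) = z := Prod.ext rfl a1.2.symm
      rw [this]
      exact a1.1
  rw [h1]
  push_cast
  calc ∑ q ∈ Y, ((Γ.filter fun z => z.2 = q).card : ℝ) ≤ ∑ _q ∈ Y, c := Finset.sum_le_sum h2
    _ = c * Y.card := by rw [Finset.sum_const, nsmul_eq_mul, mul_comm]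

/-- restriction of a polynomial to the line `c ↦ q + c (p - q)` -/
noncomputable def depfLine (p q : SpC d) : PrfPol d →ₐ[ℂ] Polynomial ℂ :=
  aeval fun i => Polynomial.C (q i) + Polynomial.X * Polynomial.C (p i - q i)

theorem depf_line_eval (p q : SpC d) (f : PrfPol d) (c : ℂ) :
    (depfLine p q f).eval c = eval (q + c • (p - q)) f := by
  induction f using MvPolynomial.induction_on with
  | C a => simp [depfLine]
  | add f g hf hg => rw [map_add, Polynomial.eval_add, hf, hg, map_add]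
  | mul_X f i hf =>
    rw [map_mul, Polynomial.eval_mul, hf, map_mul]
    simp [depfLine]

theorem depf_line_eq_zero (p q : SpC d) (f : PrfPol d) (h : ∀ c : ℂ, eval (q + c • (p - q)) f = 0) :
    depfLine p q f = 0 := by
  apply Polynomial.funext
  intro c
  rw [depf_line_eval, h, Polynomial.eval_zero]

/-- a line in `Z(G)` lies in a local carrier at each of its points -/
theorem depf_line_carrier (G : Set (PrfPol d)) (p q : SpC d)
    (h : ∀ g ∈ G, ∀ c : ℂ, eval (q + c • (p - q)) g = 0) :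
    ∃ 𝔭 ∈ prfCarr G q, ∀ f ∈ 𝔭, ∀ c : ℂ, eval (q + c • (p - q)) f = 0 := by
  have hle : Ideal.span G ≤ RingHom.ker (depfLine p q).toRingHom :=
    Ideal.span_le.mpr fun g hg => depf_line_eq_zero p q g (h g hg)
  have : (RingHom.ker (depfLine p q).toRingHom).IsPrime := RingHom.ker_isPrime _
  obtain ⟨𝔭, h𝔭, hle'⟩ := Ideal.exists_minimalPrimes_le hle
  have key : ∀ f ∈ 𝔭, ∀ c : ℂ, eval (q + c • (p - q)) f = 0 := by
    intro f hf c
    have : depfLine p q f = 0 := hle' hf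
    rw [← depf_line_eval, this, Polynomial.eval_zero]
  refine ⟨𝔭, ⟨h𝔭, ?_⟩, key⟩
  rw [mem_zeroLocus_iff]
  intro f hf
  have := key f hf 0
  simpa using this

theorem depf_line_derivative (p q : SpC d) (f : PrfPol d) :
    (Polynomial.derivative (depfLine p q f)).eval 0 = ∑ i, prfGrad f q i * (p i - q i) := by
  induction f using MvPolynomial.induction_on with
  | C a => simp [depfLine, prfGrad]
  | add f g hf hg =>
    rw [map_add, map_add, Polynomial.eval_add, hf, hg, ← Finset.sum_add_distrib]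
    refine Finset.sum_congr rfl fun i _ => ?_
    simp [prfGrad, add_mul]
  | mul_X f i hf =>
    rw [map_mul, Polynomial.derivative_mul, Polynomial.eval_add, Polynomial.eval_mul,
      Polynomial.eval_mul, hf, depf_line_eval, depf_line_eval]
    have e1 : Polynomial.eval 0 (Polynomial.derivative (depfLine p q (X i))) = p i - q i := by
      simp [depfLine]
    rw [e1]
    simp only [zero_smul, add_zero, eval_X, prfGrad, Derivation.leibniz, smul_eq_mul, map_add, map_mul,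
      pderiv_X, eval_X]
    rw [Finset.sum_mul]
    simp only [add_mul, Finset.sum_add_distrib]
    rw [add_comm]
    congr 1
    · rw [Finset.sum_eq_single i]
      · simp
      · intro x _ hx
        simp [hx.symm]
      · simp
    · exact Finset.sum_congr rfl fun x _ => by ring

theorem depf_line_grad (φ : PrfPol d) (p q : SpC d) (h : ∀ c : ℂ, eval (q + c • (p - q)) φ = 0) :
    ∑ i, prfGrad φ q i * (p i - q i) = 0 := by
  rw [← depf_line_derivative, depf_line_eq_zero p q φ h]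
  simp

/-- the affine form `x ↦ ∑ a_i (x_i - q_i)` -/
noncomputable def depfAff (a q : SpC d) : PrfPol d := ∑ i, C (a i) * (X i - C (q i))

theorem depfAff_eval (a q x : SpC d) : eval x (depfAff a q) = ∑ i, a i * (x i - q i) := by
  simp [depfAff]

theorem depfAff_degree (a q : SpC d) : (depfAff a q).totalDegree ≤ 1 := by
  unfold depfAff
  refine totalDegree_finsetSum_le fun i _ => ?_
  refine (totalDegree_mul _ _).trans ?_
  rw [totalDegree_C, zero_add]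
  refine (totalDegree_sub _ _).trans ?_
  simp

theorem depfAff_ne_zero {a : SpC d} (ha : a ≠ 0) (q : SpC d) : depfAff a q ≠ 0 := by
  intro h
  apply ha
  funext i
  have h1 := depfAff_eval a q (q + Pi.single i 1)
  rw [h, map_zero] at h1
  rw [Finset.sum_eq_single i] at h1
  · simpa using h1.symm
  · intro x _ hx
    simp [hx]
  · simp

theorem depf_exists_grad (F : Set (PrfPol d)) (q : SpC d) (h : 1 ≤ prfJacRk F q) :
    ∃ φ ∈ F, prfGrad φ q ≠ 0 := by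
  by_contra hcon
  push Not at hcon
  have : Submodule.span ℂ ((fun f => prfGrad f q) '' F) = ⊥ := by
    rw [Submodule.span_eq_bot]
    rintro _ ⟨f, hf, rfl⟩
    exact hcon f hf
  rw [prfJacRk, this, finrank_bot] at h
  omega

/-! ### the frame -/

theorem depf_B {𝔠 : SpCfg d} {b : ℕ → ℝ} {α θ : ℝ} (hok : 𝔠.Ok b α θ) (h0 : 0 < θ) :
    0 < 𝔠.s ∧ 0 < Real.log 𝔠.D.B ∧ 1 < 𝔠.D.B := by
  have hs : 0 < 𝔠.s := lt_of_lt_of_le (by positivity) hok.okY.s_ge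
  have hl : 0 < Real.log 𝔠.D.B := lt_of_lt_of_le hs hok.okY.s_le
  refine ⟨hs, hl, ?_⟩
  by_contra hcon
  push Not at hcon
  have hB0 : 0 ≤ 𝔠.D.B := by
    unfold SpData.B SpData.N
    positivity
  linarith [Real.log_nonpos hB0 hcon]

theorem depf_ptsX {𝔠 : SpCfg d} {θ : ℝ} (hsep : 𝔠.Sep θ) :
    ∃ a, 𝔠.X.I = {a} ∧ 𝔠.X.pts = (𝔠.X.π a).S := by
  obtain ⟨a, ha⟩ := hsep.2.2.2.1
  exact ⟨a, ha, by rw [SpPool.pts, ha, Finset.singleton_biUnion]⟩

theorem depf_ptsY {𝔠 : SpCfg d} {θ : ℝ} (hsep : 𝔠.Sep θ) :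
    ∃ a, 𝔠.Y.I = {a} ∧ 𝔠.Y.pts = (𝔠.Y.π a).S := by
  obtain ⟨a, ha⟩ := hsep.2.2.2.2
  exact ⟨a, ha, by rw [SpPool.pts, ha, Finset.singleton_biUnion]⟩

/-- hyperplanes capture few centres (`PrfPiece.Ok.low` of the source piece) -/
theorem depf_low {𝔠 : SpCfg d} {b : ℕ → ℝ} {α θ : ℝ} (hok : 𝔠.Ok b α θ) (hsep : 𝔠.Sep θ)
    (h0 : 0 < θ) (hθ : θ ≤ 1 / 2) (g : PrfPol d) (hg : g ≠ 0) (hdeg : g.totalDegree ≤ 1)
    (T : Finset (SpC d)) (hT : T ⊆ 𝔠.X.pts) (hz : ∀ x ∈ T, eval x g = 0) :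
    (T.card : ℝ) ≤ θ * 𝔠.X.pts.card := by
  obtain ⟨a, ha, hpts⟩ := depf_ptsX hsep
  obtain ⟨-, hl, hB⟩ := depf_B hok h0
  have hpiece := hok.okX.piece a (by rw [ha]; exact Finset.mem_singleton_self a)
  have hv : 𝔠.v < Real.log 𝔠.D.B := by
    have := hsep.2.1
    nlinarith
  have hexp : Real.exp 𝔠.v < 𝔠.D.B := (Real.lt_log_iff_exp_lt (by linarith)).1 hv
  have h1 : 1 < prfT 𝔠.D.B 𝔠.v (-1) := by
    unfold prfT
    have e : Real.exp 𝔠.v * Real.exp (-1 * 𝔠.v) = 1 := by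
      rw [← Real.exp_add]; simp
    calc (1 : ℝ) = Real.exp 𝔠.v * Real.exp (-1 * 𝔠.v) := e.symm
      _ < 𝔠.D.B * Real.exp (-1 * 𝔠.v) := mul_lt_mul_of_pos_right hexp (Real.exp_pos _)
  rw [hpts] at hT ⊢
  refine hpiece.low h1 g hg ?_ T hT hz
  have : (g.totalDegree : ℝ) ≤ 1 := by exact_mod_cast hdeg
  linarith

theorem depf_prfT_mono {B s t t' : ℝ} (hB : 0 ≤ B) (hs : 0 ≤ s) (h : t ≤ t') : prfT B s t ≤ prfT B s t' := by
  unfold prfT
  exact mul_le_mul_of_nonneg_left (Real.exp_le_exp.2 (mul_le_mul_of_nonneg_right h hs)) hB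

theorem depf_spE_pos {B s : ℝ} (hB : 0 < B) (b : ℕ → ℝ) (j : ℕ) : 0 < spE B s b j := by
  unfold spE spD prfT
  exact Finset.prod_pos fun i _ => mul_pos hB (Real.exp_pos _)

theorem depf_prime_inj {p q : Ideal (PrfPol d)} (hp : p.IsPrime) (hq : q.IsPrime)
    (h : zeroLocus ℂ p = zeroLocus ℂ q) : p = q := by
  rw [← IsPrime.vanishingIdeal_zeroLocus (K := ℂ) p, ← IsPrime.vanishingIdeal_zeroLocus (K := ℂ) q, h]

theorem depf_asg {Y : SpPool d} {D : SpData d} {s θ : ℝ} {b : ℕ → ℝ} (hY : Y.Ok D s θ b) {j : ℕ} (hj : j ≤ d)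
    {asg : SpC d → Ideal (PrfPol d)} (hasg : ScAsg Y j asg) {q : SpC d} (hq : q ∈ Y.pts) :
    ∃ a ∈ Y.I, q ∈ (Y.π a).S ∧ asg q ∈ (Y.π a).carriers j ∧ (asg q).IsPrime ∧
      vdim (zeroLocus ℂ (asg q)) = d - j ∧ q ∈ zeroLocus ℂ (asg q) := by
  obtain ⟨a, ha, hqa⟩ := Finset.mem_biUnion.mp hq
  have h1 := hasg a ha q hqa
  have h2 : asg q ∈ (Y.π a).carriers j := ⟨q, hqa, h1⟩
  have h3 := prf_carriers_dim (Y.π a) (hY.piece a ha).path j hj h2
  exact ⟨a, ha, hqa, h2, h3.1, h3.2, h1.2⟩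

/-- (D1) the centres from which the projection of one target carrier drops dimension -/
theorem depf_col_drop {𝔠 : SpCfg d} {b : ℕ → ℝ} {α θ : ℝ} (hok : 𝔠.Ok b α θ) (hsep : 𝔠.Sep θ)
    (h0 : 0 < θ) (hθ : θ ≤ 1 / 2) {j : ℕ} (hj1 : 1 ≤ j) (hjd : j < d)
    {asg : SpC d → Ideal (PrfPol d)} (hasg : ScAsg 𝔠.Y j asg) {q : SpC d} (hq : q ∈ 𝔠.Y.pts)
    (T : Finset (SpC d)) (hT : T ⊆ 𝔠.X.pts)
    (h : ∀ p ∈ T, vdim (dcone p (zeroLocus ℂ (asg q))) ≠ d - j + 1) :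
    (T.card : ℝ) ≤ θ * 𝔠.X.pts.card := by
  obtain ⟨a, -, -, -, hprime, hdim, -⟩ := depf_asg hok.okY hjd.le hasg hq
  obtain ⟨g, hg, hdeg, hz⟩ := dep_drop (zeroLocus ℂ (asg q)) ⟨_, hprime, rfl⟩ (by rw [hdim]; omega)
  exact depf_low hok hsep h0 hθ g hg hdeg T hT fun p hp => hz p (by rw [hdim]; exact h p hp)

/-- (D3) the centres whose line to a regular target point lies in the zero set of the first `j₁` cuts -/
theorem depf_col_line {𝔠 : SpCfg d} {b : ℕ → ℝ} {α θ : ℝ} (hok : 𝔠.Ok b α θ) (hsep : 𝔠.Sep θ)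
    (h0 : 0 < θ) (hθ : θ ≤ 1 / 2) (π : PrfPiece d) (j₁ : ℕ) (F : Set (PrfPol d))
    (hF : ∀ f ∈ F, ∀ 𝔭 ∈ π.carriers j₁, f ∈ 𝔭) {q : SpC d} (hq : q ∈ π.S) (hrk : 1 ≤ prfJacRk F q)
    (T : Finset (SpC d)) (hT : T ⊆ 𝔠.X.pts)
    (h : ∀ p ∈ T, ∀ i < j₁, ∀ c : ℂ, eval (q + c • (p - q)) (π.f i) = 0) :
    (T.card : ℝ) ≤ θ * 𝔠.X.pts.card := by
  obtain ⟨φ, hφ, hgrad⟩ := depf_exists_grad F q hrk
  refine depf_low hok hsep h0 hθ (depfAff (prfGrad φ q) q) (depfAff_ne_zero hgrad q)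
    (depfAff_degree _ _) T hT fun p hp => ?_
  obtain ⟨𝔭, h𝔭, hline⟩ := depf_line_carrier (prfSys π.f j₁) p q (by
    rintro g ⟨i, hi, rfl⟩ c
    exact h p hp i hi c)
  rw [depfAff_eval]
  exact depf_line_grad φ p q (hline φ (hF φ hφ 𝔭 ⟨q, hq, h𝔭⟩))

/-- BEZOUT ON THE CONES: total degree of the carriers whose projected image lies in `𝒢` -/
theorem depf_deg (π : PrfPiece d) (hπ : π.Path) {j j₁ : ℕ} (hj : j ≤ d) (hj₁ : j₁ ≤ j)
    (asg : SpC d → Ideal (PrfPol d)) (hasg : ∀ y ∈ π.S, asg y ∈ prfCarr (prfSys π.f j) y) (p : SpC d)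
    (Dm : ℝ) (hDm0 : 0 ≤ Dm) (hDm : ∀ i < j₁, ((π.f i).totalDegree : ℝ) ≤ Dm)
    (𝒢 : Finset (Set (SpC d))) (h𝒢 : ∀ W ∈ 𝒢, IsVar W ∧ vdim W = d - j + 1)
    (S' : Finset (SpC d)) (hS' : S' ⊆ π.S) (hG : ∀ q ∈ S', dcone p (zeroLocus ℂ (asg q)) ∈ 𝒢)
    (hne : ∀ q ∈ S', ∃ i < j₁, ∃ w ∈ dcone p (zeroLocus ℂ (asg q)), eval (p + w) (π.f i) ≠ 0) :
    (prfDeg (S'.image asg) : ℝ) ≤ Dm * ((∑ W ∈ 𝒢, vdeg W : ℕ) : ℝ) := by
  classical
  set 𝒜 := S'.image asg with h𝒜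
  have hmem : ∀ 𝔶 ∈ 𝒜, ∃ q ∈ S', asg q = 𝔶 := fun 𝔶 h => by
    obtain ⟨q, hq, e⟩ := Finset.mem_image.mp h
    exact ⟨q, hq, e⟩
  have hmaps : ∀ 𝔶 ∈ 𝒜, dcone p (zeroLocus ℂ 𝔶) ∈ 𝒢 := by
    intro 𝔶 h
    obtain ⟨q, hq, rfl⟩ := hmem 𝔶 h
    exact hG q hq
  have hsplit : prfDeg 𝒜 =
      ∑ W ∈ 𝒢, ∑ 𝔶 ∈ 𝒜.filter (fun 𝔶 => dcone p (zeroLocus ℂ 𝔶) = W), vdeg (zeroLocus ℂ 𝔶) :=
    (Finset.sum_fiberwise_of_maps_to hmaps _).symm
  have hW : ∀ W ∈ 𝒢,
      ((∑ 𝔶 ∈ 𝒜.filter (fun 𝔶 => dcone p (zeroLocus ℂ 𝔶) = W), vdeg (zeroLocus ℂ 𝔶) : ℕ) : ℝ)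
        ≤ Dm * (vdeg W : ℝ) := by
    intro W hWG
    rcases (𝒜.filter (fun 𝔶 => dcone p (zeroLocus ℂ 𝔶) = W)).eq_empty_or_nonempty with he | ⟨𝔶₀, h𝔶₀⟩
    · rw [he]
      simp only [Finset.sum_empty, Nat.cast_zero]
      positivity
    · obtain ⟨h1, h2⟩ := Finset.mem_filter.mp h𝔶₀
      obtain ⟨q₀, hq₀, rfl⟩ := hmem 𝔶₀ h1
      obtain ⟨i, hi, w, hw, hwne⟩ := hne q₀ hq₀
      rw [h2] at hw
      have hprime : ∀ 𝔶 ∈ 𝒜, 𝔶.IsPrime ∧ vdim (zeroLocus ℂ 𝔶) = d - j ∧ π.f i ∈ 𝔶 := by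
        intro 𝔶 h
        obtain ⟨q, hq, rfl⟩ := hmem 𝔶 h
        have hc := hasg q (hS' hq)
        have h3 := prf_carriers_dim π hπ j hj ⟨q, hS' hq, hc⟩
        refine ⟨h3.1, h3.2, hc.1.1.2 (Ideal.subset_span ⟨i, ?_, rfl⟩)⟩
        exact lt_of_lt_of_le hi hj₁
      have hbez := dep_cone_bezout p (π.f i) W (h𝒢 W hWG).1 (d - j) (h𝒢 W hWG).2 ⟨w, hw, hwne⟩
        ((𝒜.filter (fun 𝔶 => dcone p (zeroLocus ℂ 𝔶) = W)).image (fun 𝔶 => zeroLocus ℂ 𝔶)) (by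
          intro Y hY
          obtain ⟨𝔶, h𝔶, rfl⟩ := Finset.mem_image.mp hY
          obtain ⟨h4, h5⟩ := Finset.mem_filter.mp h𝔶
          obtain ⟨h6, h7, h8⟩ := hprime 𝔶 h4
          refine ⟨⟨𝔶, h6, rfl⟩, h7, fun y hy => ⟨?_, ?_⟩⟩
          · exact (mem_zeroLocus_iff.mp hy) _ h8
          · have := dep_sub_dcone p (zeroLocus ℂ 𝔶) hy 1
            rwa [one_smul, h5] at this)
      rw [Finset.sum_image] at hbez
      · calc ((∑ 𝔶 ∈ 𝒜.filter (fun 𝔶 => dcone p (zeroLocus ℂ 𝔶) = W), vdeg (zeroLocus ℂ 𝔶) : ℕ) : ℝ)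
            ≤ (((π.f i).totalDegree * vdeg W : ℕ) : ℝ) := by exact_mod_cast hbez
          _ = ((π.f i).totalDegree : ℝ) * (vdeg W : ℝ) := by push_cast; ring
          _ ≤ Dm * (vdeg W : ℝ) := mul_le_mul_of_nonneg_right (hDm i hi) (Nat.cast_nonneg _)
      · intro 𝔶 h𝔶 𝔶' h𝔶' e
        exact depf_prime_inj (hprime 𝔶 (Finset.mem_filter.mp h𝔶).1).1
          (hprime 𝔶' (Finset.mem_filter.mp h𝔶').1).1 e
  rw [hsplit]
  push_cast
  rw [Finset.mul_sum]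
  refine Finset.sum_le_sum fun W hWG => ?_
  have := hW W hWG
  push_cast at this
  exact this

theorem depf_num {S A T0 V N E Yc θ ε s : ℝ} (hmass : S ≤ A * (N / E) * Real.exp (ε / 2 * s))
    (hdeg : A ≤ T0 * Real.exp (θ * s) * V) (hA : 0 ≤ A) (hN0 : 0 ≤ N)
    (hsize : N * Real.exp (-(θ * s)) ≤ Yc) (hE : 0 < E) (hs : 0 ≤ s) (hθ : θ ≤ ε / 4) :
    S ≤ T0 / E * Real.exp (ε * s) * V * Yc := by
  have e2 : N ≤ Yc * Real.exp (θ * s) := by
    have h1 : N = N * Real.exp (-(θ * s)) * Real.exp (θ * s) := by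
      rw [mul_assoc, ← Real.exp_add]; simp
    rw [h1]
    exact mul_le_mul_of_nonneg_right hsize (Real.exp_pos _).le
  have e3 : Real.exp (θ * s) * Real.exp (θ * s) * Real.exp (ε / 2 * s) ≤ Real.exp (ε * s) := by
    rw [← Real.exp_add, ← Real.exp_add]
    apply Real.exp_le_exp.2
    nlinarith
  have hV : 0 ≤ T0 * Real.exp (θ * s) * V := hA.trans hdeg
  have hx := Real.exp_pos (θ * s)
  have hV' : 0 ≤ T0 * V := by
    by_contra hcon
    push Not at hcon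
    nlinarith
  have hYc : 0 ≤ Yc := le_trans (by positivity) hsize
  calc S ≤ A * (N / E) * Real.exp (ε / 2 * s) := hmass
    _ ≤ (T0 * Real.exp (θ * s) * V) * (N / E) * Real.exp (ε / 2 * s) := by gcongr
    _ ≤ (T0 * Real.exp (θ * s) * V) * (Yc * Real.exp (θ * s) / E) * Real.exp (ε / 2 * s) := by gcongr
    _ = (T0 * V) * Yc / E * (Real.exp (θ * s) * Real.exp (θ * s) * Real.exp (ε / 2 * s)) := by ring
    _ ≤ (T0 * V) * Yc / E * Real.exp (ε * s) := by gcongr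
    _ = T0 / E * Real.exp (ε * s) * V * Yc := by ring

theorem dep_first (hd : 3 ≤ d) (wide : Bool) (b : ℕ → ℝ) (hb : SpAdm d b) (j : ℕ) (hj1 : 1 ≤ j)
    (hjd : j < d) (hpl : b (j - 1) < b j) : DepStmt d wide b j (b 0) := by
  classical
  intro ε ρ hε hρ
  -- the first plateau
  have hbj : b 0 < b j := lt_of_le_of_lt (hb.mono 0 (j - 1) (Nat.zero_le _) (by omega)) hpl
  have hex : ∃ i, b 0 < b i := ⟨j, hbj⟩
  obtain ⟨j₁, hj₁def⟩ : ∃ j₁, j₁ = Nat.find hex := ⟨_, rfl⟩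
  have hj₁ : b 0 < b j₁ := hj₁def ▸ Nat.find_spec hex
  have hj₁j : j₁ ≤ j := hj₁def ▸ Nat.find_min' hex hbj
  have hj₁1 : 1 ≤ j₁ := by
    by_contra hcon
    have : j₁ = 0 := by omega
    rw [this] at hj₁
    exact lt_irrefl _ hj₁
  have hlow : ∀ i < j₁, b i = b 0 := fun i hi =>
    le_antisymm (not_lt.1 (Nat.find_min hex (hj₁def ▸ hi))) (hb.mono 0 i (Nat.zero_le _) (by omega))
  have hplat : SpPlat d b j₁ ((b 0 + b j₁) / 2) :=
    ⟨by omega, fun i hi => by rw [hlow i hi]; linarith,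
      fun i hi hid => by have := hb.mono j₁ i hi hid; linarith⟩
  have hlim := sp_lim (d := d) (by omega)
  obtain ⟨θr, hθr, Hr⟩ := hlim.regular b hb (ρ / 4) (by positivity) j₁ _ hplat
  obtain ⟨θm, hθm, Hm⟩ := hlim.mass b hb (ε / 2) (by positivity)
  obtain ⟨θ, hθdef⟩ : ∃ θ, θ = min (min θr θm) (min (min (ρ / 4) (ε / 4)) (1 / 2)) := ⟨_, rfl⟩
  have hθ0 : 0 < θ := by
    rw [hθdef]
    exact lt_min (lt_min hθr hθm) (lt_min (lt_min (by positivity) (by positivity)) (by norm_num))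
  have hθ1 : θ ≤ θr := by rw [hθdef]; exact (min_le_left _ _).trans (min_le_left _ _)
  have hθ2 : θ ≤ θm := by rw [hθdef]; exact (min_le_left _ _).trans (min_le_right _ _)
  have hθ3 : θ ≤ ρ / 4 := by
    rw [hθdef]; exact (min_le_right _ _).trans ((min_le_left _ _).trans (min_le_left _ _))
  have hθ4 : θ ≤ ε / 4 := by
    rw [hθdef]; exact (min_le_right _ _).trans ((min_le_left _ _).trans (min_le_right _ _))
  have hθ5 : θ ≤ 1 / 2 := by rw [hθdef]; exact (min_le_right _ _).trans (min_le_right _ _)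
  refine ⟨θ, hθ0, ?_⟩
  intro 𝔠 α hok hsep _ asg hasg
  obtain ⟨hs, hlB, hB⟩ := depf_B hok hθ0
  obtain ⟨a, ha, hpts⟩ := depf_ptsY hsep
  have haI : a ∈ 𝔠.Y.I := by rw [ha]; exact Finset.mem_singleton_self a
  obtain ⟨π, hπdef⟩ : ∃ π, π = 𝔠.Y.π a := ⟨_, rfl⟩
  have hpiece : π.Ok 𝔠.D.B 𝔠.s θ 𝔠.Y.grid := hπdef ▸ hok.okY.piece a haI
  have hptsπ : 𝔠.Y.pts = π.S := hπdef ▸ hpts
  have hasgπ : ∀ y ∈ π.S, asg y ∈ prfCarr (prfSys π.f j) y := fun y hy =>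
    hπdef ▸ hasg a haI y (hπdef ▸ hy)
  obtain ⟨F, g, hF, -, hrk, -, hzY⟩ := Hr 𝔠.D 𝔠.Y 𝔠.Y 𝔠.s ((SpTwo.self hok.reg hok.okY).mono hθ0 hθ1)
  have hFπ : ∀ f ∈ (F : Set (PrfPol d)), ∀ 𝔭 ∈ π.carriers j₁, f ∈ 𝔭 := fun f hf 𝔭 h𝔭 =>
    (hF f hf).2 𝔭 (Or.inl ⟨a, haI, hπdef ▸ h𝔭⟩)
  -- the deletions
  set Xp := 𝔠.X.pts with hXp
  set Yp := 𝔠.Y.pts with hYp
  set D1 := (Xp ×ˢ Yp).filter fun z => vdim (dcone z.1 (zeroLocus ℂ (asg z.2))) ≠ d - j + 1 with hD1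
  set D2 := Xp ×ˢ (Yp.filter fun q => eval q g = 0) with hD2
  set D3 := (Xp ×ˢ Yp).filter fun z => eval z.2 g ≠ 0 ∧
    ∀ i < j₁, ∀ w ∈ dcone z.1 (zeroLocus ℂ (asg z.2)), eval (z.1 + w) (π.f i) = 0 with hD3
  have c1 : (D1.card : ℝ) ≤ θ * Xp.card * Yp.card :=
    depf_card_cols Xp Yp D1 (Finset.filter_subset _ _) _ fun q hq T hT h =>
      depf_col_drop hok hsep hθ0 hθ5 hj1 hjd hasg hq T hT fun p hp =>
        (Finset.mem_filter.mp (h p hp)).2
  have c2 : (D2.card : ℝ) ≤ ρ / 4 * Xp.card * Yp.card := by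
    rw [hD2, Finset.card_product]
    have := hzY (Yp.filter fun q => eval q g = 0) (Finset.filter_subset _ _)
      fun x hx => (Finset.mem_filter.mp hx).2
    push_cast
    have hX0 : (0 : ℝ) ≤ Xp.card := Nat.cast_nonneg _
    nlinarith
  have c3 : (D3.card : ℝ) ≤ θ * Xp.card * Yp.card :=
    depf_card_cols Xp Yp D3 (Finset.filter_subset _ _) _ fun q hq T hT h => by
      rcases T.eq_empty_or_nonempty with he | ⟨p₀, hp₀⟩
      · rw [he]
        simp only [Finset.card_empty, Nat.cast_zero]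
        positivity
      · have hq0 := (Finset.mem_filter.mp (h p₀ hp₀)).2.1
        refine depf_col_line hok hsep hθ0 hθ5 π j₁ F hFπ (hptsπ ▸ hq) (hj₁1.trans (hrk q hq0)) T hT ?_
        intro p hp i hi c
        have h1 := (Finset.mem_filter.mp (h p hp)).2.2 i hi ((1 - c) • (q - p))
          (dep_sub_dcone p _ (hasgπ q (hptsπ ▸ hq)).2 (1 - c))
        have e : p + (1 - c) • (q - p) = q + c • (p - q) := by
          funext k
          simp only [Pi.add_apply, Pi.smul_apply, Pi.sub_apply, smul_eq_mul]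
          ring
        rwa [e] at h1
  refine ⟨D1 ∪ D2 ∪ D3, ?_, ?_⟩
  · have h1 : ((D1 ∪ D2 ∪ D3).card : ℝ) ≤ D1.card + D2.card + D3.card := by
      have := (Finset.card_union_le (D1 ∪ D2) D3).trans
        (Nat.add_le_add_right (Finset.card_union_le D1 D2) _)
      exact_mod_cast this
    have hXY : (0 : ℝ) ≤ (Xp.card : ℝ) * Yp.card := by positivity
    nlinarith
  intro p hp
  refine ⟨?_, ?_⟩
  · intro q hq hdel
    by_contra hcon
    exact hdel (Finset.mem_union_left _ (Finset.mem_union_left _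
      (Finset.mem_filter.mpr ⟨Finset.mem_product.mpr ⟨hp, hq⟩, hcon⟩)))
  intro 𝒢 h𝒢 S' hS' hS'2
  -- the degree bound
  have hB0 : (0 : ℝ) ≤ 𝔠.D.B := by linarith
  have hdeg := depf_deg π hpiece.path hjd.le hj₁j asg hasgπ p (prfT 𝔠.D.B 𝔠.s (b 0 + θ))
    (by unfold prfT; positivity)
    (fun i hi => (hpiece.deg i (by omega)).trans (depf_prfT_mono hB0 hs.le (by
      have := abs_le.mp (hok.okY.prof a haI i (by omega))
      rw [← hπdef, hlow i hi] at this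
      linarith [this.2])))
    𝒢 h𝒢 S' (hptsπ ▸ hS') (fun q hq => (hS'2 q hq).2) (by
      intro q hq
      have hdel := (hS'2 q hq).1
      have hqY := hS' hq
      have h2 : eval q g ≠ 0 := fun h0 => hdel (Finset.mem_union_left _ (Finset.mem_union_right _
        (Finset.mem_product.mpr ⟨hp, Finset.mem_filter.mpr ⟨hqY, h0⟩⟩)))
      by_contra hcon
      push Not at hcon
      exact hdel (Finset.mem_union_right _
        (Finset.mem_filter.mpr ⟨Finset.mem_product.mpr ⟨hp, hqY⟩, h2, hcon⟩)))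
  have hmass := Hm 𝔠.D 𝔠.Y 𝔠.s (hok.reg.mono hθ2) (hok.okY.mono hθ0 hθ2) j hjd.le (S'.image asg) S' (by
    intro x hx
    have hxπ : x ∈ π.S := hptsπ ▸ hS' hx
    exact ⟨a, haI, hπdef ▸ hxπ, asg x, Finset.mem_image_of_mem _ hx,
      hπdef ▸ ⟨x, hxπ, hasgπ x hxπ⟩, (hasgπ x hxπ).2⟩)
  -- arithmetic
  have hsize : 𝔠.D.N * Real.exp (-(θ * 𝔠.s)) ≤ (Yp.card : ℝ) := by
    have := hok.okY.size a haI
    rwa [← hπdef, ← hptsπ] at this
  have hE := depf_spE_pos (s := 𝔠.s) (by linarith : (0 : ℝ) < 𝔠.D.B) b j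
  have e1 : prfT 𝔠.D.B 𝔠.s (b 0 + θ) = prfT 𝔠.D.B 𝔠.s (b 0) * Real.exp (θ * 𝔠.s) := by
    unfold prfT
    rw [add_mul, Real.exp_add]
    ring
  rw [e1] at hdeg
  exact depf_num hmass hdeg (Nat.cast_nonneg _) (by unfold SpData.N; positivity) hsize hE hs.le hθ4

end Claimed.Agent.R273
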