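import Claimed.Agent.R273.SpCom

/-! # S6A-NUM: numerics of the profile functions (no sorry) -/

set_option autoImplicit false

namespace Claimed.Agent.R273

open MvPolynomial Module

variable {d : ℕ}

theorem spn_T_pos {B : ℝ} (hB : 0 < B) (s u : ℝ) : 0 < prfT B s u := by
  unfold prfT; positivity

theorem spn_T_mono {B s u u' : ℝ} (hB : 0 < B) (hs : 0 ≤ s) (h : u ≤ u') :
    prfT B s u ≤ prfT B s u' := by
  unfold prfT
  exact mul_le_mul_of_nonneg_left (Real.exp_le_exp.mpr (mul_le_mul_of_nonneg_right h hs)) hB.le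

theorem spn_T_div {B : ℝ} (hB : 0 < B) (s u u' : ℝ) :
    prfT B s u / prfT B s u' = Real.exp ((u - u') * s) := by
  unfold prfT
  rw [mul_div_mul_left _ _ hB.ne', ← Real.exp_sub]
  congr 1; ring

theorem spn_sigma_plateau (b : ℕ → ℝ) (j : ℕ) (hj : j ≤ d) (u B s : ℝ) (hB : 0 < B) (hs : 0 ≤ s)
    (h1 : ∀ i < j, b i ≤ u) (h2 : ∀ i, j ≤ i → i < d → u ≤ b i) :
    spSigma d B s b u = spE B s b j * prfT B s u ^ (d - j) := by
  unfold spSigma spE
  rw [← Finset.prod_range_mul_prod_Ico _ hj]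
  congr 1
  · refine Finset.prod_congr rfl fun i hi => ?_
    exact min_eq_right (spn_T_mono hB hs (h1 i (Finset.mem_range.mp hi)))
  · rw [Finset.prod_congr rfl (g := fun _ => prfT B s u)]
    · simp
    · intro i hi
      obtain ⟨hi1, hi2⟩ := Finset.mem_Ico.mp hi
      exact min_eq_left (spn_T_mono hB hs (h2 i hi1 hi2))

theorem spn_E_top (b : ℕ → ℝ) (hb : SpAdm d b) (B s : ℝ) : spE B s b d = B ^ d := by
  unfold spE spD prfT
  rw [Finset.prod_mul_distrib, ← Real.exp_sum, ← Finset.sum_mul, hb.bal]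
  simp

theorem spn_D_pos {B : ℝ} (hB : 0 < B) (s : ℝ) (b : ℕ → ℝ) (i : ℕ) : 0 < spD B s b i :=
  spn_T_pos hB s _

theorem spn_sigma_pos {B : ℝ} (hB : 0 < B) (s : ℝ) (b : ℕ → ℝ) (t : ℝ) : 0 < spSigma d B s b t :=
  Finset.prod_pos fun i _ => lt_min (spn_T_pos hB s t) (spn_D_pos hB s b i)

theorem spn_E_pos {B : ℝ} (hB : 0 < B) (s : ℝ) (b : ℕ → ℝ) (j : ℕ) : 0 < spE B s b j :=
  Finset.prod_pos fun i _ => spn_D_pos hB s b i

theorem spn_sigma_growth (b : ℕ → ℝ) (j : ℕ) (hj : j ≤ d) (u β t B s : ℝ)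
    (hB : 0 < B) (hs : 0 ≤ s) (hu : u ≤ β) (hβ : β ≤ t) (h1 : ∀ i < j, b i ≤ β)
    (h2 : ∀ i, j ≤ i → i < d → t ≤ b i) :
    spSigma d B s b t ≤ spSigma d B s b u * (prfT B s t / prfT B s u) ^ (d - j) *
      Real.exp ((β - u) * s) ^ j := by
  have hTu := spn_T_pos hB s u
  have hTt := spn_T_pos hB s t
  set c := prfT B s t / prfT B s u with hc
  set E := Real.exp ((β - u) * s) with hE
  have hE1 : 1 ≤ E := Real.one_le_exp (mul_nonneg (by linarith) hs)
  have key : ∀ i ∈ Finset.range d, min (prfT B s t) (spD B s b i) ≤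
      min (prfT B s u) (spD B s b i) * (if i < j then E else c) := by
    intro i hi
    have hid := Finset.mem_range.mp hi
    have hDi := spn_D_pos hB s b i
    split_ifs with hij
    · -- i < j
      have hD : spD B s b i ≤ prfT B s β := spn_T_mono hB hs (h1 i hij)
      have hTβ : prfT B s β = prfT B s u * E := by
        rw [hE, ← spn_T_div hB s β u]; field_simp
      refine (min_le_right _ _).trans ?_
      rcases le_total (prfT B s u) (spD B s b i) with h | h
      · rw [min_eq_left h, ← hTβ]; exact hD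
      · rw [min_eq_right h]; nlinarith
    · -- j ≤ i
      have hti := h2 i (not_lt.mp hij) hid
      have h3 : prfT B s t ≤ spD B s b i := spn_T_mono hB hs hti
      have h4 : prfT B s u ≤ spD B s b i := (spn_T_mono hB hs (hu.trans hβ)).trans h3
      rw [min_eq_left h3, min_eq_left h4, hc]
      field_simp
      exact le_refl _
  have hprod : ∏ i ∈ Finset.range d, (if i < j then E else c) = c ^ (d - j) * E ^ j := by
    rw [← Finset.prod_range_mul_prod_Ico _ hj]
    rw [Finset.prod_congr rfl (g := fun _ => E), Finset.prod_congr rfl (s₁ := Finset.Ico j d) (g := fun _ => c)]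
    · simp [mul_comm]
    · intro i hi
      simp [not_lt.mpr (Finset.mem_Ico.mp hi).1]
    · intro i hi
      simp [Finset.mem_range.mp hi]
  calc spSigma d B s b t ≤ ∏ i ∈ Finset.range d,
        (min (prfT B s u) (spD B s b i) * (if i < j then E else c)) :=
        Finset.prod_le_prod (fun i _ => (lt_min hTt (spn_D_pos hB s b i)).le) key
    _ = spSigma d B s b u * c ^ (d - j) * E ^ j := by
        rw [Finset.prod_mul_distrib, hprod, ← mul_assoc]; rfl

theorem spn_rk_growth (b : ℕ → ℝ) (j : ℕ) (hj : j ≤ d) (u β t B s : ℝ)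
    (hB : 0 < B) (hs : 0 ≤ s) (hu : u ≤ β) (hβ : β ≤ t) (h1 : ∀ i < j, b i ≤ β)
    (h2 : ∀ i, j ≤ i → i < d → t ≤ b i) :
    spRk d B s b t ≤ spRk d B s b u * (prfT B s t / prfT B s u) ^ (2 * (d - j) + 2) *
      Real.exp (2 * d * (β - u) * s) := by
  have hTu := spn_T_pos hB s u
  have hTt := spn_T_pos hB s t
  have hσ := spn_sigma_growth b j hj u β t B s hB hs hu hβ h1 h2
  set c := prfT B s t / prfT B s u with hc
  set E := Real.exp ((β - u) * s) with hE
  have hE1 : 1 ≤ E := Real.one_le_exp (mul_nonneg (by linarith) hs)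
  have hc1 : 1 ≤ c := by
    rw [hc, one_le_div hTu]; exact spn_T_mono hB hs (hu.trans hβ)
  have hTtc : prfT B s t = c * prfT B s u := by rw [hc]; field_simp
  set Q := spD B s b 0 * spD B s b 1 with hQ
  have hQpos : 0 < Q := mul_pos (spn_D_pos hB s b 0) (spn_D_pos hB s b 1)
  have hmin : min 1 (prfT B s t / Q) ≤ c * min 1 (prfT B s u / Q) := by
    have hx : 0 ≤ prfT B s u / Q := (div_pos hTu hQpos).le
    rw [hTtc, mul_div_assoc]
    rcases le_total 1 (prfT B s u / Q) with h | h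
    · rw [min_eq_left h]; exact (min_le_left _ _).trans (by linarith)
    · rw [min_eq_right h]; exact min_le_right _ _
  have hEd : E ^ (2 * j) ≤ Real.exp (2 * d * (β - u) * s) := by
    rw [hE, ← Real.exp_nat_mul]
    apply Real.exp_le_exp.mpr
    have h5 : (j : ℝ) ≤ d := by exact_mod_cast hj
    have h6 : 0 ≤ (β - u) * s := mul_nonneg (by linarith) hs
    push_cast
    nlinarith
  have hσu := spn_sigma_pos (d := d) hB s b u
  have hσt := spn_sigma_pos (d := d) hB s b t
  have hmin0 : 0 ≤ min 1 (prfT B s u / Q) := le_min zero_le_one (div_pos hTu hQpos).le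
  have hmin0' : 0 ≤ min 1 (prfT B s t / Q) := le_min zero_le_one (div_pos hTt hQpos).le
  unfold spRk
  calc spSigma d B s b t ^ 2 * prfT B s t * min 1 (prfT B s t / Q)
      ≤ (spSigma d B s b u * c ^ (d - j) * E ^ j) ^ 2 * (c * prfT B s u) *
          (c * min 1 (prfT B s u / Q)) := by
        rw [← hTtc]
        gcongr
    _ = spSigma d B s b u ^ 2 * prfT B s u * min 1 (prfT B s u / Q) * c ^ (2 * (d - j) + 2) *
          E ^ (2 * j) := by ring
    _ ≤ spSigma d B s b u ^ 2 * prfT B s u * min 1 (prfT B s u / Q) * c ^ (2 * (d - j) + 2) *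
          Real.exp (2 * d * (β - u) * s) := by
        gcongr

theorem spn_rk_le (b : ℕ → ℝ) (j : ℕ) (hj : j ≤ d) (t B s : ℝ) (hB : 0 < B)
    (hs : 0 ≤ s) (h1 : ∀ i < j, b i ≤ t) (h2 : ∀ i, j ≤ i → i < d → t ≤ b i) :
    spRk d B s b t ≤ spE B s b j ^ 2 * prfT B s t ^ (2 * (d - j) + 1) := by
  have hT := spn_T_pos hB s t
  have hE := spn_E_pos hB s b j
  unfold spRk
  rw [spn_sigma_plateau b j hj t B s hB hs h1 h2]
  calc (spE B s b j * prfT B s t ^ (d - j)) ^ 2 * prfT B s t *
        min 1 (prfT B s t / (spD B s b 0 * spD B s b 1))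
      ≤ (spE B s b j * prfT B s t ^ (d - j)) ^ 2 * prfT B s t * 1 := by
        gcongr
        exact min_le_left _ _
    _ = spE B s b j ^ 2 * prfT B s t ^ (2 * (d - j) + 1) := by ring

theorem spn_rk_le_one (hd : 3 ≤ d) (b : ℕ → ℝ) (hb : SpAdm d b) (t B s : ℝ) (hB : 0 < B)
    (hs : 0 ≤ s) (h1 : b 0 ≤ t) (h2 : t ≤ b 1) :
    spRk d B s b t ≤ spE B s b 1 * prfT B s t ^ (2 * d - 1) := by
  have hT := spn_T_pos hB s t
  have hD0 := spn_D_pos hB s b 0
  have hD1 := spn_D_pos hB s b 1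
  have hσ : spSigma d B s b t = spE B s b 1 * prfT B s t ^ (d - 1) :=
    spn_sigma_plateau b 1 (by omega) t B s hB hs (fun i hi => by
      have : i = 0 := by omega
      subst this; exact h1) (fun i hi hid => h2.trans (hb.mono 1 i hi hid))
  have hE1 : spE B s b 1 = spD B s b 0 := by simp [spE]
  have hTD : prfT B s t ≤ spD B s b 1 := spn_T_mono hB hs h2
  unfold spRk
  rw [hσ, hE1]
  have h2d : 2 * d - 1 = 2 * (d - 1) + 1 := by omega
  calc (spD B s b 0 * prfT B s t ^ (d - 1)) ^ 2 * prfT B s t *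
        min 1 (prfT B s t / (spD B s b 0 * spD B s b 1))
      ≤ (spD B s b 0 * prfT B s t ^ (d - 1)) ^ 2 * prfT B s t *
        (prfT B s t / (spD B s b 0 * spD B s b 1)) := by
        gcongr
        exact min_le_right _ _
    _ = spD B s b 0 * prfT B s t ^ (2 * d - 1) * (prfT B s t / spD B s b 1) := by
        rw [h2d]; field_simp; ring
    _ ≤ spD B s b 0 * prfT B s t ^ (2 * d - 1) * 1 := by
        gcongr
        exact (div_le_one hD1).mpr hTD
    _ = spD B s b 0 * prfT B s t ^ (2 * d - 1) := by ring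

theorem spn_rk_le_zero (hd : 3 ≤ d) (b : ℕ → ℝ) (hb : SpAdm d b) (t B s : ℝ) (hB : 0 < B)
    (hs : 0 ≤ s) (h2 : t ≤ b 0) : spRk d B s b t ≤ prfT B s t ^ (2 * d) := by
  have hT := spn_T_pos hB s t
  have hD0 := spn_D_pos hB s b 0
  have hD1 := spn_D_pos hB s b 1
  have hσ : spSigma d B s b t = spE B s b 0 * prfT B s t ^ (d - 0) :=
    spn_sigma_plateau b 0 (by omega) t B s hB hs (fun i hi => by omega)
      (fun i hi hid => h2.trans (hb.mono 0 i hi hid))
  have hE0 : spE B s b 0 = 1 := by simp [spE]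
  have hTD0 : prfT B s t ≤ spD B s b 0 := spn_T_mono hB hs h2
  have hTD1 : prfT B s t ≤ spD B s b 1 :=
    spn_T_mono hB hs (h2.trans (hb.mono 0 1 (by omega) (by omega)))
  unfold spRk
  rw [hσ, hE0]
  calc (1 * prfT B s t ^ (d - 0)) ^ 2 * prfT B s t *
        min 1 (prfT B s t / (spD B s b 0 * spD B s b 1))
      ≤ (1 * prfT B s t ^ (d - 0)) ^ 2 * prfT B s t *
        (prfT B s t / (spD B s b 0 * spD B s b 1)) := by
        gcongr
        exact min_le_right _ _
    _ = prfT B s t ^ (2 * d) * ((prfT B s t / spD B s b 0) * (prfT B s t / spD B s b 1)) := by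
        simp only [Nat.sub_zero]; field_simp; ring
    _ ≤ prfT B s t ^ (2 * d) * (1 * 1) := by
        gcongr
        · exact (div_le_one hD0).mpr hTD0
        · exact (div_le_one hD1).mpr hTD1
    _ = prfT B s t ^ (2 * d) := by ring

theorem spn_adm_margins (hd : 3 ≤ d) (b : ℕ → ℝ) (hb : SpAdm d b) :
    b 0 + b 1 < 0 ∧ b 0 < 0 ∧ 0 < b (d - 1) := by
  have hsum : ∑ i ∈ Finset.range d, b i = b 0 + b 1 + ∑ i ∈ Finset.Ico 2 d, b i := by
    rw [← Finset.sum_range_add_sum_Ico b (show 2 ≤ d by omega)]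
    simp [Finset.sum_range_succ]
  have hbal := hb.bal
  have h01 : b 0 ≤ b 1 := hb.mono 0 1 (by omega) (by omega)
  have hlast : ∀ i, i < d → b i ≤ b (d - 1) := fun i hi => hb.mono i (d - 1) (by omega) (by omega)
  have hfirst : ∀ i, i < d → b 0 ≤ b i := fun i hi => hb.mono 0 i (by omega) hi
  -- b 0 < 0
  have h0 : b 0 < 0 := by
    by_contra hcon
    push Not at hcon
    have hall : ∀ i ∈ Finset.range d, 0 ≤ b i := fun i hi =>
      hcon.trans (hfirst i (Finset.mem_range.mp hi))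
    have hz := (Finset.sum_eq_zero_iff_of_nonneg hall).mp hbal
    have hz0 := hz 0 (Finset.mem_range.mpr (by omega))
    have hz1 := hz (d - 1) (Finset.mem_range.mpr (by omega))
    rcases hb.imb with h | h <;> linarith
  have hl : 0 < b (d - 1) := by
    by_contra hcon
    push Not at hcon
    have hall : ∀ i ∈ Finset.range d, b i ≤ 0 := fun i hi =>
      (hlast i (Finset.mem_range.mp hi)).trans hcon
    have hz := (Finset.sum_eq_zero_iff_of_nonpos hall).mp hbal
    have hz0 := hz 0 (Finset.mem_range.mpr (by omega))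
    have hz1 := hz (d - 1) (Finset.mem_range.mpr (by omega))
    rcases hb.imb with h | h <;> linarith
  refine ⟨?_, h0, hl⟩
  by_contra hcon
  push Not at hcon
  have hb1 : 0 < b 1 := by linarith
  have hpos : 0 < ∑ i ∈ Finset.Ico 2 d, b i := by
    apply Finset.sum_pos
    · intro i hi
      obtain ⟨hi1, hi2⟩ := Finset.mem_Ico.mp hi
      exact hb1.trans_le (hb.mono 1 i (by omega) hi2)
    · exact ⟨2, Finset.mem_Ico.mpr ⟨le_refl _, by omega⟩⟩
  linarith

/-- the order-theoretic core of the borrowing clause -/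
theorem spn_borrow (b : ℕ → ℝ) (hb : SpAdm d b) (j : ℕ) (h1 : 1 ≤ j) (hj : j ≤ d) (P : ℝ → Prop)
    (hbd : P (-1)) (hpl : ∀ j' < j, ∀ u, SpPlat d b j' u → -1 ≤ u → P u) (ξ : ℝ) (hξ : 0 < ξ) :
    ∃ u : ℝ, -1 ≤ u ∧ u ≤ b (j - 1) ∧ b (j - 1) - u ≤ ξ ∧ P u := by
  classical
  set β := b (j - 1) with hβ
  have hβ1 : -1 ≤ β := hb.lo.trans (hb.mono 0 (j - 1) (Nat.zero_le _) (by omega))
  rcases hβ1.eq_or_lt with h | h
  · exact ⟨-1, le_refl _, hβ1, by rw [← h]; linarith, hbd⟩
  have hex : ∃ i, β ≤ b i := ⟨j - 1, le_refl _⟩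
  set j' := Nat.find hex with hj'
  have hj'1 : j' ≤ j - 1 := Nat.find_min' hex (le_refl _)
  have hlt : ∀ i < j', b i < β := fun i hi => not_le.mp (Nat.find_min hex hi)
  have hge : ∀ i, j' ≤ i → i < d → β ≤ b i := fun i hi hid =>
    (Nat.find_spec hex).trans (hb.mono j' i hi hid)
  set m : ℝ := if j' = 0 then β - 1 else b (j' - 1) with hm
  have hmβ : m < β := by
    rw [hm]; split_ifs with h0
    · linarith
    · exact hlt _ (by omega)
  have hmi : ∀ i < j', b i ≤ m := by
    intro i hi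
    rw [hm, if_neg (by omega)]
    exact hb.mono i (j' - 1) (by omega) (by omega)
  set M := max (max (-1) (β - ξ)) m with hM
  have hMβ : M < β := max_lt (max_lt h (by linarith)) hmβ
  have hM1 : -1 ≤ M := (le_max_left _ _).trans (le_max_left _ _)
  have hM2 : β - ξ ≤ M := (le_max_right _ _).trans (le_max_left _ _)
  have hM3 : m ≤ M := le_max_right _ _
  refine ⟨(M + β) / 2, by linarith, by linarith, by linarith, ?_⟩
  refine hpl j' (by omega) _ ⟨by omega, fun i hi => ?_, fun i hi hid => ?_⟩ (by linarith)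
  · have := hmi i hi; linarith
  · have := hge i hi hid; linarith

end Claimed.Agent.R273
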