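import Claimed.Agent.R273.GdList
import Claimed.Agent.R273.SplMain
import Claimed.Agent.R273.SpNum

/-!
# Row 273, S6c = depth.tex, "Centers in the wider window: the generic lists" (l.215-282) = PACKAGE BP-DEP-W1.  Architect helper60.  Prefix `depl_`.

`depl_lists` = `dep_wide_lists` (DepWide.lean), with the additional hypothesis `hpl : b (j - 1) < b j` (the target plateau is nonempty: needed to delete the nonreal target carriers; available at the only call site `scs_none_wide`).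

* `depl_fam` : ONE pool `X` of width `s ≤ θ log B`, any own-path assignment after `j` cuts on a nonempty plateau: after deleting the points of the nonreal carriers (`≤ ε |X|` points, `sp_lim.nonreal`)
  the remaining family is `SpFamOk D (d - j) (log B) θG` and `SpFlatOk (B ^ j) (log B) θG` (all degrees are `B^{1 ± Cθ}`: `sp_lim.deg`, `sp_lim.mass`).
* `depl_lists` : glue; `gd_list` with `w = log B`, `ε = 1/2`, `η = ρ/3`, `e = B ^ j`.
-/

set_option autoImplicit false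

namespace Claimed.Agent.R273

open MvPolynomial Module

variable {d : ℕ}

theorem depl_spE_le {b : ℕ → ℝ} (hb : SpAdm d b) {B s : ℝ} (hB : 0 < B) (hs : 0 ≤ s) {j : ℕ}
    (hj : j ≤ d) : spE B s b j ≤ B ^ j * Real.exp (j * s) := by
  unfold spE
  calc ∏ i ∈ Finset.range j, spD B s b i ≤ ∏ _i ∈ Finset.range j, (B * Real.exp s) := by
        refine Finset.prod_le_prod (fun i _ => (spn_D_pos hB s b i).le) (fun i hi => ?_)
        have hi' := Finset.mem_range.1 hi
        have h1 : b i ≤ 1 := (hb.mono i (d - 1) (by omega) (by omega)).trans hb.hi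
        unfold spD prfT
        refine mul_le_mul_of_nonneg_left (Real.exp_le_exp.2 ?_) hB.le
        nlinarith
    _ = B ^ j * Real.exp (j * s) := by
        rw [Finset.prod_const, Finset.card_range, mul_pow, ← Real.exp_nat_mul]

theorem depl_spE_ge {b : ℕ → ℝ} (hb : SpAdm d b) {B s : ℝ} (hB : 0 < B) (hs : 0 ≤ s) {j : ℕ}
    (hj : j ≤ d) : B ^ j * Real.exp (-(j * s)) ≤ spE B s b j := by
  unfold spE
  calc B ^ j * Real.exp (-(j * s)) = ∏ _i ∈ Finset.range j, (B * Real.exp (-s)) := by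
        rw [Finset.prod_const, Finset.card_range, mul_pow, ← Real.exp_nat_mul]
        congr 2
        ring
    _ ≤ ∏ i ∈ Finset.range j, spD B s b i := by
        refine Finset.prod_le_prod (fun i _ => by positivity) (fun i hi => ?_)
        have hi' := Finset.mem_range.1 hi
        have h1 : -1 ≤ b i := hb.lo.trans (hb.mono 0 i (by omega) (by omega))
        unfold spD prfT
        refine mul_le_mul_of_nonneg_left (Real.exp_le_exp.2 ?_) hB.le
        nlinarith

theorem depl_asg_mem {X : SpPool d} {j : ℕ} {asg : SpC d → Ideal (PrfPol d)} (h : SpAsg X j asg)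
    {x : SpC d} (hx : x ∈ X.pts) :
    ∃ a ∈ X.I, x ∈ (X.π a).S ∧ asg x ∈ (X.π a).carriers j ∧ x ∈ zeroLocus ℂ (asg x) := by
  obtain ⟨a, ha, hxa⟩ := Finset.mem_biUnion.1 hx
  exact ⟨a, ha, hxa, ⟨x, hxa, h a ha x hxa⟩, (h a ha x hxa).2⟩

theorem depl_fam (hd : 3 ≤ d) (b : ℕ → ℝ) (hb : SpAdm d b) (j : ℕ) (t : ℝ) (hpl : SpPlat d b j t)
    (ht : -1 ≤ t) (θG ε : ℝ) (hθG : 0 < θG) (hε : 0 < ε) :
    ∃ θ : ℝ, 0 < θ ∧ ∀ (D : SpData d) (X : SpPool d) (s : ℝ), D.Reg θ → X.Ok D s θ b →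
      s ≤ θ * Real.log D.B → ∀ asg : SpC d → Ideal (PrfPol d), SpAsg X j asg →
      ∃ S ⊆ X.pts, ((X.pts \ S).card : ℝ) ≤ ε * X.pts.card ∧
        SpFamOk D (d - j) (Real.log D.B) θG S asg ∧
        SpFlatOk (D.B ^ j) (Real.log D.B) θG S asg := by
  classical
  have hd1 : 1 ≤ d := by omega
  have hjd : j ≤ d := hpl.1
  obtain ⟨θn, hθn, hN⟩ := (sp_lim hd1).nonreal b hb (min ε (1 / 2)) (by positivity) j t hpl ht
  obtain ⟨θd, hθd, hDg⟩ := (sp_lim hd1).deg b hb 1 one_pos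
  obtain ⟨θm, hθm, hM⟩ := (sp_lim hd1).mass b hb 1 one_pos
  refine ⟨min (min θn (min θd θm)) (min 1 (θG / (4 * (d + 1)))), by positivity, ?_⟩
  intro D X s hD hX hsL asg hasg
  set θ := min (min θn (min θd θm)) (min 1 (θG / (4 * (d + 1)))) with hθdef
  have hθ0 : 0 < θ := by positivity
  have hlen : θ ≤ θn := (min_le_left _ _).trans (min_le_left _ _)
  have hled : θ ≤ θd := (min_le_left _ _).trans ((min_le_right _ _).trans (min_le_left _ _))
  have hlem : θ ≤ θm := (min_le_left _ _).trans ((min_le_right _ _).trans (min_le_right _ _))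
  have hle1 : θ ≤ 1 := (min_le_right _ _).trans (min_le_left _ _)
  have hleG : θ ≤ θG / (4 * (d + 1)) := (min_le_right _ _).trans (min_le_right _ _)
  have hleG' : (d + 1) * θ ≤ θG / 4 := by
    have hpos : (0 : ℝ) < 4 * (d + 1) := by positivity
    have := (le_div_iff₀ hpos).1 hleG
    linarith
  set L := Real.log D.B with hL
  have hs0 : 0 < s := spl_s_pos hθ0 hX
  have hB0 : 0 < D.B := spl_B_pos hθ0 hX
  have hN0 : 0 < D.N := spl_N_pos hd1 hθ0 hX
  have hs1 : 1 ≤ s := by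
    refine le_trans ?_ hX.s_ge
    rw [le_div_iff₀ hθ0]
    linarith
  have hθL : 1 ≤ θ * L := hs1.trans hsL
  have hL0 : 0 < L := by
    by_contra h
    push Not at h
    nlinarith
  -- `(j + 1) s ≤ (θG / 4) L`
  have hjs : ((j : ℝ) + 1) * s ≤ θG / 4 * L := by
    have h1 : ((j : ℝ) + 1) ≤ (d : ℝ) + 1 := by
      have : (j : ℝ) ≤ d := by exact_mod_cast hjd
      linarith
    calc ((j : ℝ) + 1) * s ≤ ((d : ℝ) + 1) * (θ * L) :=
          mul_le_mul h1 hsL hs0.le (by positivity)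
      _ = ((d : ℝ) + 1) * θ * L := by ring
      _ ≤ θG / 4 * L := mul_le_mul_of_nonneg_right hleG' hL0.le
  have hG4 : 1 ≤ θG / 4 * L := by
    have : (1 : ℝ) * 1 ≤ ((j : ℝ) + 1) * s :=
      mul_le_mul (by linarith [(Nat.cast_nonneg j : (0 : ℝ) ≤ j)]) hs1 zero_le_one (by positivity)
    linarith
  set S := X.pts.filter fun x => ¬ SpNonreal (asg x) with hS
  have hSsub : S ⊆ X.pts := Finset.filter_subset _ _
  have hdel : ((X.pts \ S).card : ℝ) ≤ min ε (1 / 2) * X.pts.card := by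
    refine hN D X X s (SpTwo.self (hD.mono hlen) (hX.mono hθ0 hlen)) _ Finset.sdiff_subset ?_
    intro x hx
    obtain ⟨hx1, hx2⟩ := Finset.mem_sdiff.1 hx
    obtain ⟨a, ha, hxa, hc, hz⟩ := depl_asg_mem hasg hx1
    refine ⟨asg x, Or.inl ⟨a, ha, hc⟩, hz, ?_⟩
    by_contra hnr
    exact hx2 (Finset.mem_filter.2 ⟨hx1, hnr⟩)
  -- the size of `S`
  have hsize : D.N * Real.exp (-(θG / 2 * L)) ≤ (S.card : ℝ) := by
    obtain ⟨a, ha⟩ := hX.ne
    have h1 : D.N * Real.exp (-(θ * s)) ≤ (X.pts.card : ℝ) := by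
      refine (hX.size a ha).trans ?_
      exact_mod_cast Finset.card_le_card (Finset.subset_biUnion_of_mem (fun a => (X.π a).S) ha)
    have h2 : (X.pts.card : ℝ) = (X.pts \ S).card + S.card := by
      have := Finset.card_sdiff_add_card_eq_card hSsub
      exact_mod_cast this.symm
    have h3 : ((X.pts \ S).card : ℝ) ≤ 1 / 2 * X.pts.card :=
      hdel.trans (mul_le_mul_of_nonneg_right (min_le_right _ _) (Nat.cast_nonneg _))
    have h4 : (X.pts.card : ℝ) / 2 ≤ S.card := by linarith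
    refine le_trans ?_ h4
    have h5 : Real.exp (-(θG / 2 * L)) ≤ Real.exp (-(θ * s)) / 2 := by
      have e1 : θ * s ≤ θG / 4 * L := by
        have : θ * s ≤ 1 * s := mul_le_mul_of_nonneg_right hle1 hs0.le
        have h' : (1 : ℝ) * s ≤ ((j : ℝ) + 1) * s :=
          mul_le_mul_of_nonneg_right (by linarith [(Nat.cast_nonneg j : (0 : ℝ) ≤ j)]) hs0.le
        linarith
      have e2 : (2 : ℝ) ≤ Real.exp 1 := by
        have := Real.add_one_le_exp (1 : ℝ)
        linarith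
      have e3 : Real.exp (-(θG / 2 * L)) * Real.exp 1 ≤ Real.exp (-(θ * s)) := by
        rw [← Real.exp_add]
        exact Real.exp_le_exp.2 (by linarith)
      have e4 := Real.exp_pos (-(θG / 2 * L))
      nlinarith
    calc D.N * Real.exp (-(θG / 2 * L)) ≤ D.N * (Real.exp (-(θ * s)) / 2) :=
          mul_le_mul_of_nonneg_left h5 hN0.le
      _ = D.N * Real.exp (-(θ * s)) / 2 := by ring
      _ ≤ (X.pts.card : ℝ) / 2 := by linarith
  refine ⟨S, hSsub, hdel.trans (mul_le_mul_of_nonneg_right (min_le_left _ _) (Nat.cast_nonneg _)),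
    ⟨?_, ?_, ?_, ?_, ?_, ?_⟩, ⟨?_, ?_⟩⟩
  · exact hSsub.trans (Finset.biUnion_subset.2 hX.sub)
  · refine le_trans (mul_le_mul_of_nonneg_left (Real.exp_le_exp.2 ?_) hN0.le) hsize
    nlinarith
  · intro x hx
    obtain ⟨a, ha, _, hc, _⟩ := depl_asg_mem hasg (hSsub hx)
    exact (spl_carr_prime_dim hX hjd ⟨a, ha, hc⟩).1
  · intro x hx
    obtain ⟨a, ha, _, hc, _⟩ := depl_asg_mem hasg (hSsub hx)
    exact (spl_carr_prime_dim hX hjd ⟨a, ha, hc⟩).2
  · intro x hx
    obtain ⟨a, ha, _, _, hz⟩ := depl_asg_mem hasg (hSsub hx)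
    exact hz
  · intro x hx
    exact (Finset.mem_filter.1 hx).2
  · -- number of flat members
    intro 𝒜 h𝒜
    have h1 : (prfDeg 𝒜 : ℝ) ≤ spE D.B s b j * Real.exp (1 * s) := by
      refine hDg D X s (hD.mono hled) (hX.mono hθ0 hled) j hjd 𝒜 ?_
      intro p hp
      obtain ⟨_, x, hx, rfl⟩ := h𝒜 p hp
      obtain ⟨a, ha, _, hc, _⟩ := depl_asg_mem hasg (hSsub hx)
      exact ⟨a, ha, hc⟩
    have h2 : prfDeg 𝒜 = 𝒜.card := by
      unfold prfDeg
      rw [Finset.sum_congr rfl (fun p hp => (h𝒜 p hp).1)]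
      simp
    rw [h2] at h1
    refine h1.trans ?_
    calc spE D.B s b j * Real.exp (1 * s) ≤ D.B ^ j * Real.exp (j * s) * Real.exp (1 * s) :=
          mul_le_mul_of_nonneg_right (depl_spE_le hb hB0 hs0.le hjd) (Real.exp_pos _).le
      _ = D.B ^ j * Real.exp ((j + 1) * s) := by
          rw [mul_assoc, ← Real.exp_add]
          congr 2
          ring
      _ ≤ D.B ^ j * Real.exp (θG * L) := by
          refine mul_le_mul_of_nonneg_left (Real.exp_le_exp.2 ?_) (by positivity)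
          nlinarith
  · -- weight of one flat member
    intro p hp S' hS' hall
    have h1 : (S'.card : ℝ) ≤ prfDeg {p} * (D.N / spE D.B s b j) * Real.exp (1 * s) := by
      refine hM D X s (hD.mono hlem) (hX.mono hθ0 hlem) j hjd {p} S' ?_
      intro x hx
      obtain ⟨a, ha, hxa, hc, hz⟩ := depl_asg_mem hasg (hSsub (hS' hx))
      rw [hall x hx] at hc hz
      exact ⟨a, ha, hxa, p, Finset.mem_singleton_self _, hc, hz⟩
    have h2 : prfDeg {p} = 1 := by
      unfold prfDeg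
      rw [Finset.sum_singleton]
      exact hp
    rw [h2] at h1
    have hE0 : 0 < spE D.B s b j := spn_E_pos hB0 s b j
    have hBj : 0 < D.B ^ j := by positivity
    have h3 : D.N / spE D.B s b j ≤ D.N / D.B ^ j * Real.exp (j * s) := by
      rw [div_le_iff₀ hE0]
      have := depl_spE_ge hb hB0 hs0.le hjd
      have hee : Real.exp (j * s) * Real.exp (-(j * s)) = 1 := by
        rw [← Real.exp_add]; simp
      calc D.N = D.N / D.B ^ j * D.B ^ j * (Real.exp (j * s) * Real.exp (-(j * s))) := by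
            rw [hee, mul_one, div_mul_cancel₀ _ hBj.ne']
        _ = D.N / D.B ^ j * Real.exp (j * s) * (D.B ^ j * Real.exp (-(j * s))) := by ring
        _ ≤ D.N / D.B ^ j * Real.exp (j * s) * spE D.B s b j :=
            mul_le_mul_of_nonneg_left this (by positivity)
    have h4 : D.N ≤ (S.card : ℝ) * Real.exp (θG / 2 * L) := by
      have : Real.exp (-(θG / 2 * L)) * Real.exp (θG / 2 * L) = 1 := by
        rw [← Real.exp_add]; simp
      calc D.N = D.N * Real.exp (-(θG / 2 * L)) * Real.exp (θG / 2 * L) := by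
            rw [mul_assoc, this, mul_one]
        _ ≤ (S.card : ℝ) * Real.exp (θG / 2 * L) :=
            mul_le_mul_of_nonneg_right hsize (Real.exp_pos _).le
    calc (S'.card : ℝ) ≤ ((1 : ℕ) : ℝ) * (D.N / spE D.B s b j) * Real.exp (1 * s) := h1
      _ = D.N / spE D.B s b j * Real.exp (1 * s) := by simp
      _ ≤ D.N / D.B ^ j * Real.exp (j * s) * Real.exp (1 * s) :=
          mul_le_mul_of_nonneg_right h3 (Real.exp_pos _).le
      _ = D.N / D.B ^ j * Real.exp ((j + 1) * s) := by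
          rw [mul_assoc, ← Real.exp_add]
          congr 2
          ring
      _ ≤ (S.card : ℝ) * Real.exp (θG / 2 * L) / D.B ^ j * Real.exp (θG / 4 * L) := by
          refine mul_le_mul ?_ (Real.exp_le_exp.2 hjs) (Real.exp_pos _).le (by positivity)
          exact div_le_div_of_nonneg_right h4 hBj.le
      _ = (S.card : ℝ) / D.B ^ j * Real.exp (θG / 2 * L + θG / 4 * L) := by
          rw [Real.exp_add]
          ring
      _ ≤ (S.card : ℝ) / D.B ^ j * Real.exp (θG * L) := by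
          refine mul_le_mul_of_nonneg_left (Real.exp_le_exp.2 ?_) (by positivity)
          nlinarith

theorem depl_lists (hd : 3 ≤ d) (b : ℕ → ℝ) (hb : SpAdm d b) (j jx : ℕ) (hj2 : 2 ≤ j)
    (hjd : j < d) (hpl : b (j - 1) < b j) (hpos : 0 < b j) (hx1 : ∀ i < jx, b i ≤ 0)
    (hx2 : ∀ i, jx ≤ i → i < d → 0 < b i) (ρ : ℝ) (hρ : 0 < ρ) :
    ∃ θ : ℝ, 0 < θ ∧ ∀ (𝔠 : SpCfg d) (α : ℝ), 𝔠.Ok b α θ → 𝔠.Sep θ → ScOr true 𝔠 θ →
      ∀ asg : SpC d → Ideal (PrfPol d), ScAsg 𝔠.Y j asg →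
        ∃ (asgx : SpC d → Ideal (PrfPol d)) (𝓛 : Ideal (PrfPol d) → Finset (Ideal (PrfPol d))),
          DepLists 𝔠 jx asg ρ asgx 𝓛 := by
  classical
  -- the indices
  have hb0 : b 0 < 0 := (spn_adm_margins hd b hb).2.1
  have hjx1 : 1 ≤ jx := by
    by_contra h
    have : jx = 0 := by omega
    have := hx2 0 (by omega) (by omega)
    linarith
  have hjxj : jx ≤ j := by
    by_contra h
    have := hx1 j (by omega)
    linarith
  -- the plateaus
  have hplx : SpPlat d b jx (b jx / 2) := by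
    have h0 : 0 < b jx := hx2 jx le_rfl (by omega)
    refine ⟨by omega, fun i hi => by linarith [hx1 i hi], fun i hi hid => ?_⟩
    have := hb.mono jx i hi hid
    linarith
  have hply : SpPlat d b j ((b (j - 1) + b j) / 2) := by
    refine ⟨by omega, fun i hi => ?_, fun i hi hid => ?_⟩
    · have := hb.mono i (j - 1) (by omega) (by omega)
      linarith
    · have := hb.mono j i hi hid
      linarith
  have htx : -1 ≤ b jx / 2 := by
    have h0 : 0 < b jx := hx2 jx le_rfl (by omega)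
    linarith
  have hty : -1 ≤ (b (j - 1) + b j) / 2 := by
    have h1 := hb.mono 0 (j - 1) (by omega) (by omega)
    have h2 := hb.lo
    linarith
  obtain ⟨θG, hθG, hG⟩ := gd_list hd (d - jx) (d - j) (by omega) (by omega) (by omega) (by omega)
    (1 / 2) (ρ / 3) (by norm_num) (by positivity)
  obtain ⟨θ₁, hθ₁, hX⟩ := depl_fam hd b hb jx _ hplx htx θG (ρ / 3) hθG (by positivity)
  obtain ⟨θ₂, hθ₂, hY⟩ := depl_fam hd b hb j _ hply hty θG (ρ / 3) hθG (by positivity)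
  refine ⟨min (min θ₁ θ₂) (min θG 1), by positivity, ?_⟩
  intro 𝔠 α hok hsep _ asg hasg
  set θ := min (min θ₁ θ₂) (min θG 1) with hθdef
  have hθ0 : 0 < θ := by positivity
  have hle1 : θ ≤ θ₁ := (min_le_left _ _).trans (min_le_left _ _)
  have hle2 : θ ≤ θ₂ := (min_le_left _ _).trans (min_le_right _ _)
  have hleG : θ ≤ θG := (min_le_right _ _).trans (min_le_left _ _)
  have hle11 : θ ≤ 1 := (min_le_right _ _).trans (min_le_right _ _)
  obtain ⟨_, hv, hs, _, _⟩ := hsep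
  have hs0 : 0 < 𝔠.s := spl_s_pos hθ0 hok.okY
  have hL0 : 0 ≤ Real.log 𝔠.D.B := le_trans hs0.le hok.okY.s_le
  have hB0 : 0 < 𝔠.D.B := spl_B_pos hθ0 hok.okY
  obtain ⟨asgx, hasgx⟩ := spl_asg_exists hok.okX (j := jx) (by omega)
  obtain ⟨S₁, hS₁, hc₁, hF₁, hfl₁⟩ := hX 𝔠.D 𝔠.X 𝔠.v (hok.reg.mono hle1) (hok.okX.mono hθ0 hle1)
    (hv.trans (mul_le_mul_of_nonneg_right hle1 hL0)) asgx hasgx
  obtain ⟨S₂, hS₂, hc₂, hF₂, hfl₂⟩ := hY 𝔠.D 𝔠.Y 𝔠.s (hok.reg.mono hle2) (hok.okY.mono hθ0 hle2)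
    (hs.trans (mul_le_mul_of_nonneg_right hle2 hL0)) asg hasg
  have hw1 : 1 / θG ≤ Real.log 𝔠.D.B :=
    ((one_div_le_one_div_of_le hθ0 hleG).trans hok.okY.s_ge).trans hok.okY.s_le
  obtain ⟨R, hR1, hR2, hR3⟩ := hG 𝔠.D (Real.log 𝔠.D.B) (𝔠.D.B ^ j) (hok.reg.mono hleG) hw1 le_rfl
    (by positivity) S₁ S₂ asgx asg hF₁ hF₂ (fun hkl => by
      have : jx = j := by omega
      subst this
      exact ⟨hfl₁, hfl₂⟩)
  refine ⟨asgx, gdLs R, hasgx, ?_, ?_, ?_, ?_⟩
  · -- sub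
    intro p _ 𝔶 h𝔶
    obtain ⟨_, y, hy, hy'⟩ := hR2 _ (gd_mem_ls.1 h𝔶)
    exact ⟨y, hS₂ hy, hy'⟩
  · -- small
    intro Del hDel hno
    have hsub : Del ⊆ ((𝔠.X.pts \ S₁) ×ˢ 𝔠.Y.pts ∪ 𝔠.X.pts ×ˢ (𝔠.Y.pts \ S₂)) ∪
        Del.filter (fun z => z ∈ S₁ ×ˢ S₂) := by
      intro z hz
      have hz' := Finset.mem_product.1 (hDel hz)
      by_cases h1 : z.1 ∈ S₁
      · by_cases h2 : z.2 ∈ S₂
        · exact Finset.mem_union_right _
            (Finset.mem_filter.2 ⟨hz, Finset.mem_product.2 ⟨h1, h2⟩⟩)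
        · exact Finset.mem_union_left _ (Finset.mem_union_right _
            (Finset.mem_product.2 ⟨hz'.1, Finset.mem_sdiff.2 ⟨hz'.2, h2⟩⟩))
      · exact Finset.mem_union_left _ (Finset.mem_union_left _
          (Finset.mem_product.2 ⟨Finset.mem_sdiff.2 ⟨hz'.1, h1⟩, hz'.2⟩))
    have h3 : ((Del.filter (fun z => z ∈ S₁ ×ˢ S₂)).card : ℝ) ≤ ρ / 3 * S₁.card * S₂.card :=
      hR1 _ (fun z hz => (Finset.mem_filter.1 hz).2)
        (fun z hz h => hno z (Finset.mem_filter.1 hz).1 (gd_mem_ls.2 h))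
    have hS₁c : (S₁.card : ℝ) ≤ 𝔠.X.pts.card := by exact_mod_cast Finset.card_le_card hS₁
    have hS₂c : (S₂.card : ℝ) ≤ 𝔠.Y.pts.card := by exact_mod_cast Finset.card_le_card hS₂
    have h4 : (Del.card : ℝ) ≤ ((𝔠.X.pts \ S₁).card : ℝ) * 𝔠.Y.pts.card +
        (𝔠.X.pts.card : ℝ) * ((𝔠.Y.pts \ S₂).card : ℝ) +
        ((Del.filter (fun z => z ∈ S₁ ×ˢ S₂)).card : ℝ) := by
      have := (Finset.card_le_card hsub).trans ((Finset.card_union_le _ _).trans
        (Nat.add_le_add_right (Finset.card_union_le _ _) _))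
      rw [Finset.card_product, Finset.card_product] at this
      exact_mod_cast this
    have hx0 : (0 : ℝ) ≤ 𝔠.X.pts.card := Nat.cast_nonneg _
    have hy0 : (0 : ℝ) ≤ 𝔠.Y.pts.card := Nat.cast_nonneg _
    have h5 : ((𝔠.X.pts \ S₁).card : ℝ) * 𝔠.Y.pts.card ≤ ρ / 3 * 𝔠.X.pts.card * 𝔠.Y.pts.card :=
      mul_le_mul_of_nonneg_right hc₁ hy0
    have h6 : (𝔠.X.pts.card : ℝ) * ((𝔠.Y.pts \ S₂).card : ℝ) ≤
        𝔠.X.pts.card * (ρ / 3 * 𝔠.Y.pts.card) := mul_le_mul_of_nonneg_left hc₂ hx0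
    have h7 : ρ / 3 * (S₁.card : ℝ) * S₂.card ≤ ρ / 3 * 𝔠.X.pts.card * 𝔠.Y.pts.card := by
      have : (S₁.card : ℝ) * S₂.card ≤ 𝔠.X.pts.card * 𝔠.Y.pts.card :=
        mul_le_mul hS₁c hS₂c (Nat.cast_nonneg _) hx0
      nlinarith
    nlinarith
  · -- tan
    intro p _ 𝔶 h𝔶
    obtain ⟨⟨x, hx, y, hy, _, h2⟩, _⟩ := hR3 _ (gd_mem_ls.1 h𝔶)
    refine ⟨x, hx, y, hy, ?_⟩
    by_contra hall
    push Not at hall
    exact h2 hall
  · -- roots
    intro p _ 𝔶 h𝔶
    obtain ⟨_, q, hq, hroot⟩ := hR3 _ (gd_mem_ls.1 h𝔶)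
    refine ⟨q, ?_, ?_⟩
    · refine hq.trans (le_of_eq ?_)
      rw [Real.rpow_def_of_pos hB0, mul_comm]
    · have := gd_union_ls R (asgx p)
      simp only at hroot
      rw [this] at hroot
      exact hroot

end Claimed.Agent.R273
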