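import Claimed.Agent.R273.DepAG

/-!
# Row 273, S6c = depth.tex, "Components, multiplicity, and incidence deletions": FROM DEPTH TO MASS.  Architect helper177.

* LEAF DEP-M0a (`dep_mass_of_depth`), finite form, one centre `p`, one target piece `π`; `R` = retained targets of the row.
   `𝒜 := S'.image asg` (primes; carriers of `π` after `j` cuts; `vdim = d - j` by `prf_pure`).  For `W ∈ 𝒢` let `𝒜_W := {𝔶 ∈ 𝒜 | dcone p Z(𝔶) = W}`.  `dep_group` for the family `{Z(𝔶) | 𝔶 ∈ 𝒜_W}` (distinct primes have distinct zero loci: Nullstellensatz),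
   with `DepRootLE` restricted to the smaller union (`depRoots` is monotone in `U`; subsets of finite sets, `Set.ncard_le_ncard`): `∑_{𝒜_W} vdeg ≤ 2 r vdeg W`.  Sum over `W`: `prfDeg 𝒜 ≤ 2 r ∑_𝒢 vdeg`.  `prf_mass`: `|S'| ≤ prfDeg 𝒜 * degHi j`.
* LEAF DEP-M0b (`dep_stmt_of_depth`), arithmetic.  Given `ε, ρ` use the depth form with `η = ε/4`, `ρ`; `θ ≤ min(θ_depth, ε/(4(d+1)), ..)`.  `𝔠.Sep θ` gives `𝔠.Y.I = {a}`, `𝔠.Y.pts = (𝔠.Y.π a).S`.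
   `degHi j ≤ ∏_{j ≤ i < d} T_s(τ_i) ≤ ∏_{j ≤ i < d} T_s(b_i) e^{θ s} = (N / e_j) e^{(d-j) θ s}` (`PrfPiece.Ok.deg`, `SpPool.Ok.prof`, `SpAdm.bal`: `∏_{i<d} T_s(b_i) = B^d = N`), `|Y| ≥ N e^{-θ s}`, `2 ≤ e^{ε s/4}` (`s ≥ 1/θ`).
-/

set_option autoImplicit false

namespace Claimed.Agent.R273

open MvPolynomial Module

variable {d : ℕ}

theorem dep_m0_rootLE_mono {p : SpC d} {Y U U' : Set (SpC d)} {r : ℕ} (hU : U ⊆ U')
    (h : DepRootLE p Y U' r) : DepRootLE p Y U r := by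
  obtain ⟨g, hg, h1⟩ := h
  refine ⟨g, hg, fun y hy hy0 => ?_⟩
  obtain ⟨h2, h3⟩ := h1 y hy hy0
  have hsub : depRoots p y U ⊆ depRoots p y U' := fun z hz => ⟨hU hz.1, hz.2⟩
  exact ⟨h2.subset hsub, (Set.ncard_le_ncard hsub h2).trans h3⟩

theorem dep_mass_of_depth (π : PrfPiece d) (hπ : π.Path) (j : ℕ) (hj : j ≤ d)
    (asg : SpC d → Ideal (PrfPol d)) (hasg : ∀ y ∈ π.S, asg y ∈ prfCarr (prfSys π.f j) y)
    (p : SpC d) (r : ℕ) (R : Finset (SpC d)) (hR : R ⊆ π.S)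
    (h : ∀ q ∈ R, vdim (dcone p (zeroLocus ℂ (asg q))) = d - j + 1 ∧
      DepHalfGood p (zeroLocus ℂ (asg q)) ∧
      DepRootLE p (zeroLocus ℂ (asg q)) (⋃ q' ∈ R, zeroLocus ℂ (asg q')) r)
    (𝒢 : Finset (Set (SpC d))) (S' : Finset (SpC d)) (hS' : S' ⊆ R)
    (hG : ∀ q ∈ S', dcone p (zeroLocus ℂ (asg q)) ∈ 𝒢) :
    S'.card ≤ 2 * r * (∑ W ∈ 𝒢, vdeg W) * π.degHi j := by
  classical
  set 𝒜 : Finset (Ideal (PrfPol d)) := S'.image asg with h𝒜def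
  have hcar : ∀ q ∈ S', asg q ∈ π.carriers j := fun q hq => ⟨q, hR (hS' hq), hasg q (hR (hS' hq))⟩
  have h𝒜 : (𝒜 : Set (Ideal (PrfPol d))) ⊆ π.carriers j := by
    intro 𝔶 h𝔶
    obtain ⟨q, hq, rfl⟩ := Finset.mem_image.1 (Finset.mem_coe.1 h𝔶)
    exact hcar q hq
  have hin : ∀ x ∈ S', x ∈ prfUn 𝒜 := by
    intro x hx
    unfold prfUn
    simp only [Set.mem_iUnion]
    exact ⟨asg x, Finset.mem_image_of_mem _ hx, (hasg x (hR (hS' hx))).2⟩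
  have hmass := prf_mass π hπ j hj 𝒜 h𝒜 S' (hS'.trans hR) hin
  have hdeg : prfDeg 𝒜 ≤ 2 * r * ∑ W ∈ 𝒢, vdeg W := by
    unfold prfDeg
    have hmaps : ∀ 𝔶 ∈ 𝒜, dcone p (zeroLocus ℂ 𝔶) ∈ 𝒢 := by
      intro 𝔶 h𝔶
      obtain ⟨q, hq, rfl⟩ := Finset.mem_image.1 h𝔶
      exact hG q hq
    rw [← Finset.sum_fiberwise_of_maps_to hmaps, Finset.mul_sum]
    apply Finset.sum_le_sum
    intro W _
    set 𝒜W := 𝒜.filter fun 𝔶 => dcone p (zeroLocus ℂ 𝔶) = W with h𝒜W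
    rcases 𝒜W.eq_empty_or_nonempty with he | ⟨𝔶₀, h𝔶₀⟩
    · rw [he, Finset.sum_empty]
      exact Nat.zero_le _
    have hmem : ∀ 𝔶 ∈ 𝒜W, ∃ q ∈ S', asg q = 𝔶 ∧ dcone p (zeroLocus ℂ 𝔶) = W := by
      intro 𝔶 h𝔶
      obtain ⟨h1, h2⟩ := Finset.mem_filter.1 h𝔶
      obtain ⟨q, hq, rfl⟩ := Finset.mem_image.1 h1
      exact ⟨q, hq, rfl, h2⟩
    have hinj : Set.InjOn (fun 𝔶 : Ideal (PrfPol d) => zeroLocus ℂ 𝔶) 𝒜W := by
      intro a ha b hb hab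
      obtain ⟨q, hq, rfl, -⟩ := hmem a ha
      obtain ⟨q', hq', rfl, -⟩ := hmem b hb
      exact ph_zeroLocus_inj (prf_carriers_dim π hπ j hj (hcar q hq)).1
        (prf_carriers_dim π hπ j hj (hcar q' hq')).1 hab
    rw [← Finset.sum_image (f := fun Y => vdeg Y) hinj]
    obtain ⟨q₀, hq₀, hq₀e, hq₀W⟩ := hmem 𝔶₀ h𝔶₀
    apply dep_group p (d - j) _ W _ _ (zeroLocus ℂ 𝔶₀) (Finset.mem_image_of_mem _ h𝔶₀) r
    · apply dep_m0_rootLE_mono _ (hq₀e ▸ (h q₀ (hS' hq₀)).2.2)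
      intro z hz
      simp only [Set.mem_iUnion, Finset.mem_image] at hz ⊢
      obtain ⟨Y, ⟨𝔶, h𝔶, rfl⟩, hz⟩ := hz
      obtain ⟨q, hq, rfl, -⟩ := hmem 𝔶 h𝔶
      exact ⟨q, hS' hq, hz⟩
    · intro Y hY
      obtain ⟨𝔶, h𝔶, rfl⟩ := Finset.mem_image.1 hY
      obtain ⟨q, hq, rfl, hW⟩ := hmem 𝔶 h𝔶
      have h1 := prf_carriers_dim π hπ j hj (hcar q hq)
      exact ⟨⟨_, h1.1, rfl⟩, h1.2, hW, (h q (hS' hq)).2.1⟩
    · rw [← hq₀W, ← hq₀e]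
      exact (h q₀ (hS' hq₀)).1
  calc S'.card ≤ prfDeg 𝒜 * ∏ i ∈ Finset.Ico j d, (π.f i).totalDegree := hmass
    _ ≤ (2 * r * ∑ W ∈ 𝒢, vdeg W) * π.degHi j := Nat.mul_le_mul_right _ hdeg

/-- balance: `e_j ∏_{j ≤ i < d} T_s(b_i) = B^d` -/
theorem dep_m0_prod (b : ℕ → ℝ) (hb : ∑ i ∈ Finset.range d, b i = 0) (B s : ℝ) (j : ℕ)
    (hj : j ≤ d) : spE B s b j * ∏ i ∈ Finset.Ico j d, prfT B s (b i) = B ^ d := by
  unfold spE spD
  rw [Finset.prod_range_mul_prod_Ico _ hj]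
  unfold prfT
  rw [Finset.prod_mul_distrib, Finset.prod_const, Finset.card_range, ← Real.exp_sum,
    ← Finset.sum_mul, hb, zero_mul, Real.exp_zero, mul_one]

/-- the degrees of the later cuts -/
theorem dep_m0_degHi (π : PrfPiece d) (b : ℕ → ℝ) (B s θ : ℝ) (hB : 0 < B) (hs : 0 ≤ s)
    (hdeg : ∀ i < d, ((π.f i).totalDegree : ℝ) ≤ prfT B s (π.τ i))
    (hprof : ∀ i < d, |π.τ i - b i| ≤ θ) (j : ℕ) :
    (π.degHi j : ℝ) ≤ (∏ i ∈ Finset.Ico j d, prfT B s (b i)) * Real.exp (θ * s) ^ (d - j) := by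
  unfold PrfPiece.degHi
  rw [Nat.cast_prod]
  have h1 : ∀ i ∈ Finset.Ico j d, ((π.f i).totalDegree : ℝ) ≤ prfT B s (b i) * Real.exp (θ * s) := by
    intro i hi
    have hid : i < d := (Finset.mem_Ico.1 hi).2
    refine (hdeg i hid).trans ?_
    unfold prfT
    rw [mul_assoc, ← Real.exp_add]
    apply mul_le_mul_of_nonneg_left _ hB.le
    apply Real.exp_le_exp.2
    have := (abs_le.1 (hprof i hid)).2
    nlinarith
  calc ∏ i ∈ Finset.Ico j d, ((π.f i).totalDegree : ℝ)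
      ≤ ∏ i ∈ Finset.Ico j d, prfT B s (b i) * Real.exp (θ * s) :=
        Finset.prod_le_prod (fun i _ => Nat.cast_nonneg _) h1
    _ = _ := by
        rw [Finset.prod_mul_distrib, Finset.prod_const, Nat.card_Ico]

/-- the arithmetic of `dep_stmt_of_depth` -/
theorem dep_m0_num {Tr E Q N Rn H Yc V Sc ε θ s : ℝ} {m dd : ℕ} (hTr : 0 < Tr) (hE : 0 < E)
    (hEQ : E * Q = N) (hRn0 : 0 ≤ Rn) (hRn : Rn ≤ Tr * Real.exp (ε / 4 * s))
    (hH0 : 0 ≤ H) (hH : H ≤ Q * Real.exp (θ * s) ^ m) (hY : N * Real.exp (-(θ * s)) ≤ Yc)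
    (hV : 0 ≤ V) (hS : Sc ≤ 2 * Rn * V * H) (hε : 0 < ε) (hθ : 0 < θ)
    (hθε : θ ≤ ε / (4 * ((dd : ℝ) + 1))) (hm : m ≤ dd) (hs : 1 / θ ≤ s) :
    Sc ≤ Tr / E * Real.exp (ε * s) * V * Yc := by
  have hs0 : 0 < s := lt_of_lt_of_le (by positivity) hs
  have hdd : (0 : ℝ) < 4 * ((dd : ℝ) + 1) := by positivity
  have hθd : θ * (4 * ((dd : ℝ) + 1)) ≤ ε := by rwa [le_div_iff₀ hdd] at hθε
  have hQ : Q = N / E := by rw [← hEQ]; field_simp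
  have hN : N ≤ Yc * Real.exp (θ * s) := by
    have h1 : N = N * Real.exp (-(θ * s)) * Real.exp (θ * s) := by
      rw [mul_assoc, ← Real.exp_add]; simp
    rw [h1]
    exact mul_le_mul_of_nonneg_right hY (Real.exp_pos _).le
  have hθs : 1 ≤ θ * s := by
    rw [div_le_iff₀ hθ] at hs; linarith
  have h2 : (2 : ℝ) ≤ Real.exp (ε / 4 * s) := by
    have h3 : 1 ≤ ε / 4 * s := by
      have : θ * s * (4 * ((dd : ℝ) + 1)) ≤ ε * s := by nlinarith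
      have hdd0 : (0 : ℝ) ≤ dd := Nat.cast_nonneg _
      nlinarith
    have := Real.add_one_le_exp (ε / 4 * s)
    linarith
  have hQ0 : 0 ≤ Q := by
    have : 0 ≤ Q * Real.exp (θ * s) ^ m := hH0.trans hH
    exact nonneg_of_mul_nonneg_left this (by positivity)
  have hN0 : 0 ≤ N := by rw [← hEQ]; positivity
  have hYc0 : 0 ≤ Yc := le_trans (by positivity) hY
  have hpow : Real.exp (θ * s) ^ m = Real.exp ((m : ℝ) * (θ * s)) := by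
    rw [← Real.exp_nat_mul]
  have key : 2 * Rn * H ≤ Tr / E * Real.exp (ε * s) * Yc := by
    calc 2 * Rn * H ≤ Real.exp (ε / 4 * s) * (Tr * Real.exp (ε / 4 * s))
          * (Q * Real.exp (θ * s) ^ m) := by gcongr
      _ = Tr / E * (Real.exp (ε / 4 * s) * Real.exp (ε / 4 * s) * Real.exp ((m : ℝ) * (θ * s)))
          * N := by rw [hQ, hpow]; field_simp
      _ ≤ Tr / E * (Real.exp (ε / 4 * s) * Real.exp (ε / 4 * s) * Real.exp ((m : ℝ) * (θ * s)))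
          * (Yc * Real.exp (θ * s)) := by gcongr
      _ = Tr / E * Real.exp (ε / 4 * s + ε / 4 * s + (m : ℝ) * (θ * s) + θ * s) * Yc := by
          rw [Real.exp_add, Real.exp_add, Real.exp_add]; ring
      _ ≤ Tr / E * Real.exp (ε * s) * Yc := by
          gcongr
          have hm' : (m : ℝ) ≤ dd := by exact_mod_cast hm
          have h5 : ((m : ℝ) + 1) * (θ * s) ≤ ((dd : ℝ) + 1) * (θ * s) := by
            apply mul_le_mul_of_nonneg_right (by linarith) (by positivity)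
          have h6 : θ * s * (4 * ((dd : ℝ) + 1)) ≤ ε * s := by nlinarith
          nlinarith
  calc Sc ≤ 2 * Rn * V * H := hS
    _ = (2 * Rn * H) * V := by ring
    _ ≤ (Tr / E * Real.exp (ε * s) * Yc) * V := mul_le_mul_of_nonneg_right key hV
    _ = _ := by ring

theorem dep_stmt_of_depth (hd : 3 ≤ d) (wide : Bool) (b : ℕ → ℝ) (hb : SpAdm d b) (j : ℕ)
    (hj1 : 1 ≤ j) (hjd : j < d) (r : ℝ) (h : DepDepthStmt d wide b j r) :
    DepStmt d wide b j r := by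
  classical
  intro ε ρ hε hρ
  obtain ⟨θ₀, hθ₀, hdep⟩ := h (ε / 4) ρ (by positivity) hρ
  set θ : ℝ := min θ₀ (min 1 (ε / (4 * ((d : ℝ) + 1)))) with hθdef
  have hθ : 0 < θ := by
    rw [hθdef]; positivity
  have hθθ₀ : θ ≤ θ₀ := min_le_left _ _
  have hθ1 : θ ≤ 1 := (min_le_right _ _).trans (min_le_left _ _)
  have hθε : θ ≤ ε / (4 * ((d : ℝ) + 1)) := (min_le_right _ _).trans (min_le_right _ _)
  refine ⟨θ, hθ, ?_⟩
  intro 𝔠 α hok hsep hor asg hasg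
  have hv0 : 0 ≤ 𝔠.v := le_trans (by positivity) hok.okX.s_ge
  have hs0 : 0 ≤ 𝔠.s := le_trans (by positivity) hok.okY.s_ge
  have hor' : ScOr wide 𝔠 θ₀ :=
    ⟨fun hw => (hor.1 hw).trans (mul_le_mul_of_nonneg_right hθθ₀ hv0),
      fun hw => (hor.2 hw).trans (mul_le_mul_of_nonneg_right hθθ₀ hs0)⟩
  obtain ⟨Del, Rn, hDel, hRn, hdepth⟩ := hdep 𝔠 α (hok.mono hθ hθθ₀ hθ1)
    (hsep.mono hok hθ hθθ₀) hor' asg hasg
  obtain ⟨a, ha⟩ := hsep.2.2.2.2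
  have haI : a ∈ 𝔠.Y.I := by rw [ha]; exact Finset.mem_singleton_self a
  have hpts : 𝔠.Y.pts = (𝔠.Y.π a).S := by
    unfold SpPool.pts
    rw [ha, Finset.singleton_biUnion]
  have hB1 : 1 ≤ 𝔠.D.B := hok.reg.one_le_B hθ1
  have hB0 : 0 < 𝔠.D.B := by linarith
  have hpiece := hok.okY.piece a haI
  refine ⟨Del, hDel, ?_⟩
  intro p hp
  refine ⟨fun q hq hqd => (hdepth p hp q hq hqd).1, ?_⟩
  intro 𝒢 _h𝒢 S' hS' hS'2
  set Rs : Finset (SpC d) := (𝔠.Y.π a).S.filter fun q => (p, q) ∉ Del with hRs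
  have hun : (⋃ q' ∈ {q' | q' ∈ 𝔠.Y.pts ∧ (p, q') ∉ Del}, zeroLocus ℂ (asg q'))
      = ⋃ q' ∈ Rs, zeroLocus ℂ (asg q') := by
    ext z
    simp only [Set.mem_iUnion, hRs, Finset.mem_filter, hpts, Set.mem_ofPred_eq]
  have hmass := dep_mass_of_depth (𝔠.Y.π a) hpiece.path j hjd.le asg (hasg a haI) p Rn Rs
    (Finset.filter_subset _ _)
    (fun q hq => by
      obtain ⟨hq1, hq2⟩ := Finset.mem_filter.1 hq
      have := hdepth p hp q (hpts ▸ hq1) hq2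
      rw [hun] at this
      exact this)
    𝒢 S'
    (fun q hq => Finset.mem_filter.2 ⟨hpts ▸ hS' hq, (hS'2 q hq).1⟩)
    (fun q hq => (hS'2 q hq).2)
  have hmassR : (S'.card : ℝ) ≤ 2 * (Rn : ℝ) * ((∑ W ∈ 𝒢, vdeg W : ℕ) : ℝ)
      * ((𝔠.Y.π a).degHi j : ℝ) := by
    exact_mod_cast hmass
  have hN : 𝔠.D.B ^ d = 𝔠.D.N := by
    unfold SpData.B
    rw [one_div, Real.rpow_inv_natCast_pow (by unfold SpData.N; positivity) (by omega)]
  have hE : 0 < spE 𝔠.D.B 𝔠.s b j := by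
    unfold spE spD prfT
    exact Finset.prod_pos (fun i _ => by positivity)
  have hTr : 0 < prfT 𝔠.D.B 𝔠.s r := by unfold prfT; positivity
  rw [hpts]
  exact dep_m0_num (m := d - j) (dd := d) hTr hE
    ((dep_m0_prod b hb.bal 𝔠.D.B 𝔠.s j hjd.le).trans hN) (Nat.cast_nonneg _) hRn
    (Nat.cast_nonneg _)
    (dep_m0_degHi (𝔠.Y.π a) b 𝔠.D.B 𝔠.s θ hB0 hs0 hpiece.deg (hok.okY.prof a haI) j)
    (hok.okY.size a haI) (Nat.cast_nonneg _) hmassR hε hθ hθε (Nat.sub_le _ _) hok.okY.s_ge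

end Claimed.Agent.R273
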