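import Claimed.Agent.R273.DepRay

/-!
# Row 273, S6c = depth.tex, PACKAGE DEP-NAG: "Centers in the narrower window", THE BEZOUT COUNT (dep:narrow-root-count).  Architect helper177, proof helper187.  Prefix `depn_`.  Import chain: keep `import DepRay`, do not import `DepAG`.

`U = ⋃ 𝒴`.  `t_p` := the constant of `dep_genfib` for `(p, Y, 𝒴)`; ONE `y ∈ Y` general for all `p ∈ S` (`depn_general`).  No further genericity is needed: if `y = p` then `depRoots p y U = ∅`, and a root lying on several members is counted several times (union bound).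
On `V = prodSet Y' univ ⊆ ℂ^{d ⊕ 1}` impose `G' = {g(y + t (z - y)) | g ∈ Gx}` (degree `≤ 2 L`).  A root `z ≠ y` over `p` gives the solution `(z, t)`, `p = y + t (z - y)`; it is an isolated zero (`depn_iso`): an irreducible set through it inside `V ∩ Z(G')` is mapped into `Z(Gx)`, hence to `{p}`,
so it lies in the finite set `{(z', t') | z' ∈ Y' on the line p y}`, and a finite irreducible set is a point (`depn_isVar_finite`).  `ph_bezout_iso` bounds the number of solutions on `V` by `vdeg Y' (2L)^{l+1}`.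
-/

set_option autoImplicit false

namespace Claimed.Agent.R273

open MvPolynomial Module

variable {d : ℕ}

/-- the polynomial map `(z, t) ↦ y + t (z - y)` -/
noncomputable def depnMap (y : SpC d) : Fin d → MvPolynomial (Fin d ⊕ Fin 1) ℂ :=
  fun i => C (y i) + X (Sum.inr 0) * (X (Sum.inl i) - C (y i))

theorem depn_pmap (y : SpC d) (w : Fin d ⊕ Fin 1 → ℂ) :
    pmap (depnMap y) w = y + w (Sum.inr 0) • ((fun i => w (Sum.inl i)) - y) := by
  funext i
  simp [pmap, depnMap]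

theorem depn_deg (y : SpC d) (i : Fin d) : (depnMap y i).totalDegree ≤ 2 := by
  unfold depnMap
  refine (totalDegree_add _ _).trans (max_le (by simp) ?_)
  refine (totalDegree_mul _ _).trans ?_
  have h1 : (X (Sum.inr 0) : MvPolynomial (Fin d ⊕ Fin 1) ℂ).totalDegree = 1 := totalDegree_X _
  have h2 : (X (Sum.inl i) - C (y i) : MvPolynomial (Fin d ⊕ Fin 1) ℂ).totalDegree ≤ 1 := by
    refine (totalDegree_sub _ _).trans (max_le (by simp) (by simp))
  omega

/-- a finite irreducible set is a point -/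
theorem depn_isVar_finite {ι : Type*} [Fintype ι] {V : Set (ι → ℂ)} (hV : IsVar V) (hfin : V.Finite)
    {w : ι → ℂ} (hw : w ∈ V) : V = {w} := by
  classical
  by_contra hne
  have hex : ∃ w' ∈ V, w' ≠ w := by
    by_contra h
    push Not at h
    exact hne (Set.eq_singleton_iff_unique_mem.2 ⟨hw, h⟩)
  obtain ⟨w', hw', hne'⟩ := hex
  have hsep : ∀ a b : ι → ℂ, a ≠ b → ∃ f : MvPolynomial ι ℂ, eval a f = 0 ∧ eval b f ≠ 0 := by
    intro a b hab
    obtain ⟨i, hi⟩ := Function.ne_iff.1 hab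
    exact ⟨X i - C (a i), by simp, by simpa [sub_eq_zero] using Ne.symm hi⟩
  have hsep' : ∀ a : ι → ℂ, ∃ f : MvPolynomial ι ℂ, a ≠ w → eval a f = 0 ∧ eval w f ≠ 0 := by
    intro a
    by_cases h : a = w
    · exact ⟨0, fun h' => absurd h h'⟩
    · obtain ⟨f, hf⟩ := hsep a w h
      exact ⟨f, fun _ => hf⟩
  choose F hF using hsep'
  obtain ⟨g, hg0, hg1⟩ := hsep w w' (Ne.symm hne')
  set f := ∏ a ∈ hfin.toFinset.erase w, F a with hf
  have hfw : eval w f ≠ 0 := by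
    rw [hf, map_prod, Finset.prod_ne_zero_iff]
    intro a ha
    exact (hF a (Finset.ne_of_mem_erase ha)).2
  have hfx : ∀ x ∈ V, x ≠ w → eval x f = 0 := by
    intro x hx hxw
    rw [hf, map_prod]
    exact Finset.prod_eq_zero (Finset.mem_erase.2 ⟨hxw, hfin.mem_toFinset.2 hx⟩) (hF x hxw).1
  rcases ph_isVar_mul hV f g (fun x hx => by
    rw [map_mul]
    by_cases hxw : x = w
    · rw [hxw, hg0, mul_zero]
    · rw [hfx x hx hxw, zero_mul]) with h | h
  · exact hfw (h w hw)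
  · exact hg1 (h w' hw')

/-- a point of an irreducible set which is general for finitely many conditions -/
theorem depn_general {ι α : Type*} [Fintype ι] {V : Set (ι → ℂ)} (hV : IsVar V) (S : Finset α)
    (h : α → MvPolynomial ι ℂ) (hh : ∀ a ∈ S, ∃ y ∈ V, eval y (h a) ≠ 0) :
    ∃ y ∈ V, ∀ a ∈ S, eval y (h a) ≠ 0 := by
  classical
  have key : ∃ y ∈ V, eval y (∏ a ∈ S, h a) ≠ 0 := by
    induction S using Finset.induction_on with
    | empty =>
      obtain ⟨y, hy⟩ := ph_isVar_nonempty V hV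
      exact ⟨y, hy, by simp⟩
    | insert a s ha ih =>
      rw [Finset.prod_insert ha]
      by_contra hcon
      push Not at hcon
      rcases ph_isVar_mul hV _ _ hcon with h1 | h1
      · obtain ⟨y, hy, hne⟩ := hh a (Finset.mem_insert_self a s)
        exact hne (h1 y hy)
      · obtain ⟨y, hy, hne⟩ := ih (fun b hb => hh b (Finset.mem_insert_of_mem hb))
        exact hne (h1 y hy)
  obtain ⟨y, hy, hne⟩ := key
  refine ⟨y, hy, fun a ha h0 => hne ?_⟩
  rw [map_prod]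
  exact Finset.prod_eq_zero ha h0

theorem depn_depRoots_mono (p y : SpC d) {U U' : Set (SpC d)} (h : U ⊆ U') :
    depRoots p y U ⊆ depRoots p y U' := fun _ hz => ⟨h hz.1, hz.2⟩

/-- the fibre of `(z, t) ↦ y + t (z - y)` over `p ≠ y` in `Y' × ℂ` is finite -/
theorem depn_fibre_finite (p y : SpC d) (hpy : p ≠ y) (Y' : Set (SpC d))
    (hfin : (depRoots p y Y').Finite) :
    {w | w ∈ prodSet Y' (Set.univ : Set (Fin 1 → ℂ)) ∧ pmap (depnMap y) w = p}.Finite := by
  have hfin' : (insert p (depRoots p y Y')).Finite := hfin.insert p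
  refine Set.Finite.of_finite_image (f := fun w : Fin d ⊕ Fin 1 → ℂ => (fun i => w (Sum.inl i) : SpC d))
    (hfin'.subset ?_) ?_
  · rintro _ ⟨w, ⟨hw, hwp⟩, rfl⟩
    rw [depn_pmap] at hwp
    set z : SpC d := fun i => w (Sum.inl i) with hz
    set t : ℂ := w (Sum.inr 0) with ht
    by_cases hzp : z = p
    · exact Or.inl hzp
    · refine Or.inr ⟨hw.1, hzp, ?_⟩
      have ht0 : t ≠ 0 := by
        intro h0
        rw [h0, zero_smul, add_zero] at hwp
        exact hpy hwp.symm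
      refine ⟨-(1 - t) / t, ?_⟩
      funext i
      have hi := congrFun hwp i
      simp only [Pi.add_apply, Pi.smul_apply, Pi.sub_apply, smul_eq_mul] at hi ⊢
      rw [← hi]
      field_simp
      ring
  · rintro w ⟨hw, hwp⟩ w' ⟨hw', hwp'⟩ hww'
    rw [depn_pmap] at hwp hwp'
    have hz : (fun i => w (Sum.inl i) : SpC d) = fun i => w' (Sum.inl i) := hww'
    rw [← hz] at hwp'
    have hne : (fun i => w (Sum.inl i) : SpC d) - y ≠ 0 := by
      intro h0
      rw [h0, smul_zero, add_zero] at hwp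
      exact hpy hwp.symm
    have h1 : w (Sum.inr 0) • ((fun i => w (Sum.inl i) : SpC d) - y)
        = w' (Sum.inr 0) • ((fun i => w (Sum.inl i) : SpC d) - y) :=
      add_left_cancel (hwp.trans hwp'.symm)
    have h2 : w (Sum.inr 0) = w' (Sum.inr 0) := smul_left_injective ℂ hne h1
    funext s
    rcases s with i | j
    · exact congrFun hz i
    · rw [Subsingleton.elim j 0]; exact h2

/-- the solutions over an isolated zero `p ≠ y` are isolated -/
theorem depn_iso (Gx : Set (PrfPol d)) (p y : SpC d) (hp : IsoZero Gx p) (hpy : p ≠ y)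
    (Y' : Set (SpC d)) (G₀ : Set (MvPolynomial (Fin d ⊕ Fin 1) ℂ))
    (hG₀ : Zl G₀ = prodSet Y' (Set.univ : Set (Fin 1 → ℂ))) (hfin : (depRoots p y Y').Finite)
    (w : Fin d ⊕ Fin 1 → ℂ) (hw : w ∈ prodSet Y' (Set.univ : Set (Fin 1 → ℂ)))
    (hwp : pmap (depnMap y) w = p) :
    IsoZero (G₀ ∪ (fun g => aeval (depnMap y) g) '' Gx) w := by
  rw [ph_isoZero_iff_comp] at hp ⊢
  rw [ph_isCompOf_iff] at hp ⊢
  obtain ⟨-, hpG, hmax⟩ := hp
  have hpG' : ∀ g ∈ Gx, eval p g = 0 := fun g hg => hpG rfl g hg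
  refine ⟨(ph_point w).1, ?_, fun V' hV' hwV' hV'G => ?_⟩
  · intro x hx
    rw [Set.mem_singleton_iff.1 hx]
    rintro g (hg | ⟨g, hg, rfl⟩)
    · rw [← hG₀] at hw
      exact hw g hg
    · show eval w (aeval (depnMap y) g) = 0
      rw [← ph_eval_pmap, hwp]
      exact hpG' g hg
  · have hwV : w ∈ V' := hwV' rfl
    -- the image lies in `Z(Gx)`
    have himg : pmap (depnMap y) '' V' ⊆ Zl Gx := by
      rintro _ ⟨x, hx, rfl⟩ g hg
      rw [ph_eval_pmap]
      exact hV'G hx _ (Or.inr ⟨g, hg, rfl⟩)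
    have h1 : zcl (pmap (depnMap y) '' V') = {p} := by
      apply hmax _ (ph_isVar_zcl_image hV' _) _ ((ph_zcl_subset_iff _ _).2 himg)
      rintro _ rfl
      exact ph_subset_zcl _ ⟨w, hwV, hwp⟩
    have h2 : V' ⊆ {w | w ∈ prodSet Y' (Set.univ : Set (Fin 1 → ℂ)) ∧ pmap (depnMap y) w = p} := by
      intro x hx
      refine ⟨?_, ?_⟩
      · rw [← hG₀]
        exact fun g hg => hV'G hx g (Or.inl hg)
      · have : pmap (depnMap y) x ∈ zcl (pmap (depnMap y) '' V') := ph_subset_zcl _ ⟨x, hx, rfl⟩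
        rw [h1] at this
        exact this
    exact depn_isVar_finite hV' ((depn_fibre_finite p y hpy Y' hfin).subset h2) hwV

/-- a root `z ≠ y` over `p`: `p = y + t (z - y)` -/
theorem depn_root_param (p y z : SpC d) (U : Set (SpC d)) (hz : z ∈ depRoots p y U) (hzy : z ≠ y) :
    ∃ t : ℂ, p = y + t • (z - y) := by
  obtain ⟨-, -, c, hc⟩ := hz
  have hc1 : 1 - c ≠ 0 := by
    intro h
    have : c = 1 := by linear_combination -h
    rw [this, one_smul] at hc
    exact hzy (sub_left_injective hc)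
  refine ⟨1 / (1 - c), ?_⟩
  funext i
  have hi := congrFun hc i
  simp only [Pi.add_apply, Pi.smul_apply, Pi.sub_apply, smul_eq_mul] at hi ⊢
  field_simp
  linear_combination -hi

theorem depn_roots_self (y : SpC d) (U : Set (SpC d)) : depRoots y y U = ∅ := by
  rw [Set.eq_empty_iff_forall_notMem]
  rintro z ⟨-, hne, c, h⟩
  rw [sub_self, smul_zero] at h
  exact hne (sub_eq_zero.1 h)

/-- the Bezout count on one member -/
theorem depn_member (Gx : Set (PrfPol d)) (L : ℕ) (hL : 1 ≤ L) (hGx : ∀ g ∈ Gx, g.totalDegree ≤ L)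
    (y : SpC d) (Y' : Set (SpC d)) (hY' : IsVar Y')
    (T : Finset (Fin d ⊕ Fin 1 → ℂ))
    (hT : ∀ w ∈ T, w ∈ prodSet Y' (Set.univ : Set (Fin 1 → ℂ)) ∧ IsoZero Gx (pmap (depnMap y) w) ∧
      pmap (depnMap y) w ≠ y ∧ (depRoots (pmap (depnMap y) w) y Y').Finite) :
    T.card ≤ vdeg Y' * (2 * L) ^ (vdim Y' + 1) := by
  have hV : IsVar (prodSet Y' (Set.univ : Set (Fin 1 → ℂ))) := ph_prod_isVar hY' ph_univ.1
  obtain ⟨q, hq, hVq⟩ := hV
  have hG₀ : Zl (q : Set (MvPolynomial (Fin d ⊕ Fin 1) ℂ)) = prodSet Y' (Set.univ : Set (Fin 1 → ℂ)) := by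
    rw [ph_Zl_eq_zeroLocus, Ideal.span_eq, hVq]
  have := ph_bezout_iso (ph_prod_isVar hY' ph_univ.1) _ hG₀ ((fun g => aeval (depnMap y) g) '' Gx)
    (2 * L) (by omega) (by
      rintro _ ⟨g, hg, rfl⟩
      exact (ph_totalDegree_aeval_le_mul _ 2 (depn_deg y) g).trans
        (Nat.mul_le_mul_left _ (hGx g hg))) T (fun w hw => by
      obtain ⟨h1, h2, h3, h4⟩ := hT w hw
      exact depn_iso Gx _ y h2 h3 Y' _ hG₀ h4 w h1 rfl)
  rw [ph_prod_vdim hY' ph_univ.1, ph_prod_vdeg hY' ph_univ.1, ph_univ.2.1, ph_univ.2.2] at this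
  simpa using this

/-- (dep:narrow-root-count): the centres are isolated zeros of a system of degree `≤ L`; total depth over all centres. -/
theorem dep_narrow_count (d : ℕ) : ∃ Cd : ℕ, ∀ (Gx : Set (PrfPol d)) (L : ℕ), 1 ≤ L →
    (∀ g ∈ Gx, g.totalDegree ≤ L) → ∀ (l : ℕ) (𝒴 : Finset (Set (SpC d))),
    (∀ Y ∈ 𝒴, IsVar Y ∧ vdim Y = l) → ∀ Y ∈ 𝒴, ∀ S : Finset (SpC d),
    (∀ p ∈ S, IsoZero Gx p ∧ vdim (dcone p Y) = l + 1) →
      ∃ r : SpC d → ℕ, (∀ p ∈ S, DepRootLE p Y (⋃ Y' ∈ 𝒴, Y') (r p)) ∧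
        ∑ p ∈ S, r p ≤ S.card + Cd * (∑ Y' ∈ 𝒴, vdeg Y') * L ^ (l + 1) := by
  classical
  refine ⟨2 ^ (d + 1), fun Gx L hL hGx l 𝒴 h𝒴 Y hY S hS => ?_⟩
  set U : Set (SpC d) := ⋃ Y' ∈ 𝒴, Y' with hU
  have key : ∀ p : SpC d, ∃ (t : ℕ) (h : PrfPol d), p ∈ S → ((∃ y ∈ Y, eval y h ≠ 0) ∧
      ∀ y ∈ Y, eval y h ≠ 0 → (depRoots p y U).Finite ∧ (depRoots p y U).ncard = t) := by
    intro p
    by_cases hp : p ∈ S
    · obtain ⟨t, h, hth⟩ := dep_genfib p l 𝒴 h𝒴 Y (h𝒴 Y hY).1 (h𝒴 Y hY).2 (hS p hp).2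
      exact ⟨t, h, fun _ => hth⟩
    · exact ⟨0, 0, fun h => absurd h hp⟩
  choose t h hth using key
  refine ⟨t, fun p hp => ⟨h p, (hth p hp).1, fun y hy hne =>
    ⟨((hth p hp).2 y hy hne).1, ((hth p hp).2 y hy hne).2.le⟩⟩, ?_⟩
  obtain ⟨y, hyY, hy⟩ := depn_general (h𝒴 Y hY).1 S h (fun p hp => (hth p hp).1)
  have hfin : ∀ p ∈ S, (depRoots p y U).Finite := fun p hp => ((hth p hp).2 y hyY (hy p hp)).1
  have hcard : ∀ p ∈ S, (depRoots p y U).ncard = t p := fun p hp => ((hth p hp).2 y hyY (hy p hp)).2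
  -- the finite sets of roots
  let R : SpC d → Finset (SpC d) := fun p => if hp : p ∈ S then (hfin p hp).toFinset else ∅
  have hR : ∀ p ∈ S, ∀ z, z ∈ R p ↔ z ∈ depRoots p y U := by
    intro p hp z
    simp only [R, dif_pos hp, Set.Finite.mem_toFinset]
  have hRcard : ∀ p ∈ S, t p = (R p).card := by
    intro p hp
    rw [← hcard p hp, Set.ncard_eq_toFinset_card _ (hfin p hp)]
    simp only [R, dif_pos hp]
  let P : Finset (Σ _ : SpC d, SpC d) := S.sigma fun p => (R p).erase y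
  have hP : ∀ x ∈ P, x.1 ∈ S ∧ x.2 ≠ y ∧ x.2 ∈ depRoots x.1 y U := by
    intro x hx
    rw [Finset.mem_sigma, Finset.mem_erase] at hx
    exact ⟨hx.1, hx.2.1, (hR _ hx.1 _).1 hx.2.2⟩
  have h1 : ∑ p ∈ S, t p ≤ S.card + P.card := by
    rw [Finset.card_sigma, Finset.card_eq_sum_ones, ← Finset.sum_add_distrib]
    refine Finset.sum_le_sum fun p hp => ?_
    rw [hRcard p hp]
    have := Finset.pred_card_le_card_erase (s := R p) (a := y)
    omega
  have hτ : ∀ x : (Σ _ : SpC d, SpC d), ∃ τ : ℂ, x ∈ P → x.1 = y + τ • (x.2 - y) := by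
    intro x
    by_cases hx : x ∈ P
    · obtain ⟨τ, hτ⟩ := depn_root_param x.1 y x.2 U (hP x hx).2.2 (hP x hx).2.1
      exact ⟨τ, fun _ => hτ⟩
    · exact ⟨0, fun h => absurd h hx⟩
  choose τ hτ using hτ
  let σ : (Σ _ : SpC d, SpC d) → (Fin d ⊕ Fin 1 → ℂ) := fun x => Sum.elim x.2 fun _ => τ x
  have hσp : ∀ x ∈ P, pmap (depnMap y) (σ x) = x.1 := by
    intro x hx
    rw [depn_pmap, hτ x hx]
    rfl
  have hσinj : Set.InjOn σ (P : Set (Σ _ : SpC d, SpC d)) := by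
    intro x hx x' hx' hxx'
    have e2 : x.2 = x'.2 := by
      funext i
      exact congrFun hxx' (Sum.inl i)
    have e1 : x.1 = x'.1 := by
      rw [← hσp x hx, ← hσp x' hx', hxx']
    exact Sigma.ext e1 (heq_of_eq e2)
  have h2 : P.card ≤ ∑ Y' ∈ 𝒴, (P.filter fun x => x.2 ∈ Y').card := by
    refine le_trans (Finset.card_le_card ?_) Finset.card_biUnion_le
    intro x hx
    have hxU := (hP x hx).2.2.1
    rw [hU] at hxU
    simp only [Set.mem_iUnion, exists_prop] at hxU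
    obtain ⟨Y', hY', hxY'⟩ := hxU
    exact Finset.mem_biUnion.2 ⟨Y', hY', Finset.mem_filter.2 ⟨hx, hxY'⟩⟩
  have h3 : ∀ Y' ∈ 𝒴, (P.filter fun x => x.2 ∈ Y').card ≤ vdeg Y' * (2 * L) ^ (l + 1) := by
    intro Y' hY'
    rw [← Finset.card_image_of_injOn (f := σ) (hσinj.mono (by
      intro x hx
      exact (Finset.mem_filter.1 hx).1)), ← (h𝒴 Y' hY').2]
    apply depn_member Gx L hL hGx y Y' (h𝒴 Y' hY').1
    intro w hw
    obtain ⟨x, hx, rfl⟩ := Finset.mem_image.1 hw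
    obtain ⟨hxP, hxY'⟩ := Finset.mem_filter.1 hx
    rw [hσp x hxP]
    refine ⟨⟨hxY', Set.mem_univ _⟩, (hS _ (hP x hxP).1).1, ?_, ?_⟩
    · intro h0
      have := (hP x hxP).2.2
      rw [h0, depn_roots_self] at this
      exact this
    · refine (hfin _ (hP x hxP).1).subset (depn_depRoots_mono _ _ ?_)
      exact Set.subset_biUnion_of_mem (u := fun Y' : Set (SpC d) => Y') hY'
  have hl : l ≤ d := by
    have := ph_vdim_le Y
    rw [(h𝒴 Y hY).2] at this
    simpa using this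
  have h4 : ∑ Y' ∈ 𝒴, (P.filter fun x => x.2 ∈ Y').card
      ≤ 2 ^ (d + 1) * (∑ Y' ∈ 𝒴, vdeg Y') * L ^ (l + 1) := by
    refine (Finset.sum_le_sum h3).trans ?_
    rw [← Finset.sum_mul, mul_pow]
    have h5 : 2 ^ (l + 1) ≤ 2 ^ (d + 1) := Nat.pow_le_pow_right (by norm_num) (by omega)
    calc (∑ Y' ∈ 𝒴, vdeg Y') * (2 ^ (l + 1) * L ^ (l + 1))
        = 2 ^ (l + 1) * ((∑ Y' ∈ 𝒴, vdeg Y') * L ^ (l + 1)) := by ring
      _ ≤ 2 ^ (d + 1) * ((∑ Y' ∈ 𝒴, vdeg Y') * L ^ (l + 1)) := Nat.mul_le_mul_right _ h5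
      _ = 2 ^ (d + 1) * (∑ Y' ∈ 𝒴, vdeg Y') * L ^ (l + 1) := by ring
  omega

end Claimed.Agent.R273
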