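import Claimed.Agent.R273.SpLim
import Claimed.Agent.R273.RkBasic

/-!
# Row 273, SPARSE, unit S5L (chief helper161): basic bookkeeping for `θ`-good pools.  Prefix `spl_`.

Everything here is elementary (real exponentials, finite sums); NO algebraic geometry.  Notation: `hX : X.Ok D s θ b`, `B = D.B`, `N = D.N`, `T(t) = prfT B s t = B e^{t s}`, `D_i = spD B s b i = T(b_i)`, `e_j = spE B s b j`.

LEAF SPL-basic-a (`spl_s_pos` .. `spl_split`):
* `spl_exp_le_B`: `B = N^{1/d} ≥ 0`; `B = 0` would give `log B = 0 ≥ s > 0`; so `B > 0` and `e^s ≤ e^{log B} = B`.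
* `spl_N_eq`: `(N^{1/d})^d = N` (`Real.rpow_natCast`, `← Real.rpow_mul`, `N ≥ 0`, `d ≠ 0`).
* `spl_pts_le`: `X.pts ⊆ D.pts` (`hX.sub`), `|D.pts| = |P|` (`Finset.card_image_of_injective`, `sp_pt_injective`).
* `spl_pts_card`: `Finset.card_biUnion` with `hX.disj`.     `spl_split`: `S' = ⋃_a (S' ∩ S_a)`, disjoint.
* `spl_card_I`: `|I| N e^{-θ s} ≤ ∑_a |S_a| = |X.pts| ≤ N`, `N > 0`.
LEAF SPL-basic-b (`spl_T_*`, `spl_deg*`, `spl_spE_*`):
* `prfT B s u = B e^{u s}` is monotone in `u` (`B > 0`, `s > 0`), `prfT B s (u + v) = prfT B s u * e^{v s}`.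
* `spl_degLo_le`: `deg f_i ≤ T(τ_i) ≤ D_i e^{θ s}` (`Ok.deg`, `prof`), product over `i < j` (`Finset.prod_le_prod`), `∏_{i<j} e^{θ s} = e^{j θ s}`.
* `spl_spE_top`: `∏_{i<d} B e^{b_i s} = B^d e^{s ∑ b_i} = N` (`SpAdm.bal`).    `spl_spE_mul`: `Finset.prod_range_mul_prod_Ico`.
LEAF SPL-basic-c (`spl_grid_le`, `spl_plateau`, `spl_absorb`, `spl_floor`).
-/

set_option autoImplicit false

namespace Claimed.Agent.R273

open MvPolynomial Module

variable {d : ℕ} {D : SpData d} {X : SpPool d} {s θ : ℝ} {b : ℕ → ℝ}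

/-! ### a: sizes -/

theorem spl_s_pos (hθ : 0 < θ) (hX : X.Ok D s θ b) : 0 < s :=
  lt_of_lt_of_le (by positivity) hX.s_ge

theorem spl_exp_le_B (hθ : 0 < θ) (hX : X.Ok D s θ b) : Real.exp s ≤ D.B := by
  have hs := spl_s_pos hθ hX
  have hB0 : 0 ≤ D.B := Real.rpow_nonneg (Nat.cast_nonneg _) _
  have hB : 0 < D.B := by
    rcases hB0.eq_or_lt with h | h
    · have := hX.s_le
      rw [← h, Real.log_zero] at this
      linarith
    · exact h
  calc Real.exp s ≤ Real.exp (Real.log D.B) := Real.exp_le_exp.mpr hX.s_le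
    _ = D.B := Real.exp_log hB

theorem spl_B_pos (hθ : 0 < θ) (hX : X.Ok D s θ b) : 0 < D.B :=
  lt_of_lt_of_le (Real.exp_pos s) (spl_exp_le_B hθ hX)

theorem spl_N_eq (hd : 1 ≤ d) (D : SpData d) : D.N = D.B ^ d := by
  have hN : 0 ≤ D.N := Nat.cast_nonneg _
  have hd' : (d : ℝ) ≠ 0 := by
    have : 0 < d := hd
    positivity
  unfold SpData.B
  rw [← Real.rpow_natCast, ← Real.rpow_mul hN, one_div_mul_cancel hd', Real.rpow_one]

theorem spl_N_pos (hd : 1 ≤ d) (hθ : 0 < θ) (hX : X.Ok D s θ b) : 0 < D.N := by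
  rw [spl_N_eq hd]
  exact pow_pos (spl_B_pos hθ hX) d

theorem spl_pts_le (hX : X.Ok D s θ b) : (X.pts.card : ℝ) ≤ D.N := by
  have h1 : X.pts ⊆ D.pts := Finset.biUnion_subset.mpr hX.sub
  have h2 : D.pts.card ≤ D.P.card := Finset.card_image_le
  have h3 := (Finset.card_le_card h1).trans h2
  unfold SpData.N
  exact_mod_cast h3

theorem spl_pts_card (hX : X.Ok D s θ b) :
    (X.pts.card : ℝ) = ∑ a ∈ X.I, ((X.π a).S.card : ℝ) := by
  unfold SpPool.pts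
  rw [Finset.card_biUnion (fun a ha a' ha' hne => hX.disj a ha a' ha' hne)]
  push_cast
  rfl

/-- a subset of the pool splits along the members -/
theorem spl_split (hX : X.Ok D s θ b) (S' : Finset (SpC d)) (hS' : S' ⊆ X.pts) :
    (S'.card : ℝ) = ∑ a ∈ X.I, ((S' ∩ (X.π a).S).card : ℝ) := by
  have h1 : S' = X.I.biUnion fun a => S' ∩ (X.π a).S := by
    ext x
    simp only [Finset.mem_biUnion, Finset.mem_inter]
    constructor
    · intro hx
      obtain ⟨a, ha, hxa⟩ := Finset.mem_biUnion.mp (hS' hx)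
      exact ⟨a, ha, hx, hxa⟩
    · rintro ⟨a, _, hx, _⟩
      exact hx
  conv_lhs => rw [h1]
  rw [Finset.card_biUnion]
  · push_cast
    rfl
  · intro a ha a' ha' hne
    exact (hX.disj a ha a' ha' hne).mono Finset.inter_subset_right Finset.inter_subset_right

theorem spl_card_I (hd : 1 ≤ d) (hθ : 0 < θ) (hX : X.Ok D s θ b) :
    (X.I.card : ℝ) ≤ Real.exp (θ * s) := by
  have hN := spl_N_pos hd hθ hX
  have h1 : (X.I.card : ℝ) * (D.N * Real.exp (-(θ * s))) ≤ D.N := by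
    calc (X.I.card : ℝ) * (D.N * Real.exp (-(θ * s)))
        = ∑ _a ∈ X.I, D.N * Real.exp (-(θ * s)) := by simp
      _ ≤ ∑ a ∈ X.I, ((X.π a).S.card : ℝ) := Finset.sum_le_sum hX.size
      _ = X.pts.card := (spl_pts_card hX).symm
      _ ≤ D.N := spl_pts_le hX
  have h2 : (X.I.card : ℝ) * Real.exp (-(θ * s)) ≤ 1 := by
    have : (X.I.card : ℝ) * Real.exp (-(θ * s)) * D.N ≤ 1 * D.N := by linarith
    exact le_of_mul_le_mul_right this hN
  rw [Real.exp_neg] at h2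
  have h3 := Real.exp_pos (θ * s)
  rwa [← div_eq_mul_inv, div_le_one h3] at h2

theorem spl_member_pos (hd : 1 ≤ d) (hθ : 0 < θ) (hX : X.Ok D s θ b) {a : ℕ} (ha : a ∈ X.I) :
    0 < ((X.π a).S.card : ℝ) :=
  lt_of_lt_of_le (mul_pos (spl_N_pos hd hθ hX) (Real.exp_pos _)) (hX.size a ha)

theorem spl_N_le_member (hX : X.Ok D s θ b) {a : ℕ} (ha : a ∈ X.I) :
    D.N ≤ ((X.π a).S.card : ℝ) * Real.exp (θ * s) := by
  have h1 := hX.size a ha
  have h3 := Real.exp_pos (θ * s)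
  rw [Real.exp_neg, ← div_eq_mul_inv, div_le_iff₀ h3] at h1
  exact h1

theorem spl_real (hX : X.Ok D s θ b) {x : SpC d} (hx : x ∈ X.pts) : SpReal x := by
  have h1 : X.pts ⊆ D.pts := Finset.biUnion_subset.mpr hX.sub
  obtain ⟨p, _, rfl⟩ := Finset.mem_image.mp (h1 hx)
  intro i
  simp [prfPt]

/-- summing memberwise bounds -/
theorem spl_sum_members (hX : X.Ok D s θ b) (S' : Finset (SpC d)) (hS' : S' ⊆ X.pts) (ε : ℝ)
    (h : ∀ a ∈ X.I, ((S' ∩ (X.π a).S).card : ℝ) ≤ ε * ((X.π a).S.card : ℝ)) :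
    (S'.card : ℝ) ≤ ε * X.pts.card := by
  rw [spl_split hX S' hS', spl_pts_card hX, Finset.mul_sum]
  exact Finset.sum_le_sum h

/-! ### b: degrees -/

theorem spl_T_add (B s u v : ℝ) : prfT B s (u + v) = prfT B s u * Real.exp (v * s) := by
  unfold prfT
  rw [add_mul, Real.exp_add, mul_assoc]

theorem spl_T_mono {B s u v : ℝ} (hB : 0 ≤ B) (hs : 0 ≤ s) (h : u ≤ v) :
    prfT B s u ≤ prfT B s v := by
  unfold prfT
  exact mul_le_mul_of_nonneg_left (Real.exp_le_exp.mpr (mul_le_mul_of_nonneg_right h hs)) hB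

theorem spl_one_le_T (hθ : 0 < θ) (hX : X.Ok D s θ b) {t : ℝ} (ht : -1 ≤ t) :
    1 ≤ prfT D.B s t := by
  have hs := spl_s_pos hθ hX
  have hB := spl_exp_le_B hθ hX
  unfold prfT
  have h1 : Real.exp (-s) ≤ Real.exp (t * s) := Real.exp_le_exp.mpr (by nlinarith)
  calc (1 : ℝ) = Real.exp s * Real.exp (-s) := by rw [← Real.exp_add]; simp
    _ ≤ D.B * Real.exp (t * s) := mul_le_mul hB h1 (Real.exp_pos _).le (spl_B_pos hθ hX).le

theorem spl_tau_mem (hX : X.Ok D s θ b) {a : ℕ} (ha : a ∈ X.I) {i : ℕ} (hi : i < d) :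
    -1 ≤ (X.π a).τ i ∧ (X.π a).τ i ≤ X.top :=
  hX.grid.range _ ((hX.piece a ha).mem i hi)

theorem spl_T_tau_le (hθ : 0 < θ) (hX : X.Ok D s θ b) {a : ℕ} (ha : a ∈ X.I) {i : ℕ} (hi : i < d) :
    prfT D.B s ((X.π a).τ i) ≤ spD D.B s b i * Real.exp (θ * s) := by
  have hs := spl_s_pos hθ hX
  have h1 := abs_le.mp (hX.prof a ha i hi)
  unfold spD
  rw [← spl_T_add]
  exact spl_T_mono (spl_B_pos hθ hX).le hs.le (by linarith [h1.2])

theorem spl_T_tau_ge (hθ : 0 < θ) (hX : X.Ok D s θ b) {a : ℕ} (ha : a ∈ X.I) {i : ℕ} (hi : i < d) :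
    spD D.B s b i * Real.exp (-(θ * s)) ≤ prfT D.B s ((X.π a).τ i) := by
  have hs := spl_s_pos hθ hX
  have h1 := abs_le.mp (hX.prof a ha i hi)
  unfold spD
  rw [show -(θ * s) = (-θ) * s by ring, ← spl_T_add]
  exact spl_T_mono (spl_B_pos hθ hX).le hs.le (by linarith [h1.1])

theorem spl_spE_pos (hθ : 0 < θ) (hX : X.Ok D s θ b) (j : ℕ) : 0 < spE D.B s b j := by
  have hB := spl_B_pos hθ hX
  exact Finset.prod_pos fun i _ => mul_pos hB (Real.exp_pos _)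

/-- `e_d = N` for balanced profiles -/
theorem spl_spE_top (hd : 1 ≤ d) (hb : SpAdm d b) (hθ : 0 < θ) (hX : X.Ok D s θ b) :
    spE D.B s b d = D.N := by
  rw [spl_N_eq hd]
  unfold spE spD prfT
  rw [Finset.prod_mul_distrib, ← Real.exp_sum, ← Finset.sum_mul, hb.bal]
  simp

theorem spl_spE_mul (B s : ℝ) (b : ℕ → ℝ) {j d : ℕ} (hj : j ≤ d) :
    spE B s b j * ∏ i ∈ Finset.Ico j d, spD B s b i = spE B s b d := by
  exact Finset.prod_range_mul_prod_Ico _ hj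

theorem spl_degLo_le (hθ : 0 < θ) (hX : X.Ok D s θ b) {a : ℕ} (ha : a ∈ X.I) {j : ℕ} (hj : j ≤ d) :
    ((X.π a).degLo j : ℝ) ≤ spE D.B s b j * Real.exp (d * θ * s) := by
  have hs := spl_s_pos hθ hX
  have hE := spl_spE_pos hθ hX j
  have h1 : ((X.π a).degLo j : ℝ) ≤ ∏ i ∈ Finset.range j, (spD D.B s b i * Real.exp (θ * s)) := by
    unfold PrfPiece.degLo
    push_cast
    refine Finset.prod_le_prod (fun i _ => Nat.cast_nonneg _) fun i hi => ?_
    have hid : i < d := lt_of_lt_of_le (Finset.mem_range.mp hi) hj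
    exact ((hX.piece a ha).deg i hid).trans (spl_T_tau_le hθ hX ha hid)
  refine h1.trans ?_
  rw [Finset.prod_mul_distrib, Finset.prod_const, Finset.card_range, ← Real.exp_nat_mul]
  refine mul_le_mul_of_nonneg_left (Real.exp_le_exp.mpr ?_) hE.le
  have h5 : (j : ℝ) ≤ d := by exact_mod_cast hj
  have h6 : 0 ≤ θ * s := by positivity
  nlinarith

theorem spl_degHi_le (hd : 1 ≤ d) (hb : SpAdm d b) (hθ : 0 < θ) (hX : X.Ok D s θ b) {a : ℕ}
    (ha : a ∈ X.I) {j : ℕ} (hj : j ≤ d) :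
    ((X.π a).degHi j : ℝ) ≤ D.N / spE D.B s b j * Real.exp (d * θ * s) := by
  have hs := spl_s_pos hθ hX
  have hE := spl_spE_pos hθ hX j
  have h1 : ((X.π a).degHi j : ℝ) ≤ ∏ i ∈ Finset.Ico j d, (spD D.B s b i * Real.exp (θ * s)) := by
    unfold PrfPiece.degHi
    push_cast
    refine Finset.prod_le_prod (fun i _ => Nat.cast_nonneg _) fun i hi => ?_
    have hid : i < d := (Finset.mem_Ico.mp hi).2
    exact ((hX.piece a ha).deg i hid).trans (spl_T_tau_le hθ hX ha hid)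
  refine h1.trans ?_
  have h2 : ∏ i ∈ Finset.Ico j d, spD D.B s b i = D.N / spE D.B s b j := by
    rw [eq_div_iff hE.ne', mul_comm, spl_spE_mul _ _ _ hj, spl_spE_top hd hb hθ hX]
  rw [Finset.prod_mul_distrib, Finset.prod_const, Nat.card_Ico, ← Real.exp_nat_mul, h2]
  refine mul_le_mul_of_nonneg_left (Real.exp_le_exp.mpr ?_)
    (div_pos (spl_N_pos hd hθ hX) hE).le
  have h5 : ((d - j : ℕ) : ℝ) ≤ d := by exact_mod_cast Nat.sub_le d j
  have h6 : 0 ≤ θ * s := by positivity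
  nlinarith

/-- the first `j` cuts have degree `≤ ⌊T(u)⌋` as soon as `b_i + θ ≤ u` for `i < j` -/
theorem spl_cut_deg (hθ : 0 < θ) (hX : X.Ok D s θ b) {a : ℕ} (ha : a ∈ X.I) {j : ℕ} (hj : j ≤ d)
    {u : ℝ} (hu : ∀ i < j, b i + θ ≤ u) :
    ∀ i < j, ((X.π a).f i).totalDegree ≤ ⌊prfT D.B s u⌋₊ := by
  intro i hi
  have hs := spl_s_pos hθ hX
  have hid : i < d := lt_of_lt_of_le hi hj
  have h1 := abs_le.mp (hX.prof a ha i hid)
  refine Nat.le_floor (((hX.piece a ha).deg i hid).trans ?_)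
  exact spl_T_mono (spl_B_pos hθ hX).le hs.le (by linarith [h1.2, hu i hi])

/-! ### c: grid times, plateaux, absorption of constants -/

/-- a grid time just below `u` -/
theorem spl_grid_le {grid : Finset ℝ} {μ top u : ℝ} (hg : PrfGrid grid μ top) (hμ : 0 ≤ μ)
    (h1 : -1 ≤ u) (h2 : u ≤ top) : ∃ t ∈ grid, u - μ ≤ t ∧ t ≤ u := by
  rcases le_total (-1) (u - μ) with h | h
  · obtain ⟨t, ht, h3, h4⟩ := hg.mesh (u - μ) h (by linarith)
    exact ⟨t, ht, h3, by linarith⟩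
  · exact ⟨-1, hg.neg_one, h, h1⟩

/-- a real time at distance `≥ θ` from the reference profile lies on the plateau of every member -/
theorem spl_plateau (hX : X.Ok D s θ b) {a : ℕ} (ha : a ∈ X.I) {j : ℕ} (hj : j ≤ d) {u : ℝ}
    (h1 : ∀ i < j, b i + θ ≤ u) (h2 : ∀ i, j ≤ i → i < d → u < b i - θ) :
    PrfPlateau (X.π a) j u := by
  refine ⟨fun i hi => ?_, fun i hi hid => ?_⟩
  · have h3 := abs_le.mp (hX.prof a ha i (lt_of_lt_of_le hi hj))
    linarith [h3.2, h1 i hi]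
  · have h3 := abs_le.mp (hX.prof a ha i hid)
    linarith [h3.1, h2 i hi hid]

/-- constants are absorbed by `e^{η s}`, `s ≥ 1/θ` -/
theorem spl_absorb (C η : ℝ) (hη : 0 < η) : ∃ θ₀ : ℝ, 0 < θ₀ ∧
    ∀ θ s : ℝ, 0 < θ → θ ≤ θ₀ → 1 / θ ≤ s → C ≤ Real.exp (η * s) := by
  have hC : 0 < |C| + 1 := by positivity
  refine ⟨η / (|C| + 1), by positivity, fun θ s hθ hθ₀ hs => ?_⟩
  have h1 : (|C| + 1) / η ≤ 1 / θ := by
    rw [div_le_div_iff₀ hη hθ]
    rw [le_div_iff₀ hC] at hθ₀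
    linarith
  have h2 : |C| + 1 ≤ η * s := by
    have := h1.trans hs
    rw [div_le_iff₀ hη] at this
    linarith
  calc C ≤ |C| + 1 := by linarith [le_abs_self C]
    _ ≤ η * s := h2
    _ ≤ Real.exp (η * s) := by linarith [Real.add_one_le_exp (η * s)]

/-- `⌊x⌋₊ ≥ x / 2` for `x ≥ 1` -/
theorem spl_floor {x : ℝ} (hx : 1 ≤ x) : x / 2 ≤ (⌊x⌋₊ : ℝ) := by
  have h1 : x - 1 < (⌊x⌋₊ : ℝ) := Nat.sub_one_lt_floor x
  have h2 : (1 : ℝ) ≤ (⌊x⌋₊ : ℝ) := by
    have : 1 ≤ ⌊x⌋₊ := Nat.le_floor (by simpa using hx)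
    exact_mod_cast this
  rcases le_total x 2 with h | h <;> linarith

end Claimed.Agent.R273
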