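import Claimed.Agent.R273.DepAG
import Claimed.Agent.R273.SplBasic

/-!
# Row 273, S6c = depth.tex, "Centers in the narrower window": `R = B exp(-s ∑_{i ≥ j} b_i)`, `v ≤ θ s`.  Architect helper177.  PACKAGE BP-DEP-NARROW.

PROOF.  `𝔠.X.I = {a'}`, `πx = 𝔠.X.π a'`; `𝔠.Y.I = {a}`, `π = 𝔠.Y.π a`; `l = d - j`; `𝒴 := {Z(asg q) | q ∈ π.S}` (finite family of distinct irreducible `l`-folds, `prf_pure`), `∑_𝒴 vdeg ≤ degLo j ≤ e_j e^{dθs}` (`prf_carrier_deg`).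
 Centre system `Gx := prfSys πx.f d`, degree `≤ L := ⌈T_v(1 + 2θ)⌉ ≤ B e^{3 θ s}`; every `p ∈ πx.S` is an isolated zero (`prf_pure` with `j = d`: all local carriers have dimension `0`; `ph_isoZero_iff_comp`, `ph_point_of_vdim_zero`).
 For FIXED `Y ∈ 𝒴`: bad centres := (D1) dimension drop (`dep_drop` + `low` of `πx`), (D2) not half-good (`dep_half` with `S = πx.S` + `low` of `πx`: `Cd ≤ T_v(-1)`), (D3) `r_p > R₁ := ⌊R e^{η s}⌋`, `r` from `dep_narrow_count` for the centres without drop: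
  Markov: `#(D3) (R₁ + 1) ≤ |X| + Cd e_j e^{dθs} L^{l+1}`, and `e_j B^{l+1} / N = B e^{s ∑_{i<j} b_i} = R` (`SpAdm.bal`), `|X| ≥ N e^{-θ v}`; so `#(D3) ≤ (1/R + Cd e^{C θ s}) e^{-η s} |X| ≤ (ρ/3) |X|`.
 `Del := {(p, q) | p bad for Z(asg q)}`, `|Del| ≤ ∑_q #bad(asg q) ≤ ρ |X| |Y|`.  `DepRootLE` is monotone in `U` (the retained union is contained in `⋃ 𝒴`) and in `r`.
-/

set_option autoImplicit false

namespace Claimed.Agent.R273

open MvPolynomial Module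
open scoped Classical

variable {d : ℕ}

/-! ### monotonicity of the depth -/

theorem depnw_roots_mono (p y : SpC d) {U U' : Set (SpC d)} (h : U ⊆ U') :
    depRoots p y U ⊆ depRoots p y U' := fun _ hz => ⟨h hz.1, hz.2⟩

theorem depnw_rootLE_mono {p : SpC d} {Y U U' : Set (SpC d)} {r r' : ℕ} (h : DepRootLE p Y U' r)
    (hU : U ⊆ U') (hr : r ≤ r') : DepRootLE p Y U r' := by
  obtain ⟨g, hg, H⟩ := h
  refine ⟨g, hg, fun y hy hgy => ?_⟩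
  obtain ⟨h1, h2⟩ := H y hy hgy
  exact ⟨h1.subset (depnw_roots_mono p y hU),
    ((Set.ncard_le_ncard (depnw_roots_mono p y hU) h1).trans h2).trans hr⟩

/-! ### the centres are isolated zeros of their full path -/

theorem depnw_iso (π : PrfPiece d) (hπ : π.Path) {p : SpC d} (hp : p ∈ π.S) :
    IsoZero (prfSys π.f d) p := by
  rw [ph_isoZero_iff_comp]
  obtain ⟨𝔭, h𝔭⟩ := prf_own_carrier π hπ d le_rfl hp
  have hdim := (prf_pure π.f d p fun i hi => hπ p hp i hi).2 𝔭 h𝔭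
  rw [Nat.sub_self] at hdim
  obtain ⟨x, hx⟩ := ph_point_of_vdim_zero _ ⟨𝔭, prf_carr_prime h𝔭, rfl⟩ hdim
  have hpx : p = x := by
    have := h𝔭.2
    rw [hx] at this
    exact this
  exact ⟨𝔭, h𝔭.1, by rw [hx, hpx]⟩

/-! ### the family of the assigned target carriers -/

theorem depnw_family (π : PrfPiece d) (hπ : π.Path) (j : ℕ) (hj : j ≤ d)
    (asg : SpC d → Ideal (PrfPol d)) (hasg : ∀ y ∈ π.S, asg y ∈ prfCarr (prfSys π.f j) y) :
    ∃ 𝒴 : Finset (Set (SpC d)), (∀ q ∈ π.S, zeroLocus ℂ (asg q) ∈ 𝒴) ∧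
      (∀ Y ∈ 𝒴, IsVar Y ∧ vdim Y = d - j) ∧ ∑ Y ∈ 𝒴, vdeg Y ≤ π.degLo j := by
  set 𝒜 : Finset (Ideal (PrfPol d)) := π.S.image asg with h𝒜
  have hcar : (𝒜 : Set (Ideal (PrfPol d))) ⊆ π.carriers j := by
    intro 𝔭 h𝔭
    obtain ⟨y, hy, rfl⟩ := Finset.mem_image.1 (Finset.mem_coe.1 h𝔭)
    exact ⟨y, hy, hasg y hy⟩
  refine ⟨𝒜.image (fun 𝔭 => zeroLocus ℂ 𝔭), fun q hq => ?_, fun Y hY => ?_, ?_⟩
  · exact Finset.mem_image_of_mem _ (Finset.mem_image_of_mem _ hq)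
  · obtain ⟨𝔭, h𝔭, rfl⟩ := Finset.mem_image.1 hY
    obtain ⟨h1, h2⟩ := prf_carriers_dim π hπ j hj (hcar (Finset.mem_coe.2 h𝔭))
    exact ⟨⟨𝔭, h1, rfl⟩, h2⟩
  · have h1 : ∑ Y ∈ 𝒜.image (fun 𝔭 => zeroLocus ℂ 𝔭), vdeg Y ≤ prfDeg 𝒜 := by
      unfold prfDeg
      exact Finset.sum_image_le_of_nonneg (fun _ _ => Nat.zero_le _)
    exact h1.trans (prf_carrier_deg π hπ j hj 𝒜 hcar)

/-- FINITE FORM: the bad centres of one target carrier. -/
theorem depnw_bad (d : ℕ) : ∃ Cd : ℕ, 1 ≤ Cd ∧ ∀ (πx : PrfPiece d) (B v κ : ℝ) (grid : Finset ℝ),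
    πx.Ok B v κ grid → 1 < prfT B v (-1) → (Cd : ℝ) ≤ prfT B v (-1) →
    ∀ L : ℕ, 1 ≤ L → (∀ i < d, (πx.f i).totalDegree ≤ L) →
    ∀ l : ℕ, l < d → ∀ 𝒴 : Finset (Set (SpC d)), (∀ Y ∈ 𝒴, IsVar Y ∧ vdim Y = l) →
    ∀ Y ∈ 𝒴, ∀ R₁ : ℕ, ∃ Bad : Finset (SpC d), Bad ⊆ πx.S ∧
      (Bad.card : ℝ) ≤ 2 * κ * πx.S.card +
        ((πx.S.card : ℝ) + Cd * ((∑ Y' ∈ 𝒴, vdeg Y' : ℕ) : ℝ) * (L : ℝ) ^ (l + 1)) / (R₁ + 1) ∧
      ∀ p ∈ πx.S, p ∉ Bad → vdim (dcone p Y) = l + 1 ∧ DepHalfGood p Y ∧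
        DepRootLE p Y (⋃ Y' ∈ 𝒴, Y') R₁ := by
  obtain ⟨C₁, h₁⟩ := dep_half d
  obtain ⟨C₂, h₂⟩ := dep_narrow_count d
  refine ⟨max 1 (max C₁ C₂), le_max_left _ _, ?_⟩
  intro πx B v κ grid hok hT1 hTC L hL hdeg l hl 𝒴 h𝒴 Y hY R₁
  set Cd := max 1 (max C₁ C₂) with hCd
  have hC₁ : C₁ ≤ Cd := (le_max_left _ _).trans (le_max_right _ _)
  have hC₂ : C₂ ≤ Cd := (le_max_right _ _).trans (le_max_right _ _)
  obtain ⟨hYv, hYl⟩ := h𝒴 Y hY
  -- D1 : dimension drop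
  set D1 := πx.S.filter (fun p => vdim (dcone p Y) ≠ l + 1) with hD1
  have hD1c : (D1.card : ℝ) ≤ κ * πx.S.card := by
    obtain ⟨g, hg0, hg1, hg⟩ := dep_drop Y hYv (by rw [hYl]; exact hl)
    refine hok.low hT1 g hg0 ?_ D1 (Finset.filter_subset _ _) fun x hx => ?_
    · have : ((g.totalDegree : ℕ) : ℝ) ≤ 1 := by exact_mod_cast hg1
      linarith
    · exact hg x (by rw [hYl]; exact (Finset.mem_filter.1 hx).2)
  -- D2 : not half-good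
  set D2 := πx.S.filter (fun p => ¬ DepHalfGood p Y) with hD2
  have hD2c : (D2.card : ℝ) ≤ κ * πx.S.card := by
    obtain ⟨g, hg0, hg1, hg⟩ := h₁ Y hYv (by rw [hYl]; exact hl) πx.S
    refine hok.low hT1 g hg0 ?_ D2 (Finset.filter_subset _ _) fun x hx => ?_
    · have : ((g.totalDegree : ℕ) : ℝ) ≤ Cd := by exact_mod_cast hg1.trans hC₁
      linarith
    · obtain ⟨hx1, hx2⟩ := Finset.mem_filter.1 hx
      by_contra hne
      exact hx2 (hg x hx1 hne)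
  -- D3 : large depth
  set S₀ := πx.S.filter (fun p => vdim (dcone p Y) = l + 1) with hS₀
  obtain ⟨r, hr1, hr2⟩ := h₂ (prfSys πx.f d) L hL
    (by
      rintro g ⟨i, hi, rfl⟩
      exact hdeg i hi) l 𝒴 h𝒴 Y hY S₀
    (fun p hp => ⟨depnw_iso πx hok.path (Finset.mem_filter.1 hp).1, (Finset.mem_filter.1 hp).2⟩)
  set D3 := S₀.filter (fun p => R₁ < r p) with hD3
  have hD3n : D3.card * (R₁ + 1) ≤ πx.S.card + Cd * (∑ Y' ∈ 𝒴, vdeg Y') * L ^ (l + 1) := by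
    calc D3.card * (R₁ + 1) = ∑ _p ∈ D3, (R₁ + 1) := by rw [Finset.sum_const, smul_eq_mul]
      _ ≤ ∑ p ∈ D3, r p := Finset.sum_le_sum fun p hp => (Finset.mem_filter.1 hp).2
      _ ≤ ∑ p ∈ S₀, r p := Finset.sum_le_sum_of_subset (Finset.filter_subset _ _)
      _ ≤ S₀.card + C₂ * (∑ Y' ∈ 𝒴, vdeg Y') * L ^ (l + 1) := hr2
      _ ≤ πx.S.card + Cd * (∑ Y' ∈ 𝒴, vdeg Y') * L ^ (l + 1) := by
          gcongr
          exact Finset.filter_subset _ _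
  have hD3c : (D3.card : ℝ) ≤
      ((πx.S.card : ℝ) + Cd * ((∑ Y' ∈ 𝒴, vdeg Y' : ℕ) : ℝ) * (L : ℝ) ^ (l + 1)) / (R₁ + 1) := by
    rw [le_div_iff₀ (by positivity)]
    exact_mod_cast hD3n
  refine ⟨D1 ∪ D2 ∪ D3, ?_, ?_, ?_⟩
  · refine Finset.union_subset (Finset.union_subset (Finset.filter_subset _ _)
      (Finset.filter_subset _ _)) ?_
    exact (Finset.filter_subset _ _).trans (Finset.filter_subset _ _)
  · have h3 : ((D1 ∪ D2 ∪ D3).card : ℝ) ≤ D1.card + D2.card + D3.card := by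
      have : (D1 ∪ D2 ∪ D3).card ≤ D1.card + D2.card + D3.card :=
        (Finset.card_union_le _ _).trans (Nat.add_le_add_right (Finset.card_union_le _ _) _)
      exact_mod_cast this
    linarith
  · intro p hp hpB
    simp only [Finset.mem_union, not_or] at hpB
    obtain ⟨⟨hp1, hp2⟩, hp3⟩ := hpB
    have e1 : vdim (dcone p Y) = l + 1 := by
      by_contra hne
      exact hp1 (Finset.mem_filter.2 ⟨hp, hne⟩)
    have e2 : DepHalfGood p Y := by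
      by_contra hne
      exact hp2 (Finset.mem_filter.2 ⟨hp, hne⟩)
    have hpS₀ : p ∈ S₀ := Finset.mem_filter.2 ⟨hp, e1⟩
    have e3 : r p ≤ R₁ := by
      by_contra hne
      exact hp3 (Finset.mem_filter.2 ⟨hpS₀, not_le.1 hne⟩)
    exact ⟨e1, e2, depnw_rootLE_mono (hr1 p hpS₀) subset_rfl e3⟩

/-- the final numerical inequality -/
theorem depnw_num (d Cd : ℕ) (η ρ : ℝ) (hη : 0 < η) (hρ : 0 < ρ) : ∃ θ₀ : ℝ, 0 < θ₀ ∧
    ∀ θ : ℝ, 0 < θ → θ ≤ θ₀ → ∀ (s x R Q : ℝ) (R₁ : ℕ), 1 / θ ≤ s → 0 ≤ x → 1 ≤ R →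
      Q ≤ x * R * Real.exp ((3 * d + 1) * θ * s) → R * Real.exp (η * s) ≤ R₁ + 1 →
      2 * θ * x + (x + Cd * Q) / (R₁ + 1) ≤ ρ * x := by
  obtain ⟨θ₂, hθ₂, H₂⟩ := spl_absorb (2 * (1 + Cd) / ρ) (η / 2) (by positivity)
  refine ⟨min (min (ρ / 4) θ₂) (η / (2 * (3 * d + 1))), by positivity, ?_⟩
  intro θ hθ hθ₀ s x R Q R₁ hs hx hR hQ hR₁
  have h1 : θ ≤ ρ / 4 := hθ₀.trans ((min_le_left _ _).trans (min_le_left _ _))
  have h2 : θ ≤ θ₂ := hθ₀.trans ((min_le_left _ _).trans (min_le_right _ _))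
  have h3 : θ ≤ η / (2 * (3 * d + 1)) := hθ₀.trans (min_le_right _ _)
  have hs0 : 0 < s := lt_of_lt_of_le (by positivity) hs
  have h4 : (3 * (d : ℝ) + 1) * θ ≤ η / 2 := by
    rw [le_div_iff₀ (by positivity)] at h3
    nlinarith
  have h5 := H₂ θ s hθ h2 hs
  set E := Real.exp (η / 2 * s) with hE
  have hE0 : 0 < E := Real.exp_pos _
  have h6 : Real.exp ((3 * d + 1) * θ * s) ≤ E :=
    Real.exp_le_exp.mpr (mul_le_mul_of_nonneg_right h4 hs0.le)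
  have h7 : Real.exp (η * s) = E * E := by
    rw [hE, ← Real.exp_add]
    congr 1
    ring
  have hE1 : 1 ≤ E := Real.one_le_exp (by positivity)
  have h8 : (x + Cd * Q) / (R₁ + 1) ≤ ρ / 2 * x := by
    rw [div_le_iff₀ (by positivity)]
    have h9 : Q ≤ x * R * E := hQ.trans (mul_le_mul_of_nonneg_left h6 (by positivity))
    have h10 : (x + Cd * Q) ≤ (1 + Cd) * (x * R * E) := by
      have : x ≤ x * R * E := by
        have : (1 : ℝ) ≤ R * E := by nlinarith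
        nlinarith
      have h11 : (Cd : ℝ) * Q ≤ Cd * (x * R * E) := mul_le_mul_of_nonneg_left h9 (by positivity)
      linarith
    have h12 : (1 + (Cd : ℝ)) ≤ ρ / 2 * E := by
      rw [div_le_iff₀ hρ] at h5
      linarith
    calc x + Cd * Q ≤ (1 + Cd) * (x * R * E) := h10
      _ ≤ (ρ / 2 * E) * (x * R * E) := mul_le_mul_of_nonneg_right h12 (by positivity)
      _ = ρ / 2 * x * (R * (E * E)) := by ring
      _ ≤ ρ / 2 * x * (R₁ + 1) := by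
          rw [← h7]
          exact mul_le_mul_of_nonneg_left hR₁ (by positivity)
  have h13 : 2 * θ * x ≤ ρ / 2 * x := mul_le_mul_of_nonneg_right (by linarith) hx
  linarith

/-- `e_j B^{l+1} = N R` -/
theorem depnw_prod (hd : 1 ≤ d) {b : ℕ → ℝ} (hb : SpAdm d b) {X : SpPool d} {D : SpData d}
    {s θ : ℝ} (hθ : 0 < θ) (hX : X.Ok D s θ b) {j : ℕ} (hj : j ≤ d) :
    spE D.B s b j * D.B ^ (d - j + 1) = D.N * prfT D.B s (-∑ i ∈ Finset.Ico j d, b i) := by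
  have h1 := spl_spE_mul D.B s b hj
  rw [spl_spE_top hd hb hθ hX] at h1
  have h2 : ∏ i ∈ Finset.Ico j d, spD D.B s b i
      = D.B ^ (d - j) * Real.exp ((∑ i ∈ Finset.Ico j d, b i) * s) := by
    unfold spD prfT
    rw [Finset.prod_mul_distrib, ← Real.exp_sum, ← Finset.sum_mul]
    simp
  rw [← h1, h2]
  unfold prfT
  have h3 : Real.exp ((∑ i ∈ Finset.Ico j d, b i) * s) *
      Real.exp ((-∑ i ∈ Finset.Ico j d, b i) * s) = 1 := by
    rw [← Real.exp_add]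
    simp
  calc spE D.B s b j * D.B ^ (d - j + 1) = spE D.B s b j * D.B ^ (d - j) * D.B * 1 := by ring
    _ = _ := by rw [← h3]; ring

/-- `b i ≤ 1` -/
theorem depnw_b_le {b : ℕ → ℝ} (hb : SpAdm d b) {i : ℕ} (hi : i < d) : b i ≤ 1 :=
  (hb.mono i (d - 1) (by omega) (by omega)).trans hb.hi

/-- `R ≥ 1` -/
theorem depnw_R_ge {b : ℕ → ℝ} (hb : SpAdm d b) {B s θ : ℝ} (hθ : 0 < θ) (hθd : d * θ ≤ 1)
    (hB : 0 < B) (hs : 0 ≤ s) (hsB : s ≤ θ * Real.log B) (j : ℕ) :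
    1 ≤ prfT B s (-∑ i ∈ Finset.Ico j d, b i) := by
  have h1 : ∑ i ∈ Finset.Ico j d, b i ≤ d := by
    calc ∑ i ∈ Finset.Ico j d, b i ≤ ∑ _i ∈ Finset.Ico j d, (1 : ℝ) :=
          Finset.sum_le_sum fun i hi => depnw_b_le hb (Finset.mem_Ico.1 hi).2
      _ = ((d - j : ℕ) : ℝ) := by simp
      _ ≤ d := by exact_mod_cast Nat.sub_le _ _
  have h2 : (d : ℝ) * s ≤ Real.log B := by
    have hlog : 0 ≤ Real.log B := by
      by_contra hneg
      rw [not_le] at hneg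
      nlinarith
    calc (d : ℝ) * s ≤ d * (θ * Real.log B) := mul_le_mul_of_nonneg_left hsB (by positivity)
      _ = (d * θ) * Real.log B := by ring
      _ ≤ 1 * Real.log B := mul_le_mul_of_nonneg_right hθd hlog
      _ = Real.log B := one_mul _
  unfold prfT
  have h3 : Real.exp (d * s) ≤ B := by
    rw [← Real.exp_log hB]
    exact Real.exp_le_exp.mpr h2
  have h4 : Real.exp (-(d * s)) ≤ Real.exp ((-∑ i ∈ Finset.Ico j d, b i) * s) :=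
    Real.exp_le_exp.mpr (by nlinarith)
  calc (1 : ℝ) = Real.exp (d * s) * Real.exp (-(d * s)) := by rw [← Real.exp_add]; simp
    _ ≤ B * Real.exp ((-∑ i ∈ Finset.Ico j d, b i) * s) :=
        mul_le_mul h3 h4 (Real.exp_pos _).le hB.le

/-- the product `(∑ vdeg) L^{l+1}` -/
theorem depnw_Q (hd : 1 ≤ d) {b : ℕ → ℝ} (hb : SpAdm d b) {X Y : SpPool d} {D : SpData d}
    {v s θ : ℝ} (hθ : 0 < θ) (hθ1 : θ ≤ 1) (hX : X.Ok D v θ b) (hY : Y.Ok D s θ b)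
    (hvs : v ≤ θ * s) {a a' : ℕ} (ha : a ∈ Y.I) (ha' : a' ∈ X.I) {j : ℕ} (hj1 : 1 ≤ j)
    (hj : j ≤ d) (σ : ℕ) (hσ : σ ≤ (Y.π a).degLo j) :
    (σ : ℝ) * ((⌊prfT D.B v (1 + θ)⌋₊ : ℕ) : ℝ) ^ (d - j + 1) ≤
      ((X.π a').S.card : ℝ) * prfT D.B s (-∑ i ∈ Finset.Ico j d, b i) *
        Real.exp ((3 * d + 1) * θ * s) := by
  have hs := spl_s_pos hθ hY
  have hv := spl_s_pos hθ hX
  have hB := spl_B_pos hθ hY
  have hE := spl_spE_pos hθ hY j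
  have h1 : (σ : ℝ) ≤ spE D.B s b j * Real.exp (d * θ * s) :=
    le_trans (by exact_mod_cast hσ) (spl_degLo_le hθ hY ha hj)
  have hT0 : 0 ≤ prfT D.B v (1 + θ) := (mul_pos hB (Real.exp_pos _)).le
  have h2 : ((⌊prfT D.B v (1 + θ)⌋₊ : ℕ) : ℝ) ≤ D.B * Real.exp (2 * θ * s) := by
    refine (Nat.floor_le hT0).trans ?_
    unfold prfT
    refine mul_le_mul_of_nonneg_left (Real.exp_le_exp.mpr ?_) hB.le
    nlinarith
  have h3 : ((⌊prfT D.B v (1 + θ)⌋₊ : ℕ) : ℝ) ^ (d - j + 1) ≤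
      D.B ^ (d - j + 1) * Real.exp (2 * d * θ * s) := by
    calc ((⌊prfT D.B v (1 + θ)⌋₊ : ℕ) : ℝ) ^ (d - j + 1)
        ≤ (D.B * Real.exp (2 * θ * s)) ^ (d - j + 1) := pow_le_pow_left₀ (by positivity) h2 _
      _ = D.B ^ (d - j + 1) * Real.exp (((d - j + 1 : ℕ) : ℝ) * (2 * θ * s)) := by
          rw [mul_pow, ← Real.exp_nat_mul]
      _ ≤ D.B ^ (d - j + 1) * Real.exp (2 * d * θ * s) := by
          refine mul_le_mul_of_nonneg_left (Real.exp_le_exp.mpr ?_) (by positivity)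
          have : ((d - j + 1 : ℕ) : ℝ) ≤ d := by exact_mod_cast (by omega : d - j + 1 ≤ d)
          have h0 : 0 ≤ 2 * θ * s := by positivity
          nlinarith
  have h4 := spl_N_le_member hX ha'
  have h5 : Real.exp (θ * v) ≤ Real.exp (θ * s) := by
    refine Real.exp_le_exp.mpr (mul_le_mul_of_nonneg_left ?_ hθ.le)
    nlinarith
  set R := prfT D.B s (-∑ i ∈ Finset.Ico j d, b i) with hR
  have hR0 : 0 < R := mul_pos hB (Real.exp_pos _)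
  calc (σ : ℝ) * ((⌊prfT D.B v (1 + θ)⌋₊ : ℕ) : ℝ) ^ (d - j + 1)
      ≤ (spE D.B s b j * Real.exp (d * θ * s)) * (D.B ^ (d - j + 1) * Real.exp (2 * d * θ * s)) :=
        mul_le_mul h1 h3 (by positivity) (by positivity)
    _ = (spE D.B s b j * D.B ^ (d - j + 1)) * (Real.exp (d * θ * s) * Real.exp (2 * d * θ * s)) := by
        ring
    _ = D.N * R * Real.exp (3 * d * θ * s) := by
        rw [depnw_prod hd hb hθ hY hj, ← Real.exp_add]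
        congr 2
        ring
    _ ≤ (((X.π a').S.card : ℝ) * Real.exp (θ * s)) * R * Real.exp (3 * d * θ * s) := by
        refine mul_le_mul_of_nonneg_right (mul_le_mul_of_nonneg_right ?_ hR0.le) (Real.exp_pos _).le
        exact h4.trans (mul_le_mul_of_nonneg_left h5 (by positivity))
    _ = ((X.π a').S.card : ℝ) * R * (Real.exp (θ * s) * Real.exp (3 * d * θ * s)) := by ring
    _ = ((X.π a').S.card : ℝ) * R * Real.exp ((3 * d + 1) * θ * s) := by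
        rw [← Real.exp_add]
        congr 2
        ring

theorem dep_narrow_depth (hd : 3 ≤ d) (b : ℕ → ℝ) (hb : SpAdm d b) (j : ℕ) (hj1 : 1 ≤ j)
    (hjd : j < d) : DepDepthStmt d false b j (-∑ i ∈ Finset.Ico j d, b i) := by
  intro η ρ hη hρ
  obtain ⟨Cd, hCd1, HB⟩ := depnw_bad d
  obtain ⟨θ₀, hθ₀, HN⟩ := depnw_num d Cd η ρ hη hρ
  obtain ⟨θ₁, hθ₁, HA⟩ := spl_absorb (max (Cd : ℝ) 2) 1 one_pos
  have hd0 : (0 : ℝ) < d := by
    have : 0 < d := by omega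
    exact_mod_cast this
  refine ⟨min (min θ₀ θ₁) (min (1 / 2) (1 / d)), by positivity, ?_⟩
  intro 𝔠 α hok hsep hor asg hasg
  set θ := min (min θ₀ θ₁) (min (1 / 2) (1 / (d : ℝ))) with hθdef
  have hθ : 0 < θ := by positivity
  have hθ0 : θ ≤ θ₀ := (min_le_left _ _).trans (min_le_left _ _)
  have hθ1 : θ ≤ θ₁ := (min_le_left _ _).trans (min_le_right _ _)
  have hθ2 : θ ≤ 1 / 2 := (min_le_right _ _).trans (min_le_left _ _)
  have hθ3 : θ ≤ 1 / d := (min_le_right _ _).trans (min_le_right _ _)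
  have hθd : (d : ℝ) * θ ≤ 1 := by
    rw [le_div_iff₀ hd0] at hθ3
    linarith
  obtain ⟨-, hvB, hsB, ⟨a', ha'⟩, ⟨a, ha⟩⟩ := hsep
  have hvs : 𝔠.v ≤ θ * 𝔠.s := hor.2 rfl
  have hX := hok.okX
  have hY := hok.okY
  have haI : a ∈ 𝔠.Y.I := by rw [ha]; exact Finset.mem_singleton_self _
  have haI' : a' ∈ 𝔠.X.I := by rw [ha']; exact Finset.mem_singleton_self _
  have hXpts : 𝔠.X.pts = (𝔠.X.π a').S := by
    unfold SpPool.pts
    rw [ha', Finset.singleton_biUnion]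
  have hYpts : 𝔠.Y.pts = (𝔠.Y.π a).S := by
    unfold SpPool.pts
    rw [ha, Finset.singleton_biUnion]
  have hs := spl_s_pos hθ hY
  have hv := spl_s_pos hθ hX
  have hB := spl_B_pos hθ hY
  set B := 𝔠.D.B with hBdef
  set R := prfT B 𝔠.s (-∑ i ∈ Finset.Ico j d, b i) with hR
  have hR1 : 1 ≤ R := depnw_R_ge hb hθ hθd hB hs.le hsB j
  -- the lower boundary of the centre window
  have hT : max (Cd : ℝ) 2 ≤ prfT B 𝔠.v (-1) := by
    have h1 := HA θ 𝔠.v hθ hθ1 hX.s_ge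
    rw [one_mul] at h1
    refine h1.trans ?_
    have h2 : 2 * 𝔠.v ≤ Real.log B := by
      have hlog : 0 ≤ Real.log B := by
        by_contra hneg
        rw [not_le] at hneg
        nlinarith
      nlinarith
    have h3 : Real.exp (2 * 𝔠.v) ≤ B := by
      rw [← Real.exp_log hB]
      exact Real.exp_le_exp.mpr h2
    unfold prfT
    calc Real.exp 𝔠.v = Real.exp (2 * 𝔠.v) * Real.exp (-1 * 𝔠.v) := by
          rw [← Real.exp_add]
          congr 1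
          ring
      _ ≤ B * Real.exp (-1 * 𝔠.v) := mul_le_mul_of_nonneg_right h3 (Real.exp_pos _).le
  have hT1 : 1 < prfT B 𝔠.v (-1) := lt_of_lt_of_le (by norm_num) ((le_max_right _ _).trans hT)
  have hTC : (Cd : ℝ) ≤ prfT B 𝔠.v (-1) := (le_max_left _ _).trans hT
  -- the degree of the centre system
  set L := ⌊prfT B 𝔠.v (1 + θ)⌋₊ with hL
  have hL1 : 1 ≤ L := Nat.le_floor (by
    have := spl_one_le_T hθ hX (t := 1 + θ) (by linarith)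
    simpa using this)
  have hdeg : ∀ i < d, ((𝔠.X.π a').f i).totalDegree ≤ L :=
    spl_cut_deg hθ hX haI' le_rfl (fun i hi => by linarith [depnw_b_le hb hi])
  -- the family
  obtain ⟨𝒴, h𝒴1, h𝒴2, h𝒴3⟩ := depnw_family (𝔠.Y.π a) (hY.piece a haI).path j hjd.le asg
    (hasg a haI)
  set R₁ := ⌊R * Real.exp (η * 𝔠.s)⌋₊ with hR₁
  have hR₁a : (R₁ : ℝ) ≤ R * Real.exp (η * 𝔠.s) := Nat.floor_le (by positivity)
  have hR₁b : R * Real.exp (η * 𝔠.s) ≤ R₁ + 1 := (Nat.lt_floor_add_one _).le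
  have H : ∀ Y ∈ 𝒴, ∃ Bad : Finset (SpC d), Bad ⊆ (𝔠.X.π a').S ∧
      (Bad.card : ℝ) ≤ ρ * ((𝔠.X.π a').S.card : ℝ) ∧
      ∀ p ∈ (𝔠.X.π a').S, p ∉ Bad → vdim (dcone p Y) = d - j + 1 ∧ DepHalfGood p Y ∧
        DepRootLE p Y (⋃ Y' ∈ 𝒴, Y') R₁ := by
    intro Y hYm
    obtain ⟨Bad, hb1, hb2, hb3⟩ := HB (𝔠.X.π a') B 𝔠.v θ 𝔠.X.grid (hX.piece a' haI') hT1 hTC L hL1
      hdeg (d - j) (by omega) 𝒴 h𝒴2 Y hYm R₁
    refine ⟨Bad, hb1, hb2.trans ?_, hb3⟩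
    have hQ := depnw_Q (by omega) hb hθ (by linarith) hX hY hvs haI haI' hj1 hjd.le _ h𝒴3
    have := HN θ hθ hθ0 𝔠.s ((𝔠.X.π a').S.card : ℝ) R _ R₁ hY.s_ge (by positivity) hR1 hQ hR₁b
    rw [← mul_assoc] at this
    exact this
  choose! Bad hBad1 hBad2 hBad3 using H
  refine ⟨(𝔠.X.pts ×ˢ 𝔠.Y.pts).filter (fun z => z.1 ∈ Bad (zeroLocus ℂ (asg z.2))), R₁, ?_, hR₁a,
    ?_⟩
  · have hsub : (𝔠.X.pts ×ˢ 𝔠.Y.pts).filter (fun z => z.1 ∈ Bad (zeroLocus ℂ (asg z.2))) ⊆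
        𝔠.Y.pts.biUnion (fun q => (Bad (zeroLocus ℂ (asg q))).image (fun p => (p, q))) := by
      intro z hz
      obtain ⟨hz1, hz2⟩ := Finset.mem_filter.1 hz
      exact Finset.mem_biUnion.2 ⟨z.2, (Finset.mem_product.1 hz1).2,
        Finset.mem_image.2 ⟨z.1, hz2, rfl⟩⟩
    have h1 : (((𝔠.X.pts ×ˢ 𝔠.Y.pts).filter
        (fun z => z.1 ∈ Bad (zeroLocus ℂ (asg z.2)))).card : ℝ) ≤
        ∑ q ∈ 𝔠.Y.pts, ((Bad (zeroLocus ℂ (asg q))).card : ℝ) := by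
      have : ((𝔠.X.pts ×ˢ 𝔠.Y.pts).filter (fun z => z.1 ∈ Bad (zeroLocus ℂ (asg z.2)))).card ≤
          ∑ q ∈ 𝔠.Y.pts, (Bad (zeroLocus ℂ (asg q))).card :=
        (Finset.card_le_card hsub).trans (Finset.card_biUnion_le.trans
          (Finset.sum_le_sum fun q _ => Finset.card_image_le))
      exact_mod_cast this
    refine h1.trans ?_
    calc ∑ q ∈ 𝔠.Y.pts, ((Bad (zeroLocus ℂ (asg q))).card : ℝ)
        ≤ ∑ _q ∈ 𝔠.Y.pts, ρ * (𝔠.X.pts.card : ℝ) := by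
          refine Finset.sum_le_sum fun q hq => ?_
          rw [hXpts]
          exact hBad2 _ (h𝒴1 q (hYpts ▸ hq))
      _ = ρ * (𝔠.X.pts.card : ℝ) * (𝔠.Y.pts.card : ℝ) := by
          rw [Finset.sum_const, nsmul_eq_mul]
          ring
  · intro p hp q hq hpq
    have hq' : q ∈ (𝔠.Y.π a).S := hYpts ▸ hq
    have hp' : p ∈ (𝔠.X.π a').S := hXpts ▸ hp
    have hnb : p ∉ Bad (zeroLocus ℂ (asg q)) := fun hmem =>
      hpq (Finset.mem_filter.2 ⟨Finset.mem_product.2 ⟨hp, hq⟩, hmem⟩)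
    obtain ⟨e1, e2, e3⟩ := hBad3 _ (h𝒴1 q hq') p hp' hnb
    refine ⟨e1, e2, depnw_rootLE_mono e3 ?_ le_rfl⟩
    intro z hz
    simp only [Set.mem_iUnion, Set.mem_ofPred_eq, exists_prop] at hz
    obtain ⟨q', ⟨hq1, -⟩, hz'⟩ := hz
    simp only [Set.mem_iUnion, exists_prop]
    exact ⟨_, h𝒴1 q' (hYpts ▸ hq1), hz'⟩

end Claimed.Agent.R273
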