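import Claimed.Agent.R273.Top

/-!
# Row 273: interfaces below `DirStmt`

`DirStmt d` follows from `SparseStmt d` (sparse cones, paper sc:theorem, uniform form) and
`RichLinesStmt d` (Szemeredi-Trotter, rich-line form) by an ELEMENTARY, variety-free argument
(blueprint: channel row273, note "T1").
-/

set_option autoImplicit false

namespace Claimed.Agent.R273

open Claims.C0444 MvPolynomial

/-- A planar directional curve in `P^{d-1}(ℂ)`: a projective plane (given by an injective linear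
map `φ : ℂ³ → ℂ^d`) and a nonzero form `F` of degree `deg` on it.  (Lines are `deg = 1`.) -/
structure PCurve (d : ℕ) where
  φ : (Fin 3 → ℂ) →ₗ[ℂ] (Fin d → ℂ)
  F : MvPolynomial (Fin 3) ℂ
  deg : ℕ
  inj : Function.Injective φ
  hom : F.IsHomogeneous deg
  ne : F ≠ 0

/-- The vector `w` lies on the cone over the curve. -/
def PCurve.Mem {d : ℕ} (c : PCurve d) (w : Fin d → ℂ) : Prop :=
  ∃ x : Fin 3 → ℂ, c.φ x = w ∧ eval x c.F = 0

/-- The ordered pair `(p,q)` is covered from the endpoint `p`. -/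
def CovAt {d : ℕ} (C : Pt d → List (PCurve d)) (p q : Pt d) : Prop :=
  ∃ c ∈ C p, c.Mem (cdir p q)

/-- (SPARSE) Sparse cones, uniform form: for `N ≥ 1/δ`, `M ≤ δ A`, families of planar directional
curves of total degree `≤ δ N / A` in every star leave more than `δ N²` ordered pairs uncovered
(covered = from one endpoint or the other). -/
def SparseStmt (d : ℕ) : Prop :=
  (∀ u, 3 ≤ u → u < d → MainStmt u) →
  ∃ δ : ℝ, 0 < δ ∧ ∀ P : Finset (Pt d), 1 ≤ δ * (P.card : ℝ) → (dM P : ℝ) ≤ δ * dA P →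
    ∀ C : Pt d → List (PCurve d),
      (∀ p ∈ P, ((((C p).map PCurve.deg).sum : ℕ) : ℝ) ≤ δ * (P.card : ℝ) / dA P) →
      ∀ U : Finset (Pt d × Pt d),
        (∀ p ∈ P, ∀ q ∈ P, p ≠ q → (p, q) ∈ U ∨ CovAt C p q ∨ CovAt C q p) →
        δ * (P.card : ℝ) ^ 2 < (U.card : ℝ)

/-- (ST) Rich lines: the number of lines containing at least `t ≥ 2` points of an `N`-point set in
`ℝ^d` is at most `C (N²/t³ + N/t)`. -/
def RichLinesStmt (d : ℕ) : Prop :=
  ∃ C : ℝ, 0 < C ∧ ∀ (X : Finset (Pt d)) (t : ℕ), 2 ≤ t →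
    ∀ 𝓛 : Finset (AffineSubspace ℝ (Pt d)),
      (∀ L ∈ 𝓛, Module.finrank ℝ L.direction = 1 ∧
        ∃ T ⊆ X, t ≤ T.card ∧ ∀ x ∈ T, x ∈ L) →
      (𝓛.card : ℝ) ≤ C * ((X.card : ℝ) ^ 2 / (t : ℝ) ^ 3 + (X.card : ℝ) / (t : ℝ))

/-- (T1) the elementary derivation of `DirStmt`. -/
def DirAsmStmt (d : ℕ) : Prop :=
  3 ≤ d → SparseStmt d → RichLinesStmt d → DirStmt d

end Claimed.Agent.R273
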