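import Claimed.Agent.R273.PhDefs
import Claimed.Agent.R273.Dir

/-!
# Row 273, S5 = profiles.tex (architect helper161): definitions.  Prefix `prf`.

FINITE FORM of Section 5: no sequences, no limits, no `o(s)`.  A *piece* is a finite set `S ⊆ ℂ^n`
with ONE path of `n` cuts `f 0, .., f (n-1)` and the recorded (normalised, grid) times `τ i` of the
cuts.  Irreducible components are minimal primes; "component through `x`" = minimal prime whose zero
locus contains `x`.

* `prfCarr G x`       : the local carriers at `x` of the system `G`;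
* `PrfProperAt G g x` : `g(x) = 0` and `g` vanishes identically on NO local carrier of `G` at `x`
                        ("`g` is a proper cut at `x`" = "`g` captures `x`");
* `prfSys f j`        : the system `f 0, .., f (j-1)`;
* `prfT B s b`        : the testing degree `T_s(b) = B e^{b s}` (real; degrees are compared with it);
* `PrfPiece.Ok`       : the axioms of a piece: monotone grid times, degrees, properness of the path at
                        every point, NO-CAPTURE at every grid time at which the piece was a residual.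
-/

set_option autoImplicit false

namespace Claimed.Agent.R273

open MvPolynomial

/-- Polynomials in `n` variables over `ℂ`. -/
abbrev PrfPol (n : ℕ) := MvPolynomial (Fin n) ℂ

/-- The complex point of a real point. -/
def prfPt {d : ℕ} (p : Pt d) : Fin d → ℂ := fun i => ((p i : ℝ) : ℂ)

/-- Local carriers: the irreducible components of `Z(G)` through `x`. -/
def prfCarr {n : ℕ} (G : Set (PrfPol n)) (x : Fin n → ℂ) : Set (Ideal (PrfPol n)) :=
  {p | p ∈ (Ideal.span G).minimalPrimes ∧ x ∈ zeroLocus ℂ p}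

/-- `g` is a proper cut of the system `G` at the point `x`. -/
def PrfProperAt {n : ℕ} (G : Set (PrfPol n)) (g : PrfPol n) (x : Fin n → ℂ) : Prop :=
  eval x g = 0 ∧ ∀ p ∈ prfCarr G x, g ∉ p

/-- The first `j` equations of a path. -/
def prfSys {n : ℕ} (f : ℕ → PrfPol n) (j : ℕ) : Set (PrfPol n) := f '' Set.Iio j

/-- Testing degree `T_s(b) = B e^{b s}`. -/
noncomputable def prfT (B s b : ℝ) : ℝ := B * Real.exp (b * s)

/-- Total degree of a finite family of primes. -/
noncomputable def prfDeg {n : ℕ} (𝒜 : Finset (Ideal (PrfPol n))) : ℕ :=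
  ∑ p ∈ 𝒜, vdeg (zeroLocus ℂ p)

/-- Union of the zero loci of a finite family of primes. -/
def prfUn {n : ℕ} (𝒜 : Finset (Ideal (PrfPol n))) : Set (Fin n → ℂ) :=
  ⋃ p ∈ 𝒜, zeroLocus ℂ p

/-- A piece: points, path, recorded times. -/
structure PrfPiece (n : ℕ) where
  S : Finset (Fin n → ℂ)
  f : ℕ → PrfPol n
  τ : ℕ → ℝ

/-- The carriers of a piece after `j` cuts. -/
def PrfPiece.carriers {n : ℕ} (π : PrfPiece n) (j : ℕ) : Set (Ideal (PrfPol n)) :=
  {p | ∃ x ∈ π.S, p ∈ prfCarr (prfSys π.f j) x}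

/-- `σ(t) = ∏_i min (T_s(t), T_s(τ_i))`. -/
noncomputable def PrfPiece.sigma {n : ℕ} (π : PrfPiece n) (B s t : ℝ) : ℝ :=
  ∏ i ∈ Finset.range n, min (prfT B s t) (prfT B s (π.τ i))

/-- The path of `π` is proper at all its points. -/
def PrfPiece.Path {n : ℕ} (π : PrfPiece n) : Prop :=
  ∀ x ∈ π.S, ∀ j < n, PrfProperAt (prfSys π.f j) (π.f j) x

/-- Axioms of a piece of width `s` (base degree `B`, capture fraction `κ`, time grid `grid`). -/
structure PrfPiece.Ok {n : ℕ} (π : PrfPiece n) (B s κ : ℝ) (grid : Finset ℝ) : Prop where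
  mono : ∀ i j, i ≤ j → j < n → π.τ i ≤ π.τ j
  mem : ∀ i < n, π.τ i ∈ grid
  deg : ∀ i < n, ((π.f i).totalDegree : ℝ) ≤ prfT B s (π.τ i)
  path : π.Path
  /-- NO-CAPTURE: at a grid time `t` with exactly `j` cuts made (`τ i ≤ t` iff `i < j`), a polynomial
  of degree `≤ T_s(t)` is a proper cut of the current system at `≤ κ |S|` points of the piece. -/
  nocap : ∀ t ∈ grid, ∀ j ≤ n, (∀ i < j, π.τ i ≤ t) → (∀ i, j ≤ i → i < n → t < π.τ i) →
    ∀ g : PrfPol n, (g.totalDegree : ℝ) ≤ prfT B s t →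
      ∀ S' ⊆ π.S, (∀ x ∈ S', PrfProperAt (prfSys π.f j) g x) → (S'.card : ℝ) ≤ κ * π.S.card
  /-- LOWER BOUNDARY (inherited from the previous window; for the outermost window `T_s(-1) = 1`
  and this is no-capture by hyperplanes or is not used). -/
  low : 1 < prfT B s (-1) → ∀ g : PrfPol n, g ≠ 0 → (g.totalDegree : ℝ) ≤ prfT B s (-1) →
      ∀ S' ⊆ π.S, (∀ x ∈ S', eval x g = 0) → (S'.card : ℝ) ≤ κ * π.S.card

/-- A time grid on `[-1, top]` of mesh `≤ μ`. -/
structure PrfGrid (grid : Finset ℝ) (μ top : ℝ) : Prop where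
  neg_one : (-1 : ℝ) ∈ grid
  top_mem : top ∈ grid
  range : ∀ t ∈ grid, -1 ≤ t ∧ t ≤ top
  mesh : ∀ b : ℝ, -1 ≤ b → b ≤ top → ∃ t ∈ grid, b ≤ t ∧ t ≤ b + μ
  pred : ∀ t ∈ grid, -1 < t → ∃ t' ∈ grid, t' < t ∧ t - μ ≤ t' ∧ ∀ u ∈ grid, u < t → u ≤ t'

end Claimed.Agent.R273
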