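-- KEEP
import Claimed.Agent.R273.PhMap
import Claimed.Agent.R273.PrfDefs

/-!
# Row 273, S4 = secants.tex (chief architect helper26): vocabulary.  Prefix `geo`.

Everything is written in helper94's Ph language (`IsVar`, `vdim`, `vdeg`, `zcl`, `prodSet`, `tanSp`).

* `GenOn V Pr`      : `Pr` holds at the general point of `V` (outside `Z(h)`, `h` not identically zero on `V`);
* `tanAt V x`       : Zariski tangent space of (the vanishing ideal of) `V` at `x`;
* `dirSpan Y`       : direction space of the complex affine span of `Y`;  `InSpan a Y` : `a` lies in that affine span;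
* `InFlat T u`      : `T` lies in a complex affine flat of dimension `≤ u`;
* `coneSet a Y`, `coneCl a Y` : the cone over `Y` with apex `a`, and its Zariski closure;
* `ConeIn L a Y`    : paper's `closure (π_a Y) ⊆ C_a` (cones are closed, so no closure is needed);
The regime, the caps and the assignments are those of helper37's frame (`SpData`, `SpData.Reg`, `SpTerm`, `SpThin`: SpFrame.lean).
-/

set_option autoImplicit false

namespace Claimed.Agent.R273

open MvPolynomial Module Claims.C0444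

section voc

variable {ι κ : Type*}

/-- `Pr` holds at the general point of `V`. -/
def GenOn (V : Set (ι → ℂ)) (Pr : (ι → ℂ) → Prop) : Prop :=
  ∃ h : MvPolynomial ι ℂ, (∃ x ∈ V, eval x h ≠ 0) ∧ ∀ x ∈ V, eval x h ≠ 0 → Pr x

/-- Zariski tangent space of a set at a point. -/
noncomputable def tanAt [Fintype ι] (V : Set (ι → ℂ)) (x : ι → ℂ) : Submodule ℂ (ι → ℂ) :=
  tanSp (vanishingIdeal ℂ V) x

/-- Direction space of the affine span. -/
noncomputable def dirSpan (Y : Set (ι → ℂ)) : Submodule ℂ (ι → ℂ) :=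
  Submodule.span ℂ {v | ∃ y ∈ Y, ∃ y' ∈ Y, v = y - y'}

/-- `a` lies in the affine span of `Y`. -/
def InSpan (a : ι → ℂ) (Y : Set (ι → ℂ)) : Prop := ∃ y ∈ Y, a - y ∈ dirSpan Y

/-- `T` lies in a complex affine flat of dimension `≤ u`. -/
def InFlat (T : Set (ι → ℂ)) (u : ℕ) : Prop :=
  ∃ (x₀ : ι → ℂ) (W : Submodule ℂ (ι → ℂ)), finrank ℂ W ≤ u ∧ ∀ x ∈ T, x - x₀ ∈ W

/-- The cone over `Y` with apex `a`. -/
def coneSet (a : ι → ℂ) (Y : Set (ι → ℂ)) : Set (ι → ℂ) :=
  {x | ∃ y ∈ Y, ∃ t : ℂ, x = a + t • (y - a)}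

/-- The closed cone over `Y` with apex `a`. -/
def coneCl [Fintype ι] (a : ι → ℂ) (Y : Set (ι → ℂ)) : Set (ι → ℂ) := zcl (coneSet a Y)

/-- first factor of a point of a product -/
def prL (z : ι ⊕ κ → ℂ) : ι → ℂ := fun i => z (Sum.inl i)

/-- second factor of a point of a product -/
def prR (z : ι ⊕ κ → ℂ) : κ → ℂ := fun j => z (Sum.inr j)

end voc

variable {d : ℕ}

/-- `closure (π_a Y) ⊆ C_a`. -/
def ConeIn (L : List (PCurve d)) (a : Fin d → ℂ) (Y : Set (Fin d → ℂ)) : Prop :=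
  ∀ y ∈ Y, y ≠ a → ∃ c ∈ L, c.Mem (y - a)

theorem GenOn_eqns_cite {ι : Type*} (V : Set (ι → ℂ)) (Pr : (ι → ℂ) → Prop) :
    GenOn V Pr ↔ ∃ h : MvPolynomial ι ℂ, (∃ x ∈ V, eval x h ≠ 0) ∧ ∀ x ∈ V, eval x h ≠ 0 → Pr x :=
  Iff.rfl

end Claimed.Agent.R273
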