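-- KEEP
import Claimed.Agent.R273.GeoDefs

/-!
# Row 273, S4 (secants.tex), layer 0: the calculus of `GenOn` ("at the general point of `V`") and the open form of Chevalley.  Architect helper26.  Prefix `geo_`.

Everything is on top of helper94's `Ph*.lean` (black boxes).  `GenOn V P := ∃ h, (∃ x ∈ V, h x ≠ 0) ∧ ∀ x ∈ V, h x ≠ 0 → P x`.

LEAF GEO-GEN-A (`geo_gen_and`, `geo_gen_finset`, `geo_gen_closed`, `geo_gen_false`, `geo_gen_prod_left/right`, `geo_gen_lift_left/right`, `geo_gen_swap`, `geo_gen_prod_of`).  ~150 lines.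
  `geo_gen_and`: product `h₁ h₂`; it does not vanish identically on the irreducible `V` (`ph_isVar_mul`).  `geo_gen_finset`: `Finset.induction_on`, `geo_gen_and`, `geo_gen_of_forall` (`ph_isVar_nonempty`).
  `geo_gen_closed`: for `g ∈ G`: `h g = 0` on `V`, `ph_isVar_mul`.  `geo_gen_prod_left`: `H(x₀,y₀) ≠ 0`; `h(x) := H(x, y₀)` = `aeval (Sum.elim X (fun j => C (y₀ j))) H`; for `h(x) ≠ 0` the polynomial `H(x, ·)` = `aeval (Sum.elim (fun i => C (x i)) X) H` is nonzero at `y₀ ∈ Y`.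
  `geo_gen_lift_left`: `rename Sum.inl h`.  `geo_gen_swap`: `rename Sum.swap`.  (`z ∈ prodSet X Y ↔ prL z ∈ X ∧ prR z ∈ Y` is `Iff.rfl`; `Sum.elim (prL z) (prR z) = z` by `funext`/`Sum.rec`.)
  `geo_gen_prod_of`: `h(x₀) ≠ 0`, `P (x₀, ·)` holds outside `Z(h')`, but `h'` depends on `x`: NOT claimed.  Only the stated forms are needed.
LEAF GEO-GEN-B (`geo_rabin_isVar`, `geo_image_dense_open`).  ~200 lines.
  `geo_rabin`: `V* := {(x,s) | x ∈ V, s g(x) = 1} ⊆ ℂ^{ι ⊕ Unit}`.  Closed: `Zl (rename inl '' I(V) ∪ {X (inr ()) * rename inl g - 1})`, so `zcl V* = V*` (`ph_zcl_Zl`).  Irreducible by `ph_isVar_zcl_iff`: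
  CLEARING: for every `F ∈ ℂ[x,s]` there are `N` and `F̃ ∈ ℂ[x]` with `F̃(x) = g(x)^N F(x,s)` whenever `s g(x) = 1` (`MvPolynomial.induction_on`: `C a`: `N = 0`; sum: pass to `max N N'` by multiplying with powers of `g`; `· X (inl i)`: same `N`, `F̃ X_i`; `· X (inr ())`: `N + 1`, same `F̃`).
  If `F F' = 0` on `V*` then `g F̃ F̃' = 0` on `V`, `g ≢ 0`, so (`ph_isVar_mul` twice) `F̃ = 0` on `V` or `F̃' = 0` on `V`, i.e. `F = 0` on `V*` or `F' = 0` on `V*`.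
  `geo_image_dense_open`: `ph_image_dense` for `V*` and `ψ* := rename inl ∘ ψ`; `pmap ψ* '' V* = pmap ψ '' (V \ Z(g))`; `zcl` of it is `zcl (pmap ψ '' V)`: a polynomial `f` vanishing on `ψ(V \ Z(g))`: `g · (f ∘ ψ) = 0` on `V`, so `f ∘ ψ = 0` on `V`.
LEAF GEO-GEN-C (`geo_dich`).  ~200 lines.  `G₁ := G ∪ rename inl '' I(V)`, `T := Zl G₁ = {(x,w) | x ∈ V, (x,w) ∈ Zl G}`; components `T_1..T_m` (`ph_comps_finite`, `ph_Zl_eq_iUnion_comps`, `ph_isCompOf_isVar`).  `pr := fun i => X (inl i)`.  Call `T_i` ACTIVE if `g ≢ 0` on `T_i`.  `W_i := zcl (pmap pr '' T_i) ⊆ V` is irreducible.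
  (A) some active `T_i` has `W_i = V`: `geo_image_dense_open` gives `h'`, first alternative.  (B) every active `T_i` has `W_i ≠ V`: there is `f_i` vanishing on `W_i`, not on `V` (otherwise `V ⊆ zcl W_i = W_i`); `h := ∏ f_i` over the active components (`≢ 0` on `V`: `ph_isVar_mul`, induction);
  if `h(x) ≠ 0`, `(x,w) ∈ T`, `g(x,w) ≠ 0`: `(x,w) ∈ T_i`, active, `x ∈ W_i`, `f_i(x) = 0`: contradiction.  Second alternative.
-/

set_option autoImplicit false

namespace Claimed.Agent.R273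

open MvPolynomial Module

variable {ι κ : Type*}

theorem geo_gen_mono {V : Set (ι → ℂ)} {P Q : (ι → ℂ) → Prop} (h : GenOn V P)
    (hPQ : ∀ x ∈ V, P x → Q x) : GenOn V Q := by
  obtain ⟨f, hf, hP⟩ := h
  exact ⟨f, hf, fun x hx hne => hPQ x hx (hP x hx hne)⟩

theorem geo_gen_exists {V : Set (ι → ℂ)} {P : (ι → ℂ) → Prop} (h : GenOn V P) : ∃ x ∈ V, P x := by
  obtain ⟨f, ⟨x, hx, hne⟩, hP⟩ := h
  exact ⟨x, hx, hP x hx hne⟩

theorem geo_gen_of_forall {V : Set (ι → ℂ)} {P : (ι → ℂ) → Prop} (hV : V.Nonempty)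
    (h : ∀ x ∈ V, P x) : GenOn V P := by
  obtain ⟨x, hx⟩ := hV
  exact ⟨1, ⟨x, hx, by simp⟩, fun y hy _ => h y hy⟩

theorem geo_gen_ne {V : Set (ι → ℂ)} (f : MvPolynomial ι ℂ) (hf : ∃ x ∈ V, eval x f ≠ 0) :
    GenOn V fun x => eval x f ≠ 0 :=
  ⟨f, hf, fun _ _ h => h⟩

/-! ### auxiliary evaluations -/

theorem geo_eval_fixR (x : ι → ℂ) (y : κ → ℂ) (H : MvPolynomial (ι ⊕ κ) ℂ) :
    eval x (aeval (Sum.elim X (fun j => C (y j))) H) = eval (Sum.elim x y) H := by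
  induction H using MvPolynomial.induction_on with
  | C a => simp only [algHom_C, algebraMap_eq, eval_C]
  | add p q hp hq => simp only [map_add, hp, hq]
  | mul_X p i hp =>
    cases i <;> simp only [map_mul, hp, aeval_X, eval_X, Sum.elim_inl, Sum.elim_inr, eval_C]

theorem geo_eval_fixL (x : ι → ℂ) (y : κ → ℂ) (H : MvPolynomial (ι ⊕ κ) ℂ) :
    eval y (aeval (Sum.elim (fun i => C (x i)) X) H) = eval (Sum.elim x y) H := by
  induction H using MvPolynomial.induction_on with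
  | C a => simp only [algHom_C, algebraMap_eq, eval_C]
  | add p q hp hq => simp only [map_add, hp, hq]
  | mul_X p i hp =>
    cases i <;> simp only [map_mul, hp, aeval_X, eval_X, Sum.elim_inl, Sum.elim_inr, eval_C]

theorem geo_elim_pr (z : ι ⊕ κ → ℂ) : Sum.elim (prL z) (prR z) = z := by
  funext s
  cases s <;> rfl

theorem geo_eval_inl (z : ι ⊕ κ → ℂ) (f : MvPolynomial ι ℂ) :
    eval z (rename Sum.inl f) = eval (prL z) f := by
  rw [eval_rename]; rfl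

theorem geo_eval_inr (z : ι ⊕ κ → ℂ) (f : MvPolynomial κ ℂ) :
    eval z (rename Sum.inr f) = eval (prR z) f := by
  rw [eval_rename]; rfl

/-! ### GEO-GEN-A -/

theorem geo_gen_and [Fintype ι] {V : Set (ι → ℂ)} (hV : IsVar V) {P Q : (ι → ℂ) → Prop}
    (h1 : GenOn V P) (h2 : GenOn V Q) : GenOn V fun x => P x ∧ Q x := by
  obtain ⟨f, ⟨x, hx, hfx⟩, hP⟩ := h1
  obtain ⟨g, ⟨y, hy, hgy⟩, hQ⟩ := h2
  refine ⟨f * g, ?_, fun z hz hne => ?_⟩
  · by_contra hcon
    have hcon' : ∀ z ∈ V, eval z (f * g) = 0 :=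
      fun z hz => by_contra fun h => hcon ⟨z, hz, h⟩
    rcases ph_isVar_mul hV f g hcon' with h | h
    · exact hfx (h x hx)
    · exact hgy (h y hy)
  · rw [map_mul] at hne
    exact ⟨hP z hz (left_ne_zero_of_mul hne), hQ z hz (right_ne_zero_of_mul hne)⟩

theorem geo_gen_finset [Fintype ι] {V : Set (ι → ℂ)} (hV : IsVar V) {α : Type*} (s : Finset α)
    (P : α → (ι → ℂ) → Prop) (h : ∀ a ∈ s, GenOn V (P a)) : GenOn V fun x => ∀ a ∈ s, P a x := by
  classical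
  induction s using Finset.induction_on with
  | empty =>
    exact geo_gen_of_forall (ph_isVar_nonempty V hV) (fun x _ a ha => absurd ha (Finset.notMem_empty a))
  | insert a s ha ih =>
    have h1 := h a (Finset.mem_insert_self a s)
    have h2 := ih (fun b hb => h b (Finset.mem_insert_of_mem hb))
    refine geo_gen_mono (geo_gen_and hV h1 h2) ?_
    rintro x _ ⟨hx1, hx2⟩ b hb
    rcases Finset.mem_insert.1 hb with rfl | hb
    · exact hx1
    · exact hx2 b hb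

/-- a closed condition which holds generically holds everywhere -/
theorem geo_gen_closed [Fintype ι] {V : Set (ι → ℂ)} (hV : IsVar V) (G : Set (MvPolynomial ι ℂ))
    (h : GenOn V fun x => x ∈ Zl G) : V ⊆ Zl G := by
  obtain ⟨f, ⟨x₀, hx₀, hne⟩, hP⟩ := h
  intro x hx g hg
  have h1 : ∀ y ∈ V, eval y (f * g) = 0 := by
    intro y hy
    rw [map_mul]
    by_cases hf : eval y f = 0
    · rw [hf, zero_mul]
    · rw [hP y hy hf g hg, mul_zero]
  rcases ph_isVar_mul hV f g h1 with h | h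
  · exact absurd (h x₀ hx₀) hne
  · exact h x hx

theorem geo_gen_false [Fintype ι] {V : Set (ι → ℂ)} (hV : IsVar V) {P : (ι → ℂ) → Prop}
    (h1 : GenOn V P) (h2 : GenOn V fun x => ¬ P x) : False := by
  obtain ⟨x, _, hx1, hx2⟩ := geo_gen_exists (geo_gen_and hV h1 h2)
  exact hx2 hx1

theorem geo_gen_prod_left {X : Set (ι → ℂ)} {Y : Set (κ → ℂ)} {P : (ι ⊕ κ → ℂ) → Prop}
    (h : GenOn (prodSet X Y) P) : GenOn X fun x => GenOn Y fun y => P (Sum.elim x y) := by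
  obtain ⟨H, ⟨z₀, hz₀, hne⟩, hP⟩ := h
  refine ⟨aeval (Sum.elim MvPolynomial.X (fun j => C (prR z₀ j))) H, ⟨prL z₀, hz₀.1, ?_⟩, fun x hx hx' => ?_⟩
  · rw [geo_eval_fixR, geo_elim_pr]; exact hne
  · rw [geo_eval_fixR] at hx'
    refine ⟨aeval (Sum.elim (fun i => C (x i)) MvPolynomial.X) H, ⟨prR z₀, hz₀.2, ?_⟩, fun y hy hy' => ?_⟩
    · rw [geo_eval_fixL]; exact hx'
    · rw [geo_eval_fixL] at hy'
      exact hP _ ⟨hx, hy⟩ hy'

theorem geo_gen_prod_right {X : Set (ι → ℂ)} {Y : Set (κ → ℂ)} {P : (ι ⊕ κ → ℂ) → Prop}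
    (h : GenOn (prodSet X Y) P) : GenOn Y fun y => GenOn X fun x => P (Sum.elim x y) := by
  obtain ⟨H, ⟨z₀, hz₀, hne⟩, hP⟩ := h
  refine ⟨aeval (Sum.elim (fun i => C (prL z₀ i)) MvPolynomial.X) H, ⟨prR z₀, hz₀.2, ?_⟩, fun y hy hy' => ?_⟩
  · rw [geo_eval_fixL, geo_elim_pr]; exact hne
  · rw [geo_eval_fixL] at hy'
    refine ⟨aeval (Sum.elim MvPolynomial.X (fun j => C (y j))) H, ⟨prL z₀, hz₀.1, ?_⟩, fun x hx hx' => ?_⟩
    · rw [geo_eval_fixR]; exact hy'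
    · rw [geo_eval_fixR] at hx'
      exact hP _ ⟨hx, hy⟩ hx'

theorem geo_gen_lift_left {X : Set (ι → ℂ)} {Y : Set (κ → ℂ)} (hY : Y.Nonempty)
    {P : (ι → ℂ) → Prop} (h : GenOn X P) : GenOn (prodSet X Y) fun z => P (prL z) := by
  obtain ⟨f, ⟨x₀, hx₀, hne⟩, hP⟩ := h
  obtain ⟨y₀, hy₀⟩ := hY
  refine ⟨rename Sum.inl f, ⟨Sum.elim x₀ y₀, ⟨hx₀, hy₀⟩, ?_⟩, fun z hz hz' => ?_⟩
  · rw [geo_eval_inl]; exact hne
  · rw [geo_eval_inl] at hz'
    exact hP _ hz.1 hz'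

theorem geo_gen_lift_right {X : Set (ι → ℂ)} {Y : Set (κ → ℂ)} (hX : X.Nonempty)
    {P : (κ → ℂ) → Prop} (h : GenOn Y P) : GenOn (prodSet X Y) fun z => P (prR z) := by
  obtain ⟨f, ⟨y₀, hy₀, hne⟩, hP⟩ := h
  obtain ⟨x₀, hx₀⟩ := hX
  refine ⟨rename Sum.inr f, ⟨Sum.elim x₀ y₀, ⟨hx₀, hy₀⟩, ?_⟩, fun z hz hz' => ?_⟩
  · rw [geo_eval_inr]; exact hne
  · rw [geo_eval_inr] at hz'
    exact hP _ hz.2 hz'

theorem geo_gen_swap {X : Set (ι → ℂ)} {Y : Set (κ → ℂ)} {P : (ι ⊕ κ → ℂ) → Prop}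
    (h : GenOn (prodSet X Y) P) : GenOn (prodSet Y X) fun z => P (Sum.elim (prR z) (prL z)) := by
  obtain ⟨H, ⟨z₀, hz₀, hne⟩, hP⟩ := h
  have key : ∀ z : κ ⊕ ι → ℂ, eval z (rename Sum.swap H) = eval (Sum.elim (prR z) (prL z)) H := by
    intro z
    rw [eval_rename]
    congr 2
    funext s
    cases s <;> rfl
  refine ⟨rename Sum.swap H, ⟨Sum.elim (prR z₀) (prL z₀), ⟨hz₀.2, hz₀.1⟩, ?_⟩, fun z hz hz' => ?_⟩
  · rw [key]
    have : Sum.elim (prR (Sum.elim (prR z₀) (prL z₀))) (prL (Sum.elim (prR z₀) (prL z₀))) = z₀ := by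
      funext s
      cases s <;> rfl
    rw [this]; exact hne
  · rw [key] at hz'
    exact hP _ ⟨hz.2, hz.1⟩ hz'

/-! ### GEO-GEN-B -/

/-- the Rabinowitsch variety of the open subset `V \ Z(g)` -/
def geoRabin (V : Set (ι → ℂ)) (g : MvPolynomial ι ℂ) : Set (ι ⊕ Unit → ℂ) :=
  {z | prL z ∈ V ∧ z (Sum.inr ()) * eval (prL z) g = 1}

/-- clearing the denominator `g` -/
theorem geo_rabin_clear (g : MvPolynomial ι ℂ) (F : MvPolynomial (ι ⊕ Unit) ℂ) :
    ∃ (N : ℕ) (Ft : MvPolynomial ι ℂ), ∀ z : ι ⊕ Unit → ℂ, z (Sum.inr ()) * eval (prL z) g = 1 →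
      eval (prL z) Ft = eval (prL z) g ^ N * eval z F := by
  induction F using MvPolynomial.induction_on with
  | C a => exact ⟨0, C a, fun z _ => by simp⟩
  | add p q hp hq =>
    obtain ⟨N, Ft, h⟩ := hp
    obtain ⟨N', Ft', h'⟩ := hq
    refine ⟨N + N', g ^ N' * Ft + g ^ N * Ft', fun z hz => ?_⟩
    simp only [map_add, map_mul, map_pow, h z hz, h' z hz]
    ring
  | mul_X p i hp =>
    obtain ⟨N, Ft, h⟩ := hp
    rcases i with i | ⟨⟩
    · refine ⟨N, Ft * X i, fun z hz => ?_⟩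
      simp only [map_mul, eval_X, h z hz]
      show _ * z (Sum.inl i) = _
      ring
    · refine ⟨N + 1, Ft, fun z hz => ?_⟩
      simp only [map_mul, eval_X, h z hz]
      calc eval (prL z) g ^ N * eval z p
          = eval (prL z) g ^ N * eval z p * (z (Sum.inr ()) * eval (prL z) g) := by rw [hz, mul_one]
        _ = _ := by ring

theorem geo_rabin_eq_Zl [Fintype ι] {V : Set (ι → ℂ)} (hV : IsVar V) (g : MvPolynomial ι ℂ) :
    geoRabin V g = Zl ({F | ∃ f : MvPolynomial ι ℂ, (∀ y ∈ V, eval y f = 0) ∧ F = rename Sum.inl f}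
      ∪ {X (Sum.inr ()) * rename Sum.inl g - 1}) := by
  ext z
  constructor
  · rintro ⟨h1, h2⟩ F hF
    rcases hF with ⟨f, hf, rfl⟩ | hF
    · rw [geo_eval_inl]; exact hf _ h1
    · rw [Set.mem_singleton_iff] at hF
      rw [hF]
      simp only [map_sub, map_mul, eval_X, map_one, geo_eval_inl, h2, sub_self]
  · intro h
    refine ⟨?_, ?_⟩
    · rw [← ph_zcl_of_isVar hV, ph_mem_zcl]
      intro f hf
      have := h (rename Sum.inl f) (Or.inl ⟨f, hf, rfl⟩)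
      rwa [geo_eval_inl] at this
    · have := h _ (Or.inr rfl)
      simp only [map_sub, map_mul, eval_X, map_one, geo_eval_inl] at this
      exact sub_eq_zero.1 this

theorem geo_rabin_isVar [Fintype ι] {V : Set (ι → ℂ)} (hV : IsVar V) (g : MvPolynomial ι ℂ)
    (hg : ∃ x ∈ V, eval x g ≠ 0) : IsVar (geoRabin V g) := by
  obtain ⟨x₀, hx₀, hgx₀⟩ := hg
  have hmem : ∀ x ∈ V, eval x g ≠ 0 → Sum.elim x (fun _ : Unit => (eval x g)⁻¹) ∈ geoRabin V g := by
    intro x hx hgx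
    exact ⟨hx, inv_mul_cancel₀ hgx⟩
  have hcl : zcl (geoRabin V g) = geoRabin V g := by
    rw [geo_rabin_eq_Zl hV g, ph_zcl_Zl]
  rw [← hcl, ph_isVar_zcl_iff]
  refine ⟨⟨_, hmem x₀ hx₀ hgx₀⟩, fun F F' hFF => ?_⟩
  obtain ⟨N, Ft, hFt⟩ := geo_rabin_clear g F
  obtain ⟨N', Ft', hFt'⟩ := geo_rabin_clear g F'
  have h1 : ∀ x ∈ V, eval x (g * (Ft * Ft')) = 0 := by
    intro x hx
    rw [map_mul, map_mul]
    by_cases hgx : eval x g = 0
    · rw [hgx, zero_mul]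
    · have hz := hmem x hx hgx
      have e1 := hFt _ hz.2
      have e2 := hFt' _ hz.2
      have e3 := hFF _ hz
      have hpr : prL (Sum.elim x (fun _ : Unit => (eval x g)⁻¹)) = x := rfl
      rw [hpr] at e1 e2
      rw [e1, e2]
      linear_combination (eval x g * eval x g ^ N * eval x g ^ N') * e3
  have hne : ∀ z ∈ geoRabin V g, eval (prL z) g ≠ 0 := by
    intro z hz h0
    have := hz.2
    rw [h0, mul_zero] at this
    exact zero_ne_one this
  rcases ph_isVar_mul hV g (Ft * Ft') h1 with h | h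
  · exact absurd (h x₀ hx₀) hgx₀
  · rcases ph_isVar_mul hV Ft Ft' h with h | h
    · left
      intro z hz
      have := hFt z hz.2
      rw [h _ hz.1] at this
      exact (mul_eq_zero.1 this.symm).resolve_left (pow_ne_zero _ (hne z hz))
    · right
      intro z hz
      have := hFt' z hz.2
      rw [h _ hz.1] at this
      exact (mul_eq_zero.1 this.symm).resolve_left (pow_ne_zero _ (hne z hz))

/-- **[CHEV], open form**: the image of a dense open subset of an irreducible variety contains a dense open subset of the closure of the image. -/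
theorem geo_image_dense_open [Fintype ι] [Fintype κ] {V : Set (ι → ℂ)} (hV : IsVar V)
    (g : MvPolynomial ι ℂ) (hg : ∃ x ∈ V, eval x g ≠ 0) (ψ : κ → MvPolynomial ι ℂ) :
    ∃ h' : MvPolynomial κ ℂ, (∃ w ∈ zcl (pmap ψ '' V), eval w h' ≠ 0) ∧
      ∀ w ∈ zcl (pmap ψ '' V), eval w h' ≠ 0 → ∃ x ∈ V, eval x g ≠ 0 ∧ pmap ψ x = w := by
  have hV' := geo_rabin_isVar hV g hg
  obtain ⟨x₀, hx₀, hgx₀⟩ := hg
  have hpm : ∀ z : ι ⊕ Unit → ℂ, pmap (fun j => rename Sum.inl (ψ j)) z = pmap ψ (prL z) := by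
    intro z
    funext j
    exact geo_eval_inl z (ψ j)
  have hzcl : zcl (pmap (fun j => rename Sum.inl (ψ j)) '' geoRabin V g) = zcl (pmap ψ '' V) := by
    apply Set.Subset.antisymm
    · apply ph_zcl_mono
      rintro w ⟨z, hz, rfl⟩
      exact ⟨prL z, hz.1, (hpm z).symm⟩
    · intro w hw
      rw [ph_mem_zcl] at hw ⊢
      intro f hf
      apply hw f
      rintro w' ⟨x, hx, rfl⟩
      rw [ph_eval_pmap]
      have h1 : ∀ y ∈ V, eval y (g * aeval ψ f) = 0 := by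
        intro y hy
        rw [map_mul]
        by_cases hgy : eval y g = 0
        · rw [hgy, zero_mul]
        · have hz : Sum.elim y (fun _ : Unit => (eval y g)⁻¹) ∈ geoRabin V g :=
            ⟨hy, inv_mul_cancel₀ hgy⟩
          have := hf _ ⟨_, hz, rfl⟩
          rw [hpm, ph_eval_pmap] at this
          have hpr : prL (Sum.elim y (fun _ : Unit => (eval y g)⁻¹)) = y := rfl
          rw [hpr] at this
          rw [this, mul_zero]
      rcases ph_isVar_mul hV g (aeval ψ f) h1 with h | h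
      · exact absurd (h x₀ hx₀) hgx₀
      · exact h x hx
  obtain ⟨h', h1, h2⟩ := ph_image_dense hV' (fun j => rename Sum.inl (ψ j))
  rw [hzcl] at h1 h2
  refine ⟨h', h1, fun w hw hne => ?_⟩
  obtain ⟨z, hz, rfl⟩ := h2 w hw hne
  refine ⟨prL z, hz.1, ?_, (hpm z).symm⟩
  intro h0
  have := hz.2
  rw [h0, mul_zero] at this
  exact zero_ne_one this

/-! ### GEO-GEN-C -/

theorem geo_gen_compl [Fintype ι] {Y W : Set (ι → ℂ)} (hW : IsVar W) (h : ¬ Y ⊆ W) :
    GenOn Y fun y => y ∉ W := by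
  rw [Set.not_subset] at h
  obtain ⟨y₀, hy₀, hyW⟩ := h
  rw [← ph_zcl_of_isVar hW, ph_mem_zcl] at hyW
  push Not at hyW
  obtain ⟨f, hf, hfy⟩ := hyW
  exact ⟨f, ⟨y₀, hy₀, hfy⟩, fun y _ hy hyW => hy (hf y hyW)⟩

/-- **CONSTRUCTIBLE DICHOTOMY**: a constructible condition holds at the general point of an irreducible variety, or fails at the general point. -/
theorem geo_dich [Fintype ι] [Fintype κ] {V : Set (ι → ℂ)} (hV : IsVar V)
    (G : Set (MvPolynomial (ι ⊕ κ) ℂ)) (g : MvPolynomial (ι ⊕ κ) ℂ) :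
    (GenOn V fun x => ∃ w : κ → ℂ, Sum.elim x w ∈ Zl G ∧ eval (Sum.elim x w) g ≠ 0) ∨
      GenOn V fun x => ¬ ∃ w : κ → ℂ, Sum.elim x w ∈ Zl G ∧ eval (Sum.elim x w) g ≠ 0 := by
  classical
  obtain ⟨p, hp, hVp⟩ := id hV
  set G₁ : Set (MvPolynomial (ι ⊕ κ) ℂ) := G ∪ (rename Sum.inl) '' (p : Set (MvPolynomial ι ℂ))
    with hG₁
  have hmem : ∀ z : ι ⊕ κ → ℂ, z ∈ Zl G₁ ↔ z ∈ Zl G ∧ prL z ∈ V := by
    intro z
    rw [hVp, ph_mem_zeroLocus]
    constructor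
    · intro hz
      refine ⟨fun f hf => hz f (Or.inl hf), fun f hf => ?_⟩
      have := hz (rename Sum.inl f) (Or.inr ⟨f, hf, rfl⟩)
      rwa [eval_rename] at this
    · rintro ⟨h1, h2⟩ f hf
      rcases hf with hf | ⟨f', hf', rfl⟩
      · exact h1 f hf
      · rw [eval_rename]
        exact h2 f' hf'
  let pr : ι → MvPolynomial (ι ⊕ κ) ℂ := fun i => X (Sum.inl i)
  have hpr : ∀ z : ι ⊕ κ → ℂ, pmap pr z = prL z := by
    intro z
    funext i
    simp [pmap, pr, prL]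
  have helim : ∀ z : ι ⊕ κ → ℂ, Sum.elim (prL z) (prR z) = z := by
    intro z
    funext i
    rcases i with i | i <;> rfl
  by_cases hA : ∃ T, IsCompOf T G₁ ∧ (∃ z ∈ T, eval z g ≠ 0) ∧ zcl (pmap pr '' T) = V
  · left
    obtain ⟨T, hT, hg, hTV⟩ := hA
    obtain ⟨h', hne, hh'⟩ := geo_image_dense_open (ph_isCompOf_isVar hT) g hg pr
    rw [hTV] at hne hh'
    refine ⟨h', hne, fun x hx hxne => ?_⟩
    obtain ⟨z, hz, hgz, hzx⟩ := hh' x hx hxne
    rw [hpr] at hzx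
    refine ⟨prR z, ?_, ?_⟩
    · rw [← hzx, helim]
      exact ((hmem z).1 (ph_isCompOf_subset hT hz)).1
    · rwa [← hzx, helim]
  · right
    push Not at hA
    have g1 : GenOn V fun x => ∀ T ∈ (ph_comps_finite G₁).toFinset.filter
        (fun T => ∃ z ∈ T, eval z g ≠ 0), x ∉ zcl (pmap pr '' T) := by
      apply geo_gen_finset hV
      intro T hT
      rw [Finset.mem_filter, Set.Finite.mem_toFinset] at hT
      apply geo_gen_compl (ph_isVar_zcl_image (ph_isCompOf_isVar hT.1) pr)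
      intro hsub
      apply hA T hT.1 hT.2
      apply Set.Subset.antisymm _ hsub
      rw [← ph_zcl_of_isVar hV]
      apply ph_zcl_mono
      rintro _ ⟨z, hz, rfl⟩
      rw [hpr]
      exact ((hmem z).1 (ph_isCompOf_subset hT.1 hz)).2
    refine geo_gen_mono g1 ?_
    rintro x hx hall ⟨w, hw, hgw⟩
    have hz : Sum.elim x w ∈ Zl G₁ := (hmem _).2 ⟨hw, hx⟩
    rw [ph_Zl_eq_iUnion_comps] at hz
    obtain ⟨T, hT, hzT⟩ := Set.mem_iUnion₂.1 hz
    refine hall T ?_ (ph_subset_zcl _ ⟨_, hzT, ?_⟩)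
    · rw [Finset.mem_filter, Set.Finite.mem_toFinset]
      exact ⟨hT, _, hzT, hgw⟩
    · rw [hpr]
      rfl

end Claimed.Agent.R273
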