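-- KEEP
import Claimed.Agent.R273.PhMap

/-!
# Row 273, POLY-A 12 = layer L1: **[GEN-FIB]** the generic fibre of a generically finite dominant map has a constant number of points.  Architect helper94.

No primitive elements, no etale algebras, no fraction fields: a TOWER of simple extensions, each treated with pseudo-division only.
`GenCount f t` (`f : A →+* B`): there is `a ≠ 0` in `A` such that every point `χ : A →+* ℂ` with `χ a ≠ 0` has exactly `t` extensions `χ' : B →+* ℂ`.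

LEAF PH-fib-a (`ph_pseudo_div`, `ph_gencount_simple`).  `I := {F ∈ A[E] | F(x) = 0} ≠ 0`; `μ ∈ I \ 0` of minimal degree `t`; `t ≥ 1` (`f` injective); `a₁` = leading coefficient.
  (4) `F ∈ I ⇒ a₁^N F = μ Q` (pseudo-division; the remainder lies in `I`, has smaller degree, so it is `0`).
  (3) `∃ u v d, d ≠ 0, u μ + v μ' = C d`: let `G ≠ 0` be of minimal degree `s` among the nonzero combinations `u μ + v μ'`; `s ≤ t - 1` because `μ' ≠ 0` (char. 0, `t ≥ 1`).  If `s ≥ 1`: pseudo-divide `μ` by `G`: the remainder is a combination of smaller degree, so `c^N μ = G Q₁`;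
      evaluate at `x`: `G(x) Q₁(x) = 0`, `B` a domain, but `G ∉ I` (`s < t`) and `Q₁ ∉ I` (`Q₁ ≠ 0`, degree `t - s < t`).  So `s = 0`.
  Take `a := a₁ d`.  For `χ a ≠ 0`: `μ_χ := μ.map χ` has degree `t` and is separable (`u_χ μ_χ + v_χ μ_χ' = χ d`, a unit), so it has exactly `t` roots in `ℂ` (`Polynomial.card_rootSet_eq_natDegree`, `IsAlgClosed.splits`).
  `χ' ↦ χ' x` is a bijection from the extensions of `χ` onto the roots: into (`Polynomial.hom_eval₂`), injective (`hgen`), onto: for a root `ε`, `eval₂ χ ε` kills `I` by (4) (`χ a₁ ≠ 0`), so it factors through the surjection `eval₂ f x : A[E] → B` (`RingHom.liftOfSurjective`).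
LEAF PH-fib-b (`ph_gencount_comp`, `ph_gencount_fg`).  `comp`: `a` for `f`, `b` for `g`, `b b' = f c`; take `a c`: every extension `χ'` of `χ` has `χ' b ≠ 0`.  The extensions of `χ` to `C` are fibred over the extensions to `B` (restriction), each fibre has `t₂` elements (`Set.ncard`, `Finset.card_eq_sum_card_fiberwise`).
  `fg`: induction on `n` (for all `B`, `A` fixed).  `n = 0`: `f` bijective, `t = 1`.  Step: `B' := (eval₂Hom f (x ∘ Fin.succ)).range`, `f' : A → B'`, `g : B' → B` the inclusion; `B = B'[x 0]` (`finSuccEquiv`; cf. `ph_ev_finSucc`); `B'` is algebraic over `A` (with `f'.toAlgebra`: the algebraic elements form a subalgebra),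
  a nonzero algebraic element `b` of a domain divides a nonzero constant (constant term of a relation of minimal degree; Mathlib: `IsAlgebraic.exists_nonzero_dvd`-type lemma).
LEAF PH-fib-c (`ph_pts_equiv`, `ph_gen_fib_of_alg`, `ph_gen_fib`).  `A = ℂ[w]/q`, `B = ℂ[x]/p`, `q = ψ^{-1} p`, `f = Ideal.quotientMap` (injective).  Points `w ∈ Z(q)` ↔ ring homs `χ : A → ℂ` which are `ℂ`-linear; an extension of a `ℂ`-linear `χ` is `ℂ`-linear.
  Algebraicity from `vdim W = vdim V`: `ph_trdeg` for a generic point `ζ` of `p` and `ψ(ζ)` of `q` (`ph_isGenPt_comap`), `Algebra.trdeg_add_eq`, finite cardinals.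
-/

set_option autoImplicit false

namespace Claimed.Agent.R273

open MvPolynomial Module

/-- every point `χ` of `A` outside a proper closed subset has exactly `t` extensions to `B` -/
def GenCount {A B : Type*} [CommRing A] [CommRing B] (f : A →+* B) (t : ℕ) : Prop :=
  ∃ a : A, a ≠ 0 ∧ ∀ χ : A →+* ℂ, χ a ≠ 0 →
    {χ' : B →+* ℂ | χ'.comp f = χ}.Finite ∧ {χ' : B →+* ℂ | χ'.comp f = χ}.ncard = t

/-! ### PH-fib-a -/

theorem phf_pseudo_aux {A : Type*} [CommRing A] (μ : Polynomial A) (n : ℕ) :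
    ∀ F : Polynomial A, F.degree < (n : WithBot ℕ) →
      ∃ (N : ℕ) (Q r : Polynomial A), Polynomial.C (μ.leadingCoeff ^ N) * F = μ * Q + r ∧
        (r = 0 ∨ r.natDegree < μ.natDegree) := by
  induction n with
  | zero =>
    intro F hF
    have : F = 0 := by
      rw [← Polynomial.degree_eq_bot]
      have h0 : F.degree < (0 : WithBot ℕ) := by exact_mod_cast hF
      exact Nat.WithBot.lt_zero_iff.1 h0
    exact ⟨0, 0, 0, by simp [this], Or.inl rfl⟩
  | succ n ih =>
    intro F hF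
    by_cases hnm : n < μ.natDegree
    · refine ⟨0, 0, F, by simp, ?_⟩
      by_cases hF0 : F = 0
      · exact Or.inl hF0
      · right
        have h1 : F.natDegree < n + 1 := by
          rw [Polynomial.natDegree_lt_iff_degree_lt hF0]
          exact_mod_cast hF
        omega
    · push Not at hnm
      set m := μ.natDegree with hm
      set a := μ.leadingCoeff with ha
      set c := F.coeff n with hc
      set F' := Polynomial.C a * F - Polynomial.C c * (Polynomial.X ^ (n - m) * μ) with hF'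
      have hdeg : F'.degree < (n : WithBot ℕ) := by
        rw [Polynomial.degree_lt_iff_coeff_zero]
        intro k hk
        rw [hF', Polynomial.coeff_sub, Polynomial.coeff_C_mul, Polynomial.coeff_C_mul,
          Polynomial.coeff_X_pow_mul', if_pos (by omega)]
        rcases Nat.eq_or_lt_of_le hk with h | h
        · subst h
          have : n - (n - m) = m := by omega
          rw [this, hm, Polynomial.coeff_natDegree]
          ring
        · have h1 : F.coeff k = 0 := by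
            apply Polynomial.coeff_eq_zero_of_degree_lt
            refine lt_of_lt_of_le hF ?_
            exact_mod_cast h
          have h2 : μ.coeff (k - (n - m)) = 0 := by
            apply Polynomial.coeff_eq_zero_of_natDegree_lt
            omega
          rw [h1, h2]
          ring
      obtain ⟨N, Q, r, hQ, hr⟩ := ih F' hdeg
      refine ⟨N + 1, Q + Polynomial.C (a ^ N) * (Polynomial.C c * Polynomial.X ^ (n - m)), r, ?_, hr⟩
      have e : Polynomial.C (a ^ (N + 1)) * F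
          = Polynomial.C (a ^ N) * F' + Polynomial.C (a ^ N) * (Polynomial.C c * (Polynomial.X ^ (n - m) * μ)) := by
        rw [hF', pow_succ, Polynomial.C_mul]
        ring
      rw [e, hQ]
      ring

theorem ph_pseudo_div {A : Type*} [CommRing A] (μ : Polynomial A) (hμ : μ ≠ 0) (F : Polynomial A) :
    ∃ (N : ℕ) (Q r : Polynomial A), Polynomial.C (μ.leadingCoeff ^ N) * F = μ * Q + r ∧
      (r = 0 ∨ r.natDegree < μ.natDegree) := by
  refine phf_pseudo_aux μ (F.natDegree + 1) F ?_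
  exact lt_of_le_of_lt Polynomial.degree_le_natDegree (by exact_mod_cast Nat.lt_succ_self _)

/-- the algebraic data of a simple algebraic extension of domains: a relation `μ` of minimal degree `t ≥ 1`, pseudo-division by `μ`, and a Bezout relation between `μ` and `μ'`. -/
theorem phf_simple_data {A B : Type*} [CommRing A] [IsDomain A] [CharZero A] [CommRing B]
    [IsDomain B] (f : A →+* B) (hf : Function.Injective f) (x : B)
    (halg : ∃ F : Polynomial A, F ≠ 0 ∧ F.eval₂ f x = 0) :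
    ∃ μ : Polynomial A, μ ≠ 0 ∧ 1 ≤ μ.natDegree ∧ μ.eval₂ f x = 0 ∧
      (∀ F : Polynomial A, F.eval₂ f x = 0 →
        ∃ (N : ℕ) (Q : Polynomial A), Polynomial.C (μ.leadingCoeff ^ N) * F = μ * Q) ∧
      ∃ (u v : Polynomial A) (d : A), d ≠ 0 ∧ u * μ + v * Polynomial.derivative μ = Polynomial.C d := by
  classical
  have hex : ∃ n, ∃ F : Polynomial A, F ≠ 0 ∧ F.eval₂ f x = 0 ∧ F.natDegree = n := by
    obtain ⟨F, h1, h2⟩ := halg
    exact ⟨_, F, h1, h2, rfl⟩
  obtain ⟨μ, hμ0, hμx, hμt⟩ := Nat.find_spec hex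
  have hmin : ∀ F : Polynomial A, F ≠ 0 → F.eval₂ f x = 0 → μ.natDegree ≤ F.natDegree := fun F h1 h2 => by
    rw [hμt]
    exact Nat.find_min' hex ⟨F, h1, h2, rfl⟩
  have ht1 : 1 ≤ μ.natDegree := by
    by_contra h
    have h0 : μ.natDegree = 0 := by omega
    have h1 := Polynomial.eq_C_of_natDegree_eq_zero h0
    rw [h1, Polynomial.eval₂_C] at hμx
    have : μ.coeff 0 = 0 := hf (by rw [hμx, map_zero])
    exact hμ0 (by rw [h1, this, Polynomial.C_0])
  have h4 : ∀ F : Polynomial A, F.eval₂ f x = 0 →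
      ∃ (N : ℕ) (Q : Polynomial A), Polynomial.C (μ.leadingCoeff ^ N) * F = μ * Q := by
    intro F hF
    obtain ⟨N, Q, r, hQ, hr⟩ := ph_pseudo_div μ hμ0 F
    refine ⟨N, Q, ?_⟩
    have hrx : r.eval₂ f x = 0 := by
      have : r = Polynomial.C (μ.leadingCoeff ^ N) * F - μ * Q := by rw [hQ]; ring
      rw [this, Polynomial.eval₂_sub, Polynomial.eval₂_mul, Polynomial.eval₂_mul, hF, hμx]
      ring
    have hr0 : r = 0 := by
      by_contra h
      have := hmin r h hrx
      rcases hr with hr | hr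
      · exact h hr
      · omega
    rw [hQ, hr0, add_zero]
  refine ⟨μ, hμ0, ht1, hμx, h4, ?_⟩
  -- the Bezout relation
  set μ' := Polynomial.derivative μ with hμ'
  have hμ'0 : μ' ≠ 0 := Polynomial.derivative_ne_zero.2 (by omega)
  have hμ'd : μ'.natDegree < μ.natDegree := Polynomial.natDegree_derivative_lt (by omega)
  have hexJ : ∃ n, ∃ G : Polynomial A, G ≠ 0 ∧ (∃ u v, u * μ + v * μ' = G) ∧ G.natDegree = n :=
    ⟨_, μ', hμ'0, ⟨0, 1, by ring⟩, rfl⟩
  obtain ⟨G, hG0, ⟨u, v, huv⟩, hGs⟩ := Nat.find_spec hexJ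
  have hminJ : ∀ H : Polynomial A, H ≠ 0 → (∃ u v, u * μ + v * μ' = H) → G.natDegree ≤ H.natDegree :=
    fun H h1 h2 => by
      rw [hGs]
      exact Nat.find_min' hexJ ⟨H, h1, h2, rfl⟩
  have hs : G.natDegree ≤ μ'.natDegree := hminJ μ' hμ'0 ⟨0, 1, by ring⟩
  have hs0 : G.natDegree = 0 := by
    by_contra hs1
    obtain ⟨N, Q₁, r, hQ, hr⟩ := ph_pseudo_div G hG0 μ
    have hr0 : r = 0 := by
      by_contra h
      have := hminJ r h ⟨Polynomial.C (G.leadingCoeff ^ N) - u * Q₁, - v * Q₁, by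
        have : r = Polynomial.C (G.leadingCoeff ^ N) * μ - G * Q₁ := by rw [hQ]; ring
        rw [this, ← huv]
        ring⟩
      rcases hr with hr | hr
      · exact h hr
      · omega
    rw [hr0, add_zero] at hQ
    have hc : G.leadingCoeff ^ N ≠ 0 := pow_ne_zero _ (Polynomial.leadingCoeff_ne_zero.2 hG0)
    have hQ10 : Q₁ ≠ 0 := by
      rintro rfl
      rw [mul_zero] at hQ
      rcases mul_eq_zero.1 hQ with h | h
      · exact hc (Polynomial.C_eq_zero.1 h)
      · exact hμ0 h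
    have hdeg : μ.natDegree = G.natDegree + Q₁.natDegree := by
      rw [← Polynomial.natDegree_mul hG0 hQ10, ← hQ, Polynomial.natDegree_C_mul hc]
    have hev : G.eval₂ f x * Q₁.eval₂ f x = 0 := by
      rw [← Polynomial.eval₂_mul, ← hQ, Polynomial.eval₂_mul, hμx, mul_zero]
    rcases mul_eq_zero.1 hev with h | h
    · have := hmin G hG0 h
      omega
    · have := hmin Q₁ hQ10 h
      omega
  have hGC := Polynomial.eq_C_of_natDegree_eq_zero hs0
  refine ⟨u, v, G.coeff 0, ?_, by rw [huv]; exact hGC⟩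
  intro h
  exact hG0 (by rw [hGC, h, Polynomial.C_0])

theorem ph_gencount_simple {A B : Type*} [CommRing A] [IsDomain A] [CharZero A] [CommRing B]
    [IsDomain B] (f : A →+* B) (hf : Function.Injective f) (x : B)
    (halg : ∃ F : Polynomial A, F ≠ 0 ∧ F.eval₂ f x = 0)
    (hgen : ∀ b : B, ∃ F : Polynomial A, F.eval₂ f x = b) : ∃ t, 1 ≤ t ∧ GenCount f t := by
  classical
  obtain ⟨μ, hμ0, ht1, hμx, h4, u, v, d, hd, huv⟩ := phf_simple_data f hf x halg
  refine ⟨μ.natDegree, ht1, μ.leadingCoeff * d,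
    mul_ne_zero (Polynomial.leadingCoeff_ne_zero.2 hμ0) hd, ?_⟩
  intro χ hχ
  rw [map_mul] at hχ
  have hχa : χ μ.leadingCoeff ≠ 0 := left_ne_zero_of_mul hχ
  have hχd : χ d ≠ 0 := right_ne_zero_of_mul hχ
  set μχ := μ.map χ with hμχ
  have hdeg : μχ.natDegree = μ.natDegree := Polynomial.natDegree_map_of_leadingCoeff_ne_zero χ hχa
  have hμχ0 : μχ ≠ 0 := by
    intro h
    rw [h, Polynomial.natDegree_zero] at hdeg
    omega
  have hsep : μχ.Separable := by
    refine ⟨Polynomial.C (χ d)⁻¹ * u.map χ, Polynomial.C (χ d)⁻¹ * v.map χ, ?_⟩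
    have h := congrArg (Polynomial.map χ) huv
    rw [Polynomial.map_add, Polynomial.map_mul, Polynomial.map_mul, Polynomial.map_C,
      ← Polynomial.derivative_map] at h
    calc Polynomial.C (χ d)⁻¹ * u.map χ * μχ + Polynomial.C (χ d)⁻¹ * v.map χ * Polynomial.derivative μχ
        = Polynomial.C (χ d)⁻¹ * (u.map χ * μχ + v.map χ * Polynomial.derivative μχ) := by ring
      _ = Polynomial.C (χ d)⁻¹ * Polynomial.C (χ d) := by rw [h]
      _ = 1 := by rw [← Polynomial.C_mul, inv_mul_cancel₀ hχd, Polynomial.C_1]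
  set E := {χ' : B →+* ℂ | χ'.comp f = χ} with hE
  have hkey : ∀ χ' ∈ E, ∀ F : Polynomial A, χ' (F.eval₂ f x) = F.eval₂ χ (χ' x) := by
    intro χ' hχ' F
    have h : χ'.comp f = χ := hχ'
    rw [Polynomial.hom_eval₂, h]
  have hinj : Set.InjOn (fun χ' : B →+* ℂ => χ' x) E := by
    intro χ₁ h₁ χ₂ h₂ h12
    ext b
    obtain ⟨F, rfl⟩ := hgen b
    have h12' : χ₁ x = χ₂ x := h12
    rw [hkey χ₁ h₁, hkey χ₂ h₂, h12']
  have himg : (fun χ' : B →+* ℂ => χ' x) '' E = (μχ.roots.toFinset : Set ℂ) := by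
    ext ε
    simp only [Set.mem_image, Finset.mem_coe, Multiset.mem_toFinset]
    rw [Polynomial.mem_roots hμχ0]
    constructor
    · rintro ⟨χ', hχ', rfl⟩
      rw [Polynomial.IsRoot.def, Polynomial.eval_map, ← hkey χ' hχ', hμx, map_zero]
    · intro hε
      rw [Polynomial.IsRoot.def, Polynomial.eval_map] at hε
      have hsurj : Function.Surjective (Polynomial.eval₂RingHom f x) := fun b => by
        obtain ⟨F, hF⟩ := hgen b
        exact ⟨F, hF⟩
      have hker : RingHom.ker (Polynomial.eval₂RingHom f x) ≤ RingHom.ker (Polynomial.eval₂RingHom χ ε) := by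
        intro F hF
        rw [RingHom.mem_ker, Polynomial.coe_eval₂RingHom] at hF ⊢
        obtain ⟨N, Q, hQ⟩ := h4 F hF
        have h := congrArg (Polynomial.eval₂ χ ε) hQ
        rw [Polynomial.eval₂_mul, Polynomial.eval₂_mul, Polynomial.eval₂_C, hε, zero_mul, map_pow] at h
        exact (mul_eq_zero.1 h).resolve_left (pow_ne_zero _ hχa)
      set χ' := (Polynomial.eval₂RingHom f x).liftOfSurjective hsurj ⟨Polynomial.eval₂RingHom χ ε, hker⟩ with hχ'
      have hc : ∀ F : Polynomial A, χ' (F.eval₂ f x) = F.eval₂ χ ε := fun F =>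
        (Polynomial.eval₂RingHom f x).liftOfSurjective_comp_apply hsurj ⟨Polynomial.eval₂RingHom χ ε, hker⟩ F
      refine ⟨χ', ?_, ?_⟩
      · ext a
        have := hc (Polynomial.C a)
        rw [Polynomial.eval₂_C, Polynomial.eval₂_C] at this
        exact this
      · have := hc Polynomial.X
        rw [Polynomial.eval₂_X, Polynomial.eval₂_X] at this
        exact this
  constructor
  · exact Set.Finite.of_finite_image (by rw [himg]; exact Finset.finite_toSet _) hinj
  · rw [← hinj.ncard_image, himg, Set.ncard_coe_finset,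
      Multiset.toFinset_card_of_nodup (Polynomial.nodup_roots hsep), IsAlgClosed.card_roots_eq_natDegree, hdeg]

/-! ### PH-fib-b -/

theorem ph_gencount_comp {A B C : Type*} [CommRing A] [IsDomain A] [CommRing B] [CommRing C]
    (f : A →+* B) (g : B →+* C) {t₁ t₂ : ℕ} (h₁ : GenCount f t₁) (h₂ : GenCount g t₂)
    (halg : ∀ b : B, b ≠ 0 → ∃ (b' : B) (c : A), c ≠ 0 ∧ b * b' = f c) :
    GenCount (g.comp f) (t₁ * t₂) := by
  classical
  obtain ⟨a, ha, h₁⟩ := h₁
  obtain ⟨b, hb, h₂⟩ := h₂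
  obtain ⟨b', c, hc, hbc⟩ := halg b hb
  refine ⟨a * c, mul_ne_zero ha hc, ?_⟩
  intro χ hχ
  rw [map_mul] at hχ
  obtain ⟨hfin₁, hcard₁⟩ := h₁ χ (left_ne_zero_of_mul hχ)
  have hχc : χ c ≠ 0 := right_ne_zero_of_mul hχ
  have h₂' : ∀ χ' ∈ {χ' : B →+* ℂ | χ'.comp f = χ},
      {χ'' : C →+* ℂ | χ''.comp g = χ'}.Finite ∧ {χ'' : C →+* ℂ | χ''.comp g = χ'}.ncard = t₂ := by
    intro χ' hχ'
    apply h₂
    intro h0
    apply hχc
    have h : χ'.comp f = χ := hχ'
    rw [← h, RingHom.comp_apply, ← hbc, map_mul, h0, zero_mul]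
  have hEq : {χ'' : C →+* ℂ | χ''.comp (g.comp f) = χ}
      = ⋃ χ' ∈ {χ' : B →+* ℂ | χ'.comp f = χ}, {χ'' : C →+* ℂ | χ''.comp g = χ'} := by
    ext χ''
    simp only [Set.mem_ofPred_eq, Set.mem_iUnion, exists_prop, exists_eq_right', RingHom.comp_assoc]
  have hfin : {χ'' : C →+* ℂ | χ''.comp (g.comp f) = χ}.Finite := by
    rw [hEq]
    exact hfin₁.biUnion fun χ' hχ' => (h₂' χ' hχ').1
  refine ⟨hfin, ?_⟩
  rw [Set.ncard_eq_toFinset_card _ hfin,
    Finset.card_eq_sum_card_fiberwise (f := fun χ'' : C →+* ℂ => χ''.comp g) (t := hfin₁.toFinset) (by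
      intro χ'' hχ''
      simp only [Set.Finite.coe_toFinset, Set.mem_ofPred_eq] at hχ'' ⊢
      rw [RingHom.comp_assoc]
      exact hχ'')]
  have hfib : ∀ χ' ∈ hfin₁.toFinset, (Finset.filter (fun χ'' : C →+* ℂ => χ''.comp g = χ') hfin.toFinset).card = t₂ := by
    intro χ' hχ'
    have hχ'' : χ' ∈ {χ' : B →+* ℂ | χ'.comp f = χ} := by simpa using hχ'
    obtain ⟨hf2, hc2⟩ := h₂' χ' hχ''
    rw [← hc2, Set.ncard_eq_toFinset_card _ hf2]
    congr 1
    ext χ''
    simp only [Finset.mem_filter, Set.Finite.mem_toFinset, Set.mem_ofPred_eq]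
    constructor
    · exact fun h => h.2
    · intro h
      refine ⟨?_, h⟩
      have h3 : χ'.comp f = χ := hχ''
      rw [← RingHom.comp_assoc, h, h3]
  rw [Finset.sum_congr rfl hfib, Finset.sum_const, smul_eq_mul, ← Set.ncard_eq_toFinset_card _ hfin₁, hcard₁]

/-- in a domain generated by algebraic elements every nonzero element divides a nonzero constant. -/
theorem phf_dvd_const {A B : Type*} [CommRing A] [IsDomain A] [CommRing B] [IsDomain B] (f : A →+* B)
    {n : ℕ} (x : Fin n → B) (halg : ∀ i, ∃ F : Polynomial A, F ≠ 0 ∧ F.eval₂ f (x i) = 0)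
    (hgen : ∀ b : B, ∃ F : MvPolynomial (Fin n) A, F.eval₂ f x = b) :
    ∀ b : B, b ≠ 0 → ∃ (b' : B) (c : A), c ≠ 0 ∧ b * b' = f c := by
  let _ : Algebra A B := f.toAlgebra
  intro b hb
  have hx : ∀ i, IsAlgebraic A (x i) := fun i => by
    obtain ⟨F, hF0, hF⟩ := halg i
    exact ⟨F, hF0, hF⟩
  have hbalg : IsAlgebraic A b := by
    obtain ⟨F, rfl⟩ := hgen b
    have h1 : F.eval₂ f x = aeval x F := rfl
    rw [h1]
    have h2 : aeval x F ∈ Algebra.adjoin A (Set.range x) := by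
      rw [Algebra.adjoin_range_eq_range_aeval]
      exact ⟨F, rfl⟩
    exact (Algebra.isAlgebraic_adjoin_iff.2 (by rintro _ ⟨i, rfl⟩; exact hx i)) _ h2
  obtain ⟨r, hr, b', hb'⟩ := hbalg.exists_nonzero_dvd (mem_nonZeroDivisors_of_ne_zero hb)
  exact ⟨b', r, hr, hb'.symm⟩

theorem phf_gencount_bij {A B : Type*} [CommRing A] [Nontrivial A] [CommRing B] (f : A →+* B)
    (hf : Function.Bijective f) : GenCount f 1 := by
  refine ⟨1, one_ne_zero, fun χ _ => ?_⟩
  set e := RingEquiv.ofBijective f hf with he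
  have hset : {χ' : B →+* ℂ | χ'.comp f = χ} = {χ.comp (e.symm : B →+* A)} := by
    ext χ'
    simp only [Set.mem_ofPred_eq, Set.mem_singleton_iff]
    constructor
    · intro h
      ext b
      obtain ⟨a, rfl⟩ := hf.2 b
      have h1 : e.symm (f a) = a := e.symm_apply_apply a
      rw [RingHom.comp_apply, RingEquiv.coe_toRingHom, h1, ← h, RingHom.comp_apply]
    · rintro rfl
      ext a
      have h1 : e.symm (f a) = a := e.symm_apply_apply a
      rw [RingHom.comp_apply, RingHom.comp_apply, RingEquiv.coe_toRingHom, h1]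
  rw [hset]
  exact ⟨Set.finite_singleton _, Set.ncard_singleton _⟩

theorem ph_gencount_fg {A : Type*} [CommRing A] [IsDomain A] [CharZero A] (n : ℕ) :
    ∀ (B : Type*) [CommRing B] [IsDomain B] (f : A →+* B) (_ : Function.Injective f)
      (x : Fin n → B) (_ : ∀ i, ∃ F : Polynomial A, F ≠ 0 ∧ F.eval₂ f (x i) = 0)
      (_ : ∀ b : B, ∃ F : MvPolynomial (Fin n) A, F.eval₂ f x = b), ∃ t, 1 ≤ t ∧ GenCount f t := by
  induction n with
  | zero =>
    intro B _ _ f hf x _ hgen
    refine ⟨1, le_rfl, phf_gencount_bij f ⟨hf, fun b => ?_⟩⟩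
    obtain ⟨F, rfl⟩ := hgen b
    refine ⟨F.coeff 0, ?_⟩
    conv_rhs => rw [MvPolynomial.eq_C_of_isEmpty F]
    rw [MvPolynomial.eval₂_C]
  | succ n ih =>
    intro B _ _ f hf x halg hgen
    set φ : MvPolynomial (Fin n) A →+* B := MvPolynomial.eval₂Hom f (fun i : Fin n => x i.succ) with hφ
    set f' : A →+* φ.range := φ.rangeRestrict.comp MvPolynomial.C with hf'
    set g : φ.range →+* B := φ.range.subtype with hg
    have hgf : g.comp f' = f := by
      ext a
      simp [hg, hf', hφ]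
    have hgf' : ∀ a, g (f' a) = f a := fun a => by rw [← hgf]; rfl
    have hginj : Function.Injective g := Subtype.val_injective
    have hf'inj : Function.Injective f' := by
      intro a b hab
      apply hf
      rw [← hgf' a, ← hgf' b, hab]
    set x' : Fin n → φ.range := fun i => ⟨x i.succ, ⟨MvPolynomial.X i, by simp [hφ]⟩⟩ with hx'
    have hgx' : ∀ i, g (x' i) = x i.succ := fun i => rfl
    have halg' : ∀ i, ∃ F : Polynomial A, F ≠ 0 ∧ F.eval₂ f' (x' i) = 0 := by
      intro i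
      obtain ⟨F, hF0, hF⟩ := halg i.succ
      refine ⟨F, hF0, hginj ?_⟩
      rw [Polynomial.hom_eval₂, hgf, hgx', hF, map_zero]
    have hgen' : ∀ b : φ.range, ∃ F : MvPolynomial (Fin n) A, F.eval₂ f' x' = b := by
      rintro ⟨b, F, rfl⟩
      refine ⟨F, hginj ?_⟩
      have h1 : g (F.eval₂ f' x') = F.eval₂ (g.comp f') (fun i => g (x' i)) :=
        MvPolynomial.eval₂_comp_left g f' x' F
      rw [h1, hgf]
      rfl
    obtain ⟨t₁, ht₁, hc₁⟩ := ih φ.range f' hf'inj x' halg' hgen'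
    have : CharZero φ.range := charZero_of_injective_ringHom hf'inj
    obtain ⟨t₂, ht₂, hc₂⟩ := ph_gencount_simple g hginj (x 0) (by
      obtain ⟨F, hF0, hF⟩ := halg 0
      refine ⟨F.map f', (Polynomial.map_ne_zero_iff hf'inj).2 hF0, ?_⟩
      rw [Polynomial.eval₂_map, hgf, hF]) (by
      intro b
      obtain ⟨P, rfl⟩ := hgen b
      induction P using MvPolynomial.induction_on with
      | C a =>
        refine ⟨Polynomial.C (f' a), ?_⟩
        rw [Polynomial.eval₂_C, MvPolynomial.eval₂_C, hgf']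
      | add p q hp hq =>
        obtain ⟨F₁, h₁⟩ := hp
        obtain ⟨F₂, h₂⟩ := hq
        exact ⟨F₁ + F₂, by rw [Polynomial.eval₂_add, MvPolynomial.eval₂_add, h₁, h₂]⟩
      | mul_X p i hp =>
        obtain ⟨F₁, h₁⟩ := hp
        rw [MvPolynomial.eval₂_mul, MvPolynomial.eval₂_X, ← h₁]
        refine Fin.cases ?_ (fun j => ?_) i
        · exact ⟨F₁ * Polynomial.X, by rw [Polynomial.eval₂_mul, Polynomial.eval₂_X]⟩
        · exact ⟨F₁ * Polynomial.C (x' j), by rw [Polynomial.eval₂_mul, Polynomial.eval₂_C, hgx']⟩)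
    refine ⟨t₁ * t₂, Nat.mul_pos ht₁ ht₂, ?_⟩
    have h := ph_gencount_comp f' g hc₁ hc₂ (phf_dvd_const f' x' halg' hgen')
    rwa [hgf] at h

/-! ### PH-fib-c -/

theorem phf_alg_of_trdeg {Ω : Type*} [Field Ω] [Algebra ℂ Ω] (S T : Subalgebra ℂ Ω) (hST : S ≤ T) (k : ℕ)
    (hS : Algebra.trdeg ℂ S = k) (hT : Algebra.trdeg ℂ T = k) (z : Ω) (hz : z ∈ T) :
    IsAlgebraic S z := by
  let _ : Algebra S T := (Subalgebra.inclusion hST).toAlgebra
  have hmap : ∀ s : S, algebraMap S T s = Subalgebra.inclusion hST s := fun s => rfl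
  have : IsScalarTower ℂ S T := IsScalarTower.of_algebraMap_eq fun c => rfl
  have : FaithfulSMul S T := (faithfulSMul_iff_algebraMap_injective S T).2 (Subalgebra.inclusion_injective hST)
  have : FaithfulSMul ℂ S := (faithfulSMul_iff_algebraMap_injective ℂ S).2 (algebraMap ℂ S).injective
  have hle := trdeg_add_le (R := ℂ) (S := S) (A := T)
  rw [hS, hT] at hle
  have h0 : Algebra.trdeg S T = 0 := by
    by_contra h
    have h1 : (1 : Cardinal) ≤ Algebra.trdeg S T := Cardinal.one_le_iff_ne_zero.2 h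
    have h2 : (k : Cardinal) + 1 ≤ k := le_trans (by gcongr) hle
    have h4 : k + 1 ≤ k := by exact_mod_cast h2
    omega
  have halg : Algebra.IsAlgebraic S T := trdeg_eq_zero_iff.1 h0
  obtain ⟨G, hG0, hG⟩ := halg.isAlgebraic (⟨z, hz⟩ : T)
  refine ⟨G, hG0, ?_⟩
  have h5 := congrArg T.val hG
  rw [Polynomial.aeval_def, map_zero] at h5
  have h6 : T.val (Polynomial.eval₂ (algebraMap S T) (⟨z, hz⟩ : T) G)
      = Polynomial.eval₂ ((T.val : T →+* Ω).comp (algebraMap S T)) (T.val ⟨z, hz⟩) G :=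
    Polynomial.hom_eval₂ G (algebraMap S T) (T.val : T →+* Ω) _
  rw [h6] at h5
  rw [Polynomial.aeval_def]
  exact h5

variable {ι κ : Type*} [Fintype ι] [Fintype κ]

/-- **[GEN-FIB]**, algebraic form: every coordinate is algebraic over `ℂ[ψ]` modulo `p`. -/
theorem ph_gen_fib_of_alg (p : Ideal (MvPolynomial ι ℂ)) (hp : p.IsPrime) (ψ : κ → MvPolynomial ι ℂ)
    (halg : ∀ i, ∃ F : Polynomial (MvPolynomial κ ℂ),
      (∃ j, aeval ψ (F.coeff j) ∉ p) ∧
        F.eval₂ (aeval ψ : MvPolynomial κ ℂ →ₐ[ℂ] MvPolynomial ι ℂ).toRingHom (X i) ∈ p) :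
    ∃ (t : ℕ) (h' : MvPolynomial κ ℂ), 1 ≤ t ∧ aeval ψ h' ∉ p ∧
      ∀ w ∈ zeroLocus ℂ (p.comap (aeval ψ : MvPolynomial κ ℂ →ₐ[ℂ] MvPolynomial ι ℂ)),
        eval w h' ≠ 0 → {x ∈ zeroLocus ℂ p | pmap ψ x = w}.Finite ∧
          {x ∈ zeroLocus ℂ p | pmap ψ x = w}.ncard = t := by
  classical
  set Ψ : MvPolynomial κ ℂ →+* MvPolynomial ι ℂ :=
    (aeval ψ : MvPolynomial κ ℂ →ₐ[ℂ] MvPolynomial ι ℂ).toRingHom with hΨ
  have hΨX : ∀ j, Ψ (X j) = ψ j := fun j => by simp [hΨ]
  have hΨC : ∀ c, Ψ (C c) = C c := fun c => by simp [hΨ]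
  set q : Ideal (MvPolynomial κ ℂ) := p.comap Ψ with hq
  have hqp : q.IsPrime := Ideal.comap_isPrime Ψ p
  set f : MvPolynomial κ ℂ ⧸ q →+* MvPolynomial ι ℂ ⧸ p := Ideal.quotientMap p Ψ le_rfl with hf
  have hfinj : Function.Injective f := Ideal.quotientMap_injective
  have hfmk : ∀ g, f (Ideal.Quotient.mk q g) = Ideal.Quotient.mk p (Ψ g) := fun g =>
    Ideal.quotientMap_mk
  have : CharZero (MvPolynomial κ ℂ ⧸ q) :=
    charZero_of_injective_algebraMap (algebraMap ℂ (MvPolynomial κ ℂ ⧸ q)).injective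
  set e := Fintype.equivFin ι with he
  set x : Fin (Fintype.card ι) → MvPolynomial ι ℂ ⧸ p := fun k => Ideal.Quotient.mk p (X (e.symm k)) with hx
  obtain ⟨t, ht, a, ha, hcount⟩ := ph_gencount_fg (A := MvPolynomial κ ℂ ⧸ q) (Fintype.card ι)
    (MvPolynomial ι ℂ ⧸ p) f hfinj x (by
      intro k
      obtain ⟨F, ⟨j, hj⟩, hF⟩ := halg (e.symm k)
      refine ⟨F.map (Ideal.Quotient.mk q), ?_, ?_⟩
      · intro h0
        apply hj
        have h1 := congrArg (fun P => Polynomial.coeff P j) h0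
        simp only [Polynomial.coeff_map, Polynomial.coeff_zero] at h1
        have h2 : F.coeff j ∈ q := Ideal.Quotient.eq_zero_iff_mem.1 h1
        exact h2
      · rw [Polynomial.eval₂_map]
        have h1 : f.comp (Ideal.Quotient.mk q) = (Ideal.Quotient.mk p).comp Ψ :=
          RingHom.ext fun g => hfmk g
        rw [h1, ← Polynomial.hom_eval₂]
        exact Ideal.Quotient.eq_zero_iff_mem.2 hF) (by
      intro b
      obtain ⟨P, rfl⟩ := Ideal.Quotient.mk_surjective b
      induction P using MvPolynomial.induction_on with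
      | C c =>
        refine ⟨C (Ideal.Quotient.mk q (C c)), ?_⟩
        rw [MvPolynomial.eval₂_C, hfmk, hΨC]
      | add P₁ P₂ h₁ h₂ =>
        obtain ⟨F₁, h₁⟩ := h₁
        obtain ⟨F₂, h₂⟩ := h₂
        exact ⟨F₁ + F₂, by rw [MvPolynomial.eval₂_add, h₁, h₂, map_add]⟩
      | mul_X P i h₁ =>
        obtain ⟨F₁, h₁⟩ := h₁
        refine ⟨F₁ * X (e i), ?_⟩
        rw [MvPolynomial.eval₂_mul, MvPolynomial.eval₂_X, h₁, map_mul, hx]
        simp)
  obtain ⟨h', rfl⟩ := Ideal.Quotient.mk_surjective a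
  refine ⟨t, h', ht, fun hmem => ha (Ideal.Quotient.eq_zero_iff_mem.2 hmem), ?_⟩
  intro w hw hwh
  -- the point `w` as a ring homomorphism
  set χ : MvPolynomial κ ℂ ⧸ q →+* ℂ := Ideal.Quotient.lift q (eval w) (fun g hg => by
    have := hw g hg
    simpa [aeval_eq_eval] using this) with hχ
  have hχmk : ∀ g, χ (Ideal.Quotient.mk q g) = eval w g := fun g => Ideal.Quotient.lift_mk _ _ _
  obtain ⟨hfin, hcard⟩ := hcount χ (by rw [hχmk]; exact hwh)
  set E := {χ' : MvPolynomial ι ℂ ⧸ p →+* ℂ | χ'.comp f = χ} with hE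
  set Θ : (MvPolynomial ι ℂ ⧸ p →+* ℂ) → (ι → ℂ) := fun χ' i => χ' (Ideal.Quotient.mk p (X i)) with hΘ
  have hkey : ∀ χ' ∈ E, ∀ P, χ' (Ideal.Quotient.mk p P) = eval (Θ χ') P := by
    intro χ' hχ' P
    have h0 : χ'.comp f = χ := hχ'
    have h1 : χ'.comp (Ideal.Quotient.mk p) = eval (Θ χ') := by
      apply MvPolynomial.ringHom_ext
      · intro c
        rw [RingHom.comp_apply, eval_C, ← hΨC, ← hfmk, ← RingHom.comp_apply, h0, hχmk, eval_C]
      · intro i
        rw [RingHom.comp_apply, eval_X]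
    rw [← h1, RingHom.comp_apply]
  have hinj : Set.InjOn Θ E := by
    intro χ₁ h₁ χ₂ h₂ h12
    apply RingHom.ext
    intro b
    obtain ⟨P, rfl⟩ := Ideal.Quotient.mk_surjective b
    rw [hkey χ₁ h₁, hkey χ₂ h₂, h12]
  have himg : Θ '' E = {x ∈ zeroLocus ℂ p | pmap ψ x = w} := by
    ext y
    constructor
    · rintro ⟨χ', hχ', rfl⟩
      have h0 : χ'.comp f = χ := hχ'
      refine ⟨fun P hP => ?_, ?_⟩
      · rw [aeval_eq_eval, ← hkey χ' hχ', Ideal.Quotient.eq_zero_iff_mem.2 hP, map_zero]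
      · funext j
        rw [pmap, ← hkey χ' hχ', ← hΨX, ← hfmk, ← RingHom.comp_apply, h0, hχmk, eval_X]
    · rintro ⟨hy, hyw⟩
      set χ' : MvPolynomial ι ℂ ⧸ p →+* ℂ := Ideal.Quotient.lift p (eval y) (fun g hg => by
        have := hy g hg
        simpa [aeval_eq_eval] using this) with hχ'
      have hχ'mk : ∀ g, χ' (Ideal.Quotient.mk p g) = eval y g := fun g => Ideal.Quotient.lift_mk _ _ _
      refine ⟨χ', ?_, ?_⟩
      · apply Ideal.Quotient.ringHom_ext
        apply MvPolynomial.ringHom_ext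
        · intro c
          simp only [RingHom.comp_apply]
          rw [hfmk, hχ'mk, hχmk, hΨC, eval_C, eval_C]
        · intro j
          simp only [RingHom.comp_apply]
          rw [hfmk, hχ'mk, hχmk, hΨX, eval_X, ← hyw, pmap]
      · funext i
        rw [hΘ]
        simp only
        rw [hχ'mk, eval_X]
  rw [← himg]
  exact ⟨hfin.image _, by rw [hinj.ncard_image, hcard]⟩

/-- **[GEN-FIB]**: `ψ : V → W = zcl (ψ V)`, `dim W = dim V`: all fibres over a dense open subset of `W` have the same finite number `t ≥ 1` of points. -/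
theorem ph_gen_fib {V : Set (ι → ℂ)} (hV : IsVar V) (ψ : κ → MvPolynomial ι ℂ)
    (hdim : vdim (zcl (pmap ψ '' V)) = vdim V) :
    ∃ (t : ℕ) (h' : MvPolynomial κ ℂ), 1 ≤ t ∧ (∃ w ∈ zcl (pmap ψ '' V), eval w h' ≠ 0) ∧
      ∀ w ∈ zcl (pmap ψ '' V), eval w h' ≠ 0 →
        {x ∈ V | pmap ψ x = w}.Finite ∧ {x ∈ V | pmap ψ x = w}.ncard = t := by
  obtain ⟨p, hp, rfl⟩ := hV
  rw [ph_zcl_image p hp ψ] at hdim ⊢
  set q : Ideal (MvPolynomial κ ℂ) := p.comap (aeval ψ : MvPolynomial κ ℂ →ₐ[ℂ] MvPolynomial ι ℂ) with hq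
  have hqp : q.IsPrime := Ideal.comap_isPrime _ p
  obtain ⟨ζ, hζ⟩ := ph_exists_genPt p hp
  set η := fun j => aeval ζ (ψ j) with hη'
  have hη : IsGenPt q η := ph_isGenPt_comap p ζ hζ ψ
  have hT := ph_trdeg p ζ hζ
  have hS := ph_trdeg q η hη
  rw [hdim] at hS
  have hcomp : ∀ g : MvPolynomial κ ℂ, aeval ζ (aeval ψ g) = aeval η g := by
    intro g
    have h := MvPolynomial.comp_aeval_apply (R := ℂ) ψ (aeval ζ : MvPolynomial ι ℂ →ₐ[ℂ] _) g
    exact h
  have hST : Algebra.adjoin ℂ (Set.range η) ≤ Algebra.adjoin ℂ (Set.range ζ) := by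
    apply Algebra.adjoin_le
    rintro _ ⟨j, rfl⟩
    rw [Algebra.adjoin_range_eq_range_aeval]
    exact ⟨ψ j, rfl⟩
  have halg : ∀ i, IsAlgebraic (Algebra.adjoin ℂ (Set.range η)) (ζ i) := fun i =>
    phf_alg_of_trdeg _ _ hST _ hS hT (ζ i) (Algebra.subset_adjoin ⟨i, rfl⟩)
  obtain ⟨t, h', ht, hh', hcount⟩ := ph_gen_fib_of_alg p hp ψ (fun i => by
    obtain ⟨G, hG0, hG⟩ := halg i
    set π : MvPolynomial κ ℂ →ₐ[ℂ] Algebra.adjoin ℂ (Set.range η) :=
      (aeval η : MvPolynomial κ ℂ →ₐ[ℂ] _).codRestrict (Algebra.adjoin ℂ (Set.range η)) (fun g => by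
        rw [Algebra.adjoin_range_eq_range_aeval]
        exact ⟨g, rfl⟩) with hπ
    have hπv : ∀ g, ((π g : Algebra.adjoin ℂ (Set.range η)) : GenF (vdim (zeroLocus ℂ p))) = aeval η g :=
      fun g => rfl
    have hπs : Function.Surjective π := by
      rintro ⟨s, hs⟩
      have hs' := hs
      rw [Algebra.adjoin_range_eq_range_aeval] at hs'
      obtain ⟨g, rfl⟩ := hs'
      exact ⟨g, Subtype.ext (hπv g)⟩
    obtain ⟨F, rfl⟩ := Polynomial.map_surjective (π : MvPolynomial κ ℂ →+* _) hπs G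
    refine ⟨F, ?_, ?_⟩
    · by_contra hcon
      push Not at hcon
      apply hG0
      ext j
      rw [Polynomial.coeff_map, Polynomial.coeff_zero]
      have h1 : F.coeff j ∈ q := hcon j
      have h2 := (hη (F.coeff j)).2 h1
      exact h2
    · rw [← hζ]
      rw [Polynomial.aeval_def, Polynomial.eval₂_map] at hG
      have h3 := Polynomial.hom_eval₂ F (aeval ψ : MvPolynomial κ ℂ →ₐ[ℂ] MvPolynomial ι ℂ).toRingHom
        (aeval ζ : MvPolynomial ι ℂ →ₐ[ℂ] GenF (vdim (zeroLocus ℂ p))).toRingHom (X i)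
      have h4 : (aeval ζ : MvPolynomial ι ℂ →ₐ[ℂ] GenF (vdim (zeroLocus ℂ p))).toRingHom.comp
          (aeval ψ : MvPolynomial κ ℂ →ₐ[ℂ] MvPolynomial ι ℂ).toRingHom
          = (algebraMap (Algebra.adjoin ℂ (Set.range η)) (GenF (vdim (zeroLocus ℂ p)))).comp
            (π : MvPolynomial κ ℂ →+* _) := RingHom.ext fun g => hcomp g
      rw [h4] at h3
      have h5 : (aeval ζ : MvPolynomial ι ℂ →ₐ[ℂ] GenF (vdim (zeroLocus ℂ p))).toRingHom (X i) = ζ i := by
        simp
      rw [h5, hG] at h3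
      exact h3)
  refine ⟨t, h', ht, ?_, hcount⟩
  by_contra hcon
  push Not at hcon
  have h1 : h' ∈ vanishingIdeal ℂ (zeroLocus ℂ q) := fun w hw => by
    rw [aeval_eq_eval]
    exact hcon w hw
  rw [IsPrime.vanishingIdeal_zeroLocus] at h1
  exact hh' h1

end Claimed.Agent.R273
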