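import Claimed.Agent.R273.DepCone
import Claimed.Agent.R273.PhFib
import Claimed.Agent.R273.GeoGen

/-!
# Row 273, S6c = depth.tex: CONES AND RAYS (pure algebraic geometry, no sample).  Architect helper177.  Prefix `dep_`.

Language: helper94's `IsVar`, `vdim`, `vdeg`, `zcl`, `pmap`, `prodSet` (PhDefs, PhDeg, PhDim, PhMap, PhFib).  `spCone p Y = {λ (y - p)}`, `dcone p Y = zcl (spCone p Y)`, `depRay p w U` = the points of `U`, other than `p`, on the line `p + ℂ w`; `depRoots p y U = depRay p (y - p) U` (rfl).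
EVERYTHING GENERIC IS STATED ON THE CONE `Z = dcone p Y` ("for `w ∈ Z` with `g(w) ≠ 0`"); the ONLY passage from the cone to the base `Y` is `dep_ray_cut`.

* DEP-CONE (`dep_dcone_isVar`, `dep_dcone_vdim_le`, `dep_sub_dcone`, `dep_dcone_smul`, `dep_dcone_hom`, `depw_vdim_dcone_le` (ARBITRARY `T`), `dep_cone_hom`): PROVED (helper71).  Useful: `dep_spCone_eq`, `dep_eval_scale : eval w (F(c (· - q))) = eval (c • (w - q)) F`, `ph_mem_zcl`, `pmb_homog_eval_smul`.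
* LEAF DEP-RAY0  (`dep_prod_nonvan`): induction on the finset, `ph_isVar_mul`, `ph_isVar_nonempty` (compare `geo_gen_finset` in `GeoGen.lean`).  (`dep_ray_smul`, `dep_ray_mono`, `dep_rootLE_mono`, `dep_eq_of_sub` are proved.)
* LEAF DEP-RAYCUT (`dep_ray_cut`, `dep_env_cut`).  `dep_ray_cut`: `g` does not vanish identically on `zcl (spCone p Y)`, hence not on `spCone p Y` (`g ∈ vanishingIdeal`): `g(a₀ (y₀ - p)) = ∑_k a₀^k g_k(y₀ - p) ≠ 0`, so `g_k(y₀ - p) ≠ 0` for some `k`.  `h := g_k(· - p)` (`aeval (X i - C (p i))`; degree `≤ k ≤ deg g`; `g_k = 0` for `k > deg g`).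
   If `h(q) ≠ 0` then `a ↦ g(a (q - p))` is a nonzero polynomial in `a` (coefficient `k`), so it has a nonzero value at some `a ≠ 0` (infinitely many `a`).
   `dep_env_cut`: there are `w ∈ dcone p Y` and `F`, `deg F ≤ T`, `F = 0` on `K`, `F(w) ≠ 0`.  As above `F_k(y₀ - p) ≠ 0`; `F_k = 0` on `K` (`dep_cone_hom`), `h := F_k(· - p)`.
* LEAF DEP-AVOID (`dep_ray_avoid`, `dep_genfib_other`); compare helper71's proof of `depw_avoid` in `DepWGen.lean`.  `dep_ray_avoid`: `vdim (dcone p T) ≤ vdim T + 1 < vdim Z` (`depw_vdim_dcone_le`), so `Z ⊄ dcone p T` (`ph_vdim_mono`): `w₀ ∈ Z`, `F ∈ vanishingIdeal (spCone p T)`, `F(w₀) ≠ 0`; `g := F`.  If `z ∈ depRay p w T`, `z - p = c w`, `c ≠ 0`, then `w = c⁻¹ (z - p) ∈ spCone p T`, `F(w) = 0`.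
   `dep_genfib_other`: `Z ⊄ dcone p Y'` (otherwise `dep_eq_of_sub`, `dep_dcone_isVar`, `dep_dcone_vdim_le`), same argument.
* LEAF DEP-GF1 (`dep_genfib_one`).  `V := prodSet Y univ ⊆ ℂ^{d ⊕ Unit}`, `ψ (z, λ) = λ (z - p)`, `pmap ψ '' V = spCone p Y`, `vdim V = vdim Y + 1` (`ph_prod_vdim`, `ph_univ`).  `ph_gen_fib`: `t`, `h'`.  `dcone p Y ≠ {0}` (dimension `≥ 1`, `ph_point`), so some coordinate `X i` does not vanish identically on it; `g := h' * X i` (`ph_isVar_mul`).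
   For `w ≠ 0` the map `(z, λ) ↦ z` is a bijection from the fibre `{(z, λ) ∈ V | λ (z - p) = w}` onto `depRay p w Y` (`λ ≠ 0`, `z - p = λ⁻¹ w`, `z ≠ p`; conversely `z - p = c w`, `c ≠ 0`, `λ = c⁻¹`, unique since `z - p ≠ 0`).  `Set.ncard_image_of_injOn`, `Set.Finite.image`.
* LEAF DEP-GF2 (`dep_genfib_cone`).  For `Y ∈ 𝒴` with `dcone p Y = Z`: `dep_genfib_one`; otherwise `dep_genfib_other`, `τ Y := 0`.  For `Y ≠ Y'` in `𝒴`: `T := Y ∩ Y'`; if `T = ∅` nothing; otherwise `vdim T < l` (`ph_vdim_lt_of_ssubset`; `Y ⊄ Y'` by `dep_eq_of_sub`), `dep_ray_avoid`.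
   `g` := product of all these (`dep_prod_nonvan`).  For good `w`: `depRay p w (⋃ 𝒴) = ⋃_Y depRay p w Y`, pairwise disjoint; `Set.ncard` of a finite disjoint union (induction on `𝒴`, `Set.ncard_union_eq`).
-/

set_option autoImplicit false

namespace Claimed.Agent.R273

open MvPolynomial Module

variable {d : ℕ}

/-- the points of `U`, other than `p`, on the line `p + ℂ w` -/
def depRay (p w : SpC d) (U : Set (SpC d)) : Set (SpC d) :=
  {z | z ∈ U ∧ z ≠ p ∧ ∃ c : ℂ, z - p = c • w}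

theorem dep_roots_eq_ray (p y : SpC d) (U : Set (SpC d)) : depRoots p y U = depRay p (y - p) U :=
  rfl

/-! ### general cones -/

/-- the ideal of a cone is homogeneous (general cone) -/
theorem dep_cone_hom (K : Set (SpC d)) (hK : ∀ w ∈ K, ∀ a : ℂ, a • w ∈ K) (F : PrfPol d)
    (hF : ∀ w ∈ K, eval w F = 0) (k : ℕ) : ∀ w ∈ K, eval w (homogeneousComponent k F) = 0 := by
  intro w hw
  have h := dep_dcone_hom (0 : SpC d) K F (by
    rintro _ ⟨y, hy, lam, rfl⟩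
    rw [sub_zero]
    exact hF _ (hK y hy lam)) k w ⟨w, hw, 1, by simp⟩
  exact h

/-! ### DEP-RAY0 -/

theorem dep_ray_smul (p w : SpC d) (U : Set (SpC d)) {a : ℂ} (ha : a ≠ 0) :
    depRay p (a • w) U = depRay p w U := by
  ext z
  constructor
  · rintro ⟨h1, h2, c, hc⟩
    exact ⟨h1, h2, c * a, by rw [hc, smul_smul]⟩
  · rintro ⟨h1, h2, c, hc⟩
    exact ⟨h1, h2, c * a⁻¹, by rw [hc, smul_smul, mul_assoc, inv_mul_cancel₀ ha, mul_one]⟩

theorem dep_ray_mono (p w : SpC d) {U U' : Set (SpC d)} (h : U ⊆ U') :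
    depRay p w U ⊆ depRay p w U' := fun _ hz => ⟨h hz.1, hz.2⟩

theorem dep_rootLE_mono {p : SpC d} {Y U U' : Set (SpC d)} {r r' : ℕ} (h : DepRootLE p Y U r)
    (hU : U' ⊆ U) (hr : r ≤ r') : DepRootLE p Y U' r' := by
  obtain ⟨g, hg, H⟩ := h
  refine ⟨g, hg, fun y hy hgy => ?_⟩
  obtain ⟨h1, h2⟩ := H y hy hgy
  exact ⟨h1.subset (dep_ray_mono p (y - p) hU),
    ((Set.ncard_le_ncard (dep_ray_mono p (y - p) hU) h1).trans h2).trans hr⟩

theorem dep_eq_of_sub {V W : Set (SpC d)} (hV : IsVar V) (hW : IsVar W) (h : W ⊆ V)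
    (hdim : vdim V ≤ vdim W) : W = V := dep_var_eq hW hV h hdim

theorem dep_prod_nonvan {Z : Set (SpC d)} (hZ : IsVar Z) {α : Type*} (s : Finset α)
    (g : α → PrfPol d) (h : ∀ a ∈ s, ∃ w ∈ Z, eval w (g a) ≠ 0) :
    ∃ w ∈ Z, eval w (∏ a ∈ s, g a) ≠ 0 := by
  classical
  induction s using Finset.induction_on with
  | empty =>
    obtain ⟨w, hw⟩ := ph_isVar_nonempty _ hZ
    exact ⟨w, hw, by simp⟩
  | insert a s ha ih =>
    rw [Finset.prod_insert ha]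
    obtain ⟨w₁, hw₁, h1⟩ := h a (Finset.mem_insert_self a s)
    obtain ⟨w₂, hw₂, h2⟩ := ih fun b hb => h b (Finset.mem_insert_of_mem hb)
    by_contra hcon
    push Not at hcon
    rcases ph_isVar_mul hZ _ _ hcon with hc | hc
    · exact h1 (hc w₁ hw₁)
    · exact h2 (hc w₂ hw₂)

/-! ### DEP-RAYCUT -/

/-- restriction of a polynomial to the line `ℂ v` -/
theorem dep_line_poly (F : PrfPol d) (v : SpC d) : ∃ Q : Polynomial ℂ,
    (∀ a : ℂ, Q.eval a = eval (a • v) F) ∧ ∀ k, Q.coeff k = eval v (homogeneousComponent k F) := by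
  refine ⟨∑ j ∈ Finset.range (F.totalDegree + 1),
    Polynomial.C (eval v (homogeneousComponent j F)) * Polynomial.X ^ j, fun a => ?_, fun k => ?_⟩
  · conv_rhs => rw [← sum_homogeneousComponent F, map_sum]
    simp only [Polynomial.eval_finsetSum, Polynomial.eval_mul, Polynomial.eval_C,
      Polynomial.eval_pow, Polynomial.eval_X]
    apply Finset.sum_congr rfl
    intro j _
    rw [pmb_homog_eval_smul (homogeneousComponent_isHomogeneous j F) a v, mul_comm]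
  · simp only [Polynomial.finsetSum_coeff, Polynomial.coeff_C_mul, Polynomial.coeff_X_pow]
    by_cases hk : k ∈ Finset.range (F.totalDegree + 1)
    · rw [Finset.sum_eq_single k]
      · simp
      · intro j _ hj
        simp [Ne.symm hj]
      · intro h; exact absurd hk h
    · rw [Finset.mem_range, not_lt] at hk
      rw [homogeneousComponent_eq_zero k F (by omega), map_zero]
      apply Finset.sum_eq_zero
      intro j hj
      rw [Finset.mem_range] at hj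
      rw [if_neg (by omega), mul_zero]

/-- a polynomial not vanishing identically on the closed cone has a homogeneous component not vanishing at some `y - p` -/
theorem dep_comp_nonvan (p : SpC d) (Y : Set (SpC d)) (g : PrfPol d)
    (hg : ∃ w ∈ dcone p Y, eval w g ≠ 0) :
    ∃ k ≤ g.totalDegree, ∃ y ∈ Y, eval (y - p) (homogeneousComponent k g) ≠ 0 := by
  obtain ⟨w, hw, hgw⟩ := hg
  unfold dcone at hw
  rw [ph_mem_zcl] at hw
  have h1 : ¬ ∀ y ∈ spCone p Y, eval y g = 0 := fun h => hgw (hw g h)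
  push Not at h1
  obtain ⟨_, ⟨y₀, hy₀, a₀, rfl⟩, h2⟩ := h1
  rw [← sum_homogeneousComponent g, map_sum] at h2
  obtain ⟨k, hk, h3⟩ := Finset.exists_ne_zero_of_sum_ne_zero h2
  rw [Finset.mem_range] at hk
  refine ⟨k, by omega, y₀, hy₀, ?_⟩
  rw [pmb_homog_eval_smul (homogeneousComponent_isHomogeneous k g)] at h3
  exact right_ne_zero_of_mul h3

theorem dep_shift_deg (p : SpC d) (F : PrfPol d) :
    (aeval (fun i => C 1 * (X i - C (p i)) : Fin d → PrfPol d) F).totalDegree ≤ F.totalDegree := by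
  apply ph_totalDegree_aeval_le
  intro j
  refine (totalDegree_mul _ _).trans ?_
  rw [totalDegree_C, zero_add]
  exact (totalDegree_sub_C_le _ _).trans (totalDegree_X j).le

/-- FROM THE CONE TO THE BASE: a test polynomial on the cone gives a test polynomial on the base -/
theorem dep_ray_cut (p : SpC d) (Y : Set (SpC d)) (g : PrfPol d)
    (hg : ∃ w ∈ dcone p Y, eval w g ≠ 0) :
    ∃ h : PrfPol d, h.totalDegree ≤ g.totalDegree ∧ (∃ y ∈ Y, eval y h ≠ 0) ∧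
      ∀ q : SpC d, eval q h ≠ 0 → ∃ a : ℂ, a ≠ 0 ∧ eval (a • (q - p)) g ≠ 0 := by
  obtain ⟨k, hk, y₀, hy₀, h0⟩ := dep_comp_nonvan p Y g hg
  refine ⟨aeval (fun i => C 1 * (X i - C (p i)) : Fin d → PrfPol d) (homogeneousComponent k g),
    ?_, ⟨y₀, hy₀, by rwa [dep_eval_scale, one_smul]⟩, fun q hq => ?_⟩
  · exact (dep_shift_deg p _).trans
      ((homogeneousComponent_isHomogeneous k g).totalDegree_le.trans hk)
  · rw [dep_eval_scale, one_smul] at hq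
    obtain ⟨Q, hQ1, hQ2⟩ := dep_line_poly g (q - p)
    have hQ0 : Q * Polynomial.X ≠ 0 := by
      apply mul_ne_zero _ Polynomial.X_ne_zero
      intro h0
      apply hq
      rw [← hQ2, h0, Polynomial.coeff_zero]
    have : ¬ ∀ a : ℂ, (Q * Polynomial.X).eval a = (0 : Polynomial ℂ).eval a :=
      fun h => hQ0 (Polynomial.funext h)
    push Not at this
    obtain ⟨a, ha⟩ := this
    rw [Polynomial.eval_mul, Polynomial.eval_X, Polynomial.eval_zero, hQ1] at ha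
    exact ⟨a, right_ne_zero_of_mul ha, left_ne_zero_of_mul ha⟩

/-- a carrier whose cone is not contained in the envelope of the cone `K` is properly cut by a polynomial vanishing at all `q` with `q - p ∈ K` -/
theorem dep_env_cut (p : SpC d) (K : Set (SpC d)) (hK : ∀ w ∈ K, ∀ a : ℂ, a • w ∈ K) (T : ℕ)
    (Y : Set (SpC d)) (hY : ¬ dcone p Y ⊆ Env K T) :
    ∃ h : PrfPol d, h.totalDegree ≤ T ∧ (∃ y ∈ Y, eval y h ≠ 0) ∧
      ∀ q : SpC d, q - p ∈ K → eval q h = 0 := by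
  rw [Set.not_subset] at hY
  obtain ⟨w, hw, hwE⟩ := hY
  have h1 : ¬ ∀ f ∈ {f : PrfPol d | f.totalDegree ≤ T ∧ ∀ x ∈ K, eval x f = 0}, eval w f = 0 := hwE
  push Not at h1
  obtain ⟨F, ⟨hFT, hFK⟩, hFw⟩ := h1
  obtain ⟨k, hk, y₀, hy₀, h0⟩ := dep_comp_nonvan p Y F ⟨w, hw, hFw⟩
  refine ⟨aeval (fun i => C 1 * (X i - C (p i)) : Fin d → PrfPol d) (homogeneousComponent k F),
    ?_, ⟨y₀, hy₀, by rwa [dep_eval_scale, one_smul]⟩, fun q hq => ?_⟩
  · exact (dep_shift_deg p _).trans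
      ((homogeneousComponent_isHomogeneous k F).totalDegree_le.trans (hk.trans hFT))
  · rw [dep_eval_scale, one_smul]
    exact dep_cone_hom K hK F hFK k _ hq

/-! ### DEP-AVOID -/

theorem dep_avoid_of_not_sub (p : SpC d) (Z T : Set (SpC d)) (h : ¬ Z ⊆ dcone p T) :
    ∃ g : PrfPol d, (∃ w ∈ Z, eval w g ≠ 0) ∧ ∀ w : SpC d, eval w g ≠ 0 → depRay p w T = ∅ := by
  rw [Set.not_subset] at h
  obtain ⟨w₀, hw₀, hw⟩ := h
  unfold dcone at hw
  rw [ph_mem_zcl] at hw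
  push Not at hw
  obtain ⟨F, hF, hFw⟩ := hw
  refine ⟨F, ⟨w₀, hw₀, hFw⟩, fun w hwF => ?_⟩
  rw [Set.eq_empty_iff_forall_notMem]
  rintro z ⟨hzT, hzp, c, hc⟩
  apply hwF
  have hc0 : c ≠ 0 := by
    rintro rfl
    rw [zero_smul, sub_eq_zero] at hc
    exact hzp hc
  apply hF
  refine ⟨z, hzT, c⁻¹, ?_⟩
  rw [hc, smul_smul, inv_mul_cancel₀ hc0, one_smul]

theorem dep_ray_avoid (p : SpC d) (Z : Set (SpC d)) (T : Set (SpC d)) (hT : vdim T + 1 < vdim Z) :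
    ∃ g : PrfPol d, (∃ w ∈ Z, eval w g ≠ 0) ∧ ∀ w : SpC d, eval w g ≠ 0 → depRay p w T = ∅ := by
  apply dep_avoid_of_not_sub
  intro hsub
  have h1 := ph_vdim_mono hsub
  have h2 := depw_vdim_dcone_le p T
  omega

theorem dep_genfib_other (p : SpC d) (Z : Set (SpC d)) (hZ : IsVar Z) (Y' : Set (SpC d))
    (hY' : IsVar Y') (hdim : vdim Y' + 1 ≤ vdim Z) (hne : dcone p Y' ≠ Z) :
    ∃ g : PrfPol d, (∃ w ∈ Z, eval w g ≠ 0) ∧ ∀ w : SpC d, eval w g ≠ 0 → depRay p w Y' = ∅ := by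
  apply dep_avoid_of_not_sub
  intro hsub
  exact hne (dep_eq_of_sub (dep_dcone_isVar p hY') hZ hsub
    ((dep_dcone_vdim_le p hY').trans hdim)).symm

/-! ### DEP-GF1, DEP-GF2 -/

theorem dep_coneMap_apply (p : SpC d) (x : Fin d ⊕ Fin 1 → ℂ) :
    pmap (depConeMap p) x = x (Sum.inr 0) • ((fun i => x (Sum.inl i)) - p) := by
  funext i
  simp [pmap, depConeMap]

theorem dep_genfib_one (p : SpC d) (Y : Set (SpC d)) (hY : IsVar Y)
    (hZ : vdim (dcone p Y) = vdim Y + 1) :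
    ∃ (t : ℕ) (g : PrfPol d), (∃ w ∈ dcone p Y, eval w g ≠ 0) ∧
      ∀ w ∈ dcone p Y, eval w g ≠ 0 → (depRay p w Y).Finite ∧ (depRay p w Y).ncard = t := by
  have hV : IsVar (prodSet Y (Set.univ : Set (Fin 1 → ℂ))) := ph_prod_isVar hY ph_univ.1
  have hVd : vdim (prodSet Y (Set.univ : Set (Fin 1 → ℂ))) = vdim Y + 1 := by
    rw [ph_prod_vdim hY ph_univ.1, ph_univ.2.1]; simp
  have hcone : dcone p Y = zcl (pmap (depConeMap p) '' prodSet Y (Set.univ : Set (Fin 1 → ℂ))) := by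
    unfold dcone; rw [dep_spCone_eq]
  obtain ⟨t, h', -, hne, hh'⟩ := ph_gen_fib hV (depConeMap p) (by rw [← hcone, hZ, hVd])
  rw [← hcone] at hne hh'
  have hZv := dep_dcone_isVar p hY
  -- a coordinate not vanishing identically
  have h0 : ∃ w ∈ dcone p Y, w ≠ 0 := by
    by_contra hall
    push Not at hall
    have h2 := ph_vdim_mono (show dcone p Y ⊆ {0} from fun y hy => hall y hy)
    rw [(ph_point (0 : SpC d)).2.1, hZ] at h2
    omega
  obtain ⟨w₁, hw₁, hw₁0⟩ := h0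
  obtain ⟨i, hi⟩ : ∃ i, w₁ i ≠ 0 := by
    by_contra hall
    push Not at hall
    exact hw₁0 (funext hall)
  refine ⟨t, h' * X i, ?_, fun w hw hgw => ?_⟩
  · by_contra hcon
    push Not at hcon
    rcases ph_isVar_mul hZv _ _ hcon with hc | hc
    · obtain ⟨w, hw, hw'⟩ := hne
      exact hw' (hc w hw)
    · have := hc w₁ hw₁
      rw [eval_X] at this
      exact hi this
  · rw [map_mul, eval_X] at hgw
    have hw0 : w ≠ 0 := by
      rintro rfl
      exact right_ne_zero_of_mul hgw rfl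
    obtain ⟨hfin, hcard⟩ := hh' w hw (left_ne_zero_of_mul hgw)
    set Φ : Set (Fin d ⊕ Fin 1 → ℂ) :=
      {x ∈ prodSet Y (Set.univ : Set (Fin 1 → ℂ)) | pmap (depConeMap p) x = w} with hΦ
    have himg : depRay p w Y = (fun x : Fin d ⊕ Fin 1 → ℂ => fun i => x (Sum.inl i)) '' Φ := by
      ext z
      constructor
      · rintro ⟨hzY, hzp, c, hc⟩
        have hc0 : c ≠ 0 := by
          rintro rfl
          rw [zero_smul, sub_eq_zero] at hc
          exact hzp hc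
        refine ⟨Sum.elim z (fun _ => c⁻¹), ⟨⟨by simpa using hzY, Set.mem_univ _⟩, ?_⟩, by simp⟩
        rw [dep_coneMap_apply]
        simp only [Sum.elim_inr, Sum.elim_inl]
        rw [hc, smul_smul, inv_mul_cancel₀ hc0, one_smul]
      · rintro ⟨x, ⟨⟨hxY, -⟩, hxw⟩, rfl⟩
        rw [dep_coneMap_apply] at hxw
        have hl : x (Sum.inr 0) ≠ 0 := by
          intro h0
          rw [h0, zero_smul] at hxw
          exact hw0 hxw.symm
        refine ⟨hxY, ?_, (x (Sum.inr 0))⁻¹, ?_⟩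
        · intro h0
          have h0' : (fun i => x (Sum.inl i)) = p := h0
          rw [h0', sub_self, smul_zero] at hxw
          exact hw0 hxw.symm
        · rw [← hxw, smul_smul, inv_mul_cancel₀ hl, one_smul]
    have hinj : Set.InjOn (fun x : Fin d ⊕ Fin 1 → ℂ => fun i => x (Sum.inl i)) Φ := by
      rintro x ⟨-, hx⟩ x' ⟨-, hx'⟩ hxx'
      simp only at hxx'
      rw [dep_coneMap_apply] at hx hx'
      rw [← hxx'] at hx'
      have hv : (fun i => x (Sum.inl i)) - p ≠ 0 := by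
        intro h0
        rw [h0, smul_zero] at hx
        exact hw0 hx.symm
      have h1 : (x (Sum.inr 0) - x' (Sum.inr 0)) • ((fun i => x (Sum.inl i)) - p) = 0 := by
        rw [sub_smul, hx, hx', sub_self]
      have h2 : x (Sum.inr 0) = x' (Sum.inr 0) := by
        rcases smul_eq_zero.1 h1 with h | h
        · exact sub_eq_zero.1 h
        · exact absurd h hv
      funext j
      rcases j with j | j
      · exact congrFun hxx' j
      · rw [Subsingleton.elim j 0]; exact h2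
    rw [himg]
    exact ⟨hfin.image _, by rw [Set.InjOn.ncard_image hinj, hcard]⟩

theorem dep_ncard_biUnion {α β : Type*} (s : Finset α) (f : α → Set β)
    (hfin : ∀ a ∈ s, (f a).Finite) (hdis : ∀ a ∈ s, ∀ b ∈ s, a ≠ b → Disjoint (f a) (f b)) :
    (⋃ a ∈ s, f a).Finite ∧ (⋃ a ∈ s, f a).ncard = ∑ a ∈ s, (f a).ncard := by
  classical
  induction s using Finset.induction_on with
  | empty => simp
  | insert a s ha ih =>
    obtain ⟨ih1, ih2⟩ := ih (fun b hb => hfin b (Finset.mem_insert_of_mem hb))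
      (fun b hb c hc => hdis b (Finset.mem_insert_of_mem hb) c (Finset.mem_insert_of_mem hc))
    rw [Finset.set_biUnion_insert, Finset.sum_insert ha]
    have hfa := hfin a (Finset.mem_insert_self a s)
    refine ⟨hfa.union ih1, ?_⟩
    rw [Set.ncard_union_eq _ hfa ih1, ih2]
    rw [Set.disjoint_iUnion₂_right]
    intro b hb
    exact hdis a (Finset.mem_insert_self a s) b (Finset.mem_insert_of_mem hb)
      (fun h => ha (h ▸ hb))

/-- the number of points of an `l`-dimensional family on a general ray of an `(l+1)`-dimensional irreducible cone is constant, and additive over the family -/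
theorem dep_genfib_cone (p : SpC d) (l : ℕ) (𝒴 : Finset (Set (SpC d)))
    (h𝒴 : ∀ Y ∈ 𝒴, IsVar Y ∧ vdim Y = l) (Z : Set (SpC d)) (hZ : IsVar Z) (hZl : vdim Z = l + 1) :
    ∃ (τ : Set (SpC d) → ℕ) (g : PrfPol d), (∃ w ∈ Z, eval w g ≠ 0) ∧
      ∀ w ∈ Z, eval w g ≠ 0 →
        (∀ Y ∈ 𝒴, (depRay p w Y).Finite ∧ (depRay p w Y).ncard = τ Y) ∧
        (depRay p w (⋃ Y ∈ 𝒴, Y)).Finite ∧ (depRay p w (⋃ Y ∈ 𝒴, Y)).ncard = ∑ Y ∈ 𝒴, τ Y := by
  classical
  have a1 : ∀ Y : Set (SpC d), ∃ t : ℕ, Y ∈ 𝒴 →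
      GenOn Z fun w => (depRay p w Y).Finite ∧ (depRay p w Y).ncard = t := by
    intro Y
    by_cases hY : Y ∈ 𝒴
    · by_cases hYZ : dcone p Y = Z
      · subst hYZ
        obtain ⟨t, g, hg, hg'⟩ := dep_genfib_one p Y (h𝒴 Y hY).1 (by rw [hZl, (h𝒴 Y hY).2])
        exact ⟨t, fun _ => ⟨g, hg, hg'⟩⟩
      · obtain ⟨g, hg, hg'⟩ := dep_genfib_other p Z hZ Y (h𝒴 Y hY).1
          (by rw [hZl, (h𝒴 Y hY).2]) hYZ
        exact ⟨0, fun _ => ⟨g, hg, fun w _ hw => by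
          show (depRay p w Y).Finite ∧ (depRay p w Y).ncard = 0
          rw [hg' w hw]; simp⟩⟩
    · exact ⟨0, fun h => absurd h hY⟩
  choose τ hτ using a1
  have g1 : GenOn Z fun w => ∀ Y ∈ 𝒴, (depRay p w Y).Finite ∧ (depRay p w Y).ncard = τ Y :=
    geo_gen_finset hZ 𝒴 _ fun Y hY => hτ Y hY
  have g2 : GenOn Z fun w => ∀ P ∈ (𝒴 ×ˢ 𝒴).filter (fun P => P.1 ≠ P.2),
      depRay p w (P.1 ∩ P.2) = ∅ := by
    apply geo_gen_finset hZ
    rintro ⟨Y, Y'⟩ hP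
    rw [Finset.mem_filter, Finset.mem_product] at hP
    obtain ⟨⟨hY, hY'⟩, hne⟩ := hP
    simp only at hY hY' hne ⊢
    by_cases hemp : (Y ∩ Y').Nonempty
    · have hns : ¬ Y ⊆ Y' := fun hsub => hne (dep_eq_of_sub (h𝒴 Y' hY').1 (h𝒴 Y hY).1 hsub
        (by rw [(h𝒴 Y hY).2, (h𝒴 Y' hY').2]))
      obtain ⟨g, ⟨x, hx, hgx⟩, hg⟩ := geo_gen_compl (h𝒴 Y' hY').1 hns
      have hlt := ph_vdim_lt_of_ssubset (h𝒴 Y hY).1
        (Set.inter_subset_left : Y ∩ Y' ⊆ Y) g (fun z hz => by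
          by_contra hz0
          exact hg z hz.1 hz0 hz.2) ⟨x, hx, hgx⟩ hemp
      rw [(h𝒴 Y hY).2] at hlt
      obtain ⟨g', hg', hg''⟩ := dep_ray_avoid p Z (Y ∩ Y') (by omega)
      exact ⟨g', hg', fun w _ hw => hg'' w hw⟩
    · rw [Set.not_nonempty_iff_eq_empty] at hemp
      apply geo_gen_of_forall (ph_isVar_nonempty _ hZ)
      intro w _
      rw [hemp, Set.eq_empty_iff_forall_notMem]
      rintro z ⟨hz, -⟩
      exact hz
  obtain ⟨g, hg, hg'⟩ := geo_gen_and hZ g1 g2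
  refine ⟨τ, g, hg, fun w hw hgw => ?_⟩
  obtain ⟨h1, h2⟩ := hg' w hw hgw
  refine ⟨h1, ?_⟩
  have hU : depRay p w (⋃ Y ∈ 𝒴, Y) = ⋃ Y ∈ 𝒴, depRay p w Y := by
    ext z
    simp only [depRay, Set.mem_ofPred_eq, Set.mem_iUnion, exists_prop]
    constructor
    · rintro ⟨⟨Y, hY, hz⟩, h⟩
      exact ⟨Y, hY, hz, h⟩
    · rintro ⟨Y, hY, hz, h⟩
      exact ⟨⟨Y, hY, hz⟩, h⟩
  rw [hU]
  obtain ⟨h3, h4⟩ := dep_ncard_biUnion 𝒴 (fun Y => depRay p w Y) (fun Y hY => (h1 Y hY).1) (by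
    intro Y hY Y' hY' hne
    rw [Set.disjoint_left]
    intro z hz hz'
    have h5 := h2 (Y, Y') (by
      rw [Finset.mem_filter, Finset.mem_product]; exact ⟨⟨hY, hY'⟩, hne⟩)
    have h6 : z ∈ depRay p w (Y ∩ Y') := ⟨⟨hz.1, hz'.1⟩, hz.2⟩
    simp only at h5
    rw [h5] at h6
    exact h6)
  refine ⟨h3, ?_⟩
  rw [h4]
  exact Finset.sum_congr rfl fun Y hY => (h1 Y hY).2

/-! ### glue: `dep_genfib`, `dep_group` -/

theorem dep_genfib (p : SpC d) (l : ℕ) (𝒴 : Finset (Set (SpC d)))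
    (h𝒴 : ∀ Y ∈ 𝒴, IsVar Y ∧ vdim Y = l) (Y : Set (SpC d)) (hY : IsVar Y) (_hYl : vdim Y = l)
    (hZ : vdim (dcone p Y) = l + 1) :
    ∃ (t : ℕ) (h : PrfPol d), (∃ y ∈ Y, eval y h ≠ 0) ∧ ∀ y ∈ Y, eval y h ≠ 0 →
      (depRoots p y (⋃ Y' ∈ 𝒴, Y')).Finite ∧ (depRoots p y (⋃ Y' ∈ 𝒴, Y')).ncard = t := by
  obtain ⟨τ, g, hg, hg'⟩ := dep_genfib_cone p l 𝒴 h𝒴 (dcone p Y) (dep_dcone_isVar p hY) hZ
  obtain ⟨h, -, hh, hh'⟩ := dep_ray_cut p Y g hg
  refine ⟨∑ Y ∈ 𝒴, τ Y, h, hh, fun y hy hyh => ?_⟩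
  obtain ⟨a, ha, hga⟩ := hh' y hyh
  have := (hg' _ (dep_sub_dcone p Y hy a) hga).2
  rwa [dep_ray_smul p (y - p) _ ha] at this

/-- depth `≤ r` of a group of half-good carriers with the same projected image `Z` ⇒ total degree `≤ 2 r deg Z` (paper: (dep:depth-to-degree)) -/
theorem dep_group (p : SpC d) (l : ℕ) (𝒴 : Finset (Set (SpC d))) (Z : Set (SpC d))
    (h𝒴 : ∀ Y ∈ 𝒴, IsVar Y ∧ vdim Y = l ∧ dcone p Y = Z ∧ DepHalfGood p Y) (hZ : vdim Z = l + 1)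
    (Y₀ : Set (SpC d)) (hY₀ : Y₀ ∈ 𝒴) (r : ℕ) (hr : DepRootLE p Y₀ (⋃ Y ∈ 𝒴, Y) r) :
    ∑ Y ∈ 𝒴, vdeg Y ≤ 2 * r * vdeg Z := by
  have hZv : IsVar Z := by
    have := dep_dcone_isVar p (h𝒴 Y₀ hY₀).1
    rwa [(h𝒴 Y₀ hY₀).2.2.1] at this
  obtain ⟨τ, g, hg, hg'⟩ := dep_genfib_cone p l 𝒴 (fun Y hY => ⟨(h𝒴 Y hY).1, (h𝒴 Y hY).2.1⟩) Z hZv hZ
  -- every member has depth `τ Y` on itself
  have h1 : ∀ Y ∈ 𝒴, vdeg Y ≤ 2 * τ Y * vdeg Z := by
    intro Y hY
    obtain ⟨hYv, -, hYZ, hhalf⟩ := h𝒴 Y hY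
    have hgY : ∃ w ∈ dcone p Y, eval w g ≠ 0 := by rw [hYZ]; exact hg
    obtain ⟨h, -, hh, hh'⟩ := dep_ray_cut p Y g hgY
    have := hhalf (τ Y) ⟨h, hh, fun y hy hyh => by
      obtain ⟨a, ha, hga⟩ := hh' y hyh
      have hw : a • (y - p) ∈ Z := by rw [← hYZ]; exact dep_sub_dcone p Y hy a
      have := (hg' _ hw hga).1 Y hY
      rw [dep_ray_smul p (y - p) _ ha] at this
      exact ⟨this.1, this.2.le⟩⟩
    rwa [hYZ] at this
  -- the sum of the depths is at most `r`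
  have h2 : ∑ Y ∈ 𝒴, τ Y ≤ r := by
    obtain ⟨hYv, -, hYZ, -⟩ := h𝒴 Y₀ hY₀
    have hgY : ∃ w ∈ dcone p Y₀, eval w g ≠ 0 := by rw [hYZ]; exact hg
    obtain ⟨h, -, hh, hh'⟩ := dep_ray_cut p Y₀ g hgY
    obtain ⟨h₀, hh₀, hh₀'⟩ := hr
    have : ∃ y ∈ Y₀, eval y (h * h₀) ≠ 0 := by
      by_contra hcon
      push Not at hcon
      rcases ph_isVar_mul hYv h h₀ hcon with hc | hc
      · obtain ⟨y, hy, hyh⟩ := hh
        exact hyh (hc y hy)
      · obtain ⟨y, hy, hyh⟩ := hh₀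
        exact hyh (hc y hy)
    obtain ⟨y, hy, hyh⟩ := this
    rw [map_mul] at hyh
    obtain ⟨a, ha, hga⟩ := hh' y (left_ne_zero_of_mul hyh)
    have hw : a • (y - p) ∈ Z := by rw [← hYZ]; exact dep_sub_dcone p Y₀ hy a
    have h3 := (hg' _ hw hga).2.2
    rw [dep_ray_smul p (y - p) _ ha] at h3
    have h4 := (hh₀' y hy (right_ne_zero_of_mul hyh)).2
    rw [dep_roots_eq_ray, h3] at h4
    exact h4
  calc ∑ Y ∈ 𝒴, vdeg Y ≤ ∑ Y ∈ 𝒴, 2 * τ Y * vdeg Z := Finset.sum_le_sum h1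
    _ = 2 * (∑ Y ∈ 𝒴, τ Y) * vdeg Z := by rw [Finset.mul_sum, Finset.sum_mul]
    _ ≤ 2 * r * vdeg Z := by gcongr

end Claimed.Agent.R273
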