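import Claimed.Agent.R273.DepWCut
import Claimed.Agent.R273.SplMain

/-!
# Row 273, S6c = depth.tex, "Centers in the wider window": THE ASSEMBLY (package BP-DEP-WIDE).  helper120 (chief helper177).  Prefix `depv`.  SORRY-FREE.

`dep_wide_depth` (DepWide.lean) = `depv_main` (end of this file) applied to `dep_wide_lists`; consumed black boxes: `dep_wide_cut`, `dep_drop`, `dep_half`, `sp_lim.indiv`.  Notation: `X = 𝔠.X` (centres, width `v`), `Y = 𝔠.Y` (targets, width `s ≤ θ v`, one piece `π = Y.π a`), `B = 𝔠.D.B`, `l = d - j`,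
`R := ⌊T_s(-2)⌋ = ⌊B e^{-2s}⌋`, `L₀ := ⌊T_s(2)⌋`, `jx` = number of `b_i ≤ 0`, `t := b_{jx}/2 > 0` (a time of the centre plateau after `jx` cuts).
DELETED PAIRS  `Del = D0 ∪ D1 ∪ D2 ∪ D3`:
 D0 `asg q ∉ 𝓛 (asgx p)`                                     `≤ (ρ/4)|X||Y|`  (`DepLists.small`)
 D1 `vdim (dcone p Z(asg q)) ≠ l + 1`                        rows `≤ θ|X|`    (`depv_row_drop`: `dep_drop` + `low` of the centre pieces)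
 D2 `¬ DepHalfGood p Z(asg q)`                               rows `≤ θ|X|`    (`depv_row_half`: `dep_half` + `low`)
 D3 listed, no drop, depth `> R` on the list `𝓛 (asgx p)`     rows `≤ (ρ/4)|X|` (`depv_row_depth`: `dep_wide_cut` for every centre carrier + individual cuts `SpIndivStmt` on the centre pool)
On the remaining pairs the retained union at `p` is contained in `⋃ 𝓛 (asgx p)` (`depv_rootLE_mono`).
-/

set_option autoImplicit false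

namespace Claimed.Agent.R273

open MvPolynomial Module

variable {d : ℕ}

/-- the statement of `dep_wide_cut` for a given constant -/
def DepvCut (d Cd : ℕ) : Prop :=
  ∀ (G : Set (PrfPol d)) (L₀ : ℕ),
    (∀ g ∈ G, g.totalDegree ≤ L₀) → ∀ (l : ℕ) (𝒴 : Finset (Set (SpC d))), 1 ≤ l →
    (∀ Y ∈ 𝒴, IsCompOf Y G ∧ vdim Y = l) → ∀ X : Set (SpC d), IsVar X → ∀ Y ∈ 𝒴,
    (∃ x ∈ X, ∃ y ∈ Y, ∃ f : PrfPol d, (∀ z ∈ Y, eval z f = 0) ∧ dAt f y (y - x) ≠ 0) →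
    ∀ q r : ℕ, DepRootLE₂ X Y (⋃ Y' ∈ 𝒴, Y') q → 2 * q + Cd ≤ r →
    ∀ S : Finset (SpC d),
      (∀ p ∈ S, p ∈ X ∧ vdim (dcone p Y) = l + 1 ∧ ¬ DepRootLE p Y (⋃ Y' ∈ 𝒴, Y') r) →
      ∃ g : PrfPol d, (∃ x ∈ X, eval x g ≠ 0) ∧ (∀ p ∈ S, eval p g = 0) ∧
        g.totalDegree * r ≤ Cd * (max L₀ r) ^ 2

theorem depv_cut (d : ℕ) : ∃ Cd, DepvCut d Cd := dep_wide_cut d

/-- the statement of `dep_half` for a given constant -/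
def DepvHalf (d Cd : ℕ) : Prop :=
  ∀ Y : Set (SpC d), IsVar Y → vdim Y < d →
    ∀ S : Finset (SpC d), ∃ g : PrfPol d, g ≠ 0 ∧ g.totalDegree ≤ Cd ∧
      ∀ p ∈ S, eval p g ≠ 0 → DepHalfGood p Y

theorem depv_half (d : ℕ) : ∃ Cd, DepvHalf d Cd := dep_half d

/-- the conclusion of `SpIndivStmt` for the centre pool, degree bound `T`, fraction `ε` -/
def DepvIndiv (X : SpPool d) (jx : ℕ) (T ε : ℝ) : Prop :=
  ∀ h : Ideal (PrfPol d) → PrfPol d,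
    (∀ p ∈ spCarr2 X X jx, h p ∉ p ∧ ((h p).totalDegree : ℝ) ≤ T) →
    ∀ S' ⊆ X.pts, (∀ x ∈ S', ∃ p ∈ spCarr2 X X jx, x ∈ zeroLocus ℂ p ∧ eval x (h p) = 0) →
      (S'.card : ℝ) ≤ ε * X.pts.card

/-! ### DEPV-A: combinatorics and monotonicity (Mathlib only + definitions) -/

/-- the number of nonpositive entries of the profile.  PLAN: `jx := Nat.find ⟨j, hpos⟩` for the predicate `0 < b i`; `Nat.find_min`, `Nat.find_min'`, `SpAdm.mono`. -/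
theorem depv_jx (b : ℕ → ℝ) (hb : SpAdm d b) (j : ℕ) (hjd : j < d) (hpos : 0 < b j) :
    ∃ jx ≤ j, (∀ i < jx, b i ≤ 0) ∧ ∀ i, jx ≤ i → i < d → 0 < b i := by
  classical
  have hex : ∃ i, 0 < b i := ⟨j, hpos⟩
  exact ⟨Nat.find hex, Nat.find_min' hex hpos, fun i hi => not_lt.1 (Nat.find_min hex hi),
    fun i h1 h2 => lt_of_lt_of_le (Nat.find_spec hex) (hb.mono _ i h1 h2)⟩

/-- rows `≤ ε|X|` ⟹ `|D| ≤ ε|X||Y|`.  PLAN: `D.card = ∑_{q ∈ Y} #{z ∈ D | z.2 = q}` (`Finset.card_eq_sum_card_fiberwise`), the fibre injects into `X` by `Prod.fst`; apply `h q` to its image. -/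
theorem depv_pairs (X Y : Finset (SpC d)) (D : Finset (SpC d × SpC d)) (hD : D ⊆ X ×ˢ Y) (ε : ℝ)
    (h : ∀ q ∈ Y, ∀ S' ⊆ X, (∀ p ∈ S', (p, q) ∈ D) → (S'.card : ℝ) ≤ ε * X.card) :
    (D.card : ℝ) ≤ ε * X.card * Y.card := by
  classical
  have hsub : D ⊆ Y.biUnion (fun q => (X.filter (fun p => (p, q) ∈ D)).image (fun p => (p, q))) := by
    intro z hz
    obtain ⟨h1, h2⟩ := Finset.mem_product.1 (hD hz)
    exact Finset.mem_biUnion.2 ⟨z.2, h2, Finset.mem_image.2 ⟨z.1, Finset.mem_filter.2 ⟨h1, hz⟩, rfl⟩⟩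
  have h1 : (D.card : ℝ) ≤ ∑ q ∈ Y, ((X.filter (fun p => (p, q) ∈ D)).card : ℝ) := by
    have : D.card ≤ ∑ q ∈ Y, (X.filter (fun p => (p, q) ∈ D)).card :=
      (Finset.card_le_card hsub).trans (Finset.card_biUnion_le.trans
        (Finset.sum_le_sum fun q _ => Finset.card_image_le))
    exact_mod_cast this
  refine h1.trans ?_
  calc ∑ q ∈ Y, ((X.filter (fun p => (p, q) ∈ D)).card : ℝ)
      ≤ ∑ _q ∈ Y, ε * (X.card : ℝ) := Finset.sum_le_sum fun q hq =>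
        h q hq _ (Finset.filter_subset _ _) (fun p hp => (Finset.mem_filter.1 hp).2)
    _ = ε * X.card * Y.card := by
        rw [Finset.sum_const, nsmul_eq_mul]
        ring

/-- `depRoots` is monotone in `U`; `Set.Finite.subset`, `Set.ncard_le_ncard` -/
theorem depv_rootLE_mono {p : SpC d} {Y U U' : Set (SpC d)} {r : ℕ} (hU : U ⊆ U')
    (h : DepRootLE p Y U' r) : DepRootLE p Y U r := by
  obtain ⟨g, hg, H⟩ := h
  refine ⟨g, hg, fun y hy hgy => ?_⟩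
  obtain ⟨h1, h2⟩ := H y hy hgy
  have hs : depRoots p y U ⊆ depRoots p y U' := fun _ hz => ⟨hU hz.1, hz.2⟩
  exact ⟨h1.subset hs, (Set.ncard_le_ncard hs h1).trans h2⟩

theorem depv_scOr_mono {𝔠 : SpCfg d} {b : ℕ → ℝ} {α θ θ' : ℝ} {wide : Bool} (hok : 𝔠.Ok b α θ)
    (h : ScOr wide 𝔠 θ) (h0 : 0 < θ) (hθ : θ ≤ θ') : ScOr wide 𝔠 θ' := by
  have hv : 0 ≤ 𝔠.v := le_trans (by positivity) hok.okX.s_ge
  have hs : 0 ≤ 𝔠.s := le_trans (by positivity) hok.okY.s_ge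
  exact ⟨fun hw => (h.1 hw).trans (mul_le_mul_of_nonneg_right hθ hv),
    fun hw => (h.2 hw).trans (mul_le_mul_of_nonneg_right hθ hs)⟩

/-! ### DEPV-B: numerics -/

/-- PLAN.  `ℓ := log B`; `B = e^ℓ`; `1/θ ≤ s ≤ θ v`, `v ≤ θ ℓ`; so `ℓ ≥ v/θ ≥ 1/θ²`, `s ≤ θ² ℓ`.  Take `θ₀ ≤ 1/8`, `θ₀ ≤ t/12` and small enough for the three absorptions below (`spl_absorb`).
(1),(2) `T_v(-1) = e^{ℓ - v} ≥ e^{(1-θ)ℓ} ≥ e^{ℓ/2} ≥ e^{v/2}`; `max(C₂, 2) ≤ e^{v/2}`.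
(3) `R := ⌊T_s(-2)⌋ ≥ e^{ℓ - 2s} - 1 ≥ e^{3ℓ/4} - 1`; `2 q + C₁ ≤ 2 e^{ℓ/2} + C₁ ≤ e^{ℓ/2}(2 + C₁) ≤ e^{ℓ/2} (e^{ℓ/4} - 1) ≤ e^{3ℓ/4} - 1` if `3 + C₁ ≤ e^{ℓ/4}`; compare in `ℝ`, `Nat.le_floor`.
(4) `max(L₀, R) ≤ T_s(2) = e^{ℓ + 2s}`, `R ≥ T_s(-2)/2` (`spl_floor`), so `e ≤ C₁ e^{2ℓ + 4s} / R ≤ 2 C₁ e^{ℓ + 6 s} ≤ e^{ℓ} e^{(t/2) v} e^{6 θ v} ≤ e^{ℓ + t v} = T_v(t)`. -/
theorem depv_num (C₁ C₂ : ℕ) (t : ℝ) (ht : 0 < t) : ∃ θ₀ : ℝ, 0 < θ₀ ∧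
    ∀ θ B v s : ℝ, 0 < θ → θ ≤ θ₀ → 0 < B → 1 / θ ≤ s → s ≤ θ * v → v ≤ θ * Real.log B →
      1 < prfT B v (-1) ∧ (C₂ : ℝ) ≤ prfT B v (-1) ∧
      (∀ q : ℕ, (q : ℝ) ≤ B ^ ((1 : ℝ) / 2) → 2 * q + C₁ ≤ ⌊prfT B s (-2)⌋₊) ∧
      ∀ e : ℕ, e * ⌊prfT B s (-2)⌋₊ ≤ C₁ * (max ⌊prfT B s 2⌋₊ ⌊prfT B s (-2)⌋₊) ^ 2 →
        (e : ℝ) ≤ prfT B v t := by
  obtain ⟨θa, hθa, HA⟩ := spl_absorb (max (max (C₂ : ℝ) 2) (2 + 2 * C₁)) 1 one_pos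
  refine ⟨min (min (1 / 8) (t / 7)) θa, by positivity, ?_⟩
  intro θ B v s hθ hθ₀ hB hs hsv hvB
  have h8 : θ ≤ 1 / 8 := hθ₀.trans ((min_le_left _ _).trans (min_le_left _ _))
  have h7 : θ ≤ t / 7 := hθ₀.trans ((min_le_left _ _).trans (min_le_right _ _))
  have ha : θ ≤ θa := hθ₀.trans (min_le_right _ _)
  have hE := HA θ s hθ ha hs
  rw [one_mul] at hE
  have hs0 : 0 < s := lt_of_lt_of_le (by positivity) hs
  obtain ⟨ℓ, rfl⟩ : ∃ ℓ, B = Real.exp ℓ := ⟨Real.log B, (Real.exp_log hB).symm⟩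
  rw [Real.log_exp] at hvB
  have hv0 : 0 < v := by
    by_contra h
    push Not at h
    nlinarith
  have hℓ0 : 0 < ℓ := by
    by_contra h
    push Not at h
    nlinarith
  have hsv' : 8 * s ≤ v := by nlinarith
  have hvl : 8 * v ≤ ℓ := by nlinarith
  have hT : ∀ w u : ℝ, prfT (Real.exp ℓ) w u = Real.exp (ℓ + u * w) := fun w u => by
    unfold prfT
    rw [Real.exp_add]
  have hC2 : max (C₂ : ℝ) 2 ≤ Real.exp s := (le_max_left _ _).trans hE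
  have hC1 : 2 + 2 * (C₁ : ℝ) ≤ Real.exp s := (le_max_right _ _).trans hE
  have hC₁0 : (0 : ℝ) ≤ C₁ := Nat.cast_nonneg _
  have hTv : Real.exp s ≤ prfT (Real.exp ℓ) v (-1) := by
    rw [hT]
    exact Real.exp_le_exp.mpr (by linarith)
  refine ⟨lt_of_lt_of_le (by norm_num) (((le_max_right _ _).trans hC2).trans hTv),
    ((le_max_left _ _).trans hC2).trans hTv, ?_, ?_⟩
  · intro q hq
    refine Nat.le_floor ?_
    push_cast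
    rw [← Real.exp_mul] at hq
    rw [hT]
    have h1 : (1 : ℝ) ≤ Real.exp (ℓ * (1 / 2)) := Real.one_le_exp (by positivity)
    calc 2 * (q : ℝ) + C₁ ≤ 2 * Real.exp (ℓ * (1 / 2)) + C₁ * Real.exp (ℓ * (1 / 2)) := by
          nlinarith
      _ ≤ Real.exp s * Real.exp (ℓ * (1 / 2)) := by nlinarith
      _ = Real.exp (s + ℓ * (1 / 2)) := (Real.exp_add _ _).symm
      _ ≤ Real.exp (ℓ + -2 * s) := Real.exp_le_exp.mpr (by linarith)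
  · intro e he
    set R := ⌊prfT (Real.exp ℓ) s (-2)⌋₊ with hRdef
    set L₀ := ⌊prfT (Real.exp ℓ) s 2⌋₊ with hLdef
    have hTm : 1 ≤ prfT (Real.exp ℓ) s (-2) := by
      rw [hT]
      exact Real.one_le_exp (by linarith)
    have hR : prfT (Real.exp ℓ) s (-2) / 2 ≤ R := spl_floor hTm
    have hRle : (R : ℝ) ≤ prfT (Real.exp ℓ) s 2 := (Nat.floor_le (by linarith)).trans (by
      rw [hT, hT]
      exact Real.exp_le_exp.mpr (by linarith))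
    have hLle : (L₀ : ℝ) ≤ prfT (Real.exp ℓ) s 2 := Nat.floor_le (by
      rw [hT]
      positivity)
    have hmax : ((max L₀ R : ℕ) : ℝ) ≤ prfT (Real.exp ℓ) s 2 := by
      rw [Nat.cast_max]
      exact max_le hLle hRle
    have he' : (e : ℝ) * R ≤ C₁ * ((max L₀ R : ℕ) : ℝ) ^ 2 := by exact_mod_cast he
    have h2 : (e : ℝ) * (prfT (Real.exp ℓ) s (-2) / 2) ≤ C₁ * (prfT (Real.exp ℓ) s 2) ^ 2 :=
      calc (e : ℝ) * (prfT (Real.exp ℓ) s (-2) / 2) ≤ (e : ℝ) * R :=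
            mul_le_mul_of_nonneg_left hR (Nat.cast_nonneg _)
        _ ≤ C₁ * ((max L₀ R : ℕ) : ℝ) ^ 2 := he'
        _ ≤ C₁ * (prfT (Real.exp ℓ) s 2) ^ 2 := by gcongr
    rw [hT, hT] at h2
    rw [hT]
    have h3 : (e : ℝ) ≤ 2 * C₁ * Real.exp (ℓ + 6 * s) := by
      have h4 : Real.exp (ℓ + 2 * s) ^ 2 = Real.exp (ℓ + 6 * s) * Real.exp (ℓ + -2 * s) := by
        rw [← Real.exp_add, sq, ← Real.exp_add]
        congr 1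
        ring
      rw [h4] at h2
      have hpos := Real.exp_pos (ℓ + -2 * s)
      have h5 : (e : ℝ) * Real.exp (ℓ + -2 * s) ≤
          (2 * C₁ * Real.exp (ℓ + 6 * s)) * Real.exp (ℓ + -2 * s) := by linarith
      exact le_of_mul_le_mul_right h5 hpos
    have h6 : 7 * θ * v ≤ t * v := mul_le_mul_of_nonneg_right (by linarith) hv0.le
    calc (e : ℝ) ≤ 2 * C₁ * Real.exp (ℓ + 6 * s) := h3
      _ ≤ Real.exp s * Real.exp (ℓ + 6 * s) :=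
          mul_le_mul_of_nonneg_right (by linarith) (Real.exp_pos _).le
      _ = Real.exp (s + (ℓ + 6 * s)) := (Real.exp_add _ _).symm
      _ ≤ Real.exp (ℓ + t * v) := Real.exp_le_exp.mpr (by linarith)

/-! ### DEPV-C: the lower boundary of the centre pool; rows D1, D2; the target carriers -/

/-- `low` for a pool.  PLAN: `spl_sum_members` and `PrfPiece.Ok.low` of every member. -/
theorem depv_low {D : SpData d} {X : SpPool d} {v θ : ℝ} {b : ℕ → ℝ} (hX : X.Ok D v θ b)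
    (h1 : 1 < prfT D.B v (-1)) (g : PrfPol d) (hg : g ≠ 0)
    (hdeg : (g.totalDegree : ℝ) ≤ prfT D.B v (-1)) (S' : Finset (SpC d)) (hS' : S' ⊆ X.pts)
    (hz : ∀ x ∈ S', eval x g = 0) : (S'.card : ℝ) ≤ θ * X.pts.card := by
  classical
  refine spl_sum_members hX S' hS' θ fun a ha => ?_
  exact (hX.piece a ha).low h1 g hg hdeg (S' ∩ (X.π a).S) Finset.inter_subset_right
    fun x hx => hz x (Finset.mem_inter.1 hx).1

/-- row D1.  `dep_drop`, `depv_low` -/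
theorem depv_row_drop {D : SpData d} {X : SpPool d} {v θ : ℝ} {b : ℕ → ℝ} (hX : X.Ok D v θ b)
    (h1 : 1 < prfT D.B v (-1)) (Y : Set (SpC d)) (hY : IsVar Y) (hd : vdim Y < d)
    (S' : Finset (SpC d)) (hS' : S' ⊆ X.pts) (hz : ∀ p ∈ S', vdim (dcone p Y) ≠ vdim Y + 1) :
    (S'.card : ℝ) ≤ θ * X.pts.card := by
  obtain ⟨g, hg0, hg1, hg⟩ := dep_drop Y hY hd
  refine depv_low hX h1 g hg0 ?_ S' hS' fun x hx => hg x (hz x hx)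
  have : ((g.totalDegree : ℕ) : ℝ) ≤ 1 := by exact_mod_cast hg1
  linarith

/-- row D2.  `DepvHalf` with `S = S'`, `depv_low` -/
theorem depv_row_half {D : SpData d} {X : SpPool d} {v θ : ℝ} {b : ℕ → ℝ} (hX : X.Ok D v θ b)
    (h1 : 1 < prfT D.B v (-1)) (C₂ : ℕ) (hC₂ : DepvHalf d C₂) (h2 : (C₂ : ℝ) ≤ prfT D.B v (-1))
    (Y : Set (SpC d)) (hY : IsVar Y) (hd : vdim Y < d)
    (S' : Finset (SpC d)) (hS' : S' ⊆ X.pts) (hz : ∀ p ∈ S', ¬ DepHalfGood p Y) :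
    (S'.card : ℝ) ≤ θ * X.pts.card := by
  obtain ⟨g, hg0, hg1, hg⟩ := hC₂ Y hY hd S'
  refine depv_low hX h1 g hg0 ?_ S' hS' fun x hx => ?_
  · have : ((g.totalDegree : ℕ) : ℝ) ≤ C₂ := by exact_mod_cast hg1
    linarith
  · by_contra hne
    exact hz x hx (hg x hx hne)

/-- the assigned target carriers are components of the full path locus, of dimension `d - j`.  PLAN: `q ∈ Y.pts` and `Y.I = {a}` give `q ∈ (Y.π a).S`; `asg q ∈ prfCarr ..` is a minimal prime (`IsCompOf` by definition); `prf_pure`. -/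
theorem depv_target {Y : SpPool d} {j : ℕ} {asg : SpC d → Ideal (PrfPol d)} (hj : j ≤ d)
    (hasg : ScAsg Y j asg) {a : ℕ} (ha : Y.I = {a}) (hpath : (Y.π a).Path) (q : SpC d)
    (hq : q ∈ Y.pts) :
    IsCompOf (zeroLocus ℂ (asg q)) (prfSys (Y.π a).f j) ∧ vdim (zeroLocus ℂ (asg q)) = d - j ∧
      (asg q).IsPrime := by
  have hq' : q ∈ (Y.π a).S := by
    unfold SpPool.pts at hq
    rw [ha, Finset.singleton_biUnion] at hq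
    exact hq
  have haI : a ∈ Y.I := by
    rw [ha]
    exact Finset.mem_singleton_self _
  have h := hasg a haI q hq'
  exact ⟨⟨asg q, h.1, rfl⟩,
    (prf_pure (Y.π a).f j q fun i hi => hpath q hq' i (lt_of_lt_of_le hi hj)).2 _ h,
    prf_carr_prime h⟩

/-- degrees of the target path: `deg f_i ≤ T_s(τ_i) ≤ T_s(top) ≤ T_s(2)` (`PrfPiece.Ok.deg`, `spl_tau_mem`, `SpPool.Ok.top_le`, `spl_T_mono`, `Nat.le_floor`) -/
theorem depv_target_deg {D : SpData d} {Y : SpPool d} {s θ : ℝ} {b : ℕ → ℝ} (hθ : 0 < θ)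
    (hθ1 : θ ≤ 1) (hY : Y.Ok D s θ b) {a : ℕ} (ha : a ∈ Y.I) {j : ℕ} (hj : j ≤ d) :
    ∀ g ∈ prfSys (Y.π a).f j, g.totalDegree ≤ ⌊prfT D.B s 2⌋₊ := by
  rintro g ⟨i, hi, rfl⟩
  have hid : i < d := lt_of_lt_of_le hi hj
  refine Nat.le_floor (((hY.piece a ha).deg i hid).trans ?_)
  refine spl_T_mono (spl_B_pos hθ hY).le (spl_s_pos hθ hY).le ?_
  have := (spl_tau_mem hY ha hid).2
  linarith [hY.top_le]

/-! ### DEPV-D: row D3 -/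

/-- row D3.  PLAN.  `𝔶 := asg q`, `G := prfSys (Y.π a).f j`, `l := d - j ≥ 1`.  For an ideal `𝔵` call it ACTIVE if `𝔶 ∈ 𝓛 𝔵` and `𝔵 = asgx p₀` for some `p₀ ∈ X.pts`.  For an active `𝔵`:
 `𝒴 := (𝓛 𝔵).image (zeroLocus ℂ)`; its members are components of `G` of dimension `l` (`DepLists.sub` + `depv_target`); `⋃ Y' ∈ 𝒴, Y' = ⋃ 𝔶' ∈ 𝓛 𝔵, Z(𝔶')`; `Z(𝔵)` is irreducible (`prf_carr_prime`, `DepLists.src`);
 `DepLists.tan` (an `f ∈ 𝔶` vanishes on `Z(𝔶)`), `DepLists.roots` give `q₀`, `hR q₀`; `S_𝔵 := {p ∈ S' | asgx p = 𝔵}` (`p ∈ Z(asgx p)` by `DepLists.src`).  `hcut` gives `g_𝔵`, not identically `0` on `Z(𝔵)` (so `g_𝔵 ∉ 𝔵`), vanishing on `S_𝔵`, `deg g_𝔵 ≤ T` (`hT`).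
 `h 𝔵 := g_𝔵` if `𝔵` is active, `1` otherwise (`1 ∉ 𝔭` for the primes `𝔭 ∈ spCarr2`, degree `0 ≤ T`).  `hindiv h` with `S'`: for `p ∈ S'` take `𝔭 = asgx p ∈ X.carriers jx` (`p ∈ (X.π a').S` for some `a' ∈ X.I`). -/
theorem depv_row_depth {𝔠 : SpCfg d} {j jx : ℕ} {asg asgx : SpC d → Ideal (PrfPol d)}
    {𝓛 : Ideal (PrfPol d) → Finset (Ideal (PrfPol d))} {ρ₀ : ℝ} (C₁ : ℕ) (hcut : DepvCut d C₁)
    (hL : DepLists 𝔠 jx asg ρ₀ asgx 𝓛) (hasg : ScAsg 𝔠.Y j asg) (hj1 : 1 ≤ j) (hjd : j < d)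
    {a : ℕ} (ha : 𝔠.Y.I = {a}) (hpath : (𝔠.Y.π a).Path) (L₀ R : ℕ)
    (hL₀ : ∀ g ∈ prfSys (𝔠.Y.π a).f j, g.totalDegree ≤ L₀)
    (hR : ∀ q₀ : ℕ, (q₀ : ℝ) ≤ 𝔠.D.B ^ ((1 : ℝ) / 2) → 2 * q₀ + C₁ ≤ R)
    (T ε : ℝ) (hT0 : 0 ≤ T) (hT : ∀ e : ℕ, e * R ≤ C₁ * (max L₀ R) ^ 2 → (e : ℝ) ≤ T)
    (hindiv : DepvIndiv 𝔠.X jx T ε) (q : SpC d) (hq : q ∈ 𝔠.Y.pts)
    (S' : Finset (SpC d)) (hS' : S' ⊆ 𝔠.X.pts)
    (hz : ∀ p ∈ S', asg q ∈ 𝓛 (asgx p) ∧ vdim (dcone p (zeroLocus ℂ (asg q))) = d - j + 1 ∧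
      ¬ DepRootLE p (zeroLocus ℂ (asg q)) (⋃ 𝔶' ∈ 𝓛 (asgx p), zeroLocus ℂ 𝔶') R) :
    (S'.card : ℝ) ≤ ε * 𝔠.X.pts.card := by
  classical
  -- membership of the centres in their pieces
  have hmem : ∀ p ∈ 𝔠.X.pts, ∃ a' ∈ 𝔠.X.I, p ∈ (𝔠.X.π a').S ∧
      asgx p ∈ prfCarr (prfSys (𝔠.X.π a').f jx) p := by
    intro p hp
    obtain ⟨a', ha', hpa⟩ := Finset.mem_biUnion.1 hp
    exact ⟨a', ha', hpa, hL.src a' ha' p hpa⟩
  have key : ∀ 𝔵 : Ideal (PrfPol d), (asg q ∈ 𝓛 𝔵 ∧ ∃ p₀ ∈ 𝔠.X.pts, asgx p₀ = 𝔵) →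
      ∃ g : PrfPol d, g ∉ 𝔵 ∧ ((g.totalDegree : ℕ) : ℝ) ≤ T ∧
        ∀ p ∈ S', asgx p = 𝔵 → eval p g = 0 := by
    rintro 𝔵 ⟨hq𝔵, p₀, hp₀, rfl⟩
    obtain ⟨a', ha', hpa, hcar⟩ := hmem p₀ hp₀
    set 𝒴 : Finset (Set (SpC d)) := (𝓛 (asgx p₀)).image (fun 𝔶 => zeroLocus ℂ 𝔶) with h𝒴
    have hU : (⋃ Y' ∈ 𝒴, Y') = ⋃ 𝔶' ∈ 𝓛 (asgx p₀), zeroLocus ℂ 𝔶' := by
      rw [h𝒴, Finset.set_biUnion_finset_image]
    have h𝒴m : ∀ Y' ∈ 𝒴, IsCompOf Y' (prfSys (𝔠.Y.π a).f j) ∧ vdim Y' = d - j := by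
      intro Y' hY'
      obtain ⟨𝔶', h𝔶', rfl⟩ := Finset.mem_image.1 hY'
      obtain ⟨q', hq', rfl⟩ := hL.sub p₀ hp₀ 𝔶' h𝔶'
      obtain ⟨e1, e2, -⟩ := depv_target hjd.le hasg ha hpath q' hq'
      exact ⟨e1, e2⟩
    have hYm : zeroLocus ℂ (asg q) ∈ 𝒴 := Finset.mem_image_of_mem _ hq𝔵
    obtain ⟨x, hx, y, hy, f, hf, hfd⟩ := hL.tan p₀ hp₀ _ hq𝔵
    obtain ⟨q₀, hq₀, hroots⟩ := hL.roots p₀ hp₀ _ hq𝔵
    obtain ⟨g, ⟨x', hx', hgx'⟩, hgS, hgd⟩ := hcut (prfSys (𝔠.Y.π a).f j) L₀ hL₀ (d - j) 𝒴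
      (by omega) h𝒴m (zeroLocus ℂ (asgx p₀)) ⟨asgx p₀, prf_carr_prime hcar, rfl⟩ _ hYm
      ⟨x, hx, y, hy, f, fun z hz => (mem_zeroLocus_iff.mp hz) f hf, hfd⟩ q₀ R
      (by rw [hU]; exact hroots) (hR q₀ hq₀) (S'.filter (fun p => asgx p = asgx p₀))
      (by
        intro p hp
        obtain ⟨hpS, hpe⟩ := Finset.mem_filter.1 hp
        obtain ⟨_, _, _, hcp⟩ := hmem p (hS' hpS)
        obtain ⟨-, z2, z3⟩ := hz p hpS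
        refine ⟨hpe ▸ hcp.2, z2, ?_⟩
        rw [hU, ← hpe]
        exact z3)
    refine ⟨g, fun hg => hgx' ((mem_zeroLocus_iff.mp hx') g hg), hT _ hgd, fun p hp hpe => ?_⟩
    exact hgS p (Finset.mem_filter.2 ⟨hp, hpe⟩)
  set h : Ideal (PrfPol d) → PrfPol d := fun 𝔵 =>
    if hA : (asg q ∈ 𝓛 𝔵 ∧ ∃ p₀ ∈ 𝔠.X.pts, asgx p₀ = 𝔵) then Classical.choose (key 𝔵 hA) else 1
    with hh
  have hprime : ∀ 𝔭 ∈ spCarr2 𝔠.X 𝔠.X jx, 𝔭.IsPrime := by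
    intro 𝔭 h𝔭
    have h𝔭' : 𝔭 ∈ 𝔠.X.carriers jx := h𝔭.elim id id
    obtain ⟨a', -, x, -, hx⟩ := h𝔭'
    exact prf_carr_prime hx
  refine hindiv h (fun 𝔭 h𝔭 => ?_) S' hS' (fun x hx => ?_)
  · by_cases hA : (asg q ∈ 𝓛 𝔭 ∧ ∃ p₀ ∈ 𝔠.X.pts, asgx p₀ = 𝔭)
    · have hs := Classical.choose_spec (key 𝔭 hA)
      simp only [hh, dif_pos hA]
      exact ⟨hs.1, hs.2.1⟩
    · simp only [hh, dif_neg hA]
      refine ⟨(Ideal.ne_top_iff_one 𝔭).1 (hprime 𝔭 h𝔭).ne_top, ?_⟩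
      simpa using hT0
  · obtain ⟨a', ha', hxa, hcx⟩ := hmem x (hS' hx)
    have hA : (asg q ∈ 𝓛 (asgx x) ∧ ∃ p₀ ∈ 𝔠.X.pts, asgx p₀ = asgx x) :=
      ⟨(hz x hx).1, x, hS' hx, rfl⟩
    refine ⟨asgx x, Or.inl ⟨a', ha', x, hxa, hcx⟩, hcx.2, ?_⟩
    have hs := Classical.choose_spec (key (asgx x) hA)
    simp only [hh, dif_pos hA]
    exact hs.2.2 x hx rfl

/-! ### THE ASSEMBLY -/

/-- `dep_wide_depth` from the generic lists -/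
theorem depv_main (hd : 3 ≤ d) (b : ℕ → ℝ) (hb : SpAdm d b) (j : ℕ) (hj2 : 2 ≤ j)
    (hjd : j < d) (hpos : 0 < b j)
    (hlists : ∀ jx : ℕ, (∀ i < jx, b i ≤ 0) → (∀ i, jx ≤ i → i < d → 0 < b i) → ∀ ρ : ℝ, 0 < ρ →
      ∃ θ : ℝ, 0 < θ ∧ ∀ (𝔠 : SpCfg d) (α : ℝ), 𝔠.Ok b α θ → 𝔠.Sep θ → ScOr true 𝔠 θ →
        ∀ asg : SpC d → Ideal (PrfPol d), ScAsg 𝔠.Y j asg →
          ∃ (asgx : SpC d → Ideal (PrfPol d)) (𝓛 : Ideal (PrfPol d) → Finset (Ideal (PrfPol d))),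
            DepLists 𝔠 jx asg ρ asgx 𝓛) :
    DepDepthStmt d true b j (-2) := by
  classical
  intro η ρ hη hρ
  obtain ⟨jx, hjx, hx1, hx2⟩ := depv_jx b hb j hjd hpos
  have hbx : 0 < b jx := hx2 jx le_rfl (by omega)
  set t := b jx / 2 with ht
  have ht0 : 0 < t := by positivity
  have hplat : SpPlat d b jx t := ⟨by omega, fun i hi => lt_of_le_of_lt (hx1 i hi) ht0,
    fun i h1 h2 => by
      have := hb.mono jx i h1 h2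
      linarith⟩
  obtain ⟨C₁, hC₁⟩ := depv_cut d
  obtain ⟨C₂, hC₂⟩ := depv_half d
  obtain ⟨θ₁, hθ₁, H₁⟩ := hlists jx hx1 hx2 (ρ / 4) (by positivity)
  obtain ⟨θ₂, hθ₂, H₂⟩ := (sp_lim (by omega : 1 ≤ d)).indiv b hb (ρ / 4) (by positivity) jx t hplat
  obtain ⟨θ₃, hθ₃, H₃⟩ := depv_num C₁ C₂ t ht0
  refine ⟨min (min θ₁ θ₂) (min θ₃ (min (ρ / 4) 1)), by positivity, ?_⟩
  intro 𝔠 α hok hsep hor asg hasg
  set θ := min (min θ₁ θ₂) (min θ₃ (min (ρ / 4) 1)) with hθdef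
  have hθ : 0 < θ := by positivity
  have hθ1 : θ ≤ θ₁ := (min_le_left _ _).trans (min_le_left _ _)
  have hθ2 : θ ≤ θ₂ := (min_le_left _ _).trans (min_le_right _ _)
  have hθ3 : θ ≤ θ₃ := (min_le_right _ _).trans (min_le_left _ _)
  have hθ4 : θ ≤ ρ / 4 := (min_le_right _ _).trans ((min_le_right _ _).trans (min_le_left _ _))
  have hθ5 : θ ≤ 1 := (min_le_right _ _).trans ((min_le_right _ _).trans (min_le_right _ _))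
  obtain ⟨asgx, 𝓛, hL⟩ := H₁ 𝔠 α (hok.mono hθ hθ1 hθ5) (hsep.mono hok hθ hθ1)
    (depv_scOr_mono hok hor hθ hθ1) asg hasg
  have hind : DepvIndiv 𝔠.X jx (prfT 𝔠.D.B 𝔠.v t) (ρ / 4) :=
    H₂ 𝔠.D 𝔠.X 𝔠.X 𝔠.v ((SpTwo.self hok.reg hok.okX).mono hθ hθ2)
  obtain ⟨-, hvB, hsB, -, ⟨a, ha⟩⟩ := hsep
  have hsv : 𝔠.s ≤ θ * 𝔠.v := hor.1 rfl
  have hX := hok.okX
  have hY := hok.okY
  have hB := spl_B_pos hθ hY
  have haI : a ∈ 𝔠.Y.I := by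
    rw [ha]
    exact Finset.mem_singleton_self _
  have hpath := (hY.piece a haI).path
  obtain ⟨n1, n2, n3, n4⟩ := H₃ θ 𝔠.D.B 𝔠.v 𝔠.s hθ hθ3 hB hY.s_ge hsv hvB
  set R := ⌊prfT 𝔠.D.B 𝔠.s (-2)⌋₊ with hR
  set L₀ := ⌊prfT 𝔠.D.B 𝔠.s 2⌋₊ with hL₀
  have htar := depv_target hjd.le hasg ha hpath
  have hXc : (0 : ℝ) ≤ 𝔠.X.pts.card := Nat.cast_nonneg _
  have hYc : (0 : ℝ) ≤ 𝔠.Y.pts.card := Nat.cast_nonneg _
  set XY := 𝔠.X.pts ×ˢ 𝔠.Y.pts with hXY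
  set D0 := XY.filter (fun z => asg z.2 ∉ 𝓛 (asgx z.1)) with hD0
  set D1 := XY.filter (fun z => vdim (dcone z.1 (zeroLocus ℂ (asg z.2))) ≠ d - j + 1) with hD1
  set D2 := XY.filter (fun z => ¬ DepHalfGood z.1 (zeroLocus ℂ (asg z.2))) with hD2
  set D3 := XY.filter (fun z => asg z.2 ∈ 𝓛 (asgx z.1) ∧
    vdim (dcone z.1 (zeroLocus ℂ (asg z.2))) = d - j + 1 ∧
    ¬ DepRootLE z.1 (zeroLocus ℂ (asg z.2)) (⋃ 𝔶' ∈ 𝓛 (asgx z.1), zeroLocus ℂ 𝔶') R) with hD3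
  have c0 : (D0.card : ℝ) ≤ ρ / 4 * 𝔠.X.pts.card * 𝔠.Y.pts.card :=
    hL.small D0 (Finset.filter_subset _ _) fun z hz => (Finset.mem_filter.1 hz).2
  have hrow : ∀ x : ℝ, x ≤ θ * 𝔠.X.pts.card → x ≤ ρ / 4 * 𝔠.X.pts.card := fun x hx =>
    hx.trans (mul_le_mul_of_nonneg_right hθ4 hXc)
  have c1 : (D1.card : ℝ) ≤ ρ / 4 * 𝔠.X.pts.card * 𝔠.Y.pts.card := by
    refine depv_pairs _ _ D1 (Finset.filter_subset _ _) _ fun q hq S' hS' hz => hrow _ ?_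
    obtain ⟨-, e2, e3⟩ := htar q hq
    refine depv_row_drop hX n1 (zeroLocus ℂ (asg q)) ⟨_, e3, rfl⟩ (by rw [e2]; omega) S' hS'
      fun p hp => ?_
    rw [e2]
    exact (Finset.mem_filter.1 (hz p hp)).2
  have c2 : (D2.card : ℝ) ≤ ρ / 4 * 𝔠.X.pts.card * 𝔠.Y.pts.card := by
    refine depv_pairs _ _ D2 (Finset.filter_subset _ _) _ fun q hq S' hS' hz => hrow _ ?_
    obtain ⟨-, e2, e3⟩ := htar q hq
    exact depv_row_half hX n1 C₂ hC₂ n2 (zeroLocus ℂ (asg q)) ⟨_, e3, rfl⟩ (by rw [e2]; omega)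
      S' hS' fun p hp => (Finset.mem_filter.1 (hz p hp)).2
  have c3 : (D3.card : ℝ) ≤ ρ / 4 * 𝔠.X.pts.card * 𝔠.Y.pts.card := by
    refine depv_pairs _ _ D3 (Finset.filter_subset _ _) _ fun q hq S' hS' hz => ?_
    exact depv_row_depth C₁ hC₁ hL hasg (by omega) hjd ha hpath L₀ R
      (depv_target_deg hθ hθ5 hY haI hjd.le) n3 (prfT 𝔠.D.B 𝔠.v t) (ρ / 4)
      (mul_pos hB (Real.exp_pos _)).le n4 hind q hq S' hS'
      fun p hp => (Finset.mem_filter.1 (hz p hp)).2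
  refine ⟨D0 ∪ D1 ∪ D2 ∪ D3, R, ?_, ?_, ?_⟩
  · have h4 : ((D0 ∪ D1 ∪ D2 ∪ D3).card : ℝ) ≤ D0.card + D1.card + D2.card + D3.card := by
      have : (D0 ∪ D1 ∪ D2 ∪ D3).card ≤ D0.card + D1.card + D2.card + D3.card :=
        (Finset.card_union_le _ _).trans (Nat.add_le_add_right
          ((Finset.card_union_le _ _).trans (Nat.add_le_add_right (Finset.card_union_le _ _) _)) _)
      exact_mod_cast this
    linarith
  · have hT0 : 0 ≤ prfT 𝔠.D.B 𝔠.s (-2) := (mul_pos hB (Real.exp_pos _)).le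
    calc (R : ℝ) ≤ prfT 𝔠.D.B 𝔠.s (-2) := Nat.floor_le hT0
      _ = prfT 𝔠.D.B 𝔠.s (-2) * 1 := (mul_one _).symm
      _ ≤ prfT 𝔠.D.B 𝔠.s (-2) * Real.exp (η * 𝔠.s) :=
          mul_le_mul_of_nonneg_left (Real.one_le_exp
            (mul_nonneg hη.le (spl_s_pos hθ hY).le)) hT0
  · intro p hp q hq hpq
    simp only [Finset.mem_union, not_or] at hpq
    obtain ⟨⟨⟨z0, z1⟩, z2⟩, z3⟩ := hpq
    have hm : (p, q) ∈ XY := Finset.mem_product.2 ⟨hp, hq⟩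
    have e0 : asg q ∈ 𝓛 (asgx p) := by
      by_contra hne
      exact z0 (Finset.mem_filter.2 ⟨hm, hne⟩)
    have e1 : vdim (dcone p (zeroLocus ℂ (asg q))) = d - j + 1 := by
      by_contra hne
      exact z1 (Finset.mem_filter.2 ⟨hm, hne⟩)
    have e2 : DepHalfGood p (zeroLocus ℂ (asg q)) := by
      by_contra hne
      exact z2 (Finset.mem_filter.2 ⟨hm, hne⟩)
    have e3 : DepRootLE p (zeroLocus ℂ (asg q)) (⋃ 𝔶' ∈ 𝓛 (asgx p), zeroLocus ℂ 𝔶') R := by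
      by_contra hne
      exact z3 (Finset.mem_filter.2 ⟨hm, e0, e1, hne⟩)
    refine ⟨e1, e2, depv_rootLE_mono ?_ e3⟩
    intro z hz
    simp only [Set.mem_iUnion, Set.mem_ofPred_eq, exists_prop] at hz
    obtain ⟨q', ⟨hq1, hq2⟩, hz'⟩ := hz
    simp only [Finset.mem_union, not_or] at hq2
    have e0' : asg q' ∈ 𝓛 (asgx p) := by
      by_contra hne
      exact hq2.1.1.1 (Finset.mem_filter.2 ⟨Finset.mem_product.2 ⟨hp, hq1⟩, hne⟩)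
    simp only [Set.mem_iUnion, exists_prop]
    exact ⟨_, e0', hz'⟩

end Claimed.Agent.R273
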