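import Claimed.Agent.R273.DepWCut
import Claimed.Agent.R273.DepWAsm
import Claimed.Agent.R273.DepLists

/-!
# Row 273, S6c = depth.tex, "Centers in the wider window": `R = B e^{-2s}`, `s ≤ θ v`, `b_j > 0`, `j ≥ 2`.  Architect helper177.

PACKAGE BP-DEP-W1 (`dep_wide_lists`) = "the generic lists" (depth.tex l.215-282).  `jx := #{i | b_i ≤ 0}` (`1 ≤ jx ≤ j`), centre plateau `(0, b_{jx})`, carrier dimension `k = d - jx ≥ l = d - j`.
  `asgx p` := any local carrier of `p` after `jx` cuts (exists: `prf_carr_lift`).  Delete nonreal flat members on both sides (individual cuts of degree one: last paragraph of prof:regularity).  Apply geo:generic-depth (GD, helper26 `Geo*.lean`) with `w = log B`, exponent `< 1/2`,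
  and, when `k = l`, `e = B^{d-l}` (number of flat members `≤ degLo ≤ B^{d-l} B^{Cθ}`, weight of one flat member `≤ degHi / |Y| ≤ B^{-(d-l)} B^{Cθ}`: `prf_carrier_deg`, `prf_mass`; all degrees are `B^{1 ± θ}` because `v, s ≤ θ log B`).
PACKAGE BP-DEP-WIDE (`dep_wide_depth`), assembly.  `r := ⌈B e^{-2s}⌉`, `q ≤ B^{1/2}`, so `2q + Cd ≤ r` (`s ≤ θ log B`).  `G := prfSys π.f j`, `L₀ := ⌈T_s(1 + θ)⌉ ≤ B e^{2s}`; every `Z(asg q)` is a COMPONENT of `Zl G` (`prfCarr` = minimal primes).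
  For FIXED `𝔶 = asg q`: for every source carrier `X` with `𝔶 ∈ 𝓛 X`, `dep_wide_cut` (list `𝓛 X`, `S` := centres assigned to `X`, without drop, of depth `> r` on the list) gives `h_X ∉ X`, `deg h_X ≤ Cd L² / r ≤ Cd B e^{6 s} ≤ Cd B e^{6 θ v}`;
  INDIVIDUAL CUTS on the source piece (`prf_indiv` at a grid time in `(0, b_{jx})`; theta-form in SpLim): these centres number `≤ (ρ/4) |X|`, uniformly in `𝔶`.  Plus (D1) drop, (D2) not half-good (as in DepNarrow), (D0) `asg q ∉ 𝓛 (asgx p)` (`DepLists.small`).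
  On the remaining pairs the retained union at `p` is contained in `⋃ 𝓛 (asgx p)`.
-/

set_option autoImplicit false

namespace Claimed.Agent.R273

open MvPolynomial Module

variable {d : ℕ}

/-- PROVED in `DepLists.lean` (helper60).  `hpl` (nonempty target plateau) is needed to delete the nonreal target carriers. -/
theorem dep_wide_lists (hd : 3 ≤ d) (b : ℕ → ℝ) (hb : SpAdm d b) (j jx : ℕ) (hj2 : 2 ≤ j)
    (hjd : j < d) (hpl : b (j - 1) < b j) (hpos : 0 < b j) (hx1 : ∀ i < jx, b i ≤ 0)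
    (hx2 : ∀ i, jx ≤ i → i < d → 0 < b i) (ρ : ℝ) (hρ : 0 < ρ) :
    ∃ θ : ℝ, 0 < θ ∧ ∀ (𝔠 : SpCfg d) (α : ℝ), 𝔠.Ok b α θ → 𝔠.Sep θ → ScOr true 𝔠 θ →
      ∀ asg : SpC d → Ideal (PrfPol d), ScAsg 𝔠.Y j asg →
        ∃ (asgx : SpC d → Ideal (PrfPol d)) (𝓛 : Ideal (PrfPol d) → Finset (Ideal (PrfPol d))),
          DepLists 𝔠 jx asg ρ asgx 𝓛 :=
  depl_lists hd b hb j jx hj2 hjd hpl hpos hx1 hx2 ρ hρ

theorem dep_wide_depth (hd : 3 ≤ d) (b : ℕ → ℝ) (hb : SpAdm d b) (j : ℕ) (hj2 : 2 ≤ j)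
    (hjd : j < d) (hpl : b (j - 1) < b j) (hpos : 0 < b j) : DepDepthStmt d true b j (-2) :=
  depv_main hd b hb j hj2 hjd hpos fun jx hx1 hx2 ρ hρ =>
    dep_wide_lists hd b hb j jx hj2 hjd hpl hpos hx1 hx2 ρ hρ

end Claimed.Agent.R273
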