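-- KEEP
import Claimed.Agent.R273.DepMass0
import Claimed.Agent.R273.DepFirst
import Claimed.Agent.R273.DepNarrow
import Claimed.Agent.R273.DepWide

/-!
# Row 273, S6c: Proposition dep:projected-degree (three depth denominators), MASS FORM.  Architect helper177.
-/

set_option autoImplicit false

namespace Claimed.Agent.R273

variable {d : ℕ}

/-- (dep:narrow-R) -/
theorem dep_narrow (hd : 3 ≤ d) (b : ℕ → ℝ) (hb : SpAdm d b) (j : ℕ) (hj1 : 1 ≤ j) (hjd : j < d) :
    DepStmt d false b j (-∑ i ∈ Finset.Ico j d, b i) :=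
  dep_stmt_of_depth hd false b hb j hj1 hjd _ (dep_narrow_depth hd b hb j hj1 hjd)

/-- (dep:wide-R) -/
theorem dep_wide (hd : 3 ≤ d) (b : ℕ → ℝ) (hb : SpAdm d b) (j : ℕ) (hj2 : 2 ≤ j) (hjd : j < d)
    (hpl : b (j - 1) < b j) (hpos : 0 < b j) : DepStmt d true b j (-2) :=
  dep_stmt_of_depth hd true b hb j (by omega) hjd _ (dep_wide_depth hd b hb j hj2 hjd hpl hpos)

end Claimed.Agent.R273
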