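import Claimed.Agent.R273.PhTan

/-!
# Row 273, depth.tex, package DEP-WAG, part 2: SPECIALISATION OF COMMON ROOTS ALONG A VALUATION RING.  Architect helper177.  Prefix `depw`.

REPLACES "curve selection + normalisation + DVR + content law" of depth.tex l.369-412.  `Ω ⊇ ℂ` a field, `ζ ∈ Ω^d` a generic point of the prime `𝔭`, `p ∈ Z(𝔭)`.

* LEAF DEPW-V1 (`depw_val_exists`).  `A := (aeval ζ).range` (as a `Subring Ω`).  `ker (aeval ζ) = 𝔭` (`IsGenPt`), `𝔭 ≤ ker (eval p)`, so `eval p` factors through a ring homomorphism `φ : A → ℂ` (`AlgHom.quotientKerEquivRange` / `Ideal.Quotient.lift`), `φ (ζ i) = p i`.  `I := ker φ ≠ ⊤`.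
   Mathlib: `Ideal.image_subset_nonunits_valuationSubring I hI : ∃ B : ValuationSubring Ω, A ≤ B.toSubring ∧ A.subtype '' I ⊆ B.nonunits`.
* LEAF DEPW-V2 (`depw_res_aeval`).  For `c ∈ ℂ[x]`: `aeval ζ c ∈ B` and its residue is the image of `eval p c` (induction on `c`, or: both sides are ring homomorphisms `ℂ[x] → κ` agreeing on `C`, `X i`; `residue x = 0 ↔ x ∈ nonunits`: `ValuationSubring.mem_nonunits_iff_exists_mem_maximalIdeal`, `IsLocalRing.residue_eq_zero_iff`).
* LEAF DEPW-V3 (`depw_spec`).  Induction on the multiset `a` of common roots (divide ALL `P i` by the same linear factor).  STEP, `t ∈ a`, `(u - t) ∣ P i` over `Ω`: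
   CASE `t ∈ B`: `P i = (u - t) P' i` with `P' i ∈ B[u]` (`Polynomial.mul_divByMonic_eq_iff_isRoot` over the ring `B`; `t` is a root over `B` because `B → Ω` is injective), `natDegree (P' i) ≤ D - 1`; the reduction gets the factor `(u - residue t)`.
   CASE `t ∉ B`: `β := t⁻¹ ∈ B`, a nonunit (`ValuationSubring.mem_or_inv_mem`).  Over `Ω`: `P i = (1 - β u) Q i`, `Q i := - t • (P i / (u - t))`; the coefficients satisfy `coeff (Q i) n = coeff (P i) n + β coeff (Q i) (n-1)`, so they lie in `B` (induction on `n`): `Q i = map subtype (P' i)`,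
     `natDegree (P' i) ≤ D - 1`, and `map residue (P i) = map residue (P' i)` (`residue β = 0`).  No new factor.
   In both cases the remaining product `∏_{a - t}` still divides `map subtype (P' i)` (cancel the linear factor in the domain `Ω[u]`; in the second case up to the unit `- t`).
-/

set_option autoImplicit false

namespace Claimed.Agent.R273

open MvPolynomial Module

variable {d : ℕ} {Ω : Type*} [Field Ω] [Algebra ℂ Ω]

theorem depw_val_exists (𝔭 : Ideal (MvPolynomial (Fin d) ℂ)) (ζ : Fin d → Ω) (hζ : IsGenPt 𝔭 ζ)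
    (p : Fin d → ℂ) (hp : p ∈ zeroLocus ℂ 𝔭) :
    ∃ B : ValuationSubring Ω, (∀ c : ℂ, algebraMap ℂ Ω c ∈ B) ∧ (∀ i, ζ i ∈ B) ∧
      ∀ i, ζ i - algebraMap ℂ Ω (p i) ∈ B.nonunits := by
  set g : MvPolynomial (Fin d) ℂ →+* Ω := (aeval ζ : MvPolynomial (Fin d) ℂ →ₐ[ℂ] Ω).toRingHom with hg
  set f : MvPolynomial (Fin d) ℂ →+* g.range := g.rangeRestrict with hf
  have hfs : Function.Surjective f := g.rangeRestrict_surjective
  set J : Ideal (MvPolynomial (Fin d) ℂ) :=
    RingHom.ker (aeval p : MvPolynomial (Fin d) ℂ →ₐ[ℂ] ℂ).toRingHom with hJ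
  have hJtop : J ≠ ⊤ := RingHom.ker_ne_top _
  have hker : Ideal.comap f ⊥ ≤ J := by
    intro c hc
    rw [Ideal.mem_comap, Ideal.mem_bot] at hc
    have h1 : aeval ζ c = 0 := by
      have := congrArg Subtype.val hc
      simpa [hf, hg] using this
    have h2 : c ∈ 𝔭 := (hζ c).mp h1
    exact (mem_zeroLocus_iff.mp hp) c h2
  have hI : Ideal.map f J ≠ ⊤ := by
    intro h
    have h1 := Ideal.comap_map_of_surjective f hfs J
    rw [h, Ideal.comap_top, sup_eq_left.mpr hker] at h1
    exact hJtop h1.symm
  obtain ⟨B, hAB, hIB⟩ := Ideal.image_subset_nonunits_valuationSubring _ hI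
  refine ⟨B, fun c => hAB ⟨C c, by simp [hg]⟩, fun i => hAB ⟨X i, by simp [hg]⟩, fun i => ?_⟩
  apply hIB
  refine ⟨f (X i - C (p i)), Ideal.mem_map_of_mem f ?_, ?_⟩
  · simp [hJ, RingHom.mem_ker]
  · simp [hf, hg]

theorem depw_res_aeval (B : ValuationSubring Ω) (hC : ∀ c : ℂ, algebraMap ℂ Ω c ∈ B)
    (ζ : Fin d → Ω) (p : Fin d → ℂ) (hζ : ∀ i, ζ i ∈ B)
    (hp : ∀ i, ζ i - algebraMap ℂ Ω (p i) ∈ B.nonunits) (c : MvPolynomial (Fin d) ℂ) :
    ∃ h : aeval ζ c ∈ B, IsLocalRing.residue B ⟨aeval ζ c, h⟩ =
      IsLocalRing.residue B ⟨algebraMap ℂ Ω (eval p c), hC _⟩ := by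
  set g : ℂ →+* B := (algebraMap ℂ Ω).codRestrict B hC with hg
  set Φ : MvPolynomial (Fin d) ℂ →+* B := eval₂Hom g fun i => ⟨ζ i, hζ i⟩ with hΦ
  have h1 : B.subtype.comp Φ = (aeval ζ : MvPolynomial (Fin d) ℂ →ₐ[ℂ] Ω).toRingHom := by
    apply MvPolynomial.ringHom_ext
    · intro r
      simp [hΦ, hg]
    · intro i
      simp [hΦ]
  have h2 : ∀ c, ((Φ c : B) : Ω) = aeval ζ c := fun c => congrArg (fun φ => φ c) h1
  have h3 : (IsLocalRing.residue B).comp Φ
      = ((IsLocalRing.residue B).comp g).comp (eval p) := by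
    apply MvPolynomial.ringHom_ext
    · intro r
      simp [hΦ]
    · intro i
      simp only [hΦ, RingHom.comp_apply, eval₂Hom_X', eval_X]
      rw [← sub_eq_zero, ← map_sub, IsLocalRing.residue_eq_zero_iff]
      obtain ⟨ha, hm⟩ := ValuationSubring.mem_nonunits_iff_exists_mem_maximalIdeal.mp (hp i)
      exact hm
  refine ⟨h2 c ▸ (Φ c).2, ?_⟩
  have h4 := congrArg (fun φ => φ c) h3
  simp only [RingHom.comp_apply] at h4
  have h5 : (⟨aeval ζ c, h2 c ▸ (Φ c).2⟩ : B) = Φ c := Subtype.ext (h2 c).symm
  rw [h5, h4]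
  rfl

omit [Algebra ℂ Ω] in
/-- division by `1 - β u` inside a subring: if `(1 - β u) Q` has coefficients in `B`, so has `Q`. -/
theorem depw_coeff_mem (B : ValuationSubring Ω) {β : Ω} (hβ : β ∈ B) {Q P : Polynomial Ω}
    (hP : ∀ n, P.coeff n ∈ B) (h : P = (1 - Polynomial.C β * Polynomial.X) * Q) (n : ℕ) :
    Q.coeff n ∈ B := by
  induction n with
  | zero =>
    have h0 := hP 0
    rw [h, sub_mul, one_mul, Polynomial.coeff_sub, mul_assoc, Polynomial.coeff_C_mul,
      Polynomial.coeff_X_mul_zero, mul_zero, sub_zero] at h0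
    exact h0
  | succ n ih =>
    have h0 := hP (n + 1)
    rw [h, sub_mul, one_mul, Polynomial.coeff_sub, mul_assoc, Polynomial.coeff_C_mul,
      Polynomial.coeff_X_mul] at h0
    have : Q.coeff (n + 1) = (Q.coeff (n + 1) - β * Q.coeff n) + β * Q.coeff n := by ring
    rw [this]
    exact B.add_mem _ _ h0 (B.mul_mem _ _ hβ ih)

/-- **Specialisation of common roots.**  `P i ∈ B[u]` of degree `≤ D`, all divisible over `Ω` by `∏_{t ∈ a} (u - t)`.  Then the reductions are `H₀ R_i`, `deg R_i ≤ D - |a|`, `H₀` monic,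
and every root of `H₀` is the residue of some `t ∈ a ∩ B`. -/
theorem depw_spec (B : ValuationSubring Ω) {ι : Type*} (P : ι → Polynomial B) (D : ℕ)
    (hD : ∀ i, (P i).natDegree ≤ D) (a : Multiset Ω)
    (ha : ∀ i, (a.map fun t => Polynomial.X - Polynomial.C t).prod ∣ (P i).map B.subtype) :
    ∃ (H₀ : Polynomial (IsLocalRing.ResidueField B))
      (R : ι → Polynomial (IsLocalRing.ResidueField B)), H₀.Monic ∧
      (∀ i, (P i).map (IsLocalRing.residue B) = H₀ * R i) ∧
      (∀ i, R i = 0 ∨ (R i).natDegree + Multiset.card a ≤ D) ∧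
      ∀ c, H₀.IsRoot c → ∃ t ∈ a, ∃ ht : t ∈ B, IsLocalRing.residue B ⟨t, ht⟩ = c := by
  have hinj : Function.Injective B.subtype := Subtype.val_injective
  induction a using Multiset.induction_on generalizing P D with
  | empty =>
    refine ⟨1, fun i => (P i).map (IsLocalRing.residue B), Polynomial.monic_one,
      fun i => (one_mul _).symm, fun i => Or.inr ?_, fun c hc => ?_⟩
    · simpa using (Polynomial.natDegree_map_le).trans (hD i)
    · simp [Polynomial.IsRoot] at hc
  | cons t a ih =>
    simp only [Multiset.map_cons, Multiset.prod_cons] at ha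
    have hXt : (Polynomial.X - Polynomial.C t : Polynomial Ω) ≠ 0 := Polynomial.X_sub_C_ne_zero t
    rcases Nat.eq_zero_or_pos D with hD0 | hDpos
    · -- all polynomials vanish
      have hz : ∀ i, P i = 0 := by
        intro i
        have h1 : (P i).map B.subtype = 0 := by
          refine Polynomial.eq_zero_of_dvd_of_natDegree_lt ((dvd_mul_right _ _).trans (ha i)) ?_
          rw [Polynomial.natDegree_map_eq_of_injective hinj, Polynomial.natDegree_X_sub_C]
          have := hD i
          omega
        exact (Polynomial.map_eq_zero_iff hinj).mp h1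
      refine ⟨1, fun _ => 0, Polynomial.monic_one, fun i => by simp [hz i], fun i => Or.inl rfl,
        fun c hc => ?_⟩
      simp [Polynomial.IsRoot] at hc
    obtain ⟨D', rfl⟩ : ∃ D', D = D' + 1 := ⟨D - 1, by omega⟩
    by_cases ht : t ∈ B
    · -- the root is integral
      set τ : B := ⟨t, ht⟩ with hτ
      have hroot : ∀ i, (P i).IsRoot τ := by
        intro i
        have h1 : ((P i).map B.subtype).IsRoot t :=
          Polynomial.dvd_iff_isRoot.mp ((dvd_mul_right _ _).trans (ha i))
        have h2 : ((P i).map B.subtype).eval (B.subtype τ) = 0 := h1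
        rw [Polynomial.eval_map_apply] at h2
        exact hinj (by simpa using h2)
      have hfac : ∀ i, (Polynomial.X - Polynomial.C τ) * (P i /ₘ (Polynomial.X - Polynomial.C τ))
          = P i := fun i => Polynomial.mul_divByMonic_eq_iff_isRoot.mpr (hroot i)
      obtain ⟨H₀, R, hm, hf, hd, hr⟩ := ih (fun i => P i /ₘ (Polynomial.X - Polynomial.C τ)) D'
        (fun i => by
          rw [Polynomial.natDegree_divByMonic _ (Polynomial.monic_X_sub_C τ),
            Polynomial.natDegree_X_sub_C]
          have := hD i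
          omega)
        (fun i => by
          have h1 := ha i
          rw [← hfac i, Polynomial.map_mul, Polynomial.map_sub, Polynomial.map_X,
            Polynomial.map_C] at h1
          exact (mul_dvd_mul_iff_left hXt).mp h1)
      refine ⟨(Polynomial.X - Polynomial.C (IsLocalRing.residue B τ)) * H₀, R,
        (Polynomial.monic_X_sub_C _).mul hm, fun i => ?_, fun i => ?_, fun c hc => ?_⟩
      · rw [← hfac i, Polynomial.map_mul, Polynomial.map_sub, Polynomial.map_X, Polynomial.map_C,
          hf i, mul_assoc]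
      · rcases hd i with h | h
        · exact Or.inl h
        · right
          rw [Multiset.card_cons]
          omega
      · rw [Polynomial.IsRoot, Polynomial.eval_mul, mul_eq_zero] at hc
        rcases hc with hc | hc
        · refine ⟨t, Multiset.mem_cons_self _ _, ht, ?_⟩
          simp only [Polynomial.eval_sub, Polynomial.eval_X, Polynomial.eval_C] at hc
          exact (sub_eq_zero.mp hc).symm
        · obtain ⟨t', ht', hB, he⟩ := hr c hc
          exact ⟨t', Multiset.mem_cons_of_mem ht', hB, he⟩
    · -- the root goes to infinity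
      have hβ : t⁻¹ ∈ B := (B.mem_or_inv_mem t).resolve_left ht
      have ht0 : t ≠ 0 := fun h => ht (h ▸ B.zero_mem)
      set β : B := ⟨t⁻¹, hβ⟩ with hβdef
      have hres : IsLocalRing.residue B β = 0 := by
        rw [IsLocalRing.residue_eq_zero_iff, IsLocalRing.mem_maximalIdeal, mem_nonunits_iff]
        intro hu
        obtain ⟨v, hv⟩ := hu
        apply ht
        have h1 : ((v⁻¹ : Bˣ) : B) * β = 1 := by rw [← hv]; simp
        have h2 : (((v⁻¹ : Bˣ) : B) : Ω) * t⁻¹ = 1 := by
          have := congrArg Subtype.val h1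
          simpa using this
        have h3 : (((v⁻¹ : Bˣ) : B) : Ω) = t := by
          field_simp at h2
          exact h2
        rw [← h3]
        exact ((v⁻¹ : Bˣ) : B).2
      choose S hS using fun i => (dvd_mul_right _ _).trans (ha i)
      have hQ : ∀ i, (P i).map B.subtype
          = (1 - Polynomial.C t⁻¹ * Polynomial.X) * (Polynomial.C (-t) * S i) := by
        intro i
        rw [hS i]
        have : (Polynomial.X - Polynomial.C t : Polynomial Ω)
            = (1 - Polynomial.C t⁻¹ * Polynomial.X) * Polynomial.C (-t) := by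
          rw [sub_mul, one_mul, mul_right_comm, ← Polynomial.C_mul, Polynomial.C_neg]
          rw [show t⁻¹ * -t = -1 by field_simp]
          simp
          ring
        rw [this, mul_assoc]
      have hlift : ∀ i, ∃ P' : Polynomial B, P'.map B.subtype = Polynomial.C (-t) * S i := by
        intro i
        rw [← Polynomial.mem_lifts, Polynomial.lifts_iff_coeff_lifts]
        intro n
        have := depw_coeff_mem B hβ (P := (P i).map B.subtype)
          (fun n => by rw [Polynomial.coeff_map]; exact ((P i).coeff n).2) (hQ i) n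
        exact ⟨⟨_, this⟩, rfl⟩
      choose P' hP' using hlift
      have hPP : ∀ i, P i = (1 - Polynomial.C β * Polynomial.X) * P' i := by
        intro i
        apply Polynomial.map_injective _ hinj
        rw [hQ i, Polynomial.map_mul, hP' i]
        simp [hβdef]
      obtain ⟨H₀, R, hm, hf, hd, hr⟩ := ih P' D'
        (fun i => by
          rw [← Polynomial.natDegree_map_eq_of_injective hinj, hP' i]
          have h1 := hD i
          rw [← Polynomial.natDegree_map_eq_of_injective hinj, hS i] at h1
          by_cases hS0 : S i = 0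
          · simp [hS0]
          · rw [Polynomial.natDegree_mul hXt hS0, Polynomial.natDegree_X_sub_C] at h1
            have h2 := Polynomial.natDegree_C_mul_le (-t) (S i)
            omega)
        (fun i => by
          rw [hP' i]
          have h1 := ha i
          rw [hS i] at h1
          exact ((mul_dvd_mul_iff_left hXt).mp h1).mul_left _)
      refine ⟨H₀, R, hm, fun i => ?_, fun i => ?_, fun c hc => ?_⟩
      · rw [hPP i, Polynomial.map_mul, hf i]
        simp [hres]
      · rcases hd i with h | h
        · exact Or.inl h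
        · right
          rw [Multiset.card_cons]
          omega
      · obtain ⟨t', ht', hB, he⟩ := hr c hc
        exact ⟨t', Multiset.mem_cons_of_mem ht', hB, he⟩

end Claimed.Agent.R273
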