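import Claimed.Agent.R273.DepWRes
import Claimed.Agent.R273.DepWVal

/-!
# Row 273, depth.tex, package DEP-WAG, part 4: THE RANK DROP AT AN EXCESSIVE CENTRE.  Architect helper177.  Prefix `depw`.

LEAF DEPW-DROP (`depw_drop`).  `Ps_ζ := depwSys y G ζ ⊆ Ω[u]`, `Ps_p := depwSys y G p ⊆ ℂ[u]`; all degrees `≤ L₀ ≤ L` (`depw_res_natDegree`, `Polynomial.natDegree_map_le`).
 1. `D := max {natDegree P | P ∈ Ps_ζ}` attained at `P₁ ≠ 0` (`hne`; a bounded nonempty set of naturals; if `D = 0` take the nonzero member).  `H` := generator of `Ideal.span Ps_ζ` (PID: `IsPrincipal.generator`), `H ≠ 0`, `g := natDegree H`; `a := H.roots`, `card a = g`, `∏_{t ∈ a} (u - t)` divides `H` hence every `P ∈ Ps_ζ`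
    (`IsAlgClosed.splits`, `Polynomial.Splits.. eq_prod_roots`).  `depw_rk_gen`: `D - g + L ≤ finrank Ω (depwMul Ps_ζ L)`.
 2. `B` from `depw_val_exists`, `κ` its residue field, `ι₀ : ℂ → κ` (ring homomorphism `c ↦ residue ⟨algebraMap c, _⟩`, injective).  For `f ∈ G` let `P^B_f ∈ B[u]` have the coefficients `aeval ζ (coeff (depwRes y f) n)` (`depw_res_aeval`): `map subtype P^B_f = depwAt y f ζ`, `map residue P^B_f = map ι₀ (depwAt y f p)`.
 3. `depw_spec` (index type `G`): `H₀`, `R_f`.  So `natDegree (depwAt y f p) ≤ natDegree H₀ + (D - g) =: D'`.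
 4. If all `depwAt y f p = 0`: `depwMul Ps_p L = ⊥`, and `h ≤ L ≤ D - g + L`.  Otherwise `H_p` := generator of `Ideal.span Ps_p ⊆ ℂ[u]`, `H_p ≠ 0`, `H_p = ∑ c_f P_f(p)`, so `H₀ ∣ map ι₀ H_p`; for `a ∈ A`: `(u - a) ∣ H_p` (all `P_f(p)` vanish at `a`: `depw_at_eval`, `hA`).
    `A' := {a ∈ A | ¬ H₀.IsRoot (ι₀ a)}`: the polynomials `u - ι₀ a` (`a ∈ A'`) and `H₀` are pairwise coprime: `H₀ ∏_{A'} (u - ι₀ a) ∣ map ι₀ H_p`: `natDegree H₀ + |A'| ≤ natDegree H_p`.
    `depw_rk_spec` over `ℂ`: `finrank ≤ D' + L - natDegree H_p ≤ D - g + L - |A'|`.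
 5. `|A \ A'| ≤ q`.  For `a ∈ A \ A'` choose `t_a ∈ a_roots ∩ B` with residue `ι₀ a`; `a ↦ t_a` is injective; `t_a ≠ 1` (`a ≠ 1`, `ι₀` injective).  `z := depwPt y ζ t_a` is a common zero of `G` over `Ω` (`depw_at_eval`; `t_a` is a root of `H`), so `z ∈ Z(𝔮)(Ω)` for a minimal prime `𝔮` (`depw_comp_omega`).
    The coordinates of `z` lie in `B` with residues `ι₀ (depwPt y p a)`; for `f ∈ 𝔮`: `0 = residue (aeval z f) = ι₀ (eval (depwPt y p a) f)` (as in `depw_res_aeval`: a ring homomorphism argument with the point `z`).  So `depwPt y p a ∈ Z(𝔮)`, `𝔮 ∈ 𝒬` by `hA`.  `hq` for `T := image t`.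
 6. `h ≤ |A| - q ≤ |A'|`.
-/

set_option autoImplicit false

namespace Claimed.Agent.R273

open MvPolynomial Module

variable {d : ℕ}

/-- a nonzero member of maximal degree -/
theorem depw_exists_max {F : Type*} [Field F] (Ps : Set (Polynomial F)) (L₀ : ℕ)
    (hD : ∀ P ∈ Ps, P.natDegree ≤ L₀) (hne : ∃ P ∈ Ps, P ≠ 0) :
    ∃ P₁ ∈ Ps, P₁ ≠ 0 ∧ ∀ P ∈ Ps, P.natDegree ≤ P₁.natDegree := by
  classical
  set N : Set ℕ := {n | ∃ P ∈ Ps, P ≠ 0 ∧ P.natDegree = n} with hN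
  have hNne : N.Nonempty := by
    obtain ⟨P, hP, hP0⟩ := hne
    exact ⟨_, P, hP, hP0, rfl⟩
  have hNb : BddAbove N := ⟨L₀, by rintro n ⟨P, hP, _, rfl⟩; exact hD P hP⟩
  obtain ⟨P₁, hP₁, hP₁0, hP₁n⟩ := Nat.sSup_mem hNne hNb
  refine ⟨P₁, hP₁, hP₁0, fun P hP => ?_⟩
  by_cases h0 : P = 0
  · simp [h0]
  · rw [hP₁n]
    exact le_csSup hNb ⟨P, hP, h0, rfl⟩

/-- the generator of the ideal of a set of polynomials -/
theorem depw_exists_gen {F : Type*} [Field F] (Ps : Set (Polynomial F)) :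
    ∃ H : Polynomial F, Ideal.span Ps = Ideal.span {H} ∧ (∀ P ∈ Ps, H ∣ P) ∧ H ∈ Ideal.span Ps := by
  refine ⟨Submodule.IsPrincipal.generator (Ideal.span Ps),
    (Ideal.span_singleton_generator _).symm, fun P hP => ?_, Submodule.IsPrincipal.generator_mem _⟩
  rw [← Ideal.mem_span_singleton, Ideal.span_singleton_generator]
  exact Ideal.subset_span hP


/-- the embedding of `ℂ` in the residue field -/
noncomputable def depwIota {Ω : Type*} [Field Ω] [Algebra ℂ Ω] (B : ValuationSubring Ω)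
    (hC : ∀ c : ℂ, algebraMap ℂ Ω c ∈ B) : ℂ →+* IsLocalRing.ResidueField B :=
  (IsLocalRing.residue B).comp ((algebraMap ℂ Ω).codRestrict B hC)

theorem depw_iota_apply {Ω : Type*} [Field Ω] [Algebra ℂ Ω] (B : ValuationSubring Ω)
    (hC : ∀ c : ℂ, algebraMap ℂ Ω c ∈ B) (c : ℂ) :
    depwIota B hC c = IsLocalRing.residue B ⟨algebraMap ℂ Ω c, hC c⟩ := rfl

/-- the restricted equations over `B` -/
theorem depw_over_B {Ω : Type*} [Field Ω] [Algebra ℂ Ω] (B : ValuationSubring Ω)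
    (hC : ∀ c : ℂ, algebraMap ℂ Ω c ∈ B) (ζ : Fin d → Ω) (p : Fin d → ℂ) (hζ : ∀ i, ζ i ∈ B)
    (hp : ∀ i, ζ i - algebraMap ℂ Ω (p i) ∈ B.nonunits) (y : SpC d) (f : PrfPol d) :
    ∃ PB : Polynomial B, PB.map B.subtype = depwAt y f ζ ∧
      PB.map (IsLocalRing.residue B) = (depwAt y f p).map (depwIota B hC) := by
  set evB : PrfPol d →+* B := (aeval ζ : PrfPol d →ₐ[ℂ] Ω).toRingHom.codRestrict B
    (fun c => (depw_res_aeval B hC ζ p hζ hp c).1) with hevB
  refine ⟨(depwRes y f).map evB, ?_, ?_⟩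
  · rw [Polynomial.map_map]
    rfl
  · rw [Polynomial.map_map, depwAt, Polynomial.map_map]
    congr 1
    refine RingHom.ext fun c => ?_
    obtain ⟨h1, h2⟩ := depw_res_aeval B hC ζ p hζ hp c
    show IsLocalRing.residue B ⟨aeval ζ c, _⟩ = depwIota B hC (aeval p c)
    rw [h2, depw_iota_apply]
    simp [aeval_eq_eval]

/-- reduction of a point of the generic line -/
theorem depw_point_red {Ω : Type*} [Field Ω] [Algebra ℂ Ω] (B : ValuationSubring Ω)
    (hC : ∀ c : ℂ, algebraMap ℂ Ω c ∈ B) (ζ : Fin d → Ω) (p : Fin d → ℂ) (hζ : ∀ i, ζ i ∈ B)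
    (hp : ∀ i, ζ i - algebraMap ℂ Ω (p i) ∈ B.nonunits) (y : SpC d) (t : Ω) (ht : t ∈ B) (a : ℂ)
    (hta : IsLocalRing.residue B ⟨t, ht⟩ = depwIota B hC a) (f : PrfPol d)
    (hf : aeval (depwPt y ζ t) f = 0) : eval (depwPt y p a) f = 0 := by
  have hta' : t - algebraMap ℂ Ω a ∈ B.nonunits := by
    rw [ValuationSubring.mem_nonunits_iff_exists_mem_maximalIdeal]
    refine ⟨sub_mem ht (hC a), ?_⟩
    rw [← IsLocalRing.residue_eq_zero_iff]
    have : (⟨t - algebraMap ℂ Ω a, sub_mem ht (hC a)⟩ : B) = ⟨t, ht⟩ - ⟨algebraMap ℂ Ω a, hC a⟩ := rfl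
    rw [this, map_sub, hta, depw_iota_apply, sub_self]
  have hz : ∀ i, depwPt y ζ t i ∈ B := fun i =>
    add_mem (hC _) (mul_mem ht (sub_mem (hζ i) (hC _)))
  have hz' : ∀ i, depwPt y ζ t i - algebraMap ℂ Ω (depwPt y p a i) ∈ B.nonunits := by
    intro i
    have e : depwPt y ζ t i - algebraMap ℂ Ω (depwPt y p a i)
        = t * (ζ i - algebraMap ℂ Ω (p i))
          + (t - algebraMap ℂ Ω a) * algebraMap ℂ Ω (p i - y i) := by
      simp only [depwPt, map_add, map_mul, map_sub, Algebra.algebraMap_self, RingHom.id_apply]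
      ring
    rw [e, ValuationSubring.mem_nonunits_iff]
    apply Valuation.map_add_lt
    · rw [map_mul]
      have h1 : B.valuation t ≤ 1 := (B.valuation_le_one_iff t).2 ht
      have h2 : B.valuation (ζ i - algebraMap ℂ Ω (p i)) < 1 := (B.mem_nonunits_iff).1 (hp i)
      exact (mul_le_mul' h1 le_rfl).trans_lt (by rwa [one_mul])
    · rw [map_mul]
      have h1 : B.valuation (algebraMap ℂ Ω (p i - y i)) ≤ 1 := (B.valuation_le_one_iff _).2 (hC _)
      have h2 : B.valuation (t - algebraMap ℂ Ω a) < 1 := (B.mem_nonunits_iff).1 hta'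
      exact (mul_le_mul' le_rfl h1).trans_lt (by rwa [mul_one])
  obtain ⟨h1, h2⟩ := depw_res_aeval B hC (depwPt y ζ t) (depwPt y p a) hz hz' f
  have h3 : (⟨aeval (depwPt y ζ t) f, h1⟩ : B) = 0 := Subtype.ext hf
  rw [h3, map_zero, ← depw_iota_apply] at h2
  exact (map_eq_zero (depwIota B hC)).1 h2.symm

theorem depw_drop {Ω : Type*} [Field Ω] [Algebra ℂ Ω] [IsAlgClosed Ω] (𝔭 : Ideal (PrfPol d))
    (ζ : Fin d → Ω) (hζ : IsGenPt 𝔭 ζ) (y : SpC d) (G : Set (PrfPol d)) (L₀ L : ℕ)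
    (hG : ∀ f ∈ G, f.totalDegree ≤ L₀) (hL : L₀ ≤ L) (hne : ∃ f ∈ G, depwAt y f ζ ≠ 0)
    (𝒬 : Finset (Ideal (PrfPol d))) (q : ℕ)
    (hq : ∀ T : Finset Ω,
      (∀ t ∈ T, t ≠ 1 ∧ ∃ 𝔮 ∈ 𝒬, ∀ f ∈ 𝔮, aeval (depwPt y ζ t) f = 0) → T.card ≤ q)
    (p : SpC d) (hp : p ∈ zeroLocus ℂ 𝔭) (A : Finset ℂ)
    (hA : ∀ a ∈ A, a ≠ 1 ∧ (∀ f ∈ G, eval (depwPt y p a) f = 0) ∧
      ∀ 𝔮 ∈ (Ideal.span G).minimalPrimes, depwPt y p a ∈ zeroLocus ℂ 𝔮 → 𝔮 ∈ 𝒬)
    (h : ℕ) (hh : h + q ≤ A.card) (hhL : h ≤ L) :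
    finrank ℂ (depwMul (depwSys y G p) L) + h ≤ finrank Ω (depwMul (depwSys y G ζ) L) := by
  classical
  -- Step 1: the generic system
  have hdegζ : ∀ P ∈ depwSys y G ζ, P.natDegree ≤ L₀ := by
    rintro P ⟨f, hf, rfl⟩
    exact (Polynomial.natDegree_map_le).trans ((depw_res_natDegree y f).trans (hG f hf))
  obtain ⟨P₁, hP₁, hP₁0, hP₁max⟩ := depw_exists_max (depwSys y G ζ) L₀ hdegζ (by
    obtain ⟨f, hf, hf0⟩ := hne
    exact ⟨_, ⟨f, hf, rfl⟩, hf0⟩)
  set D := P₁.natDegree with hD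
  obtain ⟨H, hHspan, hHdvd, -⟩ := depw_exists_gen (depwSys y G ζ)
  have hH0 : H ≠ 0 := by
    rintro rfl
    exact hP₁0 (zero_dvd_iff.1 (hHdvd P₁ hP₁))
  have hgD : H.natDegree ≤ D := Polynomial.natDegree_le_of_dvd (hHdvd P₁ hP₁) hP₁0
  have hgen := depw_rk_gen (depwSys y G ζ) L D hP₁max P₁ hP₁ rfl hP₁0 H hHspan
    ((hdegζ P₁ hP₁).trans hL)
  have hcard : Multiset.card H.roots = H.natDegree :=
    (Polynomial.splits_iff_card_roots).1 (IsAlgClosed.splits H)
  -- Step 2: the valuation ring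
  obtain ⟨B, hC, hζB, hnon⟩ := depw_val_exists 𝔭 ζ hζ p hp
  choose PB hPB1 hPB2 using fun f : PrfPol d => depw_over_B B hC ζ p hζB hnon y f
  have hinj : Function.Injective (depwIota B hC) := (depwIota B hC).injective
  -- Step 3: specialisation
  obtain ⟨H₀, R, hH₀m, hfac, hRdeg, hroots⟩ := depw_spec B (fun f : G => PB f.1) D (by
      intro f
      rw [← Polynomial.natDegree_map_eq_of_injective (f := B.subtype) Subtype.val_injective, hPB1]
      exact hP₁max _ ⟨f.1, f.2, rfl⟩) H.roots (by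
      intro f
      rw [hPB1]
      exact (Polynomial.prod_multiset_X_sub_C_dvd H).trans (hHdvd _ ⟨f.1, f.2, rfl⟩))
  have hfac' : ∀ f : G, (depwAt y f.1 p).map (depwIota B hC) = H₀ * R f := fun f => by
    rw [← hPB2]
    exact hfac f
  -- Step 5: few distinguished roots in the support of `H₀`
  have hA'' : (A.filter (fun a => H₀.IsRoot (depwIota B hC a))).card ≤ q := by
    have hch : ∀ a ∈ A.filter (fun a => H₀.IsRoot (depwIota B hC a)),
        ∃ t ∈ H.roots, ∃ ht : t ∈ B, IsLocalRing.residue B ⟨t, ht⟩ = depwIota B hC a :=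
      fun a ha => hroots _ (Finset.mem_filter.1 ha).2
    choose! tf htf1 htf2 htf3 using hch
    have hinjt : Set.InjOn tf (A.filter (fun a => H₀.IsRoot (depwIota B hC a)) : Set ℂ) := by
      intro a ha b hb hab
      apply hinj
      rw [← htf3 a ha, ← htf3 b hb]
      congr 1
      exact Subtype.ext hab
    rw [← Finset.card_image_of_injOn hinjt]
    apply hq
    intro t ht
    obtain ⟨a, ha, rfl⟩ := Finset.mem_image.1 ht
    have haA := (Finset.mem_filter.1 ha).1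
    refine ⟨?_, ?_⟩
    · intro h1
      apply (hA a haA).1
      apply hinj
      rw [← htf3 a ha, map_one]
      have : (⟨tf a, htf2 a ha⟩ : B) = 1 := Subtype.ext h1
      rw [this, map_one]
    · have hz : ∀ f ∈ G, aeval (depwPt y ζ (tf a)) f = 0 := by
        intro f hf
        rw [← depw_at_eval]
        have h1 : H.IsRoot (tf a) := (Polynomial.mem_roots hH0).1 (htf1 a ha)
        obtain ⟨K, hK⟩ := hHdvd (depwAt y f ζ) ⟨f, hf, rfl⟩
        rw [hK, Polynomial.eval_mul, h1.eq_zero, zero_mul]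
      obtain ⟨𝔮, h𝔮, h𝔮z⟩ := depw_comp_omega G _ hz
      refine ⟨𝔮, (hA a haA).2.2 𝔮 h𝔮 ?_, h𝔮z⟩
      intro f hf
      rw [aeval_eq_eval]
      exact depw_point_red B hC ζ p hζB hnon y (tf a) (htf2 a ha) a (htf3 a ha) f (h𝔮z f hf)
  have hsplit := Finset.card_filter_add_card_filter_not (s := A)
    (fun a => H₀.IsRoot (depwIota B hC a))
  -- Step 4
  by_cases hall : ∀ f ∈ G, depwAt y f p = 0
  · have hbot : depwMul (depwSys y G p) L = ⊥ := by
      unfold depwMul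
      rw [Submodule.span_eq_bot]
      rintro Q ⟨P, ⟨f, hf, rfl⟩, k, _, rfl⟩
      show Polynomial.X ^ k * depwAt y f p = 0
      rw [hall f hf, mul_zero]
    rw [hbot, finrank_bot]
    omega
  · push Not at hall
    obtain ⟨f₂, hf₂, hf₂0⟩ := hall
    obtain ⟨Hp, hHpspan, hHpdvd, hHpmem⟩ := depw_exists_gen (depwSys y G p)
    have hHp0 : Hp ≠ 0 := by
      rintro rfl
      exact hf₂0 (zero_dvd_iff.1 (hHpdvd _ ⟨f₂, hf₂, rfl⟩))
    -- degrees at `p`
    have hdegp : ∀ P ∈ depwSys y G p, P.natDegree ≤ H₀.natDegree + (D - H.natDegree) := by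
      rintro P ⟨f, hf, rfl⟩
      rw [← Polynomial.natDegree_map (depwIota B hC), hfac' ⟨f, hf⟩]
      refine Polynomial.natDegree_mul_le.trans ?_
      rcases hRdeg ⟨f, hf⟩ with h0 | h0
      · rw [h0]; simp
      · rw [hcard] at h0
        omega
    -- `H₀` divides the image of `Hp`
    have hdvd0 : H₀ ∣ Hp.map (depwIota B hC) := by
      have hle : Ideal.span (depwSys y G p)
          ≤ (Ideal.span {H₀}).comap (Polynomial.mapRingHom (depwIota B hC)) := by
        rw [Ideal.span_le]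
        rintro P ⟨f, hf, rfl⟩
        show Polynomial.mapRingHom (depwIota B hC) (depwAt y f p) ∈ Ideal.span {H₀}
        rw [Polynomial.coe_mapRingHom, hfac' ⟨f, hf⟩, Ideal.mem_span_singleton]
        exact dvd_mul_right _ _
      have := hle hHpmem
      rw [Ideal.mem_comap, Polynomial.coe_mapRingHom, Ideal.mem_span_singleton] at this
      exact this
    obtain ⟨K, hK⟩ := hdvd0
    have hK0 : K ≠ 0 := by
      rintro rfl
      rw [mul_zero] at hK
      exact hHp0 ((Polynomial.map_eq_zero _).1 hK)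
    -- the distinguished parameters are roots of `Hp`
    have hrootp : ∀ a ∈ A, Hp.IsRoot a := by
      intro a ha
      have hle : Ideal.span (depwSys y G p) ≤ RingHom.ker (Polynomial.evalRingHom a) := by
        rw [Ideal.span_le]
        rintro P ⟨f, hf, rfl⟩
        show Polynomial.evalRingHom a (depwAt y f p) = 0
        rw [Polynomial.coe_evalRingHom, depw_at_eval, aeval_eq_eval]
        exact (hA a ha).2.1 f hf
      exact hle hHpmem
    have hA' : (A.filter (fun a => ¬ H₀.IsRoot (depwIota B hC a))).card ≤ K.natDegree := by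
      rw [← Finset.card_image_of_injective _ hinj]
      apply Polynomial.card_le_degree_of_subset_roots
      intro c hc
      rw [Finset.mem_val, Finset.mem_image] at hc
      obtain ⟨a, ha, rfl⟩ := hc
      obtain ⟨haA, haH⟩ := Finset.mem_filter.1 ha
      rw [Polynomial.mem_roots hK0]
      have h1 : (Hp.map (depwIota B hC)).IsRoot (depwIota B hC a) := by
        rw [Polynomial.IsRoot, Polynomial.eval_map_apply, (hrootp a haA).eq_zero, map_zero]
      rw [hK, Polynomial.IsRoot, Polynomial.eval_mul] at h1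
      exact (mul_eq_zero.1 h1).resolve_left haH
    have hdegHp : Hp.natDegree = H₀.natDegree + K.natDegree := by
      rw [← Polynomial.natDegree_map (depwIota B hC), hK,
        Polynomial.natDegree_mul hH₀m.ne_zero hK0]
    have hHpD : Hp.natDegree ≤ H₀.natDegree + (D - H.natDegree) :=
      (Polynomial.natDegree_le_of_dvd (hHpdvd _ ⟨f₂, hf₂, rfl⟩) hf₂0).trans
        (hdegp _ ⟨f₂, hf₂, rfl⟩)
    have hspec := depw_rk_spec (depwSys y G p) L _ hdegp Hp hHp0 hHpdvd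
    omega

end Claimed.Agent.R273
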