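import Claimed.Agent.R273.PmcMain

/-!
# Row 273, S3b: Lemma poly:matrix-multiplicity (rank loss gives ambient multiplicity).  Architect helper5.  Prefix `pmc_`.

`K` any field.  `B` a square matrix of polynomials, `B(z)` of rank `≤ q - h`.  Then `det B` has order `≥ h` at `z`.
* M0 `pmc_ord_prod`: induction on the finset with `ph_ord_mul`.
* M1 `pmc_det_ord_of_cols`: `det B = ∑_σ sign σ ∏_i B (σ i) i` (`Matrix.det_apply`); split `∏_i = ∏_{i ∈ T} * ∏_{i ∉ T}`
  (`Finset.prod_mul_prod_compl`), M0 for the first factor (`ph_ord_one_iff`), `ph_ord_mul_left`, `ph_ord_sum`; the sign is a unit multiple.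
* M2 `pmc_exists_col_op`: `ker B0` has dimension `q - rank B0 ≥ h` (`Matrix.rank`, `LinearMap.finrank_range_add_finrank_ker`);
  a basis of the kernel extends to a basis `b` of `K^m` indexed by `m`; `Q` = matrix with columns `b j`; `B0 * Q` has the zero columns `B0 (b j)`.
  (E.g. `Submodule.exists_isCompl`, `Module.finBasis` of both summands, `Module.Basis.prod`/`Submodule.prodEquivOfIsCompl`, reindex along an
  equivalence `Fin a ⊕ Fin b ≃ m`; `Q.det ≠ 0`: `Module.Basis.toMatrix` is invertible, or `Matrix.linearIndependent_cols_iff_isUnit`.)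
* `pm_det_ord`, `pm_minor_ord`, `pm_rankloss_cut`: GLUE, proved below.
-/

set_option autoImplicit false

namespace Claimed.Agent.R273

open MvPolynomial

variable {K : Type*} [Field K] {ι : Type*}

/-- M0. -/
theorem pmc_ord_prod {α : Type*} (s : Finset α) {z : ι → K} (g : α → MvPolynomial ι K)
    (hg : ∀ a ∈ s, OrdGE z 1 (g a)) : OrdGE z s.card (∏ a ∈ s, g a) := by
  classical
  induction s using Finset.induction_on with
  | empty => simpa using ph_ord_zero_left z _
  | insert a s ha ih =>
    rw [Finset.prod_insert ha, Finset.card_insert_of_notMem ha, add_comm]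
    exact ph_ord_mul (hg a (Finset.mem_insert_self _ _))
      (ih fun b hb => hg b (Finset.mem_insert_of_mem hb))

/-- M1. If the columns `j ∈ T` vanish at `z`, the determinant has order `≥ |T|` at `z`. -/
theorem pmc_det_ord_of_cols {m : Type*} [Fintype m] [DecidableEq m]
    (B : Matrix m m (MvPolynomial ι K)) (z : ι → K) (T : Finset m)
    (hT : ∀ j ∈ T, ∀ i, eval z (B i j) = 0) : OrdGE z T.card B.det := by
  rw [Matrix.det_apply]
  apply ph_ord_sum
  intro σ _
  rw [Units.smul_def, zsmul_eq_mul]
  apply ph_ord_mul_left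
  rw [← Finset.prod_mul_prod_compl T, mul_comm]
  apply ph_ord_mul_left
  exact pmc_ord_prod T _ (fun j hj => (ph_ord_one_iff _ _).mpr (hT j hj _))

/-- M2. Constant column operations produce `h` zero columns. -/
theorem pmc_exists_col_op {m : Type*} [Fintype m] [DecidableEq m] (B0 : Matrix m m K) (h : ℕ)
    (hrank : B0.rank + h ≤ Fintype.card m) :
    ∃ (Q : Matrix m m K) (T : Finset m), Q.det ≠ 0 ∧ h ≤ T.card ∧ ∀ j ∈ T, ∀ i, (B0 * Q) i j = 0 := by
  classical
  set N := LinearMap.ker B0.mulVecLin with hN
  obtain ⟨N', hc⟩ := Submodule.exists_isCompl N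
  let bN := Module.finBasis K N
  let bN' := Module.finBasis K N'
  let b0 : Module.Basis (Fin (Module.finrank K N) ⊕ Fin (Module.finrank K N')) K (m → K) :=
    (bN.prod bN').map (Submodule.prodEquivOfIsCompl N N' hc)
  have hcard : Fintype.card (Fin (Module.finrank K N) ⊕ Fin (Module.finrank K N')) = Fintype.card m := by
    rw [← Module.finrank_eq_card_basis b0, Module.finrank_pi]
  let e := Fintype.equivOfCardEq hcard
  let b := b0.reindex e
  have hker : Module.finrank K N + B0.rank = Fintype.card m := by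
    have := LinearMap.finrank_range_add_finrank_ker B0.mulVecLin
    rw [Module.finrank_pi] at this
    rw [Matrix.rank, hN]
    omega
  refine ⟨(Pi.basisFun K m).toMatrix b, Finset.univ.image (fun a : Fin (Module.finrank K N) => e (Sum.inl a)),
    ?_, ?_, ?_⟩
  · intro h0
    have h1 := congrArg Matrix.det (Module.Basis.toMatrix_mul_toMatrix_flip (Pi.basisFun K m) b)
    rw [Matrix.det_mul, h0, zero_mul, Matrix.det_one] at h1
    exact zero_ne_one h1
  · have hinj : Function.Injective (fun a : Fin (Module.finrank K N) => e (Sum.inl a)) :=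
      e.injective.comp Sum.inl_injective
    rw [Finset.card_image_of_injective _ hinj, Finset.card_univ, Fintype.card_fin]
    omega
  · intro j hj i
    obtain ⟨a, _, rfl⟩ := Finset.mem_image.mp hj
    have h1 : b (e (Sum.inl a)) = (bN a : m → K) := by
      simp [b, b0]
    have h2 : B0.mulVec (b (e (Sum.inl a))) = 0 := by
      rw [h1]
      exact LinearMap.mem_ker.mp (bN a).2
    have h3 := congrFun h2 i
    rw [Matrix.mul_apply]
    simpa [Matrix.mulVec, dotProduct, Module.Basis.toMatrix_apply] using h3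

/-- **Lemma poly:matrix-multiplicity**, square form. -/
theorem pm_det_ord {m : Type*} [Fintype m] [DecidableEq m] (B : Matrix m m (MvPolynomial ι K))
    (z : ι → K) (h : ℕ) (hrank : (B.map (eval z)).rank + h ≤ Fintype.card m) : OrdGE z h B.det := by
  obtain ⟨Q, T, hQ, hT, h0⟩ := pmc_exists_col_op (B.map (eval z)) h hrank
  have h1 : OrdGE z T.card (B * Q.map C).det := by
    apply pmc_det_ord_of_cols
    intro j hj i
    have h2 := h0 j hj i
    rw [Matrix.mul_apply] at h2 ⊢
    rw [map_sum, ← h2]
    apply Finset.sum_congr rfl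
    intro k _
    simp
  rw [Matrix.det_mul, mul_comm] at h1
  refine ph_ord_mono hT (ph_ord_cancel ?_ h1)
  have h3 : (Q.map C).det = (C Q.det : MvPolynomial ι K) := by
    have := (RingHom.map_det (C : K →+* MvPolynomial ι K) Q).symm
    simpa using this
  rw [h3, eval_C]
  exact hQ

/-- **Lemma poly:matrix-multiplicity**, minors of a rectangular matrix. -/
theorem pm_minor_ord {a b m : Type*} [Fintype b] [Fintype m] [DecidableEq m]
    (A : Matrix a b (MvPolynomial ι K)) (e₁ : m → a) (e₂ : m → b) (z : ι → K) (h : ℕ)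
    (hrank : (A.map (eval z)).rank + h ≤ Fintype.card m) : OrdGE z h (A.submatrix e₁ e₂).det := by
  apply pm_det_ord
  have h1 : (A.submatrix e₁ e₂).map (eval z) = (A.map (eval z)).submatrix e₁ e₂ := rfl
  rw [h1]
  have := Matrix.rank_submatrix_le (A.map (eval z)) e₁ e₂
  omega

/-- poly:matrix-multiplicity + poly:compression: a rank loss `≥ h` of `A` on `S` is cut out by a polynomial of degree `≤ (n+1) E / h`
which does not vanish at the test point. -/
theorem pm_rankloss_cut {ι : Type*} [Fintype ι] {a b m : Type*} [Fintype b] [Fintype m] [DecidableEq m]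
    (A : Matrix a b (MvPolynomial ι ℂ)) (e₁ : m → a) (e₂ : m → b) (S : Set (ι → ℂ)) (xs : ι → ℂ)
    (E h : ℕ) (hh : 1 ≤ h) (hE : (A.submatrix e₁ e₂).det.totalDegree ≤ E)
    (hS : ∀ z ∈ S, (A.map (eval z)).rank + h ≤ Fintype.card m)
    (hx : eval xs (A.submatrix e₁ e₂).det ≠ 0) :
    ∃ g : MvPolynomial ι ℂ, h * g.totalDegree ≤ (Fintype.card ι + 1) * E ∧
      (∀ z ∈ S, eval z g = 0) ∧ eval xs g ≠ 0 :=
  pm_compression S xs _ E h hh hE (fun z hz => pm_minor_ord A e₁ e₂ z h (hS z hz)) hx

end Claimed.Agent.R273
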