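import Claimed.Agent.R273.DepWGen
import Claimed.Agent.R273.DepWDrop
import Claimed.Agent.R273.PmcMat

/-!
# Row 273, depth.tex, package DEP-WAG, part 6: THE MINOR, COMPRESSION, `dep_wide_cut`.  Architect helper177.  Prefix `depw`.

* LEAF DEPW-M (`depw_minor`).  From `ρ ≤ finrank Ω (span 𝒮)`, `𝒮 = {u^k depwAt y f ζ | f ∈ G, k < L}`: choose `ρ` linearly independent members `v_c = u^{k_c} depwAt y f_c ζ` of `𝒮` (`exists_linearIndependent`, then a subfamily of size `ρ`).  `A i c := coeff (u^{k_c} depwRes y f_c) i ∈ ℂ[x]`, `i < n := L₀ + L` (`depw_res_coeff_deg`).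
   For any `ℂ`-algebra field `R` and `x ∈ R^d` the column `c` of `A.map (aeval x)` is the coefficient vector of `u^{k_c} depwAt y f_c x`, a polynomial of degree `< n`; `Q ↦ (coeff Q i)_{i<n}` is injective on `degreeLT n`.
   At `ζ`: the `ρ` columns are independent, so the row space has dimension `ρ` (`Matrix.rank_transpose`); choose `ρ` independent rows `e₁`: the square matrix is invertible, `aeval ζ (det ..) = det (.. map) ≠ 0` (`RingHom.map_det`), i.e. `det ∉ 𝔭` (`IsGenPt`).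
   At `x ∈ ℂ^d`: `rank = finrank (span columns) ≤ finrank (depwMul (depwSys y G x) L)` (image of the span of `ρ` members under the injective coefficient map).
* LEAF DEPW-CUT (`dep_wide_cut`).  `Cd := 4 (d + 1)`.  `S = ∅`: `g = 1` (`ph_isVar_nonempty`).  Otherwise: `y` from `depw_choose`; `X = Z(𝔭)`, `𝔭` prime; `Ω := GenF (vdim X)`, `ζ` from `ph_exists_genPt`; `𝒬` := for `Y' ∈ 𝒴` the minimal prime `𝔮` with `Y' = Z(𝔮)` (`IsCompOf`), as a `Finset` (image under a choice function);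
   `⋃ 𝔮 ∈ 𝒬, Z(𝔮) = ⋃ 𝒴`.  `L := max L₀ r`, `h := r - q` (`1 ≤ h ≤ L`, `r ≤ 2 h`).  `hne`: `eval (depwPt y x a) f ≠ 0` ⇒ `depwAt y f x ≠ 0` (`depw_at_eval`) ⇒ a coefficient `c_n ∉ 𝔭` ⇒ `depwAt y f ζ ≠ 0`.  `hq` := `depw_transfer` (`h ∉ 𝔭` since it does not vanish on `X`; `∃ x ∈ X, x ≠ y`: any `p ∈ S`).
   For `p ∈ S`: `depw_drop` with `A_p` (`∀ f ∈ G, eval .. f = 0` because `U ⊆ Zl G`: `ph_isCompOf_subset`; a minimal prime `𝔮` with the point in `Z(𝔮)` gives the component `W = Z(𝔮) ∈ 𝒴`, and `𝔮 ∈ 𝒬` because `Z` is injective on primes (Nullstellensatz)).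
   `ρ := finrank Ω (depwMul (depwSys y G ζ) L) ≤ L₀ + L` (`depw_mul_le`, `finrank (degreeLT n) = n`).  `depw_minor`; `totalDegree det ≤ ρ L₀ ≤ 2 L²` (Leibniz formula: `Matrix.det_apply`, `totalDegree_finset_sum`, `totalDegree_finset_prod`; cf. `ph_totalDegree_det_le`).
   Test point: `det ∉ 𝔭 = I(X)` ⇒ `∃ xs ∈ X, eval xs det ≠ 0`.  `pm_rankloss_cut A e₁ id S xs (2 L²) h`: `h deg g ≤ (d+1) 2 L²`, so `deg g · r ≤ 2 h deg g ≤ 4 (d+1) L²`.
-/

set_option autoImplicit false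

namespace Claimed.Agent.R273

open MvPolynomial Module

variable {d : ℕ}

/-- the first `n` coefficients -/
noncomputable def depwCo (F : Type*) [Field F] (n : ℕ) : Polynomial F →ₗ[F] (Fin n → F) where
  toFun Q := fun i => Q.coeff i
  map_add' := by intro a b; funext i; simp
  map_smul' := by intro a b; funext i; simp

theorem depw_co_inj {F : Type*} [Field F] (n : ℕ) (Q : Polynomial F)
    (hQ : Q ∈ Polynomial.degreeLT F n) (h : depwCo F n Q = 0) : Q = 0 := by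
  ext i
  rw [Polynomial.coeff_zero]
  by_cases hi : i < n
  · exact congrFun h ⟨i, hi⟩
  · rw [Polynomial.mem_degreeLT] at hQ
    exact Polynomial.coeff_eq_zero_of_degree_lt (lt_of_lt_of_le hQ (by exact_mod_cast not_lt.1 hi))

theorem depw_exists_indep {K M : Type*} [Field K] [AddCommGroup M] [Module K M] (s : Set M)
    [Module.Finite K (Submodule.span K s)] (ρ : ℕ) (h : ρ ≤ finrank K (Submodule.span K s)) :
    ∃ f : Fin ρ → M, (∀ i, f i ∈ s) ∧ LinearIndependent K f := by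
  obtain ⟨f, hf, -, hli⟩ := Submodule.exists_fun_fin_finrank_span_eq K s
  exact ⟨f ∘ Fin.castLE h, fun i => hf _, hli.comp _ (Fin.castLE_injective h)⟩

/-- a matrix with `ρ` independent columns has a nonzero `ρ × ρ` minor -/
theorem depw_exists_minor {F : Type*} [Field F] {n ρ : ℕ} (M : Matrix (Fin n) (Fin ρ) F)
    (hM : LinearIndependent F M.col) : ∃ e₁ : Fin ρ → Fin n, (M.submatrix e₁ id).det ≠ 0 := by
  have h1 : M.rank = ρ := by
    rw [← Matrix.rank_transpose]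
    have := LinearIndependent.rank_matrix (M := M.transpose) (by simpa using hM)
    simpa using this
  rw [Matrix.rank_eq_finrank_span_row] at h1
  obtain ⟨f, hf, hli⟩ := depw_exists_indep (K := F) (Set.range M.row) ρ h1.ge
  choose e₁ he₁ using hf
  refine ⟨e₁, ?_⟩
  have h2 : LinearIndependent F (M.submatrix e₁ id).row := by
    have : (M.submatrix e₁ id).row = f := by
      funext i
      exact he₁ i
    rw [this]
    exact hli
  rw [Matrix.linearIndependent_rows_iff_isUnit, Matrix.isUnit_iff_isUnit_det] at h2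
  exact h2.ne_zero

theorem depw_sys_deg {R : Type*} [Field R] [Algebra ℂ R] (y : SpC d) (G : Set (PrfPol d)) (L₀ : ℕ)
    (hG : ∀ f ∈ G, f.totalDegree ≤ L₀) (x : Fin d → R) : ∀ P ∈ depwSys y G x, P.natDegree ≤ L₀ := by
  intro P hP
  obtain ⟨f, hf, rfl⟩ := hP
  exact (Polynomial.natDegree_map_le).trans ((depw_res_natDegree y f).trans (hG f hf))

theorem depw_mul_finite {R : Type*} [Field R] [Algebra ℂ R] (y : SpC d) (G : Set (PrfPol d))
    (L₀ L : ℕ) (hG : ∀ f ∈ G, f.totalDegree ≤ L₀) (x : Fin d → R) :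
    Module.Finite R (depwMul (depwSys y G x) L) := by
  have : Module.Finite R (Polynomial.degreeLT R (L₀ + L)) :=
    Module.Finite.equiv (Polynomial.degreeLTEquiv R (L₀ + L)).symm
  exact Submodule.finiteDimensional_of_le (depw_mul_le _ L L₀ (depw_sys_deg y G L₀ hG x))

/-- the coefficient matrix of the polynomials `u^{k c} f_c(y + u (x - y))` -/
noncomputable def depwMat (y : SpC d) (n ρ : ℕ) (k : Fin ρ → ℕ) (f : Fin ρ → PrfPol d) :
    Matrix (Fin n) (Fin ρ) (PrfPol d) :=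
  fun i c => (Polynomial.X ^ (k c) * depwRes y (f c)).coeff i

theorem depw_mat_col {R : Type*} [Field R] [Algebra ℂ R] (y : SpC d) (n ρ : ℕ) (k : Fin ρ → ℕ)
    (f : Fin ρ → PrfPol d) (x : Fin d → R) (c : Fin ρ) :
    ((depwMat y n ρ k f).map (aeval x : PrfPol d →ₐ[ℂ] R)).col c
      = depwCo R n (Polynomial.X ^ (k c) * depwAt y (f c) x) := by
  funext i
  simp only [Matrix.col, Matrix.transpose_apply, depwCo, LinearMap.coe_mk,
    AddHom.coe_mk, depwAt]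
  rw [← Polynomial.map_X (aeval x : PrfPol d →ₐ[ℂ] R).toRingHom, ← Polynomial.map_pow,
    ← Polynomial.map_mul, Polynomial.coeff_map]
  rfl

theorem depw_minor {Ω : Type*} [Field Ω] [Algebra ℂ Ω] (𝔭 : Ideal (PrfPol d)) (ζ : Fin d → Ω)
    (hζ : IsGenPt 𝔭 ζ) (y : SpC d) (G : Set (PrfPol d)) (L₀ L : ℕ)
    (hG : ∀ f ∈ G, f.totalDegree ≤ L₀) (ρ : ℕ)
    (hρ : ρ ≤ finrank Ω (depwMul (depwSys y G ζ) L)) :
    ∃ (A : Matrix (Fin (L₀ + L)) (Fin ρ) (PrfPol d)) (e₁ : Fin ρ → Fin (L₀ + L)),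
      (∀ i j, (A i j).totalDegree ≤ L₀) ∧ (A.submatrix e₁ id).det ∉ 𝔭 ∧
      ∀ x : SpC d, (A.map (eval x)).rank ≤ finrank ℂ (depwMul (depwSys y G x) L) := by
  classical
  have hfinΩ : Module.Finite Ω (Submodule.span Ω
      {Q | ∃ P ∈ depwSys y G ζ, ∃ k < L, Q = Polynomial.X ^ k * P}) :=
    depw_mul_finite y G L₀ L hG ζ
  obtain ⟨v, hv, hli⟩ := depw_exists_indep (K := Ω)
    {Q | ∃ P ∈ depwSys y G ζ, ∃ k < L, Q = Polynomial.X ^ k * P} ρ hρ
  have hv' : ∀ c, ∃ f ∈ G, ∃ k < L, v c = Polynomial.X ^ k * depwAt y f ζ := by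
    intro c
    obtain ⟨_, ⟨f, hf, rfl⟩, k, hk, h⟩ := hv c
    exact ⟨f, hf, k, hk, h⟩
  choose f hf k hk hvc using hv'
  have hMli : LinearIndependent Ω
      ((depwMat y (L₀ + L) ρ k f).map (aeval ζ : PrfPol d →ₐ[ℂ] Ω)).col := by
    rw [Fintype.linearIndependent_iff] at hli ⊢
    intro g hg
    apply hli g
    apply depw_co_inj (L₀ + L)
    · apply depw_mul_le _ L L₀ (depw_sys_deg y G L₀ hG ζ)
      apply Submodule.sum_mem
      intro c _
      apply Submodule.smul_mem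
      rw [hvc]
      exact Submodule.subset_span ⟨_, ⟨f c, hf c, rfl⟩, k c, hk c, rfl⟩
    · rw [map_sum, ← hg]
      apply Finset.sum_congr rfl
      intro c _
      rw [map_smul, depw_mat_col, hvc]
  obtain ⟨e₁, he₁⟩ := depw_exists_minor _ hMli
  refine ⟨depwMat y (L₀ + L) ρ k f, e₁, ?_, ?_, ?_⟩
  · intro i c
    simp only [depwMat]
    rw [Polynomial.coeff_X_pow_mul']
    split_ifs
    · exact (depw_res_coeff_deg y (f c) _).trans (hG _ (hf c))
    · simp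
  · intro hmem𝔭
    apply he₁
    rw [← hζ, AlgHom.map_det] at hmem𝔭
    rw [← hmem𝔭]
    rfl
  · intro x
    have hfinx := depw_mul_finite y G L₀ L hG x
    have hA : (depwMat y (L₀ + L) ρ k f).map (eval x)
        = (depwMat y (L₀ + L) ρ k f).map (aeval x : PrfPol d →ₐ[ℂ] ℂ) := by
      ext i c
      simp [aeval_eq_eval]
    rw [hA, Matrix.rank_eq_finrank_span_cols]
    refine le_trans (Submodule.finrank_mono ?_)
      (Submodule.finrank_map_le (depwCo ℂ (L₀ + L)) (depwMul (depwSys y G x) L))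
    rw [Submodule.span_le]
    rintro _ ⟨c, rfl⟩
    rw [depw_mat_col]
    exact ⟨_, Submodule.subset_span ⟨_, ⟨f c, hf c, rfl⟩, k c, hk c, rfl⟩, rfl⟩

theorem depw_det_deg {σ n : Type*} [Fintype n] [DecidableEq n] (M : Matrix n n (MvPolynomial σ ℂ))
    (e : ℕ) (hM : ∀ i j, (M i j).totalDegree ≤ e) : M.det.totalDegree ≤ Fintype.card n * e := by
  rw [Matrix.det_apply]
  apply totalDegree_finsetSum_le
  intro σ' _
  refine (totalDegree_smul_le _ _).trans ?_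
  refine (totalDegree_finsetProd _ _).trans ?_
  calc ∑ i, (M (σ' i) i).totalDegree ≤ ∑ _i : n, e := Finset.sum_le_sum fun i _ => hM _ _
    _ = Fintype.card n * e := by simp

theorem depw_finrank_le {F : Type*} [Field F] (Ps : Set (Polynomial F)) (L D : ℕ)
    (hD : ∀ P ∈ Ps, P.natDegree ≤ D) : finrank F (depwMul Ps L) ≤ D + L := by
  have h1 := depw_mul_le Ps L D hD
  have : Module.Finite F (Polynomial.degreeLT F (D + L)) :=
    Module.Finite.equiv (Polynomial.degreeLTEquiv F (D + L)).symm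
  have h2 := Submodule.finrank_mono h1
  have h3 : finrank F (Polynomial.degreeLT F (D + L)) = D + L := by
    rw [(Polynomial.degreeLTEquiv F (D + L)).finrank_eq, Module.finrank_fin_fun]
  omega

/-- **Excessive depth at actual centres is detected by a proper cut of the centre carrier** (depth.tex l.283-470).
`𝒴` = the list: `l`-dimensional irreducible COMPONENTS of the full target path locus `Zl G`, `deg G ≤ L₀`; `X` = the centre carrier; `Y ∈ 𝒴`.
Generic hypotheses on `X × Y`: non-tangency at the target, at most `q` roots on the list.  `S` = centres on `X` with full-dimensional projection of `Y` and depth `> r`, `r ≥ 2 q + Cd`.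
Conclusion: a polynomial of degree `≤ Cd max(L₀, r)² / r` vanishing on `S`, not identically on `X`. -/
theorem dep_wide_cut (d : ℕ) : ∃ Cd : ℕ, ∀ (G : Set (PrfPol d)) (L₀ : ℕ),
    (∀ g ∈ G, g.totalDegree ≤ L₀) → ∀ (l : ℕ) (𝒴 : Finset (Set (SpC d))), 1 ≤ l →
    (∀ Y ∈ 𝒴, IsCompOf Y G ∧ vdim Y = l) → ∀ X : Set (SpC d), IsVar X → ∀ Y ∈ 𝒴,
    (∃ x ∈ X, ∃ y ∈ Y, ∃ f : PrfPol d, (∀ z ∈ Y, eval z f = 0) ∧ dAt f y (y - x) ≠ 0) →
    ∀ q r : ℕ, DepRootLE₂ X Y (⋃ Y' ∈ 𝒴, Y') q → 2 * q + Cd ≤ r →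
    ∀ S : Finset (SpC d),
      (∀ p ∈ S, p ∈ X ∧ vdim (dcone p Y) = l + 1 ∧ ¬ DepRootLE p Y (⋃ Y' ∈ 𝒴, Y') r) →
      ∃ g : PrfPol d, (∃ x ∈ X, eval x g ≠ 0) ∧ (∀ p ∈ S, eval p g = 0) ∧
        g.totalDegree * r ≤ Cd * (max L₀ r) ^ 2 := by
  classical
  refine ⟨4 * (d + 1), ?_⟩
  intro G L₀ hG l 𝒴 hl h𝒴 X hX Y hY htan q r hq hr S hS
  by_cases hSe : S = ∅
  · obtain ⟨x, hx⟩ := ph_isVar_nonempty X hX
    exact ⟨1, ⟨x, hx, by simp⟩, by simp [hSe], by simp⟩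
  obtain ⟨p₀, hp₀⟩ := Finset.nonempty_iff_ne_empty.2 hSe
  obtain ⟨y, hyY, ⟨h, ⟨xh, hxh, hxh'⟩, hgood⟩, ⟨x₁, hx₁, f₁, hf₁, a₁, hne₁⟩, hA⟩ :=
    depw_choose G l 𝒴 hl h𝒴 X hX Y hY htan q r hq S hS
  obtain ⟨𝔭, h𝔭, rfl⟩ := hX
  obtain ⟨ζ, hζ⟩ := ph_exists_genPt 𝔭 h𝔭
  -- membership in `𝔭`
  have hnot : ∀ c : PrfPol d, (∃ x ∈ zeroLocus ℂ 𝔭, eval x c ≠ 0) → c ∉ 𝔭 := by
    rintro c ⟨x, hx, hc⟩ hmem
    exact hc (by simpa [aeval_eq_eval] using hx c hmem)
  have hex : ∀ c : PrfPol d, c ∉ 𝔭 → ∃ x ∈ zeroLocus ℂ 𝔭, eval x c ≠ 0 := by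
    intro c hc
    by_contra hcon
    push Not at hcon
    apply hc
    have : c ∈ vanishingIdeal ℂ (zeroLocus ℂ 𝔭) := fun x hx => by
      simpa [aeval_eq_eval] using hcon x hx
    rwa [IsPrime.vanishingIdeal_zeroLocus] at this
  -- the primes of the list
  choose! 𝔮f h𝔮f using fun Y' (hY' : Y' ∈ 𝒴) => (h𝒴 Y' hY').1
  set 𝒬 := 𝒴.image 𝔮f with h𝒬
  have hU : (⋃ 𝔮 ∈ 𝒬, zeroLocus ℂ 𝔮) = ⋃ Y' ∈ 𝒴, Y' := by
    ext z
    simp only [Set.mem_iUnion, h𝒬, Finset.mem_image, exists_prop]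
    constructor
    · rintro ⟨𝔮, ⟨Y', hY', rfl⟩, hz⟩
      exact ⟨Y', hY', by rw [(h𝔮f Y' hY').2]; exact hz⟩
    · rintro ⟨Y', hY', hz⟩
      exact ⟨𝔮f Y', ⟨Y', hY', rfl⟩, by rw [← (h𝔮f Y' hY').2]; exact hz⟩
  set L := max L₀ r with hL
  have hL0 : L₀ ≤ L := le_max_left _ _
  have hrL : r ≤ L := le_max_right _ _
  -- the generic system is not zero
  have hne : ∃ f ∈ G, depwAt y f ζ ≠ 0 := by
    refine ⟨f₁, hf₁, ?_⟩
    have h1 : depwAt y f₁ x₁ ≠ 0 := by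
      intro h0
      apply hne₁
      have := depw_at_eval y f₁ x₁ a₁
      rw [h0, Polynomial.eval_zero] at this
      simpa [aeval_eq_eval] using this.symm
    obtain ⟨n, hn⟩ : ∃ n, (depwAt y f₁ x₁).coeff n ≠ 0 := by
      by_contra hcon
      push Not at hcon
      exact h1 (Polynomial.ext (by simpa using hcon))
    have h2 : (depwRes y f₁).coeff n ∉ 𝔭 := by
      apply hnot
      refine ⟨x₁, hx₁, ?_⟩
      simpa [depwAt, Polynomial.coeff_map, aeval_eq_eval] using hn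
    intro h0
    apply h2
    rw [← hζ]
    have := congrArg (fun P => Polynomial.coeff P n) h0
    simpa [depwAt, Polynomial.coeff_map] using this
  have hq' := depw_transfer 𝔭 ζ hζ y ⟨p₀, (hS p₀ hp₀).1, (hA p₀ hp₀).1⟩ 𝒬 q h
    (hnot h ⟨xh, hxh, hxh'⟩) (by rw [hU]; exact hgood)
  set ρ := finrank (GenF (vdim (zeroLocus ℂ 𝔭))) (depwMul (depwSys y G ζ) L) with hρ
  have hρL : ρ ≤ L₀ + L := by
    apply depw_finrank_le
    rintro P ⟨f, hf, rfl⟩
    exact (Polynomial.natDegree_map_le).trans ((depw_res_natDegree y f).trans (hG f hf))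
  obtain ⟨A, e₁, hAdeg, hAdet, hArk⟩ := depw_minor 𝔭 ζ hζ y G L₀ L hG ρ le_rfl
  obtain ⟨xs, hxs, hxs'⟩ := hex _ hAdet
  have hh1 : 1 ≤ r - q := by omega
  have hdrop : ∀ z ∈ (S : Set (SpC d)), (A.map (eval z)).rank + (r - q) ≤ Fintype.card (Fin ρ) := by
    intro p hp
    have hp' : p ∈ S := hp
    obtain ⟨_, Ap, hAr, hAp⟩ := hA p hp'
    have := depw_drop 𝔭 ζ hζ y G L₀ L hG hL0 hne 𝒬 q hq' p (hS p hp').1 Ap (by
      intro a ha
      obtain ⟨h1, h2, h3⟩ := hAp a ha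
      refine ⟨h1, ?_, ?_⟩
      · intro f hf
        simp only [Set.mem_iUnion, exists_prop] at h2
        obtain ⟨Y', hY', hz⟩ := h2
        exact ph_isCompOf_subset (h𝒴 Y' hY').1 hz f hf
      · intro 𝔮 h𝔮 hz
        have hW : zeroLocus ℂ 𝔮 ∈ 𝒴 := h3 _ ⟨𝔮, h𝔮, rfl⟩ hz
        have e1 := (h𝔮f _ hW).2
        have p1 : (𝔮f (zeroLocus ℂ 𝔮)).IsPrime := (h𝔮f _ hW).1.1.1
        have p2 : 𝔮.IsPrime := h𝔮.1.1
        have e2 : 𝔮f (zeroLocus ℂ 𝔮) = 𝔮 := by
          rw [← IsPrime.vanishingIdeal_zeroLocus (K := ℂ) (𝔮f (zeroLocus ℂ 𝔮)), ← e1,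
            IsPrime.vanishingIdeal_zeroLocus]
        rw [h𝒬, Finset.mem_image]
        exact ⟨_, hW, e2⟩) (r - q) (by omega) (by omega)
    rw [Fintype.card_fin]
    have h4 := hArk p
    omega
  have hE : (A.submatrix e₁ id).det.totalDegree ≤ 2 * L ^ 2 := by
    refine (depw_det_deg _ L₀ (fun i j => hAdeg _ _)).trans ?_
    rw [Fintype.card_fin]
    calc ρ * L₀ ≤ (L + L) * L := Nat.mul_le_mul (by omega) hL0
      _ = 2 * L ^ 2 := by ring
  obtain ⟨g, hg1, hg2, hg3⟩ := pm_rankloss_cut A e₁ id (S : Set (SpC d)) xs (2 * L ^ 2) (r - q) hh1 hE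
    hdrop hxs'
  refine ⟨g, ⟨xs, hxs, hg3⟩, fun p hp => hg2 p hp, ?_⟩
  rw [Fintype.card_fin] at hg1
  have hr2 : r ≤ 2 * (r - q) := by omega
  calc g.totalDegree * r ≤ g.totalDegree * (2 * (r - q)) := Nat.mul_le_mul_left _ hr2
    _ = 2 * ((r - q) * g.totalDegree) := by ring
    _ ≤ 2 * ((d + 1) * (2 * L ^ 2)) := Nat.mul_le_mul_left _ hg1
    _ = 4 * (d + 1) * L ^ 2 := by ring

end Claimed.Agent.R273
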