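import Mathlib

/-!
# Row 273, depth.tex, package DEP-WAG (`dep_wide_cut`), part 1: UNIVARIATE LINEAR ALGEBRA.  Architect helper177.  Prefix `depw`.  Mathlib only.

REPLACES the binary forms, the two general combinations and the Sylvester matrix of the paper.  `Ps` = a set of polynomials in one variable `u` over a field `F` (the equations restricted to a line),
`depwMul Ps L := span {u^k P | P ∈ Ps, k < L}`  (= the part of the ideal `(Ps)` generated in "degree `< L`").

* LEAF DEPW-P1 (`depw_mul_le`, `depw_rk_gen`).  `H` = generator of the ideal `(Ps)`, `g = deg H`, `D = max deg = deg P₁`, `D ≤ L`.  CLAIM: `H R ∈ depwMul Ps L` for every `R` of degree `< D - g + L`.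
   `H ≠ 0` (`P₁ ≠ 0`), `P = H ψ_P`; `H ∈ span Ps`: `H = ∑ c_P P` (finite sum, `Submodule.mem_span_set'`/`Finsupp.mem_ideal_span_image_iff_linearCombination`), so `H R = ∑ (c_P R) P`.  Put `a_P := c_P R`.  For `P ≠ P₁` replace `a_P` by `a_P % ψ₁`..
   simpler: divide by `P₁` directly: `a_P = e_P ψ₁ + a'_P` needs `ψ₁`; EQUIVALENT FORM avoiding `ψ`: `a_P P = (a_P /ₘ..)`: use `EuclideanDomain`: `a_P = (a_P / ψ₁) ψ₁ + a_P % ψ₁`, `ψ₁ := P₁ / H`, `ψ₁ P = ψ_P P₁`; `deg (a_P % ψ₁) < deg ψ₁ = D - g ≤ L`.
   So `H R = ∑_{P ≠ P₁} a'_P P + a'₁ P₁`, and `deg (a'₁ P₁) ≤ max (deg (H R), max_P deg (a'_P P)) < D + L`, hence `deg a'₁ < L`.  A polynomial `a` of degree `< L` times `P ∈ Ps` lies in `depwMul` (`a = ∑_{k<L} a_k u^k`).  (`D = g`: `ψ₁` is a nonzero constant, `a'_P = 0`.)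
   The map `R ↦ H R` is injective on `degreeLT F (D - g + L)`: `finrank ≥ D - g + L` (`Polynomial.degreeLT` has finrank `n`: `Polynomial.degreeLTEquiv`; `LinearMap.finrank_le_finrank_of_injective` into the finite-dimensional `depwMul Ps L ≤ degreeLT F (D + L)`).
* LEAF DEPW-P2 (`depw_rk_spec`).  Every element of `depwMul Ps L` is `H' R` with `deg R < D' + L - deg H'` (or `0`): `depwMul Ps L ≤ (degreeLT F (D' + L - deg H')).map (mulLeft H')`; `finrank_map_le`.
-/

set_option autoImplicit false

namespace Claimed.Agent.R273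

open Module

variable {F : Type*} [Field F]

/-- `span {u^k P | P ∈ Ps, k < L}` -/
noncomputable def depwMul (Ps : Set (Polynomial F)) (L : ℕ) : Submodule F (Polynomial F) :=
  Submodule.span F {Q | ∃ P ∈ Ps, ∃ k < L, Q = Polynomial.X ^ k * P}

theorem depw_finrank_degreeLT (n : ℕ) : finrank F (Polynomial.degreeLT F n) = n := by
  rw [(Polynomial.degreeLTEquiv F n).finrank_eq, Module.finrank_fin_fun]

instance depw_finite_degreeLT (n : ℕ) : Module.Finite F (Polynomial.degreeLT F n) :=
  Module.Finite.equiv (Polynomial.degreeLTEquiv F n).symm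

theorem depw_mem_degreeLT {b : Polynomial F} (hb : b ≠ 0) (n : ℕ) :
    b ∈ Polynomial.degreeLT F n ↔ b.natDegree < n :=
  Polynomial.mem_degreeLT.trans (Polynomial.natDegree_lt_iff_degree_lt hb).symm

theorem depw_mul_le (Ps : Set (Polynomial F)) (L D : ℕ) (hD : ∀ P ∈ Ps, P.natDegree ≤ D) :
    depwMul Ps L ≤ Polynomial.degreeLT F (D + L) := by
  unfold depwMul
  rw [Submodule.span_le]
  rintro Q ⟨P, hP, k, hk, rfl⟩
  by_cases h0 : Polynomial.X ^ k * P = 0
  · rw [h0]
    exact Submodule.zero_mem _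
  · rw [SetLike.mem_coe, depw_mem_degreeLT h0]
    have h1 := Polynomial.natDegree_mul_le (p := (Polynomial.X : Polynomial F) ^ k) (q := P)
    have h2 := Polynomial.natDegree_X_pow_le (R := F) k
    have h3 := hD P hP
    omega

/-- a polynomial of degree `< L` times an element of `Ps`. -/
theorem depw_mul_mem (Ps : Set (Polynomial F)) (L : ℕ) {P : Polynomial F} (hP : P ∈ Ps)
    {a : Polynomial F} (ha : a ∈ Polynomial.degreeLT F L) : a * P ∈ depwMul Ps L := by
  classical
  have h : (Polynomial.degreeLT F L).map (LinearMap.mulRight F P) ≤ depwMul Ps L := by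
    rw [Polynomial.degreeLT_eq_span_X_pow, Submodule.map_span, Submodule.span_le]
    rintro _ ⟨_, hx, rfl⟩
    simp only [Finset.coe_image, Finset.coe_range, Set.mem_image, Set.mem_Iio] at hx
    obtain ⟨k, hk, rfl⟩ := hx
    exact Submodule.subset_span ⟨P, hP, k, hk, rfl⟩
  exact h ⟨a, ha, rfl⟩

/-- lower bound for the rank: the ideal generated by `Ps` is everything it can be from degree `D + L - 1` on -/
theorem depw_rk_gen (Ps : Set (Polynomial F)) (L D : ℕ) (hD : ∀ P ∈ Ps, P.natDegree ≤ D)
    (P₁ : Polynomial F) (h1 : P₁ ∈ Ps) (h1D : P₁.natDegree = D) (h10 : P₁ ≠ 0) (H : Polynomial F)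
    (hH : Ideal.span Ps = Ideal.span {H}) (hL : D ≤ L) :
    D - H.natDegree + L ≤ finrank F (depwMul Ps L) := by
  have hdvd : ∀ P ∈ Ps, H ∣ P := fun P hP => by
    rw [← Ideal.mem_span_singleton, ← hH]
    exact Ideal.subset_span hP
  obtain ⟨ψ₁, hψ₁⟩ := hdvd P₁ h1
  have hH0 : H ≠ 0 := fun h => h10 (by rw [hψ₁, h, zero_mul])
  have hψ0 : ψ₁ ≠ 0 := fun h => h10 (by rw [hψ₁, h, mul_zero])
  have hdeg : H.natDegree + ψ₁.natDegree = D := by
    rw [← h1D, hψ₁, Polynomial.natDegree_mul hH0 hψ0]
  -- every element of the ideal is `m + b P₁`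
  have key : ∀ Q ∈ Ideal.span Ps, ∀ a : Polynomial F,
      ∃ m ∈ depwMul Ps L, ∃ b : Polynomial F, a * Q = m + b * P₁ := by
    intro Q hQ
    induction hQ using Submodule.span_induction with
    | mem P hP =>
      intro a
      obtain ⟨ψ, hψ⟩ := hdvd P hP
      refine ⟨(a % ψ₁) * P, depw_mul_mem Ps L hP ?_, (a / ψ₁) * ψ, ?_⟩
      · rw [Polynomial.mem_degreeLT]
        refine (Polynomial.degree_mod_lt a hψ0).trans_le ?_
        rw [Polynomial.degree_eq_natDegree hψ0]
        exact_mod_cast (by omega : ψ₁.natDegree ≤ L)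
      · have h2 := EuclideanDomain.div_add_mod a ψ₁
        calc a * P = (ψ₁ * (a / ψ₁) + a % ψ₁) * P := by rw [h2]
          _ = a % ψ₁ * P + a / ψ₁ * ψ * P₁ := by
            rw [hψ₁]
            conv_lhs => rw [hψ]
            conv_rhs => rw [hψ]
            ring
    | zero =>
      intro a
      exact ⟨0, Submodule.zero_mem _, 0, by simp⟩
    | add x y _ _ hx hy =>
      intro a
      obtain ⟨m, hm, b, hb⟩ := hx a
      obtain ⟨m', hm', b', hb'⟩ := hy a
      exact ⟨m + m', Submodule.add_mem _ hm hm', b + b', by rw [mul_add, hb, hb']; ring⟩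
    | smul c x _ hx =>
      intro a
      obtain ⟨m, hm, b, hb⟩ := hx (a * c)
      exact ⟨m, hm, b, by rw [smul_eq_mul, ← mul_assoc, hb]⟩
  have hle := depw_mul_le Ps L D hD
  have claim : (Polynomial.degreeLT F (D - H.natDegree + L)).map (LinearMap.mulLeft F H)
      ≤ depwMul Ps L := by
    rintro _ ⟨R, hR, rfl⟩
    rw [LinearMap.mulLeft_apply]
    have hmem : H * R ∈ Ideal.span Ps := by
      rw [hH]
      exact Ideal.mul_mem_right _ _ (Ideal.mem_span_singleton_self H)
    obtain ⟨m, hm, b, hb⟩ := key _ hmem 1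
    rw [one_mul] at hb
    rw [hb]
    refine Submodule.add_mem _ hm (depw_mul_mem Ps L h1 ?_)
    by_cases hb0 : b = 0
    · rw [hb0]
      exact Submodule.zero_mem _
    have hHR : H * R ∈ Polynomial.degreeLT F (D + L) := by
      by_cases hR0 : R = 0
      · rw [hR0, mul_zero]
        exact Submodule.zero_mem _
      · rw [depw_mem_degreeLT (mul_ne_zero hH0 hR0), Polynomial.natDegree_mul hH0 hR0]
        have := (depw_mem_degreeLT hR0 _).mp hR
        omega
    have hbP : b * P₁ ∈ Polynomial.degreeLT F (D + L) := by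
      have : b * P₁ = H * R - m := by rw [hb]; ring
      rw [this]
      exact Submodule.sub_mem _ hHR (hle hm)
    rw [depw_mem_degreeLT (mul_ne_zero hb0 h10), Polynomial.natDegree_mul hb0 h10] at hbP
    rw [depw_mem_degreeLT hb0]
    omega
  have : Module.Finite F (depwMul Ps L) :=
    Submodule.finiteDimensional_of_le hle
  have hinj : Function.Injective (LinearMap.mulLeft F H) := fun x y hxy =>
    mul_left_cancel₀ hH0 (by simpa using hxy)
  calc D - H.natDegree + L = finrank F (Polynomial.degreeLT F (D - H.natDegree + L)) :=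
        (depw_finrank_degreeLT _).symm
    _ = finrank F ((Polynomial.degreeLT F (D - H.natDegree + L)).map (LinearMap.mulLeft F H)) :=
        (Submodule.equivMapOfInjective _ hinj _).finrank_eq
    _ ≤ finrank F (depwMul Ps L) := Submodule.finrank_mono claim

/-- upper bound for the rank: a common divisor -/
theorem depw_rk_spec (Ps : Set (Polynomial F)) (L D' : ℕ) (hD : ∀ P ∈ Ps, P.natDegree ≤ D')
    (H' : Polynomial F) (hH' : H' ≠ 0) (hdvd : ∀ P ∈ Ps, H' ∣ P) :
    finrank F (depwMul Ps L) ≤ D' + L - H'.natDegree := by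
  have claim : depwMul Ps L
      ≤ (Polynomial.degreeLT F (D' + L - H'.natDegree)).map (LinearMap.mulLeft F H') := by
    unfold depwMul
    rw [Submodule.span_le]
    rintro Q ⟨P, hP, k, hk, rfl⟩
    obtain ⟨S, hS⟩ := hdvd P hP
    refine ⟨Polynomial.X ^ k * S, ?_, ?_⟩
    · by_cases hS0 : S = 0
      · rw [hS0, mul_zero]
        exact Submodule.zero_mem _
      · have hX : (Polynomial.X : Polynomial F) ^ k ≠ 0 := pow_ne_zero _ Polynomial.X_ne_zero
        rw [SetLike.mem_coe, depw_mem_degreeLT (mul_ne_zero hX hS0),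
          Polynomial.natDegree_mul hX hS0, Polynomial.natDegree_X_pow]
        have h1 := hD P hP
        rw [hS, Polynomial.natDegree_mul hH' hS0] at h1
        omega
    · rw [LinearMap.mulLeft_apply, hS]
      ring
  calc finrank F (depwMul Ps L)
      ≤ finrank F ((Polynomial.degreeLT F (D' + L - H'.natDegree)).map (LinearMap.mulLeft F H')) :=
        Submodule.finrank_mono claim
    _ ≤ finrank F (Polynomial.degreeLT F (D' + L - H'.natDegree)) := Submodule.finrank_map_le _ _
    _ = _ := depw_finrank_degreeLT _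

end Claimed.Agent.R273
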