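import Claimed.Agent.R273.DepDefs
import Claimed.Agent.R273.DepWPoly

/-!
# Row 273, depth.tex, package DEP-WAG, part 3: RESTRICTION TO THE LINE THROUGH `y` AND `x`; Ω-POINTS.  Architect helper177.  Prefix `depw`.

`depwPt y x a = y + a (x - y)` (for `x` with coordinates in any `ℂ`-algebra `R`, `a ∈ R`); `depwRes y f = f(y + u (x - y)) ∈ ℂ[x][u]`; `depwAt y f x ∈ R[u]` its specialisation.

* LEAF DEPW-R1 (`depw_at_eval`, `depw_res_natDegree`, `depw_res_coeff_deg`, `depw_at_map`).  Induction on `f` (`MvPolynomial.induction_on`) / `aeval` calculus.  Degrees: `depwRes y` of a monomial of degree `m` is a product of `m` factors of `u`-degree `≤ 1` whose coefficients have `x`-degree `≤ 1`: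
   prove `∀ n, ((depwRes y f).coeff n).totalDegree ≤ f.totalDegree` via the subalgebra-like set `{Q | natDegree Q ≤ m ∧ ∀ n, totalDegree (coeff Q n) ≤ m}` closed under products (degrees add) and sums.
* LEAF DEPW-R2 (`depw_point`): a nontrivial `ℂ`-algebra of finite type has a `ℂ`-point.  Maximal ideal `m`; `R/m` is a field of finite type over `ℂ`, hence finite (`finite_of_finite_type_of_isJacobsonRing`), hence `algebraMap ℂ (R/m)` is bijective (`IsAlgClosed.algebraMap_bijective_of_isIntegral`).  Mathlib only.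
* LEAF DEPW-R3 (`depw_comp_omega`): `ker (aeval z)` is a prime ideal (`Ω` is a domain) containing `span G`; `Ideal.exists_minimalPrimes_le`.
* LEAF DEPW-R4 (`depw_transfer`): the generic root bound holds at the generic point.  Suppose `T` has `q + 1` elements `t_0..t_q`, `𝔮_i` the corresponding primes.  `i₀` with `ζ i₀ ≠ y i₀`.  `R := Algebra.adjoin ℂ (range ζ ∪ T ∪ {inverses of t_i - t_j (i ≠ j), t_i - 1, aeval ζ h, ζ i₀ - y i₀})`: finite type, a domain.
   `φ : R → ℂ` from `depw_point`; `x := φ ∘ ζ ∈ Z(𝔭)` (`f ∈ 𝔭 ⇒ aeval ζ f = 0`), `eval x h ≠ 0`, `x ≠ y`, `τ_i := φ t_i` pairwise distinct, `≠ 1`; `depwPt y x τ_i ∈ Z(𝔮_i)` (apply `φ` to `aeval (depwPt y ζ t_i) f = 0`; `φ (aeval z f) = eval (φ ∘ z) f`).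
   The `q + 1` points `depwPt y x τ_i` are distinct (`x ≠ y`), `≠ x`, on the line: they lie in `depRoots x y U` (`z - x = (1 - τ)(y - x)`): contradiction with `ncard ≤ q`.
-/

set_option autoImplicit false

namespace Claimed.Agent.R273

open MvPolynomial Module

variable {d : ℕ}

/-- the point `y + a (x - y)` -/
def depwPt {R : Type*} [CommRing R] [Algebra ℂ R] (y : SpC d) (x : Fin d → R) (a : R) : Fin d → R :=
  fun i => algebraMap ℂ R (y i) + a * (x i - algebraMap ℂ R (y i))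

/-- `f(y + u (x - y))` as a polynomial in `u` over `ℂ[x]` -/
noncomputable def depwRes (y : SpC d) (f : PrfPol d) : Polynomial (PrfPol d) :=
  aeval (fun i => Polynomial.C (C (y i)) + Polynomial.X * Polynomial.C (X i - C (y i))) f

/-- its specialisation at `x ∈ R^d` -/
noncomputable def depwAt {R : Type*} [CommRing R] [Algebra ℂ R] (y : SpC d) (f : PrfPol d)
    (x : Fin d → R) : Polynomial R :=
  (depwRes y f).map (aeval x : PrfPol d →ₐ[ℂ] R).toRingHom

/-- the restricted system at `x` -/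
noncomputable def depwSys {R : Type*} [CommRing R] [Algebra ℂ R] (y : SpC d) (G : Set (PrfPol d))
    (x : Fin d → R) : Set (Polynomial R) := (fun f => depwAt y f x) '' G

/-- the linear form `y_i + u (x_i - y_i)` -/
noncomputable def depwLin (y : SpC d) (i : Fin d) : Polynomial (PrfPol d) :=
  Polynomial.C (C (y i)) + Polynomial.X * Polynomial.C (X i - C (y i))

theorem depw_res_C (y : SpC d) (c : ℂ) : depwRes y (C c) = Polynomial.C (C c) := by
  unfold depwRes
  rw [aeval_C]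
  rfl

theorem depw_res_X (y : SpC d) (i : Fin d) : depwRes y (X i) = depwLin y i := by
  unfold depwRes depwLin
  rw [aeval_X]

theorem depw_res_add (y : SpC d) (f g : PrfPol d) :
    depwRes y (f + g) = depwRes y f + depwRes y g := by
  unfold depwRes
  rw [map_add]

theorem depw_res_mul (y : SpC d) (f g : PrfPol d) :
    depwRes y (f * g) = depwRes y f * depwRes y g := by
  unfold depwRes
  rw [map_mul]

theorem depw_at_eval {R : Type*} [CommRing R] [Algebra ℂ R] (y : SpC d) (f : PrfPol d)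
    (x : Fin d → R) (a : R) : (depwAt y f x).eval a = aeval (depwPt y x a) f := by
  unfold depwAt
  induction f using MvPolynomial.induction_on with
  | C c => simp [depw_res_C]
  | add f g hf hg => rw [depw_res_add, Polynomial.map_add, Polynomial.eval_add, hf, hg, map_add]
  | mul_X f i hf =>
    rw [depw_res_mul, Polynomial.map_mul, Polynomial.eval_mul, hf, map_mul, depw_res_X]
    congr 1
    simp [depwLin, depwPt]

/-- bidegree `≤ k` -/
def DepwGood (k : ℕ) (Q : Polynomial (PrfPol d)) : Prop :=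
  Q.natDegree ≤ k ∧ ∀ n, (Q.coeff n).totalDegree ≤ k

theorem DepwGood.mono {k l : ℕ} {Q : Polynomial (PrfPol d)} (h : DepwGood k Q) (hkl : k ≤ l) :
    DepwGood l Q := ⟨h.1.trans hkl, fun n => (h.2 n).trans hkl⟩

theorem DepwGood.mul {k l : ℕ} {Q Q' : Polynomial (PrfPol d)} (h : DepwGood k Q)
    (h' : DepwGood l Q') : DepwGood (k + l) (Q * Q') := by
  refine ⟨Polynomial.natDegree_mul_le.trans (add_le_add h.1 h'.1), fun n => ?_⟩
  rw [Polynomial.coeff_mul]
  refine totalDegree_finsetSum_le fun i _ => ?_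
  exact (totalDegree_mul _ _).trans (add_le_add (h.2 _) (h'.2 _))

theorem DepwGood.sum {ι : Type*} {k : ℕ} (s : Finset ι) {Q : ι → Polynomial (PrfPol d)}
    (h : ∀ i ∈ s, DepwGood k (Q i)) : DepwGood k (∑ i ∈ s, Q i) := by
  refine ⟨Polynomial.natDegree_sum_le_of_forall_le _ _ fun i hi => (h i hi).1, fun n => ?_⟩
  rw [Polynomial.finsetSum_coeff]
  exact totalDegree_finsetSum_le fun i hi => (h i hi).2 n

theorem depw_good_one : DepwGood (d := d) 0 1 := by
  refine ⟨by simp, fun n => ?_⟩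
  rw [Polynomial.coeff_one]
  split_ifs <;> simp

theorem depw_good_C (c : ℂ) : DepwGood (d := d) 0 (Polynomial.C (C c)) := by
  refine ⟨by simp, fun n => ?_⟩
  rw [Polynomial.coeff_C]
  split_ifs <;> simp

theorem depw_good_lin (y : SpC d) (i : Fin d) : DepwGood 1 (depwLin y i) := by
  unfold depwLin
  refine ⟨?_, fun n => ?_⟩
  · refine (Polynomial.natDegree_add_le _ _).trans (max_le (by simp) ?_)
    refine Polynomial.natDegree_mul_le.trans ?_
    simp
  · have h1 : (X i - C (y i) : PrfPol d).totalDegree ≤ 1 := by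
      refine (totalDegree_sub _ _).trans (max_le ?_ (by simp))
      exact (totalDegree_X_pow (R := ℂ) i 1 ▸ by simp : (X i : PrfPol d).totalDegree ≤ 1)
    rw [Polynomial.coeff_add, Polynomial.coeff_C]
    refine (totalDegree_add _ _).trans (max_le ?_ ?_)
    · split_ifs <;> simp
    · rcases n with _ | n
      · simp
      · rw [Polynomial.coeff_X_mul, Polynomial.coeff_C]
        split_ifs
        · exact h1
        · simp

theorem depw_good_pow {k : ℕ} {Q : Polynomial (PrfPol d)} (h : DepwGood k Q) (n : ℕ) :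
    DepwGood (n * k) (Q ^ n) := by
  induction n with
  | zero => simpa using depw_good_one
  | succ n ih =>
    rw [pow_succ, Nat.succ_mul]
    exact ih.mul h

theorem depw_good_prod (y : SpC d) (m : Fin d →₀ ℕ) (s : Finset (Fin d)) :
    DepwGood (∑ i ∈ s, m i) (∏ i ∈ s, depwLin y i ^ m i) := by
  induction s using Finset.induction_on with
  | empty => simpa using depw_good_one
  | insert a s ha ih =>
    rw [Finset.prod_insert ha, Finset.sum_insert ha]
    have := depw_good_pow (depw_good_lin y a) (m a)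
    rw [mul_one] at this
    exact this.mul ih

theorem depw_good_res (y : SpC d) (f : PrfPol d) : DepwGood f.totalDegree (depwRes y f) := by
  have h1 : depwRes y f = ∑ m ∈ f.support, Polynomial.C (C (coeff m f))
      * ∏ i, depwLin y i ^ m i := by
    unfold depwRes
    rw [aeval_def, eval₂_eq']
    rfl
  rw [h1]
  refine DepwGood.sum _ fun m hm => ?_
  have h2 := (depw_good_C (d := d) (coeff m f)).mul (depw_good_prod y m Finset.univ)
  refine h2.mono ?_
  rw [zero_add]
  have h3 := le_totalDegree hm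
  rwa [Finsupp.sum_fintype _ _ (fun _ => rfl)] at h3

theorem depw_res_natDegree (y : SpC d) (f : PrfPol d) :
    (depwRes y f).natDegree ≤ f.totalDegree := (depw_good_res y f).1

theorem depw_res_coeff_deg (y : SpC d) (f : PrfPol d) (n : ℕ) :
    ((depwRes y f).coeff n).totalDegree ≤ f.totalDegree := (depw_good_res y f).2 n

/-- compatibility with `ℂ`-algebra homomorphisms -/
theorem depw_at_map {R R' : Type*} [CommRing R] [Algebra ℂ R] [CommRing R'] [Algebra ℂ R']
    (φ : R →ₐ[ℂ] R') (y : SpC d) (f : PrfPol d) (x : Fin d → R) :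
    (depwAt y f x).map φ.toRingHom = depwAt y f (fun i => φ (x i)) := by
  unfold depwAt
  rw [Polynomial.map_map]
  congr 1
  have := comp_aeval x φ
  rw [← this]
  rfl

theorem depw_point {R : Type*} [CommRing R] [Algebra ℂ R] [Algebra.FiniteType ℂ R] [Nontrivial R] :
    Nonempty (R →ₐ[ℂ] ℂ) := by
  obtain ⟨m, hm⟩ := Ideal.exists_maximal R
  let _ : Field (R ⧸ m) := Ideal.Quotient.field m
  have : Algebra.FiniteType ℂ (R ⧸ m) :=
    Algebra.FiniteType.of_surjective (Ideal.Quotient.mkₐ ℂ m) (Ideal.Quotient.mkₐ_surjective ℂ m)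
  have : Module.Finite ℂ (R ⧸ m) := finite_of_finite_type_of_isJacobsonRing ℂ (R ⧸ m)
  have hb : Function.Bijective (algebraMap ℂ (R ⧸ m)) :=
    IsAlgClosed.algebraMap_bijective_of_isIntegral
  let e : ℂ ≃ₐ[ℂ] (R ⧸ m) := AlgEquiv.ofBijective (Algebra.ofId ℂ (R ⧸ m)) hb
  exact ⟨e.symm.toAlgHom.comp (Ideal.Quotient.mkₐ ℂ m)⟩

theorem depw_comp_omega {Ω : Type*} [Field Ω] [Algebra ℂ Ω] (G : Set (PrfPol d)) (z : Fin d → Ω)
    (hz : ∀ f ∈ G, aeval z f = 0) :
    ∃ 𝔮 ∈ (Ideal.span G).minimalPrimes, ∀ f ∈ 𝔮, aeval z f = 0 := by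
  have : (RingHom.ker (aeval z : PrfPol d →ₐ[ℂ] Ω).toRingHom).IsPrime := RingHom.ker_isPrime _
  have hle : Ideal.span G ≤ RingHom.ker (aeval z : PrfPol d →ₐ[ℂ] Ω).toRingHom := by
    rw [Ideal.span_le]
    intro f hf
    exact hz f hf
  obtain ⟨𝔮, h𝔮, hle'⟩ := Ideal.exists_minimalPrimes_le hle
  exact ⟨𝔮, h𝔮, fun f hf => hle' hf⟩

/-- an element with an inverse is not killed by a homomorphism to `ℂ`. -/
theorem depw_phi_ne {R : Type*} [CommRing R] [Algebra ℂ R] (φ : R →ₐ[ℂ] ℂ) {r s : R}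
    (h : r * s = 1) : φ r ≠ 0 := by
  intro h0
  have := congrArg φ h
  rw [map_mul, h0, zero_mul, map_one] at this
  exact zero_ne_one this

theorem depw_pt_map {R R' : Type*} [CommRing R] [Algebra ℂ R] [CommRing R'] [Algebra ℂ R']
    (φ : R →ₐ[ℂ] R') (y : SpC d) (x : Fin d → R) (a : R) :
    (fun i => φ (depwPt y x a i)) = depwPt y (fun i => φ (x i)) (φ a) := by
  funext i
  simp [depwPt]

theorem depw_transfer {Ω : Type*} [Field Ω] [Algebra ℂ Ω] (𝔭 : Ideal (PrfPol d)) (ζ : Fin d → Ω)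
    (hζ : IsGenPt 𝔭 ζ) (y : SpC d) (hy : ∃ x ∈ zeroLocus ℂ 𝔭, x ≠ y)
    (𝒬 : Finset (Ideal (PrfPol d))) (q : ℕ) (h : PrfPol d) (hh : h ∉ 𝔭)
    (hq : ∀ x ∈ zeroLocus ℂ 𝔭, eval x h ≠ 0 →
      (depRoots x y (⋃ 𝔮 ∈ 𝒬, zeroLocus ℂ 𝔮)).Finite ∧
        (depRoots x y (⋃ 𝔮 ∈ 𝒬, zeroLocus ℂ 𝔮)).ncard ≤ q)
    (T : Finset Ω)
    (hT : ∀ t ∈ T, t ≠ 1 ∧ ∃ 𝔮 ∈ 𝒬, ∀ f ∈ 𝔮, aeval (depwPt y ζ t) f = 0) : T.card ≤ q := by
  classical
  -- a coordinate in which `ζ` differs from `y`
  obtain ⟨i₀, hi₀⟩ : ∃ i₀, ζ i₀ - algebraMap ℂ Ω (y i₀) ≠ 0 := by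
    by_contra hcon
    simp only [not_exists, not_not] at hcon
    obtain ⟨x, hx, hxy⟩ := hy
    apply hxy
    funext i
    have h1 : (X i - C (y i) : PrfPol d) ∈ 𝔭 := (hζ _).mp (by simpa using hcon i)
    have h2 := (mem_zeroLocus_iff.mp hx) _ h1
    simpa [sub_eq_zero] using h2
  have hh0 : aeval ζ h ≠ 0 := fun h0 => hh ((hζ h).mp h0)
  -- the finitely generated algebra
  set S : Finset Ω := Finset.univ.image ζ ∪ T ∪ (T ×ˢ T).image (fun p => (p.1 - p.2)⁻¹)
    ∪ T.image (fun t => (t - 1)⁻¹) ∪ {(aeval ζ h)⁻¹, (ζ i₀ - algebraMap ℂ Ω (y i₀))⁻¹} with hS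
  set A : Subalgebra ℂ Ω := Algebra.adjoin ℂ (S : Set Ω) with hA
  have hft : Algebra.FiniteType ℂ A := (Subalgebra.fg_iff_finiteType A).mp (Subalgebra.fg_adjoin_finset S)
  obtain ⟨φ⟩ := depw_point (R := A)
  have hmem : ∀ s ∈ S, s ∈ A := fun s hs => Algebra.subset_adjoin (Finset.mem_coe.mpr hs)
  have hζA : ∀ i, ζ i ∈ A := fun i => hmem _ (by simp [hS])
  have hTA : ∀ t ∈ T, t ∈ A := fun t ht => hmem _ (by simp [hS, ht])
  have hdA : ∀ t ∈ T, ∀ t' ∈ T, (t - t')⁻¹ ∈ A := fun t ht t' ht' => hmem _ (by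
    simp only [hS, Finset.mem_union, Finset.mem_image, Finset.mem_product]
    exact Or.inl (Or.inl (Or.inr ⟨(t, t'), ⟨ht, ht'⟩, rfl⟩)))
  have h1A : ∀ t ∈ T, (t - 1)⁻¹ ∈ A := fun t ht => hmem _ (by
    simp only [hS, Finset.mem_union, Finset.mem_image]
    exact Or.inl (Or.inr ⟨t, ht, rfl⟩))
  have hhA : (aeval ζ h)⁻¹ ∈ A := hmem _ (by simp [hS])
  have hiA : (ζ i₀ - algebraMap ℂ Ω (y i₀))⁻¹ ∈ A := hmem _ (by simp [hS])
  set ζ' : Fin d → A := fun i => ⟨ζ i, hζA i⟩ with hζ'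
  set x : SpC d := fun i => φ (ζ' i) with hx
  have hval : ∀ (z : Fin d → A) (f : PrfPol d), ((aeval z f : A) : Ω) = aeval (fun i => (z i : Ω)) f := by
    intro z f
    exact congrArg (fun ψ => ψ f) (comp_aeval z A.val)
  have hphi : ∀ (z : Fin d → A) (f : PrfPol d), φ (aeval z f) = aeval (fun i => φ (z i)) f := by
    intro z f
    have := congrArg (fun ψ => ψ f) (comp_aeval z φ)
    simpa using this
  have hxp : x ∈ zeroLocus ℂ 𝔭 := by
    rw [mem_zeroLocus_iff]
    intro f hf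
    have h1 : aeval ζ' f = 0 := by
      apply Subtype.ext
      rw [hval]
      exact (hζ f).mpr hf
    rw [hx, ← hphi, h1, map_zero]
  have hxh : eval x h ≠ 0 := by
    have h1 : aeval ζ' h * ⟨(aeval ζ h)⁻¹, hhA⟩ = 1 := by
      apply Subtype.ext
      rw [Subalgebra.coe_mul, hval]
      exact mul_inv_cancel₀ hh0
    have h2 := depw_phi_ne φ h1
    rw [hphi] at h2
    simpa [aeval_eq_eval] using h2
  have hxy : x i₀ - y i₀ ≠ 0 := by
    have h1 : (ζ' i₀ - algebraMap ℂ A (y i₀)) * ⟨_, hiA⟩ = 1 := by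
      apply Subtype.ext
      exact mul_inv_cancel₀ hi₀
    have h2 := depw_phi_ne φ h1
    simpa [hx] using h2
  obtain ⟨hfin, hcard⟩ := hq x hxp hxh
  -- the specialised parameters
  set τ : Ω → ℂ := fun t => if ht : t ∈ A then φ ⟨t, ht⟩ else 0 with hτ
  have hτT : ∀ t (ht : t ∈ T), τ t = φ ⟨t, hTA t ht⟩ := fun t ht => by
    simp only [hτ, dif_pos (hTA t ht)]
  have hτ1 : ∀ t ∈ T, τ t ≠ 1 := by
    intro t ht
    have h1 : ((⟨t, hTA t ht⟩ : A) - 1) * ⟨_, h1A t ht⟩ = 1 := by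
      apply Subtype.ext
      exact mul_inv_cancel₀ (sub_ne_zero.mpr (hT t ht).1)
    have h2 := depw_phi_ne φ h1
    rw [map_sub, map_one, ← hτT t ht] at h2
    exact sub_ne_zero.mp h2
  have hτinj : ∀ t ∈ T, ∀ t' ∈ T, τ t = τ t' → t = t' := by
    intro t ht t' ht' he
    by_contra hne
    have h1 : ((⟨t, hTA t ht⟩ : A) - ⟨t', hTA t' ht'⟩) * ⟨_, hdA t ht t' ht'⟩ = 1 := by
      apply Subtype.ext
      exact mul_inv_cancel₀ (sub_ne_zero.mpr hne)
    have h2 := depw_phi_ne φ h1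
    rw [map_sub, ← hτT t ht, ← hτT t' ht', he, sub_self] at h2
    exact h2 rfl
  have hsub : ((T.image fun t => depwPt y x (τ t) : Finset (SpC d)) : Set (SpC d))
      ⊆ depRoots x y (⋃ 𝔮 ∈ 𝒬, zeroLocus ℂ 𝔮) := by
    intro z hz
    rw [Finset.mem_coe, Finset.mem_image] at hz
    obtain ⟨t, ht, rfl⟩ := hz
    obtain ⟨_, 𝔮, h𝔮, hf⟩ := hT t ht
    refine ⟨?_, ?_, 1 - τ t, ?_⟩
    · simp only [Set.mem_iUnion]
      refine ⟨𝔮, h𝔮, ?_⟩
      rw [mem_zeroLocus_iff]
      intro f hfq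
      have h1 : aeval (depwPt y ζ' ⟨t, hTA t ht⟩) f = 0 := by
        apply Subtype.ext
        rw [hval]
        have h2 : (fun i => ((depwPt y ζ' ⟨t, hTA t ht⟩ i : A) : Ω)) = depwPt y ζ t :=
          depw_pt_map A.val y ζ' ⟨t, hTA t ht⟩
        rw [h2]
        exact hf f hfq
      have h3 := congrArg φ h1
      rw [hphi, map_zero, depw_pt_map φ y ζ' ⟨t, hTA t ht⟩, ← hτT t ht] at h3
      exact h3
    · intro he
      have h1 := congrFun he i₀
      simp only [depwPt, Algebra.algebraMap_self, RingHom.id_apply] at h1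
      have h2 : (τ t - 1) * (x i₀ - y i₀) = 0 := by linear_combination h1
      rcases mul_eq_zero.mp h2 with h3 | h3
      · exact hτ1 t ht (sub_eq_zero.mp h3)
      · exact hxy h3
    · funext i
      simp only [depwPt, Algebra.algebraMap_self, RingHom.id_apply, Pi.sub_apply, Pi.smul_apply,
        smul_eq_mul]
      ring
  have hinj : Set.InjOn (fun t => depwPt y x (τ t)) (T : Set Ω) := by
    intro t ht t' ht' he
    apply hτinj t ht t' ht'
    have h1 := congrFun he i₀
    simp only [depwPt, Algebra.algebraMap_self, RingHom.id_apply] at h1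
    have h2 : (τ t - τ t') * (x i₀ - y i₀) = 0 := by linear_combination h1
    rcases mul_eq_zero.mp h2 with h3 | h3
    · exact sub_eq_zero.mp h3
    · exact absurd h3 hxy
  calc T.card = (T.image fun t => depwPt y x (τ t)).card := (Finset.card_image_of_injOn hinj).symm
    _ = ((T.image fun t => depwPt y x (τ t) : Finset (SpC d)) : Set (SpC d)).ncard :=
        (Set.ncard_coe_finset _).symm
    _ ≤ (depRoots x y (⋃ 𝔮 ∈ 𝒬, zeroLocus ℂ 𝔮)).ncard := Set.ncard_le_ncard hsub hfin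
    _ ≤ q := hcard

end Claimed.Agent.R273
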