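import Claimed.Agent.R273.DepAG
import Claimed.Agent.R273.DepWRes
import Claimed.Agent.R273.GeoGen

/-!
# Row 273, depth.tex, package DEP-WAG, part 5: THE CHOICE OF THE GENERAL TARGET POINT `y` (depth.tex l.283-312).  Architect helper177.  Prefix `depw`.

`U := ⋃ 𝒴`.  All conditions on `y ∈ Y` have the form `h_i(y) ≠ 0` with `h_i` not vanishing identically on `Y`; finitely many of them can be satisfied simultaneously (`ph_isVar_mul`: the product does not vanish identically on the irreducible `Y`).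

* LEAF DEPW-G1 (`depw_avoid`): a closed set `T` of dimension `< l` is not met by the general ray from `p` to `Y`.  `vdim (dcone p T) ≤ vdim T + 1 < l + 1` for ARBITRARY `T`: `hA (spCone p T) D ≤ hA (prodSet T univ) (2 D)` (pull back by `(z, λ) ↦ λ (z - p)`, degree `2`: `rk_totalDegree_aeval_le`-type lemma), `ph_prod_hA`;
   so `dcone p Y ⊄ dcone p T` (`ph_vdim_mono`): there is `F` vanishing on `spCone p T`, not on `spCone p Y`; a homogeneous component `F_k` has the same properties (`dep_dcone_hom`); `h := F_k(· - p)`.  If `z ∈ depRoots p y T`, `z - p = c (y - p)`, `c ≠ 0` (`z ≠ p`), then `F_k(y - p) = c^{-k} F_k(z - p) = 0`.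
* LEAF DEPW-G2 (`depw_choose`).  Conditions:
   (a) `(x₀, y₀)` the witness of `DepRootLE₂` for `H`: `h₁(y) := H(x₀, y)`; then `h := H(·, y)` works.
   (b) `(x₁, y₁, f̃)` the witness of non-tangency: `h₂(y) := dAt f̃ y (y - x₁)` (a polynomial in `y`); for every component `W ≠ Y` of `Zl G` (`ph_comps_finite`) a polynomial `h_W` vanishing on `W`, not on `Y` (`ph_comp_not_subset`, `W` closed).
       If all `f ∈ G` vanished on the line through `x₁` and `y`, the line (irreducible: image of `ℂ`, `ph_isVar_zcl_image`; closed) would lie in a component `W ∋ y` (`ph_isVar_subset_comp`), `W = Y`, so `f̃` vanishes on it and `dAt f̃ y (x₁ - y) = 0`.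
   (c) for `p ∈ S`: `h_p` and `t_p` from `dep_genfib` (`𝒴`, `Y`); `¬ DepRootLE p Y U r` forces `r < t_p`.  For `Y' ∈ 𝒴` and every component `W ≠ Y'` of `Zl G`: `T := Y' ∩ W`, `vdim T < l` (`ph_vdim_lt_of_ssubset`), `depw_avoid`.  `y ≠ p`: `Y ≠ {p}` because `l ≥ 1` (`ph_point`).
       `A` := the parameters `a = 1 - c` of the points `z = p + c (y - p) ∈ depRoots p y U`; `z = depwPt y p a`, `a ≠ 1` since `z ≠ p`... CARE: `z = p + c (y - p) = y + (1 - c)(p - y)`; `z ≠ p ⇔ c ≠ 0 ⇔ a ≠ 1`.  `a ↦ depwPt y p a` is injective (`p ≠ y`), so `|A| = t_p`.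
       If `z ∈ Y' ∈ 𝒴` and `z ∈ W`, `W` a component, `W ≠ Y'`, then `z ∈ depRoots p y (Y' ∩ W) = ∅`.  So `W = Y' ∈ 𝒴`.
-/

set_option autoImplicit false

namespace Claimed.Agent.R273

open MvPolynomial Module

variable {d : ℕ}

theorem depw_avoid (p : SpC d) (l : ℕ) (Y : Set (SpC d)) (hY : IsVar Y)
    (hZ : vdim (dcone p Y) = l + 1) (T : Set (SpC d)) (hT : vdim T < l) :
    ∃ h : PrfPol d, (∃ y ∈ Y, eval y h ≠ 0) ∧ ∀ y ∈ Y, eval y h ≠ 0 → depRoots p y T = ∅ := by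
  have h1 : ¬ spCone p Y ⊆ dcone p T := by
    intro hsub
    have h2 : dcone p Y ⊆ dcone p T := by
      intro w hw
      unfold dcone at hw hsub ⊢
      rw [ph_mem_zcl] at hw ⊢
      intro f hf
      exact hw f fun y hy => (ph_mem_zcl _ _).1 (hsub hy) f hf
    have h3 := ph_vdim_mono h2
    have h4 := depw_vdim_dcone_le p T
    omega
  rw [Set.not_subset] at h1
  obtain ⟨_, ⟨y₀, hy₀, lam, rfl⟩, hw⟩ := h1
  unfold dcone at hw
  rw [ph_mem_zcl] at hw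
  push Not at hw
  obtain ⟨F, hF, hFw⟩ := hw
  refine ⟨aeval (fun i => C lam * (X i - C (p i)) : Fin d → PrfPol d) F, ⟨y₀, hy₀, ?_⟩, ?_⟩
  · rwa [dep_eval_scale]
  · intro y _ hy
    rw [dep_eval_scale] at hy
    rw [Set.eq_empty_iff_forall_notMem]
    rintro z ⟨hzT, hzp, c, hc⟩
    apply hy
    have hc0 : c ≠ 0 := by
      rintro rfl
      rw [zero_smul, sub_eq_zero] at hc
      exact hzp hc
    apply hF
    refine ⟨z, hzT, lam * c⁻¹, ?_⟩
    rw [hc, smul_smul, mul_assoc, inv_mul_cancel₀ hc0, mul_one]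

/-- a polynomial vanishing on a line has zero derivative along it -/
theorem depw_line_deriv (f : PrfPol d) (y v : SpC d) (h : ∀ a : ℂ, eval (y + a • v) f = 0) :
    dAt f y v = 0 := by
  let s : Fin d → MvPolynomial (Fin 1) ℂ := fun i => C (y i) + X 0 * C (v i)
  have hg : aeval s f = 0 := by
    apply MvPolynomial.funext
    intro z
    rw [← ph_eval_pmap, map_zero, ← h (z 0)]
    congr 2
    funext i
    simp [pmap, s]
  have h1 := ph_dAt_aeval s f (0 : Fin 1 → ℂ) (fun _ => (1 : ℂ))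
  rw [hg] at h1
  have h2 : dAt (0 : MvPolynomial (Fin 1) ℂ) (0 : Fin 1 → ℂ) (fun _ => (1 : ℂ)) = 0 := by
    simp [dAt]
  rw [h2] at h1
  rw [h1]
  congr 1
  · funext j
    simp [s]
  · funext j
    simp only [s]
    rw [ph_dAt_add, ph_dAt_C, ph_dAt_mul, ph_dAt_C, ph_dAt_X]
    simp

theorem depw_gen_notMem {Y W : Set (SpC d)} (hW : IsVar W) (h : ¬ Y ⊆ W) :
    GenOn Y fun y => y ∉ W := by
  rw [Set.not_subset] at h
  obtain ⟨y₀, hy₀, hyW⟩ := h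
  rw [← ph_zcl_of_isVar hW, ph_mem_zcl] at hyW
  push Not at hyW
  obtain ⟨f, hf, hfy⟩ := hyW
  exact ⟨f, ⟨y₀, hy₀, hfy⟩, fun y _ hy hyW => hy (hf y hyW)⟩

theorem depw_pt_eq (y x : SpC d) (a : ℂ) : depwPt y x a = y + a • (x - y) := by
  funext i
  simp [depwPt]

theorem depw_roots_eq (p y : SpC d) (hpy : p ≠ y) (U : Set (SpC d)) :
    depRoots p y U = depwPt y p '' {a : ℂ | a ≠ 1 ∧ depwPt y p a ∈ U} := by
  ext z
  constructor
  · rintro ⟨hzU, hzp, c, hc⟩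
    have hz : depwPt y p (1 - c) = z := by
      rw [depw_pt_eq]
      have : z = p + c • (y - p) := by rw [← hc]; abel
      rw [this]
      module
    refine ⟨1 - c, ⟨?_, by rwa [hz]⟩, hz⟩
    intro h1
    have hc0 : c = 0 := by linear_combination -h1
    rw [hc0, zero_smul, sub_eq_zero] at hc
    exact hzp hc
  · rintro ⟨a, ⟨ha, haU⟩, rfl⟩
    have h1 : depwPt y p a - p = (1 - a) • (y - p) := by
      rw [depw_pt_eq]; module
    refine ⟨haU, ?_, 1 - a, h1⟩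
    intro h2
    rw [h2, sub_self] at h1
    rcases smul_eq_zero.1 h1.symm with h3 | h3
    · exact ha (by linear_combination -h3)
    · exact hpy (sub_eq_zero.1 h3).symm

theorem depw_pt_inj (p y : SpC d) (hpy : p ≠ y) : Function.Injective (depwPt y p) := by
  intro a b hab
  rw [depw_pt_eq, depw_pt_eq] at hab
  have h1 : (a - b) • (p - y) = 0 := by
    rw [sub_smul, sub_eq_zero]; exact add_left_cancel hab
  rcases smul_eq_zero.1 h1 with h | h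
  · exact sub_eq_zero.1 h
  · exact absurd (sub_eq_zero.1 h) hpy


theorem depw_gen_a (X Y U : Set (SpC d)) (q : ℕ) (hq : DepRootLE₂ X Y U q) :
    GenOn Y fun y => ∃ h : PrfPol d, (∃ x ∈ X, eval x h ≠ 0) ∧ ∀ x ∈ X, eval x h ≠ 0 →
        (depRoots x y U).Finite ∧ (depRoots x y U).ncard ≤ q := by
  obtain ⟨H, ⟨x₀, hx₀, y₀, hy₀, hne⟩, hH⟩ := hq
  have e1 : ∀ x y : SpC d, eval y (aeval (Sum.elim (fun i => C (x i)) MvPolynomial.X :
      Fin d ⊕ Fin d → PrfPol d) H) = eval (Sum.elim x y) H := by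
    intro x y
    rw [← ph_eval_pmap]
    congr 2
    funext i
    rcases i with i | i <;> simp [pmap]
  have e2 : ∀ x y : SpC d, eval x (aeval (Sum.elim MvPolynomial.X (fun i => C (y i)) :
      Fin d ⊕ Fin d → PrfPol d) H) = eval (Sum.elim x y) H := by
    intro x y
    rw [← ph_eval_pmap]
    congr 2
    funext i
    rcases i with i | i <;> simp [pmap]
  refine ⟨aeval (Sum.elim (fun i => C (x₀ i)) MvPolynomial.X : Fin d ⊕ Fin d → PrfPol d) H,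
    ⟨y₀, hy₀, by rwa [e1]⟩, fun y hy hne' => ?_⟩
  rw [e1] at hne'
  exact ⟨aeval (Sum.elim MvPolynomial.X (fun i => C (y i)) : Fin d ⊕ Fin d → PrfPol d) H,
    ⟨x₀, hx₀, by rwa [e2]⟩, fun x hx hx' => hH x hx y hy (by rwa [e2] at hx')⟩

theorem depw_gen_b (G : Set (PrfPol d)) (Y : Set (SpC d)) (hY : IsCompOf Y G) (x₁ : SpC d)
    (htan : ∃ y ∈ Y, ∃ f : PrfPol d, (∀ z ∈ Y, eval z f = 0) ∧ dAt f y (y - x₁) ≠ 0) :
    GenOn Y fun y => ∃ f ∈ G, ∃ a : ℂ, eval (depwPt y x₁ a) f ≠ 0 := by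
  classical
  obtain ⟨y₁, hy₁, f, hf, hd⟩ := htan
  have hYv := ph_isCompOf_isVar hY
  have g1 : GenOn Y fun y => dAt f y (y - x₁) ≠ 0 := by
    have e : ∀ y : SpC d, eval y (∑ i, pderiv i f * (X i - C (x₁ i))) = dAt f y (y - x₁) := by
      intro y
      simp [dAt, aeval_eq_eval]
    exact ⟨∑ i, pderiv i f * (X i - C (x₁ i)), ⟨y₁, hy₁, by rwa [e]⟩,
      fun y _ hy => by rwa [e] at hy⟩
  have g2 : GenOn Y fun y => ∀ W ∈ (ph_comps_finite G).toFinset.filter (· ≠ Y), y ∉ W := by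
    apply geo_gen_finset hYv
    intro W hW
    rw [Finset.mem_filter, Set.Finite.mem_toFinset] at hW
    exact depw_gen_notMem (ph_isCompOf_isVar hW.1)
      fun hsub => hW.2 (ph_comp_not_subset hY hW.1 hsub).symm
  refine geo_gen_mono (geo_gen_and hYv g1 g2) ?_
  rintro y hy ⟨hy1, hy2⟩
  by_contra hall
  push Not at hall
  let s : Fin d → MvPolynomial (Fin 1) ℂ := fun i => C (y i) + X 0 * C (x₁ i - y i)
  have hs : ∀ z : Fin 1 → ℂ, pmap s z = depwPt y x₁ (z 0) := by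
    intro z
    funext i
    simp [pmap, s, depwPt]
  have hΛ : IsVar (zcl (pmap s '' (Set.univ : Set (Fin 1 → ℂ)))) := ph_isVar_zcl_image ph_univ.1 s
  have hsub : zcl (pmap s '' (Set.univ : Set (Fin 1 → ℂ))) ⊆ Zl G := by
    rw [ph_zcl_subset_iff]
    rintro _ ⟨z, -, rfl⟩ g hg
    rw [hs]
    exact hall g hg _
  obtain ⟨W, hW, hΛW⟩ := ph_isVar_subset_comp hΛ hsub
  have hmem : ∀ a : ℂ, depwPt y x₁ a ∈ W := fun a =>
    hΛW (ph_subset_zcl _ ⟨fun _ => a, Set.mem_univ _, hs _⟩)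
  have hWY : W = Y := by
    by_contra hne
    refine hy2 W (by rw [Finset.mem_filter, Set.Finite.mem_toFinset]; exact ⟨hW, hne⟩) ?_
    have := hmem 0
    rwa [depw_pt_eq, zero_smul, add_zero] at this
  have h0 := depw_line_deriv f y (x₁ - y) (fun a => by
    rw [← depw_pt_eq]
    exact hf _ (hWY ▸ hmem a))
  apply hy1
  rw [← neg_sub x₁ y]
  simp only [dAt, Pi.neg_apply, mul_neg, Finset.sum_neg_distrib, neg_eq_zero]
  exact h0

theorem depw_gen_c (G : Set (PrfPol d)) (l : ℕ) (𝒴 : Finset (Set (SpC d))) (hl : 1 ≤ l)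
    (h𝒴 : ∀ Y ∈ 𝒴, IsCompOf Y G ∧ vdim Y = l) (Y : Set (SpC d)) (hY : Y ∈ 𝒴) (r : ℕ) (p : SpC d)
    (hZ : vdim (dcone p Y) = l + 1) (hr : ¬ DepRootLE p Y (⋃ Y' ∈ 𝒴, Y') r) :
    GenOn Y fun y => p ≠ y ∧ ∃ A : Finset ℂ, r ≤ A.card ∧ ∀ a ∈ A, a ≠ 1 ∧
        depwPt y p a ∈ (⋃ Y' ∈ 𝒴, Y') ∧ ∀ W, IsCompOf W G → depwPt y p a ∈ W → W ∈ 𝒴 := by
  classical
  have hYv := ph_isCompOf_isVar (h𝒴 Y hY).1
  obtain ⟨t, h, hne, hh⟩ := dep_genfib p l 𝒴 (fun Y' hY' => ⟨ph_isCompOf_isVar (h𝒴 Y' hY').1,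
    (h𝒴 Y' hY').2⟩) Y hYv (h𝒴 Y hY).2 hZ
  have hrt : r < t := by
    by_contra hle
    exact hr ⟨h, hne, fun y hy hy' => ⟨(hh y hy hy').1, by rw [(hh y hy hy').2]; omega⟩⟩
  have c1 : GenOn Y fun y => (depRoots p y (⋃ Y' ∈ 𝒴, Y')).Finite ∧
      (depRoots p y (⋃ Y' ∈ 𝒴, Y')).ncard = t := ⟨h, hne, hh⟩
  have c2 : GenOn Y fun y => p ≠ y := by
    have : ¬ Y ⊆ {p} := by
      intro hsub
      have h1 := ph_vdim_mono hsub
      rw [(ph_point p).2.1, (h𝒴 Y hY).2] at h1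
      omega
    exact geo_gen_mono (depw_gen_notMem (ph_point p).1 this) fun y _ hy hpy => hy hpy.symm
  have c3 : GenOn Y fun y => ∀ P ∈ (𝒴 ×ˢ (ph_comps_finite G).toFinset).filter
      (fun P => P.2 ≠ P.1), depRoots p y (P.1 ∩ P.2) = ∅ := by
    apply geo_gen_finset hYv
    rintro ⟨Y', W⟩ hP
    rw [Finset.mem_filter, Finset.mem_product, Set.Finite.mem_toFinset] at hP
    obtain ⟨⟨hY', hW⟩, hne'⟩ := hP
    simp only at hY' hW hne' ⊢
    by_cases hemp : (Y' ∩ W).Nonempty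
    · have hns : ¬ Y' ⊆ W := fun hsub => hne' (ph_comp_not_subset (h𝒴 Y' hY').1 hW hsub).symm
      obtain ⟨g, ⟨x, hx, hgx⟩, hg⟩ := depw_gen_notMem (ph_isCompOf_isVar hW) hns
      have hlt := ph_vdim_lt_of_ssubset (ph_isCompOf_isVar (h𝒴 Y' hY').1)
        (Set.inter_subset_left : Y' ∩ W ⊆ Y') g (fun z hz => by
          by_contra hz0
          exact hg z hz.1 hz0 hz.2) ⟨x, hx, hgx⟩ hemp
      rw [(h𝒴 Y' hY').2] at hlt
      exact depw_avoid p l Y hYv hZ _ hlt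
    · rw [Set.not_nonempty_iff_eq_empty] at hemp
      apply geo_gen_of_forall (ph_isVar_nonempty _ hYv)
      intro y _
      rw [hemp, Set.eq_empty_iff_forall_notMem]
      rintro z ⟨hz, -⟩
      exact hz
  refine geo_gen_mono (geo_gen_and hYv c1 (geo_gen_and hYv c2 c3)) ?_
  rintro y hy ⟨⟨hfin, hcard⟩, hpy, hc3⟩
  refine ⟨hpy, ?_⟩
  rw [depw_roots_eq p y hpy] at hfin hcard
  have hfin' := hfin.of_finite_image (depw_pt_inj p y hpy).injOn
  rw [Set.ncard_image_of_injective _ (depw_pt_inj p y hpy)] at hcard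
  refine ⟨hfin'.toFinset, ?_, ?_⟩
  · rw [← Set.ncard_eq_toFinset_card _ hfin', hcard]
    exact hrt.le
  · intro a ha
    rw [Set.Finite.mem_toFinset] at ha
    refine ⟨ha.1, ha.2, fun W hW haW => ?_⟩
    obtain ⟨Y', hY', haY'⟩ := Set.mem_iUnion₂.1 ha.2
    by_contra hW𝒴
    have hne' : W ≠ Y' := fun h => hW𝒴 (h ▸ hY')
    have h1 := hc3 (Y', W) (by
      rw [Finset.mem_filter, Finset.mem_product, Set.Finite.mem_toFinset]
      exact ⟨⟨hY', hW⟩, hne'⟩)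
    have h2 : depwPt y p a ∈ depRoots p y (Y' ∩ W) := by
      rw [depw_roots_eq p y hpy]
      exact ⟨a, ⟨ha.1, haY', haW⟩, rfl⟩
    simp only at h1
    rw [h1] at h2
    exact h2

theorem depw_choose (G : Set (PrfPol d)) (l : ℕ) (𝒴 : Finset (Set (SpC d))) (hl : 1 ≤ l)
    (h𝒴 : ∀ Y ∈ 𝒴, IsCompOf Y G ∧ vdim Y = l) (X : Set (SpC d)) (hX : IsVar X)
    (Y : Set (SpC d)) (hY : Y ∈ 𝒴)
    (htan : ∃ x ∈ X, ∃ y ∈ Y, ∃ f : PrfPol d, (∀ z ∈ Y, eval z f = 0) ∧ dAt f y (y - x) ≠ 0)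
    (q r : ℕ) (hq : DepRootLE₂ X Y (⋃ Y' ∈ 𝒴, Y') q) (S : Finset (SpC d))
    (hS : ∀ p ∈ S, p ∈ X ∧ vdim (dcone p Y) = l + 1 ∧ ¬ DepRootLE p Y (⋃ Y' ∈ 𝒴, Y') r) :
    ∃ y ∈ Y,
      (∃ h : PrfPol d, (∃ x ∈ X, eval x h ≠ 0) ∧ ∀ x ∈ X, eval x h ≠ 0 →
        (depRoots x y (⋃ Y' ∈ 𝒴, Y')).Finite ∧ (depRoots x y (⋃ Y' ∈ 𝒴, Y')).ncard ≤ q) ∧
      (∃ x ∈ X, ∃ f ∈ G, ∃ a : ℂ, eval (depwPt y x a) f ≠ 0) ∧
      ∀ p ∈ S, p ≠ y ∧ ∃ A : Finset ℂ, r ≤ A.card ∧ ∀ a ∈ A, a ≠ 1 ∧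
        depwPt y p a ∈ (⋃ Y' ∈ 𝒴, Y') ∧ ∀ W, IsCompOf W G → depwPt y p a ∈ W → W ∈ 𝒴 := by
  have hYv := ph_isCompOf_isVar (h𝒴 Y hY).1
  obtain ⟨x₁, hx₁, htan'⟩ := htan
  have ga := depw_gen_a X Y _ q hq
  have gb := depw_gen_b G Y (h𝒴 Y hY).1 x₁ htan'
  have gc := geo_gen_finset hYv S _ (fun p hp =>
    depw_gen_c G l 𝒴 hl h𝒴 Y hY r p (hS p hp).2.1 (hS p hp).2.2)
  obtain ⟨y, hy, h1, h2, h3⟩ := geo_gen_exists (geo_gen_and hYv ga (geo_gen_and hYv gb gc))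
  exact ⟨y, hy, h1, ⟨x₁, hx₁, h2⟩, h3⟩

end Claimed.Agent.R273
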