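import Claimed.Agent.R273.DirRk

/-!
# Row 273, package T1 (`DirAsmStmt`): definitions, the extremal-ratio trick, the section lemma

Blueprint: helper37, after the note "T1" of helper191 (channel row273, msg 9365).  All variety-free.

* `StarHyp P p X H K` : what the selection of the graph gives in one star `X = G(p)`:
     (α) at most `H` partners in one direction;  (β) at most `K A deg c` partners on a planar directional curve `c`;
* `ClaimStmt d l`     : CLAIM(l): `|S| ≤ C_l h(S)` for all `S ⊆ X` whose displacements span real dimension `≤ l`;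
* `dir_extremal`      : it is enough to bound the ratio `|S| / h(S)` at a set which maximises it;
* `dir_section`       : at an extremal set `T`, a section by a form `g` of degree `t ≤ k/2` has rank
                        `h(T ∩ Z(g)) ≤ (κ |T| + |T ∩ Z(g)|) / ρ`, `κ = 2 n² t / k`, `ρ = |T| / h(T)`.
-/

set_option autoImplicit false

namespace Claimed.Agent.R273

open Claims.C0444 MvPolynomial Finset

/-- THE STAR HYPOTHESES. -/
structure StarHyp {d : ℕ} (P : Finset (Pt d)) (p : Pt d) (X : Finset (Pt d)) (H K : ℝ) : Prop where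
  mem : p ∈ P
  sub : X ⊆ P
  ne : p ∉ X
  /-- (α) -/
  line : ∀ T ⊆ X, (∀ q ∈ T, ∀ q' ∈ T, ∃ c : ℂ, cdir p q' = c • cdir p q) → (T.card : ℝ) ≤ H
  /-- (β) -/
  curve : ∀ c : PCurve d, ∀ T ⊆ X, (∀ q ∈ T, c.Mem (cdir p q)) → (T.card : ℝ) ≤ K * dA P * c.deg

/-- the real span of the displacements -/
noncomputable def dspan {d : ℕ} (p : Pt d) (S : Finset (Pt d)) : Submodule ℝ (Pt d) :=
  Submodule.span ℝ ((fun q => q - p) '' (S : Set (Pt d)))

/-- the direction rank `h(S)` -/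
noncomputable def dirRk {d : ℕ} (P : Finset (Pt d)) (p : Pt d) (S : Finset (Pt d)) : ℕ :=
  hP (cdir p '' (S : Set (Pt d))) ⌊dA P⌋₊

/-- CLAIM(l). -/
def ClaimStmt (d l : ℕ) : Prop :=
  ∀ H K : ℝ, 1 ≤ H → 1 ≤ K → ∃ C ε : ℝ, 1 ≤ C ∧ 0 < ε ∧ ∀ (P : Finset (Pt d)) (p : Pt d) (X : Finset (Pt d)),
    1 ≤ ε * (P.card : ℝ) → (dM P : ℝ) ≤ ε * dA P → StarHyp P p X H K →
    ∀ S ⊆ X, Module.finrank ℝ (dspan p S) ≤ l → (S.card : ℝ) ≤ C * dirRk P p S

/-! ### Elementary facts -/

theorem cdir_injective {d : ℕ} (p : Pt d) : Function.Injective (cdir p) := by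
  intro q q' h
  ext i
  have h1 := congrFun h i
  simp only [cdir] at h1
  have h2 : q i - p i = q' i - p i := by exact_mod_cast h1
  linarith

theorem cdir_ne_zero {d : ℕ} {p q : Pt d} (h : q ≠ p) : cdir p q ≠ 0 := by
  intro h0
  apply h
  apply cdir_injective p
  rw [h0]
  funext i
  simp [cdir]

theorem dspan_mono {d : ℕ} (p : Pt d) {S S' : Finset (Pt d)} (h : S ⊆ S') : dspan p S ≤ dspan p S' :=
  Submodule.span_mono (Set.image_mono (Finset.coe_subset.mpr h))

theorem dirRk_pos {d : ℕ} {P : Finset (Pt d)} {p : Pt d} {S : Finset (Pt d)} (hp : p ∉ S)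
    (hS : S.Nonempty) : 1 ≤ dirRk P p S := by
  obtain ⟨q, hq⟩ := hS
  have hne : q ≠ p := fun h => hp (h ▸ hq)
  exact dirk_pos (Set.mem_image_of_mem (cdir p) (Finset.mem_coe.mpr hq)) (cdir_ne_zero hne) _

/-- the regime: `A ≥ 1/ε`, `D = ⌊A⌋ ∈ [A/2, A]`, `M ≤ D`, `N ≥ 1/ε` -/
theorem dir_regime {d : ℕ} {ε : ℝ} (hε : 0 < ε) (hε1 : ε ≤ 1 / 2) {P : Finset (Pt d)}
    (hM : (dM P : ℝ) ≤ ε * dA P) :
    1 / ε ≤ dA P ∧ dA P / 2 ≤ (⌊dA P⌋₊ : ℝ) ∧ (⌊dA P⌋₊ : ℝ) ≤ dA P ∧ (dM P : ℝ) ≤ (⌊dA P⌋₊ : ℝ) := by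
  have h1 : (1 : ℝ) ≤ dM P := by
    unfold dM
    push_cast
    have : (0 : ℝ) ≤ ((distinctDistances P).card : ℝ) := Nat.cast_nonneg _
    linarith
  have h2 : 1 ≤ ε * dA P := h1.trans hM
  have h3 : 1 / ε ≤ dA P := by
    rw [div_le_iff₀ hε]
    linarith
  have h4 : (2 : ℝ) ≤ 1 / ε := by
    rw [le_div_iff₀ hε]
    linarith
  have hA : (2 : ℝ) ≤ dA P := h4.trans h3
  have hA0 : (0 : ℝ) ≤ dA P := by linarith
  have h5 : (⌊dA P⌋₊ : ℝ) ≤ dA P := Nat.floor_le hA0
  have h6 : dA P < (⌊dA P⌋₊ : ℝ) + 1 := Nat.lt_floor_add_one _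
  refine ⟨h3, by linarith, h5, ?_⟩
  have h7 : (dM P : ℝ) ≤ dA P := by
    have : ε * dA P ≤ 1 / 2 * dA P := mul_le_mul_of_nonneg_right hε1 hA0
    linarith
  exact_mod_cast Nat.le_floor h7

/-! ### The extremal-ratio trick -/

/-- **The extremal-ratio trick.**  `Q` = the class of sets under consideration, `h` = the rank.  Proof: among the nonempty `S ⊆ X` with `Q S`
choose one which maximises `|S| / h S` (`Finset.exists_max_image` on `X.powerset.filter ..`). -/
theorem dir_extremal {α : Type*} [DecidableEq α] (X : Finset α) (Q : Finset α → Prop) (h : Finset α → ℕ)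
    (C : ℝ) (hC : 0 ≤ C) (hpos : ∀ S ⊆ X, S.Nonempty → 1 ≤ h S)
    (key : ∀ S ⊆ X, Q S → S.Nonempty →
      (∀ S' ⊆ X, Q S' → (S'.card : ℝ) * h S ≤ S.card * h S') → (S.card : ℝ) ≤ C * h S) :
    ∀ S ⊆ X, Q S → (S.card : ℝ) ≤ C * h S := by
  classical
  intro S hSX hQS
  rcases S.eq_empty_or_nonempty with rfl | hSne
  · simp only [Finset.card_empty, Nat.cast_zero]
    positivity
  set F := X.powerset.filter (fun S => Q S ∧ S.Nonempty) with hF
  have hSF : S ∈ F := by
    rw [hF, Finset.mem_filter, Finset.mem_powerset]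
    exact ⟨hSX, hQS, hSne⟩
  obtain ⟨S₀, hS₀, hmax⟩ := Finset.exists_max_image F (fun S => (S.card : ℝ) / h S) ⟨S, hSF⟩
  rw [hF, Finset.mem_filter, Finset.mem_powerset] at hS₀
  obtain ⟨h0X, h0Q, h0ne⟩ := hS₀
  have hh0 : (0 : ℝ) < h S₀ := by exact_mod_cast hpos S₀ h0X h0ne
  have hcmp : ∀ S' ⊆ X, Q S' → (S'.card : ℝ) * h S₀ ≤ S₀.card * h S' := by
    intro S' hS'X hQ'
    rcases S'.eq_empty_or_nonempty with rfl | hne'
    · simp only [Finset.card_empty, Nat.cast_zero, zero_mul]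
      positivity
    have hS'F : S' ∈ F := by
      rw [hF, Finset.mem_filter, Finset.mem_powerset]
      exact ⟨hS'X, hQ', hne'⟩
    have hh' : (0 : ℝ) < h S' := by exact_mod_cast hpos S' hS'X hne'
    have := hmax S' hS'F
    rwa [div_le_div_iff₀ hh' hh0] at this
  have hk := key S₀ h0X h0Q h0ne hcmp
  have h1 := hcmp S hSX hQS
  have hhS : (0 : ℝ) ≤ h S := Nat.cast_nonneg _
  have h2 : (S.card : ℝ) * h S₀ ≤ (C * h S) * h S₀ := by
    calc (S.card : ℝ) * h S₀ ≤ S₀.card * h S := h1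
      _ ≤ (C * h S₀) * h S := mul_le_mul_of_nonneg_right hk hhS
      _ = (C * h S) * h S₀ := by ring
  exact le_of_mul_le_mul_right h2 hh0

theorem dir0_section_alg {cT cZ cN hT hZ hN hN' κ : ℝ} (hcT : cT = cZ + cN) (hcZ : 0 ≤ cZ)
    (hcN : 0 ≤ cN) (hhT : 0 ≤ hT) (_hhN : 0 ≤ hN) (hκ : 0 ≤ κ) (res : hN' + hZ ≤ hT)
    (gro : (1 - κ) * hN ≤ hN') (ext : cN * hT ≤ cT * hN) (mono : hZ ≤ hT) :
    cT * hZ ≤ hT * (κ * cT + cZ) := by
  have hcT0 : 0 ≤ cT := by linarith
  by_cases h1 : κ ≤ 1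
  · have h2 : cT * hZ ≤ cT * hT - (1 - κ) * (cT * hN) := by
      have : cT * hZ ≤ cT * (hT - (1 - κ) * hN) := mul_le_mul_of_nonneg_left (by linarith) hcT0
      linarith
    have h3 : (1 - κ) * (cN * hT) ≤ (1 - κ) * (cT * hN) :=
      mul_le_mul_of_nonneg_left ext (by linarith)
    have h4 : 0 ≤ κ * cZ * hT := by positivity
    subst hcT
    nlinarith
  · have h2 : cT * hZ ≤ cT * hT := mul_le_mul_of_nonneg_left mono hcT0
    have h3 : cT * hT ≤ κ * (cT * hT) := le_mul_of_one_le_left (by positivity) (by linarith)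
    have h4 : 0 ≤ hT * cZ := by positivity
    nlinarith

open Classical in
/-- **The section lemma.**  `dirk_residual` + `dirk_growth` + extremality at `T \ Z(g)`:
`h(T) ≥ h(T \ Z, k - t) + h(T ∩ Z, k)`, `h(T \ Z, k - t) ≥ (1 - κ) h(T \ Z, k)`, `|T \ Z| h(T) ≤ |T| h(T \ Z, k)`. -/
theorem dir_section {n : ℕ} (T : Finset (Fin n → ℂ)) (h0 : ∀ x ∈ T, x ≠ 0) {t k : ℕ} (htk : 2 * t ≤ k)
    (g : MvPolynomial (Fin n) ℂ) (hg : g.IsHomogeneous t)
    (ext : ∀ T' ⊆ T, (T'.card : ℝ) * hP (T : Set (Fin n → ℂ)) k ≤ T.card * hP (T' : Set (Fin n → ℂ)) k) :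
    (T.card : ℝ) * hP ((T.filter fun x => eval x g = 0 : Finset (Fin n → ℂ)) : Set (Fin n → ℂ)) k ≤
      hP (T : Set (Fin n → ℂ)) k *
        (2 * (n : ℝ) ^ 2 * t / k * T.card + (T.filter fun x => eval x g = 0).card) := by
  set Z := T.filter fun x => eval x g = 0 with hZ
  set N := T.filter fun x => ¬ eval x g = 0 with hN
  have hNT : N ⊆ T := Finset.filter_subset _ _
  have hZT : Z ⊆ T := Finset.filter_subset _ _
  have hcard : (T.card : ℝ) = Z.card + N.card := by
    have := Finset.card_filter_add_card_filter_not (s := T) (fun x => eval x g = 0)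
    rw [← hZ, ← hN] at this
    exact_mod_cast this.symm
  have res := dirk_residual (T : Set (Fin n → ℂ)) (show t ≤ k by omega) g hg
  have eN : {x ∈ (T : Set (Fin n → ℂ)) | eval x g ≠ 0} = (N : Set (Fin n → ℂ)) := by
    rw [hN, Finset.coe_filter]; rfl
  have eZ : {x ∈ (T : Set (Fin n → ℂ)) | eval x g = 0} = (Z : Set (Fin n → ℂ)) := by
    rw [hZ, Finset.coe_filter]; rfl
  rw [eN, eZ] at res
  have gro := dirk_growth N (fun x hx => h0 x (hNT hx)) htk
  have hext := ext N hNT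
  have mono := dirk_mono (Finset.coe_subset.mpr hZT) k
  exact dir0_section_alg hcard (Nat.cast_nonneg _) (Nat.cast_nonneg _) (Nat.cast_nonneg _)
    (Nat.cast_nonneg _) (by positivity) (by exact_mod_cast res) gro hext (by exact_mod_cast mono)

open Classical in
/-- **The section lemma in a star** (`dir_section` at `T = S.image (cdir p)`; `cdir p` is injective, `T' ⊆ T` is the image of
`S.filter fun q => cdir p q ∈ T'`; `Finset.coe_image`). -/
theorem dir_section_pts {d : ℕ} {P : Finset (Pt d)} {p : Pt d} {S : Finset (Pt d)} (hp : p ∉ S) {t : ℕ}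
    (htk : 2 * t ≤ ⌊dA P⌋₊) (g : MvPolynomial (Fin d) ℂ) (hg : g.IsHomogeneous t)
    (ext : ∀ S' ⊆ S, (S'.card : ℝ) * dirRk P p S ≤ S.card * dirRk P p S') :
    (S.card : ℝ) * dirRk P p (S.filter fun q => eval (cdir p q) g = 0) ≤
      dirRk P p S * (2 * (d : ℝ) ^ 2 * t / (⌊dA P⌋₊ : ℝ) * S.card +
        (S.filter fun q => eval (cdir p q) g = 0).card) := by
  have hinj := cdir_injective p
  have hrk : ∀ S' : Finset (Pt d),
      dirRk P p S' = hP ((S'.image (cdir p) : Finset (Fin d → ℂ)) : Set (Fin d → ℂ)) ⌊dA P⌋₊ := by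
    intro S'
    rw [Finset.coe_image]
    rfl
  have hcd : ∀ S' : Finset (Pt d), (S'.image (cdir p)).card = S'.card := fun S' =>
    Finset.card_image_of_injective S' hinj
  have h := dir_section (S.image (cdir p)) (by
      intro x hx
      obtain ⟨q, hq, rfl⟩ := Finset.mem_image.mp hx
      exact cdir_ne_zero (fun h => hp (h ▸ hq))) htk g hg (by
      intro T' hT'
      have e : T' = (S.filter fun q => cdir p q ∈ T').image (cdir p) := by
        ext x
        simp only [Finset.mem_image, Finset.mem_filter]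
        constructor
        · intro hx
          obtain ⟨q, hq, rfl⟩ := Finset.mem_image.mp (hT' hx)
          exact ⟨q, ⟨hq, hx⟩, rfl⟩
        · rintro ⟨q, ⟨-, hq⟩, rfl⟩
          exact hq
      have h1 := ext (S.filter fun q => cdir p q ∈ T') (Finset.filter_subset _ _)
      rw [hrk, hrk, ← e] at h1
      rw [hcd]
      have h2 : T'.card = (S.filter fun q => cdir p q ∈ T').card := by
        conv_lhs => rw [e]
        exact hcd _
      rw [h2]
      exact h1)
  rw [Finset.filter_image, hcd, hcd, ← hrk, ← hrk] at h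
  exact h

end Claimed.Agent.R273
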