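import Claimed.Agent.R273.Dir0

/-!
# Row 273, package T1: THE CAPS (L1 of the note "T1") and THE RADIUS LEMMA (L8)

Blueprint: helper37.  "`T` lies in an affine flat of direction `W`" is written `∀ x ∈ T, ∀ y ∈ T, x - y ∈ W`.
-/

set_option autoImplicit false

namespace Claimed.Agent.R273

open Claims.C0444 Finset

variable {d : ℕ}

theorem dirc_dd_mono {P T : Finset (Pt d)} (h : T ⊆ P) : distinctDistances T ⊆ distinctDistances P :=
  Finset.image_subset_image (Finset.filter_subset_filter _ (Finset.product_subset_product h h))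

/-- the distances of a subset are distances of the set -/
theorem dirc_dM_mono {P T : Finset (Pt d)} (h : T ⊆ P) : dM T ≤ dM P := by
  unfold dM
  exact Nat.add_le_add_left (Finset.card_le_card (dirc_dd_mono h)) 1

theorem dirc_dM_pos (P : Finset (Pt d)) : 1 ≤ dM P := by
  unfold dM
  omega

theorem dirc_mem_dd {P : Finset (Pt d)} {x y : Pt d} (hx : x ∈ P) (hy : y ∈ P) (hxy : x ≠ y) :
    dist x y ∈ distinctDistances P := by
  unfold distinctDistances
  refine Finset.mem_image.mpr ⟨(x, y), ?_, rfl⟩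
  rw [Finset.mem_filter, Finset.mem_product]
  exact ⟨⟨hx, hy⟩, hxy⟩

/-- LEAF T1-C1.  A counting principle -/
theorem dirc_of_fibres {P T : Finset (Pt d)} (hT : T ⊆ P) {x0 : Pt d} (hx0 : x0 ∈ T) {m : ℕ} (hm : 1 ≤ m)
    (h : ∀ r : ℝ, ((T.erase x0).filter fun x => dist x0 x = r).card ≤ m) : T.card ≤ m * dM P := by
  have h1 : (T.erase x0).card ≤ m * (distinctDistances P).card := by
    refine Finset.card_le_mul_card_image_of_maps_to (f := fun x => dist x0 x) ?_ m (fun r _ => h r)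
    intro x hx
    rw [Finset.mem_erase] at hx
    exact dirc_mem_dd (hT hx0) (hT hx.2) (Ne.symm hx.1)
  have h2 : T.card = (T.erase x0).card + 1 := (Finset.card_erase_add_one hx0).symm
  unfold dM
  rw [h2, Nat.mul_add]
  omega

/-- a sphere meets a line in at most two points -/
theorem dirc_coll_sphere {T : Finset (Pt d)} {p : Pt d} {r : ℝ} (hr : ∀ z ∈ T, dist z p = r)
    (hc : Collinear ℝ (T : Set (Pt d))) : T.card ≤ 2 := by
  by_contra hcon
  obtain ⟨a, ha, b, hb, c, hc', hab, hac, hbc⟩ := Finset.two_lt_card.mp (not_le.mp hcon)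
  have hsub : ({a, b, c} : Set (Pt d)) ⊆ (T : Set (Pt d)) := by
    intro x hx
    rcases hx with rfl | rfl | rfl
    · exact ha
    · exact hb
    · exact hc'
  have hcos : EuclideanGeometry.Cospherical ({a, b, c} : Set (Pt d)) :=
    ⟨p, r, fun x hx => hr x (hsub hx)⟩
  exact (affineIndependent_iff_not_collinear_set.mp (hcos.affineIndependent_of_ne hab hac hbc))
    (hc.subset hsub)

/-- LEAF T1-C1.  (L1a) collinear points -/
theorem dirc_line {P T : Finset (Pt d)} (hT : T ⊆ P) (hc : Collinear ℝ (T : Set (Pt d))) :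
    T.card ≤ 2 * dM P := by
  rcases T.eq_empty_or_nonempty with rfl | ⟨x0, hx0⟩
  · simp
  refine dirc_of_fibres hT hx0 (by norm_num) ?_
  intro r
  refine dirc_coll_sphere (p := x0) (r := r) ?_ (hc.subset ?_)
  · intro z hz
    rw [dist_comm]
    exact (Finset.mem_filter.mp hz).2
  · intro z hz
    exact Finset.mem_of_mem_erase (Finset.mem_filter.mp (Finset.mem_coe.mp hz)).1

theorem dirc_vectorSpan_le {T : Finset (Pt d)} {W : Submodule ℝ (Pt d)}
    (hT : ∀ x ∈ T, ∀ y ∈ T, x - y ∈ W) : vectorSpan ℝ (T : Set (Pt d)) ≤ W := by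
  rw [vectorSpan_def, Submodule.span_le]
  rintro _ ⟨x, hx, y, hy, rfl⟩
  exact hT x hx y hy

/-- LEAF T1-C2.  (L1d) a sphere meets a line in at most two points -/
theorem dirc_sphere_one {T : Finset (Pt d)} {p : Pt d} {r : ℝ} (hr : ∀ z ∈ T, dist z p = r)
    (W : Submodule ℝ (Pt d)) (hW : Module.finrank ℝ W ≤ 1) (hT : ∀ x ∈ T, ∀ y ∈ T, x - y ∈ W) :
    T.card ≤ 2 := by
  refine dirc_coll_sphere hr ?_
  rw [collinear_iff_finrank_le_one]
  exact (Submodule.finrank_mono (dirc_vectorSpan_le hT)).trans hW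

theorem dirc_sphere_two {P T : Finset (Pt d)} (hTP : T ⊆ P) {p : Pt d} {r : ℝ} (hr : ∀ z ∈ T, dist z p = r)
    (W : Submodule ℝ (Pt d)) (hW : Module.finrank ℝ W ≤ 2) (hT : ∀ x ∈ T, ∀ y ∈ T, x - y ∈ W) :
    T.card ≤ 2 * dM P := by
  have hM := dirc_dM_pos P
  by_cases hW1 : Module.finrank ℝ W ≤ 1
  · have := dirc_sphere_one hr W hW1 hT
    omega
  have hW2 : Module.finrank ℝ W = 2 := by omega
  rcases T.eq_empty_or_nonempty with rfl | ⟨x0, hx0⟩
  · simp
  set s : AffineSubspace ℝ (Pt d) := AffineSubspace.mk' x0 W with hs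
  have hdir : s.direction = W := AffineSubspace.direction_mk' x0 W
  have hmem : ∀ x ∈ T, x ∈ s := by
    intro x hx
    rw [hs, AffineSubspace.mem_mk']
    exact hT x hx x0 hx0
  have : Nonempty s := ⟨⟨x0, hmem x0 hx0⟩⟩
  set c : Pt d := (EuclideanGeometry.orthogonalProjection s p : Pt d) with hc
  have hcs : c ∈ s := EuclideanGeometry.orthogonalProjection_mem p
  have hdc : ∀ x ∈ T, dist x c = dist x0 c := by
    intro x hx
    have h1 := EuclideanGeometry.dist_sq_eq_dist_orthogonalProjection_sq_add_dist_orthogonalProjection_sq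
      (s := s) p (hmem x hx)
    have h2 := EuclideanGeometry.dist_sq_eq_dist_orthogonalProjection_sq_add_dist_orthogonalProjection_sq
      (s := s) p (hmem x0 hx0)
    rw [hr x hx] at h1
    rw [hr x0 hx0] at h2
    have h3 : dist x c * dist x c = dist x0 c * dist x0 c := by
      rw [hc]; linarith
    exact (mul_self_inj dist_nonneg dist_nonneg).mp h3
  refine dirc_of_fibres hTP hx0 (by norm_num) ?_
  intro ρ
  by_cases hcx : c = x0
  · have : ((T.erase x0).filter fun x => dist x0 x = ρ) = ∅ := by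
      rw [Finset.eq_empty_iff_forall_notMem]
      intro x hx
      have hx' := Finset.mem_erase.mp (Finset.mem_filter.mp hx).1
      have h1 := hdc x hx'.2
      rw [hcx, dist_self] at h1
      exact hx'.1 (dist_eq_zero.mp h1)
    rw [this]; simp
  by_contra hcon
  obtain ⟨a, ha, b, hb, e, he, hab, hae, hbe⟩ := Finset.two_lt_card.mp (not_le.mp hcon)
  have key : ∀ x ∈ ((T.erase x0).filter fun x => dist x0 x = ρ),
      x ∈ s ∧ dist x c = dist x0 c ∧ dist x x0 = ρ := by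
    intro x hx
    have hx' := Finset.mem_erase.mp (Finset.mem_filter.mp hx).1
    exact ⟨hmem x hx'.2, hdc x hx'.2, by rw [dist_comm]; exact (Finset.mem_filter.mp hx).2⟩
  obtain ⟨a1, a2, a3⟩ := key a ha
  obtain ⟨b1, b2, b3⟩ := key b hb
  obtain ⟨e1, e2, e3⟩ := key e he
  have hd2 : Module.finrank ℝ s.direction = 2 := by rw [hdir]; exact hW2
  rcases EuclideanGeometry.eq_of_dist_eq_of_dist_eq_of_mem_of_finrank_eq_two hd2 hcs (hmem x0 hx0)
    a1 b1 e1 hcx hab a2 b2 e2 a3 b3 e3 with h | h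
  · exact hae h.symm
  · exact hbe h.symm


theorem dirc_exists_isom (W : Submodule ℝ (Pt d)) {u : ℕ} (h : Module.finrank ℝ W ≤ u) :
    ∃ φ : W → Pt u, ∀ x y : W, dist (φ x) (φ y) = dist (x : Pt d) (y : Pt d) := by
  let b := stdOrthonormalBasis ℝ W
  let e := EuclideanSpace.basisFun (Fin u) ℝ
  let f : W →ₗ[ℝ] Pt u := b.toBasis.constr ℝ (fun i => e (Fin.castLE h i))
  have hv : Orthonormal ℝ b.toBasis := by
    rw [OrthonormalBasis.coe_toBasis]
    exact b.orthonormal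
  have hf : Orthonormal ℝ (f ∘ b.toBasis) := by
    have : f ∘ b.toBasis = e ∘ Fin.castLE h := by
      funext i
      simp only [Function.comp_apply, f]
      rw [Module.Basis.constr_basis]
    rw [this]
    exact e.orthonormal.comp _ (Fin.castLE_injective h)
  refine ⟨f.isometryOfOrthonormal hv hf, ?_⟩
  intro x y
  rw [LinearIsometry.dist_map]
  rfl

theorem dirc_dd_image {u : ℕ} {T : Finset (Pt d)} (ψ : Pt d → Pt u)
    (hψ : ∀ x ∈ T, ∀ y ∈ T, dist (ψ x) (ψ y) = dist x y) :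
    (T.image ψ).card = T.card ∧ distinctDistances (T.image ψ) ⊆ distinctDistances T := by
  constructor
  · refine Finset.card_image_of_injOn ?_
    intro x hx y hy hxy
    have := hψ x hx y hy
    rw [hxy, dist_self] at this
    exact dist_eq_zero.mp this.symm
  · intro r hr
    unfold distinctDistances at hr
    obtain ⟨⟨a, b⟩, hab, rfl⟩ := Finset.mem_image.mp hr
    rw [Finset.mem_filter, Finset.mem_product] at hab
    obtain ⟨⟨ha, hb⟩, hne⟩ := hab
    obtain ⟨x, hx, rfl⟩ := Finset.mem_image.mp ha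
    obtain ⟨y, hy, rfl⟩ := Finset.mem_image.mp hb
    show dist (ψ x) (ψ y) ∈ _
    rw [hψ x hx y hy]
    exact dirc_mem_dd hx hy (fun h => hne (by rw [h]))

theorem dirc_flat {u : ℕ} (hu1 : 1 ≤ u) (hud : u ≤ d) (hu : MainStmt u) :
    ∃ C : ℝ, 1 ≤ C ∧ ∀ (P T : Finset (Pt d)), T ⊆ P → ∀ W : Submodule ℝ (Pt d),
      Module.finrank ℝ W ≤ u → (∀ x ∈ T, ∀ y ∈ T, x - y ∈ W) →
      (T.card : ℝ) ≤ C * (dM P : ℝ) ^ ((u : ℝ) / 2) := by
  classical
  obtain ⟨c, hc, hmain⟩ := hu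
  have hu0 : (0 : ℝ) < u := by exact_mod_cast hu1
  refine ⟨max 1 ((1 / c) ^ ((u : ℝ) / 2)), le_max_left _ _, ?_⟩
  intro P T hTP W hW hT
  have hM1 : (1 : ℝ) ≤ dM P := by exact_mod_cast dirc_dM_pos P
  have hMp : (1 : ℝ) ≤ (dM P : ℝ) ^ ((u : ℝ) / 2) := Real.one_le_rpow hM1 (by positivity)
  by_cases hcard : T.card ≤ 1
  · calc (T.card : ℝ) ≤ 1 := by exact_mod_cast hcard
      _ ≤ max 1 ((1 / c) ^ ((u : ℝ) / 2)) * (dM P : ℝ) ^ ((u : ℝ) / 2) :=
        one_le_mul_of_one_le_of_one_le (le_max_left _ _) hMp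
  have hcard2 : 2 ≤ T.card := by omega
  obtain ⟨x0, hx0⟩ : T.Nonempty := Finset.card_pos.mp (by omega)
  obtain ⟨φ, hφ⟩ := dirc_exists_isom W hW
  let ψ : Pt d → Pt u := fun x => if h : x - x0 ∈ W then φ ⟨x - x0, h⟩ else 0
  have hψ : ∀ x ∈ T, ∀ y ∈ T, dist (ψ x) (ψ y) = dist x y := by
    intro x hx y hy
    simp only [ψ]
    rw [dif_pos (hT x hx x0 hx0), dif_pos (hT y hy x0 hx0), hφ]
    exact dist_sub_right x y x0
  obtain ⟨h1, h2⟩ := dirc_dd_image ψ hψ
  have h3 := hmain (T.image ψ) (by rw [h1]; exact hcard2)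
  rw [h1] at h3
  have h4 : ((distinctDistances (T.image ψ)).card : ℝ) ≤ dM P := by
    have : (distinctDistances (T.image ψ)).card ≤ dM P := by
      have a1 := Finset.card_le_card h2
      have a2 := Finset.card_le_card (dirc_dd_mono hTP)
      unfold dM
      omega
    exact_mod_cast this
  have hN0 : (0 : ℝ) ≤ T.card := Nat.cast_nonneg _
  have h5 : (T.card : ℝ) ^ ((2 : ℝ) / u) ≤ dM P * (1 / c) := by
    rw [mul_one_div, le_div_iff₀ hc]
    linarith
  have h6 : ((T.card : ℝ) ^ ((2 : ℝ) / u)) ^ ((u : ℝ) / 2) ≤ ((dM P : ℝ) * (1 / c)) ^ ((u : ℝ) / 2) :=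
    Real.rpow_le_rpow (Real.rpow_nonneg hN0 _) h5 (by positivity)
  rw [← Real.rpow_mul hN0, show (2 : ℝ) / u * (u / 2) = 1 by field_simp, Real.rpow_one,
    Real.mul_rpow (by linarith) (by positivity)] at h6
  calc (T.card : ℝ) ≤ (dM P : ℝ) ^ ((u : ℝ) / 2) * (1 / c) ^ ((u : ℝ) / 2) := h6
    _ = (1 / c) ^ ((u : ℝ) / 2) * (dM P : ℝ) ^ ((u : ℝ) / 2) := mul_comm _ _
    _ ≤ max 1 ((1 / c) ^ ((u : ℝ) / 2)) * (dM P : ℝ) ^ ((u : ℝ) / 2) :=
      mul_le_mul_of_nonneg_right (le_max_right _ _) (by linarith)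


theorem dirc_fibre (IH : ∀ u, 3 ≤ u → u < d → MainStmt u) :
    ∃ C : ℝ, 1 ≤ C ∧ ∀ (P T : Finset (Pt d)), T ⊆ P → ∀ (p : Pt d) (r : ℝ), (∀ z ∈ T, dist z p = r) →
      ∀ W : Submodule ℝ (Pt d), Module.finrank ℝ W + 4 ≤ d → (∀ x ∈ T, ∀ y ∈ T, x - y ∈ W) →
      (T.card : ℝ) ≤ C * (dM P : ℝ) ^ ((d : ℝ) / 2 - 2) := by
  classical
  have hex : ∀ u : ℕ, ∃ C : ℝ, 1 ≤ C ∧ (3 ≤ u → u < d → ∀ (P T : Finset (Pt d)), T ⊆ P →
      ∀ W : Submodule ℝ (Pt d), Module.finrank ℝ W ≤ u → (∀ x ∈ T, ∀ y ∈ T, x - y ∈ W) →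
      (T.card : ℝ) ≤ C * (dM P : ℝ) ^ ((u : ℝ) / 2)) := by
    intro u
    by_cases h : 3 ≤ u ∧ u < d
    · obtain ⟨C, hC, hh⟩ := dirc_flat (d := d) (by omega) (by omega) (IH u h.1 h.2)
      exact ⟨C, hC, fun _ _ => hh⟩
    · exact ⟨1, le_rfl, fun h1 h2 => absurd ⟨h1, h2⟩ h⟩
  choose Cf hCf1 hCf using hex
  have hsum : ∀ u < d, Cf u ≤ ∑ v ∈ Finset.range d, Cf v := fun u hu =>
    Finset.single_le_sum (f := Cf) (fun v _ => by have := hCf1 v; linarith) (Finset.mem_range.mpr hu)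
  have hsum0 : 0 ≤ ∑ v ∈ Finset.range d, Cf v :=
    Finset.sum_nonneg (fun v _ => by have := hCf1 v; linarith)
  refine ⟨2 + ∑ v ∈ Finset.range d, Cf v, by linarith, ?_⟩
  intro P T hTP p r hr W hW hT
  have hM1 : (1 : ℝ) ≤ dM P := by exact_mod_cast dirc_dM_pos P
  have hd4 : (4 : ℝ) ≤ d := by
    have : 4 ≤ d := by omega
    exact_mod_cast this
  have hMp : (1 : ℝ) ≤ (dM P : ℝ) ^ ((d : ℝ) / 2 - 2) := Real.one_le_rpow hM1 (by linarith)
  have hsmall : T.card ≤ 2 → (T.card : ℝ) ≤ (2 + ∑ v ∈ Finset.range d, Cf v) * (dM P : ℝ) ^ ((d : ℝ) / 2 - 2) := by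
    intro h
    have h1 : (T.card : ℝ) ≤ 2 := by exact_mod_cast h
    calc (T.card : ℝ) ≤ 2 * 1 := by linarith
      _ ≤ (2 + ∑ v ∈ Finset.range d, Cf v) * (dM P : ℝ) ^ ((d : ℝ) / 2 - 2) :=
        mul_le_mul (by linarith) hMp (by norm_num) (by linarith)
  by_cases h1 : Module.finrank ℝ W ≤ 1
  · exact hsmall (dirc_sphere_one hr W h1 hT)
  by_cases h2 : Module.finrank ℝ W ≤ 2
  · have h3 := dirc_sphere_two hTP hr W h2 hT
    have h4 : (T.card : ℝ) ≤ 2 * dM P := by exact_mod_cast h3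
    have hd6 : (6 : ℝ) ≤ d := by
      have : 6 ≤ d := by omega
      exact_mod_cast this
    have h5 : (dM P : ℝ) ≤ (dM P : ℝ) ^ ((d : ℝ) / 2 - 2) := by
      conv_lhs => rw [← Real.rpow_one (dM P : ℝ)]
      exact Real.rpow_le_rpow_of_exponent_le hM1 (by linarith)
    calc (T.card : ℝ) ≤ 2 * dM P := h4
      _ ≤ (2 + ∑ v ∈ Finset.range d, Cf v) * (dM P : ℝ) ^ ((d : ℝ) / 2 - 2) :=
        mul_le_mul (by linarith) h5 (by linarith) (by linarith)
  · set w := Module.finrank ℝ W with hw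
    have h3 := hCf w (by omega) (by omega) P T hTP W le_rfl hT
    have hwd : (w : ℝ) + 4 ≤ d := by exact_mod_cast hW
    have h5 : (dM P : ℝ) ^ ((w : ℝ) / 2) ≤ (dM P : ℝ) ^ ((d : ℝ) / 2 - 2) :=
      Real.rpow_le_rpow_of_exponent_le hM1 (by linarith)
    calc (T.card : ℝ) ≤ Cf w * (dM P : ℝ) ^ ((w : ℝ) / 2) := h3
      _ ≤ (2 + ∑ v ∈ Finset.range d, Cf v) * (dM P : ℝ) ^ ((d : ℝ) / 2 - 2) :=
        mul_le_mul (by have := hsum w (by omega); linarith) h5 (by positivity) (by linarith)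


/-- a system of representatives of the fibres of a map on a finite set -/
theorem dirc_reps {α β : Type*} [DecidableEq α] [DecidableEq β] (Q : Finset α) (f : α → β) :
    ∃ Z ⊆ Q, Z.card = (Q.image f).card ∧ ∀ z ∈ Z, ∀ z' ∈ Z, z ≠ z' → f z ≠ f z' := by
  classical
  rcases Q.eq_empty_or_nonempty with rfl | ⟨a0, _⟩
  · exact ⟨∅, Finset.Subset.refl _, by simp, by simp⟩
  have : Nonempty α := ⟨a0⟩
  let g : β → α := Function.invFunOn f (Q : Set α)
  have hg : ∀ b ∈ Q.image f, g b ∈ Q ∧ f (g b) = b := by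
    intro b hb
    obtain ⟨a, ha, hab⟩ := Finset.mem_image.mp hb
    have hex : ∃ a ∈ (Q : Set α), f a = b := ⟨a, ha, hab⟩
    exact ⟨Function.invFunOn_mem hex, Function.invFunOn_eq hex⟩
  refine ⟨(Q.image f).image g, ?_, ?_, ?_⟩
  · intro z hz
    obtain ⟨b, hb, rfl⟩ := Finset.mem_image.mp hz
    exact (hg b hb).1
  · refine Finset.card_image_of_injOn ?_
    intro b hb b' hb' h
    rw [← (hg b hb).2, ← (hg b' hb').2, h]
  · intro z hz z' hz' hne hf
    obtain ⟨b, hb, rfl⟩ := Finset.mem_image.mp hz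
    obtain ⟨b', hb', rfl⟩ := Finset.mem_image.mp hz'
    rw [(hg b hb).2, (hg b' hb').2] at hf
    exact hne (by rw [hf])

theorem dirc_radius_num {C ε N M A dd : ℝ} (hC : 1 ≤ C) (hε : ε = 1 / (4 * C)) (hdd : 2 ≤ dd)
    (hN : 1 ≤ ε * N) (hM1 : 1 ≤ M) (hM : M ≤ ε * A) (hA : 0 ≤ A) (hAN : A ^ dd = N)
    (hcount : N - 1 ≤ C * M ^ (dd - 2) * (2 * M) * M) : False := by
  have hC0 : 0 < C := by linarith
  have hε0 : 0 < ε := by rw [hε]; positivity
  have hε1 : ε ≤ 1 := by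
    rw [hε, div_le_one (by positivity)]
    linarith
  have hM0 : 0 < M := by linarith
  have hN0 : 0 < N := by
    by_contra h
    have : ε * N ≤ 0 := mul_nonpos_of_nonneg_of_nonpos hε0.le (not_lt.mp h)
    linarith
  have h1 : M ^ (dd - 2) * (M * M) = M ^ dd := by
    have : M * M = M ^ (2 : ℝ) := by rw [Real.rpow_two]; ring
    rw [this, ← Real.rpow_add hM0]
    congr 1
    ring
  have h2 : M ^ dd ≤ ε * N := by
    calc M ^ dd ≤ (ε * A) ^ dd := Real.rpow_le_rpow hM0.le hM (by linarith)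
      _ = ε ^ dd * N := by rw [Real.mul_rpow hε0.le hA, hAN]
      _ ≤ ε ^ (1 : ℝ) * N :=
        mul_le_mul_of_nonneg_right (Real.rpow_le_rpow_of_exponent_ge hε0 hε1 (by linarith)) hN0.le
      _ = ε * N := by rw [Real.rpow_one]
  have h3 : N - 1 ≤ 2 * C * (ε * N) := by
    calc N - 1 ≤ C * M ^ (dd - 2) * (2 * M) * M := hcount
      _ = 2 * C * (M ^ (dd - 2) * (M * M)) := by ring
      _ = 2 * C * M ^ dd := by rw [h1]
      _ ≤ 2 * C * (ε * N) := mul_le_mul_of_nonneg_left h2 (by positivity)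
  have h4 : 2 * C * (ε * N) = N / 2 := by
    rw [hε]; field_simp; ring
  have h5 : 4 * C ≤ N := by
    rw [hε] at hN
    have : 1 / (4 * C) * N = N / (4 * C) := by ring
    rw [this, le_div_iff₀ (by positivity)] at hN
    linarith
  linarith

theorem dir_radius (IH : ∀ u, 3 ≤ u → u < d → MainStmt u) :
    ∃ ε : ℝ, 0 < ε ∧ ∀ (P : Finset (Pt d)) (p : Pt d) (U : Submodule ℝ (Pt d)), p ∈ P →
      4 ≤ Module.finrank ℝ U → 1 ≤ ε * (P.card : ℝ) → (dM P : ℝ) ≤ ε * dA P →
      ∃ Z ⊆ P, 2 * dM P ≤ Z.card ∧ (∃ r : ℝ, ∀ z ∈ Z, dist z p = r) ∧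
        ∀ z ∈ Z, ∀ z' ∈ Z, z ≠ z' → z - z' ∉ Uᗮ := by
  classical
  obtain ⟨C, hC, hfib⟩ := dirc_fibre IH
  refine ⟨1 / (4 * C), by positivity, ?_⟩
  intro P p U hp hU hN hM
  have hrank : Module.finrank ℝ U + Module.finrank ℝ Uᗮ = d := by
    have := Submodule.finrank_add_finrank_orthogonal U
    rwa [finrank_euclideanSpace_fin] at this
  have hV : Module.finrank ℝ Uᗮ + 4 ≤ d := by omega
  have hd4 : 4 ≤ d := by omega
  let π : Pt d → (Pt d ⧸ Uᗮ) := fun z => Submodule.Quotient.mk z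
  have hπ : ∀ z z' : Pt d, π z = π z' ↔ z - z' ∈ Uᗮ := fun z z' => Submodule.Quotient.eq Uᗮ
  by_contra hcon
  -- every radius class has fewer than `2M` projection classes
  have hcls : ∀ r : ℝ, ((P.filter fun z => dist z p = r).image π).card < 2 * dM P := by
    intro r
    by_contra hge
    obtain ⟨Z, hZ, hcard, hZne⟩ := dirc_reps (P.filter fun z => dist z p = r) π
    apply hcon
    refine ⟨Z, hZ.trans (Finset.filter_subset _ _), by rw [hcard]; exact not_lt.mp hge,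
      ⟨r, fun z hz => (Finset.mem_filter.mp (hZ hz)).2⟩, ?_⟩
    intro z hz z' hz' hne hmem
    exact hZne z hz z' hz' hne ((hπ z z').mpr hmem)
  set n := ⌊C * (dM P : ℝ) ^ ((d : ℝ) / 2 - 2)⌋₊ with hn
  have hQ : ∀ r : ℝ, (P.filter fun z => dist z p = r).card ≤ n * (2 * dM P) := by
    intro r
    have h1 := Finset.card_le_mul_card_image (f := π) (P.filter fun z => dist z p = r) n (by
      intro c _
      have h2 := hfib P ((P.filter fun z => dist z p = r).filter fun z => π z = c)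
        ((Finset.filter_subset _ _).trans (Finset.filter_subset _ _)) p r
        (fun z hz => (Finset.mem_filter.mp (Finset.mem_filter.mp hz).1).2) Uᗮ hV (by
          intro x hx y hy
          rw [← hπ, (Finset.mem_filter.mp hx).2, (Finset.mem_filter.mp hy).2])
      exact Nat.le_floor h2)
    exact h1.trans (Nat.mul_le_mul_left n (hcls r).le)
  have hcount : (P.erase p).card ≤ (n * (2 * dM P)) * (distinctDistances P).card := by
    refine Finset.card_le_mul_card_image_of_maps_to (f := fun z => dist z p) ?_ _ ?_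
    · intro z hz
      rw [Finset.mem_erase] at hz
      exact dirc_mem_dd hz.2 hp hz.1
    · intro r _
      refine (Finset.card_le_card ?_).trans (hQ r)
      exact Finset.filter_subset_filter _ (Finset.erase_subset _ _)
  have hM1 : (1 : ℝ) ≤ dM P := by exact_mod_cast dirc_dM_pos P
  have hnle : (n : ℝ) ≤ C * (dM P : ℝ) ^ ((d : ℝ) / 2 - 2) := Nat.floor_le (by positivity)
  have hΔ : ((distinctDistances P).card : ℝ) ≤ dM P := by
    unfold dM; push_cast; linarith
  have hcount' : (P.card : ℝ) - 1 ≤ C * (dM P : ℝ) ^ ((d : ℝ) / 2 - 2) * (2 * dM P) * dM P := by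
    have h1 : (P.card : ℝ) - 1 = ((P.erase p).card : ℝ) := by
      rw [Finset.card_erase_of_mem hp, Nat.cast_sub (Finset.card_pos.mpr ⟨p, hp⟩)]
      simp
    rw [h1]
    calc ((P.erase p).card : ℝ) ≤ ((n * (2 * dM P)) * (distinctDistances P).card : ℕ) := by
          exact_mod_cast hcount
      _ = (n : ℝ) * (2 * dM P) * ((distinctDistances P).card : ℝ) := by push_cast; ring
      _ ≤ C * (dM P : ℝ) ^ ((d : ℝ) / 2 - 2) * (2 * dM P) * dM P := by
          apply mul_le_mul _ hΔ (Nat.cast_nonneg _) (by positivity)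
          exact mul_le_mul_of_nonneg_right hnle (by positivity)
  have hd4' : (4 : ℝ) ≤ d := by exact_mod_cast hd4
  have hAN : dA P ^ ((d : ℝ) / 2) = (P.card : ℝ) := by
    unfold dA
    rw [← Real.rpow_mul (Nat.cast_nonneg _), show (2 : ℝ) / d * (d / 2) = 1 by field_simp,
      Real.rpow_one]
  exact dirc_radius_num hC rfl (by linarith) hN hM1 hM (Real.rpow_nonneg (Nat.cast_nonneg _) _) hAN
    hcount'

end Claimed.Agent.R273
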