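import Claimed.Agent.R273.DirPlane
import Claimed.Agent.R273.DirCaps

/-!
# Row 273, package T1: THE BASE OF CLAIM(l): `l = 3`  (from the plane lemma)

Blueprint: helper37.
-/

set_option autoImplicit false

namespace Claimed.Agent.R273

open Claims.C0444 MvPolynomial Finset

variable {d : ℕ}

theorem dirb_extend {M : Type*} [AddCommGroup M] [Module ℝ M] {n : ℕ} (v : Fin n → M)
    (hv : LinearIndependent ℝ v) (k : ℕ) (hnk : n ≤ k) (hk : k ≤ Module.finrank ℝ M) :
    ∃ v' : Fin k → M, LinearIndependent ℝ v' ∧ Set.range v ⊆ Set.range v' := by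
  induction k, hnk using Nat.le_induction with
  | base => exact ⟨v, hv, subset_rfl⟩
  | succ k hnk ih =>
    obtain ⟨v', hv', hr⟩ := ih (by omega)
    obtain ⟨x, hx⟩ := exists_linearIndependent_snoc_of_lt_finrank hv' (by omega)
    refine ⟨Fin.snoc v' x, hx, hr.trans ?_⟩
    rintro _ ⟨i, rfl⟩
    exact ⟨i.castSucc, by simp⟩

theorem dirb_cindep {m : ℕ} (b : Fin m → Pt d) (hb : LinearIndependent ℝ b) :
    LinearIndependent ℂ (fun i : Fin m => (fun j : Fin d => ((b i j : ℝ) : ℂ))) := by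
  rw [Fintype.linearIndependent_iff] at hb ⊢
  intro g hg i
  have hre : ∑ i, (g i).re • b i = 0 := by
    ext j
    have := congrArg Complex.re (congrFun hg j)
    simpa [Finset.sum_apply] using this
  have him : ∑ i, (g i).im • b i = 0 := by
    ext j
    have := congrArg Complex.im (congrFun hg j)
    simpa [Finset.sum_apply] using this
  exact Complex.ext (hb _ hre i) (hb _ him i)

/-- LEAF T1-B1.  **The chart.**  `dspan p S` has real dimension `≤ 3 ≤ d`: choose linearly independent `b 0, b 1, b 2 : Pt d` whose span contains it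
(extend a basis), `φ x = ∑ i, x i • (b i : complexified)`; `φ` is injective because real-independent real vectors are complex-independent
(separate real and imaginary parts); `a q` = the real coordinates of `q - p`, cast to `ℂ`. -/
theorem dirb_chart (hd : 3 ≤ d) (p : Pt d) (S : Finset (Pt d)) (h : Module.finrank ℝ (dspan p S) ≤ 3) :
    ∃ (φ : (Fin 3 → ℂ) →ₗ[ℂ] (Fin d → ℂ)) (a : Pt d → (Fin 3 → ℂ)), Function.Injective φ ∧
      ∀ q ∈ S, φ (a q) = cdir p q := by
  classical
  set W := dspan p S with hW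
  let b0 := Module.finBasis ℝ W
  have hv0 : LinearIndependent ℝ (fun i => (b0 i : Pt d)) :=
    b0.linearIndependent.map' W.subtype (Submodule.ker_subtype W)
  obtain ⟨b, hb, hr⟩ := dirb_extend _ hv0 3 h (by simpa using hd)
  have hWb : W ≤ Submodule.span ℝ (Set.range b) := by
    intro x hx
    have h1 : (⟨x, hx⟩ : W) ∈ Submodule.span ℝ (Set.range b0) := by
      rw [b0.span_eq]; trivial
    have h2 : W.subtype ⟨x, hx⟩ ∈ (Submodule.span ℝ (Set.range b0)).map W.subtype :=
      Submodule.mem_map_of_mem h1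
    rw [Submodule.map_span, ← Set.range_comp] at h2
    exact Submodule.span_mono hr h2
  have hex : ∀ q : Pt d, ∃ c : Fin 3 → ℝ, q ∈ S → ∑ i, c i • b i = q - p := by
    intro q
    by_cases hq : q ∈ S
    · have h1 : q - p ∈ W := Submodule.subset_span ⟨q, Finset.mem_coe.mpr hq, rfl⟩
      obtain ⟨c, hc⟩ := (Submodule.mem_span_range_iff_exists_fun ℝ).mp (hWb h1)
      exact ⟨c, fun _ => hc⟩
    · exact ⟨0, fun h => absurd h hq⟩
  choose c hc using hex
  refine ⟨Fintype.linearCombination ℂ (fun i : Fin 3 => (fun j : Fin d => ((b i j : ℝ) : ℂ))),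
    fun q i => ((c q i : ℝ) : ℂ), ?_, ?_⟩
  · exact (dirb_cindep b hb).fintypeLinearCombination_injective
  · intro q hq
    funext j
    have := congrArg (fun v : Pt d => v j) (hc q hq)
    simp only [Fintype.linearCombination_apply, Finset.sum_apply, Pi.smul_apply, smul_eq_mul, cdir]
    simp at this
    rw [← this]
    push_cast
    rfl

/-- LEAF T1-B2.  **The size of a star in a 3-space.**  `d = 3`: `|S| ≤ N = A^{3/2}`.  `d ≥ 4`: `dirc_flat` with `u = 3`, `W = dspan p S`
(`x - y = (x - p) - (y - p)`), and `M ≤ A`. -/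
theorem dirb_card (hd : 3 ≤ d) (IH : ∀ u, 3 ≤ u → u < d → MainStmt u) :
    ∃ C' : ℝ, 1 ≤ C' ∧ ∀ (P : Finset (Pt d)) (p : Pt d) (S : Finset (Pt d)), S ⊆ P → (dM P : ℝ) ≤ dA P →
      Module.finrank ℝ (dspan p S) ≤ 3 → (S.card : ℝ) ≤ C' * dA P ^ ((3 : ℝ) / 2) := by
  rcases Nat.eq_or_lt_of_le hd with h3 | h3
  · subst h3
    refine ⟨1, le_rfl, ?_⟩
    intro P p S hS _ _
    have h1 : dA P ^ ((3 : ℝ) / 2) = (P.card : ℝ) := by
      unfold dA
      rw [← Real.rpow_mul (Nat.cast_nonneg _)]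
      norm_num
    rw [h1, one_mul]
    exact_mod_cast Finset.card_le_card hS
  · obtain ⟨C, hC, hmain⟩ := dirc_flat (d := d) (u := 3) (by norm_num) hd (IH 3 le_rfl h3)
    refine ⟨C, hC, ?_⟩
    intro P p S hS hM hrk
    have h1 := hmain P S hS (dspan p S) hrk (by
      intro x hx y hy
      have hx' : x - p ∈ dspan p S := Submodule.subset_span ⟨x, Finset.mem_coe.mpr hx, rfl⟩
      have hy' : y - p ∈ dspan p S := Submodule.subset_span ⟨y, Finset.mem_coe.mpr hy, rfl⟩
      have := Submodule.sub_mem _ hx' hy'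
      simpa using this)
    refine h1.trans ?_
    have h2 : (dM P : ℝ) ^ (((3 : ℕ) : ℝ) / 2) ≤ dA P ^ ((3 : ℝ) / 2) := by
      norm_num
      exact Real.rpow_le_rpow (Nat.cast_nonneg _) hM (by norm_num)
    exact mul_le_mul_of_nonneg_left h2 (by linarith)

open Classical in
/-- LEAF T1-B3.  **Transport of the star hypotheses to the chart**: `T = S.image a`.  `a` is injective on `S` (`φ ∘ a = cdir p` there), so subsets of `T` are
images of subsets of `S` of the same cardinality; `line`: `φ (c • x) = c • φ x`; `curve`: the `PCurve` `⟨φ, F, k, ..⟩`, `Mem` with `x = a q`;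
rank: `cdir p '' S = φ '' T`, `dirk_map`. -/
theorem dirb_transport {P : Finset (Pt d)} {p : Pt d} {X S : Finset (Pt d)} {H K C' : ℝ}
    (hX : StarHyp P p X H K) (hS : S ⊆ X) (hcard : (S.card : ℝ) ≤ C' * dA P ^ ((3 : ℝ) / 2))
    (φ : (Fin 3 → ℂ) →ₗ[ℂ] (Fin d → ℂ)) (a : Pt d → (Fin 3 → ℂ)) (hφ : Function.Injective φ)
    (ha : ∀ q ∈ S, φ (a q) = cdir p q) :
    PlaneHyp (dA P) H K C' (S.image a) ∧ (S.image a).card = S.card ∧
      hP ((S.image a : Finset (Fin 3 → ℂ)) : Set (Fin 3 → ℂ)) ⌊dA P⌋₊ = dirRk P p S := by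
  have hinj : Set.InjOn a (S : Set (Pt d)) := by
    intro q hq q' hq' h
    apply cdir_injective p
    rw [← ha q hq, ← ha q' hq', h]
  have hc : (S.image a).card = S.card := Finset.card_image_of_injOn hinj
  -- subsets of the image
  have hsub : ∀ T' ⊆ S.image a, ∃ T ⊆ S, T.card = T'.card ∧ ∀ q ∈ T, a q ∈ T' := by
    intro T' hT'
    refine ⟨S.filter (fun q => a q ∈ T'), Finset.filter_subset _ _, ?_, ?_⟩
    · have h1 : (S.filter (fun q => a q ∈ T')).image a = T' := by
        ext x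
        simp only [Finset.mem_image, Finset.mem_filter]
        constructor
        · rintro ⟨q, ⟨_, h⟩, rfl⟩
          exact h
        · intro hx
          obtain ⟨q, hq, rfl⟩ := Finset.mem_image.mp (hT' hx)
          exact ⟨q, ⟨hq, hx⟩, rfl⟩
      have h2 : ((S.filter (fun q => a q ∈ T')).image a).card = (S.filter (fun q => a q ∈ T')).card :=
        Finset.card_image_of_injOn (hinj.mono (by
          intro q hq
          exact Finset.mem_coe.mpr (Finset.mem_filter.mp (Finset.mem_coe.mp hq)).1))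
      rw [h1] at h2
      exact h2.symm
    · intro q hq
      exact (Finset.mem_filter.mp hq).2
  refine ⟨⟨?_, ?_, ?_, ?_⟩, hc, ?_⟩
  · intro x hx h0
    obtain ⟨q, hq, rfl⟩ := Finset.mem_image.mp hx
    have h1 : cdir p q = 0 := by rw [← ha q hq, h0, map_zero]
    have hne : q ≠ p := fun h => hX.ne (h ▸ hS hq)
    exact cdir_ne_zero hne h1
  · rw [hc]; exact hcard
  · intro T' hT' hl
    obtain ⟨T, hTS, hTc, hTa⟩ := hsub T' hT'
    rw [← hTc]
    refine hX.line T (hTS.trans hS) ?_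
    intro q hq q' hq'
    obtain ⟨c, hc'⟩ := hl (a q) (hTa q hq) (a q') (hTa q' hq')
    refine ⟨c, ?_⟩
    rw [← ha q (hTS hq), ← ha q' (hTS hq'), hc', map_smul]
  · intro k F hF hF0 T' hT' hz
    obtain ⟨T, hTS, hTc, hTa⟩ := hsub T' hT'
    rw [← hTc]
    exact hX.curve ⟨φ, F, k, hφ, hF, hF0⟩ T (hTS.trans hS)
      (fun q hq => ⟨a q, ha q (hTS hq), hz _ (hTa q hq)⟩)
  · unfold dirRk
    have h1 : cdir p '' (S : Set (Pt d)) = φ '' ((S.image a : Finset (Fin 3 → ℂ)) : Set (Fin 3 → ℂ)) := by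
      rw [Finset.coe_image, Set.image_image]
      exact Set.image_congr (fun q hq => (ha q hq).symm)
    rw [h1, dirk_map φ hφ]

/-- **CLAIM(3)** (glue). -/
theorem dir_claim_base (hd : 3 ≤ d) (IH : ∀ u, 3 ≤ u → u < d → MainStmt u) (hpl : PlaneStmt) :
    ClaimStmt d 3 := by
  classical
  intro H K hH hK
  obtain ⟨C', hC', hcard⟩ := dirb_card hd IH
  obtain ⟨C, hC, hmain⟩ := hpl H K C' hH hK hC'
  refine ⟨C, 1 / 2, hC, by norm_num, ?_⟩
  intro P p X _ hM hX S hS hrk
  obtain ⟨h1, h2, h3, _⟩ := dir_regime (by norm_num : (0 : ℝ) < 1 / 2) le_rfl hM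
  have hA1 : 1 ≤ dA P := le_trans (by norm_num) h1
  have hMA : (dM P : ℝ) ≤ dA P := le_trans hM (by nlinarith)
  obtain ⟨φ, a, hφ, ha⟩ := dirb_chart hd p S hrk
  obtain ⟨t1, t2, t3⟩ := dirb_transport hX hS (hcard P p S (hS.trans hX.sub) hMA hrk) φ a hφ ha
  have := hmain (dA P) ⌊dA P⌋₊ (S.image a) hA1 h2 h3 t1
  rw [t2, t3] at this
  exact this

end Claimed.Agent.R273
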