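import Claimed.Agent.R273.DirCaps

/-!
# Row 273, package T1: THE SELECTION OF THE GRAPH  (L2, L3, L4 of the note "T1")

Blueprint: helper37.
* `dir_rich`   (L2): the ordered pairs on lines with more than `H` points of `P` number at most `C (N²/H + N M)`;
* `dir_greedy` (L3): greedy removal of the rich planar directional curves in one star;
* `dir_graph`  (L4): the graph of the surviving pairs.
-/

set_option autoImplicit false

namespace Claimed.Agent.R273

open Claims.C0444 MvPolynomial Finset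

variable {d : ℕ}

open Classical in
/-- the points of `P` on the line through `x.1`, `x.2` -/
noncomputable def onLine (P : Finset (Pt d)) (x : Pt d × Pt d) : Finset (Pt d) :=
  P.filter fun z => Collinear ℝ ({x.1, x.2, z} : Set (Pt d))

open Classical in
/-- the ordered pairs of distinct points of `P` on lines with more than `H` points of `P` -/
noncomputable def richPairs (P : Finset (Pt d)) (H : ℕ) : Finset (Pt d × Pt d) :=
  (P ×ˢ P).filter fun x => x.1 ≠ x.2 ∧ H < (onLine P x).card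

/-- dyadic summation (abstract form) -/
theorem dirg_dyadic {ι : Type*} (𝓛 : Finset ι) (n : ι → ℕ) {N C0 : ℝ} (hN : 0 ≤ N) (hC0 : 0 ≤ C0) (T : ℕ)
    (hT : ∀ L ∈ 𝓛, n L ≤ T)
    (hrich : ∀ t : ℕ, 2 ≤ t → ((𝓛.filter fun L => t ≤ n L).card : ℝ) ≤ C0 * (N ^ 2 / (t : ℝ) ^ 3 + N / (t : ℝ)))
    (h : ℕ) (hh : 2 ≤ h) :
    ∑ L ∈ 𝓛.filter (fun L => h ≤ n L), ((n L : ℝ)) ^ 2 ≤
      8 * C0 * N ^ 2 / (h : ℝ) + 4 * C0 * N * ((2 * T - h : ℕ) : ℝ) := by
  induction hm : T + 1 - h using Nat.strong_induction_on generalizing h with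
  | _ m ih =>
    have hh0 : (0 : ℝ) < (h : ℝ) := by
      have : 0 < h := by omega
      exact_mod_cast this
    by_cases hhT : T < h
    · have hempty : 𝓛.filter (fun L => h ≤ n L) = ∅ := by
        apply Finset.filter_eq_empty_iff.mpr
        intro L hL hc
        have := hT L hL
        omega
      rw [hempty, Finset.sum_empty]
      positivity
    · push Not at hhT
      have hrec := ih (T + 1 - 2 * h) (by omega) (2 * h) (by omega) rfl
      have hsplit : ∑ L ∈ 𝓛.filter (fun L => h ≤ n L), ((n L : ℝ)) ^ 2 =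
          ∑ L ∈ 𝓛.filter (fun L => 2 * h ≤ n L), ((n L : ℝ)) ^ 2 +
          ∑ L ∈ (𝓛.filter (fun L => h ≤ n L)).filter (fun L => ¬ 2 * h ≤ n L), ((n L : ℝ)) ^ 2 := by
        rw [← Finset.sum_filter_add_sum_filter_not (𝓛.filter (fun L => h ≤ n L)) (fun L => 2 * h ≤ n L)]
        congr 1
        apply Finset.sum_congr _ (fun _ _ => rfl)
        ext L
        simp only [Finset.mem_filter]
        constructor
        · rintro ⟨⟨h1, _⟩, h3⟩
          exact ⟨h1, h3⟩
        · rintro ⟨h1, h3⟩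
          exact ⟨⟨h1, by omega⟩, h3⟩
      have hmid : ∑ L ∈ (𝓛.filter (fun L => h ≤ n L)).filter (fun L => ¬ 2 * h ≤ n L), ((n L : ℝ)) ^ 2 ≤
          4 * C0 * N ^ 2 / (h : ℝ) + 4 * C0 * N * (h : ℝ) := by
        calc ∑ L ∈ (𝓛.filter (fun L => h ≤ n L)).filter (fun L => ¬ 2 * h ≤ n L), ((n L : ℝ)) ^ 2
            ≤ ∑ _L ∈ (𝓛.filter (fun L => h ≤ n L)).filter (fun L => ¬ 2 * h ≤ n L), (2 * (h : ℝ)) ^ 2 := by
              apply Finset.sum_le_sum
              intro L hL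
              have h2 := (Finset.mem_filter.mp hL).2
              have h3 : (n L : ℝ) ≤ 2 * (h : ℝ) := by
                have : n L ≤ 2 * h := by omega
                exact_mod_cast this
              exact pow_le_pow_left₀ (by positivity) h3 2
          _ = (((𝓛.filter (fun L => h ≤ n L)).filter (fun L => ¬ 2 * h ≤ n L)).card : ℝ) * (2 * (h : ℝ)) ^ 2 := by
              rw [Finset.sum_const, nsmul_eq_mul]
          _ ≤ ((𝓛.filter (fun L => h ≤ n L)).card : ℝ) * (2 * (h : ℝ)) ^ 2 := by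
              apply mul_le_mul_of_nonneg_right _ (by positivity)
              exact_mod_cast Finset.card_le_card (Finset.filter_subset _ _)
          _ ≤ (C0 * (N ^ 2 / (h : ℝ) ^ 3 + N / (h : ℝ))) * (2 * (h : ℝ)) ^ 2 :=
              mul_le_mul_of_nonneg_right (hrich h hh) (by positivity)
          _ = 4 * C0 * N ^ 2 / (h : ℝ) + 4 * C0 * N * (h : ℝ) := by
              field_simp
              ring
      have hcast : ((2 * T - 2 * h : ℕ) : ℝ) + (h : ℝ) = ((2 * T - h : ℕ) : ℝ) := by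
        have : 2 * T - 2 * h + h = 2 * T - h := by omega
        exact_mod_cast this
      have hhalf : 8 * C0 * N ^ 2 / ((2 * h : ℕ) : ℝ) = 4 * C0 * N ^ 2 / (h : ℝ) := by
        push_cast
        field_simp
        ring
      rw [hsplit]
      rw [hhalf] at hrec
      rw [← hcast, mul_add]
      have e : 8 * C0 * N ^ 2 / (h : ℝ) = 4 * C0 * N ^ 2 / (h : ℝ) + 4 * C0 * N ^ 2 / (h : ℝ) := by ring
      rw [e]
      linarith

open Classical in
/-- the points of `P` on the line through two distinct points -/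
theorem dirg_onLine_eq (P : Finset (Pt d)) {x : Pt d × Pt d} (hx : x.1 ≠ x.2) :
    onLine P x = P.filter fun z => z ∈ line[ℝ, x.1, x.2] := by
  unfold onLine
  apply Finset.filter_congr
  intro z _
  constructor
  · intro hc
    exact hc.mem_affineSpan_of_mem_of_ne (by simp) (by simp) (by simp) hx
  · intro hz
    have := collinear_insert_of_mem_affineSpan_pair hz
    have e : ({x.1, x.2, z} : Set (Pt d)) = {z, x.1, x.2} := by
      ext w
      simp only [Set.mem_insert_iff, Set.mem_singleton_iff]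
      tauto
    rw [e]; exact this

/-- LEAF T1-G1.  **(L2) rich pairs.**  Let `𝓛_t` be the set of the lines `line[ℝ, x.1, x.2]`, `x ∈ P × P` off the diagonal, with at least `t` points of `P`;
`|𝓛_t| ≤ C0 (N²/t³ + N/t)` (`RichLinesStmt`), every line has `n_L ≤ 2M` points (`dirc_line`).  The number of rich pairs is
`∑_{n_L > H} n_L (n_L - 1) ≤ ∑_{n_L > H} n_L² = ∑_{n_L > H} ∑_{t ≤ n_L} (2t - 1) ≤ (H+1)² |𝓛_{H+1}| + ∑_{H+1 < t ≤ 2M} 2t |𝓛_t|`
`≤ C0 (N²/(H+1) + N (H+1)) + 2 C0 N² ∑_{t > H+1} t^{-2} + 2 C0 N · 2M ≤ 3 C0 N²/H + 6 C0 N M`   (if a rich line exists then `H + 1 ≤ 2M`).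
(A dyadic decomposition is an equally good route.) -/
theorem dir_rich (hR : RichLinesStmt d) :
    ∃ C : ℝ, 1 ≤ C ∧ ∀ (P : Finset (Pt d)) (H : ℕ), 1 ≤ H →
      ((richPairs P H).card : ℝ) ≤ C * ((P.card : ℝ) ^ 2 / H + (P.card : ℝ) * dM P) := by
  classical
  obtain ⟨C0, hC0, hrl⟩ := hR
  refine ⟨max 1 (16 * C0), le_max_left _ _, ?_⟩
  intro P H hH
  obtain ⟨ℓ, hℓ⟩ : ∃ ℓ : Pt d × Pt d → AffineSubspace ℝ (Pt d), ℓ = fun x => line[ℝ, x.1, x.2] := ⟨_, rfl⟩
  obtain ⟨n, hn⟩ : ∃ n : AffineSubspace ℝ (Pt d) → ℕ, n = fun L => (P.filter fun z => z ∈ L).card := ⟨_, rfl⟩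
  obtain ⟨𝓛, h𝓛⟩ : ∃ 𝓛 : Finset (AffineSubspace ℝ (Pt d)), 𝓛 = (richPairs P H).image ℓ := ⟨_, rfl⟩
  have hmem : ∀ L ∈ 𝓛, ∃ x : Pt d × Pt d, x.1 ∈ P ∧ x.2 ∈ P ∧ x.1 ≠ x.2 ∧ H < n L ∧ L = line[ℝ, x.1, x.2] := by
    intro L hL
    rw [h𝓛, Finset.mem_image] at hL
    obtain ⟨x, hx, rfl⟩ := hL
    unfold richPairs at hx
    rw [Finset.mem_filter, Finset.mem_product] at hx
    obtain ⟨⟨h1, h2⟩, h3, h4⟩ := hx
    refine ⟨x, h1, h2, h3, ?_, by rw [hℓ]⟩
    rw [dirg_onLine_eq P h3] at h4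
    rw [hn, hℓ]; exact h4
  have hrank : ∀ L ∈ 𝓛, Module.finrank ℝ L.direction = 1 := by
    intro L hL
    obtain ⟨x, _, _, h3, _, rfl⟩ := hmem L hL
    rw [direction_affineSpan, vectorSpan_pair]
    apply finrank_span_singleton
    rw [vsub_ne_zero]; exact h3
  have hT : ∀ L ∈ 𝓛, n L ≤ 2 * dM P := by
    intro L hL
    rw [hn]
    apply dirc_line (Finset.filter_subset _ _)
    have hfd := hrank L hL
    rw [collinear_iff_finrank_le_one]
    rw [← hfd]
    apply Submodule.finrank_mono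
    rw [← direction_affineSpan]
    apply AffineSubspace.direction_le
    rw [affineSpan_le]
    intro z hz
    exact (Finset.mem_filter.mp hz).2
  have hrich : ∀ t : ℕ, 2 ≤ t → ((𝓛.filter fun L => t ≤ n L).card : ℝ) ≤
      C0 * ((P.card : ℝ) ^ 2 / (t : ℝ) ^ 3 + (P.card : ℝ) / (t : ℝ)) := by
    intro t ht
    apply hrl P t ht
    intro L hL
    obtain ⟨hL1, hL2⟩ := Finset.mem_filter.mp hL
    refine ⟨hrank L hL1, P.filter (fun z => z ∈ L), Finset.filter_subset _ _, ?_, ?_⟩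
    · rw [hn] at hL2; exact hL2
    · intro z hz
      exact (Finset.mem_filter.mp hz).2
  have hdy := dirg_dyadic 𝓛 n (N := (P.card : ℝ)) (by positivity) hC0.le (2 * dM P) hT hrich (H + 1) (by omega)
  have hall : 𝓛.filter (fun L => H + 1 ≤ n L) = 𝓛 := by
    apply Finset.filter_true_of_mem
    intro L hL
    obtain ⟨x, _, _, _, h4, _⟩ := hmem L hL
    omega
  rw [hall] at hdy
  have hcount : ((richPairs P H).card : ℝ) ≤ ∑ L ∈ 𝓛, ((n L : ℝ)) ^ 2 := by
    have h1 : (richPairs P H).card = ∑ L ∈ 𝓛, ((richPairs P H).filter fun x => ℓ x = L).card := by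
      rw [h𝓛]; exact Finset.card_eq_sum_card_image ℓ _
    rw [h1]
    push_cast
    apply Finset.sum_le_sum
    intro L _
    have hsub : ((richPairs P H).filter fun x => ℓ x = L) ⊆
        (P.filter fun z => z ∈ L) ×ˢ (P.filter fun z => z ∈ L) := by
      intro x hx
      obtain ⟨hx1, hx2⟩ := Finset.mem_filter.mp hx
      unfold richPairs at hx1
      rw [Finset.mem_filter, Finset.mem_product] at hx1
      rw [Finset.mem_product, Finset.mem_filter, Finset.mem_filter]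
      rw [hℓ] at hx2
      refine ⟨⟨hx1.1.1, ?_⟩, ⟨hx1.1.2, ?_⟩⟩
      · rw [← hx2]; exact left_mem_affineSpan_pair ℝ _ _
      · rw [← hx2]; exact right_mem_affineSpan_pair ℝ _ _
    have h2 := Finset.card_le_card hsub
    rw [Finset.card_product] at h2
    have h3 : (((richPairs P H).filter fun x => ℓ x = L).card : ℝ) ≤ (n L : ℝ) * (n L : ℝ) := by
      rw [hn]; exact_mod_cast h2
    rw [sq]; exact h3
  obtain ⟨N, hNdef⟩ : ∃ N : ℝ, N = (P.card : ℝ) := ⟨_, rfl⟩
  have hN0 : 0 ≤ N := by rw [hNdef]; positivity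
  rw [← hNdef] at hdy ⊢
  have hH0 : (0 : ℝ) < (H : ℝ) := by exact_mod_cast hH
  have b1 : 8 * C0 * N ^ 2 / ((H + 1 : ℕ) : ℝ) ≤ 16 * C0 * (N ^ 2 / (H : ℝ)) := by
    have : N ^ 2 / ((H + 1 : ℕ) : ℝ) ≤ N ^ 2 / (H : ℝ) := by
      apply div_le_div_of_nonneg_left (by positivity) hH0
      push_cast; linarith
    have h0 : 0 ≤ N ^ 2 / (H : ℝ) := by positivity
    calc 8 * C0 * N ^ 2 / ((H + 1 : ℕ) : ℝ) = 8 * C0 * (N ^ 2 / ((H + 1 : ℕ) : ℝ)) := by ring
      _ ≤ 8 * C0 * (N ^ 2 / (H : ℝ)) := mul_le_mul_of_nonneg_left this (by positivity)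
      _ ≤ 16 * C0 * (N ^ 2 / (H : ℝ)) := by nlinarith
  have b2 : 4 * C0 * N * ((2 * (2 * dM P) - (H + 1) : ℕ) : ℝ) ≤ 16 * C0 * (N * (dM P : ℝ)) := by
    have : ((2 * (2 * dM P) - (H + 1) : ℕ) : ℝ) ≤ 4 * (dM P : ℝ) := by
      have : 2 * (2 * dM P) - (H + 1) ≤ 4 * dM P := by omega
      exact_mod_cast this
    calc 4 * C0 * N * ((2 * (2 * dM P) - (H + 1) : ℕ) : ℝ) ≤ 4 * C0 * N * (4 * (dM P : ℝ)) :=
          mul_le_mul_of_nonneg_left this (by positivity)
      _ = 16 * C0 * (N * (dM P : ℝ)) := by ring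
  have hpos : 0 ≤ N ^ 2 / (H : ℝ) + N * (dM P : ℝ) := by positivity
  calc ((richPairs P H).card : ℝ) ≤ ∑ L ∈ 𝓛, ((n L : ℝ)) ^ 2 := hcount
    _ ≤ 16 * C0 * (N ^ 2 / (H : ℝ) + N * (dM P : ℝ)) := by rw [mul_add]; linarith
    _ ≤ max 1 (16 * C0) * (N ^ 2 / (H : ℝ) + N * (dM P : ℝ)) :=
        mul_le_mul_of_nonneg_right (le_max_right _ _) hpos

/-- LEAF T1-G2.  **(L3) greedy.**  Strong induction on `|X0|`: if some curve `c` and some `T ⊆ X0` on it violate `|T| ≤ κ deg c`, remove `T`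
(nonempty, since `0 ≤ κ deg c`) and put `c` on the list: `κ deg c < |T|`. -/
theorem dir_greedy (p : Pt d) (X0 : Finset (Pt d)) {κ : ℝ} (hκ : 0 < κ) :
    ∃ (Cs : List (PCurve d)) (R : Finset (Pt d)), R ⊆ X0 ∧
      κ * (((Cs.map PCurve.deg).sum : ℕ) : ℝ) ≤ (X0.card : ℝ) - R.card ∧
      (∀ q ∈ X0, q ∉ R → ∃ c ∈ Cs, c.Mem (cdir p q)) ∧
      ∀ c : PCurve d, ∀ T ⊆ R, (∀ q ∈ T, c.Mem (cdir p q)) → (T.card : ℝ) ≤ κ * c.deg := by
  classical
  induction X0 using Finset.strongInduction with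
  | H X0 ih =>
    by_cases hgood : ∀ c : PCurve d, ∀ T ⊆ X0, (∀ q ∈ T, c.Mem (cdir p q)) → (T.card : ℝ) ≤ κ * c.deg
    · refine ⟨[], X0, Finset.Subset.refl _, by simp, ?_, hgood⟩
      intro q hq hq'
      exact absurd hq hq'
    · push Not at hgood
      obtain ⟨c, T, hT, hmem, hlt⟩ := hgood
      have hTne : T.Nonempty := by
        rw [Finset.nonempty_iff_ne_empty]
        rintro rfl
        simp only [Finset.card_empty, Nat.cast_zero] at hlt
        have : 0 ≤ κ * (c.deg : ℝ) := by positivity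
        linarith
      have hss : X0 \ T ⊂ X0 := by
        refine Finset.ssubset_iff_subset_ne.mpr ⟨Finset.sdiff_subset, ?_⟩
        intro heq
        obtain ⟨t, ht⟩ := hTne
        have : t ∈ X0 \ T := by rw [heq]; exact hT ht
        exact (Finset.mem_sdiff.mp this).2 ht
      obtain ⟨Cs, R, hR, hsum, hcov, hres⟩ := ih (X0 \ T) hss
      refine ⟨c :: Cs, R, hR.trans Finset.sdiff_subset, ?_, ?_, hres⟩
      · have hcard : ((X0 \ T).card : ℝ) = (X0.card : ℝ) - T.card := by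
          rw [Finset.card_sdiff_of_subset hT, Nat.cast_sub (Finset.card_le_card hT)]
        simp only [List.map_cons, List.sum_cons, Nat.cast_add]
        rw [hcard] at hsum
        rw [mul_add]
        linarith
      · intro q hq hqR
        by_cases hqT : q ∈ T
        · exact ⟨c, by simp, hmem q hqT⟩
        · obtain ⟨c', hc', hm⟩ := hcov q (Finset.mem_sdiff.mpr ⟨hq, hqT⟩) hqR
          exact ⟨c', List.mem_cons_of_mem _ hc', hm⟩

/-- LEAF T1-G3.  Partners in one complex direction are on one real line: `cdir p q' = c • cdir p q` with real nonzero vectors forces `c` real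
(compare a nonzero coordinate), so `q' - p = c (q - p)` and `{p, q, q'}` is collinear. -/
theorem dir_collinear {p q q' : Pt d} (hq : q ≠ p) (h : ∃ c : ℂ, cdir p q' = c • cdir p q) :
    Collinear ℝ ({p, q, q'} : Set (Pt d)) := by
  obtain ⟨c, hc⟩ := h
  -- a nonzero coordinate
  have hex : ∃ i, q i - p i ≠ 0 := by
    by_contra hcon
    push Not at hcon
    apply hq
    ext i
    have := hcon i
    linarith
  obtain ⟨i, hi⟩ := hex
  have hcoord : ∀ j, ((q' j - p j : ℝ) : ℂ) = c * ((q j - p j : ℝ) : ℂ) := by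
    intro j
    have := congrFun hc j
    simpa [cdir] using this
  have hcre : c = ((c.re : ℝ) : ℂ) := by
    have h1 := hcoord i
    have hne : ((q i - p i : ℝ) : ℂ) ≠ 0 := by exact_mod_cast hi
    have : c = ((q' i - p i : ℝ) : ℂ) / ((q i - p i : ℝ) : ℂ) := by
      rw [h1]; field_simp
    have h2 : c = (((q' i - p i) / (q i - p i) : ℝ) : ℂ) := by
      rw [this]; push_cast; ring
    rw [h2, Complex.ofReal_re]
  have hvec : q' - p = c.re • (q - p) := by
    ext j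
    have h1 := hcoord j
    rw [hcre] at h1
    have h2 : ((q' j - p j : ℝ) : ℂ) = ((c.re * (q j - p j) : ℝ) : ℂ) := by
      rw [h1]; push_cast; ring
    have h3 : q' j - p j = c.re * (q j - p j) := by exact_mod_cast h2
    simpa using h3
  rw [collinear_iff_of_mem (p₀ := p) (by simp)]
  refine ⟨q - p, ?_⟩
  intro x hx
  simp only [Set.mem_insert_iff, Set.mem_singleton_iff] at hx
  rcases hx with rfl | rfl | rfl
  · exact ⟨0, by simp⟩
  · exact ⟨1, by simp⟩
  · refine ⟨c.re, ?_⟩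
    rw [← hvec]; simp

/-- the body of `SparseStmt d` at a fixed `δ` -/
def SparseAt (d : ℕ) (δ : ℝ) : Prop :=
  ∀ P : Finset (Pt d), 1 ≤ δ * (P.card : ℝ) → (dM P : ℝ) ≤ δ * dA P →
    ∀ C : Pt d → List (PCurve d),
      (∀ p ∈ P, ((((C p).map PCurve.deg).sum : ℕ) : ℝ) ≤ δ * (P.card : ℝ) / dA P) →
      ∀ U : Finset (Pt d × Pt d),
        (∀ p ∈ P, ∀ q ∈ P, p ≠ q → (p, q) ∈ U ∨ CovAt C p q ∨ CovAt C q p) →
        δ * (P.card : ℝ) ^ 2 < (U.card : ℝ)

/-- LEAF T1-G4.  **(L4) the graph of the survivors.**  `C0` from `dir_rich`; `H = ⌈4 C0 / δ⌉₊ + 1`, `K = max 1 (1/δ)`, `ε = min δ (δ / (4 C0))` (and `≤ 1`).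
For `p ∈ P` apply `dir_greedy p (P.erase p)` with `κ = K A` (`A > 0`): lists `C p`, residues `R p` (`Classical.choose`; `C p = []` outside `P`);
`∑ deg ≤ N / (K A) ≤ δ N / A`.
`G = {(p,q) ∈ P × P : p ≠ q, (p,q) ∉ richPairs P H, q ∈ R p, p ∈ R q}` (symmetric: `Collinear` does not see the order of `p, q`), `U = richPairs P H ∪ G`.
`SparseAt`: `δ N² < |U| ≤ C0 (N²/H + N M) + |G|`, `C0 N²/H ≤ δ N²/4`, `C0 N M ≤ C0 ε N A ≤ C0 ε N² ≤ δ N²/4` (`A = N^{2/d} ≤ N`).
`StarHyp`: `line`: `T ⊆ star G p` in one direction, `q ∈ T`: `T ⊆ onLine P (p, q)` (`dir_collinear`), which has at most `H` points; `curve`: `star G p ⊆ R p`. -/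
theorem dir_graph (hd : 3 ≤ d) (hR : RichLinesStmt d) {δ : ℝ} (hδ : 0 < δ) (hS : SparseAt d δ) :
    ∃ H K ε : ℝ, 1 ≤ H ∧ 1 ≤ K ∧ 0 < ε ∧ ∀ P : Finset (Pt d), 1 ≤ ε * (P.card : ℝ) →
      (dM P : ℝ) ≤ ε * dA P →
      ∃ G : Finset (Pt d × Pt d), IsGraphOn P G ∧ δ / 2 * (P.card : ℝ) ^ 2 ≤ (G.card : ℝ) ∧
        ∀ p ∈ P, StarHyp P p (star G p) H K := by
  classical
  obtain ⟨C0, hC0, hrich⟩ := dir_rich hR
  have hC0pos : 0 < C0 := by linarith
  obtain ⟨Hn, hHn⟩ : ∃ Hn : ℕ, Hn = ⌈4 * C0 / δ⌉₊ + 1 := ⟨_, rfl⟩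
  have hHn1 : 1 ≤ Hn := by omega
  have hHnR : 4 * C0 / δ ≤ (Hn : ℝ) := by
    rw [hHn]; push_cast
    have := Nat.le_ceil (4 * C0 / δ)
    linarith
  have hHnpos : (0 : ℝ) < (Hn : ℝ) := by exact_mod_cast hHn1
  obtain ⟨K, hK⟩ : ∃ K : ℝ, K = max 1 (1 / δ) := ⟨_, rfl⟩
  have hK1 : 1 ≤ K := by rw [hK]; exact le_max_left _ _
  have hKδ : 1 / δ ≤ K := by rw [hK]; exact le_max_right _ _
  obtain ⟨ε, hεdef⟩ : ∃ ε : ℝ, ε = min δ (min (δ / (4 * C0)) 1) := ⟨_, rfl⟩
  have hε0 : 0 < ε := by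
    rw [hεdef]; exact lt_min hδ (lt_min (by positivity) one_pos)
  have hεδ : ε ≤ δ := by rw [hεdef]; exact min_le_left _ _
  have hεC : ε ≤ δ / (4 * C0) := by
    rw [hεdef]; exact (min_le_right _ _).trans (min_le_left _ _)
  have hε1 : ε ≤ 1 := by
    rw [hεdef]; exact (min_le_right _ _).trans (min_le_right _ _)
  refine ⟨(Hn : ℝ), K, ε, by exact_mod_cast hHn1, hK1, hε0, ?_⟩
  intro P hN hM
  obtain ⟨N, hNdef⟩ : ∃ N : ℝ, N = (P.card : ℝ) := ⟨_, rfl⟩
  have hN0 : 0 ≤ N := by rw [hNdef]; positivity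
  rw [← hNdef] at hN ⊢
  have hN1 : 1 ≤ N := by
    calc (1 : ℝ) ≤ ε * N := hN
      _ ≤ 1 * N := mul_le_mul_of_nonneg_right hε1 hN0
      _ = N := one_mul N
  have hA1 : 1 ≤ dA P := by
    unfold dA
    rw [← hNdef]
    exact Real.one_le_rpow hN1 (by positivity)
  have hAN : dA P ≤ N := by
    unfold dA
    rw [← hNdef]
    have hd' : (3 : ℝ) ≤ (d : ℝ) := by exact_mod_cast hd
    calc N ^ ((2 : ℝ) / d) ≤ N ^ (1 : ℝ) := by
          apply Real.rpow_le_rpow_of_exponent_le hN1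
          rw [div_le_one (by linarith)]
          linarith
      _ = N := Real.rpow_one _
  obtain ⟨A, hAdef⟩ : ∃ A : ℝ, A = dA P := ⟨_, rfl⟩
  rw [← hAdef] at hA1 hAN hM
  have hA0 : 0 < A := by linarith
  have hκ : 0 < K * A := by positivity
  choose Cs R hRsub hsum hcov hres using fun p : Pt d => dir_greedy p (P.erase p) hκ
  -- symmetry of the rich pairs
  have hsymm : ∀ x : Pt d × Pt d, x ∈ richPairs P Hn → x.swap ∈ richPairs P Hn := by
    intro x hx
    unfold richPairs at hx ⊢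
    rw [Finset.mem_filter, Finset.mem_product] at hx ⊢
    obtain ⟨⟨h1, h2⟩, h3, h4⟩ := hx
    refine ⟨⟨h2, h1⟩, fun h => h3 h.symm, ?_⟩
    have : onLine P x.swap = onLine P x := by
      unfold onLine
      apply Finset.filter_congr
      intro z _
      simp only [Prod.fst_swap, Prod.snd_swap]
      rw [Set.insert_comm]
    rw [this]; exact h4
  obtain ⟨G, hGdef⟩ : ∃ G : Finset (Pt d × Pt d), G = (P ×ˢ P).filter (fun x => x.1 ≠ x.2 ∧
      x ∉ richPairs P Hn ∧ x.2 ∈ R x.1 ∧ x.1 ∈ R x.2) := ⟨_, rfl⟩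
  have hGmem : ∀ p q : Pt d, (p, q) ∈ G ↔ (p ∈ P ∧ q ∈ P) ∧ p ≠ q ∧ (p, q) ∉ richPairs P Hn ∧
      q ∈ R p ∧ p ∈ R q := by
    intro p q
    rw [hGdef, Finset.mem_filter, Finset.mem_product]
  have hstar : ∀ p q : Pt d, q ∈ star G p ↔ (p, q) ∈ G := by
    intro p q
    unfold star
    simp only [Finset.mem_image, Finset.mem_filter, Prod.exists, exists_eq_right]
  refine ⟨G, ⟨?_, ?_, ?_⟩, ?_, ?_⟩
  · rw [hGdef]; exact Finset.filter_subset _ _
  · rintro ⟨p, q⟩ hx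
    exact ((hGmem p q).mp hx).2.1
  · rintro ⟨p, q⟩ hx
    obtain ⟨⟨h1, h2⟩, h3, h4, h5, h6⟩ := (hGmem p q).mp hx
    refine (hGmem q p).mpr ⟨⟨h2, h1⟩, h3.symm, ?_, h6, h5⟩
    intro h
    exact h4 (hsymm _ h)
  · -- the count
    have hdeg : ∀ p ∈ P, ((((Cs p).map PCurve.deg).sum : ℕ) : ℝ) ≤ δ * (P.card : ℝ) / dA P := by
      intro p hp
      rw [← hNdef, ← hAdef]
      have h1 := hsum p
      have h2 : ((P.erase p).card : ℝ) ≤ N := by
        rw [hNdef]; exact_mod_cast Finset.card_le_card (Finset.erase_subset _ _)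
      have h3 : (0 : ℝ) ≤ ((R p).card : ℝ) := by positivity
      obtain ⟨σ, hσ⟩ : ∃ σ : ℝ, σ = ((((Cs p).map PCurve.deg).sum : ℕ) : ℝ) := ⟨_, rfl⟩
      have hσ0 : 0 ≤ σ := by rw [hσ]; positivity
      rw [← hσ] at h1 ⊢
      rw [le_div_iff₀ hA0]
      have h4 : K * A * σ ≤ N := by linarith
      have h5 : 1 ≤ δ * K := by
        have := mul_le_mul_of_nonneg_left hKδ hδ.le
        rwa [mul_one_div_cancel hδ.ne'] at this
      calc σ * A = 1 * (σ * A) := (one_mul _).symm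
        _ ≤ (δ * K) * (σ * A) := mul_le_mul_of_nonneg_right h5 (by positivity)
        _ = δ * (K * A * σ) := by ring
        _ ≤ δ * N := mul_le_mul_of_nonneg_left h4 hδ.le
    have hcover : ∀ p ∈ P, ∀ q ∈ P, p ≠ q →
        (p, q) ∈ richPairs P Hn ∪ G ∨ CovAt Cs p q ∨ CovAt Cs q p := by
      intro p hp q hq hpq
      by_cases h1 : (p, q) ∈ richPairs P Hn
      · exact Or.inl (Finset.mem_union_left _ h1)
      by_cases h2 : q ∈ R p
      · by_cases h3 : p ∈ R q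
        · exact Or.inl (Finset.mem_union_right _ ((hGmem p q).mpr ⟨⟨hp, hq⟩, hpq, h1, h2, h3⟩))
        · exact Or.inr (Or.inr (hcov q p (Finset.mem_erase.mpr ⟨hpq, hp⟩) h3))
      · exact Or.inr (Or.inl (hcov p q (Finset.mem_erase.mpr ⟨hpq.symm, hq⟩) h2))
    have hsp := hS P (by
        rw [← hNdef]
        exact hN.trans (mul_le_mul_of_nonneg_right hεδ hN0)) (by
        rw [← hAdef]
        exact hM.trans (mul_le_mul_of_nonneg_right hεδ hA0.le)) Cs hdeg (richPairs P Hn ∪ G) hcover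
    rw [← hNdef] at hsp
    have hU : ((richPairs P Hn ∪ G).card : ℝ) ≤ ((richPairs P Hn).card : ℝ) + (G.card : ℝ) := by
      exact_mod_cast Finset.card_union_le _ _
    have hr := hrich P Hn hHn1
    rw [← hNdef] at hr
    have t1 : C0 * (N ^ 2 / (Hn : ℝ)) ≤ δ / 4 * N ^ 2 := by
      have : C0 / (Hn : ℝ) ≤ δ / 4 := by
        rw [div_le_div_iff₀ hHnpos (by norm_num)]
        rw [div_le_iff₀ hδ] at hHnR
        linarith
      calc C0 * (N ^ 2 / (Hn : ℝ)) = (C0 / (Hn : ℝ)) * N ^ 2 := by ring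
        _ ≤ δ / 4 * N ^ 2 := mul_le_mul_of_nonneg_right this (by positivity)
    have t2 : C0 * (N * (dM P : ℝ)) ≤ δ / 4 * N ^ 2 := by
      have h1 : (dM P : ℝ) ≤ ε * N := hM.trans (mul_le_mul_of_nonneg_left hAN hε0.le)
      have h2 : C0 * ε ≤ δ / 4 := by
        rw [le_div_iff₀ (by positivity)] at hεC
        linarith
      calc C0 * (N * (dM P : ℝ)) ≤ C0 * (N * (ε * N)) :=
            mul_le_mul_of_nonneg_left (mul_le_mul_of_nonneg_left h1 hN0) hC0pos.le
        _ = (C0 * ε) * N ^ 2 := by ring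
        _ ≤ δ / 4 * N ^ 2 := mul_le_mul_of_nonneg_right h2 (by positivity)
    rw [mul_add] at hr
    linarith
  · intro p hp
    refine ⟨hp, ?_, ?_, ?_, ?_⟩
    · intro q hq
      exact ((hGmem p q).mp ((hstar p q).mp hq)).1.2
    · intro hq
      exact ((hGmem p p).mp ((hstar p p).mp hq)).2.1 rfl
    · intro T hT hdir
      rcases T.eq_empty_or_nonempty with rfl | ⟨q, hq⟩
      · simp
      obtain ⟨⟨_, hqP⟩, hpq, hnr, _, _⟩ := (hGmem p q).mp ((hstar p q).mp (hT hq))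
      have hle : (onLine P (p, q)).card ≤ Hn := by
        by_contra hcon
        push Not at hcon
        apply hnr
        unfold richPairs
        rw [Finset.mem_filter, Finset.mem_product]
        exact ⟨⟨hp, hqP⟩, hpq, hcon⟩
      have hsub : T ⊆ onLine P (p, q) := by
        intro q' hq'
        unfold onLine
        rw [Finset.mem_filter]
        refine ⟨((hGmem p q').mp ((hstar p q').mp (hT hq'))).1.2, ?_⟩
        exact dir_collinear hpq.symm (hdir q hq q' hq')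
      exact_mod_cast (Finset.card_le_card hsub).trans hle
    · intro c T hT hmem
      rw [← hAdef]
      apply hres p c T _ hmem
      intro q hq
      exact ((hGmem p q).mp ((hstar p q).mp (hT hq))).2.2.2.1

end Claimed.Agent.R273
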