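import Claimed.Agent.R273.DirCaps

/-!
# Row 273, package T1: THE INDUCTION STEP OF CLAIM(l)  (L9 of the note "T1")

Blueprint: helper37.  `S` extremal among the subsets of the star with `dim dspan ≤ l + 1`, `U = dspan p S` of dimension `l + 1 ≥ 4`.
`Z` = representatives of one radius class with `L ≥ 2M` distinct projections to `U` (`dir_radius`).  The bisector hyperplanes
`(x · (z - z') = 0)`, `z ≠ z' ∈ Z`, cut `U` properly, and every `q ∈ S` lies on at least `L² / (2M)` of them.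
-/

set_option autoImplicit false

namespace Claimed.Agent.R273

open Claims.C0444 MvPolynomial Finset

variable {d : ℕ}

/-- the linear form `x ↦ x · w` -/
noncomputable def dirLin (w : Pt d) : MvPolynomial (Fin d) ℂ := ∑ i, C ((w i : ℝ) : ℂ) * X i

/-- LEAF T1-S1. -/
theorem dirLin_hom (w : Pt d) : (dirLin w).IsHomogeneous 1 := by
  unfold dirLin
  refine IsHomogeneous.sum _ _ _ ?_
  intro i _
  have := (isHomogeneous_C (Fin d) ((w i : ℝ) : ℂ)).mul (isHomogeneous_X ℂ i)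
  simpa using this

/-- LEAF T1-S1. -/
theorem dirLin_eval (p q w : Pt d) :
    eval (cdir p q) (dirLin w) = ((inner ℝ (q - p) w : ℝ) : ℂ) := by
  unfold dirLin
  rw [map_sum, PiLp.inner_apply]
  push_cast
  refine Finset.sum_congr rfl ?_
  intro i _
  simp [cdir, mul_comm]

/-- LEAF T1-S1.  `|q - z|² = |q - p|² - 2 (q - p)·(z - p) + |z - p|²`. -/
theorem dirs_bisector {p q z z' : Pt d} (h : dist z p = dist z' p) :
    dist q z = dist q z' ↔ inner ℝ (q - p) (z - z') = (0 : ℝ) := by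
  have e1 : q - z = (q - p) - (z - p) := by abel
  have e2 : q - z' = (q - p) - (z' - p) := by abel
  have e3 : z - z' = (z - p) - (z' - p) := by abel
  have h' : ‖z - p‖ = ‖z' - p‖ := by rw [← dist_eq_norm, ← dist_eq_norm]; exact h
  have n1 := norm_sub_sq_real (q - p) (z - p)
  have n2 := norm_sub_sq_real (q - p) (z' - p)
  rw [← e1] at n1
  rw [← e2] at n2
  rw [dist_eq_norm, dist_eq_norm, e3, inner_sub_right]
  constructor
  · intro hh
    rw [hh, h'] at n1
    linarith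
  · intro hh
    have h3 : ‖q - z‖ ^ 2 = ‖q - z'‖ ^ 2 := by
      rw [n1, n2, h']
      linarith
    exact (pow_left_inj₀ (norm_nonneg _) (norm_nonneg _) (by norm_num)).1 h3

/-- Cauchy-Schwarz for the fibres of a map with at most `M` values. -/
theorem dirsx_energy {α β : Type*} [DecidableEq α] [DecidableEq β] (Z : Finset α) (f : α → β) {M : ℕ}
    (hM : (Z.image f).card ≤ M) :
    (Z.card : ℝ) ^ 2 ≤ M * (((Z ×ˢ Z).filter fun x => f x.1 = f x.2).card : ℝ) := by
  have h1 : ((Z ×ˢ Z).filter fun x => f x.1 = f x.2).card =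
      ∑ v ∈ Z.image f, (Z.filter fun z => f z = v).card ^ 2 := by
    rw [Finset.card_eq_sum_card_fiberwise (f := fun x : α × α => f x.1) (t := Z.image f)]
    · refine Finset.sum_congr rfl ?_
      intro v _
      rw [sq, ← Finset.card_product]
      congr 1
      ext ⟨a, b⟩
      simp only [Finset.mem_filter, Finset.mem_product]
      constructor
      · rintro ⟨⟨⟨ha, hb⟩, hab⟩, hv⟩
        exact ⟨⟨ha, hv⟩, hb, by rw [← hab, hv]⟩
      · rintro ⟨⟨ha, hv⟩, hb, hv'⟩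
        exact ⟨⟨⟨ha, hb⟩, by rw [hv, hv']⟩, hv⟩
    · intro x hx
      have hx' := (Finset.mem_filter.1 (Finset.mem_coe.1 hx)).1
      exact Finset.mem_coe.2 (Finset.mem_image_of_mem f (Finset.mem_product.1 hx').1)
  have h2 : Z.card = ∑ v ∈ Z.image f, (Z.filter fun z => f z = v).card :=
    Finset.card_eq_sum_card_image f Z
  have h3 := sq_sum_le_card_mul_sum_sq (s := Z.image f)
    (f := fun v => ((Z.filter fun z => f z = v).card : ℝ))
  have h4 : (Z.card : ℝ) = ∑ v ∈ Z.image f, ((Z.filter fun z => f z = v).card : ℝ) := by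
    exact_mod_cast h2
  have h5 : (((Z ×ˢ Z).filter fun x => f x.1 = f x.2).card : ℝ) =
      ∑ v ∈ Z.image f, ((Z.filter fun z => f z = v).card : ℝ) ^ 2 := by
    exact_mod_cast h1
  rw [h4, h5]
  refine le_trans h3 ?_
  refine mul_le_mul_of_nonneg_right (by exact_mod_cast hM) ?_
  exact Finset.sum_nonneg fun _ _ => by positivity

/-- the distances from a point of `P` to the points of `Z ⊆ P` take at most `M` values -/
theorem dirsx_values {P Z : Finset (Pt d)} (hZ : Z ⊆ P) {q : Pt d} (hq : q ∈ P) :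
    (Z.image fun z => dist q z).card ≤ dM P := by
  classical
  have h1 : (Z.image fun z => dist q z) ⊆ insert 0 (distinctDistances P) := by
    intro v hv
    obtain ⟨z, hz, rfl⟩ := Finset.mem_image.1 hv
    by_cases hqz : q = z
    · subst hqz
      simp
    · refine Finset.mem_insert_of_mem ?_
      unfold distinctDistances
      refine Finset.mem_image.2 ⟨(q, z), ?_, rfl⟩
      exact Finset.mem_filter.2 ⟨Finset.mem_product.2 ⟨hq, hZ hz⟩, hqz⟩
  refine le_trans (Finset.card_le_card h1) ?_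
  refine le_trans (Finset.card_insert_le _ _) ?_
  unfold dM
  omega

open Classical in
/-- LEAF T1-S2.  The `L` distances `|q - z|`, `z ∈ Z`, take at most `M` values (`0` or a distance of `P`); Cauchy-Schwarz: `∑_v n_v² ≥ L²/M`;
remove the diagonal: `L²/M - L ≥ L²/(2M)` as `L ≥ 2M`. -/
theorem dirs_count {P Z : Finset (Pt d)} (hZ : Z ⊆ P) {q : Pt d} (hq : q ∈ P) (hL : 2 * dM P ≤ Z.card) :
    (Z.card : ℝ) ^ 2 / (2 * dM P) ≤
      (((Z ×ˢ Z).filter fun x => x.1 ≠ x.2 ∧ dist q x.1 = dist q x.2).card : ℝ) := by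
  have hV := dirsx_values hZ hq
  have hE := dirsx_energy Z (fun z => dist q z) hV
  set E := ((Z ×ˢ Z).filter fun x : Pt d × Pt d => dist q x.1 = dist q x.2) with hEdef
  set O := ((Z ×ˢ Z).filter fun x : Pt d × Pt d => x.1 ≠ x.2 ∧ dist q x.1 = dist q x.2) with hOdef
  have hEO : E.card ≤ O.card + Z.card := by
    have h1 : E ⊆ O ∪ Z.image (fun z => (z, z)) := by
      intro x hx
      obtain ⟨hx1, hx2⟩ := Finset.mem_filter.1 hx
      by_cases hxx : x.1 = x.2
      · refine Finset.mem_union_right _ (Finset.mem_image.2 ⟨x.1, (Finset.mem_product.1 hx1).1, ?_⟩)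
        exact Prod.ext rfl hxx
      · exact Finset.mem_union_left _ (Finset.mem_filter.2 ⟨hx1, hxx, hx2⟩)
    refine le_trans (Finset.card_le_card h1) (le_trans (Finset.card_union_le _ _) ?_)
    exact Nat.add_le_add_left Finset.card_image_le _
  have hEO' : (E.card : ℝ) ≤ O.card + Z.card := by exact_mod_cast hEO
  have hM1 : (1 : ℝ) ≤ dM P := by
    have : 1 ≤ dM P := by unfold dM; omega
    exact_mod_cast this
  have hL' : 2 * (dM P : ℝ) ≤ Z.card := by exact_mod_cast hL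
  have hM0 : (0 : ℝ) < 2 * dM P := by linarith
  rw [div_le_iff₀ hM0]
  have hL0 : (0 : ℝ) ≤ Z.card := Nat.cast_nonneg _
  nlinarith

open Classical in
/-- LEAF T1-S3.  A hyperplane which does not contain `dspan p S` cuts the dimension: the span of the section lies in
`dspan p S ⊓ (ℝ ∙ w)ᗮ`, a proper subspace (`Submodule.finrank_lt_finrank_of_lt`). -/
theorem dirs_span {p : Pt d} {S : Finset (Pt d)} {w : Pt d} (hw : w ∉ (dspan p S)ᗮ) :
    Module.finrank ℝ (dspan p (S.filter fun q => inner ℝ (q - p) w = (0 : ℝ))) <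
      Module.finrank ℝ (dspan p S) := by
  refine Submodule.finrank_lt_finrank_of_lt (lt_of_le_of_ne (dspan_mono p (Finset.filter_subset _ _)) ?_)
  intro heq
  apply hw
  rw [Submodule.mem_orthogonal, ← heq]
  intro u hu
  unfold dspan at hu
  induction hu using Submodule.span_induction with
  | mem x hx =>
    obtain ⟨q, hq, rfl⟩ := hx
    exact (Finset.mem_filter.1 (Finset.mem_coe.1 hq)).2
  | zero => exact inner_zero_left _
  | add x y _ _ hx hy => rw [inner_add_left, hx, hy, add_zero]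
  | smul a x _ hx => rw [inner_smul_left, hx, mul_zero]

open Classical in
/-- LEAF T1-S4.  **The extremal set.**  `s = |S|`, `h = dirRk S`, `L = |Z|`, `D = ⌊A⌋`, `κ = 2 d² / D`.  For `x = (z, z') ∈ Z × Z`, `z ≠ z'`, `w = z - z'`,
`S_x = S.filter (eval (cdir p q) (dirLin w) = 0) = S.filter ((q - p)·w = 0)` (`dirLin_eval`):
(1) `|S_x| ≤ Cl h_x` (`dirs_span`, `hcl`);  (2) `s h_x ≤ h (κ s + |S_x|)` (`dir_section_pts`, `t = 1`).
If `s ≤ 2 Cl h` we are done.  Otherwise `s |S_x| ≤ Cl h κ s + s |S_x| / 2`, so `|S_x| ≤ 2 Cl h κ`.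
(3) `∑_x |S_x| = ∑_{q ∈ S} #{x : z ≠ z', |q - z| = |q - z'|} ≥ s L² / (2M)` (`dirs_bisector`, `dirs_count`; `Finset.sum_comm` /
`Finset.card_eq_sum_card_fiberwise`), and `∑_x |S_x| ≤ L² · 2 Cl h κ`.  Hence `s ≤ 8 Cl d² h M / D ≤ 8 d² Cl h`. -/
theorem dirs_key {l : ℕ} {H K Cl : ℝ} (hCl : 1 ≤ Cl) (hd : 1 ≤ d) {P : Finset (Pt d)} {p : Pt d}
    {X S Z : Finset (Pt d)} (hX : StarHyp P p X H K) (hS : S ⊆ X) (hne : S.Nonempty)
    (hD2 : 2 ≤ ⌊dA P⌋₊) (hMD : (dM P : ℝ) ≤ (⌊dA P⌋₊ : ℝ))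
    (hcl : ∀ S' ⊆ X, Module.finrank ℝ (dspan p S') ≤ l → (S'.card : ℝ) ≤ Cl * dirRk P p S')
    (hrk : Module.finrank ℝ (dspan p S) = l + 1) (hZ : Z ⊆ P) (hL : 2 * dM P ≤ Z.card)
    (hr : ∃ r : ℝ, ∀ z ∈ Z, dist z p = r) (hsep : ∀ z ∈ Z, ∀ z' ∈ Z, z ≠ z' → z - z' ∉ (dspan p S)ᗮ)
    (ext : ∀ S' ⊆ S, (S'.card : ℝ) * dirRk P p S ≤ S.card * dirRk P p S') :
    (S.card : ℝ) ≤ 8 * (d : ℝ) ^ 2 * Cl * dirRk P p S := by
  have hpS : p ∉ S := fun h => hX.ne (hS h)
  have hh1 : (1 : ℝ) ≤ (dirRk P p S : ℝ) := by exact_mod_cast dirRk_pos (P := P) hpS hne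
  have hs0 : (0 : ℝ) < (S.card : ℝ) := by exact_mod_cast hne.card_pos
  have hd1 : (1 : ℝ) ≤ d := by exact_mod_cast hd
  have hd2 : (1 : ℝ) ≤ (d : ℝ) ^ 2 := by nlinarith
  have hD2' : (2 : ℝ) ≤ (⌊dA P⌋₊ : ℝ) := by exact_mod_cast hD2
  generalize hs : (S.card : ℝ) = s at *
  generalize hh : (dirRk P p S : ℝ) = h at *
  generalize hD : (⌊dA P⌋₊ : ℝ) = D at *
  have hClh : 0 < Cl * h := by positivity
  by_cases hcase : s ≤ 2 * Cl * h
  · have : 2 * Cl * h ≤ 8 * (d : ℝ) ^ 2 * Cl * h := by nlinarith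
    linarith
  push Not at hcase
  have hD0 : 0 < D := by linarith
  set κ : ℝ := 2 * (d : ℝ) ^ 2 / D with hκ
  have hκ0 : 0 < κ := by positivity
  -- the bound for one section
  have hx : ∀ z ∈ Z, ∀ z' ∈ Z, z ≠ z' →
      ((S.filter fun q => inner ℝ (q - p) (z - z') = (0 : ℝ)).card : ℝ) ≤ 2 * Cl * h * κ := by
    intro z hz z' hz' hne'
    have hfil : (S.filter fun q => eval (cdir p q) (dirLin (z - z')) = 0) =
        S.filter fun q => inner ℝ (q - p) (z - z') = (0 : ℝ) := by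
      refine Finset.filter_congr ?_
      intro q _
      rw [dirLin_eval]
      exact_mod_cast Iff.rfl
    have h2 := dir_section_pts hpS (t := 1) (by omega) (dirLin (z - z')) (dirLin_hom _)
      (by rw [hs, hh]; exact ext)
    rw [hfil, hs, hh, hD] at h2
    have h1 := hcl _ ((Finset.filter_subset (fun q => inner ℝ (q - p) (z - z') = (0 : ℝ)) S).trans hS)
      (by have := dirs_span (S := S) (p := p) (hsep z hz z' hz' hne'); omega)
    have hsx0 : (0 : ℝ) ≤ ((S.filter fun q => inner ℝ (q - p) (z - z') = (0 : ℝ)).card : ℝ) :=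
      Nat.cast_nonneg _
    generalize ((S.filter fun q => inner ℝ (q - p) (z - z') = (0 : ℝ)).card : ℝ) = sx at *
    generalize (dirRk P p (S.filter fun q => inner ℝ (q - p) (z - z') = (0 : ℝ)) : ℝ) = hxx at *
    have h2' : s * hxx ≤ h * (κ * s + sx) := by
      have : 2 * (d : ℝ) ^ 2 * ((1 : ℕ) : ℝ) / D = κ := by rw [hκ]; simp
      rw [this] at h2
      exact h2
    have a1 : s * sx ≤ Cl * (s * hxx) := by
      have := mul_le_mul_of_nonneg_left h1 hs0.le
      linarith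
    have a2 : Cl * (s * hxx) ≤ Cl * (h * (κ * s + sx)) :=
      mul_le_mul_of_nonneg_left h2' (by linarith)
    have a3 : Cl * h * sx ≤ s / 2 * sx := mul_le_mul_of_nonneg_right (by linarith) hsx0
    have a4 : s * sx ≤ s * (2 * Cl * h * κ) := by nlinarith
    exact le_of_mul_le_mul_left a4 hs0
  -- double counting
  obtain ⟨r, hr⟩ := hr
  set O := (Z ×ˢ Z).filter fun x : Pt d × Pt d => x.1 ≠ x.2 with hO
  have hsum : ∑ x ∈ O, ((S.filter fun q => inner ℝ (q - p) (x.1 - x.2) = (0 : ℝ)).card : ℝ) =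
      ∑ q ∈ S, ((O.filter fun x => inner ℝ (q - p) (x.1 - x.2) = (0 : ℝ)).card : ℝ) := by
    have := Finset.sum_card_bipartiteAbove_eq_sum_card_bipartiteBelow (s := O) (t := S)
      (fun x q => inner ℝ (q - p) (x.1 - x.2) = (0 : ℝ))
    exact_mod_cast this
  have hlow : s * ((Z.card : ℝ) ^ 2 / (2 * dM P)) ≤
      ∑ q ∈ S, ((O.filter fun x => inner ℝ (q - p) (x.1 - x.2) = (0 : ℝ)).card : ℝ) := by
    have : ∀ q ∈ S, (Z.card : ℝ) ^ 2 / (2 * dM P) ≤
        ((O.filter fun x => inner ℝ (q - p) (x.1 - x.2) = (0 : ℝ)).card : ℝ) := by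
      intro q hq
      have hc := dirs_count hZ (hX.sub (hS hq)) hL
      refine le_trans hc (le_of_eq ?_)
      congr 1
      rw [hO, Finset.filter_filter]
      congr 1
      refine Finset.filter_congr ?_
      intro x hx
      obtain ⟨hx1, hx2⟩ := Finset.mem_product.1 hx
      rw [dirs_bisector (p := p) (q := q) ((hr _ hx1).trans (hr _ hx2).symm)]
    have h3 := Finset.card_nsmul_le_sum S _ _ this
    rw [nsmul_eq_mul, hs] at h3
    exact h3
  have hup : ∑ x ∈ O, ((S.filter fun q => inner ℝ (q - p) (x.1 - x.2) = (0 : ℝ)).card : ℝ) ≤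
      (Z.card : ℝ) ^ 2 * (2 * Cl * h * κ) := by
    have : ∀ x ∈ O, ((S.filter fun q => inner ℝ (q - p) (x.1 - x.2) = (0 : ℝ)).card : ℝ) ≤
        2 * Cl * h * κ := by
      intro x hx'
      obtain ⟨hx1, hx2⟩ := Finset.mem_filter.1 hx'
      obtain ⟨hx3, hx4⟩ := Finset.mem_product.1 hx1
      exact hx _ hx3 _ hx4 hx2
    have h3 := Finset.sum_le_card_nsmul O _ _ this
    rw [nsmul_eq_mul] at h3
    refine le_trans h3 (mul_le_mul_of_nonneg_right ?_ (by positivity))
    have : O.card ≤ Z.card ^ 2 := by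
      rw [sq, ← Finset.card_product]
      exact Finset.card_le_card (Finset.filter_subset _ _)
    exact_mod_cast this
  have hM1 : (1 : ℝ) ≤ dM P := by
    have : 1 ≤ dM P := by unfold dM; omega
    exact_mod_cast this
  have hL' : 2 * (dM P : ℝ) ≤ Z.card := by exact_mod_cast hL
  have hL0 : (0 : ℝ) < (Z.card : ℝ) ^ 2 := by
    have : (0 : ℝ) < Z.card := by linarith
    positivity
  have hfin : (Z.card : ℝ) ^ 2 * (s / (2 * dM P)) ≤ (Z.card : ℝ) ^ 2 * (2 * Cl * h * κ) := by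
    have := hlow.trans (hsum ▸ hup)
    calc (Z.card : ℝ) ^ 2 * (s / (2 * dM P)) = s * ((Z.card : ℝ) ^ 2 / (2 * dM P)) := by ring
      _ ≤ _ := this
  have hfin' := le_of_mul_le_mul_left hfin hL0
  rw [div_le_iff₀ (by linarith)] at hfin'
  -- `s ≤ 2 Cl h κ (2 M) = 8 d² Cl h (M / D)`
  have hMD' : (dM P : ℝ) / D ≤ 1 := by
    rw [div_le_one hD0]
    exact hMD
  calc s ≤ 2 * Cl * h * κ * (2 * dM P) := hfin'
    _ = 8 * (d : ℝ) ^ 2 * Cl * h * ((dM P : ℝ) / D) := by rw [hκ]; ring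
    _ ≤ 8 * (d : ℝ) ^ 2 * Cl * h * 1 := mul_le_mul_of_nonneg_left hMD' (by positivity)
    _ = _ := by ring

/-- **CLAIM(l) ⟹ CLAIM(l+1)** for `l ≥ 3` (glue). -/
theorem dir_claim_step (hd : 3 ≤ d) (IH : ∀ u, 3 ≤ u → u < d → MainStmt u) {l : ℕ} (hl : 3 ≤ l)
    (h : ClaimStmt d l) : ClaimStmt d (l + 1) := by
  classical
  intro H K hH hK
  obtain ⟨Cl, ε1, hCl, hε1, hcl⟩ := h H K hH hK
  obtain ⟨ε2, hε2, hrad⟩ := dir_radius IH
  have hd1 : (1 : ℝ) ≤ (d : ℝ) := by exact_mod_cast (by omega : 1 ≤ d)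
  have hd2 : (1 : ℝ) ≤ (d : ℝ) ^ 2 := by nlinarith
  have hC1 : Cl ≤ 8 * (d : ℝ) ^ 2 * Cl := by nlinarith
  set ε : ℝ := min ε1 (min ε2 (1 / 4)) with hεdef
  have hε : 0 < ε := lt_min hε1 (lt_min hε2 (by norm_num))
  have hεa : ε ≤ ε1 := min_le_left _ _
  have hεb : ε ≤ ε2 := le_trans (min_le_right _ _) (min_le_left _ _)
  have hεc : ε ≤ 1 / 4 := le_trans (min_le_right _ _) (min_le_right _ _)
  refine ⟨8 * (d : ℝ) ^ 2 * Cl, ε, le_trans hCl hC1, hε, ?_⟩
  intro P p X hN hM hX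
  have hA0 : 0 ≤ dA P := by unfold dA; positivity
  have hN0 : (0 : ℝ) ≤ P.card := Nat.cast_nonneg _
  have hN1 : 1 ≤ ε1 * (P.card : ℝ) := le_trans hN (mul_le_mul_of_nonneg_right hεa hN0)
  have hN2 : 1 ≤ ε2 * (P.card : ℝ) := le_trans hN (mul_le_mul_of_nonneg_right hεb hN0)
  have hM1 : (dM P : ℝ) ≤ ε1 * dA P := le_trans hM (mul_le_mul_of_nonneg_right hεa hA0)
  have hM2 : (dM P : ℝ) ≤ ε2 * dA P := le_trans hM (mul_le_mul_of_nonneg_right hεb hA0)
  obtain ⟨r1, r2, _, r4⟩ := dir_regime hε (le_trans hεc (by norm_num)) hM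
  have hA4 : 4 ≤ dA P := by
    refine le_trans ?_ r1
    rw [le_div_iff₀ hε]
    linarith
  have hD2 : 2 ≤ ⌊dA P⌋₊ := by
    have : (2 : ℝ) ≤ (⌊dA P⌋₊ : ℝ) := by linarith
    exact_mod_cast this
  have hcl' := hcl P p X hN1 hM1 hX
  refine dir_extremal X (fun S => Module.finrank ℝ (dspan p S) ≤ l + 1) (fun S => dirRk P p S) _
    (by positivity) ?_ ?_
  · intro S hS hne
    exact dirRk_pos (fun hp => hX.ne (hS hp)) hne
  · intro S hS hQ hne ext
    rcases Nat.lt_or_ge (Module.finrank ℝ (dspan p S)) (l + 1) with hlt | hge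
    · refine le_trans (hcl' S hS (by omega)) ?_
      exact mul_le_mul_of_nonneg_right hC1 (Nat.cast_nonneg _)
    · have hrk : Module.finrank ℝ (dspan p S) = l + 1 := le_antisymm hQ hge
      obtain ⟨Z, hZ, hL, hr, hsep⟩ := hrad P p (dspan p S) hX.mem (by omega) hN2 hM2
      refine dirs_key hCl (by omega) hX hS hne hD2 r4 hcl' hrk hZ hL hr hsep ?_
      intro S' hS'
      refine ext S' (hS'.trans hS) ?_
      exact le_trans (Submodule.finrank_mono (dspan_mono p hS')) hQ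

end Claimed.Agent.R273
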