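import Claimed.Agent.R273.DirBase
import Claimed.Agent.R273.DirStep
import Claimed.Agent.R273.DirGraph

/-!
# Row 273, package T1: `DirAsmStmt d`  (glue)

Blueprint: helper37.
-/

set_option autoImplicit false

namespace Claimed.Agent.R273

open Claims.C0444 MvPolynomial Finset

variable {d : ℕ}

/-- CLAIM(l) for all `l ≥ 3`. -/
theorem dir_claim_all (hd : 3 ≤ d) (IH : ∀ u, 3 ≤ u → u < d → MainStmt u) :
    ∀ l, 3 ≤ l → ClaimStmt d l := by
  intro l hl
  induction l, hl using Nat.le_induction with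
  | base => exact dir_claim_base hd IH dirp_main
  | succ l hl ih => exact dir_claim_step hd IH hl ih

/-- **(T1)** -/
theorem dirAsm (d : ℕ) : DirAsmStmt d := by
  intro hd hS hR IH
  obtain ⟨δ, hδ, hSp⟩ := hS IH
  obtain ⟨H, K, ε1, hH, hK, hε1, hG⟩ := dir_graph hd hR hδ hSp
  obtain ⟨C, ε2, hC, hε2, hcl⟩ := dir_claim_all hd IH d hd H K hH hK
  have hC0 : 0 < C := lt_of_lt_of_le one_pos hC
  refine ⟨δ / 2, 1 / C, min ε1 ε2, by positivity, by positivity, lt_min hε1 hε2, ?_⟩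
  intro P hN hM
  have hA0 : 0 ≤ dA P := by unfold dA; positivity
  have hN0 : (0 : ℝ) ≤ P.card := Nat.cast_nonneg _
  have hN1 : 1 ≤ ε1 * (P.card : ℝ) := le_trans hN (mul_le_mul_of_nonneg_right (min_le_left _ _) hN0)
  have hN2 : 1 ≤ ε2 * (P.card : ℝ) := le_trans hN (mul_le_mul_of_nonneg_right (min_le_right _ _) hN0)
  have hM1 : (dM P : ℝ) ≤ ε1 * dA P := le_trans hM (mul_le_mul_of_nonneg_right (min_le_left _ _) hA0)
  have hM2 : (dM P : ℝ) ≤ ε2 * dA P := le_trans hM (mul_le_mul_of_nonneg_right (min_le_right _ _) hA0)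
  obtain ⟨G, hG1, hG2, hG3⟩ := hG P hN1 hM1
  refine ⟨G, hG1, hG2, ?_⟩
  intro p hp S hS
  have hrk : Module.finrank ℝ (dspan p S) ≤ d := by
    have := Submodule.finrank_le (dspan p S)
    simpa using this
  have := hcl P p (star G p) hN2 hM2 (hG3 p hp) S hS hrk
  rw [div_mul_eq_mul_div, one_mul, div_le_iff₀ hC0, mul_comm]
  exact this

end Claimed.Agent.R273
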