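import Mathlib

/-!
# Row 273: factors of forms are forms; factorisation of a form into irreducible forms   (helper230)

Mathlib only.  `homfac_of_mul` (domain coefficients), `homfac_of_dvd`, `homfac_exists` (coefficients in a field).
Method: the substitution `X i ↦ X i * T`, `Φ f = ∑ f_n T^n`; in `A[T]`, `A` a domain, `natDegree` and `natTrailingDegree` are additive.
-/

set_option autoImplicit false

namespace Claimed.Agent.R273

open MvPolynomial

section ring

variable {σ : Type*} {R : Type*} [CommRing R]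

/-- the substitution `X i ↦ X i * T` -/
noncomputable def homfacPhi : MvPolynomial σ R →ₐ[R] Polynomial (MvPolynomial σ R) :=
  aeval (fun i => Polynomial.C (X i) * Polynomial.X)

theorem homfac_monomial (d : σ →₀ ℕ) (r : R) :
    homfacPhi (monomial d r) = Polynomial.C (monomial d r) * Polynomial.X ^ d.degree := by
  rw [homfacPhi, aeval_monomial, monomial_eq, Finsupp.prod, Finsupp.prod, Finsupp.degree_apply]
  simp only [mul_pow, Finset.prod_mul_distrib, Finset.prod_pow_eq_pow_sum, map_mul, map_prod,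
    map_pow]
  rw [mul_assoc]
  rfl

theorem homfac_coeff (f : MvPolynomial σ R) (n : ℕ) :
    (homfacPhi f).coeff n = homogeneousComponent n f := by
  induction f using MvPolynomial.induction_on' with
  | monomial d r =>
    rw [homfac_monomial, Polynomial.coeff_C_mul, Polynomial.coeff_X_pow,
      homogeneousComponent_of_mem (isHomogeneous_monomial r rfl)]
    by_cases h : n = d.degree
    · simp [h]
    · simp [h]
  | add p q hp hq => simp [hp, hq]

theorem homfac_phi_of_homog {f : MvPolynomial σ R} {k : ℕ} (h : f.IsHomogeneous k) :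
    homfacPhi f = Polynomial.C f * Polynomial.X ^ k := by
  ext1 n
  rw [homfac_coeff, homogeneousComponent_of_mem h, Polynomial.coeff_C_mul, Polynomial.coeff_X_pow]
  by_cases h : n = k
  · simp [h]
  · simp [h]

theorem homfac_homog_of_deg {f : MvPolynomial σ R} {a : ℕ}
    (h1 : (homfacPhi f).natDegree ≤ a) (h2 : a ≤ (homfacPhi f).natTrailingDegree) :
    f.IsHomogeneous a := by
  rw [← sum_homogeneousComponent f]
  refine IsHomogeneous.sum _ _ _ (fun i _ => ?_)
  rcases lt_trichotomy i a with h | h | h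
  · rw [← homfac_coeff, Polynomial.coeff_eq_zero_of_lt_natTrailingDegree (lt_of_lt_of_le h h2)]
    exact isHomogeneous_zero _ _ _
  · rw [h]
    exact homogeneousComponent_isHomogeneous _ _
  · rw [← homfac_coeff, Polynomial.coeff_eq_zero_of_natDegree_lt (lt_of_le_of_lt h1 h)]
    exact isHomogeneous_zero _ _ _

/-- In a domain, the factors of a nonzero form are forms. -/
theorem homfac_of_mul [IsDomain R] {f g : MvPolynomial σ R} {k : ℕ} (h : (f * g).IsHomogeneous k)
    (h0 : f * g ≠ 0) : ∃ a b : ℕ, a + b = k ∧ f.IsHomogeneous a ∧ g.IsHomogeneous b := by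
  have hPQ : homfacPhi f * homfacPhi g = Polynomial.C (f * g) * Polynomial.X ^ k := by
    rw [← map_mul, homfac_phi_of_homog h]
  have hne : homfacPhi f * homfacPhi g ≠ 0 := by
    rw [hPQ]
    exact mul_ne_zero (by simpa using h0) (pow_ne_zero _ Polynomial.X_ne_zero)
  have hP0 := left_ne_zero_of_mul hne
  have hQ0 := right_ne_zero_of_mul hne
  have d1 := Polynomial.natDegree_mul hP0 hQ0
  have d2 := Polynomial.natTrailingDegree_mul hP0 hQ0
  rw [hPQ, Polynomial.natDegree_C_mul_X_pow _ _ h0] at d1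
  rw [hPQ, Polynomial.C_mul_X_pow_eq_monomial, Polynomial.natTrailingDegree_monomial h0] at d2
  have e1 := (homfacPhi f).natTrailingDegree_le_natDegree
  have e2 := (homfacPhi g).natTrailingDegree_le_natDegree
  exact ⟨_, _, d1.symm, homfac_homog_of_deg le_rfl (by omega), homfac_homog_of_deg le_rfl (by omega)⟩

theorem homfac_of_dvd [IsDomain R] {g u : MvPolynomial σ R} {k : ℕ} (hu : u.IsHomogeneous k)
    (hu0 : u ≠ 0) (h : g ∣ u) : ∃ b, b ≤ k ∧ g.IsHomogeneous b := by
  obtain ⟨w, rfl⟩ := h
  obtain ⟨a, b, hab, ha, _⟩ := homfac_of_mul hu hu0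
  exact ⟨a, by omega, ha⟩

/-- the factors of a product which is a nonzero form are forms, and the degrees add up -/
theorem homfac_list [IsDomain R] (L : List (MvPolynomial σ R)) : ∀ t : ℕ, L.prod.IsHomogeneous t →
    L.prod ≠ 0 → ∃ l : List (MvPolynomial σ R × ℕ), l.map Prod.fst = L ∧
      (∀ p ∈ l, p.1.IsHomogeneous p.2) ∧ (l.map Prod.snd).sum = t := by
  induction L with
  | nil =>
    intro t ht _
    refine ⟨[], rfl, by simp, ?_⟩
    rw [List.prod_nil] at ht
    simpa using (isHomogeneous_one σ R).inj_right ht one_ne_zero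
  | cons x L ih =>
    intro t ht h0
    rw [List.prod_cons] at ht h0
    obtain ⟨a, b, hab, ha, hb⟩ := homfac_of_mul ht h0
    obtain ⟨l, hl1, hl2, hl3⟩ := ih b hb (right_ne_zero_of_mul h0)
    refine ⟨(x, a) :: l, by simp [hl1], ?_, by simp [hl3, hab]⟩
    intro p hp
    rcases List.mem_cons.1 hp with rfl | hp
    · exact ha
    · exact hl2 p hp

end ring

section field

variable {σ : Type*} {k : Type*} [Field k]

/-- an irreducible form has positive degree -/
theorem homfac_deg_pos {p : MvPolynomial σ k} {n : ℕ} (hp : Irreducible p) (hn : p.IsHomogeneous n) :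
    1 ≤ n := by
  by_contra h
  have hn0 : n = 0 := by omega
  subst hn0
  have h1 := (totalDegree_zero_iff_isHomogeneous σ).2 hn
  rw [totalDegree_eq_zero_iff_eq_C] at h1
  have h2 : coeff 0 p ≠ 0 := by
    intro h3
    rw [h3, map_zero] at h1
    exact hp.ne_zero h1
  apply hp.not_isUnit
  rw [h1]
  exact (isUnit_iff_ne_zero.2 h2).map C

/-- a nonzero form of degree `t` is a nonzero constant times a product of irreducible forms (of positive degrees) whose degrees add up to `t` -/
theorem homfac_exists {u : MvPolynomial σ k} {t : ℕ} (hu : u.IsHomogeneous t) (hu0 : u ≠ 0) :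
    ∃ (l : List (MvPolynomial σ k × ℕ)) (c : k), c ≠ 0 ∧
      (∀ p ∈ l, Irreducible p.1 ∧ p.1.IsHomogeneous p.2 ∧ 1 ≤ p.2) ∧
      u = C c * (l.map Prod.fst).prod ∧ (l.map Prod.snd).sum = t := by
  obtain ⟨f, hf1, w, hw⟩ := WfDvdMonoid.exists_factors u hu0
  obtain ⟨L, rfl⟩ := Quot.exists_rep f
  have hprod : (Multiset.prod (Quot.mk _ L : Multiset (MvPolynomial σ k))) = L.prod :=
    Multiset.prod_coe L
  rw [hprod] at hw
  obtain ⟨c, hc, hwc⟩ := (MvPolynomial.isUnit_iff_eq_C_of_isReduced).1 w.isUnit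
  rw [hwc] at hw
  have h0 : L.prod * C c ≠ 0 := by rw [hw]; exact hu0
  obtain ⟨a, b, hab, ha, hb⟩ := homfac_of_mul (hw ▸ hu) h0
  have hb0 : b = 0 := ((isHomogeneous_C σ c).inj_right hb (right_ne_zero_of_mul h0)).symm
  obtain ⟨l, hl1, hl2, hl3⟩ := homfac_list L a ha (left_ne_zero_of_mul h0)
  refine ⟨l, c, hc.ne_zero, fun p hp => ?_, by rw [hl1, ← hw, mul_comm], by omega⟩
  have hirr : Irreducible p.1 := hf1 p.1 (by
    have : p.1 ∈ L := hl1 ▸ List.mem_map_of_mem hp
    exact this)
  exact ⟨hirr, hl2 p hp, homfac_deg_pos hirr (hl2 p hp)⟩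

/-- a zero of the form is a zero of one of the factors -/
theorem homfac_exists_eval {u : MvPolynomial σ k} {t : ℕ} (hu : u.IsHomogeneous t) (hu0 : u ≠ 0) :
    ∃ l : List (MvPolynomial σ k × ℕ),
      (∀ p ∈ l, Irreducible p.1 ∧ p.1.IsHomogeneous p.2 ∧ 1 ≤ p.2) ∧ (l.map Prod.snd).sum = t ∧
      ∀ v : σ → k, eval v u = 0 → ∃ p ∈ l, eval v p.1 = 0 := by
  obtain ⟨l, c, hc, h1, h2, h3⟩ := homfac_exists hu hu0
  refine ⟨l, h1, h3, fun v hv => ?_⟩
  rw [h2, map_mul, eval_C, map_list_prod, List.map_map] at hv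
  have h4 := (mul_eq_zero.1 hv).resolve_left hc
  rw [List.prod_eq_zero_iff, List.mem_map] at h4
  obtain ⟨p, hp, hp0⟩ := h4
  exact ⟨p, hp, hp0⟩

end field

end Claimed.Agent.R273
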