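import Claimed.Agent.R273.Dir0
import Claimed.Agent.R273.HomFac

/-!
# Row 273, package T1: THE PLANE LEMMA (L7 of the note "T1"): finite sets of vectors of `ℂ³`

Blueprint: helper37.  `PlaneStmt`: under the hereditary hypotheses `PlaneHyp A H K C' T`
   (nonzero vectors; `|T| ≤ C' A^{3/2}`; at most `H` vectors in one direction; at most `K A k` vectors on a curve of degree `k`)
one has `|T| ≤ C hP(T, D)` for `A/2 ≤ D ≤ A`.

PROOF (`dirp_main`).  By `dir_extremal` let `T` be extremal, `ρ = |T| / h`, `h = hP(T, D)`.  Let `g ≠ 0` be a form of least degree `t ≥ 1` vanishing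
on `T` (`dirp_min_form`).
* `D < t`: `h = binom(D+2,2) ≥ A²/8` (`dirk_full`), so `ρ ≤ 8 C'`.
* `t ≤ D`: `binom(t+1,2) = hP(T, t-1) ≤ h` (`dirk_full`, `dirk_mono_deg`), so `t² ≤ 2 h = 2 |T| / ρ`; if `ρ ≥ 32 C'` then `t ≤ A/4 ≤ D/2`.
  Factor `g` into irreducible forms `g_i` of degrees `t_i ≥ 1`, `∑ t_i = t` (`dirp_factor`; repetitions allowed), `T_i = T ∩ Z(g_i)`,
  `R_i ⊆ T_i` a set of representatives of the directions, `|T_i| ≤ H |R_i|` (`dirp_reps`), `τ_i = |R_i|`.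
  GOOD `i` (`2 t_i² ≤ τ_i`): `hP(T_i, D) ≥ c0 |T_i|`, `c0 = min(1/(4K), 1/(4H))` (`dirp_good`, from `dirp_curve_rank`);
  BAD `i`: `|T_i| < 2 H t_i²`, in total `< 2 H t² ≤ 4 H |T| / ρ ≤ |T| / 2` if `ρ ≥ 8 H`.
  `dir_section` for the good `i` and summation: `(c0/4) |T| ≤ (2·9 t / D) |T| / ρ` if `ρ ≥ 2/c0`, so `ρ ≤ 36 / c0`.
-/

set_option autoImplicit false

namespace Claimed.Agent.R273

open MvPolynomial Finset

/-- The hypotheses of the plane lemma (all hereditary). -/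
structure PlaneHyp (A H K C' : ℝ) (T : Finset (Fin 3 → ℂ)) : Prop where
  ne0 : ∀ x ∈ T, x ≠ 0
  card : (T.card : ℝ) ≤ C' * A ^ ((3 : ℝ) / 2)
  line : ∀ T' ⊆ T, (∀ x ∈ T', ∀ y ∈ T', ∃ c : ℂ, y = c • x) → (T'.card : ℝ) ≤ H
  curve : ∀ (k : ℕ) (F : MvPolynomial (Fin 3) ℂ), F.IsHomogeneous k → F ≠ 0 → ∀ T' ⊆ T,
    (∀ x ∈ T', eval x F = 0) → (T'.card : ℝ) ≤ K * A * k

theorem PlaneHyp.mono {A H K C' : ℝ} {T T' : Finset (Fin 3 → ℂ)} (h : PlaneHyp A H K C' T)
    (hT : T' ⊆ T) : PlaneHyp A H K C' T' where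
  ne0 := fun x hx => h.ne0 x (hT hx)
  card := le_trans (by exact_mod_cast Finset.card_le_card hT) h.card
  line := fun T'' h'' => h.line T'' (h''.trans hT)
  curve := fun k F hF hF0 T'' h'' => h.curve k F hF hF0 T'' (h''.trans hT)

/-- THE PLANE LEMMA. -/
def PlaneStmt : Prop :=
  ∀ H K C' : ℝ, 1 ≤ H → 1 ≤ K → 1 ≤ C' → ∃ C : ℝ, 1 ≤ C ∧ ∀ (A : ℝ) (D : ℕ) (T : Finset (Fin 3 → ℂ)),
    1 ≤ A → A / 2 ≤ (D : ℝ) → (D : ℝ) ≤ A → PlaneHyp A H K C' T →
    (T.card : ℝ) ≤ C * hP (T : Set (Fin 3 → ℂ)) D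

/-! ### Leaves -/

/-- LEAF T1-P1.  In a domain, the factors of a nonzero homogeneous polynomial are homogeneous (compare the products of the lowest and of the
highest nonzero homogeneous components of the two factors). -/
theorem dirp_homog_of_mul {σ : Type*} {f g : MvPolynomial σ ℂ} {k : ℕ} (h : (f * g).IsHomogeneous k)
    (h0 : f * g ≠ 0) : ∃ a b : ℕ, a + b = k ∧ f.IsHomogeneous a ∧ g.IsHomogeneous b :=
  homfac_of_mul h h0

/-- LEAF T1-P1.  Factorisation of a form into irreducible forms (`UniqueFactorizationMonoid`; repetitions allowed; the unit is a constant). -/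
theorem dirp_factor {t : ℕ} (g : MvPolynomial (Fin 3) ℂ) (hg : g.IsHomogeneous t) (hg0 : g ≠ 0) :
    ∃ L : List (MvPolynomial (Fin 3) ℂ × ℕ),
      (∀ x ∈ L, Irreducible x.1 ∧ x.1.IsHomogeneous x.2 ∧ 1 ≤ x.2) ∧ (L.map Prod.snd).sum = t ∧
      ∀ v : Fin 3 → ℂ, eval v g = 0 → ∃ x ∈ L, eval v x.1 = 0 :=
  homfac_exists_eval hg hg0

/-- a nonzero linear form through a given vector of `ℂ³` -/
theorem dirp_lin_form (x : Fin 3 → ℂ) :
    ∃ l : MvPolynomial (Fin 3) ℂ, l.IsHomogeneous 1 ∧ l ≠ 0 ∧ eval x l = 0 := by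
  by_cases h : x 0 = 0 ∧ x 1 = 0
  · exact ⟨X 0, isHomogeneous_X ℂ 0, X_ne_zero 0, by simp [h.1]⟩
  · refine ⟨C (x 1) * X 0 - C (x 0) * X 1, (isHomogeneous_C_mul_X _ _).sub (isHomogeneous_C_mul_X _ _), ?_, ?_⟩
    · intro h0
      apply h
      have e0 := congrArg (eval (fun i : Fin 3 => if i = 0 then (1 : ℂ) else 0)) h0
      have e1 := congrArg (eval (fun i : Fin 3 => if i = 1 then (1 : ℂ) else 0)) h0
      simp at e0 e1
      exact ⟨e1, e0⟩
    · simp
      ring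

/-- LEAF T1-P2.  A form of least degree through a nonempty finite set (a product of linear forms vanishes on `T`; `Nat.find`). -/
theorem dirp_min_form (T : Finset (Fin 3 → ℂ)) (hT : T.Nonempty) :
    ∃ (t : ℕ) (g : MvPolynomial (Fin 3) ℂ), 1 ≤ t ∧ g.IsHomogeneous t ∧ g ≠ 0 ∧ (∀ x ∈ T, eval x g = 0) ∧
      ∀ k < t, ∀ f : MvPolynomial (Fin 3) ℂ, f.IsHomogeneous k → (∀ x ∈ T, eval x f = 0) → f = 0 := by
  classical
  have hex : ∃ t : ℕ, ∃ g : MvPolynomial (Fin 3) ℂ, g.IsHomogeneous t ∧ g ≠ 0 ∧ ∀ x ∈ T, eval x g = 0 := by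
    choose l hl1 hl2 hl3 using dirp_lin_form
    refine ⟨∑ _x ∈ T, 1, ∏ x ∈ T, l x, IsHomogeneous.prod T l (fun _ => 1) (fun x _ => hl1 x),
      Finset.prod_ne_zero_iff.2 (fun x _ => hl2 x), fun x hx => ?_⟩
    rw [map_prod]
    exact Finset.prod_eq_zero hx (hl3 x)
  obtain ⟨g, hg, hg0, hgT⟩ := Nat.find_spec hex
  refine ⟨Nat.find hex, g, ?_, hg, hg0, hgT, ?_⟩
  · by_contra hlt
    have h0 : Nat.find hex = 0 := by omega
    rw [h0] at hg
    obtain ⟨x, hx⟩ := hT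
    have hc : g = C (coeff 0 g) := by
      have := hg.totalDegree hg0
      exact totalDegree_eq_zero_iff_eq_C.1 this
    have := hgT x hx
    rw [hc, eval_C] at this
    apply hg0
    rw [hc, this, C_0]
  · intro k hk f hf hfT
    by_contra hf0
    exact Nat.find_min hex hk ⟨f, hf, hf0, hfT⟩

/-- LEAF T1-P2.  Representatives of the directions (a maximal subset without two proportional vectors; every vector of `T` is proportional to
one of them, each class has at most `H` elements). -/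
theorem dirp_reps {H : ℝ} (T : Finset (Fin 3 → ℂ)) (h0 : ∀ x ∈ T, x ≠ 0)
    (hl : ∀ T' ⊆ T, (∀ x ∈ T', ∀ y ∈ T', ∃ c : ℂ, y = c • x) → (T'.card : ℝ) ≤ H) :
    ∃ R ⊆ T, (∀ x ∈ R, ∀ y ∈ R, (∃ c : ℂ, y = c • x) → x = y) ∧ (T.card : ℝ) ≤ H * R.card := by
  classical
  -- the class of a vector and the chosen representative of a class
  set cl : (Fin 3 → ℂ) → Finset (Fin 3 → ℂ) := fun x => T.filter fun y => ∃ c : ℂ, y = c • x with hcl
  set pick : Finset (Fin 3 → ℂ) → (Fin 3 → ℂ) := fun S => if h : S.Nonempty then h.choose else 0 with hpick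
  set rep : (Fin 3 → ℂ) → (Fin 3 → ℂ) := fun x => pick (cl x) with hrep
  have hself : ∀ x ∈ T, x ∈ cl x := fun x hx => Finset.mem_filter.2 ⟨hx, 1, (one_smul _ _).symm⟩
  have hrepmem : ∀ x ∈ T, rep x ∈ cl x := by
    intro x hx
    have hne : (cl x).Nonempty := ⟨x, hself x hx⟩
    show pick (cl x) ∈ cl x
    rw [hpick]
    simp only [dif_pos hne]
    exact hne.choose_spec
  have hcleq : ∀ x ∈ T, ∀ y ∈ T, (∃ c : ℂ, y = c • x) → cl x = cl y := by
    rintro x hx y hy ⟨c, rfl⟩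
    have hc : c ≠ 0 := by
      rintro rfl
      exact h0 _ hy (zero_smul _ _)
    ext z
    simp only [hcl, Finset.mem_filter]
    constructor
    · rintro ⟨hz, c', rfl⟩
      exact ⟨hz, c' * c⁻¹, by rw [smul_smul, mul_assoc, inv_mul_cancel₀ hc, mul_one]⟩
    · rintro ⟨hz, c', rfl⟩
      exact ⟨hz, c' * c, by rw [smul_smul]⟩
  have hrepT : ∀ x ∈ T, rep x ∈ T := fun x hx => (Finset.mem_filter.1 (hrepmem x hx)).1
  have hrepc : ∀ x ∈ T, ∃ c : ℂ, c ≠ 0 ∧ rep x = c • x := by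
    intro x hx
    obtain ⟨c, hc⟩ := (Finset.mem_filter.1 (hrepmem x hx)).2
    refine ⟨c, ?_, hc⟩
    rintro rfl
    exact h0 _ (hrepT x hx) (by rw [hc, zero_smul])
  refine ⟨T.image rep, ?_, ?_, ?_⟩
  · intro a ha
    obtain ⟨x, hx, rfl⟩ := Finset.mem_image.1 ha
    exact hrepT x hx
  · intro a ha b hb ⟨c, hc⟩
    obtain ⟨x, hx, rfl⟩ := Finset.mem_image.1 ha
    obtain ⟨y, hy, rfl⟩ := Finset.mem_image.1 hb
    obtain ⟨c1, hc1, e1⟩ := hrepc x hx
    obtain ⟨c2, hc2, e2⟩ := hrepc y hy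
    have hxy : ∃ c' : ℂ, y = c' • x := by
      refine ⟨c2⁻¹ * (c * c1), ?_⟩
      have : c2 • y = (c * c1) • x := by rw [← e2, hc, e1, smul_smul]
      rw [mul_smul, ← this, smul_smul, inv_mul_cancel₀ hc2, one_smul]
    show pick (cl x) = pick (cl y)
    rw [hcleq x hx y hy hxy]
  · rw [Finset.card_eq_sum_card_image rep T]
    push_cast
    calc ∑ b ∈ T.image rep, ((T.filter fun x => rep x = b).card : ℝ) ≤ ∑ _b ∈ T.image rep, H := by
          refine Finset.sum_le_sum fun b _ => hl _ (Finset.filter_subset _ _) ?_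
          intro x hx y hy
          obtain ⟨hxT, hxb⟩ := Finset.mem_filter.1 hx
          obtain ⟨hyT, hyb⟩ := Finset.mem_filter.1 hy
          obtain ⟨c1, hc1, e1⟩ := hrepc x hxT
          obtain ⟨c2, hc2, e2⟩ := hrepc y hyT
          refine ⟨c2⁻¹ * c1, ?_⟩
          have : c2 • y = c1 • x := by rw [← e2, ← e1, hxb, hyb]
          rw [mul_smul, ← this, smul_smul, inv_mul_cancel₀ hc2, one_smul]
      _ = H * (T.image rep).card := by rw [Finset.sum_const, nsmul_eq_mul, mul_comm]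

/-- LEAF T1-P3.  The rank of more than `k t` points of an irreducible curve of degree `t ≤ k`: a form of degree `k` vanishing on `R` is divisible by
`g` (`dirk_bezout`: otherwise `IsRelPrime`, as `g` is irreducible), so `hP = binom(k+2,2) - binom(k-t+2,2) = t (2k - t + 3)/2 ≥ t k / 2`
(`dirk_div`). -/
theorem dirp_curve_rank {t k : ℕ} (htk : t ≤ k) (g : MvPolynomial (Fin 3) ℂ) (hg : g.IsHomogeneous t)
    (hirr : Irreducible g) (R : Finset (Fin 3 → ℂ)) (h0 : ∀ x ∈ R, x ≠ 0)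
    (hR : ∀ x ∈ R, ∀ y ∈ R, (∃ c : ℂ, y = c • x) → x = y) (hz : ∀ x ∈ R, eval x g = 0)
    (hcard : k * t < R.card) : (t : ℝ) * k / 2 ≤ hP (R : Set (Fin 3 → ℂ)) k := by
  have hdiv : ∀ f : MvPolynomial (Fin 3) ℂ, f.IsHomogeneous k → (∀ x ∈ (R : Set (Fin 3 → ℂ)), eval x f = 0) → g ∣ f := by
    intro f hf hfR
    by_contra hnd
    have hrel : IsRelPrime f g := (hirr.isRelPrime_iff_not_dvd.2 hnd).symm
    have := dirk_bezout f g hf hg hrel R h0 hR (fun x hx => ⟨hfR x (Finset.mem_coe.2 hx), hz x hx⟩)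
    omega
  have h1 := dirk_div (R : Set (Fin 3 → ℂ)) htk g hg hirr.ne_zero (fun x hx => hz x (Finset.mem_coe.1 hx)) hdiv
  have h2 : ((hP (R : Set (Fin 3 → ℂ)) k : ℕ) : ℝ) + ((k - t + 2).choose 2 : ℕ) = ((k + 2).choose 2 : ℕ) := by
    exact_mod_cast h1
  rw [Nat.cast_choose_two, Nat.cast_choose_two] at h2
  push_cast [Nat.cast_sub htk] at h2
  have ht : (t : ℝ) ≤ k := by exact_mod_cast htk
  have ht0 : (0 : ℝ) ≤ t := Nat.cast_nonneg _
  nlinarith

/-- LEAF T1-P4.  A good component.  `Ti ⊆ Z(g)`, `g` irreducible of degree `t`, `1 ≤ t ≤ D`, `R ⊆ Ti` representatives, `|Ti| ≤ H |R|`, `2 t² ≤ |R|`.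
(A) `|R| > D t`: `hP(Ti, D) ≥ hP(R, D) ≥ t D / 2 ≥ t A / 4 ≥ |Ti| / (4K)` (`curve`).
(B) `|R| ≤ D t`: `D' = ⌈|R| / t⌉ - 1`, i.e. `D' t < |R| ≤ (D'+1) t`: `t ≤ 2t - 1 ≤ D' < D`, `hP(Ti, D) ≥ hP(R, D) ≥ hP(R, D') ≥ t D' / 2 ≥ |R| / 4 ≥ |Ti| / (4H)`. -/
theorem dirp_good {A H K C' : ℝ} (hH : 1 ≤ H) (hK : 1 ≤ K) {D t : ℕ} (hA : 1 ≤ A) (hD : A / 2 ≤ (D : ℝ))
    {Ti R : Finset (Fin 3 → ℂ)} (hT : PlaneHyp A H K C' Ti) (ht1 : 1 ≤ t) (htD : t ≤ D)
    (g : MvPolynomial (Fin 3) ℂ) (hg : g.IsHomogeneous t) (hirr : Irreducible g)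
    (hz : ∀ x ∈ Ti, eval x g = 0) (hRT : R ⊆ Ti)
    (hR : ∀ x ∈ R, ∀ y ∈ R, (∃ c : ℂ, y = c • x) → x = y) (hcard : (Ti.card : ℝ) ≤ H * R.card)
    (hgood : 2 * t ^ 2 ≤ R.card) :
    min (1 / (4 * K)) (1 / (4 * H)) * (Ti.card : ℝ) ≤ hP (Ti : Set (Fin 3 → ℂ)) D := by
  have hR0 : ∀ x ∈ R, x ≠ 0 := fun x hx => hT.ne0 x (hRT hx)
  have hRz : ∀ x ∈ R, eval x g = 0 := fun x hx => hz x (hRT hx)
  have hmono : (hP (R : Set (Fin 3 → ℂ)) D : ℝ) ≤ hP (Ti : Set (Fin 3 → ℂ)) D := by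
    exact_mod_cast dirk_mono (Finset.coe_subset.2 hRT) D
  have hN0 : (0 : ℝ) ≤ (Ti.card : ℝ) := Nat.cast_nonneg _
  have ht0 : (1 : ℝ) ≤ t := by exact_mod_cast ht1
  by_cases hA' : D * t < R.card
  · -- case (A)
    have h1 := dirp_curve_rank htD g hg hirr R hR0 hR hRz hA'
    have h2 := hT.curve t g hg hirr.ne_zero Ti (Finset.Subset.refl _) hz
    have h3 : min (1 / (4 * K)) (1 / (4 * H)) * (Ti.card : ℝ) ≤ 1 / (4 * K) * (Ti.card : ℝ) :=
      mul_le_mul_of_nonneg_right (min_le_left _ _) hN0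
    have h4 : 1 / (4 * K) * (Ti.card : ℝ) ≤ A * t / 4 := by
      rw [div_mul_eq_mul_div, one_mul, div_le_iff₀ (by linarith)]
      nlinarith
    have h5 : A * t / 4 ≤ (t : ℝ) * D / 2 := by nlinarith
    linarith
  · -- case (B)
    push Not at hA'
    have hRpos : 0 < R.card := by
      have : 0 < 2 * t ^ 2 := by positivity
      omega
    set D' := (R.card - 1) / t with hD'
    have hb1 : D' * t ≤ R.card - 1 := Nat.div_mul_le_self _ _
    have hb2 : R.card - 1 < (D' + 1) * t := by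
      have h := Nat.lt_div_mul_add (a := R.card - 1) (by omega : 0 < t)
      rw [add_mul, one_mul]
      exact h
    have htD' : t ≤ D' := by
      rw [hD', Nat.le_div_iff_mul_le (by omega)]
      have : t * t ≤ 2 * t ^ 2 - 1 := by
        have h1 : 1 ≤ t * t := Nat.mul_pos ht1 ht1
        have : t ^ 2 = t * t := by ring
        omega
      omega
    have hD'D : D' ≤ D := by
      by_contra hcon
      push Not at hcon
      have : (D + 1) * t ≤ D' * t := Nat.mul_le_mul_right _ hcon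
      have h2 : D * t + t ≤ D' * t := by rw [add_mul, one_mul] at this; exact this
      omega
    have h1 := dirp_curve_rank htD' g hg hirr R hR0 hR hRz (by omega)
    have h2 : (hP (R : Set (Fin 3 → ℂ)) D' : ℝ) ≤ hP (R : Set (Fin 3 → ℂ)) D := by
      exact_mod_cast dirk_mono_deg R hR0 hD'D
    have h3 : min (1 / (4 * K)) (1 / (4 * H)) * (Ti.card : ℝ) ≤ 1 / (4 * H) * (Ti.card : ℝ) :=
      mul_le_mul_of_nonneg_right (min_le_right _ _) hN0
    have h4 : 1 / (4 * H) * (Ti.card : ℝ) ≤ (R.card : ℝ) / 4 := by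
      rw [div_mul_eq_mul_div, one_mul, div_le_iff₀ (by linarith)]
      nlinarith
    have h5 : (R.card : ℝ) ≤ ((D' : ℝ) + 1) * t := by
      have : R.card ≤ (D' + 1) * t := by omega
      exact_mod_cast this
    have h6 : (1 : ℝ) ≤ D' := by
      have : 1 ≤ D' := ht1.trans htD'
      exact_mod_cast this
    have h7 : (R.card : ℝ) / 4 ≤ (t : ℝ) * D' / 2 := by nlinarith
    linarith

open Classical in
/-- LEAF T1-P5.  **The extremal set** (the computation of the header).  `C = max (32 C') (max (8 H) (36 / c0))`, `c0 = min (1/(4K)) (1/(4H))`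
(note `2 / c0 ≤ 36 / c0`). -/
theorem dirp_key {A H K C' : ℝ} (hH : 1 ≤ H) (hK : 1 ≤ K) (hC' : 1 ≤ C') {D : ℕ} (hA : 1 ≤ A)
    (hD : A / 2 ≤ (D : ℝ)) (hDA : (D : ℝ) ≤ A) {T : Finset (Fin 3 → ℂ)} (hT : PlaneHyp A H K C' T)
    (hne : T.Nonempty)
    (ext : ∀ T' ⊆ T, (T'.card : ℝ) * hP (T : Set (Fin 3 → ℂ)) D ≤ T.card * hP (T' : Set (Fin 3 → ℂ)) D) :
    (T.card : ℝ) ≤ max (32 * C') (max (8 * H) (36 / min (1 / (4 * K)) (1 / (4 * H)))) *
      hP (T : Set (Fin 3 → ℂ)) D := by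
  set c0 : ℝ := min (1 / (4 * K)) (1 / (4 * H)) with hc0def
  have hc0 : 0 < c0 := lt_min (by positivity) (by positivity)
  set N : ℝ := (T.card : ℝ) with hN
  set h : ℝ := (hP (T : Set (Fin 3 → ℂ)) D : ℝ) with hh
  have hh1 : 1 ≤ h := by
    obtain ⟨x, hx⟩ := hne
    have h0 : 1 ≤ hP (T : Set (Fin 3 → ℂ)) D := dirk_pos (Finset.mem_coe.2 hx) (hT.ne0 x hx) D
    rw [hh]
    exact_mod_cast h0
  have hNpos : 0 < N := by
    rw [hN]; exact_mod_cast hne.card_pos
  by_contra hcon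
  push Not at hcon
  have h32 : 32 * C' * h < N :=
    lt_of_le_of_lt (mul_le_mul_of_nonneg_right (le_max_left _ _) (by linarith)) hcon
  have h8 : 8 * H * h < N :=
    lt_of_le_of_lt (mul_le_mul_of_nonneg_right ((le_max_left _ _).trans (le_max_right _ _)) (by linarith)) hcon
  have h36 : 36 * h < c0 * N := by
    have h1 : 36 / c0 * h < N :=
      lt_of_le_of_lt (mul_le_mul_of_nonneg_right ((le_max_right _ _).trans (le_max_right _ _)) (by linarith)) hcon
    have h2 : c0 * (36 / c0 * h) < c0 * N := mul_lt_mul_of_pos_left h1 hc0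
    have h3 : c0 * (36 / c0 * h) = 36 * h := by field_simp
    linarith
  have hNA : N ≤ C' * A ^ 2 := by
    refine hT.card.trans (mul_le_mul_of_nonneg_left ?_ (by linarith))
    calc A ^ ((3 : ℝ) / 2) ≤ A ^ (2 : ℝ) := Real.rpow_le_rpow_of_exponent_le hA (by norm_num)
      _ = A ^ 2 := Real.rpow_two A
  have hA32 : 32 * h < A ^ 2 := by
    have h1 : C' * (32 * h) < C' * A ^ 2 := by linarith
    exact lt_of_mul_lt_mul_left h1 (by linarith)
  obtain ⟨t, g, ht1, hg, hg0, hgT, hmin⟩ := dirp_min_form T hne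
  by_cases htD : D < t
  · have hfull := dirk_full (T : Set (Fin 3 → ℂ)) D (fun f hf hfT => hmin D htD f hf (fun x hx => hfT x (Finset.mem_coe.2 hx)))
    have h1 : h = ((D + 2).choose 2 : ℕ) := by rw [hh, hfull]
    rw [Nat.cast_choose_two] at h1
    push_cast at h1
    have hD0 : (0 : ℝ) ≤ D := Nat.cast_nonneg _
    nlinarith
  · push Not at htD
    obtain ⟨s, rfl⟩ : ∃ s, t = s + 1 := ⟨t - 1, by omega⟩
    have hfull := dirk_full (T : Set (Fin 3 → ℂ)) s
      (fun f hf hfT => hmin s (Nat.lt_succ_self s) f hf (fun x hx => hfT x (Finset.mem_coe.2 hx)))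
    have hmd := dirk_mono_deg T hT.ne0 (show s ≤ D by omega)
    have ht2 : (((s + 1 : ℕ) : ℝ)) ^ 2 ≤ 2 * h := by
      have h1 : (((s + 2).choose 2 : ℕ) : ℝ) ≤ h := by
        rw [hh, ← hfull]; exact_mod_cast hmd
      rw [Nat.cast_choose_two] at h1
      push_cast at h1 ⊢
      have hs0 : (0 : ℝ) ≤ s := Nat.cast_nonneg _
      nlinarith
    set t := s + 1 with ht
    have ht0 : (1 : ℝ) ≤ (t : ℝ) := by exact_mod_cast ht1
    have h4t : 4 * (t : ℝ) < A := by
      by_contra hc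
      push Not at hc
      nlinarith
    have h2t : 2 * t ≤ D := by
      have : (2 * (t : ℝ)) ≤ D := by linarith
      exact_mod_cast this
    have hDpos : (0 : ℝ) < D := by linarith
    obtain ⟨L, hL1, hL2, hL3⟩ := dirp_factor g hg hg0
    set gi : Fin L.length → MvPolynomial (Fin 3) ℂ := fun i => (L.get i).1 with hgi
    set ti : Fin L.length → ℕ := fun i => (L.get i).2 with hti
    have hLi : ∀ i, Irreducible (gi i) ∧ (gi i).IsHomogeneous (ti i) ∧ 1 ≤ ti i := fun i => hL1 _ (L.get_mem i)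
    have hsum : ∑ i, ti i = t := by
      rw [← hL2]
      exact Fin.sum_univ_fun_getElem L Prod.snd
    have htile : ∀ i, ti i ≤ t := fun i => by
      rw [← hsum]
      exact Finset.single_le_sum (f := ti) (fun _ _ => Nat.zero_le _) (Finset.mem_univ i)
    set Ti : Fin L.length → Finset (Fin 3 → ℂ) := fun i => T.filter fun x => eval x (gi i) = 0 with hTi
    have hTiT : ∀ i, Ti i ⊆ T := fun i => Finset.filter_subset _ _
    have hcover : T ⊆ Finset.univ.biUnion Ti := by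
      intro x hx
      obtain ⟨y, hy, hxy⟩ := hL3 x (hgT x hx)
      obtain ⟨i, rfl⟩ := List.mem_iff_get.1 hy
      exact Finset.mem_biUnion.2 ⟨i, Finset.mem_univ _, Finset.mem_filter.2 ⟨hx, hxy⟩⟩
    have hNsum : N ≤ ∑ i, ((Ti i).card : ℝ) := by
      have h1 : T.card ≤ ∑ i, (Ti i).card := (Finset.card_le_card hcover).trans Finset.card_biUnion_le
      rw [hN]; exact_mod_cast h1
    have hreps := fun i => dirp_reps (H := H) (Ti i) (hT.mono (hTiT i)).ne0 (hT.mono (hTiT i)).line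
    choose R hR1 hR2 hR3 using hreps
    set G : Finset (Fin L.length) := Finset.univ.filter fun i => 2 * ti i ^ 2 ≤ (R i).card with hG
    have hgoodi : ∀ i ∈ G, N * (c0 * ((Ti i).card : ℝ)) ≤ h * (18 * (ti i : ℝ) / D * N + ((Ti i).card : ℝ)) := by
      intro i hi
      have hi' := (Finset.mem_filter.1 hi).2
      have h1 := dirp_good hH hK hA hD (hT.mono (hTiT i)) (hLi i).2.2 ((htile i).trans htD) (gi i) (hLi i).2.1 (hLi i).1
        (fun x hx => (Finset.mem_filter.1 hx).2) (hR1 i) (hR2 i) (hR3 i) hi'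
      have h2 := dir_section T hT.ne0 (t := ti i) (k := D) (by have := htile i; omega) (gi i) (hLi i).2.1 ext
      have h3 : N * (c0 * ((Ti i).card : ℝ)) ≤ N * (hP ((Ti i : Finset (Fin 3 → ℂ)) : Set (Fin 3 → ℂ)) D : ℝ) :=
        mul_le_mul_of_nonneg_left h1 hNpos.le
      refine h3.trans (h2.trans (le_of_eq ?_))
      push_cast
      ring
    have hbadi : ∀ i ∉ G, ((Ti i).card : ℝ) ≤ 2 * H * ((ti i : ℝ) * t) := by
      intro i hi
      have hi' : (R i).card < 2 * ti i ^ 2 := by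
        by_contra hc
        exact hi (Finset.mem_filter.2 ⟨Finset.mem_univ _, not_lt.1 hc⟩)
      have h1 : ((R i).card : ℝ) ≤ 2 * (ti i : ℝ) ^ 2 := by exact_mod_cast hi'.le
      have h2 : (ti i : ℝ) ≤ t := by exact_mod_cast htile i
      have h3 : (0 : ℝ) ≤ ti i := Nat.cast_nonneg _
      have h4 := hR3 i
      have hH0 : (0 : ℝ) ≤ H := by linarith
      have h5 : H * ((R i).card : ℝ) ≤ H * (2 * (ti i : ℝ) ^ 2) := mul_le_mul_of_nonneg_left h1 hH0
      have h6 : (ti i : ℝ) * (ti i : ℝ) ≤ (ti i : ℝ) * t := mul_le_mul_of_nonneg_left h2 h3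
      have h7 : H * ((ti i : ℝ) * (ti i : ℝ)) ≤ H * ((ti i : ℝ) * t) := mul_le_mul_of_nonneg_left h6 hH0
      calc ((Ti i).card : ℝ) ≤ H * ((R i).card : ℝ) := h4
        _ ≤ H * (2 * (ti i : ℝ) ^ 2) := h5
        _ = 2 * (H * ((ti i : ℝ) * (ti i : ℝ))) := by ring
        _ ≤ 2 * (H * ((ti i : ℝ) * t)) := by linarith
        _ = 2 * H * ((ti i : ℝ) * t) := by ring
    have hsumR : ∑ i, (ti i : ℝ) = t := by exact_mod_cast hsum
    have hbad : ∑ i ∈ Finset.univ.filter (fun i => i ∉ G), ((Ti i).card : ℝ) ≤ 2 * H * ((t : ℝ) * t) := by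
      calc ∑ i ∈ Finset.univ.filter (fun i => i ∉ G), ((Ti i).card : ℝ)
          ≤ ∑ i ∈ Finset.univ.filter (fun i => i ∉ G), 2 * H * ((ti i : ℝ) * t) :=
            Finset.sum_le_sum fun i hi => hbadi i (Finset.mem_filter.1 hi).2
        _ ≤ ∑ i, 2 * H * ((ti i : ℝ) * t) :=
            Finset.sum_le_sum_of_subset_of_nonneg (Finset.filter_subset _ _) (fun i _ _ => by positivity)
        _ = 2 * H * ((t : ℝ) * t) := by rw [← Finset.mul_sum, ← Finset.sum_mul, hsumR]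
    have hsplit : ∑ i, ((Ti i).card : ℝ) = ∑ i ∈ G, ((Ti i).card : ℝ)
        + ∑ i ∈ Finset.univ.filter (fun i => i ∉ G), ((Ti i).card : ℝ) := by
      rw [← Finset.sum_filter_add_sum_filter_not Finset.univ (fun i => i ∈ G)]
      congr 1
      apply Finset.sum_congr _ (fun _ _ => rfl)
      ext i; simp
    set Sg : ℝ := ∑ i ∈ G, ((Ti i).card : ℝ) with hSg
    have hSg2 : N / 2 < Sg := by
      have : 2 * H * ((t : ℝ) * t) ≤ 4 * H * h := by nlinarith
      linarith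
    have hgsum : N * (c0 * Sg) ≤ h * (9 * N + Sg) := by
      have h1 : ∑ i ∈ G, N * (c0 * ((Ti i).card : ℝ)) ≤ ∑ i ∈ G, h * (18 * (ti i : ℝ) / D * N + ((Ti i).card : ℝ)) :=
        Finset.sum_le_sum hgoodi
      rw [← Finset.mul_sum, ← Finset.mul_sum, ← Finset.mul_sum, Finset.sum_add_distrib] at h1
      refine h1.trans (mul_le_mul_of_nonneg_left (add_le_add ?_ le_rfl) (by linarith))
      have h2 : ∑ i ∈ G, (ti i : ℝ) ≤ t := by
        rw [← hsumR]
        exact Finset.sum_le_sum_of_subset_of_nonneg (Finset.filter_subset _ _) (fun i _ _ => Nat.cast_nonneg _)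
      have h3 : ∑ i ∈ G, 18 * (ti i : ℝ) / D * N = 18 * N / D * ∑ i ∈ G, (ti i : ℝ) := by
        rw [Finset.mul_sum]
        refine Finset.sum_congr rfl fun i _ => ?_
        ring
      rw [h3]
      have h4 : 18 * N / D * ∑ i ∈ G, (ti i : ℝ) ≤ 18 * N / D * t :=
        mul_le_mul_of_nonneg_left h2 (by positivity)
      refine h4.trans ?_
      rw [div_mul_eq_mul_div, div_le_iff₀ hDpos]
      have : 2 * (t : ℝ) ≤ D := by exact_mod_cast h2t
      nlinarith
    have hpos : 35 * h < c0 * N - h := by linarith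
    have hfin : (c0 * N - h) * (N / 2) < (c0 * N - h) * Sg := mul_lt_mul_of_pos_left hSg2 (by linarith)
    have hN2 : 0 < N / 2 := by linarith
    have hfin2 : 35 * h * (N / 2) < (c0 * N - h) * (N / 2) := mul_lt_mul_of_pos_right hpos hN2
    have hfin3 : (c0 * N - h) * Sg ≤ 9 * (h * N) := by
      have e1 : (c0 * N - h) * Sg = N * (c0 * Sg) - h * Sg := by ring
      have e2 : h * (9 * N + Sg) = 9 * (h * N) + h * Sg := by ring
      rw [e1]
      linarith
    have hhN : 0 < h * N := mul_pos (by linarith) hNpos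
    have e3 : 35 * h * (N / 2) = 35 / 2 * (h * N) := by ring
    rw [e3] at hfin2
    linarith

/-- **The plane lemma** (glue). -/
theorem dirp_main : PlaneStmt := by
  classical
  intro H K C' hH hK hC'
  refine ⟨max (32 * C') (max (8 * H) (36 / min (1 / (4 * K)) (1 / (4 * H)))),
    le_trans (by linarith) (le_max_left _ _), ?_⟩
  intro A D T hA hD hDA hT
  have hC0 : (0 : ℝ) ≤ max (32 * C') (max (8 * H) (36 / min (1 / (4 * K)) (1 / (4 * H)))) :=
    le_trans (by linarith) (le_max_left _ _)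
  refine dir_extremal T (fun _ => True) (fun S => hP (S : Set (Fin 3 → ℂ)) D) _ hC0 ?_ ?_ T
    (Finset.Subset.refl _) trivial
  · intro S hS hne
    obtain ⟨x, hx⟩ := hne
    exact dirk_pos (Finset.mem_coe.2 hx) (hT.ne0 x (hS hx)) D
  · intro S hS _ hne ext
    exact dirp_key hH hK hC' hA hD hDA (hT.mono hS) hne
      (fun T' hT' => ext T' (hT'.trans hS) trivial)

end Claimed.Agent.R273
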