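import Claimed.Agent.R273.RkPts
import Claimed.Agent.R273.RkFlat
import Claimed.Agent.R273.RkKos

/-!
# Row 273, rank library [RK], part 7: PLANE BEZOUT BY THE KOSZUL DIMENSION COUNT

`f, g` forms of degrees `a, b` in three variables without common factor.  `R_k` := forms of degree `k`, `h(k) = binom(k+2,2)`.
For `k ≥ a + b`:  `I_k := f R_{k-a} + g R_{k-b} ⊆ R_k` vanishes on `Z := Z(f) ∩ Z(g)`, and
`f R_{k-a} ∩ g R_{k-b} = f g R_{k-a-b}`  (`f u = g v`, `IsRelPrime f g` ⇒ `g ∣ u`; the quotient may be taken homogeneous: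
`rk_homog_quot`), so `dim I_k = h(k-a) + h(k-b) - h(k-a-b)` and
`hP Z k ≤ h(k) - dim I_k = a b`.   For `1 ≤ k < a + b` use `rk_hP_mono_deg`; `k = 0`: the rank is `≤ 1` (and `Z = ∅` if `a b = 0`).
LEAVES: RK-kos (RkKos.lean: `rk_homog_quot`, `rk_koszul_inter`, `rk_koszul_dim`), RK-bez (this file: `rk_bezout_rank`, `rk_bezout_card`).
Degenerate cases: `f = 0` (or `g = 0`) forces the other one to be a unit, whose zero set is empty; `a = 0`, `f ≠ 0`: `f` is a nonzero constant.
-/

set_option autoImplicit false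

namespace Claimed.Agent.R273

open MvPolynomial Module

theorem rk_bez_zset_unit {ι : Type*} {g : MvPolynomial ι ℂ} (hg : IsUnit g) : zset g = ∅ := by
  ext x
  simp only [rk_mem_zset, Set.mem_empty_iff_false, iff_false]
  exact (hg.map (eval x)).ne_zero

theorem rk_bez_large {f g : MvPolynomial (Fin 3) ℂ} {a b : ℕ} (hf : f.IsHomogeneous a) (hg : g.IsHomogeneous b)
    (hf0 : f ≠ 0) (hg0 : g ≠ 0) (hrel : IsRelPrime f g) (k : ℕ) :
    hP (zset f ∩ zset g) (a + b + k) ≤ a * b := by
  set Z := zset f ∩ zset g with hZ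
  set I : Submodule ℂ (MvPolynomial (Fin 3) ℂ) := mulSub f (b + k) ⊔ mulSub g (a + k) with hI
  have hIhom : I ≤ homogeneousSubmodule (Fin 3) ℂ (a + b + k) := by
    rw [hI, sup_le_iff]
    constructor
    · rintro _ ⟨u, hu, rfl⟩
      have := hf.mul hu
      rwa [← add_assoc] at this
    · rintro _ ⟨u, hu, rfl⟩
      have := hg.mul hu
      rwa [← add_assoc, add_comm b a] at this
  have hIZ : ∀ u ∈ I, ∀ x ∈ Z, eval x u = 0 := by
    intro u hu x hx
    obtain ⟨y, ⟨u1, _, rfl⟩, z, ⟨u2, _, rfl⟩, rfl⟩ := Submodule.mem_sup.mp hu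
    have h1 : eval x f = 0 := hx.1
    have h2 : eval x g = 0 := hx.2
    simp [h1, h2]
  have h1 := rk_rkOn_add_ker (homogeneousSubmodule (Fin 3) ℂ (a + b + k)) Z
  have h2 : finrank ℂ I ≤ finrank ℂ (LinearMap.ker (evalOn (homogeneousSubmodule (Fin 3) ℂ (a + b + k)) Z)) := by
    let j : I →ₗ[ℂ] LinearMap.ker (evalOn (homogeneousSubmodule (Fin 3) ℂ (a + b + k)) Z) :=
      LinearMap.codRestrict _ (Submodule.inclusion hIhom) (by
        intro u
        rw [rk_mem_ker_evalOn]
        exact hIZ u.1 u.2)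
    apply LinearMap.finrank_le_finrank_of_injective (f := j)
    intro u v huv
    have := congrArg (fun w : LinearMap.ker (evalOn (homogeneousSubmodule (Fin 3) ℂ (a + b + k)) Z) =>
      (w.1.1 : MvPolynomial (Fin 3) ℂ)) huv
    exact Subtype.ext this
  have hkos := rk_koszul_dim hf hg hf0 hg0 hrel k
  rw [rk_finrank_homog] at h1
  have hmc : ∀ j, 2 * Nat.multichoose (Fintype.card (Fin 3)) j = (j + 1) * (j + 2) := by
    intro j
    rw [Nat.multichoose_eq, Fintype.card_fin, ← pmb_choose_two]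
    congr 2
    omega
  rw [← hI] at hkos
  have e1 := hmc (a + b + k)
  have e2 := hmc (b + k)
  have e3 := hmc (a + k)
  have e4 := hmc k
  change rkOn _ Z ≤ _
  nlinarith

/-- PLANE BEZOUT, rank form. -/
theorem rk_bezout_rank {f g : MvPolynomial (Fin 3) ℂ} {a b : ℕ} (hf : f.IsHomogeneous a) (hg : g.IsHomogeneous b)
    (hrel : IsRelPrime f g) (k : ℕ) : hP (zset f ∩ zset g) k ≤ a * b := by
  have hempty : ∀ T : Set (Fin 3 → ℂ), T = ∅ → hP T k ≤ a * b := by
    intro T hT
    rw [hT, hP, rk_rkOn_empty]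
    exact Nat.zero_le _
  by_cases hf0 : f = 0
  · subst hf0
    apply hempty
    rw [rk_bez_zset_unit (isRelPrime_zero_left.mp hrel), Set.inter_empty]
  by_cases hg0 : g = 0
  · subst hg0
    apply hempty
    rw [rk_bez_zset_unit (isRelPrime_zero_right.mp hrel), Set.empty_inter]
  rcases Nat.eq_zero_or_pos k with hk | hk
  · subst hk
    rcases Nat.eq_zero_or_pos a with ha | ha
    · subst ha
      apply hempty
      have h1 : f = C (coeff 0 f) := (totalDegree_eq_zero_iff_eq_C).mp (Nat.le_zero.mp hf.totalDegree_le)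
      have h2 : IsUnit f := by
        rw [h1]
        apply IsUnit.map
        rw [isUnit_iff_ne_zero]
        intro h3
        rw [h3, map_zero] at h1
        exact hf0 h1
      rw [rk_bez_zset_unit h2, Set.empty_inter]
    rcases Nat.eq_zero_or_pos b with hb | hb
    · subst hb
      apply hempty
      have h1 : g = C (coeff 0 g) := (totalDegree_eq_zero_iff_eq_C).mp (Nat.le_zero.mp hg.totalDegree_le)
      have h2 : IsUnit g := by
        rw [h1]
        apply IsUnit.map
        rw [isUnit_iff_ne_zero]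
        intro h3
        rw [h3, map_zero] at h1
        exact hg0 h1
      rw [rk_bez_zset_unit h2, Set.inter_empty]
    refine (rk_hP_le_multichoose _ 0).trans ?_
    rw [Nat.multichoose_zero_right]
    exact Nat.mul_pos ha hb
  · exact (rk_hP_mono_deg _ (by omega) (Or.inl hk)).trans (rk_bez_large hf hg hf0 hg0 hrel k)

/-- PLANE BEZOUT, counting form. -/
theorem rk_bezout_card {f g : MvPolynomial (Fin 3) ℂ} {a b : ℕ} (hf : f.IsHomogeneous a) (hg : g.IsHomogeneous b)
    (hrel : IsRelPrime f g) (S : Finset (Fin 3 → ℂ)) (hS : ProjDistinct (S : Set (Fin 3 → ℂ)))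
    (hZ : (S : Set (Fin 3 → ℂ)) ⊆ zset f ∩ zset g) : S.card ≤ a * b := by
  rw [← rk_hP_eq_card_of_le S hS (D := S.card) (Nat.le_succ _)]
  exact (rk_hP_mono_set _ hZ).trans (rk_bezout_rank hf hg hrel _)

end Claimed.Agent.R273
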