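import Claimed.Agent.R273.RkMap
import Claimed.Agent.R273.RkStd

/-!
# Row 273, rank library [RK], part 5: `hP` versus `hA` in a chart; monotonicity, growth, `H(kD)` for `hP`

* on a set `T` on which a linear form `ℓ` is `≡ 1`, `hP T D = hA T D`  (`f = ∑_k f_k ↦ ∑_k ℓ^{D-k} f_k`);
* a finite set without the origin has a linear form which vanishes nowhere on it;
* consequently (rescale, `rk_hP_smul`; reduce arbitrary `T` to a finite independent subset, `rk_exists_indep`, which avoids `0` when
  `D ≥ 1`, `rk_hP_diff_zero`) the facts on `hA` hold for `hP` and ARBITRARY `T`.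
LEAF RK-chart (this file).
-/

set_option autoImplicit false

namespace Claimed.Agent.R273

open MvPolynomial Module

variable {ι : Type*} [Fintype ι]

theorem rk_hP_eq_hA_of_chart (a : ι → ℂ) (T : Set (ι → ℂ)) (h : ∀ x ∈ T, ∑ i, a i * x i = 1) (D : ℕ) :
    hP T D = hA T D := by
  apply le_antisymm (rk_hP_le_hA T D)
  have key := rk_rkOn_le_of_pull (homogeneousSubmodule ι ℂ D) T (restrictTotalDegree ι ℂ D) id
    (fun _ => 1) (fun _ _ => one_ne_zero) (by
    intro f hf
    rw [mem_restrictTotalDegree] at hf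
    set L : MvPolynomial ι ℂ := ∑ i, C (a i) * X i with hL
    have hLh : L.IsHomogeneous 1 := by
      apply IsHomogeneous.sum
      intro i _
      simpa using (isHomogeneous_C ι (a i)).mul (isHomogeneous_X ℂ i)
    refine ⟨∑ k ∈ Finset.range (D + 1), L ^ (D - k) * homogeneousComponent k f, ?_, ?_⟩
    · apply IsHomogeneous.sum
      intro k hk
      have h1 := (hLh.pow (D - k)).mul (homogeneousComponent_isHomogeneous k f)
      have h2 : 1 * (D - k) + k = D := by
        have := Finset.mem_range.mp hk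
        omega
      rwa [h2] at h1
    · intro x hx
      have hLx : eval x L = 1 := by
        rw [← h x hx, hL]; simp
      have hf' : f = ∑ k ∈ Finset.range (D + 1), homogeneousComponent k f := by
        conv_lhs => rw [← sum_homogeneousComponent f]
        apply Finset.sum_subset
        · intro k hk
          rw [Finset.mem_range] at hk ⊢
          omega
        · intro k _ hk
          apply homogeneousComponent_eq_zero
          rw [Finset.mem_range] at hk
          omega
      rw [one_mul, id]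
      conv_rhs => rw [hf']
      simp only [map_sum, map_mul, map_pow, hLx, one_pow, one_mul])
  rwa [Set.image_id] at key

/-- (a finite union of proper subspaces of the dual is not everything; or: the product of the linear polynomials
`a ↦ ∑ a_i x_i`, `x ∈ T`, is a nonzero polynomial in `a`, `MvPolynomial.funext`) -/
theorem rk_exists_chart (T : Set (ι → ℂ)) (hT : T.Finite) (h0 : (0 : ι → ℂ) ∉ T) :
    ∃ a : ι → ℂ, ∀ x ∈ T, ∑ i, a i * x i ≠ 0 := by
  obtain ⟨a, ha⟩ := pmb_exists_form hT.toFinset (by simpa using h0)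
  exact ⟨a, fun x hx => ha x (by simpa using hx)⟩

/-- a finite set without the origin: the projective rank is the affine rank of the rescaled set -/
theorem rk_hP_eq_hA_rescaled (T : Set (ι → ℂ)) (hT : T.Finite) (h0 : (0 : ι → ℂ) ∉ T) :
    ∃ c : (ι → ℂ) → ℂ, (∀ x ∈ T, c x ≠ 0) ∧ ∀ D, hP T D = hA ((fun x => c x • x) '' T) D := by
  obtain ⟨a, ha⟩ := rk_exists_chart T hT h0
  refine ⟨fun x => (∑ i, a i * x i)⁻¹, fun x hx => inv_ne_zero (ha x hx), fun D => ?_⟩
  rw [← rk_hP_smul (fun x => (∑ i, a i * x i)⁻¹) T (fun x hx => inv_ne_zero (ha x hx)) D]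
  apply rk_hP_eq_hA_of_chart a
  rintro _ ⟨x, hx, rfl⟩
  simp only [Pi.smul_apply, smul_eq_mul]
  have : ∑ i, a i * ((∑ i, a i * x i)⁻¹ * x i) = (∑ i, a i * x i)⁻¹ * ∑ i, a i * x i := by
    rw [Finset.mul_sum]; apply Finset.sum_congr rfl; intro i _; ring
  rw [this, inv_mul_cancel₀ (ha x hx)]

/-- reduction of the projective rank in degree `D` to an affine rank of a finite set -/
theorem rk_chart_reduce (T : Set (ι → ℂ)) (D : ℕ) (h0 : 1 ≤ D ∨ (0 : ι → ℂ) ∉ T) :
    ∃ S : Set (ι → ℂ), hP T D = hA S D ∧ ∀ j, hA S j ≤ hP T j := by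
  classical
  obtain ⟨S, hST, hcard, hind⟩ := rk_exists_indep (homogeneousSubmodule ι ℂ D) T
  have hfin : ((S : Set (ι → ℂ)) \ {0}).Finite := S.finite_toSet.subset Set.sdiff_subset
  have hz : (0 : ι → ℂ) ∉ (S : Set (ι → ℂ)) \ {0} := fun h => h.2 rfl
  obtain ⟨c, _, hc⟩ := rk_hP_eq_hA_rescaled _ hfin hz
  refine ⟨(fun x => c x • x) '' ((S : Set (ι → ℂ)) \ {0}), ?_, fun j => ?_⟩
  · rw [← hc D]
    have h1 : hP ((S : Set (ι → ℂ)) \ {0}) D = hP (S : Set (ι → ℂ)) D := by
      rcases h0 with h0 | h0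
      · exact rk_hP_diff_zero _ _ h0
      · congr 1
        apply Set.sdiff_singleton_eq_self
        exact fun h => h0 (hST h)
    rw [h1]
    change rkOn _ T = rkOn _ _
    rw [hind, hcard]
  · rw [← hc j]
    exact rk_hP_mono_set j (Set.sdiff_subset.trans hST)

theorem rk_hP_mono_deg (T : Set (ι → ℂ)) {D D' : ℕ} (h : D ≤ D') (h0 : 1 ≤ D ∨ (0 : ι → ℂ) ∉ T) :
    hP T D ≤ hP T D' := by
  obtain ⟨S, h1, h2⟩ := rk_chart_reduce T D h0
  rw [h1]
  exact (rk_hA_mono_deg S h).trans (h2 D')

/-- (R2) for `hP`, any `T`. -/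
theorem rk_hP_growth (T : Set (ι → ℂ)) {t D : ℕ} (htD : t ≤ D) :
    (D - t + 1) * hP T D ≤ (Fintype.card ι) ^ 2 * t * hP T D + (D - t + 1) * hP T (D - t) := by
  rcases Nat.eq_zero_or_pos D with hD | hD
  · subst hD
    have : t = 0 := by omega
    subst this
    simp
  · obtain ⟨S, h1, h2⟩ := rk_chart_reduce T D (Or.inl hD)
    rw [h1]
    refine (rk_hA_growth S htD).trans ?_
    exact Nat.add_le_add_left (Nat.mul_le_mul_left _ (h2 _)) _

theorem rk_hP_mul_le (T : Set (ι → ℂ)) {k : ℕ} (hk : 1 ≤ k) (D : ℕ) :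
    hP T (k * D) ≤ k ^ (Fintype.card ι) * hP T D := by
  rcases Nat.eq_zero_or_pos D with hD | hD
  · subst hD
    rw [mul_zero]
    exact Nat.le_mul_of_pos_left _ (pow_pos hk _)
  · obtain ⟨S, h1, h2⟩ := rk_chart_reduce T (k * D) (Or.inl (Nat.mul_pos hk hD))
    rw [h1]
    exact (rk_hA_mul_le S hk D).trans (Nat.mul_le_mul_left _ (h2 D))

/-- the affine rank of `T ⊆ ℂ^n` is the projective rank of the cone points `(1, x)` -/
theorem rk_hA_eq_hP_cone {n : ℕ} (T : Set (Fin n → ℂ)) (D : ℕ) :
    hA T D = hP ((fun x : Fin n → ℂ => (Fin.cons 1 x : Fin (n + 1) → ℂ)) '' T) D := by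
  rw [rk_hP_eq_hA_of_chart (Pi.single 0 1)]
  · let L : (Fin n → ℂ) →ₗ[ℂ] (Fin (n + 1) → ℂ) :=
      { toFun := fun x => Fin.cons 0 x
        map_add' := by
          intro x y
          funext i
          refine Fin.cases ?_ (fun j => ?_) i <;> simp
        map_smul' := by
          intro c x
          funext i
          refine Fin.cases ?_ (fun j => ?_) i <;> simp }
    have hL : Function.Injective L := by
      intro x y hxy
      funext j
      have := congrFun hxy j.succ
      simpa [L] using this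
    rw [← rk_hA_map_eq L hL (Pi.single 0 1) T D]
    congr 2
    funext x
    funext i
    refine Fin.cases ?_ (fun j => ?_) i <;> simp [L]
  · rintro _ ⟨x, _, rfl⟩
    rw [Fin.sum_univ_succ]
    simp

end Claimed.Agent.R273
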