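import Claimed.Agent.R273.Dir
import Claimed.Agent.R273.RkBez
import Claimed.Agent.R273.RkChart
import Claimed.Agent.R273.RkRes
import Claimed.Agent.R273.RkMap
import Claimed.Agent.R273.RkDim
import Claimed.Agent.R273.RkKos
import Claimed.Agent.R273.RkPts

/-!
# Row 273, package T1 (`DirAsmStmt`): THE RANK FACTS THAT T1 USES  (interface with the rank library RK of helper251)

Blueprint: helper37.  Every statement is about `hP` (forms of degree exactly `k`, evaluated at vectors) and FINITE sets of NONZERO vectors.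
All statements are derived here from `Rk*.lean` (helper251).  Prefix `dirk_`.
-/

set_option autoImplicit false

namespace Claimed.Agent.R273

open MvPolynomial

variable {n : ℕ}

/-- (K1) monotone in the set -/
theorem dirk_mono {T T' : Set (Fin n → ℂ)} (h : T ⊆ T') (k : ℕ) : hP T k ≤ hP T' k :=
  rk_hP_mono_set k h

/-- (K2) positive on a set which contains a nonzero vector -/
theorem dirk_pos {T : Set (Fin n → ℂ)} {x : Fin n → ℂ} (hx : x ∈ T) (h0 : x ≠ 0) (k : ℕ) :
    1 ≤ hP T k := by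
  classical
  have hS : ProjDistinct (({x} : Finset (Fin n → ℂ)) : Set (Fin n → ℂ)) := by
    refine ⟨?_, ?_⟩
    · simp only [Finset.coe_singleton, Set.mem_singleton_iff]
      exact fun h => h0 h.symm
    · intro a ha b hb c _
      simp only [Finset.coe_singleton, Set.mem_singleton_iff] at ha hb
      rw [ha, hb]
  have h1 := rk_min_le_hP ({x} : Finset (Fin n → ℂ)) hS k
  have h2 : hP (({x} : Finset (Fin n → ℂ)) : Set (Fin n → ℂ)) k ≤ hP T k := by
    refine dirk_mono ?_ k
    simpa using hx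
  have h3 : min ({x} : Finset (Fin n → ℂ)).card (k + 1) = 1 := by simp
  omega

/-- (K3) monotone in the degree -/
theorem dirk_mono_deg (T : Finset (Fin n → ℂ)) (h0 : ∀ x ∈ T, x ≠ 0) {k k' : ℕ} (h : k ≤ k') :
    hP (T : Set (Fin n → ℂ)) k ≤ hP (T : Set (Fin n → ℂ)) k' :=
  rk_hP_mono_deg _ h (Or.inr fun h' => h0 0 (Finset.mem_coe.1 h') rfl)

/-- (K4) = (R1), the residual inequality -/
theorem dirk_residual (T : Set (Fin n → ℂ)) {t k : ℕ} (htk : t ≤ k) (g : MvPolynomial (Fin n) ℂ)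
    (hg : g.IsHomogeneous t) :
    hP {x ∈ T | eval x g ≠ 0} (k - t) + hP {x ∈ T | eval x g = 0} k ≤ hP T k :=
  rk_hP_residual g hg htk T

/-- (K5) = (R2), the growth inequality over `t` steps -/
theorem dirk_growth (T : Finset (Fin n → ℂ)) (h0 : ∀ x ∈ T, x ≠ 0) {t k : ℕ} (htk : 2 * t ≤ k) :
    (1 - 2 * (n : ℝ) ^ 2 * t / k) * (hP (T : Set (Fin n → ℂ)) k : ℝ) ≤
      (hP (T : Set (Fin n → ℂ)) (k - t) : ℝ) := by
  have h1 := rk_hP_growth (T : Set (Fin n → ℂ)) (t := t) (D := k) (by omega)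
  rw [Fintype.card_fin] at h1
  rcases Nat.eq_zero_or_pos k with hk | hk
  · subst hk
    have ht : t = 0 := by omega
    subst ht
    simp
  set a : ℝ := (hP (T : Set (Fin n → ℂ)) k : ℝ) with ha
  set b : ℝ := (hP (T : Set (Fin n → ℂ)) (k - t) : ℝ) with hb
  have h2 : ((k : ℝ) - t + 1) * a ≤ (n : ℝ) ^ 2 * t * a + ((k : ℝ) - t + 1) * b := by
    have : (((k - t + 1) * hP (T : Set (Fin n → ℂ)) k : ℕ) : ℝ) ≤
        ((n ^ 2 * t * hP (T : Set (Fin n → ℂ)) k + (k - t + 1) * hP (T : Set (Fin n → ℂ)) (k - t) : ℕ) : ℝ) := by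
      exact_mod_cast h1
    push_cast [Nat.cast_sub (by omega : t ≤ k)] at this
    exact this
  have hk' : (0 : ℝ) < k := by exact_mod_cast hk
  have ht2 : 2 * (t : ℝ) ≤ k := by exact_mod_cast htk
  have ha0 : 0 ≤ a := Nat.cast_nonneg _
  have ht0 : (0 : ℝ) ≤ t := Nat.cast_nonneg _
  have hc : (0 : ℝ) < (k : ℝ) - t + 1 := by linarith
  -- `a - b ≤ n² t a / c ≤ 2 n² t a / k`
  have h3 : a - b ≤ (n : ℝ) ^ 2 * t * a / ((k : ℝ) - t + 1) := by
    rw [le_div_iff₀ hc]
    nlinarith
  have h4 : (n : ℝ) ^ 2 * t * a / ((k : ℝ) - t + 1) ≤ 2 * (n : ℝ) ^ 2 * t / k * a := by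
    rw [div_le_iff₀ hc, div_mul_eq_mul_div, div_mul_eq_mul_div, le_div_iff₀ hk']
    have h5 : 0 ≤ (n : ℝ) ^ 2 * t * a := by positivity
    nlinarith
  linarith

/-- (K6) invariance under an injective linear map -/
theorem dirk_map {m : ℕ} (φ : (Fin m → ℂ) →ₗ[ℂ] (Fin n → ℂ)) (hφ : Function.Injective φ)
    (T : Set (Fin m → ℂ)) (k : ℕ) : hP (φ '' T) k = hP T k :=
  rk_hP_map_eq φ hφ T k

theorem dirk_multichoose (k : ℕ) : Nat.multichoose 3 k = (k + 2).choose 2 := by
  rw [Nat.multichoose_eq]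
  have : 3 + k - 1 = k + 2 := by omega
  rw [this, ← Nat.choose_symm_of_eq_add (show k + 2 = 2 + k by omega)]

/-- (K7) full rank in three variables -/
theorem dirk_full (T : Set (Fin 3 → ℂ)) (k : ℕ)
    (h : ∀ f : MvPolynomial (Fin 3) ℂ, f.IsHomogeneous k → (∀ x ∈ T, eval x f = 0) → f = 0) :
    hP T k = (k + 2).choose 2 := by
  have h1 := rk_rkOn_add_ker (homogeneousSubmodule (Fin 3) ℂ k) T
  have h2 : LinearMap.ker (evalOn (homogeneousSubmodule (Fin 3) ℂ k) T) = ⊥ := by
    rw [eq_bot_iff]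
    intro f hf
    rw [rk_mem_ker_evalOn] at hf
    have := h f.1 ((mem_homogeneousSubmodule k f.1).1 f.2) hf
    rw [Submodule.mem_bot]
    exact Subtype.ext this
  rw [h2, finrank_bot, add_zero, rk_finrank_homog, Fintype.card_fin, dirk_multichoose] at h1
  exact h1

/-- (K8) the rank of a set all of whose vanishing forms of degree `k` are multiples of a form `g ≠ 0` of degree `t ≤ k` which vanishes
on the set -/
theorem dirk_div (T : Set (Fin 3 → ℂ)) {t k : ℕ} (htk : t ≤ k) (g : MvPolynomial (Fin 3) ℂ)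
    (hg : g.IsHomogeneous t) (hg0 : g ≠ 0) (hT : ∀ x ∈ T, eval x g = 0)
    (h : ∀ f : MvPolynomial (Fin 3) ℂ, f.IsHomogeneous k → (∀ x ∈ T, eval x f = 0) → g ∣ f) :
    hP T k + (k - t + 2).choose 2 = (k + 2).choose 2 := by
  have h1 := rk_rkOn_add_ker (homogeneousSubmodule (Fin 3) ℂ k) T
  have h2 : (LinearMap.ker (evalOn (homogeneousSubmodule (Fin 3) ℂ k) T)).map
      (homogeneousSubmodule (Fin 3) ℂ k).subtype = mulSub g (k - t) := by
    ext f
    constructor
    · rintro ⟨f', hf', rfl⟩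
      have hf'' := (rk_mem_ker_evalOn _ _ f').1 hf'
      have hhom : (f'.1).IsHomogeneous k := (mem_homogeneousSubmodule k f'.1).1 f'.2
      obtain ⟨w, hw⟩ := h f'.1 hhom hf''
      have hhom' : (f'.1).IsHomogeneous (t + (k - t)) := by
        rw [Nat.add_sub_cancel' htk]; exact hhom
      have := rk_homog_quot hg hhom' hw
      refine ⟨homogeneousComponent (k - t) w, ?_, ?_⟩
      · exact (mem_homogeneousSubmodule _ _).2 (homogeneousComponent_isHomogeneous _ _)
      · show g * homogeneousComponent (k - t) w = f'.1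
        exact this.symm
    · rintro ⟨w, hw, rfl⟩
      have hw' : w.IsHomogeneous (k - t) := (mem_homogeneousSubmodule _ _).1 hw
      have hgw : (g * w).IsHomogeneous k := by
        have := hg.mul hw'
        rwa [Nat.add_sub_cancel' htk] at this
      refine ⟨⟨g * w, (mem_homogeneousSubmodule _ _).2 hgw⟩, ?_, rfl⟩
      refine (rk_mem_ker_evalOn _ _ _).2 ?_
      intro x hx
      show eval x (g * w) = 0
      rw [map_mul, hT x hx, zero_mul]
  have h3 : Module.finrank ℂ (LinearMap.ker (evalOn (homogeneousSubmodule (Fin 3) ℂ k) T)) =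
      (k - t + 2).choose 2 := by
    have h4 := rk_finrank_mulSub hg0 (k - t)
    rw [Fintype.card_fin, dirk_multichoose, ← h2] at h4
    rw [← h4]
    exact (LinearEquiv.finrank_eq (Submodule.equivMapOfInjective _
      (Submodule.injective_subtype _) _))
  rw [h3, rk_finrank_homog, Fintype.card_fin, dirk_multichoose] at h1
  exact h1

/-- (K9) plane Bezout, count form: two forms without common factor have at most `a b` common zeros in the projective plane -/
theorem dirk_bezout {a b : ℕ} (f g : MvPolynomial (Fin 3) ℂ) (hf : f.IsHomogeneous a)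
    (hg : g.IsHomogeneous b) (hfg : IsRelPrime f g) (R : Finset (Fin 3 → ℂ)) (h0 : ∀ x ∈ R, x ≠ 0)
    (hR : ∀ x ∈ R, ∀ y ∈ R, (∃ c : ℂ, y = c • x) → x = y)
    (hz : ∀ x ∈ R, eval x f = 0 ∧ eval x g = 0) : R.card ≤ a * b := by
  refine rk_bezout_card hf hg hfg R ⟨fun h => h0 0 (Finset.mem_coe.1 h) rfl, ?_⟩ ?_
  · intro x hx y hy c hc
    exact (hR x (Finset.mem_coe.1 hx) y (Finset.mem_coe.1 hy) ⟨c, hc⟩).symm
  · intro x hx
    exact hz x (Finset.mem_coe.1 hx)

end Claimed.Agent.R273
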