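import Claimed.Agent.R273.GdDefs

/-!
# Row 273, S4, unit GD: BRIDGE to helper26's geometric exports (`GeoLin`, `GeoMix`, `GeoTri`), in the ideal language of `SpCom.lean`.  Architect helper60.  Prefix `gd_`.

Everything here is PROVED from the `geo_*` theorems, except the two small leaves
LEAF GD-AG-COP (`gd_cop_of_img`, `gd_cop_of_inFlat`): images, spans (linear algebra + `ph_zcl_subset_iff`).
-/

set_option autoImplicit false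

namespace Claimed.Agent.R273

open MvPolynomial Module

variable {d : ℕ}

theorem gd_isVar {𝔭 : Ideal (PrfPol d)} (hp : 𝔭.IsPrime) : IsVar (spZ 𝔭) := ⟨𝔭, hp, rfl⟩

theorem gd_eval_eq_zero {𝔭 : Ideal (PrfPol d)} {x : SpC d} (hx : x ∈ spZ 𝔭) {g : PrfPol d}
    (hg : g ∈ 𝔭) : eval x g = 0 := by
  have := (mem_zeroLocus_iff.mp hx) g hg
  rwa [aeval_eq_eval] at this

theorem gd_prime_eq (p q : Ideal (PrfPol d)) (hp : p.IsPrime) (hq : q.IsPrime)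
    (h : spZ p = spZ q) : p = q := by
  unfold spZ at h
  rw [← IsPrime.vanishingIdeal_zeroLocus (K := ℂ) p, ← IsPrime.vanishingIdeal_zeroLocus (K := ℂ) q, h]

/-- flats, set-builder form (`geo_flat_isVar`) -/
theorem gd_flat_var (x₀ : SpC d) (W : Submodule ℂ (SpC d)) :
    IsVar {x : SpC d | x - x₀ ∈ W} ∧ vdim {x : SpC d | x - x₀ ∈ W} = finrank ℂ W ∧
      vdeg {x : SpC d | x - x₀ ∈ W} = 1 := geo_flat_isVar x₀ W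

/-- degree one ⇒ flat (`geo_flat_of_deg_one`) -/
theorem gd_flat_of_vdeg_one (𝔭 : Ideal (PrfPol d)) (hp : 𝔭.IsPrime) (h : vdeg (spZ 𝔭) = 1) :
    ∃ (x₀ : SpC d) (W : Submodule ℂ (SpC d)), finrank ℂ W = vdim (spZ 𝔭) ∧
      spZ 𝔭 = {x | x - x₀ ∈ W} := geo_flat_of_deg_one (gd_isVar hp) h

theorem gd_transv_notTanR {𝔵 𝔶 : Ideal (PrfPol d)} (h : SpTransv 𝔵 𝔶) : ¬ GdTanR 𝔵 𝔶 := by
  obtain ⟨x, hx, y, hy, _, h2⟩ := h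
  exact fun t => h2 (t x hx y hy)

theorem gd_nt {𝔵 𝔶 : Ideal (PrfPol d)} (hy : 𝔶.IsPrime) (h : ¬ GdTanR 𝔵 𝔶) :
    GeoNT (spZ 𝔵) (spZ 𝔶) := by
  unfold GdTanR at h
  push Not at h
  obtain ⟨x, hx, y, hyY, hn⟩ := h
  exact ⟨x, hx, y, hyY, by rw [show spZ 𝔶 = zeroLocus ℂ 𝔶 from rfl, geo_tanAt_prime 𝔶 hy]; exact hn⟩

theorem gd_not_transv (𝔵 𝔶 : Ideal (PrfPol d)) (hx : 𝔵.IsPrime) (hy : 𝔶.IsPrime)
    (h : ¬ SpTransv 𝔵 𝔶) : GdTanL 𝔵 𝔶 ∨ GdTanR 𝔵 𝔶 := by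
  rw [geo_transv_iff 𝔵 𝔶 hx hy] at h
  rcases geo_not_tr (gd_isVar hx) (gd_isVar hy) h with h | h
  · left
    intro x hxX y hyY
    have := h x hxX y hyY
    rwa [show spZ 𝔵 = zeroLocus ℂ 𝔵 from rfl, geo_tanAt_prime 𝔵 hx] at this
  · right
    intro x hxX y hyY
    have := h x hxX y hyY
    rwa [show spZ 𝔶 = zeroLocus ℂ 𝔶 from rfl, geo_tanAt_prime 𝔶 hy] at this

theorem gd_tanR_flat (𝔶 : Ideal (PrfPol d)) (hy : 𝔶.IsPrime) :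
    ∃ (y₀ : SpC d) (W : Submodule ℂ (SpC d)), finrank ℂ W ≤ vdim (spZ 𝔶) ∧
      ∀ 𝔵 : Ideal (PrfPol d), GdTanR 𝔵 𝔶 → ∀ x ∈ spZ 𝔵, x - y₀ ∈ W := by
  obtain ⟨y₀, W, hW, h⟩ := geo_tan_pin (gd_isVar hy)
  refine ⟨y₀, W, hW, fun 𝔵 ht x hx => h x fun y hyY => ?_⟩
  rw [show spZ 𝔶 = zeroLocus ℂ 𝔶 from rfl, geo_tanAt_prime 𝔶 hy]
  exact ht x hx y hyY

theorem gd_tanL_flat (𝔵 : Ideal (PrfPol d)) (hx : 𝔵.IsPrime) :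
    ∃ (x₀ : SpC d) (W : Submodule ℂ (SpC d)), finrank ℂ W ≤ vdim (spZ 𝔵) ∧
      ∀ 𝔶 : Ideal (PrfPol d), GdTanL 𝔵 𝔶 → ∀ y ∈ spZ 𝔶, y - x₀ ∈ W := by
  obtain ⟨x₀, W, hW, h⟩ := geo_tan_pin (gd_isVar hx)
  refine ⟨x₀, W, hW, fun 𝔶 ht y hy => h y fun x hxX => ?_⟩
  rw [show spZ 𝔵 = zeroLocus ℂ 𝔵 from rfl, geo_tanAt_prime 𝔵 hx]
  have := (tanSp 𝔵 x).neg_mem (ht x hxX y hy)
  rwa [neg_sub] at this

theorem gd_pin_nonlin (𝔶 : Ideal (PrfPol d)) (hy : 𝔶.IsPrime) (hnl : vdeg (spZ 𝔶) ≠ 1) :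
    ∃ (y₀ : SpC d) (W : Submodule ℂ (SpC d)), finrank ℂ W ≤ vdim (spZ 𝔶) + 1 ∧
      ∀ V : Set (SpC d), InFlat (V ∪ spZ 𝔶) (vdim (spZ 𝔶) + 1) → ∀ x ∈ V, x - y₀ ∈ W :=
  geo_span_pin (gd_isVar hy) hnl

/-- a flat is not transverse to itself -/
theorem gd_flat_not_transv (𝔭 : Ideal (PrfPol d)) (hp : 𝔭.IsPrime) (h : vdeg (spZ 𝔭) = 1) :
    ¬ SpTransv 𝔭 𝔭 := by
  rw [geo_transv_iff 𝔭 𝔭 hp hp]
  obtain ⟨y₀, W, _, hY⟩ := geo_flat_of_deg_one (gd_isVar hp) h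
  rintro ⟨x, hx, y, hy, _, h2⟩
  rw [hY] at hx hy h2
  rw [geo_tanAt_flat y₀ W hy] at h2
  apply h2
  have : y - x = (y - y₀) - (x - y₀) := by abel
  rw [this]
  exact W.sub_mem hy hx

theorem gd_img_dim (𝔵 𝔶 : Ideal (PrfPol d)) (hx : 𝔵.IsPrime) (hy : 𝔶.IsPrime)
    (h : ¬ GdTanR 𝔵 𝔶) :
    vdim (spImg (spZ 𝔵) (spZ 𝔶)) = vdim (spZ 𝔵) + vdim (spZ 𝔶) + 1 :=
  geo_img_dim (gd_isVar hx) (gd_isVar hy) (gd_nt hy h)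

theorem gd_inFlat_mono {T T' : Set (SpC d)} {u : ℕ} (h : InFlat T' u) (hT : T ⊆ T') :
    InFlat T u := by
  obtain ⟨x₀, W, hW, hx⟩ := h
  exact ⟨x₀, W, hW, fun x hxT => hx x (hT hxT)⟩

/-- **Case A**: one target per image. -/
theorem gd_caseA_unique {𝔵 𝔶 𝔮 : Ideal (PrfPol d)} (hx : 𝔵.IsPrime)
    (hy : 𝔶.IsPrime) (hq : 𝔮.IsPrime) (hdq : vdim (spZ 𝔮) = vdim (spZ 𝔶))
    (hle : vdim (spZ 𝔶) ≤ vdim (spZ 𝔵)) (htr : SpTransv 𝔵 𝔶) (htr' : SpTransv 𝔵 𝔮)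
    (hA : ¬ (vdim (spZ 𝔵) = vdim (spZ 𝔶) ∧ InFlat (spZ 𝔵 ∪ spZ 𝔶) (vdim (spZ 𝔵) + 1)))
    (himg : spImg (spZ 𝔵) (spZ 𝔮) = spImg (spZ 𝔵) (spZ 𝔶)) : 𝔮 = 𝔶 := by
  by_contra hne
  have hne' : spZ 𝔶 ≠ spZ 𝔮 := fun h => hne (gd_prime_eq 𝔮 𝔶 hq hy h.symm)
  obtain ⟨h1, h2⟩ := geo_same_img (gd_isVar hx) (gd_isVar hy) (gd_isVar hq) hdq hle
    ((geo_transv_iff 𝔵 𝔶 hx hy).1 htr) ((geo_transv_iff 𝔵 𝔮 hx hq).1 htr') hne' himg.symm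
  exact hA ⟨h1, gd_inFlat_mono h2 Set.subset_union_left⟩

/-- **Case A**: no further moving root. -/
theorem gd_caseA_noRoot {𝔵 𝔶 𝔮 : Ideal (PrfPol d)} (hx : 𝔵.IsPrime)
    (hy : 𝔶.IsPrime) (hq : 𝔮.IsPrime) (hdq : vdim (spZ 𝔮) = vdim (spZ 𝔶))
    (hle : vdim (spZ 𝔶) ≤ vdim (spZ 𝔵)) (htr : SpTransv 𝔵 𝔶) (htr' : SpTransv 𝔵 𝔮)
    (hA : ¬ (vdim (spZ 𝔵) = vdim (spZ 𝔶) ∧ InFlat (spZ 𝔵 ∪ spZ 𝔶) (vdim (spZ 𝔵) + 1))) :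
    GenOn (prodSet (spZ 𝔵) (spZ 𝔶)) (GeoNoRoot (spZ 𝔮)) := by
  rcases geo_tri (gd_isVar hx) (gd_isVar hy) (gd_isVar hq) hdq hle
    ((geo_transv_iff 𝔵 𝔶 hx hy).1 htr) ((geo_transv_iff 𝔵 𝔮 hx hq).1 htr') with h | ⟨h1, h2⟩
  · exact h
  · exact absurd ⟨h1, gd_inFlat_mono h2 Set.subset_union_left⟩ hA

/-- **Case A**: the degree of the image. -/
theorem gd_caseA_deg {𝔵 𝔶 : Ideal (PrfPol d)} (hx : 𝔵.IsPrime) (hy : 𝔶.IsPrime)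
    (hdim : vdim (spZ 𝔵) = vdim (spZ 𝔶)) (htr : SpTransv 𝔵 𝔶)
    (hA : ¬ InFlat (spZ 𝔵 ∪ spZ 𝔶) (vdim (spZ 𝔵) + 1)) :
    vdeg (spZ 𝔵) * vdeg (spZ 𝔶) ≤ 2 * vdeg (spImg (spZ 𝔵) (spZ 𝔶)) :=
  geo_img_deg (gd_isVar hx) (gd_isVar hy) hdim ((geo_transv_iff 𝔵 𝔶 hx hy).1 htr)
    (gd_caseA_noRoot hx hy hy rfl hdim.ge htr htr fun h => hA h.2)

/-! ### LEAF GD-AG-COP -/

/-- `{w | w ∘ inr ∈ W}` is `Zl` of linear forms (`W` = common zeros of the functionals in `W.dualAnnihilator`; polynomial `∑ i, C (φ (Pi.single i 1)) * X (Sum.inr i)`) and contains `spLab (X × Y)` (`λ (y - x) = λ ((y - x₀) - (x - x₀))`),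
hence (`ph_zcl_subset_iff`) `spImg X Y ⊇ spImg X Q ∋ (x, 1 • (z - x))` (`sp_lab_subset_img`); `z - x₀ = (z - x) + (x - x₀)`. -/
theorem gd_cop_of_img (𝔵 𝔶 𝔮 : Ideal (PrfPol d)) (hne : (spZ 𝔵).Nonempty)
    (h : spImg (spZ 𝔵) (spZ 𝔮) ⊆ spImg (spZ 𝔵) (spZ 𝔶)) : GdCop 𝔵 𝔶 𝔮 := by
  intro x₀ W hXY z hz
  obtain ⟨x, hx⟩ := hne
  have hxW : x - x₀ ∈ W := hXY x (Or.inl hx)
  by_contra hzW
  have hzx : z - x ∉ W := by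
    intro hc
    apply hzW
    have := W.add_mem hc hxW
    simpa using this
  obtain ⟨φ, hφz, hφW⟩ := Submodule.exists_le_ker_of_notMem hzx
  have heval : ∀ w : Fin d ⊕ Fin d → ℂ,
      eval w (∑ i, C (φ (Pi.single i 1)) * X (Sum.inr i) : MvPolynomial (Fin d ⊕ Fin d) ℂ)
        = φ (fun i => w (Sum.inr i)) := by
    intro w
    rw [map_sum]
    have e : (fun i => w (Sum.inr i)) = ∑ i, (w (Sum.inr i)) • (Pi.single i (1 : ℂ) : SpC d) := by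
      funext j
      simp [Finset.sum_apply, Pi.single_apply]
    conv_rhs => rw [e, map_sum]
    refine Finset.sum_congr rfl fun i _ => ?_
    simp only [map_mul, eval_C, eval_X, map_smul, smul_eq_mul]
    ring
  have hmem : (Sum.elim x ((1 : ℂ) • (z - x)) : Fin d ⊕ Fin d → ℂ) ∈ spImg (spZ 𝔵) (spZ 𝔶) :=
    h (sp_lab_subset_img hx hz ⟨(x, z), rfl, 1, rfl⟩)
  unfold spImg at hmem
  rw [ph_mem_zcl] at hmem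
  have h0 := hmem (∑ i, C (φ (Pi.single i 1)) * X (Sum.inr i)) (by
    rintro w ⟨⟨x', y'⟩, ⟨hx', hy'⟩, lam, rfl⟩
    rw [heval]
    have h1 : y' - x' ∈ W := by
      have := W.sub_mem (hXY y' (Or.inr hy')) (hXY x' (Or.inl hx'))
      simpa using this
    have h2 : lam • (y' - x') ∈ W := W.smul_mem _ h1
    exact hφW h2)
  rw [heval] at h0
  apply hφz
  have e : (fun i => (Sum.elim x ((1 : ℂ) • (z - x)) : Fin d ⊕ Fin d → ℂ) (Sum.inr i)) = z - x := by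
    funext i
    simp
  rwa [e] at h0

theorem gd_span_le (x₁ y₁ : SpC d) (WX WY : Submodule ℂ (SpC d)) (x' : SpC d)
    (W' : Submodule ℂ (SpC d)) (h : ∀ z ∈ geoFlat x₁ WX ∪ geoFlat y₁ WY, z - x' ∈ W') :
    WX ⊔ WY ⊔ Submodule.span ℂ {y₁ - x₁} ≤ W' := by
  have hx₁ : x₁ - x' ∈ W' := h x₁ (Or.inl (by simp [geoFlat]))
  have hy₁ : y₁ - x' ∈ W' := h y₁ (Or.inr (by simp [geoFlat]))
  refine sup_le (sup_le ?_ ?_) ?_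
  · intro w hw
    have h1 : x₁ + w - x' ∈ W' := h _ (Or.inl (by simpa [geoFlat] using hw))
    have := W'.sub_mem h1 hx₁
    simpa using this
  · intro w hw
    have h1 : y₁ + w - x' ∈ W' := h _ (Or.inr (by simpa [geoFlat] using hw))
    have := W'.sub_mem h1 hy₁
    simpa using this
  · rw [Submodule.span_singleton_le_iff_mem]
    have := W'.sub_mem hy₁ hx₁
    simpa using this

/-- two DIFFERENT `k`-flats span every `(k+1)`-flat containing them.  `X = x₁ + W_X`, `Y = y₁ + W_Y` (`geo_flat_of_deg_one`), `X ∪ Y ∪ Q ⊆ x₀ + W`, `finrank W ≤ k + 1`.  `W'' := W_X ⊔ W_Y ⊔ span {y₁ - x₁} ≤ W` has dimension `≥ k + 1`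
(if `W_X ≠ W_Y`: `W_X < W_X ⊔ W_Y`; if `W_X = W_Y`: `y₁ - x₁ ∉ W_X` because `X ≠ Y`), so `W'' = W` (`Submodule.eq_of_le_of_finrank_le`).  Any flat `(x', W')` containing `X ∪ Y` has `W'' ≤ W'`;
`z - x' = (z - x₀) - (x₁ - x₀) + (x₁ - x')`. -/
theorem gd_cop_of_inFlat (k : ℕ) (𝔵 𝔶 𝔮 : Ideal (PrfPol d)) (hx : 𝔵.IsPrime) (hy : 𝔶.IsPrime)
    (hx1 : vdeg (spZ 𝔵) = 1) (hy1 : vdeg (spZ 𝔶) = 1) (hxk : vdim (spZ 𝔵) = k)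
    (hyk : vdim (spZ 𝔶) = k) (hne : 𝔵 ≠ 𝔶) (h : InFlat (spZ 𝔵 ∪ spZ 𝔶 ∪ spZ 𝔮) (k + 1)) :
    GdCop 𝔵 𝔶 𝔮 := by
  obtain ⟨x₁, WX, hWX, hX⟩ := geo_flat_of_deg_one (gd_isVar hx) hx1
  obtain ⟨y₁, WY, hWY, hY⟩ := geo_flat_of_deg_one (gd_isVar hy) hy1
  obtain ⟨x₀, W, hW, hZ⟩ := h
  obtain ⟨W₂, hW₂⟩ : ∃ W₂ : Submodule ℂ (SpC d), W₂ = WX ⊔ WY ⊔ Submodule.span ℂ {y₁ - x₁} :=
    ⟨_, rfl⟩
  have hle : W₂ ≤ W := by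
    rw [hW₂]
    refine gd_span_le x₁ y₁ WX WY x₀ W fun z hz => hZ z (Or.inl ?_)
    rwa [hX, hY]
  have hXle : WX ≤ W₂ := by rw [hW₂]; exact le_sup_left.trans le_sup_left
  have hYle : WY ≤ W₂ := by rw [hW₂]; exact le_sup_right.trans le_sup_left
  have hsp : y₁ - x₁ ∈ W₂ := by
    rw [hW₂]
    exact (le_sup_right : Submodule.span ℂ {y₁ - x₁} ≤ _) (Submodule.mem_span_singleton_self _)
  have hdim : k + 1 ≤ finrank ℂ W₂ := by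
    by_contra hlt
    have hk : finrank ℂ W₂ ≤ k := by omega
    have e1 : WX = W₂ := Submodule.eq_of_le_of_finrank_le hXle (by rw [hWX, hxk]; exact hk)
    have e2 : WY = W₂ := Submodule.eq_of_le_of_finrank_le hYle (by rw [hWY, hyk]; exact hk)
    apply hne
    apply gd_prime_eq 𝔵 𝔶 hx hy
    rw [hX, hY, e1, e2]
    ext y
    show y - x₁ ∈ W₂ ↔ y - y₁ ∈ W₂
    constructor
    · intro hy'
      have := W₂.sub_mem hy' hsp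
      simpa using this
    · intro hy'
      have := W₂.add_mem hy' hsp
      simpa using this
  have hEq : W₂ = W := Submodule.eq_of_le_of_finrank_le hle (hW.trans hdim)
  intro x' W' hXY z hz
  have hle' : W₂ ≤ W' := by
    rw [hW₂]
    refine gd_span_le x₁ y₁ WX WY x' W' fun z hz => hXY z ?_
    rwa [hX, hY]
  have hx₁X : x₁ ∈ spZ 𝔵 := by rw [hX]; simp [geoFlat]
  have h1 : z - x₀ ∈ W' := hle' (hEq ▸ hZ z (Or.inr hz))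
  have h2 : x₁ - x₀ ∈ W' := hle' (hEq ▸ hZ x₁ (Or.inl (Or.inl hx₁X)))
  have h3 : x₁ - x' ∈ W' := hXY x₁ (Or.inl hx₁X)
  have := W'.add_mem (W'.sub_mem h1 h2) h3
  simpa using this

end Claimed.Agent.R273
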