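import Claimed.Agent.R273.SpCom
import Claimed.Agent.R273.RkFlat

/-!
# Row 273, SPARSE, S6a: elementary facts on cone labels and product images; the upper bound; the envelope core.  Architect helper37.

Everything here is FINITE (no `θ`).  `n = 2d` is the dimension of the label space `ℂ^{d ⊕ d}`.

LEAF S6A-IMG (`sp_pull_*`, `sp_lab_*`, `sp_img_*`).
  `spPull lam H (x,y) = H(x, lam (y - x))`: substitution of polynomials of degree `≤ 1`, so `totalDegree` does not increase (`rk_totalDegree_aeval_le` or `MvPolynomial.aeval_eq_sum` + `totalDegree_finset_sum/prod`).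
  `sp_img_subset_iff`: `spImg V W = zcl (spLab (V × W))`, `ph_zcl_subset_iff`, `sp_eval_pull`.
  `sp_img_eq_pmap`: `spLab (V × W) = pmap (spPsi d) '' prodSet (prodSet V W) univ` (unfold), hence `sp_img_isVar` (`ph_prod_isVar` twice, `ph_univ`, `ph_isVar_zcl_image`),
  `sp_img_vdim_le` (`ph_vdim_zcl_image_le`, `ph_prod_vdim`, `ph_univ`: `vdim univ = 1` on `Unit → ℂ`), `sp_img_vdeg_le` (`ph_vdeg_image` with `e = 2`, `ph_prod_vdeg`).
  `sp_img_src`: `f ∈ I(V)` iff `rename inl f` vanishes on `spImg V W` (`W ≠ ∅`; take `lam = 0` or any label); so `spImg V W = spImg V' W'` gives `I(V) = I(V')`, `V = V'` (`ph_zcl_of_isVar`).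
  `sp_img_prod`: `vdeg (prodSet V univ) = vdeg V`, `vdim = vdim V + d`.
LEAF S6A-UP (`sp_upper`).  For a fixed centre `x` the labels lie in `{x} × ⋃_{c ∈ C_x} K_c`, `K_c = {w | c.Mem w} = φ_c (Z(F_c))`.  `hA` is subadditive (`rk_rkOn_biUnion_le`-type lemma of RkBasic) and monotone.
  `hA ({x} × K) T ≤ hA K T` (restriction `H ↦ H(x, ·)` maps degree `≤ T` onto.. into degree `≤ T` and the evaluation on `{x} × K` factors through it);
  `hA (φ '' Z) T ≤ hA Z T` (`w = φ u`: pull back by the linear map); `hA (Z(F)) T ≤ e binom(T+2,2)` for a nonzero form `F` of degree `e` in 3 variables: exactly the computation in `prf_core` (`rk_hA_zset_le`: `binom(T+3,3) - binom(T-e+3,3) ≤ e binom(T+2,2)`).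
  Sum over `c ∈ C_x`: `≤ (∑ deg) binom ≤ E binom`; sum over the centres `x ∈ Γ.image fst` (each `= prfPt p`, `spRe x = p ∈ P`).
LEAF S6A-CORE (`sp_env_core`).  `𝒢 := {f | deg f ≤ T, f = 0 on L}`, `V = Env L T = Zl 𝒢`.  Every `img z` is irreducible and `⊆ V`: `ph_isVar_subset_comp` gives a component `W z ⊇ img z`, `m ≤ vdim (W z) ≤ card ι` (`ph_vdim_mono`, `ph_vdim_le`).
  Pigeonhole on `vdim (W z) ∈ [m, card ι]`: `h`, `Λ'`.  `𝒱_h` := all components of dimension `h` (`ph_comps_finite`), `a := ∑ vdeg`.  (1) `ph_hilbert_at` + `hA (⋃ 𝒱_h) T ≤ hA V T = hA L T` (`ph_hA_env`, monotonicity).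
  (2) `ph_hilbert_up_family` + monotonicity (`lab z ⊆ img z ⊆ W z`).  (3) `h = m`: `img z ⊆ W z`, both irreducible of dimension `m`: equal (`ph_vdim_lt_of_ssubset`), so `𝒥 ⊆ 𝒱_h`.
-/

set_option autoImplicit false

namespace Claimed.Agent.R273

open MvPolynomial Module

variable {d : ℕ}

/-! ### S6A-IMG -/

/-- pull-back of a label polynomial: `(x,y) ↦ H(x, lam (y - x))` -/
noncomputable def spPull (lam : ℂ) (H : MvPolynomial (Fin d ⊕ Fin d) ℂ) :
    MvPolynomial (Fin d ⊕ Fin d) ℂ :=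
  aeval (Sum.elim (fun i => (X (Sum.inl i) : MvPolynomial (Fin d ⊕ Fin d) ℂ))
    (fun i => C lam * (X (Sum.inr i) - X (Sum.inl i)))) H

theorem sp_eval_pull (lam : ℂ) (H : MvPolynomial (Fin d ⊕ Fin d) ℂ) (x y : SpC d) :
    eval (Sum.elim x y) (spPull lam H) = eval (Sum.elim x (lam • (y - x))) H := by
  unfold spPull
  rw [← ph_eval_pmap]
  congr 2
  funext i
  rcases i with i | i <;> simp [pmap]

theorem sp_pull_degree (lam : ℂ) (H : MvPolynomial (Fin d ⊕ Fin d) ℂ) :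
    (spPull lam H).totalDegree ≤ H.totalDegree := by
  unfold spPull
  refine (ph_totalDegree_aeval_le_mul _ 1 (fun i => ?_) H).trans (by rw [one_mul])
  rcases i with i | i
  · simp only [Sum.elim_inl]
    exact (totalDegree_X _).le
  · simp only [Sum.elim_inr]
    refine (totalDegree_mul _ _).trans ?_
    rw [totalDegree_C, zero_add]
    refine (totalDegree_sub _ _).trans (max_le ?_ ?_) <;> exact (totalDegree_X _).le

theorem sp_lab_mono {Γ Γ' : Set (SpC d × SpC d)} (h : Γ ⊆ Γ') : spLab Γ ⊆ spLab Γ' := by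
  rintro w ⟨z, hz, lam, rfl⟩
  exact ⟨z, h hz, lam, rfl⟩

theorem sp_lab_subset_img {V W : Set (SpC d)} {x y : SpC d} (hx : x ∈ V) (hy : y ∈ W) :
    spLab {(x, y)} ⊆ spImg V W := by
  refine (sp_lab_mono ?_).trans (ph_subset_zcl _)
  rintro z rfl
  exact ⟨hx, hy⟩

/-- a system of label equations contains the complete image iff all pull-backs vanish on the product -/
theorem sp_img_subset_iff (𝔵 𝔶 : Ideal (PrfPol d)) (ℋ : Set (MvPolynomial (Fin d ⊕ Fin d) ℂ)) :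
    spImg (spZ 𝔵) (spZ 𝔶) ⊆ Zl ℋ ↔ ∀ H ∈ ℋ, ∀ lam : ℂ, PrfVanProd (spPull lam H) 𝔵 𝔶 := by
  unfold spImg
  rw [ph_zcl_subset_iff]
  constructor
  · intro h H hH lam x hx y hy
    rw [sp_eval_pull]
    exact h ⟨(x, y), ⟨hx, hy⟩, lam, rfl⟩ H hH
  · rintro h w ⟨z, ⟨hz1, hz2⟩, lam, rfl⟩ H hH
    rw [← sp_eval_pull]
    exact h H hH lam z.1 hz1 z.2 hz2

theorem sp_img_eq_pmap (V W : Set (SpC d)) :
    spImg V W = zcl (pmap (spPsi d) '' prodSet (prodSet V W) (Set.univ : Set (Unit → ℂ))) := by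
  unfold spImg
  congr 1
  ext w
  constructor
  · rintro ⟨z, ⟨hz1, hz2⟩, lam, rfl⟩
    refine ⟨Sum.elim (Sum.elim z.1 z.2) (fun _ => lam), ⟨⟨hz1, hz2⟩, Set.mem_univ _⟩, ?_⟩
    funext i
    rcases i with i | i <;> simp [pmap, spPsi]
  · rintro ⟨u, ⟨⟨hu1, hu2⟩, _⟩, rfl⟩
    refine ⟨(fun i => u (Sum.inl (Sum.inl i)), fun i => u (Sum.inl (Sum.inr i))), ⟨hu1, hu2⟩,
      u (Sum.inr ()), ?_⟩
    funext i
    rcases i with i | i <;> simp [pmap, spPsi]

theorem sp_img_isVar {V W : Set (SpC d)} (hV : IsVar V) (hW : IsVar W) : IsVar (spImg V W) := by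
  rw [sp_img_eq_pmap]
  exact ph_isVar_zcl_image (ph_prod_isVar (ph_prod_isVar hV hW) ph_univ.1) _

theorem sp_img_vdim_le {V W : Set (SpC d)} (hV : IsVar V) (hW : IsVar W) :
    vdim (spImg V W) ≤ vdim V + vdim W + 1 := by
  rw [sp_img_eq_pmap]
  refine (ph_vdim_zcl_image_le (ph_prod_isVar (ph_prod_isVar hV hW) ph_univ.1) _).trans ?_
  rw [ph_prod_vdim (ph_prod_isVar hV hW) ph_univ.1, ph_prod_vdim hV hW, ph_univ.2.1]
  simp

theorem sp_img_vdeg_le {V W : Set (SpC d)} (hV : IsVar V) (hW : IsVar W) :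
    vdeg (spImg V W) ≤ vdeg V * vdeg W * 2 ^ (vdim V + vdim W + 1) := by
  have h1 := sp_img_vdim_le hV hW
  rw [sp_img_eq_pmap] at h1 ⊢
  have hψ : ∀ i, (spPsi d i).totalDegree ≤ 2 := by
    intro i
    rcases i with i | i
    · simp only [spPsi, Sum.elim_inl]
      exact (totalDegree_X _).le.trans (by norm_num)
    · simp only [spPsi, Sum.elim_inr]
      refine (totalDegree_mul _ _).trans ?_
      have h2 : (X (Sum.inr ()) : MvPolynomial ((Fin d ⊕ Fin d) ⊕ Unit) ℂ).totalDegree ≤ 1 :=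
        (totalDegree_X _).le
      have h3 : ((X (Sum.inl (Sum.inr i)) - X (Sum.inl (Sum.inl i)) :
          MvPolynomial ((Fin d ⊕ Fin d) ⊕ Unit) ℂ)).totalDegree ≤ 1 := by
        refine (totalDegree_sub _ _).trans (max_le ?_ ?_) <;> exact (totalDegree_X _).le
      omega
  refine (ph_vdeg_image (ph_prod_isVar (ph_prod_isVar hV hW) ph_univ.1) (spPsi d) 2 (by norm_num)
    hψ).trans ?_
  rw [ph_prod_vdeg (ph_prod_isVar hV hW) ph_univ.1, ph_prod_vdeg hV hW, ph_univ.2.2, mul_one]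
  exact Nat.mul_le_mul_left _ (Nat.pow_le_pow_right (by norm_num) h1)

/-- the source is determined by the image -/
theorem sp_img_src {V W V' W' : Set (SpC d)} (hV : IsVar V) (hW : IsVar W) (hV' : IsVar V')
    (hW' : IsVar W') (h : spImg V W = spImg V' W') : V = V' := by
  have key : ∀ {V W : Set (SpC d)}, W.Nonempty → ∀ f : PrfPol d,
      (∀ x ∈ V, eval x f = 0) ↔ ∀ w ∈ spImg V W, eval w (rename Sum.inl f) = 0 := by
    intro V W hWne f
    constructor
    · intro hf w hw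
      unfold spImg at hw
      rw [ph_mem_zcl] at hw
      refine hw _ ?_
      rintro _ ⟨z, ⟨hz1, _⟩, lam, rfl⟩
      rw [eval_rename]
      exact hf z.1 hz1
    · intro hf x hx
      obtain ⟨y, hy⟩ := hWne
      have := hf _ (sp_lab_subset_img hx hy ⟨(x, y), rfl, 0, rfl⟩)
      rw [eval_rename] at this
      exact this
  have hWne := ph_isVar_nonempty _ hW
  have hWne' := ph_isVar_nonempty _ hW'
  rw [← ph_zcl_of_isVar hV, ← ph_zcl_of_isVar hV']
  ext x
  rw [ph_mem_zcl, ph_mem_zcl]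
  refine forall_congr' fun f => ?_
  rw [key hWne f, key hWne' f, h]

theorem sp_img_prod {V : Set (SpC d)} (hV : IsVar V) :
    IsVar (prodSet V (Set.univ : Set (SpC d))) ∧
      vdim (prodSet V (Set.univ : Set (SpC d))) = vdim V + d ∧
      vdeg (prodSet V (Set.univ : Set (SpC d))) = vdeg V := by
  refine ⟨ph_prod_isVar hV ph_univ.1, ?_, ?_⟩
  · rw [ph_prod_vdim hV ph_univ.1, ph_univ.2.1]
    simp
  · rw [ph_prod_vdeg hV ph_univ.1, ph_univ.2.2, mul_one]

/-! ### S6A-UP -/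

theorem spu_choose_step (m e : ℕ) :
    (m + e + 3).choose 3 ≤ (m + 3).choose 3 + e * (m + e + 2).choose 2 := by
  induction e with
  | zero => simp
  | succ e ih =>
    have h1 : (m + (e + 1) + 3).choose 3 = (m + e + 3).choose 2 + (m + e + 3).choose 3 := by
      rw [show m + (e + 1) + 3 = (m + e + 3) + 1 by ring, Nat.choose_succ_succ' (m + e + 3) 2]
    have h2 : (m + e + 2).choose 2 ≤ (m + e + 3).choose 2 := Nat.choose_le_choose 2 (by omega)
    have h3 : e * (m + e + 2).choose 2 ≤ e * (m + e + 3).choose 2 := Nat.mul_le_mul_left _ h2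
    rw [h1, show m + (e + 1) + 2 = m + e + 3 by ring, Nat.succ_mul]
    omega

/-- the cone over a plane curve of degree `e` -/
theorem spu_hA_zset (F : MvPolynomial (Fin 3) ℂ) (hF : F ≠ 0) (e : ℕ) (he : F.IsHomogeneous e)
    (T : ℕ) : hA (zset F) T ≤ e * (T + 2).choose 2 := by
  have hsym : ∀ n, (Fintype.card (Fin 3) + n).choose n = (n + 3).choose 3 := by
    intro n
    rw [Fintype.card_fin, add_comm, Nat.choose_symm_add]
  rcases le_or_gt e T with h | h
  · have h1 := rk_hA_zset_le F hF (he.totalDegree hF).le h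
    rw [hsym, hsym] at h1
    obtain ⟨m, rfl⟩ : ∃ m, T = m + e := ⟨T - e, by omega⟩
    rw [Nat.add_sub_cancel] at h1
    have := spu_choose_step m e
    omega
  · have h1 : hA (zset F) T ≤ (T + 3).choose 3 := by
      rw [← hsym, ← rk_hA_univ]
      exact rk_hA_mono_set T (Set.subset_univ _)
    have h2 := spu_choose_step 0 T
    simp only [Nat.zero_add] at h2
    have h3 : 1 ≤ (T + 2).choose 2 := Nat.choose_pos (by omega)
    have h4 : (T + 1) * (T + 2).choose 2 ≤ e * (T + 2).choose 2 := Nat.mul_le_mul_right _ h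
    have h5 : (3 : ℕ).choose 3 = 1 := by norm_num
    rw [h5] at h2
    rw [Nat.succ_mul] at h4
    omega

theorem spu_hA_list {ι α : Type*} [Fintype ι] (l : List α) (K : α → Set (ι → ℂ)) (f : α → ℕ) (T : ℕ)
    (h : ∀ c ∈ l, hA (K c) T ≤ f c) : hA {w | ∃ c ∈ l, w ∈ K c} T ≤ (l.map f).sum := by
  induction l with
  | nil =>
    have : {w | ∃ c ∈ ([] : List α), w ∈ K c} = (∅ : Set (ι → ℂ)) := by
      ext w; simp
    rw [this]
    simp [hA, rk_rkOn_empty]
  | cons a l ih =>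
    have : {w | ∃ c ∈ a :: l, w ∈ K c} = K a ∪ {w | ∃ c ∈ l, w ∈ K c} := by
      ext w; simp
    rw [this, List.map_cons, List.sum_cons]
    refine (rk_hA_union_le _ _ _).trans ?_
    exact Nat.add_le_add (h a (List.mem_cons_self ..))
      (ih fun c hc => h c (List.mem_cons_of_mem _ hc))

/-- the labels with centre `x` and direction on the cone over `c` -/
def spuK (x : SpC d) (c : PCurve d) : Set (Fin d ⊕ Fin d → ℂ) :=
  {w | ∃ v, c.Mem v ∧ w = Sum.elim x v}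

theorem spu_hA_K (x : SpC d) (c : PCurve d) (T : ℕ) : hA (spuK x c) T ≤ c.deg * (T + 2).choose 2 := by
  classical
  set ψ : Fin d ⊕ Fin d → MvPolynomial (Fin 3) ℂ := Sum.elim (fun i => C (x i))
    (fun i => ∑ k, C (c.φ (fun j => if k = j then 1 else 0) i) * X k) with hψ
  have hdeg : ∀ i, (ψ i).totalDegree ≤ 1 := by
    intro i
    rcases i with i | i
    · simp [hψ]
    · simp only [hψ, Sum.elim_inr]
      refine totalDegree_finsetSum_le fun k _ => ?_
      refine (totalDegree_mul _ _).trans ?_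
      rw [totalDegree_C, zero_add]
      exact (totalDegree_X _).le
  have hsub : spuK x c ⊆ pmap ψ '' zset c.F := by
    rintro w ⟨v, ⟨u, rfl, hu⟩, rfl⟩
    refine ⟨u, hu, ?_⟩
    funext i
    rcases i with i | i
    · simp [pmap, hψ]
    · simp only [pmap, hψ, Sum.elim_inr, map_sum, map_mul, eval_C, eval_X]
      rw [LinearMap.pi_apply_eq_sum_univ c.φ u]
      simp [mul_comm]
  calc hA (spuK x c) T ≤ hA (pmap ψ '' zset c.F) T := rk_hA_mono_set T hsub
    _ ≤ hA (zset c.F) (1 * T) := ph_hA_image_le ψ 1 hdeg _ T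
    _ ≤ c.deg * (T + 2).choose 2 := by rw [one_mul]; exact spu_hA_zset c.F c.ne c.deg c.hom T

theorem spu_mem_smul {c : PCurve d} {v : SpC d} (h : c.Mem v) (lam : ℂ) : c.Mem (lam • v) := by
  obtain ⟨u, rfl, hu⟩ := h
  refine ⟨lam • u, by simp, ?_⟩
  rw [pmb_homog_eval_smul c.hom, hu, mul_zero]

theorem sp_upper (d : ℕ) : SpUpperStmt d := by
  classical
  intro D Γ T hdeg hΓ
  have hsub : spLab (Γ : Set (SpC d × SpC d)) ⊆
      ⋃ x ∈ Γ.image Prod.fst, {w | ∃ c ∈ D.C (spRe x), w ∈ spuK x c} := by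
    rintro w ⟨z, hz, lam, rfl⟩
    obtain ⟨_, c, hc, hm⟩ := hΓ z hz
    simp only [Set.mem_iUnion]
    exact ⟨z.1, Finset.mem_image_of_mem _ hz, c, hc, lam • (z.2 - z.1), spu_mem_smul hm lam, rfl⟩
  have h1 : hA (spLab (Γ : Set (SpC d × SpC d))) T ≤
      ∑ x ∈ Γ.image Prod.fst, ((D.C (spRe x)).map PCurve.deg).sum * (T + 2).choose 2 := by
    refine (rk_hA_mono_set T hsub).trans
      ((rk_rkOn_biUnion_le _ _ _).trans (Finset.sum_le_sum fun x _ => ?_))
    refine (spu_hA_list _ (spuK x) (fun c => c.deg * (T + 2).choose 2) T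
      (fun c _ => spu_hA_K x c T)).trans ?_
    rw [List.sum_map_mul_right]
  have h2 : ∀ x ∈ Γ.image Prod.fst, ((((D.C (spRe x)).map PCurve.deg).sum : ℕ) : ℝ) ≤ D.E := by
    intro x hx
    obtain ⟨z, hz, rfl⟩ := Finset.mem_image.mp hx
    obtain ⟨p, hp, hpz⟩ := Finset.mem_image.mp (hΓ z hz).1
    rw [← hpz, sp_re_pt]
    exact hdeg p hp
  calc (hA (spLab (Γ : Set (SpC d × SpC d))) T : ℝ)
      ≤ ((∑ x ∈ Γ.image Prod.fst, ((D.C (spRe x)).map PCurve.deg).sum * (T + 2).choose 2 : ℕ) : ℝ) := by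
        exact_mod_cast h1
    _ = ∑ x ∈ Γ.image Prod.fst,
          ((((D.C (spRe x)).map PCurve.deg).sum : ℕ) : ℝ) * ((T + 2).choose 2 : ℝ) := by
        push_cast; rfl
    _ ≤ ∑ _x ∈ Γ.image Prod.fst, D.E * ((T + 2).choose 2 : ℝ) :=
        Finset.sum_le_sum fun x hx => mul_le_mul_of_nonneg_right (h2 x hx) (Nat.cast_nonneg _)
    _ = ((Γ.image Prod.fst).card : ℝ) * D.E * ((T + 2).choose 2 : ℝ) := by
        simp [mul_assoc]

/-! ### S6A-CORE -/

/-- an irreducible subvariety of the same dimension is the whole variety -/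
theorem sp_isVar_eq_of_vdim {ι : Type*} [Fintype ι] {V W : Set (ι → ℂ)} (hV : IsVar V)
    (hW : IsVar W) (hWV : W ⊆ V) (hdim : vdim V ≤ vdim W) : W = V := by
  by_contra hne
  have hex : ∃ x ∈ V, x ∉ W := by
    by_contra hcon
    push Not at hcon
    exact hne (Set.Subset.antisymm hWV hcon)
  obtain ⟨x, hxV, hxW⟩ := hex
  rw [← ph_zcl_of_isVar hW, ph_mem_zcl] at hxW
  push Not at hxW
  obtain ⟨g, hg, hgx⟩ := hxW
  have := ph_vdim_lt_of_ssubset hV hWV g hg ⟨x, hxV, hgx⟩ (ph_isVar_nonempty _ hW)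
  omega

/-- **THE ENVELOPE CORE** (finite form of the grouping argument of sc:common-rank and sc:outer-regularity).  `L` = labels, `T` = testing degree, `Λ` = finite index set (pairs), `lab z ⊆ img z ⊆ Env L T`,
`img z` irreducible of dimension `≥ m`.  There are a dimension `h ≥ m`, a subset `Λ'` with `|Λ| ≤ (card ι + 1) |Λ'|` and a number `a` (the degree of the dimension-`h` group of the envelope) such that
(0) every `img z`, `z ∈ Λ'`, lies in a component of dimension `h` of the envelope; (1) `a binom(T+h,h) ≤ (n+1)^n H_L(T)`; (2) `H_{lab Λ'}(T') ≤ a binom(T'+h,h)` for all `T'`; (3) if `h = m` and all `img z` have dimension exactly `m`, every finite family of DISTINCT images `img z`, `z ∈ Λ'`, has total degree `≤ a`. -/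
theorem sp_env_core {ι α : Type*} [Fintype ι] [DecidableEq α] (L : Set (ι → ℂ)) (T m : ℕ)
    (hm : m ≤ Fintype.card ι)
    (Λ : Finset α) (lab img : α → Set (ι → ℂ))
    (h1 : ∀ z ∈ Λ, lab z ⊆ img z) (h2 : ∀ z ∈ Λ, img z ⊆ Env L T) (h3 : ∀ z ∈ Λ, IsVar (img z))
    (h4 : ∀ z ∈ Λ, m ≤ vdim (img z)) :
    ∃ (h a : ℕ) (Λ' : Finset α), m ≤ h ∧ h ≤ Fintype.card ι ∧ Λ' ⊆ Λ ∧
      Λ.card ≤ (Fintype.card ι + 1) * Λ'.card ∧
      a * (T + h).choose h ≤ (Fintype.card ι + 1) ^ Fintype.card ι * hA L T ∧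
      (∀ z ∈ Λ', ∃ W, IsCompOf W {f | f.totalDegree ≤ T ∧ ∀ x ∈ L, eval x f = 0} ∧ vdim W = h ∧
        img z ⊆ W) ∧
      (∀ T' : ℕ, hA (⋃ z ∈ Λ', lab z) T' ≤ a * (T' + h).choose h) ∧
      (h = m → (∀ z ∈ Λ, vdim (img z) = m) → ∀ 𝒥 : Finset (Set (ι → ℂ)),
        (∀ Z ∈ 𝒥, ∃ z ∈ Λ', Z = img z) → ∑ Z ∈ 𝒥, vdeg Z ≤ a) := by
  classical
  set 𝒢 : Set (MvPolynomial ι ℂ) := {f | f.totalDegree ≤ T ∧ ∀ x ∈ L, eval x f = 0} with h𝒢
  have hW : ∀ z, ∃ W, z ∈ Λ → IsCompOf W 𝒢 ∧ img z ⊆ W := by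
    intro z
    by_cases hz : z ∈ Λ
    · obtain ⟨W, hW1, hW2⟩ := ph_isVar_subset_comp (h3 z hz) (h2 z hz)
      exact ⟨W, fun _ => ⟨hW1, hW2⟩⟩
    · exact ⟨∅, fun h => absurd h hz⟩
  choose W hW using hW
  set n := Fintype.card ι with hn
  -- the group of dimension h
  let 𝒱 : ℕ → Finset (Set (ι → ℂ)) := fun h => (ph_comps_finite 𝒢).toFinset.filter fun V => vdim V = h
  have h𝒱 : ∀ h V, V ∈ 𝒱 h ↔ IsCompOf V 𝒢 ∧ vdim V = h := by
    intro h V
    simp [𝒱]
  let Λf : ℕ → Finset α := fun h => Λ.filter fun z => vdim (W z) = h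
  -- properties for every h
  have main : ∀ h, (∑ V ∈ 𝒱 h, vdeg V) * (T + h).choose h ≤ (n + 1) ^ n * hA L T ∧
      (∀ z ∈ Λf h, ∃ W, IsCompOf W 𝒢 ∧ vdim W = h ∧ img z ⊆ W) ∧
      (∀ T' : ℕ, hA (⋃ z ∈ Λf h, lab z) T' ≤ (∑ V ∈ 𝒱 h, vdeg V) * (T' + h).choose h) ∧
      (h = m → (∀ z ∈ Λ, vdim (img z) = m) → ∀ 𝒥 : Finset (Set (ι → ℂ)),
        (∀ Z ∈ 𝒥, ∃ z ∈ Λf h, Z = img z) → ∑ Z ∈ 𝒥, vdeg Z ≤ ∑ V ∈ 𝒱 h, vdeg V) := by
    intro h
    refine ⟨?_, ?_, ?_, ?_⟩
    · refine (ph_hilbert_at 𝒢 T (fun g hg => hg.1) (𝒱 h) (fun V hV => ((h𝒱 h V).mp hV).1) h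
        (fun V hV => ((h𝒱 h V).mp hV).2)).trans ?_
      refine Nat.mul_le_mul_left _ ?_
      rw [← ph_hA_env L T]
      refine rk_hA_mono_set T ?_
      intro x hx
      simp only [Set.mem_iUnion] at hx
      obtain ⟨V, hV, hxV⟩ := hx
      exact ph_isCompOf_subset ((h𝒱 h V).mp hV).1 hxV
    · intro z hz
      obtain ⟨hzΛ, hzd⟩ := Finset.mem_filter.mp hz
      exact ⟨W z, (hW z hzΛ).1, hzd, (hW z hzΛ).2⟩
    · intro T'
      refine le_trans (rk_hA_mono_set T' ?_) (ph_hilbert_up_family (𝒱 h)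
        (fun V hV => ph_isCompOf_isVar ((h𝒱 h V).mp hV).1) h (fun V hV => ((h𝒱 h V).mp hV).2) T')
      intro x hx
      simp only [Set.mem_iUnion] at hx ⊢
      obtain ⟨z, hz, hxz⟩ := hx
      obtain ⟨hzΛ, hzd⟩ := Finset.mem_filter.mp hz
      exact ⟨W z, (h𝒱 h _).mpr ⟨(hW z hzΛ).1, hzd⟩, (hW z hzΛ).2 (h1 z hzΛ hxz)⟩
    · intro hhm hdim 𝒥 h𝒥
      refine Finset.sum_le_sum_of_subset ?_
      intro Z hZ
      obtain ⟨z, hz, rfl⟩ := h𝒥 Z hZ
      obtain ⟨hzΛ, hzd⟩ := Finset.mem_filter.mp hz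
      have : img z = W z := sp_isVar_eq_of_vdim (ph_isCompOf_isVar (hW z hzΛ).1) (h3 z hzΛ)
        (hW z hzΛ).2 (by rw [hzd, hdim z hzΛ, hhm])
      rw [this]
      exact (h𝒱 h _).mpr ⟨(hW z hzΛ).1, hzd⟩
  -- the choice of h
  obtain ⟨h, hmh, hhn, hcard⟩ : ∃ h, m ≤ h ∧ h ≤ n ∧ Λ.card ≤ (n + 1) * (Λf h).card := by
    rcases Λ.eq_empty_or_nonempty with hΛ | hΛ
    · exact ⟨m, le_rfl, hm, by simp [hΛ]⟩
    · have hmaps : ∀ z ∈ Λ, vdim (W z) ∈ Finset.range (n + 1) := fun z _ =>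
        Finset.mem_range.mpr (Nat.lt_succ_of_le (ph_vdim_le _))
      have hsum : Λ.card = ∑ h ∈ Finset.range (n + 1), (Λf h).card :=
        Finset.card_eq_sum_card_fiberwise hmaps
      obtain ⟨h, hh, hmax⟩ := Finset.exists_max_image (Finset.range (n + 1)) (fun h => (Λf h).card)
        ⟨0, Finset.mem_range.mpr (Nat.succ_pos _)⟩
      have hle : Λ.card ≤ (n + 1) * (Λf h).card := by
        rw [hsum]
        calc ∑ h' ∈ Finset.range (n + 1), (Λf h').card
            ≤ ∑ _h' ∈ Finset.range (n + 1), (Λf h).card := Finset.sum_le_sum hmax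
          _ = (n + 1) * (Λf h).card := by simp
      have hne : (Λf h).Nonempty := by
        rw [Finset.nonempty_iff_ne_empty]
        intro h0
        rw [h0, Finset.card_empty, Nat.mul_zero] at hle
        have := Finset.card_pos.mpr hΛ
        omega
      obtain ⟨z, hz⟩ := hne
      obtain ⟨hzΛ, hzd⟩ := Finset.mem_filter.mp hz
      refine ⟨h, ?_, Nat.lt_succ_iff.mp (Finset.mem_range.mp hh), hle⟩
      rw [← hzd]
      exact (h4 z hzΛ).trans (ph_vdim_mono (hW z hzΛ).2)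
  obtain ⟨m1, m0, m2, m3⟩ := main h
  exact ⟨h, ∑ V ∈ 𝒱 h, vdeg V, Λf h, hmh, hhn, Finset.filter_subset _ _, hcard, m1, m0, m2, m3⟩

end Claimed.Agent.R273
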