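-- KEEP
import Claimed.Agent.R273.GeoGen
import Claimed.Agent.R273.SpImg
import Claimed.Agent.R273.DepDefs
import Claimed.Agent.R273.RkFlat

/-!
# Row 273, S4 (secants.tex), layer 1: FLATS, tangent flats, transversality.  Architect helper26.  Prefix `geo_`.

`geoFlat y₀ W = y₀ + W`.  A variety is a flat iff `vdeg = 1` (Hilbert function at `D = 1`).

LEAF GEO-LIN-A (`geo_flat_isVar`, `geo_var_eq_flat`, `geo_deg_one_of_inFlat`, `geo_flat_of_deg_one`).  ~300 lines.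
  `geo_flat_isVar`: choose a basis `w_1..w_m` of `W`; `geoFlat y₀ W = pmap ψ '' univ`, `ψ_i = C (y₀ i) + ∑_a C (w_a i) X_a` on `ℂ^m`; it is CLOSED (zero set of the `ℓ(x - y₀)`, `ℓ` in the annihilator of `W`: `Submodule.dualAnnihilator`/ or `W = ker` of a linear map `ℂ^d → ℂ^d`, e.g. a projection `LinearMap` with kernel `W`: `Submodule.exists_isCompl`, `Submodule.linearProjOfIsCompl`),
    so `geoFlat = zcl (pmap ψ '' univ)` is irreducible (`ph_isVar_zcl_image`, `ph_univ`).  `hA (geoFlat y₀ W) D = hA (univ : Set (Fin m → ℂ)) D`: `f ↦ f ∘ ψ` maps degree `≤ D` ONTO degree `≤ D` (there is an affine left inverse `φ` of `ψ`, `φ ∘ ψ = id`), and `f = 0` on the flat iff `f ∘ ψ = 0`.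
    Hence `vdim`, `vdeg` (functions of `hA` only) are those of `univ` (`ph_univ`): `m` and `1`.  (If a transfer lemma for `hA` under affine maps exists in RkBasic/RkMap use it: `grep rk_hA`.)
  `geo_var_eq_flat`: `Y ⊆ F := geoFlat y₀ W`, `vdim F = finrank W ≤ vdim Y`.  If `Y ≠ F` there is `x ∈ F \ Y`, hence `g ∈ I(Y)` with `g(x) ≠ 0` (`Y` closed: `ph_zcl_of_isVar`), `ph_vdim_lt_of_ssubset` gives `vdim Y < vdim F`: contradiction.
  `geo_deg_one_of_inFlat`: `InFlat Y (vdim Y)` gives `x₀, W`; `geo_var_eq_flat`; `geo_flat_isVar`.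
  `geo_flat_of_deg_one`: `ph_up_var` at `D = 1`: `hA Y 1 ≤ vdim Y + 1`.  On the other hand `hA Y 1 = 1 + finrank (dirSpan Y)`: only `≥` is needed: if `y₀, y₀ + v_1, .., y₀ + v_r ∈ Y`.. simpler: let `r = finrank (dirSpan Y)`; choose `y₀ ∈ Y` and `y_1..y_r ∈ Y` with `y_a - y₀` linearly independent (`dirSpan Y = span {y - y₀}`; `exists_linearIndependent`/`Submodule.exists_fun_fin_finrank_span_eq`);
    the `r + 1` evaluation functionals at `y_0..y_r` are linearly independent on the polynomials of degree `≤ 1` (dual basis: affine functions `ℓ_a` with `ℓ_a(y_b) = δ_ab`), so `hA Y 1 ≥ r + 1` (definition of `hA` in `Defs.lean` = rank of the restriction; `rk_*` lemmas on points in RkPts.lean).  So `r ≤ vdim Y`, `InFlat Y (vdim Y)`, `geo_var_eq_flat`; `finrank = vdim` from `geo_flat_isVar`.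
LEAF GEO-LIN-B (`geo_tanAt_prime`, `geo_tanAt_flat`, `geo_line_tan`, `geo_not_tr`, `geo_nt_gen`, `geo_tr_gen`, `geo_tan_pin`, `geo_span_pin`, `geo_tan_dim_gen`).  ~300 lines.
  `geo_tanAt_prime`: `vanishingIdeal (zeroLocus p) = p` for a prime (`MvPolynomial.IsPrime.vanishingIdeal_zeroLocus`).
  `geo_tanAt_flat`: `⊆`: the affine equations `ℓ(x - y₀)`, `ℓ ∈ W^⊥`, lie in the ideal and `dAt` of them is `ℓ`.  `⊇` is `geo_line_tan`.
  `geo_line_tan`: if `y + c v ∈ Y` for all `c` then `v ∈ tanAt Y y`: for `f ∈ I(Y)`, `c ↦ f(y + c v)` is the zero polynomial function; its linear coefficient is `dAt f y v` (`Polynomial` in `c`: `aeval (fun i => C (y i) + X * C (v i)) f`, derivative at `0`, chain rule; infinitely many zeros).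
  POLYNOMIALITY: for `f : PrfPol d` the functions `(x,y) ↦ dAt f x (y - x)` and `(x,y) ↦ dAt f y (y - x)` are `eval (Sum.elim x y)` of `∑_i rename inl (pderiv i f) * (X (inr i) - X (inl i))`, resp. `rename inr`.
  `geo_not_tr`: if both alternatives fail there are `f ∈ I(X)`, `g ∈ I(Y)` whose polynomials `F, G` above do not vanish identically on `prodSet X Y` (irreducible: `ph_prod_isVar`); `ph_isVar_mul`: a point with `F G ≠ 0`: `GeoTr`.
  `geo_nt_gen`, `geo_tr_gen`: the same polynomials.  `geo_tan_dim_gen` = `ph_tan_open`.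
  `geo_tan_pin`: `y₀` from `ph_tan_open` (`finrank (tanAt Y y₀) = vdim Y`), `W := tanAt Y y₀`; `x - y₀ = -(y₀ - x)`.
  `geo_span_pin`: `W := dirSpan Y` if `finrank (dirSpan Y) ≤ vdim Y + 1`, else `⊥`; `y₀ ∈ Y`.  If `InFlat (T ∪ Y) (k+1)` via `(x₀, W')` then `dirSpan Y ≤ W'`; `finrank (dirSpan Y) ≥ k + 1` (otherwise `InFlat Y k`, `vdeg Y = 1`), so `dirSpan Y = W'` (`Submodule.eq_of_le_of_finrank_le`).
-/

set_option autoImplicit false

namespace Claimed.Agent.R273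

open MvPolynomial Module

variable {d : ℕ}

/-- the affine flat `y₀ + W` -/
def geoFlat (y₀ : SpC d) (W : Submodule ℂ (SpC d)) : Set (SpC d) := {y | y - y₀ ∈ W}

/-- TRANSVERSALITY of a pair of varieties: at one (hence at the general) pair of points the connecting direction lies in neither tangent space -/
def GeoTr (X Y : Set (SpC d)) : Prop :=
  ∃ x ∈ X, ∃ y ∈ Y, y - x ∉ tanAt X x ∧ y - x ∉ tanAt Y y

/-- non-tangency at the target -/
def GeoNT (X Y : Set (SpC d)) : Prop := ∃ x ∈ X, ∃ y ∈ Y, y - x ∉ tanAt Y y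

theorem GeoTr.nt {X Y : Set (SpC d)} (h : GeoTr X Y) : GeoNT X Y := by
  obtain ⟨x, hx, y, hy, _, h2⟩ := h
  exact ⟨x, hx, y, hy, h2⟩

/-! ### GEO-LIN-A (proved, helper62) -/

theorem geo_flat_range (y₀ : SpC d) (W : Submodule ℂ (SpC d))
    (L : (Fin (finrank ℂ W) → ℂ) →ₗ[ℂ] (SpC d)) (hr : Set.range L = (W : Set (SpC d))) :
    geoFlat y₀ W = Set.range fun x => L x + y₀ := by
  ext y
  constructor
  · intro hy
    have h1 : y - y₀ ∈ (W : Set (SpC d)) := hy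
    rw [← hr] at h1
    obtain ⟨x, hx⟩ := h1
    exact ⟨x, by simp [hx]⟩
  · rintro ⟨x, rfl⟩
    have h1 : L x ∈ Set.range L := ⟨x, rfl⟩
    rw [hr] at h1
    show L x + y₀ - y₀ ∈ W
    simpa using h1

theorem geo_flat_closed (y₀ : SpC d) (W : Submodule ℂ (SpC d)) :
    ∃ G : Set (PrfPol d), geoFlat y₀ W = Zl G := by
  obtain ⟨W', hW'⟩ := Submodule.exists_isCompl W
  obtain ⟨π, hπ⟩ : ∃ π : SpC d →ₗ[ℂ] SpC d, LinearMap.ker π = W :=
    ⟨W'.subtype.comp (Submodule.projectionOnto W' W hW'.symm), by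
      rw [LinearMap.ker_comp, Submodule.ker_subtype, Submodule.comap_bot,
        Submodule.ker_projectionOnto]⟩
  refine ⟨Set.range (affPoly π (-(π y₀))), ?_⟩
  ext y
  constructor
  · rintro hy _ ⟨k, rfl⟩
    have h1 : y - y₀ ∈ W := hy
    rw [← hπ, LinearMap.mem_ker, map_sub] at h1
    rw [rk_eval_affPoly, Pi.add_apply, Pi.neg_apply, ← sub_eq_add_neg, ← Pi.sub_apply, h1]
    rfl
  · intro hy
    show y - y₀ ∈ W
    rw [← hπ, LinearMap.mem_ker, map_sub]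
    funext k
    have := hy _ ⟨k, rfl⟩
    rw [rk_eval_affPoly, Pi.add_apply, Pi.neg_apply, ← sub_eq_add_neg] at this
    exact this

theorem geo_flat_isVar (y₀ : SpC d) (W : Submodule ℂ (SpC d)) :
    IsVar (geoFlat y₀ W) ∧ vdim (geoFlat y₀ W) = finrank ℂ W ∧ vdeg (geoFlat y₀ W) = 1 := by
  obtain ⟨L, hL, hr⟩ := rk_flat_param W
  have hrange := geo_flat_range y₀ W L hr
  have hV : IsVar (geoFlat y₀ W) := by
    obtain ⟨G, hG⟩ := geo_flat_closed y₀ W
    have h1 : zcl (geoFlat y₀ W) = geoFlat y₀ W := by rw [hG, ph_zcl_Zl]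
    have h2 : geoFlat y₀ W = pmap (affPoly L y₀) '' (Set.univ : Set (Fin (finrank ℂ W) → ℂ)) := by
      rw [hrange, Set.image_univ]
      congr 1
      funext x k
      exact (rk_eval_affPoly L y₀ k x).symm
    rw [← h1, h2]
    exact ph_isVar_zcl_image ph_univ.1 _
  have h1 : ∀ D, hA (geoFlat y₀ W) D = (D + finrank ℂ W).choose (finrank ℂ W) := fun D => by
    rw [hrange, rk_hA_flat L hL y₀ D, add_comm, Nat.choose_symm_add]
  have hd : vdim (geoFlat y₀ W) = finrank ℂ W :=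
    ph_vdim_eq_of_bounds _ _ 1 (fun D => (h1 D).ge) (fun D => by rw [one_mul]; exact (h1 D).le)
  refine ⟨hV, hd, le_antisymm (Nat.sInf_le fun D => ?_) (ph_vdeg_pos _ hV)⟩
  rw [hd, one_mul]
  exact (h1 D).le

theorem geo_var_eq_flat {Y : Set (SpC d)} (hY : IsVar Y) (y₀ : SpC d) (W : Submodule ℂ (SpC d))
    (hsub : Y ⊆ geoFlat y₀ W) (hdim : finrank ℂ W ≤ vdim Y) : Y = geoFlat y₀ W := by
  obtain ⟨hF, hFd, -⟩ := geo_flat_isVar y₀ W
  by_contra hne
  have : ∃ x ∈ geoFlat y₀ W, x ∉ Y := by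
    by_contra hcon
    push Not at hcon
    exact hne (Set.Subset.antisymm hsub hcon)
  obtain ⟨x, hxF, hxY⟩ := this
  rw [← ph_zcl_of_isVar hY, ph_mem_zcl] at hxY
  push Not at hxY
  obtain ⟨g, hg, hgx⟩ := hxY
  have := ph_vdim_lt_of_ssubset hF hsub g hg ⟨x, hxF, hgx⟩ (ph_isVar_nonempty Y hY)
  omega

theorem geo_deg_one_of_inFlat {Y : Set (SpC d)} (hY : IsVar Y) (h : InFlat Y (vdim Y)) :
    vdeg Y = 1 := by
  obtain ⟨x₀, W, hW, hsub⟩ := h
  rw [geo_var_eq_flat hY x₀ W hsub hW]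
  exact (geo_flat_isVar x₀ W).2.2

/-- a polynomial of degree `≤ 1` is an affine function -/
theorem geo_aff_form {ι : Type*} (f : MvPolynomial ι ℂ) (hf : f.totalDegree ≤ 1) :
    ∃ (c₀ : ℂ) (ℓ : (ι → ℂ) →ₗ[ℂ] ℂ), ∀ x, eval x f = c₀ + ℓ x := by
  classical
  have hmon : ∀ m ∈ f.support, ∃ (c₀ : ℂ) (ℓ : (ι → ℂ) →ₗ[ℂ] ℂ),
      ∀ x, eval x (monomial m (coeff m f)) = c₀ + ℓ x := by
    intro m hm
    have h1 := (le_totalDegree hm).trans hf
    rcases Nat.le_one_iff_eq_zero_or_eq_one.1 h1 with h0 | h0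
    · have hm0 : m = 0 := by
        ext i
        by_contra hne
        have hi : i ∈ m.support := Finsupp.mem_support_iff.2 hne
        have : m i ≤ m.sum fun _ e => e := Finset.single_le_sum (f := fun i => m i)
          (fun _ _ => Nat.zero_le _) hi
        rw [h0] at this
        exact hne (Nat.le_zero.1 this)
      refine ⟨coeff m f, 0, fun x => ?_⟩
      rw [hm0]
      simp
    · obtain ⟨j, hj⟩ := (Finsupp.sum_eq_one_iff m).1 h0
      refine ⟨0, coeff m f • LinearMap.proj j, fun x => ?_⟩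
      rw [hj, eval_monomial]
      simp
  choose! c₀ ℓ h using hmon
  refine ⟨∑ m ∈ f.support, c₀ m, ∑ m ∈ f.support, ℓ m, fun x => ?_⟩
  conv_lhs => rw [f.as_sum]
  rw [map_sum, LinearMap.sum_apply, ← Finset.sum_add_distrib]
  exact Finset.sum_congr rfl fun m hm => h m hm x

theorem geo_sub_flat_dirSpan {Y : Set (SpC d)} {y₀ : SpC d} (hy₀ : y₀ ∈ Y) :
    Y ⊆ geoFlat y₀ (dirSpan Y) :=
  fun y hy => Submodule.subset_span ⟨y, hy, y₀, hy₀, rfl⟩

theorem geo_hA_one {Y : Set (SpC d)} {y₀ : SpC d} (hy₀ : y₀ ∈ Y) :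
    hA Y 1 = hA (geoFlat y₀ (dirSpan Y)) 1 := by
  apply rk_rkOn_congr_ker
  intro f hf
  rw [mem_restrictTotalDegree] at hf
  constructor
  · intro h x hx
    obtain ⟨c₀, ℓ, hℓ⟩ := geo_aff_form f hf
    have hker : dirSpan Y ≤ LinearMap.ker ℓ := by
      apply Submodule.span_le.2
      rintro v ⟨y, hy, y', hy', rfl⟩
      have e1 := h y hy
      have e2 := h y' hy'
      rw [hℓ] at e1 e2
      show ℓ (y - y') = 0
      rw [map_sub]
      linear_combination e1 - e2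
    have e3 : ℓ (x - y₀) = 0 := hker hx
    have e4 := h y₀ hy₀
    rw [hℓ] at e4 ⊢
    rw [map_sub] at e3
    linear_combination e3 + e4
  · exact fun h x hx => h x (geo_sub_flat_dirSpan hy₀ hx)

theorem geo_flat_of_deg_one {Y : Set (SpC d)} (hY : IsVar Y) (h : vdeg Y = 1) :
    ∃ (y₀ : SpC d) (W : Submodule ℂ (SpC d)), finrank ℂ W = vdim Y ∧ Y = geoFlat y₀ W := by
  obtain ⟨y₀, hy₀⟩ := ph_isVar_nonempty Y hY
  have h1 := ph_up_var Y hY 1
  rw [h, one_mul, geo_hA_one hy₀] at h1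
  obtain ⟨L, hL, hr⟩ := rk_flat_param (dirSpan Y)
  rw [geo_flat_range y₀ _ L hr, rk_hA_flat L hL y₀ 1, Nat.choose_one_right, add_comm 1 (vdim Y),
    Nat.choose_symm_add, Nat.choose_one_right] at h1
  have h2 : finrank ℂ (dirSpan Y) ≤ vdim Y := by omega
  have h3 := geo_var_eq_flat hY y₀ (dirSpan Y) (geo_sub_flat_dirSpan hy₀) h2
  refine ⟨y₀, dirSpan Y, ?_, h3⟩
  have h4 := (geo_flat_isVar y₀ (dirSpan Y)).2.1
  rw [← h3] at h4
  exact h4.symm

/-! ### GEO-LIN-B (proved, helper62) -/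

theorem geo_tanAt_prime (p : Ideal (PrfPol d)) (hp : p.IsPrime) (x : SpC d) :
    tanAt (zeroLocus ℂ p) x = tanSp p x := by
  unfold tanAt
  rw [ph_vanishing_prime p hp]

theorem geo_transv_iff (𝔵 𝔶 : Ideal (PrfPol d)) (h𝔵 : 𝔵.IsPrime) (h𝔶 : 𝔶.IsPrime) :
    SpTransv 𝔵 𝔶 ↔ GeoTr (spZ 𝔵) (spZ 𝔶) := by
  unfold SpTransv GeoTr spZ
  simp only [geo_tanAt_prime _ h𝔵, geo_tanAt_prime _ h𝔶]

theorem geo_lin_mem_tanAt (Y : Set (SpC d)) (y v : SpC d) :
    v ∈ tanAt Y y ↔ ∀ f : PrfPol d, (∀ x ∈ Y, eval x f = 0) → dAt f y v = 0 := by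
  unfold tanAt
  constructor
  · intro h f hf
    exact h f ((ph_mem_vanishingIdeal Y f).2 hf)
  · intro h f hf
    exact h f ((ph_mem_vanishingIdeal Y f).1 hf)

/-- a line contained in `Y` is tangent to `Y` -/
theorem geo_line_tan {Y : Set (SpC d)} (y v : SpC d) (h : ∀ c : ℂ, y + c • v ∈ Y) :
    v ∈ tanAt Y y := by
  rw [geo_lin_mem_tanAt]
  intro f hf
  obtain ⟨s, hs⟩ : ∃ s : Fin d → MvPolynomial (Fin 1) ℂ, s = fun i => C (y i) + X 0 * C (v i) :=
    ⟨_, rfl⟩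
  have h0 : aeval s f = 0 := by
    apply MvPolynomial.funext
    intro z
    rw [map_zero, ← aeval_eq_eval, comp_aeval_apply]
    have : (fun i => aeval z (s i)) = y + z 0 • v := by
      funext i
      rw [hs]
      simp
    rw [this, aeval_eq_eval]
    exact hf _ (h _)
  have h1 := ph_dAt_aeval s f (0 : Fin 1 → ℂ) (fun _ => (1 : ℂ))
  rw [h0] at h1
  have e1 : (fun j => aeval (0 : Fin 1 → ℂ) (s j)) = y := by
    funext i
    rw [hs]
    simp
  have e2 : (fun j => dAt (s j) (0 : Fin 1 → ℂ) (fun _ => (1 : ℂ))) = v := by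
    funext i
    rw [hs, ph_dAt_add, ph_dAt_C, ph_dAt_mul, ph_dAt_C, ph_dAt_X]
    simp
  rw [e1, e2] at h1
  rw [← h1]
  simp [dAt]

theorem geo_dAt_affPoly (π : SpC d →ₗ[ℂ] SpC d) (b : SpC d) (k : Fin d) (y v : SpC d) :
    dAt (affPoly π b k) y v = (π v) k := by
  have h1 := rk_eval_affPoly π 0 k v
  unfold affPoly at h1 ⊢
  rw [ph_dAt_add, ph_dAt_C, ph_dAt_sum, add_zero]
  simp only [map_add, map_sum, map_mul, eval_C, eval_X, Pi.zero_apply, add_zero, Pi.add_apply] at h1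
  rw [← h1]
  apply Finset.sum_congr rfl
  intro i _
  rw [ph_dAt_mul, ph_dAt_C, ph_dAt_X]
  simp

theorem geo_exists_ker (W : Submodule ℂ (SpC d)) : ∃ π : SpC d →ₗ[ℂ] SpC d, LinearMap.ker π = W := by
  obtain ⟨W', hW'⟩ := Submodule.exists_isCompl W
  exact ⟨W'.subtype.comp (Submodule.projectionOnto W' W hW'.symm), by
      rw [LinearMap.ker_comp, Submodule.ker_subtype, Submodule.comap_bot,
        Submodule.ker_projectionOnto]⟩

theorem geo_tanAt_flat (y₀ : SpC d) (W : Submodule ℂ (SpC d)) {y : SpC d} (hy : y ∈ geoFlat y₀ W) :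
    tanAt (geoFlat y₀ W) y = W := by
  apply le_antisymm
  · intro v hv
    obtain ⟨π, hπ⟩ := geo_exists_ker W
    rw [geo_lin_mem_tanAt] at hv
    rw [← hπ, LinearMap.mem_ker]
    funext k
    rw [← geo_dAt_affPoly π (-(π y₀)) k y v]
    apply hv
    intro x hx
    have h1 : x - y₀ ∈ W := hx
    rw [← hπ, LinearMap.mem_ker, map_sub] at h1
    rw [rk_eval_affPoly, Pi.add_apply, Pi.neg_apply, ← sub_eq_add_neg, ← Pi.sub_apply, h1]
    rfl
  · intro v hv
    apply geo_line_tan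
    intro c
    show y + c • v - y₀ ∈ W
    have h1 : y - y₀ ∈ W := hy
    have : y + c • v - y₀ = (y - y₀) + c • v := by abel
    rw [this]
    exact W.add_mem h1 (W.smul_mem c hv)

/-- the polynomial `(x, y) ↦ d_x f (y - x)` -/
noncomputable def geoFx (f : PrfPol d) : MvPolynomial (Fin d ⊕ Fin d) ℂ :=
  ∑ i, rename Sum.inl (pderiv i f) * (X (Sum.inr i) - X (Sum.inl i))

/-- the polynomial `(x, y) ↦ d_y f (y - x)` -/
noncomputable def geoFy (f : PrfPol d) : MvPolynomial (Fin d ⊕ Fin d) ℂ :=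
  ∑ i, rename Sum.inr (pderiv i f) * (X (Sum.inr i) - X (Sum.inl i))

theorem geo_eval_Fx (f : PrfPol d) (z : Fin d ⊕ Fin d → ℂ) :
    eval z (geoFx f) = dAt f (prL z) (prR z - prL z) := by
  unfold geoFx dAt
  rw [map_sum]
  apply Finset.sum_congr rfl
  intro i _
  rw [map_mul, eval_rename, map_sub, eval_X, eval_X, aeval_eq_eval]
  rfl

theorem geo_eval_Fy (f : PrfPol d) (z : Fin d ⊕ Fin d → ℂ) :
    eval z (geoFy f) = dAt f (prR z) (prR z - prL z) := by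
  unfold geoFy dAt
  rw [map_sum]
  apply Finset.sum_congr rfl
  intro i _
  rw [map_mul, eval_rename, map_sub, eval_X, eval_X, aeval_eq_eval]
  rfl

theorem geo_elim_mem {X Y : Set (SpC d)} {x y : SpC d} (hx : x ∈ X) (hy : y ∈ Y) :
    (Sum.elim x y : Fin d ⊕ Fin d → ℂ) ∈ prodSet X Y := ⟨hx, hy⟩

theorem geo_not_tr {X Y : Set (SpC d)} (hX : IsVar X) (hY : IsVar Y) (h : ¬ GeoTr X Y) :
    (∀ x ∈ X, ∀ y ∈ Y, y - x ∈ tanAt X x) ∨ ∀ x ∈ X, ∀ y ∈ Y, y - x ∈ tanAt Y y := by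
  by_contra hcon
  push Not at hcon
  obtain ⟨⟨x1, hx1, y1, hy1, h1⟩, ⟨x2, hx2, y2, hy2, h2⟩⟩ := hcon
  rw [geo_lin_mem_tanAt] at h1 h2
  push Not at h1 h2
  obtain ⟨f, hf, hf1⟩ := h1
  obtain ⟨g, hg, hg2⟩ := h2
  have hne : ¬ ∀ z ∈ prodSet X Y, eval z (geoFx f * geoFy g) = 0 := by
    intro hall
    rcases ph_isVar_mul (ph_prod_isVar hX hY) _ _ hall with h3 | h3
    · have := h3 _ (geo_elim_mem hx1 hy1)
      rw [geo_eval_Fx] at this
      exact hf1 this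
    · have := h3 _ (geo_elim_mem hx2 hy2)
      rw [geo_eval_Fy] at this
      exact hg2 this
  push Not at hne
  obtain ⟨z, hz, hzne⟩ := hne
  rw [map_mul, geo_eval_Fx, geo_eval_Fy] at hzne
  apply h
  refine ⟨prL z, hz.1, prR z, hz.2, ?_, ?_⟩
  · rw [geo_lin_mem_tanAt]
    intro hall
    exact hzne (by rw [hall f hf, zero_mul])
  · rw [geo_lin_mem_tanAt]
    intro hall
    exact hzne (by rw [hall g hg, mul_zero])

theorem geo_nt_gen {X Y : Set (SpC d)} (h : GeoNT X Y) :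
    GenOn (prodSet X Y) fun z => prR z - prL z ∉ tanAt Y (prR z) := by
  obtain ⟨x, hx, y, hy, h1⟩ := h
  rw [geo_lin_mem_tanAt] at h1
  push Not at h1
  obtain ⟨g, hg, hg1⟩ := h1
  refine ⟨geoFy g, ⟨_, geo_elim_mem hx hy, by rw [geo_eval_Fy]; exact hg1⟩, ?_⟩
  intro z _ hzne
  rw [geo_eval_Fy] at hzne
  rw [geo_lin_mem_tanAt]
  intro hall
  exact hzne (hall g hg)

theorem geo_tr_gen {X Y : Set (SpC d)} (hX : IsVar X) (hY : IsVar Y) (h : GeoTr X Y) :
    GenOn (prodSet X Y) fun z =>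
      prR z - prL z ∉ tanAt X (prL z) ∧ prR z - prL z ∉ tanAt Y (prR z) := by
  obtain ⟨x, hx, y, hy, h1, h2⟩ := h
  rw [geo_lin_mem_tanAt] at h1 h2
  push Not at h1 h2
  obtain ⟨f, hf, hf1⟩ := h1
  obtain ⟨g, hg, hg1⟩ := h2
  refine ⟨geoFx f * geoFy g, ⟨_, geo_elim_mem hx hy, by
    rw [map_mul, geo_eval_Fx, geo_eval_Fy]; exact mul_ne_zero hf1 hg1⟩, ?_⟩
  intro z _ hzne
  rw [map_mul, geo_eval_Fx, geo_eval_Fy] at hzne
  constructor
  · rw [geo_lin_mem_tanAt]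
    intro hall
    exact hzne (by rw [hall f hf, zero_mul])
  · rw [geo_lin_mem_tanAt]
    intro hall
    exact hzne (by rw [hall g hg, mul_zero])

theorem geo_tan_dim_gen {Y : Set (SpC d)} (hY : IsVar Y) :
    GenOn Y fun y => finrank ℂ (tanAt Y y) = vdim Y := by
  obtain ⟨p, hp, rfl⟩ := hY
  obtain ⟨h, hh, hopen⟩ := ph_tan_open p hp
  refine ⟨h, ph_exists_point_ne p hp h hh, fun x hx hne => ?_⟩
  show finrank ℂ (tanAt (zeroLocus ℂ p) x) = vdim (zeroLocus ℂ p)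
  rw [geo_tanAt_prime p hp]
  exact hopen x hx hne

theorem geo_tan_pin {Y : Set (SpC d)} (hY : IsVar Y) :
    ∃ (y₀ : SpC d) (W : Submodule ℂ (SpC d)), finrank ℂ W ≤ vdim Y ∧
      ∀ x : SpC d, (∀ y ∈ Y, y - x ∈ tanAt Y y) → x - y₀ ∈ W := by
  obtain ⟨h, ⟨y₀, hy₀, hne⟩, hgen⟩ := geo_tan_dim_gen hY
  refine ⟨y₀, tanAt Y y₀, (hgen y₀ hy₀ hne).le, fun x hx => ?_⟩
  have := (tanAt Y y₀).neg_mem (hx y₀ hy₀)
  rwa [neg_sub] at this

theorem geo_span_pin {Y : Set (SpC d)} (hY : IsVar Y) (hnl : vdeg Y ≠ 1) :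
    ∃ (y₀ : SpC d) (W : Submodule ℂ (SpC d)), finrank ℂ W ≤ vdim Y + 1 ∧
      ∀ T : Set (SpC d), InFlat (T ∪ Y) (vdim Y + 1) → ∀ x ∈ T, x - y₀ ∈ W := by
  obtain ⟨y₀, hy₀⟩ := ph_isVar_nonempty Y hY
  have hbig : vdim Y + 1 ≤ finrank ℂ (dirSpan Y) := by
    by_contra hcon
    apply hnl
    apply geo_deg_one_of_inFlat hY
    exact ⟨y₀, dirSpan Y, by omega, geo_sub_flat_dirSpan hy₀⟩
  have key : ∀ T : Set (SpC d), InFlat (T ∪ Y) (vdim Y + 1) →
      finrank ℂ (dirSpan Y) ≤ vdim Y + 1 ∧ ∀ x ∈ T, x - y₀ ∈ dirSpan Y := by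
    rintro T ⟨x₀, W', hW', hsub⟩
    have hle : dirSpan Y ≤ W' := by
      apply Submodule.span_le.2
      rintro v ⟨y, hy, y', hy', rfl⟩
      have : y - y' = (y - x₀) - (y' - x₀) := by abel
      rw [this]
      exact W'.sub_mem (hsub y (Or.inr hy)) (hsub y' (Or.inr hy'))
    have heq : dirSpan Y = W' := Submodule.eq_of_le_of_finrank_le hle (by omega)
    refine ⟨by rw [heq]; exact hW', fun x hx => ?_⟩
    rw [heq]
    have : x - y₀ = (x - x₀) - (y₀ - x₀) := by abel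
    rw [this]
    exact W'.sub_mem (hsub x (Or.inl hx)) (hsub y₀ (Or.inr hy₀))
  by_cases hfin : finrank ℂ (dirSpan Y) ≤ vdim Y + 1
  · exact ⟨y₀, dirSpan Y, hfin, fun T hT => (key T hT).2⟩
  · exact ⟨y₀, ⊥, by simp, fun T hT => absurd (key T hT).1 hfin⟩

end Claimed.Agent.R273
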