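-- KEEP
import Claimed.Agent.R273.GeoLin
import Claimed.Agent.R273.DepAG

/-!
# Row 273, S4/S6a: dimension and degree of the product images `spImg X Y` (sparse-cones.tex l.150-215: "mixed sections", point projection).  Architect helper26.  Prefix `geo_`.

NO flat families, NO Hilbert polynomials, NO fibres of closures: INDUCTION ON `dim X` BY HYPERPLANE SECTIONS OF THE SOURCE.

LEAF GEO-MIX-0 (`geo_translate`, `geo_cone_dim`, `geo_cone_dim_gen`, `geo_img_point`).  ~250 lines.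
  `geo_translate`: `Y - x := (fun y => y - x) '' Y` is irreducible with the same `vdim` (and `vdeg`): `hA (Y - x) D = hA Y D` (substitution `X_i ↦ X_i ± C (x i)` is a degree preserving bijection of the polynomials of degree `≤ D`, compatible with vanishing); closedness/irreducibility: `ph_isVar_zcl_iff` + `Y - x` is the zero set of the translated ideal.  (helper177 needs the same in DEP-CBEZ: share.)
  `geo_cone_dim`: `Y - x ⊆ dcone x Y` (`dep_sub_dcone`, `c = 1`), both irreducible (`dep_dcone_isVar`), `vdim (dcone x Y) ≤ l + 1` (`dep_dcone_vdim_le`), `≥ l` (`ph_vdim_mono`).  If it were `l`: `Y - x = dcone x Y` (`ph_vdim_lt_of_ssubset`), so `c (y - x) ∈ Y - x` for all `c` (`dep_sub_dcone`), i.e. `y + c' (y - x) ∈ Y` for all `c'`: `geo_line_tan`: `y - x ∈ tanAt Y y`.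
  `geo_cone_dim_gen`: `hnt` gives `x₀, y₀`, `f ∈ I(Y)` with `dAt f y₀ (y₀ - x₀) ≠ 0`; `g(x) := dAt f y₀ (y₀ - x)` is a polynomial of degree `≤ 1` in `x`; `g(x) ≠ 0` ⇒ `geo_cone_dim`.
  `geo_img_point`: `spLab ({x} × Y) = prodSet {x} (spCone x Y)`; `zcl (prodSet {x} S) = prodSet {x} (zcl S)`: `⊆` since the right side is closed (`ph_prod_isVar`-free: it is `Zl` of `X (inl i) - C (x i)` and `rename inr '' I(S)`); `⊇`: `F` vanishing on `{x} × S` ⇒ `F(x, ·) ∈ I(S)`.
LEAF GEO-MIX (`geo_mix`).  ~350 lines.  Induction on `k = vdim X`, for all `X`.  `l = vdim Y`, `Z = spImg X Y`.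
  `k = 0`: `X = {x}` (`ph_point_of_vdim_zero`), `GenOn {x} P → P x`; `geo_img_point`, `ph_prod_vdim`, `ph_prod_vdeg`, `ph_point`, `dep_dcone_isVar`.
  `k + 1`: `X = zeroLocus p`; `t : Fin (k+1) → _` with `NPos p t` (`ph_npos_family {p}`); `B` from `ph_gen_section`; `h` the polynomial of the `GenOn` hypothesis; `𝒞` := the components of `insert h p` (finite); `B'` := the values `c` such that `t_last ≡ c` on a member of `𝒞` (at most one for each member).  Choose `c ∉ B ∪ B'`.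
   `𝒲` := all components of `insert (t_last - C c) p`.  The section is proper (`NPos.inj` for `X_last - C c ≠ 0`, Nullstellensatz).  For `W ∈ 𝒲`: `vdim W = k` (`ph_pit`), `W ⊆ X`, `h ≢ 0` on `W` (otherwise `W ⊆` a member `W'` of `𝒞`, same dimension `k` by `ph_pit`, `W = W'`, `c ∈ B'`).  So the hypothesis holds for `W`; induction: `vdim (spImg W Y) = k + l + 1`, `vdeg W * e ≤ vdeg (spImg W Y)`.
   `g̃ := rename inl (t_last - C c)`, `totalDegree ≤ 1`, `g̃ ≢ 0` on `Z` (label `(x, 0)`), `g̃ = 0` on `spImg W Y ⊆ Z` (`geo_img_mono`-type, `ph_zcl_subset_iff`).  `𝒲 ≠ ∅` (`∑ vdeg W = vdeg X ≥ 1`).  `ph_vdim_lt_of_ssubset`: `vdim Z ≥ k + l + 2`; `sp_img_vdim_le`: equality.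
   Each `spImg W Y` is a COMPONENT of `insert g̃ I(Z)`: it lies in a component `C` (`ph_isVar_subset_comp`), `vdim C = vdim Z - 1` (`ph_pit`), equal dimensions, so `C = spImg W Y`.  `W ↦ spImg W Y` is injective (`sp_img_src`).  `ph_bezout_cut`: `∑_W vdeg (spImg W Y) ≤ 1 * vdeg Z`.  `vdeg X * e = ∑_W vdeg W * e`.
GLUE (helper26): `geo_img_dim`, `geo_img_full`, `geo_img_deg`.
CONSUMED from S3b/PROJ (helper299, `Pj*.lean`): `geo_proj_out`, `geo_proj_gen` (GeoProj.lean).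
-/

set_option autoImplicit false

namespace Claimed.Agent.R273

open MvPolynomial Module

variable {d : ℕ}

/-! ### GEO-MIX-0 -/

theorem geo_translate {Y : Set (SpC d)} (hY : IsVar Y) (x : SpC d) :
    IsVar ((fun y => y - x) '' Y) ∧ vdim ((fun y => y - x) '' Y) = vdim Y ∧
      vdeg ((fun y => y - x) '' Y) = vdeg Y := by
  have e : (fun y : SpC d => y - x) = fun y => y + (-x) := by
    funext y
    rw [sub_eq_add_neg]
  rw [e]
  exact ⟨dep_tr_isVar (-x) hY, dep_tr_vdim (-x) Y, dep_tr_vdeg (-x) Y⟩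

theorem geo_cone_dim {Y : Set (SpC d)} (hY : IsVar Y) (x : SpC d)
    (h : ∃ y ∈ Y, y - x ∉ tanAt Y y) : vdim (dcone x Y) = vdim Y + 1 := by
  by_contra hne
  obtain ⟨y, hy, hyt⟩ := h
  apply hyt
  apply geo_line_tan
  intro c
  have := dep_apex hY x hne hy (1 + c)
  have e : x + (1 + c) • (y - x) = y + c • (y - x) := by
    rw [add_smul, one_smul]
    abel
  rwa [e] at this

theorem geo_cone_dim_gen {X Y : Set (SpC d)} (hY : IsVar Y) (hnt : GeoNT X Y) :
    GenOn X fun x => vdim (dcone x Y) = vdim Y + 1 := by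
  obtain ⟨x₀, hx₀, y₀, hy₀, hn⟩ := hnt
  have hn' : ¬ ∀ f ∈ vanishingIdeal ℂ Y, dAt f y₀ (y₀ - x₀) = 0 := hn
  push Not at hn'
  obtain ⟨f, hf, hfne⟩ := hn'
  set g : PrfPol d := ∑ i, C (aeval y₀ (pderiv i f)) * (C (y₀ i) - MvPolynomial.X i) with hg
  have hge : ∀ x : SpC d, eval x g = dAt f y₀ (y₀ - x) := by
    intro x
    simp [hg, dAt]
  refine ⟨g, ⟨x₀, hx₀, by rw [hge]; exact hfne⟩, fun x _ hx => ?_⟩
  apply geo_cone_dim hY x
  refine ⟨y₀, hy₀, fun hmem => hx ?_⟩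
  rw [hge]
  exact hmem f hf

theorem geo_img_point (x : SpC d) (Y : Set (SpC d)) :
    spImg {x} Y = prodSet {x} (dcone x Y) := by
  have hlab : spLab {z : SpC d × SpC d | z.1 ∈ ({x} : Set (SpC d)) ∧ z.2 ∈ Y} = prodSet {x} (spCone x Y) := by
    ext w
    constructor
    · rintro ⟨⟨z1, z2⟩, ⟨hz1, hz2⟩, lam, rfl⟩
      have hz1' : z1 = x := hz1
      subst hz1'
      exact ⟨by simp, ⟨z2, hz2, lam, by funext j; simp⟩⟩
    · rintro ⟨h1, ⟨y, hy, lam, h2⟩⟩
      refine ⟨(x, y), ⟨rfl, hy⟩, lam, ?_⟩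
      funext i
      rcases i with i | i
      · exact congrFun h1 i
      · exact congrFun h2 i
  unfold spImg dcone
  rw [hlab]
  apply Set.Subset.antisymm
  · intro w hw
    rw [ph_mem_zcl] at hw
    refine ⟨?_, ?_⟩
    · rw [Set.mem_singleton_iff]
      funext i
      have := hw (X (Sum.inl i) - C (x i)) (by
        rintro y ⟨hy, -⟩
        have := congrFun hy i
        simp only [map_sub, eval_X, eval_C, sub_eq_zero]
        exact this)
      simpa [sub_eq_zero] using this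
    · rw [ph_mem_zcl]
      intro f hf
      have := hw (rename Sum.inr f) (by
        rintro y ⟨-, hy⟩
        rw [eval_rename]
        exact hf _ hy)
      rwa [eval_rename] at this
  · rintro w ⟨hw1, hw2⟩
    rw [ph_mem_zcl] at hw2 ⊢
    intro F hF
    have hw1' : (fun i => w (Sum.inl i)) = x := hw1
    set s : Fin d ⊕ Fin d → PrfPol d := Sum.elim (fun i => C (x i)) (fun i => X i) with hs
    have he : ∀ v : SpC d, eval v (aeval s F) = eval (Sum.elim x v) F := by
      intro v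
      rw [← ph_eval_pmap]
      congr 2
      funext i
      rcases i with i | i <;> simp [pmap, hs]
    have := hw2 (aeval s F) (by
      intro v hv
      rw [he]
      exact hF _ ⟨by simp, by simpa using hv⟩)
    rw [he] at this
    have e : Sum.elim x (fun j => w (Sum.inr j)) = w := by
      funext i
      rcases i with i | i
      · exact (congrFun hw1' i).symm
      · rfl
    rwa [e] at this

/-! ### GEO-MIX -/

/-- an irreducible variety contained in another one of at most the same dimension is equal to it (any index type) -/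
theorem geo_mix_var_eq {ι : Type*} [Fintype ι] {V W : Set (ι → ℂ)} (hV : IsVar V) (hW : IsVar W)
    (h : V ⊆ W) (hd : vdim W ≤ vdim V) : V = W := by
  apply Set.Subset.antisymm h
  by_contra hno
  obtain ⟨w, hw, hwn⟩ := Set.not_subset.1 hno
  have hne := ph_isVar_nonempty V hV
  obtain ⟨P, hP, rfl⟩ := hV
  rw [ph_mem_zeroLocus] at hwn
  push Not at hwn
  obtain ⟨g, hg, hgw⟩ := hwn
  have := ph_vdim_lt_of_ssubset hW h g (fun x hx => (ph_mem_zeroLocus _ _).1 hx g hg) ⟨w, hw, hgw⟩ hne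
  omega

/-- the base case of `geo_mix` -/
theorem geo_mix_zero {Y : Set (SpC d)} (hY : IsVar Y) (e : ℕ) (X : Set (SpC d)) (hX : IsVar X)
    (hk : vdim X = 0) (hgen : GenOn X fun x => vdim (dcone x Y) = vdim Y + 1 ∧ e ≤ vdeg (dcone x Y)) :
    vdim (spImg X Y) = 0 + vdim Y + 1 ∧ vdeg X * e ≤ vdeg (spImg X Y) := by
  obtain ⟨x, rfl⟩ := ph_point_of_vdim_zero X hX hk
  obtain ⟨x', hx', h1, h2⟩ := geo_gen_exists hgen
  have : x' = x := hx'
  subst this
  have hpt := ph_point x'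
  have hc := dep_dcone_isVar x' hY
  rw [geo_img_point, ph_prod_vdim hpt.1 hc, ph_prod_vdeg hpt.1 hc, hpt.2.1, hpt.2.2, h1]
  exact ⟨by omega, by omega⟩

/-- the induction step of `geo_mix` -/
theorem geo_mix_step {Y : Set (SpC d)} (hY : IsVar Y) (e k : ℕ)
    (ih : ∀ X : Set (SpC d), IsVar X → vdim X = k →
      (GenOn X fun x => vdim (dcone x Y) = vdim Y + 1 ∧ e ≤ vdeg (dcone x Y)) →
      vdim (spImg X Y) = k + vdim Y + 1 ∧ vdeg X * e ≤ vdeg (spImg X Y))
    (X : Set (SpC d)) (hX : IsVar X) (hk : vdim X = k + 1)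
    (hgen : GenOn X fun x => vdim (dcone x Y) = vdim Y + 1 ∧ e ≤ vdeg (dcone x Y)) :
    vdim (spImg X Y) = k + 1 + vdim Y + 1 ∧ vdeg X * e ≤ vdeg (spImg X Y) := by
  classical
  have hX' := hX
  obtain ⟨p, hp, rfl⟩ := hX
  obtain ⟨t, -, ht⟩ := ph_npos_family {p} (fun q hq => by rw [Finset.mem_singleton.1 hq]; exact hp)
    (k + 1) (fun q hq => by rw [Finset.mem_singleton.1 hq]; exact hk)
  replace ht := ht p (Finset.mem_singleton_self p)
  obtain ⟨B, hB⟩ := ph_gen_section p hp t ht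
  obtain ⟨h, hh0, hh⟩ := hgen
  have hG₀ : Zl (p : Set (PrfPol d)) = zeroLocus ℂ p := by
    rw [ph_Zl_eq_zeroLocus, Ideal.span_eq]
  -- the bad values
  set 𝒞 : Finset (Set (SpC d)) := (ph_comps_finite (insert h (p : Set (PrfPol d)))).toFinset with h𝒞
  have h𝒞m : ∀ W, W ∈ 𝒞 ↔ IsCompOf W (insert h (p : Set (PrfPol d))) := fun W => by
    rw [h𝒞, Set.Finite.mem_toFinset]; rfl
  set pt : Set (SpC d) → SpC d := fun W => if hW : W.Nonempty then hW.some else 0 with hpt
  set B' : Finset ℂ := 𝒞.image fun W => eval (pt W) (t (Fin.last k)) with hB'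
  obtain ⟨c, hc⟩ := Infinite.exists_notMem_finset (B ∪ B')
  rw [Finset.mem_union, not_or] at hc
  obtain ⟨hcB, hcB'⟩ := hc
  set g : PrfPol d := t (Fin.last k) - C c with hg
  set 𝒲 : Finset (Set (SpC d)) := (ph_comps_finite (insert g (p : Set (PrfPol d)))).toFinset with h𝒲
  have h𝒲m : ∀ W, W ∈ 𝒲 ↔ IsCompOf W (insert g (p : Set (PrfPol d))) := fun W => by
    rw [h𝒲, Set.Finite.mem_toFinset]; rfl
  have hsum := hB c hcB 𝒲 h𝒲m
  have hgne : ∃ x ∈ zeroLocus ℂ p, eval x g ≠ 0 := by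
    obtain ⟨x, hx, hxc⟩ := ph_fibre_nonempty p hp t ht (fun _ => c + 1)
    refine ⟨x, hx, ?_⟩
    rw [hg, map_sub, hxc, eval_C]
    simp
  have hgdeg : g.totalDegree ≤ 1 := by
    refine (totalDegree_sub _ _).trans ?_
    rw [totalDegree_C]
    exact max_le (ht.lin _) (Nat.zero_le _)
  -- the members of the section
  have hWvar : ∀ W ∈ 𝒲, IsVar W := fun W hW => ph_isCompOf_isVar ((h𝒲m W).1 hW)
  have hWZ : ∀ W ∈ 𝒲, W ⊆ Zl (insert g (p : Set (PrfPol d))) := fun W hW =>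
    ph_isCompOf_subset ((h𝒲m W).1 hW)
  have hWX : ∀ W ∈ 𝒲, W ⊆ zeroLocus ℂ p := fun W hW x hx => by
    rw [← hG₀]
    exact fun f hf => hWZ W hW hx f (Set.mem_insert_of_mem _ hf)
  have hWg : ∀ W ∈ 𝒲, ∀ x ∈ W, eval x g = 0 := fun W hW x hx => hWZ W hW hx g (Set.mem_insert _ _)
  have hWdim : ∀ W ∈ 𝒲, vdim W = k := fun W hW => by
    have := ph_pit _ hX' _ hG₀ g hgne W ((h𝒲m W).1 hW)
    omega
  have hWh : ∀ W ∈ 𝒲, ∃ x ∈ W, eval x h ≠ 0 := by
    intro W hW
    by_contra hcon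
    push Not at hcon
    have hsub : W ⊆ Zl (insert h (p : Set (PrfPol d))) := by
      intro x hx f hf
      rcases hf with rfl | hf
      · exact hcon x hx
      · exact (ph_mem_zeroLocus p x).1 (hWX W hW hx) f hf
    obtain ⟨W', hW', hWW'⟩ := ph_isVar_subset_comp (hWvar W hW) hsub
    have hd' := ph_pit _ hX' _ hG₀ h hh0 W' hW'
    have heq := dep_var_eq (hWvar W hW) (ph_isCompOf_isVar hW') hWW' (by rw [hWdim W hW]; omega)
    apply hcB'
    rw [hB', Finset.mem_image]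
    refine ⟨W, by rw [h𝒞m, heq]; exact hW', ?_⟩
    have hne := ph_isVar_nonempty W (hWvar W hW)
    have hptW : pt W ∈ W := by
      simp only [hpt]
      rw [dif_pos hne]
      exact hne.some_mem
    have := hWg W hW _ hptW
    rw [hg, map_sub, eval_C, sub_eq_zero] at this
    exact this
  have hWih : ∀ W ∈ 𝒲, vdim (spImg W Y) = k + vdim Y + 1 ∧ vdeg W * e ≤ vdeg (spImg W Y) :=
    fun W hW => ih W (hWvar W hW) (hWdim W hW)
      ⟨h, hWh W hW, fun x hx hxh => hh x (hWX W hW hx) hxh⟩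
  -- the image
  have hZ := sp_img_isVar hX' hY
  set Z := spImg (zeroLocus ℂ p) Y with hZdef
  set g' : MvPolynomial (Fin d ⊕ Fin d) ℂ := rename Sum.inl g with hg'
  have hg'deg : g'.totalDegree ≤ 1 := (totalDegree_rename_le _ _).trans hgdeg
  obtain ⟨y₀, hy₀⟩ := ph_isVar_nonempty Y hY
  have hg'ne : ∃ z ∈ Z, eval z g' ≠ 0 := by
    obtain ⟨x, hx, hxg⟩ := hgne
    refine ⟨Sum.elim x ((0 : ℂ) • (y₀ - x)), ph_subset_zcl _ ⟨(x, y₀), ⟨hx, hy₀⟩, 0, rfl⟩, ?_⟩
    rw [hg', eval_rename]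
    exact hxg
  have hWsub : ∀ W ∈ 𝒲, spImg W Y ⊆ Z := fun W hW =>
    ph_zcl_mono (sp_lab_mono fun _ hz => ⟨hWX W hW hz.1, hz.2⟩)
  have hWg' : ∀ W ∈ 𝒲, ∀ z ∈ spImg W Y, eval z g' = 0 := by
    intro W hW
    have : spImg W Y ⊆ Zl {g'} := by
      unfold spImg
      rw [ph_zcl_subset_iff]
      rintro _ ⟨z, ⟨hz1, -⟩, lam, rfl⟩ f hf
      rw [Set.mem_singleton_iff.1 hf, hg', eval_rename]
      exact hWg W hW _ hz1
    exact fun z hz => this hz g' rfl
  have hWimg : ∀ W ∈ 𝒲, IsVar (spImg W Y) := fun W hW => sp_img_isVar (hWvar W hW) hY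
  have hne𝒲 : 𝒲.Nonempty := by
    by_contra hemp
    rw [Finset.not_nonempty_iff_eq_empty] at hemp
    rw [hemp, Finset.sum_empty] at hsum
    have := ph_vdeg_pos _ hX'
    omega
  have hdimZ : vdim Z = k + 1 + vdim Y + 1 := by
    obtain ⟨W, hW⟩ := hne𝒲
    have h1 := ph_vdim_lt_of_ssubset hZ (hWsub W hW) g' (hWg' W hW) hg'ne
      (ph_isVar_nonempty _ (hWimg W hW))
    have h2 : vdim Z ≤ _ := sp_img_vdim_le hX' hY
    rw [(hWih W hW).1] at h1
    rw [hk] at h2
    omega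
  refine ⟨hdimZ, ?_⟩
  obtain ⟨P, hP, hZP⟩ := hZ
  have hZ : IsVar Z := ⟨P, hP, hZP⟩
  have hP₀ : Zl (P : Set (MvPolynomial (Fin d ⊕ Fin d) ℂ)) = Z := by
    rw [ph_Zl_eq_zeroLocus, Ideal.span_eq, hZP]
  have hcomp : ∀ W ∈ 𝒲, IsCompOf (spImg W Y) (insert g' (P : Set (MvPolynomial (Fin d ⊕ Fin d) ℂ))) := by
    intro W hW
    have hsub : spImg W Y ⊆ Zl (insert g' (P : Set (MvPolynomial (Fin d ⊕ Fin d) ℂ))) := by
      intro z hz f hf
      rcases hf with rfl | hf
      · exact hWg' W hW z hz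
      · have : z ∈ Zl (P : Set (MvPolynomial (Fin d ⊕ Fin d) ℂ)) := by
          rw [hP₀]; exact hWsub W hW hz
        exact this f hf
    obtain ⟨C', hC', hsubC⟩ := ph_isVar_subset_comp (hWimg W hW) hsub
    have hd' := ph_pit Z hZ _ hP₀ g' hg'ne C' hC'
    have heq := geo_mix_var_eq (hWimg W hW) (ph_isCompOf_isVar hC') hsubC (by
      rw [(hWih W hW).1]; omega)
    rw [heq]
    exact hC'
  have hinj : Set.InjOn (fun W => spImg W Y) (𝒲 : Set (Set (SpC d))) := by
    intro W hW W' hW' heq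
    exact sp_img_src (hWvar W hW) hY (hWvar W' hW') hY heq
  have hbez := ph_bezout_cut Z hZ _ hP₀ g' hg'ne (𝒲.image fun W => spImg W Y) (by
    intro C' hC'
    obtain ⟨W, hW, rfl⟩ := Finset.mem_image.1 hC'
    exact hcomp W hW)
  rw [Finset.sum_image hinj] at hbez
  calc vdeg (zeroLocus ℂ p) * e = ∑ W ∈ 𝒲, vdeg W * e := by rw [← hsum, Finset.sum_mul]
    _ ≤ ∑ W ∈ 𝒲, vdeg (spImg W Y) := Finset.sum_le_sum fun W hW => (hWih W hW).2
    _ ≤ g'.totalDegree * vdeg Z := hbez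
    _ ≤ 1 * vdeg Z := Nat.mul_le_mul_right _ hg'deg
    _ = vdeg Z := one_mul _

/-- **MIXED SECTIONS**: if the cone over `Y` from the general point of `X` has full dimension and degree `≥ e`, then the product image has dimension `dim X + dim Y + 1` and degree `≥ e deg X`. -/
theorem geo_mix {Y : Set (SpC d)} (hY : IsVar Y) (e : ℕ) : ∀ (k : ℕ) (X : Set (SpC d)), IsVar X →
    vdim X = k → (GenOn X fun x => vdim (dcone x Y) = vdim Y + 1 ∧ e ≤ vdeg (dcone x Y)) →
    vdim (spImg X Y) = k + vdim Y + 1 ∧ vdeg X * e ≤ vdeg (spImg X Y) := by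
  intro k
  induction k with
  | zero => exact fun X hX hk hgen => geo_mix_zero hY e X hX hk hgen
  | succ k ih => exact fun X hX hk hgen => geo_mix_step hY e k ih X hX hk hgen

/-! ### glue -/

theorem geo_img_dim {X Y : Set (SpC d)} (hX : IsVar X) (hY : IsVar Y) (hnt : GeoNT X Y) :
    vdim (spImg X Y) = vdim X + vdim Y + 1 :=
  (geo_mix hY 0 (vdim X) X hX rfl
    (geo_gen_mono (geo_cone_dim_gen hY hnt) fun _ _ h => ⟨h, Nat.zero_le _⟩)).1

end Claimed.Agent.R273
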