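-- KEEP
import Claimed.Agent.R273.GeoLin
import Claimed.Agent.R273.PjTop

/-!
# Row 273: what S4/S6a (product images, diagonal pairs; helper60's `GdHalfStmt`) consumes from poly:projection (S3b, helper299, `Pj*.lean`).  Architect helper26.

`DepHalfGood p Y := ∀ t, DepRootLE p Y Y t → vdeg Y ≤ 2 t vdeg (dcone p Y)` (DepDefs.lean).
* `geo_half_out` (`p ∉ Y`): PROVED from `pj_dep_proj0`.
* LEAF GEO-HALF-GEN (`geo_half_gen`): the general point of a nonlinear `Y` is half-good.  ~250 lines, from helper299's `pj_model_exists`, `pj_main` (black boxes).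
  `Y = zeroLocus ℂ p`, `k = vdim Y`, `t : Fin k → _` with `NPos p t` (`ph_npos_family {p}`, or `ph_exists_npos` + `ph_vdim_of_npos`).
  (1) `U := {e | ∃ (α : Fin k → ℂ) (β : ℂ), e - ∑ j, C (α j) * t j - C β ∈ p}`.  Some coordinate `X i ∉ U`: otherwise `x_i = β_i + ∑_j α_{ij} t_j(x)` on `Y`, so `Y ⊆ β + span (α_{·j})_j`, `InFlat Y k`, `geo_deg_one_of_inFlat`: `vdeg Y = 1`, against `h2`.
  (2) `ρ := Fin.cons (X i) t`; `pj_model_exists p hp ρ _ ht`: `μ, b`, `hM : PjModel Y ρ μ b`, `hrel : aeval ρ G ∈ p ↔ μ ∣ G`.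
  (3) `2 ≤ μ.totalDegree`: `μ` is not constant (irreducible).  If `μ.totalDegree = 1`: `μ = C a * X 0 + ∑_j C (c j) * X j.succ + C γ` (monomials of degree `≤ 1`; cf. `pj_eval_line`), `aeval ρ μ ∈ p`.  `a = 0` contradicts `NPos.inj` (`μ = rename Fin.succ μ'`, `μ' ≠ 0`, `aeval t μ' ∈ p`); `a ≠ 0` gives `X i ∈ U`.
  (4) some `pderiv j μ ≠ 0` (a polynomial with all partial derivatives zero is constant in characteristic `0`), `totalDegree (pderiv j μ) < totalDegree μ`, so `¬ μ ∣ pderiv j μ`, `h := aeval ρ (pderiv j μ) ∉ p`; Nullstellensatz: `h ≢ 0` on `Y`.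
  (5) for `o ∈ Y`, `h(o) ≠ 0`: `¬ OrdGE (pmap ρ o) 2 μ` (order `≥ 2` kills the first partial derivatives: `PhOrd.lean`: `ph_ord_pderiv`-type lemma, or unfold `OrdGE` = membership in `𝔪^2`, `pderiv` of a product of two elements of `𝔪` lies in `𝔪`).
      `pj_main hY _ hM o 1 _ τ hτ : b * (μ.totalDegree - 1) ≤ τ * vdeg (pjK o Y)`; `vdeg Y ≤ b * μ.totalDegree ≤ 2 * (b * (μ.totalDegree - 1))`.  (`dcone = pjK`, `DepRootLE o Y Y τ = PjRayLE o Y τ` by `rfl`: PjTop.lean.)
-/

set_option autoImplicit false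

namespace Claimed.Agent.R273

open MvPolynomial Module

variable {d : ℕ}

theorem geo_half_out {Y : Set (SpC d)} (hY : IsVar Y) (p : SpC d) (hp : p ∉ Y) :
    DepHalfGood p Y := by
  intro t ht
  have h := pj_dep_proj0 Y hY p hp t ht
  calc vdeg Y ≤ t * vdeg (dcone p Y) := h
    _ ≤ 2 * (t * vdeg (dcone p Y)) := by omega
    _ = 2 * t * vdeg (dcone p Y) := by ring

/-- a polynomial of degree `≤ 1` is affine -/
theorem geo_hg_affine {κ : Type*} [Fintype κ] (f : MvPolynomial κ ℂ) (hf : f.totalDegree ≤ 1) :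
    ∃ (γ : ℂ) (c : κ → ℂ), f = C γ + ∑ j, c j • X j := by
  have h1 : f = homogeneousComponent 0 f + homogeneousComponent 1 f := by
    conv_lhs => rw [← sum_homogeneousComponent f]
    rcases Nat.le_one_iff_eq_zero_or_eq_one.1 hf with h | h
    · rw [h, Finset.sum_range_one, homogeneousComponent_eq_zero 1 f (by omega), add_zero]
    · rw [h, Finset.sum_range_succ, Finset.sum_range_one]
  have h2 : homogeneousComponent 1 f ∈ Submodule.span ℂ (Set.range (X : κ → MvPolynomial κ ℂ)) := by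
    rw [← homogeneousSubmodule_one_eq_span_X]
    exact homogeneousComponent_mem 1 f
  obtain ⟨c, hc⟩ := (Submodule.mem_span_range_iff_exists_fun ℂ).1 h2
  exact ⟨coeff 0 f, c, by rw [hc, ← homogeneousComponent_zero]; exact h1⟩

/-- a nonconstant polynomial has a nonzero partial derivative, which it does not divide -/
theorem geo_hg_pderiv {κ : Type*} (μ : MvPolynomial κ ℂ) (hμ : 1 ≤ μ.totalDegree) :
    ∃ j, ¬ μ ∣ pderiv j μ := by
  classical
  have hμ0 : μ ≠ 0 := by
    rintro rfl
    simp at hμ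
  obtain ⟨m, hm, hdeg⟩ : ∃ m ∈ μ.support, μ.totalDegree = m.degree := by
    have := Finset.exists_mem_eq_sup μ.support (support_nonempty.2 hμ0) (fun s => s.sum fun _ e => e)
    obtain ⟨m, hm, h⟩ := this
    exact ⟨m, hm, h⟩
  obtain ⟨j, hj⟩ : ∃ j, m j ≠ 0 := by
    by_contra h
    push Not at h
    have : m = 0 := Finsupp.ext h
    rw [this] at hdeg
    simp at hdeg
    omega
  refine ⟨j, fun hdvd => ?_⟩
  have hne : pderiv j μ ≠ 0 := by
    intro h0
    have h1 := coeff_pderiv μ (m - Finsupp.single j 1) (i := j)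
    rw [h0, coeff_zero] at h1
    have e : m - Finsupp.single j 1 + Finsupp.single j 1 = m := by
      apply tsub_add_cancel_of_le
      rw [Finsupp.single_le_iff]
      omega
    rw [e] at h1
    have h2 : coeff m μ ≠ 0 := MvPolynomial.mem_support_iff.1 hm
    have h3 : ((((m - Finsupp.single j 1 : κ →₀ ℕ) j : ℕ)) : ℂ) + 1 ≠ 0 := by
      exact Nat.cast_add_one_ne_zero _
    exact mul_ne_zero h2 h3 h1.symm
  have hlt : (pderiv j μ).totalDegree < μ.totalDegree := by
    obtain ⟨n, hn, hdn⟩ : ∃ n ∈ (pderiv j μ).support, (pderiv j μ).totalDegree = n.degree := by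
      have := Finset.exists_mem_eq_sup (pderiv j μ).support (support_nonempty.2 hne)
        (fun s => s.sum fun _ e => e)
      obtain ⟨n, hn, h⟩ := this
      exact ⟨n, hn, h⟩
    rw [MvPolynomial.mem_support_iff, coeff_pderiv] at hn
    have h1 : n + Finsupp.single j 1 ∈ μ.support := MvPolynomial.mem_support_iff.2 (left_ne_zero_of_mul hn)
    have h2 := le_totalDegree h1
    have h3 : ((n + Finsupp.single j 1).sum fun _ e => e) = n.degree + 1 := by
      change (n + Finsupp.single j 1).degree = _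
      rw [map_add, Finsupp.degree_single]
    omega
  obtain ⟨q, hq⟩ := hdvd
  have hq0 : q ≠ 0 := by
    rintro rfl
    rw [mul_zero] at hq
    exact hne hq
  have := totalDegree_mul_of_isDomain hμ0 hq0
  rw [← hq] at this
  omega

theorem geo_half_gen {Y : Set (SpC d)} (hY : IsVar Y) (h2 : 2 ≤ vdeg Y) :
    GenOn Y fun p => DepHalfGood p Y := by
  classical
  obtain ⟨p, hp, rfl⟩ := id hY
  obtain ⟨k, t, _, ht⟩ := ph_exists_npos p hp.ne_top
  have hk : vdim (zeroLocus ℂ p) = k := ph_vdim_of_npos p hp t ht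
  -- (1)
  obtain ⟨i, hi⟩ : ∃ i : Fin d, ¬ ∃ (α : Fin k → ℂ) (β : ℂ),
      (X i : MvPolynomial (Fin d) ℂ) - ∑ j, C (α j) * t j - C β ∈ p := by
    by_contra hall
    push Not at hall
    choose α β hαβ using hall
    have hflat : InFlat (zeroLocus ℂ p) (vdim (zeroLocus ℂ p)) := by
      refine ⟨β, Submodule.span ℂ (Set.range fun j : Fin k => fun i : Fin d => α i j), ?_, ?_⟩
      · rw [hk]
        exact (finrank_range_le_card _).trans (by simp)
      · intro x hx
        rw [Submodule.mem_span_range_iff_exists_fun]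
        refine ⟨fun j => eval x (t j), ?_⟩
        funext i
        have h1 := (ph_mem_zeroLocus p x).1 hx _ (hαβ i)
        simp only [map_sub, map_sum, map_mul, eval_X, eval_C] at h1
        simp only [Finset.sum_apply, Pi.smul_apply, smul_eq_mul, Pi.sub_apply]
        have h3 : ∑ j, eval x (t j) * α i j = ∑ j, α i j * eval x (t j) :=
          Finset.sum_congr rfl (fun j _ => mul_comm _ _)
        rw [h3]
        linear_combination -h1
    have := geo_deg_one_of_inFlat hY hflat
    omega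
  -- (2)
  set ρ : Fin (k + 1) → MvPolynomial (Fin d) ℂ := Fin.cons (X i) t with hρ
  have hρs : (fun j : Fin k => ρ j.succ) = t := by
    funext j
    simp [hρ]
  obtain ⟨μ, b, hM, _, hrel⟩ := pj_model_exists p hp ρ (by simp [hρ]) (by rw [hρs]; exact ht)
  -- (3)
  have hdeg : 2 ≤ μ.totalDegree := by
    by_contra hlt
    obtain ⟨γ, c, hμ⟩ := geo_hg_affine μ (by omega)
    have hmem : aeval ρ μ ∈ p := (hrel μ).2 dvd_rfl
    have e1 : aeval ρ μ = C γ + (c 0 • X i + ∑ j : Fin k, c j.succ • t j) := by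
      rw [hμ, map_add, map_sum, Fin.sum_univ_succ]
      simp [hρ]
    by_cases hc : c 0 = 0
    · have e2 : aeval t (C γ + ∑ j : Fin k, c j.succ • X j : MvPolynomial (Fin k) ℂ) = aeval ρ μ := by
        rw [e1, hc, zero_smul, zero_add]
        simp
      have h0 := ht.inj _ (e2 ▸ hmem)
      have e3 : μ = rename Fin.succ (C γ + ∑ j : Fin k, c j.succ • X j : MvPolynomial (Fin k) ℂ) := by
        rw [hμ, Fin.sum_univ_succ, hc, zero_smul, zero_add]
        simp
      rw [h0, map_zero] at e3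
      exact hM.irr.ne_zero e3
    · apply hi
      refine ⟨fun j => -(c j.succ / c 0), -(γ / c 0), ?_⟩
      have e4 : (X i : MvPolynomial (Fin d) ℂ) - ∑ j, C (-(c j.succ / c 0)) * t j - C (-(γ / c 0))
          = C (c 0)⁻¹ * aeval ρ μ := by
        rw [e1, mul_add, mul_add, Finset.mul_sum, ← C_mul, smul_eq_C_mul, ← mul_assoc, ← C_mul,
          inv_mul_cancel₀ hc, C_1, one_mul]
        have e5 : ∀ j : Fin k, C (c 0)⁻¹ * c j.succ • t j = - (C (-(c j.succ / c 0)) * t j) := by
          intro j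
          rw [smul_eq_C_mul, ← mul_assoc, ← C_mul, ← neg_mul, ← C_neg]
          congr 2
          field_simp
        rw [Finset.sum_congr rfl (fun j _ => e5 j), Finset.sum_neg_distrib]
        have e6 : (C (-(γ / c 0)) : MvPolynomial (Fin d) ℂ) = - C ((c 0)⁻¹ * γ) := by
          rw [← C_neg]
          congr 1
          field_simp
        rw [e6]
        ring
      rw [e4]
      exact p.mul_mem_left _ hmem
  -- (4)
  obtain ⟨j, hj⟩ := geo_hg_pderiv μ (by omega)
  have hnot : aeval ρ (pderiv j μ) ∉ p := fun h => hj ((hrel _).1 h)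
  refine ⟨aeval ρ (pderiv j μ), ?_, ?_⟩
  · by_contra hall
    push Not at hall
    apply hnot
    rw [← ph_vanishing_prime p hp, ph_mem_vanishingIdeal]
    exact hall
  -- (5)
  · intro o ho hne τ hτ
    rw [pj_eval_aeval] at hne
    have hr : ¬ OrdGE (pmap ρ o) (1 + 1) μ := by
      intro h
      exact hne ((ph_ord_one_iff _ _).1 (ph_ord_pderiv h j))
    have hmain := pj_main hY (by rw [hk]; simp) hM o 1 hr τ hτ
    have h4 : μ.totalDegree ≤ 2 * (μ.totalDegree - 1) := by omega
    calc vdeg (zeroLocus ℂ p) ≤ b * μ.totalDegree := hM.deg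
      _ ≤ b * (2 * (μ.totalDegree - 1)) := Nat.mul_le_mul_left _ h4
      _ = 2 * (b * (μ.totalDegree - 1)) := by ring
      _ ≤ 2 * (τ * vdeg (pjK o (zeroLocus ℂ p))) := Nat.mul_le_mul_left _ hmain
      _ = 2 * τ * vdeg (dcone o (zeroLocus ℂ p)) := by rw [mul_assoc]; rfl

end Claimed.Agent.R273
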