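-- KEEP
import Claimed.Agent.R273.GeoLin

/-!
# Row 273, S4 = secants.tex, Lemma geo:secants (generic part), CONE FORM, no charts.  Architect helper26.  Prefix `geo_`.

`X, Y, Y' ⊆ ℂ^d` irreducible, `k = vdim X`, `l = vdim Y`.  `z ∈ prodSet X Y` is the pair `(x, y) = (prL z, prR z)`, `u = y - x`.
`ψ = spPsi d : (x, y, λ) ↦ (x, λ (y - x))` on `V = prodSet (prodSet X Y) univ ⊆ ℂ^{(d ⊕ d) ⊕ 1}`, `spImg X Y = zcl (ψ V)` (`sp_img_eq_pmap`).

LEAF GEO-SEC-T (general tangent tools: `geo_tan_prod_sub`, `geo_tan_prod_left`, `geo_tan_push`, `geo_G1`, `geo_gen_image`).  ~250 lines.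
  `geo_tan_prod_sub`: `f ∈ I(X)` ⇒ `rename inl f ∈ I(prodSet X Y)`, `dAt (rename inl f) z v = dAt f (prL z) (prL v)` (`pderiv` of `rename`: `MvPolynomial.pderiv_rename`/induction; or chain rule `ph_dAt_aeval` with `rename inl f = aeval (X ∘ inl) f`, `ph_dAt_X`).
  `geo_tan_prod_left`: `F ∈ I(prodSet X Y)`, `y = prR z ∈ Y`: `F_y := aeval (Sum.elim X (fun j => C (y j))) F ∈ I(X)`; chain rule: `dAt F_y x ξ = dAt F z (Sum.elim ξ 0)`.
  `geo_tan_push`: `f ∈ I(zcl (ψ V))` ⇒ `aeval ψ f ∈ I(V)`; `ph_dAt_aeval`.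
  `geo_G1`: `V = zeroLocus p`, `p` prime, `I(V) = p`; `ph_G1_closed p hp ψ`, `ph_zcl_image` (`zcl (ψ V) = zeroLocus (comap)`, the comap is prime, so `tanAt (zcl ..) = tanSp (comap)`: `geo_tanAt_prime`-type argument for general index types).
  `geo_gen_image`: `GenOn V (P ∘ ψ)` via `h`; `geo_image_dense_open hV h _ ψ` gives `h'`.
LEAF GEO-SEC-R (`geo_img_mono`, `geo_img_eq_of_root`, `geo_root_of_img`).  ~250 lines.
  `geo_img_eq_of_root`: let `H` be the polynomial of `hroot`.  A polynomial `f` vanishing on `spImg X Y'`: for `(x,y) ∈ X × Y` with `H ≠ 0` and all `λ`: `(x, λ (y - x)) = (x, (λ/c)(w - x))` is a label of `X × Y'`, so `f = 0` there; hence `H(x,y) · f(ψ(x,y,λ)) = 0` on the irreducible `V`, `f ∘ ψ = 0` on `V`.  So `spImg X Y ⊆ spImg X Y'`.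
    Dimensions: `vdim (spImg X Y) = k + l + 1` (`geo_img_dim`, GeoMix.lean is NOT imported here: it is a HYPOTHESIS `hdimZ` of this lemma), `vdim (spImg X Y') ≤ k + vdim Y' + 1 ≤ k + l + 1` (`sp_img_vdim_le`); both irreducible (`sp_img_isVar`): equal (`ph_vdim_lt_of_ssubset`).
  `geo_root_of_img`: `ph_image_dense` for `V_Y = prodSet (prodSet X Y) univ` and `ψ`: `h'`.  `spImg X Y' ⊆`.. `=` `spImg X Y`, so `h' ∘ ψ ≢ 0` on `prodSet (prodSet X Y') univ`: `h'(x₁, λ₁ (y₁' - x₁)) ≠ 0`; as a polynomial in `λ` it is nonzero, so there is `λ₀ ≠ 0` with `h'(x₁, λ₀ (y₁' - x₁)) ≠ 0`.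
    `H := spPull λ₀ h'` (`sp_eval_pull`).  For `(x,y') ∈ X × Y'`, `H ≠ 0`, `y' ≠ x`: `(x, λ₀ (y' - x)) = ψ(x, y, μ)`, `y ∈ Y`, `μ (y - x) = λ₀ (y' - x) ≠ 0`, so `μ ≠ 0`, `c := λ₀ / μ`.
LEAF GEO-SEC-A (`geo_sec_a`).  ~250 lines.  `Z := spImg X Y = spImg X Y'` (`geo_img_eq_of_root`).  `geo_G1` for `V`, `ψ`: polynomial `h` on `ℂ^{(d⊕d)⊕1}`, `h ≢ 0` on `V`; choose `λ₀ ≠ 0` with `h(·,·,λ₀) ≢ 0` on `prodSet X Y`.  At `z = (x,y)` with `h(x,y,λ₀) ≠ 0` and a root `w = x + c u`, `c ≠ 0, 1`: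
    `ζ := (x, λ₀ u) = ψ(x,y,λ₀) = ψ(x,w,λ₀/c)`.  For `ξ ∈ T_xX`: `(ξ,0,0)` is tangent to `prodSet (prodSet X Y) univ` at `(x,y,λ₀)` and to `prodSet (prodSet X Y') univ` at `(x,w,λ₀/c)` (`geo_tan_prod_left` twice); `geo_tan_push`: `(ξ, -λ₀ ξ)` and `(ξ, -(λ₀/c) ξ)` lie in `T_ζ Z`; the difference `(0, λ₀ (1/c - 1) ξ)` too.
    `geo_G1`: it is `dψ(ξ', η, μ)`, `ξ' ∈ T_xX`, `η ∈ T_yY` (`geo_tan_prod_sub`): `ξ' = 0`, `λ₀ η + μ u = λ₀ (1/c - 1) ξ`.  Divide.
    DIFFERENTIAL: `dAt (spPsi d (inl i)) (x,y,λ) (ξ,η,μ) = ξ_i`, `dAt (spPsi d (inr i)) (x,y,λ) (ξ,η,μ) = μ (y_i - x_i) + λ (η_i - ξ_i)` (`ph_dAt_mul`, `ph_dAt_X`, `ph_dAt_add`).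
LEAF GEO-SEC-B1 (`geo_euler_cone`).  ~200 lines.  If `vdim T = 0`: a point (`ph_point_of_vdim_zero`), `v` := that point.  Otherwise at the general `x ∈ T`: `1 ≤ vdim T ≤ finrank (tanAt T x)` (`ph_tan_ge`) and `tanAt T x ≤ span {x}`, so `x ∈ tanAt T x` (`x ≠ 0`, equality of dimensions).
    So for `f ∈ I(T)`: `E f := ∑ X_i ∂_i f` vanishes at the general point of `T`, hence on `T` (`geo_gen_closed`): `I(T)` is stable under `E`.  `E` multiplies the homogeneous component of degree `j` by `j`; applying `∏_{i ≠ j, i ≤ deg f} (E - i)` shows that every homogeneous component of `f` lies in `I(T)` (or Vandermonde).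
    Hence `c • x ∈ T` for `x ∈ T`, `c ∈ ℂ` (`f(c x) = ∑ c^j f_j(x)`; `T` closed).  Take `v ∈ T`, `v ≠ 0`: the line `ℂ v = geoFlat 0 (span {v})`-analogue is irreducible, closed, of dimension `1`, contained in `T`; and `vdim T ≤ finrank (tanAt T x) ≤ 1`: equal (`ph_vdim_lt_of_ssubset`).
    (For the line use `ph_isVar_zcl_image` of `c ↦ c v` and `ph_vdim`: or avoid it: ALTERNATIVE: for two linear forms `α, β`: the polynomial `α(x) β(v) - α(v) β(x)` vanishes on `ℂ v`.. the direct route above is recommended; the statement is for `Fin d`, so `geo_flat_isVar` applies.)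
LEAF GEO-SEC-B2 (`geo_sec_b_half`).  ~250 lines.  `geo_gen_prod_right h1` and `geo_tan_dim_gen`: it suffices to treat ONE `y ∈ Y` with `GenOn X (fun x => ∀ ξ ∈ T_xX, ξ ∈ W + ℂ (y - x))`, `W := tanAt Y y`.  `q : ℂ^d → ℂ^d` a linear projection with kernel `W` (`Submodule.exists_isCompl`, `Submodule.linearProjOfIsCompl`, composed with the inclusion), `q² = q`.
    `ψ_j := ∑_i C (q (e_i) j) (X_i - C (y i))`, `pmap ψ x = q (x - y)`, `dAt (ψ j) x ξ = q ξ j`.  `T := zcl (pmap ψ '' X)` irreducible.  `geo_G1`: at the general `x`: `tanAt T (ψ x) = q (T_xX) ⊆ q (W + ℂ (y - x)) = ℂ ψ(x)`.  `geo_gen_image`: `GenOn T (fun t => tanAt T t ≤ span {t})`.  `geo_euler_cone`: `T ⊆ ℂ v`.  For `x ∈ X`: `x - y = (x - y - q (x - y)) + q (x - y) ∈ W + ℂ v`.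
LEAF GEO-SEC-B3 (`geo_sec_b`).  ~250 lines, linear algebra + GeoLin.  `k = vdim X = vdim Y`.  From the two halves: (1) for the general `y ∈ Y` a subspace `F_y = tanAt Y y + ℂ v` of dimension `≤ k + 1` with `X ⊆ y + F_y`; (2) symmetric (apply the half to `(Y, X)`; `geo_gen_swap`; `prR - prL` changes sign, absorb it in `c`).
    So `finrank (dirSpan X) ≤ k + 1`, `finrank (dirSpan Y) ≤ k + 1`.  (a) `finrank (dirSpan X) = k + 1`: then `dirSpan X = F_y` for the general `y`, so with `x₀ ∈ X`: `y - x₀ ∈ F_y = dirSpan X`: `GenOn Y (y ∈ geoFlat x₀ (dirSpan X))`, closed condition (`geo_flat_isVar`, `geo_gen_closed`): `Y ⊆ x₀ + dirSpan X`.  (b) the same with `X, Y` exchanged.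
    (c) both `≤ k`: `X = geoFlat x₀ X₀`, `Y = geoFlat y₀ Y₀` (`geo_var_eq_flat`), tangent spaces `X₀`, `Y₀` (`geo_tanAt_flat`); `h1` at one pair `(x,y)`: `X₀ ≤ Y₀ + ℂ (y - x)`; the flat `y + (Y₀ + ℂ (y - x))` contains both.
GLUE (helper26): `geo_tri`, `geo_same_img`.
-/

set_option autoImplicit false

namespace Claimed.Agent.R273

open MvPolynomial Module

variable {d : ℕ}

/-- a FURTHER ROOT on `Y'`: a point of `Y'` on the line `x y`, different from `x` and `y` -/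
def GeoRoot (Y' : Set (SpC d)) (z : Fin d ⊕ Fin d → ℂ) : Prop :=
  ∃ w ∈ Y', ∃ c : ℂ, c ≠ 0 ∧ c ≠ 1 ∧ w - prL z = c • (prR z - prL z)

/-- no point of `Y'` on the line `x y` except possibly `x` and `y` -/
def GeoNoRoot (Y' : Set (SpC d)) (z : Fin d ⊕ Fin d → ℂ) : Prop :=
  ∀ w ∈ Y', w ≠ prL z → (∃ c : ℂ, w - prL z = c • (prR z - prL z)) → w = prR z

/-- projected tangent inclusion `T_xX ⊆ T_yY + ℂ (y - x)` -/
def GeoTanLE (X Y : Set (SpC d)) (z : Fin d ⊕ Fin d → ℂ) : Prop :=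
  ∀ ξ ∈ tanAt X (prL z), ∃ η ∈ tanAt Y (prR z), ∃ c : ℂ, ξ = η + c • (prR z - prL z)

/-- projected tangent inclusion `T_yY ⊆ T_xX + ℂ (y - x)` -/
def GeoTanGE (X Y : Set (SpC d)) (z : Fin d ⊕ Fin d → ℂ) : Prop :=
  ∀ η ∈ tanAt Y (prR z), ∃ ξ ∈ tanAt X (prL z), ∃ c : ℂ, η = ξ + c • (prR z - prL z)

/-! ### GEO-SEC-T -/

section tools

variable {ι κ : Type*} [Fintype ι] [Fintype κ]

theorem geos_mem_tanAt (V : Set (ι → ℂ)) (z v : ι → ℂ) :
    v ∈ tanAt V z ↔ ∀ f : MvPolynomial ι ℂ, (∀ x ∈ V, eval x f = 0) → dAt f z v = 0 := by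
  constructor
  · intro h f hf
    exact h f ((ph_mem_vanishingIdeal V f).2 hf)
  · intro h f hf
    exact h f ((ph_mem_vanishingIdeal V f).1 hf)

theorem geo_dAt_inl (f : MvPolynomial ι ℂ) (z v : ι ⊕ κ → ℂ) :
    dAt (rename Sum.inl f) z v = dAt f (prL z) (prL v) := by
  rw [rename_eq_aeval, ph_dAt_aeval]
  simp only [Function.comp_apply, aeval_X, ph_dAt_X]
  rfl

theorem geo_dAt_inr (f : MvPolynomial κ ℂ) (z v : ι ⊕ κ → ℂ) :
    dAt (rename Sum.inr f) z v = dAt f (prR z) (prR v) := by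
  rw [rename_eq_aeval, ph_dAt_aeval]
  simp only [Function.comp_apply, aeval_X, ph_dAt_X]
  rfl

theorem geo_tan_prod_sub (X : Set (ι → ℂ)) (Y : Set (κ → ℂ)) (z v : ι ⊕ κ → ℂ)
    (hv : v ∈ tanAt (prodSet X Y) z) : prL v ∈ tanAt X (prL z) ∧ prR v ∈ tanAt Y (prR z) := by
  rw [geos_mem_tanAt] at hv
  constructor
  · rw [geos_mem_tanAt]
    intro f hf
    rw [← geo_dAt_inl]
    exact hv _ fun x hx => by rw [geo_eval_inl]; exact hf _ hx.1
  · rw [geos_mem_tanAt]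
    intro f hf
    rw [← geo_dAt_inr]
    exact hv _ fun x hx => by rw [geo_eval_inr]; exact hf _ hx.2

theorem geo_tan_prod_left (X : Set (ι → ℂ)) (Y : Set (κ → ℂ)) (z : ι ⊕ κ → ℂ)
    (hz : z ∈ prodSet X Y) (ξ : ι → ℂ) (hξ : ξ ∈ tanAt X (prL z)) :
    Sum.elim ξ 0 ∈ tanAt (prodSet X Y) z := by
  rw [geos_mem_tanAt] at hξ ⊢
  intro F hF
  have h1 := hξ (aeval (Sum.elim MvPolynomial.X (fun j => C (prR z j))) F) (fun x hx => by
    rw [geo_eval_fixR]
    exact hF _ ⟨hx, hz.2⟩)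
  rw [ph_dAt_aeval] at h1
  have e1 : (fun j : ι ⊕ κ => aeval (prL z)
      ((Sum.elim MvPolynomial.X (fun j => C (prR z j)) : ι ⊕ κ → MvPolynomial ι ℂ) j)) = z := by
    funext j
    rcases j with j | j
    · simp only [Sum.elim_inl, aeval_X]; rfl
    · simp only [Sum.elim_inr, aeval_C]; rfl
  have e2 : (fun j : ι ⊕ κ => dAt
      ((Sum.elim MvPolynomial.X (fun j => C (prR z j)) : ι ⊕ κ → MvPolynomial ι ℂ) j) (prL z) ξ)
      = Sum.elim ξ 0 := by
    funext j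
    rcases j with j | j
    · simp only [Sum.elim_inl, ph_dAt_X]
    · simp only [Sum.elim_inr, ph_dAt_C]; rfl
  rw [e1, e2] at h1
  exact h1

/-- the differential of a polynomial map sends tangent vectors to tangent vectors of the closure of the image -/
theorem geo_tan_push (V : Set (ι → ℂ)) (ψ : κ → MvPolynomial ι ℂ) (z v : ι → ℂ)
    (hv : v ∈ tanAt V z) :
    (fun j => dAt (ψ j) z v) ∈ tanAt (zcl (pmap ψ '' V)) (pmap ψ z) := by
  rw [geos_mem_tanAt] at hv ⊢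
  intro f hf
  have h1 := hv (aeval ψ f) (fun x hx => by
    rw [← ph_eval_pmap]
    exact hf _ (ph_subset_zcl _ ⟨x, hx, rfl⟩))
  rw [ph_dAt_aeval] at h1
  simp only [aeval_eq_eval] at h1
  exact h1

/-- **(G1)**, set form -/
theorem geo_G1 {V : Set (ι → ℂ)} (hV : IsVar V) (ψ : κ → MvPolynomial ι ℂ) :
    GenOn V fun z => ∀ w ∈ tanAt (zcl (pmap ψ '' V)) (pmap ψ z),
      ∃ v ∈ tanAt V z, ∀ j, dAt (ψ j) z v = w j := by
  obtain ⟨p, hp, rfl⟩ := hV
  obtain ⟨h, hh, H⟩ := ph_G1_closed p hp ψ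
  have hcp : (p.comap (aeval ψ : MvPolynomial κ ℂ →ₐ[ℂ] MvPolynomial ι ℂ)).IsPrime :=
    Ideal.comap_isPrime _ p
  refine ⟨h, ?_, fun z hz hne w hw => ?_⟩
  · by_contra hcon
    apply hh
    rw [← ph_vanishing_prime p hp, ph_mem_vanishingIdeal]
    exact fun x hx => by_contra fun h' => hcon ⟨x, hx, h'⟩
  · unfold tanAt at hw ⊢
    rw [ph_zcl_image p hp, ph_vanishing_prime _ hcp] at hw
    rw [ph_vanishing_prime p hp]
    exact (H z hz hne).2.2 w hw

/-- a property of the image points which holds at the general point of the source holds at the general point of the closure of the image -/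
theorem geo_gen_image {V : Set (ι → ℂ)} (hV : IsVar V) (ψ : κ → MvPolynomial ι ℂ)
    {P : (κ → ℂ) → Prop} (h : GenOn V fun z => P (pmap ψ z)) : GenOn (zcl (pmap ψ '' V)) P := by
  obtain ⟨g, hg, hP⟩ := h
  obtain ⟨h', h1, h2⟩ := geo_image_dense_open hV g hg ψ
  refine ⟨h', h1, fun w hw hne => ?_⟩
  obtain ⟨x, hx, hgx, rfl⟩ := h2 w hw hne
  exact hP x hx hgx

end tools

/-! ### GEO-SEC-R -/

theorem geo_img_mono {X X' Y Y' : Set (SpC d)} (hX : X ⊆ X') (hY : Y ⊆ Y') :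
    spImg X Y ⊆ spImg X' Y' :=
  ph_zcl_mono (sp_lab_mono fun _ hz => ⟨hX hz.1, hY hz.2⟩)

/-- a closed nonempty subset of an irreducible variety of at least the same dimension is everything -/
theorem geo_eq_of_subset_of_vdim {ι : Type*} [Fintype ι] {V W : Set (ι → ℂ)} (hV : IsVar V)
    (hW : zcl W = W) (hne : W.Nonempty) (hsub : W ⊆ V) (hdim : vdim V ≤ vdim W) : W = V := by
  apply Set.Subset.antisymm hsub
  intro x hx
  by_contra hxW
  rw [← hW, ph_mem_zcl] at hxW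
  have : ∃ g : MvPolynomial ι ℂ, (∀ y ∈ W, eval y g = 0) ∧ eval x g ≠ 0 := by
    by_contra hcon
    exact hxW fun f hf => by_contra fun h => hcon ⟨f, hf, h⟩
  obtain ⟨g, hg, hgx⟩ := this
  have := ph_vdim_lt_of_ssubset hV hsub g hg ⟨x, hx, hgx⟩ hne
  omega

theorem geo_img_subset_of_root {X Y Y' : Set (SpC d)} (hX : IsVar X) (hY : IsVar Y)
    (hroot : GenOn (prodSet X Y) fun z =>
      ∃ w ∈ Y', ∃ c : ℂ, c ≠ 0 ∧ w - prL z = c • (prR z - prL z)) :
    spImg X Y ⊆ spImg X Y' := by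
  obtain ⟨H, ⟨z₀, hz₀, hHz₀⟩, hP⟩ := hroot
  have hXY := ph_prod_isVar hX hY
  intro w hw
  unfold spImg at hw ⊢
  rw [ph_mem_zcl] at hw ⊢
  intro f hf
  apply hw f
  rintro _ ⟨⟨x, y⟩, ⟨hx, hy⟩, lam, rfl⟩
  have hx : x ∈ X := hx
  have hy : y ∈ Y := hy
  show eval (Sum.elim x (lam • (y - x))) f = 0
  have h1 : ∀ z ∈ prodSet X Y, eval z (H * spPull lam f) = 0 := by
    intro z hz
    rw [map_mul]
    by_cases hHz : eval z H = 0
    · rw [hHz, zero_mul]
    · obtain ⟨w', hw', c, hc, hwc⟩ := hP z hz hHz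
      have e1 : eval z (spPull lam f) = eval (Sum.elim (prL z) (lam • (prR z - prL z))) f := by
        rw [← sp_eval_pull, geo_elim_pr]
      rw [e1, mul_eq_zero]
      right
      apply hf
      refine ⟨(prL z, w'), ⟨hz.1, hw'⟩, lam / c, ?_⟩
      show Sum.elim (prL z) (lam • (prR z - prL z)) = Sum.elim (prL z) ((lam / c) • (w' - prL z))
      rw [hwc, smul_smul, div_mul_cancel₀ _ hc]
  rcases ph_isVar_mul hXY H (spPull lam f) h1 with h | h
  · exact absurd (h z₀ hz₀) hHz₀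
  · have := h (Sum.elim x y) ⟨hx, hy⟩
    rwa [sp_eval_pull] at this

/-- a root (`≠ x`) on `Y'` over the general pair of `X × Y` forces equal images -/
theorem geo_img_eq_of_root {X Y Y' : Set (SpC d)} (hX : IsVar X) (hY : IsVar Y) (hY' : IsVar Y')
    (hdim : vdim Y' ≤ vdim Y) (hdimZ : vdim (spImg X Y) = vdim X + vdim Y + 1)
    (hroot : GenOn (prodSet X Y) fun z =>
      ∃ w ∈ Y', ∃ c : ℂ, c ≠ 0 ∧ w - prL z = c • (prR z - prL z)) :
    spImg X Y = spImg X Y' := by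
  have hsub := geo_img_subset_of_root hX hY hroot
  have hZ := sp_img_isVar hX hY
  have hZ' := sp_img_isVar hX hY'
  refine geo_eq_of_subset_of_vdim hZ' (ph_zcl_of_isVar hZ) (ph_isVar_nonempty _ hZ) hsub ?_
  have := sp_img_vdim_le hX hY'
  omega

/-- equal images force a root (`≠ x`) on `Y` over the general pair of `X × Y'` -/
theorem geo_root_of_img {X Y Y' : Set (SpC d)} (hX : IsVar X) (hY : IsVar Y) (hY' : IsVar Y')
    (himg : spImg X Y = spImg X Y') (hne : ∃ x ∈ X, ∃ y ∈ Y', y ≠ x) :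
    GenOn (prodSet X Y') fun z =>
      ∃ w ∈ Y, ∃ c : ℂ, c ≠ 0 ∧ w - prL z = c • (prR z - prL z) := by
  have hXY' := ph_prod_isVar hX hY'
  have hVY := ph_prod_isVar (ph_prod_isVar hX hY) (ph_univ (ι := Unit)).1
  obtain ⟨h', ⟨w₀, hw₀, hne₀⟩, h2⟩ := ph_image_dense hVY (spPsi d)
  rw [← sp_img_eq_pmap, himg] at hw₀ h2
  -- a label of `X × Y'` at which `h'` does not vanish
  have hlab : ∃ x ∈ X, ∃ y ∈ Y', ∃ lam : ℂ, eval (Sum.elim x (lam • (y - x))) h' ≠ 0 := by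
    by_contra hcon
    apply hne₀
    unfold spImg at hw₀
    rw [ph_mem_zcl] at hw₀
    apply hw₀
    rintro _ ⟨⟨x, y⟩, ⟨hx, hy⟩, lam, rfl⟩
    exact by_contra fun h => hcon ⟨x, hx, y, hy, lam, h⟩
  obtain ⟨x₁, hx₁, y₁, hy₁, lam₁, hlam₁⟩ := hlab
  -- with a nonzero parameter
  have hlam : ∃ lam₀ : ℂ, lam₀ ≠ 0 ∧ eval (Sum.elim x₁ (lam₀ • (y₁ - x₁))) h' ≠ 0 := by
    by_cases h0 : lam₁ = 0
    · have hc : Continuous fun lam : ℂ => eval (Sum.elim x₁ (lam • (y₁ - x₁))) h' := by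
        refine (MvPolynomial.continuous_eval h').comp ?_
        refine continuous_pi fun i => ?_
        rcases i with i | i
        · exact continuous_const
        · simp only [Sum.elim_inr, Pi.smul_apply, smul_eq_mul]
          exact continuous_id.mul continuous_const
      have h1 : ∀ᶠ lam in nhds (0 : ℂ), eval (Sum.elim x₁ (lam • (y₁ - x₁))) h' ≠ 0 :=
        hc.continuousAt.eventually_ne (by subst h0; exact hlam₁)
      have h3 : ∀ᶠ lam in nhdsWithin (0 : ℂ) {0}ᶜ,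
          lam ≠ 0 ∧ eval (Sum.elim x₁ (lam • (y₁ - x₁))) h' ≠ 0 :=
        (eventually_mem_nhdsWithin).and (h1.filter_mono nhdsWithin_le_nhds)
      exact h3.exists
    · exact ⟨lam₁, h0, hlam₁⟩
  obtain ⟨lam₀, hlam₀, hne₁⟩ := hlam
  obtain ⟨x₂, hx₂, y₂, hy₂, hxy₂⟩ := hne
  obtain ⟨i, hi⟩ : ∃ i, y₂ i ≠ x₂ i := by
    by_contra hcon
    exact hxy₂ (funext fun i => by_contra fun h => hcon ⟨i, h⟩)
  have g1 : GenOn (prodSet X Y') fun z => eval z (spPull lam₀ h') ≠ 0 :=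
    geo_gen_ne _ ⟨Sum.elim x₁ y₁, ⟨hx₁, hy₁⟩, by rw [sp_eval_pull]; exact hne₁⟩
  have g2 : GenOn (prodSet X Y') fun z =>
      eval z (MvPolynomial.X (Sum.inr i) - MvPolynomial.X (Sum.inl i) :
        MvPolynomial (Fin d ⊕ Fin d) ℂ) ≠ 0 :=
    geo_gen_ne _ ⟨Sum.elim x₂ y₂, ⟨hx₂, hy₂⟩, by
      simp only [map_sub, eval_X, Sum.elim_inr, Sum.elim_inl]
      exact sub_ne_zero.2 hi⟩
  refine geo_gen_mono (geo_gen_and hXY' g1 g2) ?_
  rintro z hz ⟨hz1, hz2⟩
  have e1 : eval z (spPull lam₀ h') = eval (Sum.elim (prL z) (lam₀ • (prR z - prL z))) h' := by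
    rw [← sp_eval_pull, geo_elim_pr]
  rw [e1] at hz1
  have hmem : Sum.elim (prL z) (lam₀ • (prR z - prL z)) ∈ spImg X Y' :=
    ph_subset_zcl _ ⟨(prL z, prR z), ⟨hz.1, hz.2⟩, lam₀, rfl⟩
  obtain ⟨u, ⟨⟨hu1, hu2⟩, -⟩, hu⟩ := h2 _ hmem hz1
  set x' : SpC d := fun i => u (Sum.inl (Sum.inl i)) with hx'
  set y' : SpC d := fun i => u (Sum.inl (Sum.inr i)) with hy'
  set μ : ℂ := u (Sum.inr ()) with hμ
  have hL : x' = prL z := by
    funext j
    have := congrFun hu (Sum.inl j)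
    simpa [pmap, spPsi] using this
  have hR : μ • (y' - x') = lam₀ • (prR z - prL z) := by
    funext j
    have := congrFun hu (Sum.inr j)
    simpa [pmap, spPsi] using this
  have hzi : prR z i - prL z i ≠ 0 := by
    simpa [prL, prR] using hz2
  have hμ0 : μ ≠ 0 := by
    intro h0
    rw [h0, zero_smul] at hR
    have := congrFun hR i
    simp only [Pi.zero_apply, Pi.smul_apply, Pi.sub_apply, smul_eq_mul] at this
    exact (mul_ne_zero hlam₀ hzi) this.symm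
  refine ⟨y', hu2, lam₀ / μ, div_ne_zero hlam₀ hμ0, ?_⟩
  rw [← hL, div_eq_inv_mul, mul_smul, hL, ← hR, smul_smul, inv_mul_cancel₀ hμ0, one_smul, hL]

/-! ### GEO-SEC-A -/

theorem geo_dAt_sub {ι : Type*} [Fintype ι] (f g : MvPolynomial ι ℂ) (z v : ι → ℂ) :
    dAt (f - g) z v = dAt f z v - dAt g z v := by
  simp only [dAt, map_sub, sub_mul, Finset.sum_sub_distrib]

theorem geo_dAt_spPsi_inl (v t : (Fin d ⊕ Fin d) ⊕ Unit → ℂ) (i : Fin d) :
    dAt (spPsi d (Sum.inl i)) v t = t (Sum.inl (Sum.inl i)) := by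
  simp only [spPsi, Sum.elim_inl, ph_dAt_X]

theorem geo_dAt_spPsi_inr (v t : (Fin d ⊕ Fin d) ⊕ Unit → ℂ) (i : Fin d) :
    dAt (spPsi d (Sum.inr i)) v t
      = v (Sum.inr ()) * (t (Sum.inl (Sum.inr i)) - t (Sum.inl (Sum.inl i)))
        + (v (Sum.inl (Sum.inr i)) - v (Sum.inl (Sum.inl i))) * t (Sum.inr ()) := by
  simp only [spPsi, Sum.elim_inr, ph_dAt_mul, geo_dAt_sub, ph_dAt_X, aeval_X, map_sub]

theorem geo_pmap_spPsi (z : Fin d ⊕ Fin d → ℂ) (l : Unit → ℂ) :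
    pmap (spPsi d) (Sum.elim z l) = Sum.elim (prL z) (l () • (prR z - prL z)) := by
  funext j
  rcases j with j | j <;> simp [pmap, spPsi, prL, prR]

/-- **geo:secants, (S-a)**: a further moving root forces the projected tangent inclusion. -/
theorem geo_sec_a {X Y Y' : Set (SpC d)} (hX : IsVar X) (hY : IsVar Y) (hY' : IsVar Y')
    (hdim : vdim Y' ≤ vdim Y) (hdimZ : vdim (spImg X Y) = vdim X + vdim Y + 1)
    (hroot : GenOn (prodSet X Y) (GeoRoot Y')) : GenOn (prodSet X Y) (GeoTanLE X Y) := by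
  have hXY := ph_prod_isVar hX hY
  have hU := (ph_univ (ι := Unit)).1
  have hV := ph_prod_isVar hXY hU
  have himg : spImg X Y = spImg X Y' := by
    refine geo_img_eq_of_root hX hY hY' hdim hdimZ (geo_gen_mono hroot ?_)
    rintro z _ ⟨w, hw, c, hc0, _, hwc⟩
    exact ⟨w, hw, c, hc0, hwc⟩
  -- (G1) at a fixed nonzero parameter
  have hG := geo_gen_prod_right (geo_G1 hV (spPsi d))
  have hl : GenOn (Set.univ : Set (Unit → ℂ)) fun l =>
      eval l (MvPolynomial.X () : MvPolynomial Unit ℂ) ≠ 0 :=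
    geo_gen_ne _ ⟨fun _ => 1, Set.mem_univ _, by simp⟩
  obtain ⟨l₀, -, hG₀, hl₀⟩ := geo_gen_exists (geo_gen_and hU hG hl)
  rw [eval_X] at hl₀
  set lam : ℂ := l₀ () with hlam
  refine geo_gen_mono (geo_gen_and hXY hG₀ hroot) ?_
  rintro z hz ⟨hP, w, hw, c, hc0, hc1, hwc⟩ ξ hξ
  set x := prL z with hx
  set y := prR z with hy
  -- the two source points
  set v₁ : (Fin d ⊕ Fin d) ⊕ Unit → ℂ := Sum.elim z l₀ with hv₁
  set v₂ : (Fin d ⊕ Fin d) ⊕ Unit → ℂ := Sum.elim (Sum.elim x w) (fun _ => lam / c) with hv₂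
  set t₀ : (Fin d ⊕ Fin d) ⊕ Unit → ℂ := Sum.elim (Sum.elim ξ 0) 0 with ht₀
  have hψ₁ : pmap (spPsi d) v₁ = Sum.elim x (lam • (y - x)) := geo_pmap_spPsi z l₀
  have hψ₂ : pmap (spPsi d) v₂ = Sum.elim x (lam • (y - x)) := by
    rw [hv₂, geo_pmap_spPsi]
    show Sum.elim x ((lam / c) • (w - x)) = _
    rw [hwc, smul_smul, div_mul_cancel₀ _ hc0]
  have ht₁ : t₀ ∈ tanAt (prodSet (prodSet X Y) (Set.univ : Set (Unit → ℂ))) v₁ :=
    geo_tan_prod_left (prodSet X Y) Set.univ v₁ ⟨hz, Set.mem_univ _⟩ _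
      (geo_tan_prod_left X Y z hz ξ hξ)
  have ht₂ : t₀ ∈ tanAt (prodSet (prodSet X Y') (Set.univ : Set (Unit → ℂ))) v₂ :=
    geo_tan_prod_left (prodSet X Y') Set.univ v₂ ⟨⟨hz.1, hw⟩, Set.mem_univ _⟩ _
      (geo_tan_prod_left X Y' (Sum.elim x w) ⟨hz.1, hw⟩ ξ hξ)
  have hp₁ := geo_tan_push _ (spPsi d) v₁ t₀ ht₁
  have hp₂ := geo_tan_push _ (spPsi d) v₂ t₀ ht₂
  rw [← sp_img_eq_pmap, hψ₁] at hp₁
  rw [← sp_img_eq_pmap, hψ₂, ← himg] at hp₂
  have hdiff := Submodule.sub_mem _ hp₁ hp₂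
  rw [← hψ₁, sp_img_eq_pmap] at hdiff
  obtain ⟨t, ht, hteq⟩ := hP _ hdiff
  have ht' := geo_tan_prod_sub _ _ v₁ t ht
  have ht'' := geo_tan_prod_sub X Y z (prL t) ht'.1
  set η : SpC d := prR (prL t) with hη
  set μ : ℂ := t (Sum.inr ()) with hμ
  have hξ' : ∀ i, t (Sum.inl (Sum.inl i)) = 0 := by
    intro i
    have := hteq (Sum.inl i)
    simp only [geo_dAt_spPsi_inl, Pi.sub_apply, sub_self] at this
    exact this
  have hmain : ∀ i, lam * η i + (y i - x i) * μ = (lam / c - lam) * ξ i := by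
    intro i
    have := hteq (Sum.inr i)
    simp only [geo_dAt_spPsi_inr, Pi.sub_apply, hξ' i] at this
    simp only [hv₁, hv₂, ht₀, Sum.elim_inl, Sum.elim_inr, Pi.zero_apply] at this
    have e1 : t (Sum.inl (Sum.inr i)) = η i := rfl
    have e2 : z (Sum.inr i) = y i := rfl
    have e3 : z (Sum.inl i) = x i := rfl
    rw [e1, e2, e3] at this
    linear_combination this
  have ha : lam / c - lam ≠ 0 := by
    intro h
    apply hc1
    have h1 : lam / c = lam := sub_eq_zero.1 h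
    rw [div_eq_iff hc0] at h1
    have h2 : lam * (c - 1) = 0 := by linear_combination -h1
    exact sub_eq_zero.1 ((mul_eq_zero.1 h2).resolve_left hl₀)
  refine ⟨(lam / (lam / c - lam)) • η, Submodule.smul_mem _ _ ht''.2, μ / (lam / c - lam), ?_⟩
  funext i
  simp only [Pi.add_apply, Pi.smul_apply, Pi.sub_apply, smul_eq_mul]
  have h1 : ξ i = (lam * η i + (y i - x i) * μ) / (lam / c - lam) :=
    eq_div_of_mul_eq ha (by rw [mul_comm]; exact (hmain i).symm)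
  rw [h1]
  ring

/-! ### GEO-SEC-B -/

theorem geo_tan_ge {ι : Type*} [Fintype ι] {V : Set (ι → ℂ)} (hV : IsVar V) {x : ι → ℂ}
    (hx : x ∈ V) : vdim V ≤ finrank ℂ (tanAt V x) := by
  obtain ⟨p, hp, rfl⟩ := hV
  unfold tanAt
  rw [ph_vanishing_prime p hp]
  exact ph_tan_ge p hp x hx

theorem geo_finrank_span_singleton_le {ι : Type*} [Fintype ι] (x : ι → ℂ) :
    finrank ℂ (Submodule.span ℂ {x}) ≤ 1 := by
  by_cases hx : x = 0
  · rw [hx, Submodule.span_zero_singleton, finrank_bot]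
    exact Nat.zero_le 1
  · exact (finrank_span_singleton hx).le

/-- the scaling map `(x, c) ↦ c x` -/
noncomputable def geoScal (d : ℕ) : Fin d → MvPolynomial (Fin d ⊕ Unit) ℂ :=
  fun i => X (Sum.inr ()) * X (Sum.inl i)

theorem geo_pmap_scal (x : SpC d) (l : Unit → ℂ) :
    pmap (geoScal d) (Sum.elim x l) = l () • x := by
  funext j
  simp [pmap, geoScal]

theorem geo_dAt_scal (z t : Fin d ⊕ Unit → ℂ) (j : Fin d) :
    dAt (geoScal d j) z t = z (Sum.inr ()) * t (Sum.inl j) + z (Sum.inl j) * t (Sum.inr ()) := by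
  simp only [geoScal, ph_dAt_mul, ph_dAt_X, aeval_X]

/-- an irreducible variety whose tangent space at the general point `x` lies in `ℂ x` is contained in a line through the origin -/
theorem geo_euler_cone {T : Set (SpC d)} (hT : IsVar T)
    (h : GenOn T fun x => tanAt T x ≤ Submodule.span ℂ {x}) :
    ∃ v : SpC d, ∀ x ∈ T, ∃ c : ℂ, x = c • v := by
  have hU := (ph_univ (ι := Unit)).1
  have hV := ph_prod_isVar hT hU
  set K : Set (SpC d) := zcl (pmap (geoScal d) '' prodSet T (Set.univ : Set (Unit → ℂ))) with hK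
  have hKv : IsVar K := ph_isVar_zcl_image hV _
  have hKmem : ∀ x ∈ T, ∀ c : ℂ, c • x ∈ K := by
    intro x hx c
    refine ph_subset_zcl _ ⟨Sum.elim x (fun _ => c), ⟨hx, Set.mem_univ _⟩, ?_⟩
    rw [geo_pmap_scal]
  -- the dimension of the cone is at most one
  have hdim : vdim K ≤ 1 := by
    have g1 := geo_G1 hV (geoScal d)
    have g2 : GenOn (prodSet T (Set.univ : Set (Unit → ℂ))) fun z =>
        tanAt T (prL z) ≤ Submodule.span ℂ {prL z} :=
      geo_gen_lift_left ⟨fun _ => 0, Set.mem_univ _⟩ h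
    obtain ⟨z, hz, hz1, hz2⟩ := geo_gen_exists (geo_gen_and hV g1 g2)
    have hle : tanAt K (pmap (geoScal d) z) ≤ Submodule.span ℂ {prL z} := by
      intro w hw
      obtain ⟨t, ht, hteq⟩ := hz1 w hw
      have h1 := hz2 (geo_tan_prod_sub _ _ z t ht).1
      obtain ⟨a, ha⟩ := Submodule.mem_span_singleton.1 h1
      rw [Submodule.mem_span_singleton]
      refine ⟨z (Sum.inr ()) * a + t (Sum.inr ()), ?_⟩
      funext j
      rw [← hteq j, geo_dAt_scal]
      have h2 : t (Sum.inl j) = a * z (Sum.inl j) := (congrFun ha j).symm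
      rw [h2]
      simp only [Pi.smul_apply, smul_eq_mul, prL]
      ring
    have hzK : pmap (geoScal d) z ∈ K := ph_subset_zcl _ ⟨z, hz, rfl⟩
    exact ((geo_tan_ge hKv hzK).trans (Submodule.finrank_mono hle)).trans
      (geo_finrank_span_singleton_le _)
  by_cases h0 : ∀ x ∈ T, x = 0
  · exact ⟨0, fun x hx => ⟨0, by rw [h0 x hx, smul_zero]⟩⟩
  · have : ∃ v ∈ T, v ≠ 0 := by
      by_contra hcon
      exact h0 fun x hx => by_contra fun h' => hcon ⟨x, hx, h'⟩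
    obtain ⟨v, hv, hv0⟩ := this
    obtain ⟨hL1, hL2, -⟩ := geo_flat_isVar (0 : SpC d) (Submodule.span ℂ {v})
    rw [finrank_span_singleton hv0] at hL2
    have hsub : geoFlat (0 : SpC d) (Submodule.span ℂ {v}) ⊆ K := by
      intro x hx
      have hx' : x - 0 ∈ Submodule.span ℂ {v} := hx
      rw [sub_zero] at hx'
      obtain ⟨c, rfl⟩ := Submodule.mem_span_singleton.1 hx'
      exact hKmem v hv c
    have heq := geo_eq_of_subset_of_vdim hKv (ph_zcl_of_isVar hL1) (ph_isVar_nonempty _ hL1) hsub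
      (by omega)
    refine ⟨v, fun x hx => ?_⟩
    have hxK : x ∈ K := by
      have := hKmem x hx 1
      rwa [one_smul] at this
    rw [← heq] at hxK
    have hx' : x - 0 ∈ Submodule.span ℂ {v} := hxK
    rw [sub_zero] at hx'
    obtain ⟨c, hc⟩ := Submodule.mem_span_singleton.1 hx'
    exact ⟨c, hc.symm⟩

/-- the affine-linear map `x ↦ q (x - y)` as a polynomial map -/
noncomputable def geoLinMap (q : SpC d →ₗ[ℂ] SpC d) (y : SpC d) : Fin d → MvPolynomial (Fin d) ℂ :=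
  fun j => ∑ i, C (LinearMap.toMatrix' q j i) * (X i - C (y i))

theorem geo_pmap_linMap (q : SpC d →ₗ[ℂ] SpC d) (y x : SpC d) :
    pmap (geoLinMap q y) x = q (x - y) := by
  funext j
  have h : q (x - y) = (LinearMap.toMatrix' q).mulVec (x - y) :=
    (LinearMap.toMatrix'_mulVec q (x - y)).symm
  rw [h]
  simp [pmap, geoLinMap, Matrix.mulVec, dotProduct]

theorem geo_dAt_linMap (q : SpC d →ₗ[ℂ] SpC d) (y x ξ : SpC d) (j : Fin d) :
    dAt (geoLinMap q y j) x ξ = q ξ j := by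
  have h : q ξ = (LinearMap.toMatrix' q).mulVec ξ := (LinearMap.toMatrix'_mulVec q ξ).symm
  rw [h]
  simp only [geoLinMap, ph_dAt_sum, ph_dAt_mul, geo_dAt_sub, ph_dAt_X, ph_dAt_C, aeval_C,
    Matrix.mulVec, dotProduct, sub_zero, mul_zero, add_zero]
  rfl

theorem geo_sec_b_half {X Y : Set (SpC d)} (hX : IsVar X) (hY : IsVar Y)
    (h1 : GenOn (prodSet X Y) (GeoTanLE X Y)) :
    GenOn Y fun y => ∃ v : SpC d, ∀ x ∈ X, ∃ η ∈ tanAt Y y, ∃ c : ℂ, x - y = η + c • v := by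
  refine geo_gen_mono (geo_gen_prod_right h1) ?_
  intro y hy hgen
  set W := tanAt Y y with hW
  obtain ⟨W', hc⟩ := Submodule.exists_isCompl W
  set q : SpC d →ₗ[ℂ] SpC d := W'.subtype ∘ₗ Submodule.projectionOnto W' W hc.symm with hq
  have hqW : ∀ η ∈ W, q η = 0 := by
    intro η hη
    have : Submodule.projectionOnto W' W hc.symm η = 0 :=
      (Submodule.projectionOnto_apply_eq_zero_iff hc.symm).2 hη
    simp only [hq, LinearMap.comp_apply, this, map_zero]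
  have hqq : ∀ u : SpC d, u - q u ∈ W := by
    intro u
    rw [← Submodule.projectionOnto_apply_eq_zero_iff hc.symm, map_sub]
    simp only [hq, LinearMap.comp_apply, Submodule.subtype_apply,
      Submodule.projectionOnto_apply_left, sub_self]
  set ψ := geoLinMap q y with hψ
  set T : Set (SpC d) := zcl (pmap ψ '' X) with hT
  have hTv : IsVar T := ph_isVar_zcl_image hX ψ
  have g1 := geo_G1 hX ψ
  have g2 : GenOn X fun x => tanAt T (pmap ψ x) ≤ Submodule.span ℂ {pmap ψ x} := by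
    refine geo_gen_mono (geo_gen_and hX g1 hgen) ?_
    rintro x hx ⟨hx1, hx2⟩ w hw
    obtain ⟨ξ, hξ, hξw⟩ := hx1 w hw
    obtain ⟨η, hη, c, hc'⟩ := hx2 ξ hξ
    have e1 : w = q ξ := by
      funext j
      rw [← hξw j, geo_dAt_linMap]
    have e2 : prR (Sum.elim x y : Fin d ⊕ Fin d → ℂ) - prL (Sum.elim x y : Fin d ⊕ Fin d → ℂ)
        = -(x - y) := by
      show y - x = -(x - y)
      abel
    rw [Submodule.mem_span_singleton]
    refine ⟨-c, ?_⟩
    rw [e1, hc', e2, map_add, hqW η hη, zero_add, map_smul, map_neg, geo_pmap_linMap, smul_neg,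
      neg_smul]
  obtain ⟨v, hv⟩ := geo_euler_cone hTv (geo_gen_image hX ψ g2)
  refine ⟨v, fun x hx => ?_⟩
  obtain ⟨c, hc'⟩ := hv (pmap ψ x) (ph_subset_zcl _ ⟨x, hx, rfl⟩)
  rw [geo_pmap_linMap] at hc'
  exact ⟨x - y - q (x - y), hqq _, c, by rw [← hc']; abel⟩

/-- a generic membership in an irreducible (closed) set holds everywhere -/
theorem geo_gen_subset {ι : Type*} [Fintype ι] {V F : Set (ι → ℂ)} (hV : IsVar V) (hF : IsVar F)
    (h : GenOn V fun x => x ∈ F) : V ⊆ F := by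
  obtain ⟨p, _, rfl⟩ := hF
  have e : zeroLocus ℂ p = Zl (p : Set (MvPolynomial ι ℂ)) := by
    rw [ph_Zl_eq_zeroLocus, Ideal.span_eq]
  rw [e] at h ⊢
  exact geo_gen_closed hV _ h

theorem geo_secb_flat {X Y : Set (SpC d)} (hX : IsVar X) (hY : IsVar Y)
    (h1 : GenOn (prodSet X Y) (GeoTanLE X Y)) :
    GenOn Y fun y => ∃ F : Submodule ℂ (SpC d), finrank ℂ F ≤ vdim Y + 1 ∧ ∀ x ∈ X, x - y ∈ F := by
  refine geo_gen_mono (geo_gen_and hY (geo_sec_b_half hX hY h1) (geo_tan_dim_gen hY)) ?_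
  rintro y _ ⟨⟨v, hv⟩, hfin⟩
  refine ⟨tanAt Y y ⊔ Submodule.span ℂ {v}, ?_, fun x hx => ?_⟩
  · exact (Submodule.finrank_add_le_finrank_add_finrank _ _).trans
      (Nat.add_le_add hfin.le (geo_finrank_span_singleton_le v))
  · obtain ⟨η, hη, c, hc⟩ := hv x hx
    rw [hc]
    exact Submodule.add_mem_sup hη (Submodule.smul_mem _ _ (Submodule.mem_span_singleton_self v))

theorem geo_secb_aux {X Y : Set (SpC d)} (hX : IsVar X) (hY : IsVar Y) {k : ℕ}
    (hg : GenOn Y fun y => ∃ F : Submodule ℂ (SpC d), finrank ℂ F ≤ k + 1 ∧ ∀ x ∈ X, x - y ∈ F)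
    (hk : k + 1 ≤ finrank ℂ (dirSpan X)) : InFlat (X ∪ Y) (k + 1) := by
  obtain ⟨x₀, hx₀⟩ := ph_isVar_nonempty _ hX
  have key : ∀ y : SpC d, (∃ F : Submodule ℂ (SpC d), finrank ℂ F ≤ k + 1 ∧ ∀ x ∈ X, x - y ∈ F) →
      finrank ℂ (dirSpan X) ≤ k + 1 ∧ y - x₀ ∈ dirSpan X := by
    rintro y ⟨F, hF, hxF⟩
    have hle : dirSpan X ≤ F := by
      unfold dirSpan
      rw [Submodule.span_le]
      rintro v ⟨x, hx, x', hx', rfl⟩
      have := Submodule.sub_mem _ (hxF x hx) (hxF x' hx')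
      simpa using this
    have hfin := Submodule.finrank_mono hle
    have heq : dirSpan X = F := Submodule.eq_of_le_of_finrank_le hle (hF.trans hk)
    refine ⟨hfin.trans hF, ?_⟩
    rw [heq]
    have := Submodule.neg_mem _ (hxF x₀ hx₀)
    simpa using this
  obtain ⟨y₁, _, hy₁⟩ := geo_gen_exists hg
  have hYsub : Y ⊆ geoFlat x₀ (dirSpan X) :=
    geo_gen_subset hY (geo_flat_isVar x₀ (dirSpan X)).1
      (geo_gen_mono hg fun y _ hy => (key y hy).2)
  refine ⟨x₀, dirSpan X, (key y₁ hy₁).1, ?_⟩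
  rintro x (hx | hx)
  · exact Submodule.subset_span ⟨x, hx, x₀, hx₀, rfl⟩
  · exact hYsub hx

theorem geo_secb_eq_flat {X : Set (SpC d)} (hX : IsVar X) (hk : finrank ℂ (dirSpan X) ≤ vdim X) :
    ∃ (x₀ : SpC d) (W : Submodule ℂ (SpC d)), finrank ℂ W ≤ vdim X ∧ X = geoFlat x₀ W := by
  obtain ⟨x₀, hx₀⟩ := ph_isVar_nonempty _ hX
  refine ⟨x₀, dirSpan X, hk, geo_var_eq_flat hX x₀ _ ?_ hk⟩
  intro x hx
  exact Submodule.subset_span ⟨x, hx, x₀, hx₀, rfl⟩

/-- **geo:secants, (S-b)**: equality of the projected tangent spaces at the general pair forces a common `(k+1)`-flat. -/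
theorem geo_sec_b {X Y : Set (SpC d)} (hX : IsVar X) (hY : IsVar Y) (hdim : vdim X = vdim Y)
    (h1 : GenOn (prodSet X Y) (GeoTanLE X Y)) (h2 : GenOn (prodSet X Y) (GeoTanGE X Y)) :
    InFlat (X ∪ Y) (vdim X + 1) := by
  by_cases ha : vdim X + 1 ≤ finrank ℂ (dirSpan X)
  · have hg := geo_secb_flat hX hY h1
    rw [← hdim] at hg
    exact geo_secb_aux hX hY hg ha
  by_cases hb : vdim X + 1 ≤ finrank ℂ (dirSpan Y)
  · have h2' : GenOn (prodSet Y X) (GeoTanLE Y X) := by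
      refine geo_gen_mono (geo_gen_swap h2) ?_
      intro z _ hz ξ hξ
      obtain ⟨η, hη, c, hc⟩ := hz ξ hξ
      refine ⟨η, hη, -c, ?_⟩
      rw [hc]
      show η + c • (prL z - prR z) = η + -c • (prR z - prL z)
      rw [neg_smul, ← smul_neg, neg_sub]
    have hg := geo_secb_flat hY hX h2'
    rw [Set.union_comm]
    exact geo_secb_aux hY hX hg hb
  obtain ⟨x₀, WX, hWX, hXeq⟩ := geo_secb_eq_flat hX (by omega)
  obtain ⟨y₀, WY, hWY, hYeq⟩ := geo_secb_eq_flat hY (by omega)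
  obtain ⟨z, hz, hz1⟩ := geo_gen_exists h1
  set x := prL z with hx
  set y := prR z with hy
  have hxX : x ∈ geoFlat x₀ WX := hXeq ▸ hz.1
  have hyY : y ∈ geoFlat y₀ WY := hYeq ▸ hz.2
  have htX : tanAt X x = WX := by rw [hXeq]; exact geo_tanAt_flat x₀ WX hxX
  have htY : tanAt Y y = WY := by rw [hYeq]; exact geo_tanAt_flat y₀ WY hyY
  refine ⟨y, WY ⊔ Submodule.span ℂ {y - x}, ?_, ?_⟩
  · exact (Submodule.finrank_add_le_finrank_add_finrank _ _).trans
      (Nat.add_le_add (hWY.trans hdim.symm.le) (geo_finrank_span_singleton_le (y - x)))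
  · rintro p (hp | hp)
    · have hp' : p ∈ geoFlat x₀ WX := hXeq ▸ hp
      have h3 : p - x ∈ tanAt X x := by
        rw [htX]
        have := Submodule.sub_mem _ hp' hxX
        simpa using this
      obtain ⟨η, hη, c, hc⟩ := hz1 (p - x) h3
      rw [htY] at hη
      have e : p - y = η + (c - 1) • (y - x) := by
        have : p - y = (p - x) - (y - x) := by abel
        rw [this, hc, sub_smul, one_smul]
        abel
      rw [e]
      exact Submodule.add_mem_sup hη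
        (Submodule.smul_mem _ _ (Submodule.mem_span_singleton_self _))
    · have hp' : p ∈ geoFlat y₀ WY := hYeq ▸ hp
      have := Submodule.sub_mem _ hp' hyY
      exact Submodule.mem_sup_left (by simpa using this)

end Claimed.Agent.R273
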