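-- KEEP
import Claimed.Agent.R273.GeoSec
import Claimed.Agent.R273.GeoMix
import Claimed.Agent.R273.GeoProj

/-!
# Row 273, S4: THE EXPORTS of the geometric part of secants.tex: trichotomy, equal images, full images, degree of images.  Architect helper26.

LEAF GEO-TRI-A (`geo_root_dich`, `geo_noRoot_of_not`).  ~150 lines.  `geo_dich` with `ι = Fin d ⊕ Fin d`, `κ = Fin d ⊕ Unit` (`(w, c)`), `V = prodSet X Y` (`ph_prod_isVar`),
  `G := (rename (Sum.inr ∘ Sum.inl)) '' I(Y') ∪ range (fun i => X (inr (inl i)) - X (inl (inl i)) - X (inr (inr ())) * (X (inl (inr i)) - X (inl (inl i))))`, `g := X (inr (inr ())) * (X (inr (inr ())) - 1)`; `Y' = zeroLocus I(Y')` (`ph_zcl_of_isVar`).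
  `(∃ w' : κ → ℂ, Sum.elim z w' ∈ Zl G ∧ eval _ g ≠ 0) ↔ GeoRoot Y' z` by unfolding (`w = w' ∘ inl`, `c = w' (inr ())`).
  `geo_noRoot_of_not`: `y ≠ x`, `¬ GeoRoot`: for `w ∈ Y'`, `w ≠ x`, `w - x = c (y - x)`: `c ≠ 0`; `c = 1` (else a root); `w = y`.
GLUE, PROVED BELOW (`geo_tan_eq_of_le`, `geo_sec_flat`, `geo_tri`).  `k = vdim X`, `l = vdim Y = vdim Y'`, `l ≤ k`.  `geo_root_dich`.
  (no root) `geo_tr_gen` gives `y - x ∉ tanAt X x`, so `y ≠ x`, generically; `geo_gen_and`, `geo_noRoot_of_not`: first alternative.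
  (root) `hdimZ := geo_img_dim hX hY ht.nt`.  `geo_sec_a`: `GeoTanLE` generically.  `geo_tan_eq_of_le` (pointwise linear algebra): `finrank T_xX = k`, `finrank T_yY = l`, `l ≤ k`, `u ∉ T_xX`, `T_xX ⊆ T_yY + ℂ u` ⇒ `k = l` and `T_yY ⊆ T_xX + ℂ u`
   (`T_xX ⊔ ℂu` has dimension `k + 1`, lies in `T_yY ⊔ ℂu` of dimension `≤ l + 1`).  Generic dimensions: `geo_tan_dim_gen` + `geo_gen_lift_left/right`.  `geo_sec_b`: `InFlat (X ∪ Y) (k+1)` via `(x₀, W)`.
   `Y' ⊆ x₀ + W`: `geo_img_eq_of_root` (a `GeoRoot` is a root with `c ≠ 0`), then `geo_root_of_img` with the roles: for the general `(x, y') ∈ X × Y'` there is `w ∈ Y`, `c ≠ 0`, `w - x = c (y' - x)`; so `y' - x₀ = (x - x₀) + c⁻¹ ((w - x₀) - (x - x₀)) ∈ W`.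
   `geo_gen_prod_left` + `geo_gen_exists`: some `x` with `GenOn Y' (y' ∈ geoFlat x₀ W)`; `geoFlat x₀ W` is closed (`geo_flat_isVar`: `= zeroLocus p = Zl p`), `geo_gen_closed`.
LEAF GEO-TRI-C (`geo_same_img`, `geo_img_full`, `geo_img_deg`, `geo_sec_flat`).  ~300 lines.
  `geo_same_img`: `geo_tri`; the first alternative is impossible: `geo_root_of_img` (images equal, roles exchanged: `himg.symm`) gives for the general `(x,y) ∈ X × Y` a `w ∈ Y'`, `c ≠ 0`, `w - x = c (y - x)`; generically `y ≠ x` and `y ∉ Y'` (`Y ⊄ Y'`: equal dimension, `Y ≠ Y'`, `ph_vdim_lt_of_ssubset`; so some `f ∈ I(Y')` is `≢ 0` on `Y`; `geo_gen_lift_right`); `GeoNoRoot` would give `w = y ∈ Y'` (`w ≠ x` since `c ≠ 0`, `y ≠ x`).  `geo_gen_and`, `geo_gen_exists`.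
  `geo_img_full`: `spImg X Y ⊆ prodSet X univ` (the labels lie in it, it is closed: `sp_img_prod`, `ph_zcl_of_isVar`, `ph_zcl_mono`); both irreducible, dimensions `vdim X + (d-1) + 1 = vdim X + d` (`geo_img_dim`, `sp_img_prod`); `ph_vdim_lt_of_ssubset`.
  `geo_img_deg`: `e := (vdeg Y + 1) / 2`.  CLAIM: `GenOn X (fun x => DepHalfGood x Y)`.  If `X = Y`: `vdeg Y ≥ 2` (if `vdeg Y = 1`, `Y` is a flat, `geo_flat_of_deg_one`, `geo_tanAt_flat`: `y - x ∈ tanAt Y y` always, against `ht`; `ph_vdeg_pos`), `geo_half_gen`.  If `X ≠ Y`: `X ⊄ Y` (equal dimensions), so generically `x ∉ Y`, `geo_half_out`.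
   `geo_gen_prod_left h1`: generically in `x`: `GenOn Y (fun y => GeoNoRoot Y (x,y))`, which IS `DepRootLE x Y Y 1` after `depRoots x y Y ⊆ {y}` (`Set.Finite.subset`, `Set.ncard_le_ncard`, `Set.ncard_singleton`).  So generically `vdeg Y ≤ 2 vdeg (dcone x Y)`, i.e. `e ≤ vdeg (dcone x Y)`; `geo_cone_dim_gen`; `geo_mix`: `vdeg X * e ≤ vdeg (spImg X Y)`; `vdeg Y ≤ 2 e`.
  `geo_sec_flat`: = helper60's `GdSecStmt` shape; `geo_tri`-(root) branch; or directly from `geo_tri` + `geo_gen_false`.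
-/

set_option autoImplicit false

namespace Claimed.Agent.R273

open MvPolynomial Module

variable {d : ℕ}

/-! ### GEO-TRI-A -/

theorem geo_root_dich {X Y Y' : Set (SpC d)} (hX : IsVar X) (hY : IsVar Y) (hY' : IsVar Y') :
    GenOn (prodSet X Y) (GeoRoot Y') ∨ GenOn (prodSet X Y) fun z => ¬ GeoRoot Y' z := by
  obtain ⟨p', hp', rfl⟩ := hY'
  have hiff : ∀ z : Fin d ⊕ Fin d → ℂ,
      (∃ w : Fin d ⊕ Unit → ℂ, Sum.elim z w ∈ Zl
          ((rename (Sum.inr ∘ Sum.inl : Fin d → (Fin d ⊕ Fin d) ⊕ (Fin d ⊕ Unit)) '' (p' : Set (PrfPol d))) ∪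
            Set.range (fun i : Fin d => (MvPolynomial.X (Sum.inr (Sum.inl i)) - MvPolynomial.X (Sum.inl (Sum.inl i))
              - MvPolynomial.X (Sum.inr (Sum.inr ())) * (MvPolynomial.X (Sum.inl (Sum.inr i)) - MvPolynomial.X (Sum.inl (Sum.inl i))) :
                MvPolynomial ((Fin d ⊕ Fin d) ⊕ (Fin d ⊕ Unit)) ℂ))) ∧
        eval (Sum.elim z w) (MvPolynomial.X (Sum.inr (Sum.inr ())) * (MvPolynomial.X (Sum.inr (Sum.inr ())) - 1) :
          MvPolynomial ((Fin d ⊕ Fin d) ⊕ (Fin d ⊕ Unit)) ℂ) ≠ 0) ↔ GeoRoot (zeroLocus ℂ p') z := by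
    intro z
    constructor
    · rintro ⟨w', hZ, hg⟩
      refine ⟨fun i => w' (Sum.inl i), ?_, w' (Sum.inr ()), ?_, ?_, ?_⟩
      · rw [mem_zeroLocus_iff]
        intro f hf
        have h1 := hZ _ (Or.inl ⟨f, hf, rfl⟩)
        rw [eval_rename] at h1
        rw [aeval_eq_eval]
        exact h1
      · intro h0
        apply hg
        simp [h0]
      · intro h0
        apply hg
        simp [h0]
      · funext i
        have h1 := hZ _ (Or.inr ⟨i, rfl⟩)
        simp only [map_sub, map_mul, eval_X, Sum.elim_inl, Sum.elim_inr] at h1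
        simp only [Pi.sub_apply, Pi.smul_apply, smul_eq_mul, prL, prR]
        linear_combination h1
    · rintro ⟨w, hw, c, hc0, hc1, he⟩
      refine ⟨Sum.elim w (fun _ => c), ?_, ?_⟩
      · rintro _ (⟨f, hf, rfl⟩ | ⟨i, rfl⟩)
        · rw [eval_rename]
          have h1 := (mem_zeroLocus_iff.mp hw) f hf
          rw [aeval_eq_eval] at h1
          exact h1
        · have h1 := congrFun he i
          simp only [Pi.sub_apply, Pi.smul_apply, smul_eq_mul, prL, prR] at h1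
          simp only [map_sub, map_mul, eval_X, Sum.elim_inl, Sum.elim_inr]
          linear_combination h1
      · simp only [map_sub, map_mul, eval_X, Sum.elim_inr, map_one]
        exact mul_ne_zero hc0 (sub_ne_zero.2 hc1)
  have h := geo_dich (ph_prod_isVar hX hY)
    ((rename (Sum.inr ∘ Sum.inl : Fin d → (Fin d ⊕ Fin d) ⊕ (Fin d ⊕ Unit)) '' (p' : Set (PrfPol d))) ∪
      Set.range (fun i : Fin d => (MvPolynomial.X (Sum.inr (Sum.inl i)) - MvPolynomial.X (Sum.inl (Sum.inl i))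
        - MvPolynomial.X (Sum.inr (Sum.inr ())) * (MvPolynomial.X (Sum.inl (Sum.inr i)) - MvPolynomial.X (Sum.inl (Sum.inl i))) :
          MvPolynomial ((Fin d ⊕ Fin d) ⊕ (Fin d ⊕ Unit)) ℂ)))
    (MvPolynomial.X (Sum.inr (Sum.inr ())) * (MvPolynomial.X (Sum.inr (Sum.inr ())) - 1))
  simp only [hiff] at h
  exact h

theorem geo_noRoot_of_not {Y' : Set (SpC d)} {z : Fin d ⊕ Fin d → ℂ} (hne : prR z ≠ prL z)
    (h : ¬ GeoRoot Y' z) : GeoNoRoot Y' z := by
  rintro w hw hwx ⟨c, hc⟩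
  by_contra hwy
  refine h ⟨w, hw, c, ?_, ?_, hc⟩
  · rintro rfl
    rw [zero_smul, sub_eq_zero] at hc
    exact hwx hc
  · rintro rfl
    rw [one_smul] at hc
    exact hwy (sub_left_injective hc)

/-! ### glue -/

theorem geo_tan_eq_of_le (A B : Submodule ℂ (SpC d)) (u : SpC d) (hAB : finrank ℂ B ≤ finrank ℂ A)
    (hu : u ∉ A) (hle : ∀ ξ ∈ A, ∃ η ∈ B, ∃ c : ℂ, ξ = η + c • u) :
    finrank ℂ A = finrank ℂ B ∧ ∀ η ∈ B, ∃ ξ ∈ A, ∃ c : ℂ, η = ξ + c • u := by
  have hu0 : u ≠ 0 := fun h => hu (h ▸ A.zero_mem)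
  have h1 : A ⊔ Submodule.span ℂ {u} ≤ B ⊔ Submodule.span ℂ {u} := by
    refine sup_le (fun ξ hξ => ?_) le_sup_right
    obtain ⟨η, hη, c, rfl⟩ := hle ξ hξ
    exact Submodule.add_mem _ (Submodule.mem_sup_left hη)
      (Submodule.mem_sup_right (Submodule.smul_mem _ c (Submodule.mem_span_singleton_self u)))
  have hdisj : A ⊓ Submodule.span ℂ {u} = ⊥ := by
    rw [← disjoint_iff]
    exact (Submodule.disjoint_span_singleton' hu0).mpr hu
  have h2 : finrank ℂ ↥(A ⊔ Submodule.span ℂ {u}) = finrank ℂ A + 1 := by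
    have := Submodule.finrank_sup_add_finrank_inf_eq A (Submodule.span ℂ {u})
    rw [hdisj, finrank_bot, finrank_span_singleton hu0] at this
    omega
  have h3 : finrank ℂ ↥(B ⊔ Submodule.span ℂ {u}) ≤ finrank ℂ B + 1 := by
    have := Submodule.finrank_add_le_finrank_add_finrank B (Submodule.span ℂ {u})
    rw [finrank_span_singleton hu0] at this
    exact this
  have h4 := Submodule.finrank_mono h1
  have h5 : A ⊔ Submodule.span ℂ {u} = B ⊔ Submodule.span ℂ {u} :=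
    Submodule.eq_of_le_of_finrank_le h1 (by omega)
  refine ⟨by omega, fun η hη => ?_⟩
  have h6 : η ∈ A ⊔ Submodule.span ℂ {u} := h5 ▸ Submodule.mem_sup_left hη
  obtain ⟨ξ, hξ, w, hw, rfl⟩ := Submodule.mem_sup.mp h6
  obtain ⟨c, rfl⟩ := Submodule.mem_span_singleton.mp hw
  exact ⟨ξ, hξ, c, rfl⟩

/-- **(S-a) + (S-b)**: a further moving root on `Y'` forces `dim X = dim Y` and a common `(k+1)`-flat. -/
theorem geo_sec_flat {X Y Y' : Set (SpC d)} (hX : IsVar X) (hY : IsVar Y) (hY' : IsVar Y')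
    (hl : vdim Y' = vdim Y) (hkl : vdim Y ≤ vdim X) (ht : GeoTr X Y)
    (hroot : GenOn (prodSet X Y) (GeoRoot Y')) :
    vdim X = vdim Y ∧ InFlat (X ∪ Y) (vdim X + 1) := by
  have hV : IsVar (prodSet X Y) := ph_prod_isVar hX hY
  have hA := geo_sec_a hX hY hY' hl.le (geo_img_dim hX hY ht.nt) hroot
  have hT := geo_tr_gen hX hY ht
  have hdX := geo_gen_lift_left (Y := Y) (ph_isVar_nonempty Y hY) (geo_tan_dim_gen hX)
  have hdY := geo_gen_lift_right (X := X) (ph_isVar_nonempty X hX) (geo_tan_dim_gen hY)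
  have hall := geo_gen_and hV (geo_gen_and hV hA hT) (geo_gen_and hV hdX hdY)
  have hkey : GenOn (prodSet X Y) fun z => vdim X = vdim Y ∧ GeoTanGE X Y z := by
    refine geo_gen_mono hall ?_
    rintro z _ ⟨⟨hle, hu, _⟩, h1, h2⟩
    have := geo_tan_eq_of_le (tanAt X (prL z)) (tanAt Y (prR z)) (prR z - prL z)
      (by rw [h1, h2]; exact hkl) hu hle
    exact ⟨by rw [← h1, ← h2]; exact this.1, this.2⟩
  obtain ⟨_, _, hdim, _⟩ := geo_gen_exists hkey
  exact ⟨hdim, geo_sec_b hX hY hdim hA (geo_gen_mono hkey fun _ _ h => h.2)⟩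

theorem GeoTr.exists_ne {X Y : Set (SpC d)} (ht : GeoTr X Y) : ∃ x ∈ X, ∃ y ∈ Y, y ≠ x := by
  obtain ⟨x, hx, y, hy, h1, _⟩ := ht
  refine ⟨x, hx, y, hy, fun h => h1 ?_⟩
  rw [h, sub_self]
  exact Submodule.zero_mem _

/-- a generic condition `y ∈ x₀ + W` on the second factor holds on the whole second factor -/
theorem geo_flat_of_gen {X Y : Set (SpC d)} (hY : IsVar Y) (x₀ : SpC d)
    (W : Submodule ℂ (SpC d)) (h : GenOn (prodSet X Y) fun z => prR z - x₀ ∈ W) :
    ∀ y ∈ Y, y - x₀ ∈ W := by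
  obtain ⟨x, _, hx⟩ := geo_gen_exists (geo_gen_prod_left h)
  obtain ⟨p, _, hp⟩ := (geo_flat_isVar x₀ W).1
  have hZ : ∀ y : SpC d, y ∈ Zl (p : Set (PrfPol d)) ↔ y - x₀ ∈ W := by
    intro y
    have h1 : y ∈ geoFlat x₀ W ↔ y ∈ zeroLocus ℂ p := by rw [hp]
    rw [← show y ∈ geoFlat x₀ W ↔ y - x₀ ∈ W from Iff.rfl, h1, mem_zeroLocus_iff]
    simp only [Zl, Set.mem_setOf_eq, SetLike.mem_coe, aeval_eq_eval]
  have h2 : Y ⊆ Zl (p : Set (PrfPol d)) :=
    geo_gen_closed hY _ (geo_gen_mono hx fun y _ hy => (hZ y).mpr hy)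
  exact fun y hy => (hZ y).mp (h2 hy)

/-- **TRICHOTOMY** (geo:secants, generic part): for transversal pairs `(X,Y)`, `(X,Y')`, `dim Y' = dim Y ≤ dim X`: either the general line `x y` contains no point of `Y'` except possibly `x, y`,
or `dim X = dim Y` and `X, Y, Y'` lie in a common flat of dimension `dim X + 1`. -/
theorem geo_tri {X Y Y' : Set (SpC d)} (hX : IsVar X) (hY : IsVar Y) (hY' : IsVar Y')
    (hl : vdim Y' = vdim Y) (hkl : vdim Y ≤ vdim X) (ht : GeoTr X Y) (ht' : GeoTr X Y') :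
    GenOn (prodSet X Y) (GeoNoRoot Y') ∨
      (vdim X = vdim Y ∧ InFlat (X ∪ Y ∪ Y') (vdim X + 1)) := by
  rcases geo_root_dich hX hY hY' with h | h
  · right
    obtain ⟨hdim, x₀, W, hW, hflat⟩ := geo_sec_flat hX hY hY' hl hkl ht h
    refine ⟨hdim, x₀, W, hW, ?_⟩
    have himg := geo_img_eq_of_root hX hY hY' hl.le (geo_img_dim hX hY ht.nt)
      (geo_gen_mono h fun z _ ⟨w, hw, c, hc, _, he⟩ => ⟨w, hw, c, hc, he⟩)
    have hr := geo_root_of_img hX hY hY' himg ht'.exists_ne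
    have hY'W : ∀ y ∈ Y', y - x₀ ∈ W := by
      refine geo_flat_of_gen (X := X) hY' x₀ W (geo_gen_mono hr ?_)
      rintro z hz ⟨w, hw, c, hc, he⟩
      have h1 : prL z - x₀ ∈ W := hflat _ (Or.inl hz.1)
      have h2 : w - x₀ ∈ W := hflat _ (Or.inr hw)
      have h3 : prR z - x₀ = (prL z - x₀) + c⁻¹ • ((w - x₀) - (prL z - x₀)) := by
        have : (w - x₀) - (prL z - x₀) = c • (prR z - prL z) := by rw [← he]; abel
        rw [this, smul_smul, inv_mul_cancel₀ hc, one_smul]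
        abel
      rw [h3]
      exact W.add_mem h1 (W.smul_mem _ (W.sub_mem h2 h1))
    rintro y (hy | hy)
    · exact hflat y hy
    · exact hY'W y hy
  · left
    refine geo_gen_mono (geo_gen_and (ph_prod_isVar hX hY) h (geo_tr_gen hX hY ht)) ?_
    rintro z _ ⟨h1, h2, _⟩
    refine geo_noRoot_of_not (fun he => h2 ?_) h1
    rw [he, sub_self]
    exact Submodule.zero_mem _

/-! ### GEO-TRI-C -/

/-- the general point of `A` does not lie on a different variety `B` of at most the same dimension -/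
theorem geo_gen_notMem {A B : Set (SpC d)} (hA : IsVar A) (hB : IsVar B) (hdim : vdim B ≤ vdim A)
    (hne : A ≠ B) : GenOn A fun x => x ∉ B := by
  have hsub : ¬ A ⊆ B := fun h =>
    hne (geo_eq_of_subset_of_vdim hB (ph_zcl_of_isVar hA) (ph_isVar_nonempty A hA) h hdim)
  obtain ⟨x, hxA, hxB⟩ := Set.not_subset.1 hsub
  rw [← ph_zcl_of_isVar hB, ph_mem_zcl] at hxB
  push Not at hxB
  obtain ⟨f, hf, hfx⟩ := hxB
  exact ⟨f, ⟨x, hxA, hfx⟩, fun y _ hy hyB => hy (hf y hyB)⟩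

/-- two different targets with the same product image -/
theorem geo_same_img {X Y Y' : Set (SpC d)} (hX : IsVar X) (hY : IsVar Y) (hY' : IsVar Y')
    (hl : vdim Y' = vdim Y) (hkl : vdim Y ≤ vdim X) (ht : GeoTr X Y) (ht' : GeoTr X Y')
    (hne : Y ≠ Y') (himg : spImg X Y = spImg X Y') :
    vdim X = vdim Y ∧ InFlat (X ∪ Y ∪ Y') (vdim X + 1) := by
  rcases geo_tri hX hY hY' hl hkl ht ht' with h | h
  · exfalso
    have hV := ph_prod_isVar hX hY
    have hr := geo_root_of_img hX hY' hY himg.symm ht.exists_ne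
    have hT := geo_tr_gen hX hY ht
    have hN := geo_gen_lift_right (X := X) (ph_isVar_nonempty X hX)
      (geo_gen_notMem hY hY' hl.le hne)
    obtain ⟨z, _, ⟨hno, w, hw, c, hc, he⟩, ⟨hT1, _⟩, hN1⟩ :=
      geo_gen_exists (geo_gen_and hV (geo_gen_and hV h hr) (geo_gen_and hV hT hN))
    have hzne : prR z - prL z ≠ 0 := by
      intro h0
      rw [h0] at hT1
      exact hT1 (Submodule.zero_mem _)
    have hwx : w ≠ prL z := by
      intro h0
      rw [h0, sub_self] at he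
      exact (smul_ne_zero hc hzne) he.symm
    have := hno w hw hwx ⟨c, he⟩
    exact hN1 (this ▸ hw)
  · exact h

/-- hypersurface targets -/
theorem geo_img_full {X Y : Set (SpC d)} (hX : IsVar X) (hY : IsVar Y) (hd : vdim Y + 1 = d)
    (hnt : GeoNT X Y) : spImg X Y = prodSet X Set.univ := by
  have hZ := sp_img_isVar hX hY
  obtain ⟨hP, hPd, _⟩ := sp_img_prod hX
  refine geo_eq_of_subset_of_vdim hP (ph_zcl_of_isVar hZ) (ph_isVar_nonempty _ hZ) ?_ ?_
  · rw [← ph_zcl_of_isVar hP]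
    apply ph_zcl_mono
    rintro w ⟨z, ⟨hz1, _⟩, lam, rfl⟩
    exact ⟨hz1, Set.mem_univ _⟩
  · rw [hPd, geo_img_dim hX hY hnt]
    omega

/-- **degree of the product image** when the projection of `Y` from the general point of `X` is generically injective -/
theorem geo_img_deg {X Y : Set (SpC d)} (hX : IsVar X) (hY : IsVar Y) (hdim : vdim X = vdim Y)
    (ht : GeoTr X Y) (h1 : GenOn (prodSet X Y) (GeoNoRoot Y)) :
    vdeg X * vdeg Y ≤ 2 * vdeg (spImg X Y) := by
  have hhalf : GenOn X fun x => DepHalfGood x Y := by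
    by_cases hXY : X = Y
    · subst hXY
      apply geo_half_gen hX
      by_contra hlt
      have h1' : vdeg X = 1 := by
        have := ph_vdeg_pos X hX
        omega
      obtain ⟨y₀, W, _, hYW⟩ := geo_flat_of_deg_one hX h1'
      obtain ⟨x, hx, y, hy, _, h2⟩ := ht
      apply h2
      rw [hYW] at hx hy ⊢
      rw [geo_tanAt_flat y₀ W hy]
      have : y - x = (y - y₀) - (x - y₀) := by abel
      rw [this]
      exact W.sub_mem hy hx
    · exact geo_gen_mono (geo_gen_notMem hX hY hdim.ge hXY) fun x _ hx => geo_half_out hY x hx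
  have hroot : GenOn X fun x => DepRootLE x Y Y 1 := by
    refine geo_gen_mono (geo_gen_prod_left h1) ?_
    rintro x _ ⟨h, hh, hP⟩
    refine ⟨h, hh, fun y hy hne => ?_⟩
    have hsub : depRoots x y Y ⊆ {y} := by
      rintro w ⟨hw, hwx, hc⟩
      exact hP y hy hne w hw hwx hc
    refine ⟨(Set.finite_singleton y).subset hsub, ?_⟩
    calc (depRoots x y Y).ncard ≤ ({y} : Set (SpC d)).ncard :=
          Set.ncard_le_ncard hsub (Set.finite_singleton y)
      _ = 1 := Set.ncard_singleton y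
  have hgen : GenOn X fun x => vdim (dcone x Y) = vdim Y + 1 ∧
      (vdeg Y + 1) / 2 ≤ vdeg (dcone x Y) := by
    refine geo_gen_mono (geo_gen_and hX (geo_cone_dim_gen hY ht.nt) (geo_gen_and hX hhalf hroot)) ?_
    rintro x _ ⟨h3, h4, h5⟩
    have := h4 1 h5
    exact ⟨h3, by omega⟩
  have hmix := (geo_mix hY ((vdeg Y + 1) / 2) (vdim X) X hX rfl hgen).2
  calc vdeg X * vdeg Y ≤ vdeg X * (2 * ((vdeg Y + 1) / 2)) := Nat.mul_le_mul_left _ (by omega)
    _ = 2 * (vdeg X * ((vdeg Y + 1) / 2)) := by ring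
    _ ≤ 2 * vdeg (spImg X Y) := Nat.mul_le_mul_left _ hmix

end Claimed.Agent.R273
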