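-- KEEP
import Claimed.Agent.R273.GeoTri

/-!
# Row 273, S4, unit GD = geo:generic-depth (secants.tex l.105-220): DEFINITIONS and CONTRACTS.  Architect helper60.  Prefix `gd_` / `Gd`.

TARGETS (proved in `GdTop.lean`, `GdList.lean` from helper26's geometric exports `Geo*.lean` and the leaves of `GdAG`, `GdReal`, `GdMass`):
* `gd_depth : SpDepthStmt d`   (contract of helper37, SpCom.lean; `k = l`)
* `gd_tang  : SpTangStmt d`    (hypersurface targets)
* `gd_list  : GdListStmt d`    (the ROOT form, `k ≥ l`; consumed by BP-DEP-W1 = `dep_wide_lists`)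

CONSUMED (helper26, theorems): `geo_not_tr`, `geo_tan_pin`, `geo_span_pin`, `geo_flat_of_deg_one`, `geo_tanAt_flat`, `geo_img_dim`, `geo_tri`, `geo_same_img`, `geo_img_deg`, `geo_img_full`.

VOCABULARY.  `X = spZ 𝔵`, `Y = spZ 𝔶` carriers (zero sets of primes).
* `GdTanL 𝔵 𝔶` / `GdTanR 𝔵 𝔶` : ALL connecting directions are tangent at the source / at the target;  `¬ SpTransv` is the union of the two (`gd_not_transv`).
* `GdCop 𝔵 𝔶 𝔮` : `Z(𝔮)` lies in the complex affine span of `X ∪ Y` (in every flat containing `X ∪ Y`).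
* weights, heavy flats, `GdGood`: the retained carrier pairs.

STRUCTURE OF THE PROOF (paper + helper148's note, msg 10384).  `τ = e^{ε w}`, `𝓕` = the heavy flat members of both families (weight `≥ |S|/e · e^{-w/12}`).
`R` := the carrier pairs `(asg₁ x, asg₂ y)` which are `GdGood`:  transverse, and IF they lie in a common `(k+1)`-flat THEN both are heavy flats and their span contains at most `τ` members of `𝓕`.
BAD pairs = 7 types, each of mass `≤ (η/8) |S₁||S₂|`: TanL, TanR (flat caps: all partners lie in one tangent flat), NonlinL, NonlinR (a nonlinear member spans the `(k+1)`-flat; flat caps), LightL, LightR (counting), Rich (real slicing + rich lines of Szemeredi-Trotter + dyadic sum).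
GOOD pairs: Case A (not in a common `(k+1)`-flat): `geo_tri`, `geo_same_img`, `geo_img_deg`: no further moving root, one target per image, `deg X deg Y ≤ 2 deg Z`.
            Case B (flats in a common `(k+1)`-flat): degree `1`; targets with the same image lie in the span, are good, hence heavy flats: at most `τ`.
-/

set_option autoImplicit false

namespace Claimed.Agent.R273

open MvPolynomial Module

variable {d : ℕ}

/-- all connecting directions are tangent at the source -/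
def GdTanL (𝔵 𝔶 : Ideal (PrfPol d)) : Prop := ∀ x ∈ spZ 𝔵, ∀ y ∈ spZ 𝔶, y - x ∈ tanSp 𝔵 x

/-- all connecting directions are tangent at the target -/
def GdTanR (𝔵 𝔶 : Ideal (PrfPol d)) : Prop := ∀ x ∈ spZ 𝔵, ∀ y ∈ spZ 𝔶, y - x ∈ tanSp 𝔶 y

/-- `Z(𝔮)` lies in the affine span of `Z(𝔵) ∪ Z(𝔶)` -/
def GdCop (𝔵 𝔶 𝔮 : Ideal (PrfPol d)) : Prop :=
  ∀ (x₀ : SpC d) (W : Submodule ℂ (SpC d)), (∀ z ∈ spZ 𝔵 ∪ spZ 𝔶, z - x₀ ∈ W) →
    ∀ z ∈ spZ 𝔮, z - x₀ ∈ W

/-! ## Weights, heavy flats, good pairs -/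

open scoped Classical in
/-- the number of points assigned to `p` -/
noncomputable def gdWt (S : Finset (SpC d)) (asg : SpC d → Ideal (PrfPol d))
    (p : Ideal (PrfPol d)) : ℕ := (S.filter fun x => asg x = p).card

/-- heavy members: normalised weight `≥ e^{-1} e^{-w/12}` -/
def GdHeavy (e w : ℝ) (S : Finset (SpC d)) (asg : SpC d → Ideal (PrfPol d))
    (p : Ideal (PrfPol d)) : Prop :=
  (S.card : ℝ) / e * Real.exp (-(w / 12)) ≤ (gdWt S asg p : ℝ)

open scoped Classical in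
/-- the flat members of a family -/
noncomputable def gdFl (S : Finset (SpC d)) (asg : SpC d → Ideal (PrfPol d)) :
    Finset (Ideal (PrfPol d)) := (S.image asg).filter fun p => vdeg (spZ p) = 1

open scoped Classical in
/-- the heavy flat members of a family -/
noncomputable def gdHv (e w : ℝ) (S : Finset (SpC d)) (asg : SpC d → Ideal (PrfPol d)) :
    Finset (Ideal (PrfPol d)) := (gdFl S asg).filter fun p => GdHeavy e w S asg p

open scoped Classical in
/-- the number of members of `𝓕` in the span of `Z(𝔵) ∪ Z(𝔶)` -/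
noncomputable def gdU (𝓕 : Finset (Ideal (PrfPol d))) (𝔵 𝔶 : Ideal (PrfPol d)) : ℕ :=
  (𝓕.filter fun q => GdCop 𝔵 𝔶 q).card

/-- the retained carrier pairs; `u` = dimension of the critical flats (`k + 1`) -/
def GdGood (u : ℕ) (𝓕 : Finset (Ideal (PrfPol d))) (τ : ℝ)
    (r : Ideal (PrfPol d) × Ideal (PrfPol d)) : Prop :=
  SpTransv r.1 r.2 ∧
    (InFlat (spZ r.1 ∪ spZ r.2) u → r.1 ∈ 𝓕 ∧ r.2 ∈ 𝓕 ∧ (gdU 𝓕 r.1 r.2 : ℝ) ≤ τ)

open scoped Classical in
/-- the carrier pairs of two assignments satisfying `Pr` -/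
noncomputable def gdR (S₁ S₂ : Finset (SpC d)) (asg₁ asg₂ : SpC d → Ideal (PrfPol d))
    (Pr : Ideal (PrfPol d) × Ideal (PrfPol d) → Prop) :
    Finset (Ideal (PrfPol d) × Ideal (PrfPol d)) :=
  ((S₁ ×ˢ S₂).image fun z => (asg₁ z.1, asg₂ z.2)).filter Pr

/-! ## The exported root form -/

/-- **(GD)** geo:generic-depth, ROOT FORM, `k ≥ l`: after removing carrier pairs of product mass `≤ η n_x n_y`, every retained pair is generically transverse and the general line `xy` contains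
at most `e^{ε w}` points (other than `x`) of the union of the retained targets of its source. -/
def GdListStmt (d : ℕ) : Prop :=
  ∀ k l : ℕ, 1 ≤ l → l ≤ k → k < d → l + 1 < d → ∀ ε η : ℝ, 0 < ε → 0 < η → ∃ θ : ℝ, 0 < θ ∧
    ∀ (D : SpData d) (w e : ℝ), D.Reg θ → 1 / θ ≤ w → w ≤ Real.log D.B → 0 < e →
    ∀ (S₁ S₂ : Finset (SpC d)) (asg₁ asg₂ : SpC d → Ideal (PrfPol d)),
      SpFamOk D k w θ S₁ asg₁ → SpFamOk D l w θ S₂ asg₂ →
      (k = l → SpFlatOk e w θ S₁ asg₁ ∧ SpFlatOk e w θ S₂ asg₂) →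
      ∃ R : Finset (Ideal (PrfPol d) × Ideal (PrfPol d)),
        (∀ Λ ⊆ S₁ ×ˢ S₂, (∀ z ∈ Λ, (asg₁ z.1, asg₂ z.2) ∉ R) →
          (Λ.card : ℝ) ≤ η * S₁.card * S₂.card) ∧
        (∀ r ∈ R, (∃ x ∈ S₁, asg₁ x = r.1) ∧ ∃ y ∈ S₂, asg₂ y = r.2) ∧
        ∀ r ∈ R, SpTransv r.1 r.2 ∧ ∃ q : ℕ, (q : ℝ) ≤ Real.exp (ε * w) ∧
          DepRootLE₂ (spZ r.1) (spZ r.2) (⋃ 𝔮 ∈ {𝔮 | (r.1, 𝔮) ∈ R}, spZ 𝔮) q

end Claimed.Agent.R273
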