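import Claimed.Agent.R273.GdTop

/-!
# Row 273, S4, unit GD: THE ROOT FORM `gd_list : GdListStmt d` (`k ≥ l`), consumed by BP-DEP-W1 (`dep_wide_lists`).  Architect helper60.

All proofs here are complete (no `sorry` in this file).
-/

set_option autoImplicit false

namespace Claimed.Agent.R273

open MvPolynomial Module

variable {d : ℕ}

theorem gd_elim_pr (z : Fin d ⊕ Fin d → ℂ) : Sum.elim (prL z) (prR z) = z := by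
  funext i
  cases i <;> rfl

/-- from `GenOn (prodSet X Y)` to the two-variable form of `DepDefs.lean` -/
theorem gd_root2_of_gen {X Y U : Set (SpC d)} {q : ℕ}
    (h : GenOn (prodSet X Y) fun z =>
      (depRoots (prL z) (prR z) U).Finite ∧ (depRoots (prL z) (prR z) U).ncard ≤ q) :
    DepRootLE₂ X Y U q := by
  obtain ⟨H, ⟨z, hz, hne⟩, hP⟩ := h
  refine ⟨H, ⟨prL z, hz.1, prR z, hz.2, by rwa [gd_elim_pr]⟩, fun x hx y hy hxy => ?_⟩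
  exact hP (Sum.elim x y) ⟨hx, hy⟩ hxy

/-- a flat not containing the centre meets every line through the centre at most once -/
theorem gd_flat_one_root (q₀ : SpC d) (W : Submodule ℂ (SpC d)) (x y : SpC d)
    (hx : x ∉ geoFlat q₀ W) : (depRoots x y (geoFlat q₀ W)).Subsingleton := by
  rintro z₁ ⟨h1, _, c₁, e₁⟩ z₂ ⟨h2, _, c₂, e₂⟩
  by_contra hne
  apply hx
  have hc : c₁ - c₂ ≠ 0 := by
    intro h0
    apply hne
    have : c₁ = c₂ := sub_eq_zero.1 h0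
    have e : z₁ - x = z₂ - x := by rw [e₁, e₂, this]
    exact sub_left_injective e
  have hu : (c₁ - c₂) • (y - x) ∈ W := by
    have : (c₁ - c₂) • (y - x) = (z₁ - q₀) - (z₂ - q₀) := by
      rw [sub_smul, ← e₁, ← e₂]; abel
    rw [this]
    exact W.sub_mem h1 h2
  have hu' : y - x ∈ W := by
    have := W.smul_mem (c₁ - c₂)⁻¹ hu
    rwa [smul_smul, inv_mul_cancel₀ hc, one_smul] at this
  have : x - q₀ = (z₁ - q₀) - c₁ • (y - x) := by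
    rw [← e₁]; abel
  show x - q₀ ∈ W
  rw [this]
  exact W.sub_mem h1 (W.smul_mem _ hu')

/-- a flat target, transverse to the source, has at most one root over the general pair -/
theorem gd_flat_gen_one {𝔵 𝔮 : Ideal (PrfPol d)} (hx : 𝔵.IsPrime) (hq : 𝔮.IsPrime)
    (hq1 : vdeg (spZ 𝔮) = 1) (htr : SpTransv 𝔵 𝔮) {Y : Set (SpC d)} (hY : Y.Nonempty) :
    GenOn (prodSet (spZ 𝔵) Y) fun z => (depRoots (prL z) (prR z) (spZ 𝔮)).Subsingleton := by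
  obtain ⟨q₀, W, _, hQ⟩ := geo_flat_of_deg_one (gd_isVar hq) hq1
  -- some point of `X` is not in `Q`
  have hex : ∃ x ∈ spZ 𝔵, x ∉ spZ 𝔮 := by
    by_contra hall
    push Not at hall
    obtain ⟨x, hxX, y, hyQ, _, h2⟩ := (geo_transv_iff 𝔵 𝔮 hx hq).1 htr
    have hxQ := hall x hxX
    rw [hQ] at hxQ hyQ h2
    rw [geo_tanAt_flat q₀ W hyQ] at h2
    apply h2
    have : y - x = (y - q₀) - (x - q₀) := by abel
    rw [this]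
    exact W.sub_mem hyQ hxQ
  obtain ⟨x₁, hx₁, hx₁Q⟩ := hex
  have hg : ∃ g ∈ 𝔮, eval x₁ g ≠ 0 := by
    by_contra hall
    push Not at hall
    apply hx₁Q
    show x₁ ∈ zeroLocus ℂ 𝔮
    rw [mem_zeroLocus_iff]
    intro g hg
    rw [aeval_eq_eval]
    exact hall g hg
  obtain ⟨g, hg, hgx⟩ := hg
  have h1 : GenOn (spZ 𝔵) fun x => eval x g ≠ 0 := geo_gen_ne g ⟨x₁, hx₁, hgx⟩
  refine geo_gen_mono (geo_gen_lift_left hY h1) ?_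
  intro z _ hz
  have hnot : prL z ∉ geoFlat q₀ W := by
    rw [← hQ]
    exact fun hm => hz (gd_eval_eq_zero hm hg)
  rw [hQ]
  exact gd_flat_one_root q₀ W _ _ hnot

/-- **counting the roots on a list**: the members outside `𝓛₁` have no further root, the members of `𝓛₁ ∋ 𝔶` at most one root each. -/
theorem gd_roots_count {X : Set (SpC d)} {𝔶 : Ideal (PrfPol d)} (hX : IsVar X)
    (hY : IsVar (spZ 𝔶)) (𝓛 𝓛₁ : Finset (Ideal (PrfPol d))) (hy : 𝔶 ∈ 𝓛₁)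
    (h0 : ∀ 𝔮 ∈ 𝓛, 𝔮 ∉ 𝓛₁ → GenOn (prodSet X (spZ 𝔶)) (GeoNoRoot (spZ 𝔮)))
    (h1 : ∀ 𝔮 ∈ 𝓛₁, GenOn (prodSet X (spZ 𝔶)) fun z =>
      (depRoots (prL z) (prR z) (spZ 𝔮)).Subsingleton) :
    DepRootLE₂ X (spZ 𝔶) (⋃ 𝔮 ∈ 𝓛, spZ 𝔮) 𝓛₁.card := by
  classical
  have hV : IsVar (prodSet X (spZ 𝔶)) := ph_prod_isVar hX hY
  have g0 : GenOn (prodSet X (spZ 𝔶)) fun z => ∀ 𝔮 ∈ 𝓛.filter (fun 𝔮 => 𝔮 ∉ 𝓛₁),
      GeoNoRoot (spZ 𝔮) z :=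
    geo_gen_finset hV _ _ fun 𝔮 h𝔮 => h0 𝔮 (Finset.mem_filter.1 h𝔮).1 (Finset.mem_filter.1 h𝔮).2
  have g1 := geo_gen_finset hV 𝓛₁ _ h1
  refine gd_root2_of_gen (geo_gen_mono (geo_gen_and hV g0 g1) ?_)
  rintro z hz ⟨a0, a1⟩
  set x := prL z with hxdef
  set y := prR z with hydef
  -- a choice of the root on each member of `𝓛₁`
  let pick : Ideal (PrfPol d) → SpC d := fun 𝔮 =>
    if h : (depRoots x y (spZ 𝔮)).Nonempty then h.choose else 0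
  have hsub : depRoots x y (⋃ 𝔮 ∈ 𝓛, spZ 𝔮) ⊆ ((𝓛₁.image pick : Finset (SpC d)) : Set (SpC d)) := by
    rintro z' ⟨hz'U, hz'x, hc⟩
    simp only [Set.mem_iUnion] at hz'U
    obtain ⟨𝔮, h𝔮, hz'𝔮⟩ := hz'U
    have key : ∃ 𝔮' ∈ 𝓛₁, z' ∈ depRoots x y (spZ 𝔮') := by
      by_cases hm : 𝔮 ∈ 𝓛₁
      · exact ⟨𝔮, hm, hz'𝔮, hz'x, hc⟩
      · have hzy : z' = y := a0 𝔮 (Finset.mem_filter.2 ⟨h𝔮, hm⟩) z' hz'𝔮 hz'x hc
        exact ⟨𝔶, hy, by rw [hzy]; exact hz.2, hz'x, hc⟩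
    obtain ⟨𝔮', h𝔮', hz'⟩ := key
    have hne : (depRoots x y (spZ 𝔮')).Nonempty := ⟨z', hz'⟩
    have hp : pick 𝔮' = z' := by
      simp only [pick, dif_pos hne]
      exact a1 𝔮' h𝔮' hne.choose_spec hz'
    rw [Finset.mem_coe, Finset.mem_image]
    exact ⟨𝔮', h𝔮', hp⟩
  refine ⟨(Finset.finite_toSet _).subset hsub, ?_⟩
  calc (depRoots x y (⋃ 𝔮 ∈ 𝓛, spZ 𝔮)).ncard
      ≤ ((𝓛₁.image pick : Finset (SpC d)) : Set (SpC d)).ncard :=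
        Set.ncard_le_ncard hsub (Finset.finite_toSet _)
    _ = (𝓛₁.image pick).card := Set.ncard_coe_finset _
    _ ≤ 𝓛₁.card := Finset.card_image_le

theorem gd_noRoot_subsingleton {Y : Set (SpC d)} {z : Fin d ⊕ Fin d → ℂ} (h : GeoNoRoot Y z) :
    (depRoots (prL z) (prR z) Y).Subsingleton := by
  rintro z₁ ⟨h1, h1x, c1⟩ z₂ ⟨h2, h2x, c2⟩
  rw [h z₁ h1 h1x c1, h z₂ h2 h2x c2]

open scoped Classical in
/-- the listed targets of a source -/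
noncomputable def gdLs (R : Finset (Ideal (PrfPol d) × Ideal (PrfPol d))) (𝔵 : Ideal (PrfPol d)) :
    Finset (Ideal (PrfPol d)) := (R.filter fun r => r.1 = 𝔵).image Prod.snd

theorem gd_mem_ls {R : Finset (Ideal (PrfPol d) × Ideal (PrfPol d))} {𝔵 𝔮 : Ideal (PrfPol d)} :
    𝔮 ∈ gdLs R 𝔵 ↔ (𝔵, 𝔮) ∈ R := by
  classical
  unfold gdLs
  rw [Finset.mem_image]
  constructor
  · rintro ⟨r, hr, rfl⟩
    obtain ⟨h1, h2⟩ := Finset.mem_filter.1 hr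
    rw [← h2]
    exact h1
  · intro h
    exact ⟨(𝔵, 𝔮), Finset.mem_filter.2 ⟨h, rfl⟩, rfl⟩

theorem gd_union_ls (R : Finset (Ideal (PrfPol d) × Ideal (PrfPol d))) (𝔵 : Ideal (PrfPol d)) :
    (⋃ 𝔮 ∈ {𝔮 | (𝔵, 𝔮) ∈ R}, spZ 𝔮) = ⋃ 𝔮 ∈ gdLs R 𝔵, spZ 𝔮 := by
  ext z
  simp only [Set.mem_iUnion, Set.mem_ofPred_eq, gd_mem_ls]

/-- **Case A for lists**: depth one. -/
theorem gd_list_A {𝔵 𝔶 : Ideal (PrfPol d)} (hx : 𝔵.IsPrime) (hy : 𝔶.IsPrime)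
    (hle : vdim (spZ 𝔶) ≤ vdim (spZ 𝔵)) (htr : SpTransv 𝔵 𝔶)
    (hA : ¬ (vdim (spZ 𝔵) = vdim (spZ 𝔶) ∧ InFlat (spZ 𝔵 ∪ spZ 𝔶) (vdim (spZ 𝔵) + 1)))
    (𝓛 : Finset (Ideal (PrfPol d)))
    (h𝓛 : ∀ 𝔮 ∈ 𝓛, 𝔮.IsPrime ∧ vdim (spZ 𝔮) = vdim (spZ 𝔶) ∧ SpTransv 𝔵 𝔮) :
    DepRootLE₂ (spZ 𝔵) (spZ 𝔶) (⋃ 𝔮 ∈ 𝓛, spZ 𝔮) 1 := by
  have := gd_roots_count (gd_isVar hx) (gd_isVar hy) 𝓛 {𝔶} (Finset.mem_singleton_self _)
    (fun 𝔮 h𝔮 _ => gd_caseA_noRoot hx hy (h𝓛 𝔮 h𝔮).1 (h𝓛 𝔮 h𝔮).2.1 hle htr (h𝓛 𝔮 h𝔮).2.2 hA)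
    (fun 𝔮 h𝔮 => by
      rw [Finset.mem_singleton.1 h𝔮]
      exact geo_gen_mono (gd_caseA_noRoot hx hy hy rfl hle htr htr hA)
        fun z _ h => gd_noRoot_subsingleton h)
  simpa using this

theorem gd_card_cover2 {α : Type*} (Λ : Finset α) (P1 P2 : α → Prop) (c : ℝ)
    (hcov : ∀ z ∈ Λ, P1 z ∨ P2 z)
    (hb : ∀ Λ' ⊆ Λ, ((∀ z ∈ Λ', P1 z) ∨ (∀ z ∈ Λ', P2 z)) → (Λ'.card : ℝ) ≤ c) :
    (Λ.card : ℝ) ≤ 2 * c := by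
  classical
  have hsub : Λ ⊆ Λ.filter P1 ∪ Λ.filter P2 := by
    intro z hz
    simp only [Finset.mem_union, Finset.mem_filter]
    rcases hcov z hz with h | h <;> tauto
  have hc : Λ.card ≤ (Λ.filter P1).card + (Λ.filter P2).card :=
    (Finset.card_le_card hsub).trans (Finset.card_union_le _ _)
  have hc' : (Λ.card : ℝ) ≤ ((Λ.filter P1).card : ℝ) + ((Λ.filter P2).card : ℝ) := by
    exact_mod_cast hc
  have b1 := hb (Λ.filter P1) (Finset.filter_subset _ _)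
    (Or.inl fun z hz => (Finset.mem_filter.1 hz).2)
  have b2 := hb (Λ.filter P2) (Finset.filter_subset _ _)
    (Or.inr fun z hz => (Finset.mem_filter.1 hz).2)
  linarith

/-- the mass of the non-transverse pairs (any dimensions `< d`) -/
theorem gd_mass_notTransv (hd : 3 ≤ d) {k l : ℕ} (hk : k < d) (hl : l < d) {D : SpData d}
    {θ w η : ℝ} (hD : D.Reg θ) (hθ : θ ≤ 1) (hη : 0 < η)
    {S₁ S₂ : Finset (SpC d)} {asg₁ asg₂ : SpC d → Ideal (PrfPol d)}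
    (hF₁ : SpFamOk D k w θ S₁ asg₁) (hF₂ : SpFamOk D l w θ S₂ asg₂)
    (n1 : D.B ^ (-(1 / 3 : ℝ)) * Real.exp (θ * w) ≤ η / 8)
    (Λ : Finset (SpC d × SpC d)) (hΛ : Λ ⊆ S₁ ×ˢ S₂)
    (hbad : ∀ z ∈ Λ, ¬ SpTransv (asg₁ z.1) (asg₂ z.2)) :
    (Λ.card : ℝ) ≤ η * S₁.card * S₂.card := by
  have hB : 0 < D.B := lt_of_lt_of_le one_pos (hD.one_le_B hθ)
  have hN : 0 ≤ D.N := le_trans zero_le_one (hD.one_le_N hθ)
  have c1 : D.N * D.B ^ (-(1 / 3 : ℝ)) ≤ η / 8 * S₁.card := gd_cap_le hN hF₁.size n1 hB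
  have c2 : D.N * D.B ^ (-(1 / 3 : ℝ)) ≤ η / 8 * S₂.card := gd_cap_le hN hF₂.size n1 hB
  have s1 : (0 : ℝ) ≤ S₁.card := Nat.cast_nonneg _
  have s2 : (0 : ℝ) ≤ S₂.card := Nat.cast_nonneg _
  have key := gd_card_cover2 Λ
    (fun z => GdTanL (asg₁ z.1) (asg₂ z.2)) (fun z => GdTanR (asg₁ z.1) (asg₂ z.2))
    (η / 8 * S₁.card * S₂.card) ?_ ?_
  · have : 0 ≤ η * S₁.card * S₂.card := by positivity
    nlinarith
  · intro z hz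
    have hz' := Finset.mem_product.1 (hΛ hz)
    exact gd_not_transv _ _ (hF₁.prime _ hz'.1) (hF₂.prime _ hz'.2) (hbad z hz)
  · intro Λ' hΛ' hcase
    have hsub : Λ' ⊆ S₁ ×ˢ S₂ := hΛ'.trans hΛ
    rcases hcase with h | h
    · have := gd_mass_pinL hd hD hθ S₁ S₂ asg₁ asg₂ hF₂.sub hF₂.mem GdTanL
        (fun x hx => by
          obtain ⟨x₀, W, hW, hp⟩ := gd_tanL_flat (asg₁ x) (hF₁.prime x hx)
          exact ⟨x₀, W, by rw [hF₁.dim x hx] at hW; omega, hp⟩) Λ' hsub h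
      calc (Λ'.card : ℝ) ≤ D.N * D.B ^ (-(1 / 3 : ℝ)) * S₁.card := this
        _ ≤ η / 8 * S₂.card * S₁.card := mul_le_mul_of_nonneg_right c2 s1
        _ = η / 8 * S₁.card * S₂.card := by ring
    · have := gd_mass_pinR hd hD hθ S₁ S₂ asg₁ asg₂ hF₁.sub hF₁.mem GdTanR
        (fun y hy => by
          obtain ⟨y₀, W, hW, hp⟩ := gd_tanR_flat (asg₂ y) (hF₂.prime y hy)
          exact ⟨y₀, W, by rw [hF₂.dim y hy] at hW; omega, hp⟩) Λ' hsub h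
      calc (Λ'.card : ℝ) ≤ D.N * D.B ^ (-(1 / 3 : ℝ)) * S₂.card := this
        _ ≤ η / 8 * S₁.card * S₂.card := mul_le_mul_of_nonneg_right c1 s2

/-- the root bound for a good pair, `k = l` -/
theorem gd_list_good {k : ℕ} {D : SpData d} {θ w e τ : ℝ} (hτ : 1 ≤ τ)
    {S₁ S₂ : Finset (SpC d)} {asg₁ asg₂ : SpC d → Ideal (PrfPol d)}
    (hF₁ : SpFamOk D k w θ S₁ asg₁) (hF₂ : SpFamOk D k w θ S₂ asg₂)
    (r : Ideal (PrfPol d) × Ideal (PrfPol d))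
    (hr : r ∈ gdR S₁ S₂ asg₁ asg₂ (GdGood (k + 1) (gdHv e w S₁ asg₁ ∪ gdHv e w S₂ asg₂) τ)) :
    ∃ q : ℕ, (q : ℝ) ≤ τ ∧ DepRootLE₂ (spZ r.1) (spZ r.2)
      (⋃ 𝔮 ∈ {𝔮 | (r.1, 𝔮) ∈
        gdR S₁ S₂ asg₁ asg₂ (GdGood (k + 1) (gdHv e w S₁ asg₁ ∪ gdHv e w S₂ asg₂) τ)}, spZ 𝔮) q := by
  classical
  set 𝓕 := gdHv e w S₁ asg₁ ∪ gdHv e w S₂ asg₂ with h𝓕
  set R := gdR S₁ S₂ asg₁ asg₂ (GdGood (k + 1) 𝓕 τ) with hR
  obtain ⟨⟨x, hx, y, hy, rfl⟩, htr, hgood⟩ := gd_mem_R.1 hr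
  simp only at htr hgood ⊢
  have hpx := hF₁.prime x hx
  have hpy := hF₂.prime y hy
  have hdx := hF₁.dim x hx
  have hdy := hF₂.dim y hy
  have hvdeg : ∀ p ∈ 𝓕, vdeg (spZ p) = 1 := by
    intro p hp
    rcases Finset.mem_union.1 hp with h | h
    · exact (gd_mem_hv.1 h).2.1
    · exact (gd_mem_hv.1 h).2.1
  have hls : ∀ 𝔮 ∈ gdLs R (asg₁ x), 𝔮.IsPrime ∧ vdim (spZ 𝔮) = k ∧ SpTransv (asg₁ x) 𝔮 ∧
      (InFlat (spZ (asg₁ x) ∪ spZ 𝔮) (k + 1) → 𝔮 ∈ 𝓕) := by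
    intro 𝔮 h𝔮
    obtain ⟨⟨x', _, y', hy', heq⟩, htr', hg'⟩ := gd_mem_R.1 (gd_mem_ls.1 h𝔮)
    have hq' : 𝔮 = asg₂ y' := (Prod.mk.inj heq).2
    exact ⟨hq' ▸ hF₂.prime y' hy', hq' ▸ hF₂.dim y' hy', htr', fun h => (hg' h).2.1⟩
  rw [gd_union_ls]
  by_cases hfl : InFlat (spZ (asg₁ x) ∪ spZ (asg₂ y)) (k + 1)
  · obtain ⟨ma, mb, hU⟩ := hgood hfl
    have hne : asg₁ x ≠ asg₂ y := by
      intro heq
      rw [← heq] at htr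
      exact gd_flat_not_transv _ hpx (hvdeg _ ma) htr
    set 𝓛₁ := (gdLs R (asg₁ x)).filter fun q => q ∈ 𝓕 ∧ GdCop (asg₁ x) (asg₂ y) q with h𝓛₁
    have hy𝓛₁ : asg₂ y ∈ 𝓛₁ :=
      Finset.mem_filter.2 ⟨gd_mem_ls.2 hr, mb, fun x₀ W h z hz => h z (Or.inr hz)⟩
    have hcard : (𝓛₁.card : ℝ) ≤ τ := by
      refine le_trans ?_ hU
      unfold gdU
      have hsub : 𝓛₁ ⊆ 𝓕.filter fun q => GdCop (asg₁ x) (asg₂ y) q := fun q hq =>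
        Finset.mem_filter.2 (Finset.mem_filter.1 hq).2
      exact_mod_cast Finset.card_le_card hsub
    refine ⟨𝓛₁.card, hcard, ?_⟩
    refine gd_roots_count (gd_isVar hpx) (gd_isVar hpy) _ 𝓛₁ hy𝓛₁ ?_ ?_
    · intro 𝔮 h𝔮 hnot
      obtain ⟨hpq, hdq, htr', hin⟩ := hls 𝔮 h𝔮
      rcases geo_tri (gd_isVar hpx) (gd_isVar hpy) (gd_isVar hpq) (by omega) (by omega)
        ((geo_transv_iff _ _ hpx hpy).1 htr) ((geo_transv_iff _ _ hpx hpq).1 htr') with h | ⟨_, h2⟩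
      · exact h
      · exfalso
        rw [hdx] at h2
        apply hnot
        refine Finset.mem_filter.2 ⟨h𝔮, hin (gd_inFlat_mono h2 ?_), ?_⟩
        · rintro z (hz | hz)
          · exact Or.inl (Or.inl hz)
          · exact Or.inr hz
        · exact gd_cop_of_inFlat k _ _ _ hpx hpy (hvdeg _ ma) (hvdeg _ mb) hdx hdy hne h2
    · intro 𝔮 h𝔮
      obtain ⟨hl, hq𝓕, _⟩ := Finset.mem_filter.1 h𝔮
      obtain ⟨hpq, _, htr', _⟩ := hls 𝔮 hl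
      exact gd_flat_gen_one hpx hpq (hvdeg _ hq𝓕) htr' (ph_isVar_nonempty _ (gd_isVar hpy))
  · refine ⟨1, by simpa using hτ, ?_⟩
    exact gd_list_A hpx hpy (by omega) htr (fun h => hfl (by rw [hdx] at h; exact h.2)) _
      (fun 𝔮 h𝔮 => ⟨(hls 𝔮 h𝔮).1, by rw [(hls 𝔮 h𝔮).2.1, hdy], (hls 𝔮 h𝔮).2.2.1⟩)

/-- **geo:generic-depth, root form.** -/
theorem gd_list (hd : 3 ≤ d) : GdListStmt d := by
  obtain ⟨C, hC, hrich⟩ := gd_mass_rich hd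
  intro k l hl1 hlk hkd hld ε η hε hη
  obtain ⟨θ, hθ0, hθ1, hnum⟩ := gd_num C ε η hC hε hη
  refine ⟨θ, hθ0, ?_⟩
  intro D w e hD hw1 hw2 he S₁ S₂ asg₁ asg₂ hF₁ hF₂ hfl
  have hB : 0 < D.B := lt_of_lt_of_le one_pos (hD.one_le_B hθ1)
  obtain ⟨n1, n2, n3, n4⟩ := hnum w D.B hw1 hB hw2
  rcases eq_or_lt_of_le hlk with heq | hlt
  · subst heq
    obtain ⟨hL₁, hL₂⟩ := hfl rfl
    refine ⟨gdR S₁ S₂ asg₁ asg₂
      (GdGood (l + 1) (gdHv e w S₁ asg₁ ∪ gdHv e w S₂ asg₂) (Real.exp (ε * w))), ?_, ?_, ?_⟩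
    · intro Λ hΛ hbad
      exact gd_depth_mass hd hld hD hθ1 he hF₁ hF₂ hL₁ hL₂
        (hrich l hld D θ w e _ hD hθ1 he n4 S₁ S₂ asg₁ asg₂ hF₁ hF₂ hL₁ hL₂) n1 n2 n3 Λ hΛ hbad
    · intro r hr
      obtain ⟨⟨x, hx, y, hy, rfl⟩, _⟩ := gd_mem_R.1 hr
      exact ⟨⟨x, hx, rfl⟩, ⟨y, hy, rfl⟩⟩
    · intro r hr
      exact ⟨(gd_mem_R.1 hr).2.1, gd_list_good (by linarith) hF₁ hF₂ r hr⟩
  · refine ⟨gdR S₁ S₂ asg₁ asg₂ (fun r => SpTransv r.1 r.2), ?_, ?_, ?_⟩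
    · intro Λ hΛ hbad
      refine gd_mass_notTransv hd hkd (by omega) hD hθ1 hη hF₁ hF₂ n1 Λ hΛ ?_
      intro z hz htr
      have hz' := Finset.mem_product.1 (hΛ hz)
      exact hbad z hz (gd_mem_R.2 ⟨⟨z.1, hz'.1, z.2, hz'.2, rfl⟩, htr⟩)
    · intro r hr
      obtain ⟨⟨x, hx, y, hy, rfl⟩, _⟩ := gd_mem_R.1 hr
      exact ⟨⟨x, hx, rfl⟩, ⟨y, hy, rfl⟩⟩
    · intro r hr
      obtain ⟨⟨x, hx, y, hy, rfl⟩, htr⟩ := gd_mem_R.1 hr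
      simp only at htr ⊢
      refine ⟨htr, 1, by simpa using (by linarith : (1 : ℝ) ≤ Real.exp (ε * w)), ?_⟩
      rw [gd_union_ls]
      have hdx := hF₁.dim x hx
      have hdy := hF₂.dim y hy
      refine gd_list_A (hF₁.prime x hx) (hF₂.prime y hy) (by omega) htr
        (fun h => by omega) _ ?_
      intro 𝔮 h𝔮
      obtain ⟨⟨x', _, y', hy', heq⟩, htr'⟩ := gd_mem_R.1 (gd_mem_ls.1 h𝔮)
      have hq' : 𝔮 = asg₂ y' := (Prod.mk.inj heq).2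
      exact ⟨hq' ▸ hF₂.prime y' hy', by rw [hq', hF₂.dim y' hy', hdy], htr'⟩

end Claimed.Agent.R273
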