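import Claimed.Agent.R273.GdReal

/-!
# Row 273, S4, unit GD: THE MASS BOUNDS for the seven types of bad carrier pairs, and the numerics.  Architect helper60.  Prefix `gd_`.

`N = D.N`, `B = D.B = N^{1/d}`, so `B^d = N`.  `cap := N B^{-1/3}`: every proper complex flat contains at most `cap` sample points (`gd_cap`).

LEAF GD-MS-PIN   (`gd_cap`, `gd_rows`, `gd_mass_pinR`, `gd_mass_pinL`).
LEAF GD-MS-LIGHT (`gd_wt_sum`, `gd_hv_card`, `gd_mass_lightR`, `gd_mass_lightL`).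
LEAF GD-MS-OCC   (`gd_occ`): physical bound for the occupancy of a proper flat by heavy flats.
LEAF GD-MS-RICH  (`gd_mass_rich`): from `gd_rich_pairs`, `gd_occ`, `gd_hv_card`, `SpFlatOk.wt`.
LEAF GD-MS-NUM   (`gd_num`): real analysis.
-/

set_option autoImplicit false

namespace Claimed.Agent.R273

open MvPolynomial Module

variable {d : ℕ}

/-! ### GD-MS-PIN -/

/-- **the uniform flat cap.**  `x - y = (x - x₀) - (y - x₀) ∈ W`.  `finrank W ≤ 2`: `caps.plane`, `B^{8/3} ≤ B^{d - 1/3}` (`d ≥ 3`, `B ≥ 1`: `SpData.Reg.one_le_B`).  Otherwise `u := finrank W ∈ [3, d-1]`: `caps.flat`, `B^u ≤ B^{d-1}`.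
`N = B^d` (`Real.rpow_natCast`, `Real.rpow_mul`), so `N B^{-1/3} = B^{d - 1/3}` (`Real.rpow_add`). -/
theorem gd_cap (hd : 3 ≤ d) {D : SpData d} {θ : ℝ} (hD : D.Reg θ) (hθ : θ ≤ 1)
    (W : Submodule ℂ (SpC d)) (hW : finrank ℂ W < d) (x₀ : SpC d) (T : Finset (SpC d))
    (hT : T ⊆ D.pts) (h : ∀ x ∈ T, x - x₀ ∈ W) :
    (T.card : ℝ) ≤ D.N * D.B ^ (-(1 / 3 : ℝ)) := by
  have hB1 : 1 ≤ D.B := hD.one_le_B hθ
  have hB0 : 0 < D.B := by linarith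
  have hN1 : 1 ≤ D.N := hD.one_le_N hθ
  have hd0 : (d : ℝ) ≠ 0 := by
    have : 0 < d := by omega
    positivity
  have hd3 : (3 : ℝ) ≤ d := by exact_mod_cast hd
  have hNB : D.N = D.B ^ (d : ℝ) := by
    unfold SpData.B
    rw [← Real.rpow_mul (by linarith), one_div, inv_mul_cancel₀ hd0, Real.rpow_one]
  have hrhs : D.N * D.B ^ (-(1 / 3 : ℝ)) = D.B ^ ((d : ℝ) - 1 / 3) := by
    conv_lhs => rw [hNB]
    rw [← Real.rpow_add hB0]
    congr 1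
  have hdiff : ∀ x ∈ T, ∀ y ∈ T, x - y ∈ W := by
    intro x hx y hy
    have := W.sub_mem (h x hx) (h y hy)
    simpa using this
  rw [hrhs]
  by_cases h2 : finrank ℂ W ≤ 2
  · refine (hD.caps.plane W h2 T hT hdiff).trans ?_
    exact Real.rpow_le_rpow_of_exponent_le hB1 (by linarith)
  · have h3 : 3 ≤ finrank ℂ W := by omega
    refine (hD.caps.flat (finrank ℂ W) h3 hW W le_rfl T hT hdiff).trans ?_
    rw [← Real.rpow_natCast]
    refine Real.rpow_le_rpow_of_exponent_le hB1 ?_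
    have : (finrank ℂ W : ℝ) + 1 ≤ d := by exact_mod_cast hW
    linarith

open scoped Classical in
/-- counting by rows (`Finset.card_eq_sum_card_fiberwise`) -/
theorem gd_rows {α β : Type*} (Λ : Finset (α × β)) (S₂ : Finset β) (c : ℝ)
    (h2 : ∀ z ∈ Λ, z.2 ∈ S₂) (hrow : ∀ y ∈ S₂, ((Λ.filter fun z => z.2 = y).card : ℝ) ≤ c) :
    (Λ.card : ℝ) ≤ c * S₂.card := by
  rw [Finset.card_eq_sum_card_fiberwise (f := fun z : α × β => z.2) (t := S₂) h2]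
  push_cast
  calc ∑ y ∈ S₂, ((Λ.filter fun z => z.2 = y).card : ℝ) ≤ ∑ _y ∈ S₂, c := Finset.sum_le_sum hrow
    _ = c * S₂.card := by rw [Finset.sum_const, nsmul_eq_mul, mul_comm]

/-- if, for every target, all sources related to its carrier lie in one proper flat, the related pairs number `≤ cap |S₂|`.  (Row of `y`: its first coordinates form a subset of `S₁ ⊆ D.pts` inside `y₀ + W`; `gd_cap`, `gd_rows`.) -/
theorem gd_mass_pinR (hd : 3 ≤ d) {D : SpData d} {θ : ℝ} (hD : D.Reg θ) (hθ : θ ≤ 1)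
    (S₁ S₂ : Finset (SpC d)) (asg₁ asg₂ : SpC d → Ideal (PrfPol d)) (hS₁ : S₁ ⊆ D.pts)
    (hmem : ∀ x ∈ S₁, x ∈ spZ (asg₁ x)) (Rel : Ideal (PrfPol d) → Ideal (PrfPol d) → Prop)
    (hpin : ∀ y ∈ S₂, ∃ (y₀ : SpC d) (W : Submodule ℂ (SpC d)), finrank ℂ W < d ∧
      ∀ 𝔵, Rel 𝔵 (asg₂ y) → ∀ x ∈ spZ 𝔵, x - y₀ ∈ W)
    (Λ : Finset (SpC d × SpC d)) (hΛ : Λ ⊆ S₁ ×ˢ S₂)
    (hrel : ∀ z ∈ Λ, Rel (asg₁ z.1) (asg₂ z.2)) :
    (Λ.card : ℝ) ≤ D.N * D.B ^ (-(1 / 3 : ℝ)) * S₂.card := by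
  classical
  refine gd_rows Λ S₂ _ (fun z hz => (Finset.mem_product.1 (hΛ hz)).2) ?_
  intro y hy
  obtain ⟨y₀, W, hW, hin⟩ := hpin y hy
  have key : ∀ F : Finset (SpC d × SpC d), (∀ z ∈ F, z ∈ Λ ∧ z.2 = y) →
      (F.card : ℝ) ≤ D.N * D.B ^ (-(1 / 3 : ℝ)) := by
    intro F hF
    have hinj : Set.InjOn (fun z : SpC d × SpC d => z.1) F := by
      intro z hz z' hz' hzz
      exact Prod.ext hzz ((hF z hz).2.trans (hF z' hz').2.symm)
    rw [← Finset.card_image_of_injOn hinj]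
    refine gd_cap hd hD hθ W hW y₀ _ ?_ ?_
    · intro x hx
      obtain ⟨z, hz, rfl⟩ := Finset.mem_image.1 hx
      exact hS₁ (Finset.mem_product.1 (hΛ (hF z hz).1)).1
    · intro x hx
      obtain ⟨z, hz, rfl⟩ := Finset.mem_image.1 hx
      obtain ⟨hz1, hz2⟩ := hF z hz
      have h1 := hrel z hz1
      rw [hz2] at h1
      exact hin _ h1 _ (hmem _ (Finset.mem_product.1 (hΛ hz1)).1)
  have key2 : ∀ (inst : DecidablePred fun z : SpC d × SpC d => z.2 = y),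
      ((@Finset.filter _ (fun z => z.2 = y) inst Λ).card : ℝ) ≤ D.N * D.B ^ (-(1 / 3 : ℝ)) := by
    intro inst
    exact key _ (fun z hz => Finset.mem_filter.1 hz)
  exact key2 _

/-- the mirror image (apply `gd_mass_pinR` to `Λ.image Prod.swap`) -/
theorem gd_mass_pinL (hd : 3 ≤ d) {D : SpData d} {θ : ℝ} (hD : D.Reg θ) (hθ : θ ≤ 1)
    (S₁ S₂ : Finset (SpC d)) (asg₁ asg₂ : SpC d → Ideal (PrfPol d)) (hS₂ : S₂ ⊆ D.pts)
    (hmem : ∀ y ∈ S₂, y ∈ spZ (asg₂ y)) (Rel : Ideal (PrfPol d) → Ideal (PrfPol d) → Prop)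
    (hpin : ∀ x ∈ S₁, ∃ (x₀ : SpC d) (W : Submodule ℂ (SpC d)), finrank ℂ W < d ∧
      ∀ 𝔶, Rel (asg₁ x) 𝔶 → ∀ y ∈ spZ 𝔶, y - x₀ ∈ W)
    (Λ : Finset (SpC d × SpC d)) (hΛ : Λ ⊆ S₁ ×ˢ S₂)
    (hrel : ∀ z ∈ Λ, Rel (asg₁ z.1) (asg₂ z.2)) :
    (Λ.card : ℝ) ≤ D.N * D.B ^ (-(1 / 3 : ℝ)) * S₁.card := by
  classical
  have hc : (Λ.image Prod.swap).card = Λ.card :=
    Finset.card_image_of_injective _ Prod.swap_injective
  rw [← hc]
  refine gd_mass_pinR hd hD hθ S₂ S₁ asg₂ asg₁ hS₂ hmem (fun a b => Rel b a) hpin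
    (Λ.image Prod.swap) ?_ ?_
  · intro z hz
    obtain ⟨z', hz', rfl⟩ := Finset.mem_image.1 hz
    have := Finset.mem_product.1 (hΛ hz')
    exact Finset.mem_product.2 ⟨this.2, this.1⟩
  · intro z hz
    obtain ⟨z', hz', rfl⟩ := Finset.mem_image.1 hz
    exact hrel z' hz'

/-! ### GD-MS-LIGHT -/

open scoped Classical in
/-- the points assigned to a family of carriers (`Finset.card_eq_sum_card_fiberwise`) -/
theorem gd_wt_sum (S : Finset (SpC d)) (asg : SpC d → Ideal (PrfPol d))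
    (𝒜 : Finset (Ideal (PrfPol d))) :
    (S.filter fun x => asg x ∈ 𝒜).card = ∑ p ∈ 𝒜, gdWt S asg p := by
  have hmap : Set.MapsTo asg (↑(S.filter fun x => asg x ∈ 𝒜) : Set (SpC d)) (↑𝒜) := by
    intro x hx
    exact (Finset.mem_filter.1 (Finset.mem_coe.1 hx)).2
  rw [Finset.card_eq_sum_card_fiberwise hmap]
  apply Finset.sum_congr rfl
  intro p hp
  unfold gdWt
  congr 1
  ext x
  simp only [Finset.mem_filter]
  constructor
  · rintro ⟨⟨h1, _⟩, h3⟩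
    exact ⟨h1, h3⟩
  · rintro ⟨h1, h3⟩
    exact ⟨⟨h1, h3 ▸ hp⟩, h3⟩

theorem gd_fl_card {e w θ : ℝ} {S : Finset (SpC d)} {asg : SpC d → Ideal (PrfPol d)}
    (h : SpFlatOk e w θ S asg) : ((gdFl S asg).card : ℝ) ≤ e * Real.exp (θ * w) := by
  classical
  apply h.num
  intro p hp
  unfold gdFl at hp
  obtain ⟨h1, h2⟩ := Finset.mem_filter.1 hp
  obtain ⟨x, hx, rfl⟩ := Finset.mem_image.1 h1
  exact ⟨h2, x, hx, rfl⟩

theorem gd_hv_card {e w θ : ℝ} {S : Finset (SpC d)} {asg : SpC d → Ideal (PrfPol d)}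
    (h : SpFlatOk e w θ S asg) : ((gdHv e w S asg).card : ℝ) ≤ e * Real.exp (θ * w) := by
  classical
  refine le_trans ?_ (gd_fl_card h)
  have : (gdHv e w S asg).card ≤ (gdFl S asg).card := by
    unfold gdHv
    exact Finset.card_le_card (Finset.filter_subset _ _)
  exact_mod_cast this

open scoped Classical in
theorem gd_light_card {e w θ : ℝ} (he : 0 < e) (S : Finset (SpC d))
    (asg : SpC d → Ideal (PrfPol d)) (hfl : SpFlatOk e w θ S asg) :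
    ((S.filter fun y => vdeg (spZ (asg y)) = 1 ∧ ¬ GdHeavy e w S asg (asg y)).card : ℝ)
      ≤ Real.exp (θ * w) * Real.exp (-(w / 12)) * S.card := by
  set 𝒜 : Finset (Ideal (PrfPol d)) := (gdFl S asg).filter fun p => ¬ GdHeavy e w S asg p with h𝒜
  have hsub : (S.filter fun y => vdeg (spZ (asg y)) = 1 ∧ ¬ GdHeavy e w S asg (asg y))
      ⊆ S.filter fun x => asg x ∈ 𝒜 := by
    intro y hy
    obtain ⟨h1, h2, h3⟩ := Finset.mem_filter.1 hy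
    refine Finset.mem_filter.2 ⟨h1, ?_⟩
    rw [h𝒜]
    refine Finset.mem_filter.2 ⟨?_, h3⟩
    unfold gdFl
    exact Finset.mem_filter.2 ⟨Finset.mem_image_of_mem _ h1, h2⟩
  have h1 : ((S.filter fun y => vdeg (spZ (asg y)) = 1 ∧ ¬ GdHeavy e w S asg (asg y)).card : ℝ)
      ≤ ((∑ p ∈ 𝒜, gdWt S asg p : ℕ) : ℝ) := by
    rw [← gd_wt_sum]
    exact_mod_cast Finset.card_le_card hsub
  have h2 : ((∑ p ∈ 𝒜, gdWt S asg p : ℕ) : ℝ)
      ≤ ∑ _p ∈ 𝒜, (S.card : ℝ) / e * Real.exp (-(w / 12)) := by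
    push_cast
    apply Finset.sum_le_sum
    intro p hp
    have := (Finset.mem_filter.1 hp).2
    unfold GdHeavy at this
    exact (not_le.1 this).le
  have h3 : (𝒜.card : ℝ) ≤ e * Real.exp (θ * w) := by
    refine le_trans ?_ (gd_fl_card hfl)
    exact_mod_cast Finset.card_le_card (Finset.filter_subset _ _)
  rw [Finset.sum_const, nsmul_eq_mul] at h2
  have h4 : 0 ≤ (S.card : ℝ) / e * Real.exp (-(w / 12)) := by positivity
  calc _ ≤ (𝒜.card : ℝ) * ((S.card : ℝ) / e * Real.exp (-(w / 12))) := h1.trans h2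
    _ ≤ (e * Real.exp (θ * w)) * ((S.card : ℝ) / e * Real.exp (-(w / 12))) :=
        mul_le_mul_of_nonneg_right h3 h4
    _ = Real.exp (θ * w) * Real.exp (-(w / 12)) * S.card := by field_simp

/-- light flat targets: `T := {y ∈ S₂ | asg₂ y flat, not heavy}`, `|T| = ∑_{p light flat} wt p ≤ (e e^{θ w}) (|S₂|/e) e^{-w/12}` (`gd_wt_sum`, `gd_fl_card`); `Λ ⊆ S₁ ×ˢ T`. -/
theorem gd_mass_lightR {e w θ : ℝ} (he : 0 < e) (S₁ S₂ : Finset (SpC d))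
    (asg₂ : SpC d → Ideal (PrfPol d)) (hfl : SpFlatOk e w θ S₂ asg₂)
    (Λ : Finset (SpC d × SpC d)) (hΛ : Λ ⊆ S₁ ×ˢ S₂)
    (h : ∀ z ∈ Λ, vdeg (spZ (asg₂ z.2)) = 1 ∧ ¬ GdHeavy e w S₂ asg₂ (asg₂ z.2)) :
    (Λ.card : ℝ) ≤ Real.exp (θ * w) * Real.exp (-(w / 12)) * S₁.card * S₂.card := by
  classical
  have hsub : Λ ⊆ S₁ ×ˢ
      (S₂.filter fun y => vdeg (spZ (asg₂ y)) = 1 ∧ ¬ GdHeavy e w S₂ asg₂ (asg₂ y)) := by
    intro z hz
    have h1 := Finset.mem_product.1 (hΛ hz)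
    exact Finset.mem_product.2 ⟨h1.1, Finset.mem_filter.2 ⟨h1.2, h z hz⟩⟩
  have h1 : (Λ.card : ℝ) ≤ (S₁.card : ℝ) *
      ((S₂.filter fun y => vdeg (spZ (asg₂ y)) = 1 ∧ ¬ GdHeavy e w S₂ asg₂ (asg₂ y)).card : ℝ) := by
    have := Finset.card_le_card hsub
    rw [Finset.card_product] at this
    exact_mod_cast this
  calc (Λ.card : ℝ) ≤ (S₁.card : ℝ) * (Real.exp (θ * w) * Real.exp (-(w / 12)) * S₂.card) :=
        h1.trans (mul_le_mul_of_nonneg_left (gd_light_card he S₂ asg₂ hfl) (Nat.cast_nonneg _))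
    _ = _ := by ring

theorem gd_mass_lightL {e w θ : ℝ} (he : 0 < e) (S₁ S₂ : Finset (SpC d))
    (asg₁ : SpC d → Ideal (PrfPol d)) (hfl : SpFlatOk e w θ S₁ asg₁)
    (Λ : Finset (SpC d × SpC d)) (hΛ : Λ ⊆ S₁ ×ˢ S₂)
    (h : ∀ z ∈ Λ, vdeg (spZ (asg₁ z.1)) = 1 ∧ ¬ GdHeavy e w S₁ asg₁ (asg₁ z.1)) :
    (Λ.card : ℝ) ≤ Real.exp (θ * w) * Real.exp (-(w / 12)) * S₁.card * S₂.card := by
  classical
  have hsub : Λ ⊆
      (S₁.filter fun y => vdeg (spZ (asg₁ y)) = 1 ∧ ¬ GdHeavy e w S₁ asg₁ (asg₁ y)) ×ˢ S₂ := by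
    intro z hz
    have h1 := Finset.mem_product.1 (hΛ hz)
    exact Finset.mem_product.2 ⟨Finset.mem_filter.2 ⟨h1.1, h z hz⟩, h1.2⟩
  have h1 : (Λ.card : ℝ) ≤
      ((S₁.filter fun y => vdeg (spZ (asg₁ y)) = 1 ∧ ¬ GdHeavy e w S₁ asg₁ (asg₁ y)).card : ℝ)
        * (S₂.card : ℝ) := by
    have := Finset.card_le_card hsub
    rw [Finset.card_product] at this
    exact_mod_cast this
  exact h1.trans (mul_le_mul_of_nonneg_right (gd_light_card he S₁ asg₁ hfl) (Nat.cast_nonneg _))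

/-! ### GD-MS-OCC -/

/-- **occupancy of a proper flat by heavy members of ONE family.**  `T := {x ∈ S | asg x ∈ 𝒢}` lies in `x₀ + W`: `|T| ≤ N B^{-1/3}` (`gd_cap`) `≤ |S| e^{θ w} B^{-1/3}` (`size`); `|T| = ∑_{p ∈ 𝒢} wt p ≥ |𝒢| (|S|/e) e^{-w/12}` (`gd_wt_sum`); `|S| > 0`. -/
theorem gd_occ (hd : 3 ≤ d) {D : SpData d} {θ w e : ℝ} {k : ℕ} (hD : D.Reg θ) (hθ : θ ≤ 1)
    (he : 0 < e) {S : Finset (SpC d)} {asg : SpC d → Ideal (PrfPol d)}
    (hS : SpFamOk D k w θ S asg) (W : Submodule ℂ (SpC d)) (hW : finrank ℂ W < d) (x₀ : SpC d)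
    (𝒢 : Finset (Ideal (PrfPol d))) (h𝒢 : 𝒢 ⊆ gdHv e w S asg)
    (hin : ∀ p ∈ 𝒢, ∀ z ∈ spZ p, z - x₀ ∈ W) :
    (𝒢.card : ℝ) ≤ e * Real.exp (w / 12) * Real.exp (θ * w) * D.B ^ (-(1 / 3 : ℝ)) := by
  classical
  have hB1 : 1 ≤ D.B := hD.one_le_B hθ
  have hB0 : 0 < D.B := by linarith
  have hN1 : 1 ≤ D.N := hD.one_le_N hθ
  have hSpos : 0 < (S.card : ℝ) := by
    refine lt_of_lt_of_le ?_ hS.size
    have := Real.exp_pos (-(θ * w))
    positivity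
  have hNle : D.N ≤ S.card * Real.exp (θ * w) := by
    have h1 := hS.size
    have h2 : D.N = D.N * Real.exp (-(θ * w)) * Real.exp (θ * w) := by
      rw [mul_assoc, ← Real.exp_add]; simp
    rw [h2]
    gcongr
  have hcap := gd_cap hd hD hθ W hW x₀ (S.filter fun x => asg x ∈ 𝒢)
    ((Finset.filter_subset _ _).trans hS.sub) (by
      intro x hx
      obtain ⟨hx1, hx2⟩ := Finset.mem_filter.1 hx
      exact hin _ hx2 _ (hS.mem x hx1))
  rw [gd_wt_sum] at hcap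
  push_cast at hcap
  have hlow : (𝒢.card : ℝ) * ((S.card : ℝ) / e * Real.exp (-(w / 12)))
      ≤ ∑ p ∈ 𝒢, (gdWt S asg p : ℝ) := by
    have := Finset.card_nsmul_le_sum 𝒢 (fun p => (gdWt S asg p : ℝ))
      ((S.card : ℝ) / e * Real.exp (-(w / 12))) (by
        intro p hp
        exact (Finset.mem_filter.1 (h𝒢 hp)).2)
    rwa [nsmul_eq_mul] at this
  have hB3 : 0 < D.B ^ (-(1 / 3 : ℝ)) := by positivity
  have h1 : (𝒢.card : ℝ) * ((S.card : ℝ) / e * Real.exp (-(w / 12)))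
      ≤ S.card * Real.exp (θ * w) * D.B ^ (-(1 / 3 : ℝ)) := by
    calc _ ≤ _ := hlow
      _ ≤ _ := hcap
      _ ≤ _ := by gcongr
  have hab : Real.exp (-(w / 12)) * Real.exp (w / 12) = 1 := by
    rw [← Real.exp_add]; simp
  have hb : 0 ≤ Real.exp (w / 12) := (Real.exp_pos _).le
  generalize Real.exp (-(w / 12)) = a at h1 hab
  generalize Real.exp (w / 12) = b at hab hb
  generalize Real.exp (θ * w) = E at h1
  generalize D.B ^ (-(1 / 3 : ℝ)) = B3 at h1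
  generalize (S.card : ℝ) = s at h1 hSpos
  generalize (𝒢.card : ℝ) = g at h1
  have h2 : g * (s / e * a) * (e * b / s) = g := by
    have : g * (s / e * a) * (e * b / s) = g * (a * b) := by field_simp
    rw [this, hab, mul_one]
  calc g = g * (s / e * a) * (e * b / s) := h2.symm
    _ ≤ (s * E * B3) * (e * b / s) := by gcongr
    _ = _ := by field_simp


/-! ### GD-MS-RICH -/

/-- counting by the fibres of a map into a finite set -/
theorem gd_fib_count {α β : Type*} (Λ : Finset α) (Pairs : Finset β) (φ : α → β) (c : ℝ)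
    (hmaps : ∀ z ∈ Λ, φ z ∈ Pairs)
    (hfib : ∀ r ∈ Pairs, ∀ F ⊆ Λ, (∀ z ∈ F, φ z = r) → (F.card : ℝ) ≤ c) :
    (Λ.card : ℝ) ≤ Pairs.card * c := by
  classical
  rw [Finset.card_eq_sum_card_fiberwise (f := φ) (t := Pairs) hmaps]
  push_cast
  calc ∑ r ∈ Pairs, ((Λ.filter fun z => φ z = r).card : ℝ) ≤ ∑ _r ∈ Pairs, c :=
        Finset.sum_le_sum (fun r hr => hfib r hr _ (Finset.filter_subset _ _)
          (fun z hz => (Finset.mem_filter.1 hz).2))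
    _ = Pairs.card * c := by rw [Finset.sum_const, nsmul_eq_mul]

theorem gd_hv_mem {D : SpData d} {k : ℕ} {e w θ : ℝ} {S : Finset (SpC d)}
    {asg : SpC d → Ideal (PrfPol d)} (hS : SpFamOk D k w θ S asg) (p : Ideal (PrfPol d))
    (hp : p ∈ gdHv e w S asg) :
    p.IsPrime ∧ vdim (spZ p) = k ∧ vdeg (spZ p) = 1 ∧ ¬ SpNonreal p := by
  classical
  unfold gdHv gdFl at hp
  obtain ⟨hp1, -⟩ := Finset.mem_filter.1 hp
  obtain ⟨hp2, hp3⟩ := Finset.mem_filter.1 hp1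
  obtain ⟨x, hx, rfl⟩ := Finset.mem_image.1 hp2
  exact ⟨hS.prime x hx, hS.dim x hx, hp3, hS.real x hx⟩

/-- **the rich pairs.**  `C := 8 C₁`, `C₁` of `gd_rich_pairs`.  `𝓕 := gdHv₁ ∪ gdHv₂`, `E := e^{θ w}`, `n = |𝓕| ≤ 2 e E` (`gd_hv_card`), `U := 2 e e^{w/12} E B^{-1/3}`
(`gd_occ` for `𝒢_i := gdHv_i.filter (GdCop 𝔵 𝔶)`, the flat of `InFlat`, `k + 1 < d`; `gdU 𝓕 ≤ |𝒢₁| + |𝒢₂|`).  The members of `𝓕` are prime, of dimension `k`, degree one, real (`SpFamOk`).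
`Pairs` := the set of `gd_rich_pairs`; `z ↦ (asg₁ z.1, asg₂ z.2)` maps `Λ` into `Pairs`, the fibre over `(𝔵,𝔶)` has `≤ wt₁ 𝔵 · wt₂ 𝔶 ≤ (|S₁| E/e)(|S₂| E/e)` elements (`SpFlatOk.wt`).
`|Λ| ≤ C₁ (4 e² E²/τ + 4 e² E² e^{w/12} B^{-1/3}) (E/e)² |S₁||S₂|`. -/
theorem gd_mass_rich (hd : 3 ≤ d) : ∃ C : ℝ, 0 < C ∧ ∀ k : ℕ, k + 1 < d →
    ∀ (D : SpData d) (θ w e τ : ℝ), D.Reg θ → θ ≤ 1 → 0 < e → 2 ≤ τ →
    ∀ (S₁ S₂ : Finset (SpC d)) (asg₁ asg₂ : SpC d → Ideal (PrfPol d)),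
      SpFamOk D k w θ S₁ asg₁ → SpFamOk D k w θ S₂ asg₂ →
      SpFlatOk e w θ S₁ asg₁ → SpFlatOk e w θ S₂ asg₂ →
      ∀ Λ ⊆ S₁ ×ˢ S₂,
        (∀ z ∈ Λ, asg₁ z.1 ≠ asg₂ z.2 ∧ InFlat (spZ (asg₁ z.1) ∪ spZ (asg₂ z.2)) (k + 1) ∧
          asg₁ z.1 ∈ gdHv e w S₁ asg₁ ∪ gdHv e w S₂ asg₂ ∧
          asg₂ z.2 ∈ gdHv e w S₁ asg₁ ∪ gdHv e w S₂ asg₂ ∧
          τ < (gdU (gdHv e w S₁ asg₁ ∪ gdHv e w S₂ asg₂) (asg₁ z.1) (asg₂ z.2) : ℝ)) →
        (Λ.card : ℝ) ≤ C * (Real.exp (θ * w) ^ 4 / τ +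
          Real.exp (θ * w) ^ 4 * Real.exp (w / 12) * D.B ^ (-(1 / 3 : ℝ))) * S₁.card * S₂.card := by
  classical
  obtain ⟨C₁, hC₁, hrp⟩ := gd_rich_pairs
  refine ⟨8 * C₁, by positivity, ?_⟩
  intro k hk D θ w e τ hD hθ he hτ S₁ S₂ asg₁ asg₂ hF₁ hF₂ hfl₁ hfl₂ Λ hΛ hprop
  have hB0 : 0 < D.B := lt_of_lt_of_le one_pos (hD.one_le_B hθ)
  set 𝓕 := gdHv e w S₁ asg₁ ∪ gdHv e w S₂ asg₂ with h𝓕
  have hE0 : 0 < Real.exp (θ * w) := Real.exp_pos _
  have hG0 : 0 < Real.exp (w / 12) := Real.exp_pos _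
  have hB30 : 0 < D.B ^ (-(1 / 3 : ℝ)) := by positivity
  have hc1 := gd_hv_card (e := e) hfl₁
  have hc2 := gd_hv_card (e := e) hfl₂
  have hn : (𝓕.card : ℝ) ≤ 2 * e * Real.exp (θ * w) := by
    have : (𝓕.card : ℝ) ≤ ((gdHv e w S₁ asg₁).card : ℝ) + ((gdHv e w S₂ asg₂).card : ℝ) := by
      exact_mod_cast Finset.card_union_le _ _
    linarith
  have hmem𝓕 : ∀ p ∈ 𝓕, p.IsPrime ∧ vdim (spZ p) = k ∧ vdeg (spZ p) = 1 ∧ ¬ SpNonreal p := by
    intro p hp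
    rcases Finset.mem_union.1 hp with hp | hp
    · exact gd_hv_mem hF₁ p hp
    · exact gd_hv_mem hF₂ p hp
  have hocc : ∀ 𝔵 ∈ 𝓕, ∀ 𝔶 ∈ 𝓕, 𝔵 ≠ 𝔶 → InFlat (spZ 𝔵 ∪ spZ 𝔶) (k + 1) →
      (gdU 𝓕 𝔵 𝔶 : ℝ)
        ≤ 2 * (e * Real.exp (w / 12) * Real.exp (θ * w) * D.B ^ (-(1 / 3 : ℝ))) := by
    intro 𝔵 _ 𝔶 _ _ hfl
    obtain ⟨x₀, W, hW, hin⟩ := hfl
    have hW' : finrank ℂ W < d := by omega
    have o1 := gd_occ hd hD hθ he hF₁ W hW' x₀ ((gdHv e w S₁ asg₁).filter fun q => GdCop 𝔵 𝔶 q)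
      (Finset.filter_subset _ _) (fun p hp => (Finset.mem_filter.1 hp).2 x₀ W hin)
    have o2 := gd_occ hd hD hθ he hF₂ W hW' x₀ ((gdHv e w S₂ asg₂).filter fun q => GdCop 𝔵 𝔶 q)
      (Finset.filter_subset _ _) (fun p hp => (Finset.mem_filter.1 hp).2 x₀ W hin)
    have : (gdU 𝓕 𝔵 𝔶 : ℝ) ≤ (((gdHv e w S₁ asg₁).filter fun q => GdCop 𝔵 𝔶 q).card : ℝ)
        + (((gdHv e w S₂ asg₂).filter fun q => GdCop 𝔵 𝔶 q).card : ℝ) := by
      unfold gdU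
      rw [h𝓕, Finset.filter_union]
      exact_mod_cast Finset.card_union_le _ _
    linarith
  have hpairs := hrp d k 𝓕 τ _ hτ (by positivity) hmem𝓕 hocc
  have main : ∀ (Pairs : Finset (Ideal (PrfPol d) × Ideal (PrfPol d))),
      (∀ r, r ∈ Pairs ↔ (r ∈ 𝓕 ×ˢ 𝓕 ∧ (r.1 ≠ r.2 ∧ InFlat (spZ r.1 ∪ spZ r.2) (k + 1) ∧
        τ < (gdU 𝓕 r.1 r.2 : ℝ)))) →
      (Pairs.card : ℝ) ≤ C₁ * ((𝓕.card : ℝ) ^ 2 / τ + 𝓕.card *
        (2 * (e * Real.exp (w / 12) * Real.exp (θ * w) * D.B ^ (-(1 / 3 : ℝ))))) →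
      (Λ.card : ℝ) ≤ 8 * C₁ * (Real.exp (θ * w) ^ 4 / τ +
          Real.exp (θ * w) ^ 4 * Real.exp (w / 12) * D.B ^ (-(1 / 3 : ℝ))) * S₁.card * S₂.card := by
    intro Pairs hPm hPc
    have h1 := gd_fib_count Λ Pairs (fun z => (asg₁ z.1, asg₂ z.2))
      (((S₁.card : ℝ) / e * Real.exp (θ * w)) * ((S₂.card : ℝ) / e * Real.exp (θ * w))) (by
        intro z hz
        obtain ⟨a1, a2, a3, a4, a5⟩ := hprop z hz
        exact (hPm _).2 ⟨Finset.mem_product.2 ⟨a3, a4⟩, a1, a2, a5⟩) (by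
        intro r hr F hF hFr
        have hr' := (hPm r).1 hr
        obtain ⟨hr1, hr2⟩ := Finset.mem_product.1 hr'.1
        have hsub : F ⊆ (F.image Prod.fst) ×ˢ (F.image Prod.snd) := by
          intro z hz
          exact Finset.mem_product.2 ⟨Finset.mem_image_of_mem _ hz, Finset.mem_image_of_mem _ hz⟩
        have w1 := hfl₁.wt r.1 (hmem𝓕 _ hr1).2.2.1 (F.image Prod.fst) (by
            intro x hx
            obtain ⟨z, hz, rfl⟩ := Finset.mem_image.1 hx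
            exact (Finset.mem_product.1 (hΛ (hF hz))).1) (by
            intro x hx
            obtain ⟨z, hz, rfl⟩ := Finset.mem_image.1 hx
            exact congrArg Prod.fst (hFr z hz))
        have w2 := hfl₂.wt r.2 (hmem𝓕 _ hr2).2.2.1 (F.image Prod.snd) (by
            intro x hx
            obtain ⟨z, hz, rfl⟩ := Finset.mem_image.1 hx
            exact (Finset.mem_product.1 (hΛ (hF hz))).2) (by
            intro x hx
            obtain ⟨z, hz, rfl⟩ := Finset.mem_image.1 hx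
            exact congrArg Prod.snd (hFr z hz))
        have h3 : (F.card : ℝ) ≤ ((F.image Prod.fst).card : ℝ) * ((F.image Prod.snd).card : ℝ) := by
          have := Finset.card_le_card hsub
          rw [Finset.card_product] at this
          exact_mod_cast this
        refine h3.trans ?_
        gcongr)
    have hn0 : (0 : ℝ) ≤ (𝓕.card : ℝ) := by positivity
    have hs1 : (0 : ℝ) ≤ (S₁.card : ℝ) := by positivity
    have hs2 : (0 : ℝ) ≤ (S₂.card : ℝ) := by positivity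
    have hτ0 : 0 < τ := by linarith
    generalize Real.exp (θ * w) = E at *
    generalize Real.exp (w / 12) = G at *
    generalize D.B ^ (-(1 / 3 : ℝ)) = B3 at *
    generalize (𝓕.card : ℝ) = n at *
    generalize (S₁.card : ℝ) = s₁ at *
    generalize (S₂.card : ℝ) = s₂ at *
    have hP2 : (Pairs.card : ℝ) ≤ C₁ * ((2 * e * E) ^ 2 / τ + (2 * e * E) * (2 * (e * G * E * B3))) := by
      refine hPc.trans ?_
      gcongr
    calc (Λ.card : ℝ) ≤ Pairs.card * ((s₁ / e * E) * (s₂ / e * E)) := h1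
      _ ≤ (C₁ * ((2 * e * E) ^ 2 / τ + (2 * e * E) * (2 * (e * G * E * B3))))
            * ((s₁ / e * E) * (s₂ / e * E)) := by gcongr
      _ = 4 * C₁ * (E ^ 4 / τ + E ^ 4 * G * B3) * s₁ * s₂ := by
          field_simp
          ring
      _ ≤ 8 * C₁ * (E ^ 4 / τ + E ^ 4 * G * B3) * s₁ * s₂ := by
          gcongr
          norm_num
  exact main _ (fun r => Finset.mem_filter) hpairs

/-! ### GD-MS-NUM -/

theorem gd_num_aux {x : ℝ} (hx : 0 < x) : Real.exp (-x) ≤ 1 / x := by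
  rw [Real.exp_neg, ← one_div]
  apply one_div_le_one_div_of_le hx
  linarith [Real.add_one_le_exp x]

/-- **Numerics.**  `θ := min (1/48) (min (ε/8) θ')` with `θ'` so small that `e^{-1/(24 θ')} ≤ η/8`, `2 C e^{-ε/(2θ')} ≤ η/16`, `e^{ε/θ'} ≥ 2`...  Use `L := log B ≥ w ≥ 1/θ`, `B^{-1/3} = e^{-L/3} ≤ e^{-w/3}`:
(1) `e^{θ w - w/3} ≤ e^{-w/4}`; (2) `e^{θ w - w/12} ≤ e^{-w/16}`; (3) `e^{4θ w - ε w} ≤ e^{-ε w/2}`, `e^{4θ w + w/12 - w/3} ≤ e^{-w/6}`; every `e^{-c w} ≤ e^{-c/θ} → 0`. -/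
theorem gd_num (C ε η : ℝ) (hC : 0 < C) (hε : 0 < ε) (hη : 0 < η) :
    ∃ θ : ℝ, 0 < θ ∧ θ ≤ 1 ∧ ∀ w B : ℝ, 1 / θ ≤ w → 0 < B → w ≤ Real.log B →
      B ^ (-(1 / 3 : ℝ)) * Real.exp (θ * w) ≤ η / 8 ∧
      Real.exp (θ * w) * Real.exp (-(w / 12)) ≤ η / 8 ∧
      C * (Real.exp (θ * w) ^ 4 / Real.exp (ε * w) +
        Real.exp (θ * w) ^ 4 * Real.exp (w / 12) * B ^ (-(1 / 3 : ℝ))) ≤ η / 8 ∧
      2 ≤ Real.exp (ε * w) := by
  set w₀ : ℝ := 128 / η + 32 * C / (ε * η) + 96 * C / η + 1 / ε + 48 + 8 / ε with hw₀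
  have t1 : 0 < 128 / η := by positivity
  have t2 : 0 < 32 * C / (ε * η) := by positivity
  have t3 : 0 < 96 * C / η := by positivity
  have t4 : 0 < 1 / ε := by positivity
  have t5 : 0 < 8 / ε := by positivity
  have hw₀48 : 48 ≤ w₀ := by rw [hw₀]; linarith
  have hw₀0 : 0 < w₀ := by linarith
  refine ⟨1 / w₀, by positivity, ?_, ?_⟩
  · rw [div_le_one hw₀0]; linarith
  intro w B hw hB hwB
  rw [one_div_one_div] at hw
  have hw0 : 0 < w := by linarith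
  set θ : ℝ := 1 / w₀ with hθ
  have hθ0 : 0 < θ := by positivity
  have hθ48 : θ ≤ 1 / 48 := one_div_le_one_div_of_le (by norm_num) hw₀48
  have hθε : θ ≤ ε / 8 := by
    have : 8 / ε ≤ w₀ := by rw [hw₀]; linarith
    calc θ ≤ 1 / (8 / ε) := one_div_le_one_div_of_le t5 this
      _ = ε / 8 := by field_simp
  have hθw : θ * w ≤ w / 48 := by nlinarith
  have hθw' : θ * w ≤ ε * w / 8 := by nlinarith
  have hB3 : B ^ (-(1 / 3 : ℝ)) ≤ Real.exp (-(w / 3)) := by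
    rw [Real.rpow_def_of_pos hB]
    apply Real.exp_le_exp.2
    linarith
  have hB30 : 0 ≤ B ^ (-(1 / 3 : ℝ)) := by positivity
  -- the four basic decay bounds
  have d16 : Real.exp (-(w / 16)) ≤ η / 8 := by
    refine (gd_num_aux (by positivity)).trans ?_
    have : 128 / η ≤ w := by linarith
    rw [div_le_iff₀ hη] at this
    rw [div_le_div_iff₀ (by positivity) (by norm_num)]
    nlinarith
  have dε : C * Real.exp (-(ε * w / 2)) ≤ η / 16 := by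
    have h1 := gd_num_aux (x := ε * w / 2) (by positivity)
    have h2 : 32 * C / (ε * η) ≤ w := by linarith
    rw [div_le_iff₀ (by positivity)] at h2
    have h3 : C * (1 / (ε * w / 2)) ≤ η / 16 := by
      rw [mul_one_div, div_le_div_iff₀ (by positivity) (by norm_num)]
      nlinarith
    exact (mul_le_mul_of_nonneg_left h1 hC.le).trans h3
  have d6 : C * Real.exp (-(w / 6)) ≤ η / 16 := by
    have h1 := gd_num_aux (x := w / 6) (by positivity)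
    have h2 : 96 * C / η ≤ w := by linarith
    rw [div_le_iff₀ hη] at h2
    have h3 : C * (1 / (w / 6)) ≤ η / 16 := by
      rw [mul_one_div, div_le_div_iff₀ (by positivity) (by norm_num)]
      nlinarith
    exact (mul_le_mul_of_nonneg_left h1 hC.le).trans h3
  refine ⟨?_, ?_, ?_, ?_⟩
  · calc B ^ (-(1 / 3 : ℝ)) * Real.exp (θ * w) ≤ Real.exp (-(w / 3)) * Real.exp (θ * w) := by
          gcongr
      _ = Real.exp (-(w / 3) + θ * w) := by rw [Real.exp_add]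
      _ ≤ Real.exp (-(w / 16)) := Real.exp_le_exp.2 (by linarith)
      _ ≤ η / 8 := d16
  · calc Real.exp (θ * w) * Real.exp (-(w / 12)) = Real.exp (θ * w + -(w / 12)) := by
          rw [Real.exp_add]
      _ ≤ Real.exp (-(w / 16)) := Real.exp_le_exp.2 (by linarith)
      _ ≤ η / 8 := d16
  · have e4 : Real.exp (θ * w) ^ 4 = Real.exp (4 * (θ * w)) := by
      rw [← Real.exp_nat_mul]; norm_num
    have a1 : Real.exp (θ * w) ^ 4 / Real.exp (ε * w) ≤ Real.exp (-(ε * w / 2)) := by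
      rw [e4, ← Real.exp_sub]
      exact Real.exp_le_exp.2 (by linarith)
    have a2 : Real.exp (θ * w) ^ 4 * Real.exp (w / 12) * B ^ (-(1 / 3 : ℝ))
        ≤ Real.exp (-(w / 6)) := by
      calc Real.exp (θ * w) ^ 4 * Real.exp (w / 12) * B ^ (-(1 / 3 : ℝ))
          ≤ Real.exp (θ * w) ^ 4 * Real.exp (w / 12) * Real.exp (-(w / 3)) := by gcongr
        _ = Real.exp (4 * (θ * w) + w / 12 + -(w / 3)) := by
            rw [e4, Real.exp_add, Real.exp_add]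
        _ ≤ Real.exp (-(w / 6)) := Real.exp_le_exp.2 (by linarith)
    calc C * (Real.exp (θ * w) ^ 4 / Real.exp (ε * w) +
        Real.exp (θ * w) ^ 4 * Real.exp (w / 12) * B ^ (-(1 / 3 : ℝ)))
        ≤ C * (Real.exp (-(ε * w / 2)) + Real.exp (-(w / 6))) := by gcongr
      _ = C * Real.exp (-(ε * w / 2)) + C * Real.exp (-(w / 6)) := by ring
      _ ≤ η / 16 + η / 16 := add_le_add dε d6
      _ = η / 8 := by ring
  · have h1 : 1 / ε ≤ w := by linarith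
    rw [div_le_iff₀ hε] at h1
    have := Real.add_one_le_exp (ε * w)
    nlinarith

end Claimed.Agent.R273
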