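/-
LIB-PK (row273), part 1: a small kit for real multivariate polynomials: restriction to lines,
affine substitutions, directional derivatives.
-/
import Mathlib

set_option autoImplicit false

namespace Claimed.Agent.R273

open MvPolynomial

/-- a nonzero real polynomial has a non-root. -/
theorem pk_exists_ne {σ : Type} [Finite σ] (p : MvPolynomial σ ℝ) (hp : p ≠ 0) :
    ∃ x : σ → ℝ, eval x p ≠ 0 := by
  by_contra h
  push Not at h
  exact hp (MvPolynomial.funext (fun x => by simpa using h x))

/-- the restriction of `p` to the parametrised line `t ↦ z + t v` -/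
noncomputable def pkLine {σ : Type} (p : MvPolynomial σ ℝ) (z v : σ → ℝ) : Polynomial ℝ :=
  aeval (fun i => Polynomial.C (v i) * Polynomial.X + Polynomial.C (z i)) p

theorem pk_pkLine_eval {σ : Type} (p : MvPolynomial σ ℝ) (z v : σ → ℝ) (t : ℝ) :
    (pkLine p z v).eval t = eval (z + t • v) p := by
  unfold pkLine
  induction p using MvPolynomial.induction_on with
  | C a => simp
  | add p q hp hq => simp [hp, hq]
  | mul_X p i hp =>
    simp [hp]
    left
    ring

theorem pk_pkLine_natDegree {σ : Type} [Fintype σ] (p : MvPolynomial σ ℝ) (z v : σ → ℝ) :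
    (pkLine p z v).natDegree ≤ p.totalDegree := by
  unfold pkLine
  rw [MvPolynomial.aeval_def, MvPolynomial.eval₂_eq']
  apply Polynomial.natDegree_sum_le_of_forall_le
  intro d hd
  have h1 : (∏ i, (Polynomial.C (v i) * Polynomial.X + Polynomial.C (z i)) ^ d i).natDegree ≤
      p.totalDegree := by
    calc (∏ i, (Polynomial.C (v i) * Polynomial.X + Polynomial.C (z i)) ^ d i).natDegree
        ≤ ∑ i, ((Polynomial.C (v i) * Polynomial.X + Polynomial.C (z i)) ^ d i).natDegree :=
          Polynomial.natDegree_prod_le _ _
      _ ≤ ∑ i, d i := by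
          apply Finset.sum_le_sum
          intro i _
          calc ((Polynomial.C (v i) * Polynomial.X + Polynomial.C (z i)) ^ d i).natDegree
              ≤ d i * (Polynomial.C (v i) * Polynomial.X + Polynomial.C (z i)).natDegree :=
                Polynomial.natDegree_pow_le
            _ ≤ d i * 1 := Nat.mul_le_mul_left _ Polynomial.natDegree_linear_le
            _ = d i := Nat.mul_one _
      _ ≤ p.totalDegree := by
          have := MvPolynomial.le_totalDegree hd
          rwa [Finsupp.sum_fintype _ _ (fun _ => rfl)] at this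
  calc ((algebraMap ℝ (Polynomial ℝ)) (MvPolynomial.coeff d p) *
        ∏ i, (Polynomial.C (v i) * Polynomial.X + Polynomial.C (z i)) ^ d i).natDegree
      ≤ ((algebraMap ℝ (Polynomial ℝ)) (MvPolynomial.coeff d p)).natDegree +
        (∏ i, (Polynomial.C (v i) * Polynomial.X + Polynomial.C (z i)) ^ d i).natDegree :=
          Polynomial.natDegree_mul_le
    _ = (∏ i, (Polynomial.C (v i) * Polynomial.X + Polynomial.C (z i)) ^ d i).natDegree := by
        rw [Polynomial.algebraMap_eq, Polynomial.natDegree_C, zero_add]
    _ ≤ p.totalDegree := h1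

/-- chain rule, general curve -/
theorem pk_aeval_derivative {σ : Type} [Fintype σ] (γ : σ → Polynomial ℝ) (p : MvPolynomial σ ℝ) :
    Polynomial.derivative (aeval γ p) =
      ∑ i, aeval γ (pderiv i p) * Polynomial.derivative (γ i) := by
  classical
  induction p using MvPolynomial.induction_on with
  | C a => simp
  | add p q hp hq =>
    simp only [map_add, hp, hq, add_mul, Finset.sum_add_distrib]
  | mul_X p j hp =>
    have h1 : ∀ i, aeval γ (pderiv i (p * X j)) * Polynomial.derivative (γ i) =
        aeval γ (pderiv i p) * Polynomial.derivative (γ i) * γ j +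
          (if i = j then aeval γ p * Polynomial.derivative (γ j) else 0) := by
      intro i
      rw [pderiv_mul, map_add, map_mul, map_mul, aeval_X, pderiv_X]
      by_cases h : i = j
      · subst h
        rw [if_pos rfl, Pi.single_eq_same, map_one]
        ring
      · rw [if_neg h, Pi.single_eq_of_ne (Ne.symm h), map_zero]
        ring
    simp only [h1, Finset.sum_add_distrib, Finset.sum_ite_eq', Finset.mem_univ, if_true]
    rw [map_mul, aeval_X, Polynomial.derivative_mul, hp, Finset.sum_mul]

/-- chain rule -/
theorem pk_pkLine_derivative {σ : Type} [Fintype σ] (p : MvPolynomial σ ℝ) (z v : σ → ℝ) :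
    Polynomial.derivative (pkLine p z v) = ∑ i, Polynomial.C (v i) * pkLine (pderiv i p) z v := by
  unfold pkLine
  rw [pk_aeval_derivative]
  refine Finset.sum_congr rfl fun i _ => ?_
  simp
  ring

/-- **PK-1a** restriction of `p` to the parametrised line `t ↦ z + t v`. -/
theorem pk_line {σ : Type} [Fintype σ] (p : MvPolynomial σ ℝ) (z v : σ → ℝ) :
    ∃ q : Polynomial ℝ, q.natDegree ≤ p.totalDegree ∧
      ∀ t : ℝ, q.eval t = eval (z + t • v) p :=
  ⟨pkLine p z v, pk_pkLine_natDegree p z v, pk_pkLine_eval p z v⟩

/-- **PK-1b** zeros on a line on which `p` does not vanish identically. -/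
theorem pk_line_zeros {σ : Type} [Fintype σ] (p : MvPolynomial σ ℝ) (z v : σ → ℝ)
    (h : ∃ t : ℝ, eval (z + t • v) p ≠ 0) (T : Finset ℝ)
    (hT : ∀ t ∈ T, eval (z + t • v) p = 0) : T.card ≤ p.totalDegree := by
  classical
  have h0 : pkLine p z v ≠ 0 := by
    obtain ⟨t, ht⟩ := h
    intro h0
    apply ht
    rw [← pk_pkLine_eval, h0, Polynomial.eval_zero]
  have hsub : T ⊆ (pkLine p z v).roots.toFinset := by
    intro t ht
    rw [Multiset.mem_toFinset, Polynomial.mem_roots h0, Polynomial.IsRoot.def, pk_pkLine_eval]
    exact hT t ht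
  calc T.card ≤ (pkLine p z v).roots.toFinset.card := Finset.card_le_card hsub
    _ ≤ Multiset.card (pkLine p z v).roots := Multiset.toFinset_card_le _
    _ ≤ (pkLine p z v).natDegree := Polynomial.card_roots' _
    _ ≤ p.totalDegree := pk_pkLine_natDegree p z v

/-- **PK-1c** if `p` vanishes on the whole line `z + t v` then its derivative in the direction `v`
vanishes at `z`. -/
theorem pk_line_deriv {σ : Type} [Fintype σ] (p : MvPolynomial σ ℝ) (z v : σ → ℝ)
    (h : ∀ t : ℝ, eval (z + t • v) p = 0) : ∑ i, v i * eval z (pderiv i p) = 0 := by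
  have h0 : pkLine p z v = 0 := by
    apply Polynomial.funext
    intro t
    rw [pk_pkLine_eval, h t, Polynomial.eval_zero]
  have h1 := pk_pkLine_derivative p z v
  rw [h0, Polynomial.derivative_zero] at h1
  have h2 := congrArg (Polynomial.eval 0) h1
  rw [Polynomial.eval_zero, Polynomial.eval_finsetSum] at h2
  simp only [Polynomial.eval_mul, Polynomial.eval_C, pk_pkLine_eval, zero_smul, add_zero] at h2
  exact h2.symm

/-- **PK-1d** substitution of polynomials of degree `≤ 1` (an affine map `ℝ^τ → ℝ^σ`). -/
theorem pk_subst {σ τ : Type} [Fintype σ] [Fintype τ] (φ : σ → MvPolynomial τ ℝ)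
    (hφ : ∀ i, (φ i).totalDegree ≤ 1) (p : MvPolynomial σ ℝ) :
    (bind₁ φ p).totalDegree ≤ p.totalDegree ∧
      ∀ u : τ → ℝ, eval u (bind₁ φ p) = eval (fun i => eval u (φ i)) p := by
  constructor
  · rw [bind₁, MvPolynomial.aeval_def, MvPolynomial.eval₂_eq']
    apply totalDegree_finsetSum_le
    intro d hd
    have h1 : (∏ i, φ i ^ d i).totalDegree ≤ p.totalDegree := by
      calc (∏ i, φ i ^ d i).totalDegree ≤ ∑ i, (φ i ^ d i).totalDegree := totalDegree_finsetProd _ _
        _ ≤ ∑ i, d i := by
            apply Finset.sum_le_sum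
            intro i _
            calc (φ i ^ d i).totalDegree ≤ d i * (φ i).totalDegree := totalDegree_pow _ _
              _ ≤ d i * 1 := Nat.mul_le_mul_left _ (hφ i)
              _ = d i := Nat.mul_one _
        _ ≤ p.totalDegree := by
            have := MvPolynomial.le_totalDegree hd
            rwa [Finsupp.sum_fintype _ _ (fun _ => rfl)] at this
    calc _ ≤ ((algebraMap ℝ (MvPolynomial τ ℝ)) (coeff d p)).totalDegree +
          (∏ i, φ i ^ d i).totalDegree := totalDegree_mul _ _
      _ = (∏ i, φ i ^ d i).totalDegree := by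
          rw [MvPolynomial.algebraMap_eq, totalDegree_C, zero_add]
      _ ≤ _ := h1
  · intro u
    induction p using MvPolynomial.induction_on with
    | C a => simp
    | add p q hp hq => simp [hp, hq]
    | mul_X p i hp => simp [hp]

/-- the affine form `∑ j, a j * X j + b`. -/
noncomputable def pkAff {τ : Type} [Fintype τ] (a : τ → ℝ) (b : ℝ) : MvPolynomial τ ℝ :=
  ∑ j, C (a j) * X j + C b

/-- **PK-1e** -/
theorem pk_aff_eval {τ : Type} [Fintype τ] (a : τ → ℝ) (b : ℝ) (u : τ → ℝ) :
    eval u (pkAff a b) = ∑ j, a j * u j + b := by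
  simp [pkAff]

/-- **PK-1f** -/
theorem pk_aff_degree {τ : Type} [Fintype τ] (a : τ → ℝ) (b : ℝ) :
    (pkAff a b).totalDegree ≤ 1 := by
  unfold pkAff
  refine (totalDegree_add _ _).trans (max_le ?_ (by rw [totalDegree_C]; exact Nat.zero_le _))
  apply totalDegree_finsetSum_le
  intro j _
  refine (totalDegree_mul _ _).trans ?_
  rw [totalDegree_C, totalDegree_X, zero_add]

/-- **PK-1g** the total degree of a partial derivative. -/
theorem pk_pderiv_degree {σ : Type} [Fintype σ] (p : MvPolynomial σ ℝ) (i : σ) :
    (pderiv i p).totalDegree ≤ p.totalDegree - 1 := by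
  unfold totalDegree
  apply Finset.sup_le
  intro m hm
  rw [mem_support_iff, coeff_pderiv] at hm
  have h1 : m + Finsupp.single i 1 ∈ p.support := by
    rw [mem_support_iff]
    intro h0
    apply hm
    rw [h0, zero_mul]
  have h2 := MvPolynomial.le_totalDegree h1
  rw [Finsupp.sum_add_index' (fun _ => rfl) (fun _ _ _ => rfl), Finsupp.sum_single_index rfl] at h2
  unfold totalDegree at h2
  omega

/-- **PK-1h** a polynomial all of whose first partial derivatives vanish is constant. -/
theorem pk_const_of_pderiv {σ : Type} [Fintype σ] (p : MvPolynomial σ ℝ)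
    (h : ∀ i, pderiv i p = 0) : ∃ a : ℝ, p = C a := by
  classical
  refine ⟨coeff 0 p, ?_⟩
  ext d
  rw [coeff_C]
  by_cases hd : 0 = d
  · rw [if_pos hd, hd]
  · rw [if_neg hd]
    have : ∃ i, d i ≠ 0 := by
      by_contra hcon
      push Not at hcon
      apply hd
      ext i
      simp [hcon i]
    obtain ⟨i, hi⟩ := this
    have h1 := coeff_pderiv (i := i) p (d - Finsupp.single i 1)
    rw [h i, coeff_zero] at h1
    have h2 : d - Finsupp.single i 1 + Finsupp.single i 1 = d := by
      apply tsub_add_cancel_of_le
      rw [Finsupp.single_le_iff]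
      omega
    rw [h2] at h1
    rcases mul_eq_zero.1 h1.symm with h3 | h3
    · exact h3
    · exfalso
      have : (0 : ℝ) < ((d - Finsupp.single i 1 : σ →₀ ℕ) i : ℝ) + 1 := by positivity
      linarith

/-- **PK-1i** derivative chain: from a nonzero `F` one reaches a nonzero constant by at most
`totalDegree F` successive nonzero first partial derivatives. -/
theorem pk_chain {σ : Type} [Fintype σ] (F : MvPolynomial σ ℝ) (hF : F ≠ 0) :
    ∃ (e : ℕ) (G : ℕ → MvPolynomial σ ℝ), e ≤ F.totalDegree ∧ G 0 = F ∧
      (∀ i, i < e → ∃ j, G (i + 1) = pderiv j (G i)) ∧ (∀ i, i ≤ e → G i ≠ 0) ∧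
      (∀ i, i ≤ e → (G i).totalDegree + i ≤ F.totalDegree) ∧ ∃ a : ℝ, a ≠ 0 ∧ G e = C a := by
  induction hn : F.totalDegree using Nat.strong_induction_on generalizing F with
  | _ n ih =>
    by_cases hall : ∀ i, pderiv i F = 0
    · obtain ⟨a, ha⟩ := pk_const_of_pderiv F hall
      refine ⟨0, fun _ => F, Nat.zero_le _, rfl, fun i hi => absurd hi (Nat.not_lt_zero _),
        fun _ _ => hF, fun i hi => ?_, a, ?_, ha⟩
      · have : i = 0 := by omega
        subst this
        show F.totalDegree + 0 ≤ n
        omega
      · rintro rfl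
        apply hF
        rw [ha, C_0]
    · push Not at hall
      obtain ⟨j, hj⟩ := hall
      have hdeg := pk_pderiv_degree F j
      have hpos : 0 < F.totalDegree := by
        rcases Nat.eq_zero_or_pos F.totalDegree with h0 | h0
        · exfalso
          apply hj
          rw [totalDegree_eq_zero_iff_eq_C.1 h0, pderiv_C]
        · exact h0
      obtain ⟨e, G, h1, h2, h3, h4, h5, a, ha, h6⟩ :=
        ih (pderiv j F).totalDegree (by omega) (pderiv j F) hj rfl
      refine ⟨e + 1, fun i => Nat.casesOn i F G, by omega, rfl, ?_, ?_, ?_, a, ha, h6⟩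
      · intro i hi
        rcases i with _ | i
        · exact ⟨j, h2⟩
        · exact h3 i (by omega)
      · intro i hi
        rcases i with _ | i
        · exact hF
        · exact h4 i (by omega)
      · intro i hi
        rcases i with _ | i
        · show F.totalDegree + 0 ≤ n
          omega
        · have := h5 i (by omega)
          show (G i).totalDegree + (i + 1) ≤ n
          omega

end Claimed.Agent.R273
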