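/-
LIB-PK (row273), part 2: a nonzero polynomial of degree `D` vanishes on at most `D` hyperplanes.
-/
import Claimed.Agent.R273.PkBasic

set_option autoImplicit false

namespace Claimed.Agent.R273

open MvPolynomial

/-- **PK-2a** finitely many nonzero polynomials have a common non-root (their product is nonzero). -/
theorem pk_common_ne {σ ι : Type} [Finite σ] (T : Finset ι) (p : ι → MvPolynomial σ ℝ)
    (hp : ∀ i ∈ T, p i ≠ 0) : ∃ x : σ → ℝ, ∀ i ∈ T, eval x (p i) ≠ 0 := by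
  obtain ⟨x, hx⟩ := pk_exists_ne (∏ i ∈ T, p i) (Finset.prod_ne_zero_iff.2 hp)
  rw [map_prod] at hx
  exact ⟨x, Finset.prod_ne_zero_iff.1 hx⟩

/-- finitely many nonzero vectors: some vector is orthogonal to none of them -/
theorem pk_generic_vector {n : ℕ} (T : Finset (Fin n → ℝ)) (hT : ∀ c ∈ T, c ≠ 0) :
    ∃ v : Fin n → ℝ, ∀ c ∈ T, c ⬝ᵥ v ≠ 0 := by
  obtain ⟨v, hv⟩ := pk_common_ne T (fun c => pkAff c 0) (by
    intro c hc h0
    apply hT c hc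
    have h1 := pk_aff_eval c 0 c
    rw [h0, map_zero, add_zero] at h1
    funext j
    have h2 : ∀ j ∈ Finset.univ, 0 ≤ c j * c j := fun j _ => mul_self_nonneg _
    have h3 := (Finset.sum_eq_zero_iff_of_nonneg h2).1 h1.symm j (Finset.mem_univ _)
    exact mul_self_eq_zero.1 h3)
  refine ⟨v, fun c hc => ?_⟩
  have := hv c hc
  rw [pk_aff_eval, add_zero] at this
  exact this

/-- **PK-2b** A nonzero polynomial vanishes identically on at most `totalDegree` distinct affine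
hyperplanes `{x | ν ⬝ x = β}` of `ℝ^n`. -/
theorem pk_hyperplanes {n : ℕ} (p : MvPolynomial (Fin n) ℝ) (hp : p ≠ 0)
    (H : Finset ((Fin n → ℝ) × ℝ)) (hn : ∀ h ∈ H, h.1 ≠ 0)
    (hdist : ∀ h ∈ H, ∀ h' ∈ H, h ≠ h' → ∃ x : Fin n → ℝ, h.1 ⬝ᵥ x = h.2 ∧ h'.1 ⬝ᵥ x ≠ h'.2)
    (hvan : ∀ h ∈ H, ∀ x : Fin n → ℝ, h.1 ⬝ᵥ x = h.2 → eval x p = 0) :
    H.card ≤ p.totalDegree := by
  classical
  obtain ⟨z, hz⟩ := pk_exists_ne p hp
  set a : (Fin n → ℝ) × ℝ → ℝ := fun h => h.2 - h.1 ⬝ᵥ z with ha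
  have ha0 : ∀ h ∈ H, a h ≠ 0 := by
    intro h hh h0
    apply hz
    apply hvan h hh
    simp only [ha] at h0
    linarith
  set T : Finset (Fin n → ℝ) := H.image (fun h => h.1) ∪
    ((H ×ˢ H).filter (fun y => y.1 ≠ y.2)).image (fun y => a y.1 • y.2.1 - a y.2 • y.1.1) with hT
  have hT0 : ∀ c ∈ T, c ≠ 0 := by
    intro c hc
    rcases Finset.mem_union.1 hc with hc | hc
    · obtain ⟨h, hh, rfl⟩ := Finset.mem_image.1 hc
      exact hn h hh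
    · obtain ⟨⟨h, h'⟩, hy, rfl⟩ := Finset.mem_image.1 hc
      obtain ⟨hy1, hne⟩ := Finset.mem_filter.1 hy
      obtain ⟨hh, hh'⟩ := Finset.mem_product.1 hy1
      simp only at hh hh' hne ⊢
      intro h0
      obtain ⟨x, hx1, hx2⟩ := hdist h hh h' hh' hne
      apply hx2
      have e1 : (a h • h'.1 - a h' • h.1) ⬝ᵥ x = 0 := by rw [h0, zero_dotProduct]
      have e2 : (a h • h'.1 - a h' • h.1) ⬝ᵥ z = 0 := by rw [h0, zero_dotProduct]
      rw [sub_dotProduct, smul_dotProduct, smul_dotProduct, smul_eq_mul, smul_eq_mul] at e1 e2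
      have e3 : a h * (h'.1 ⬝ᵥ x - h'.1 ⬝ᵥ z - a h') = 0 := by
        have : a h = h.2 - h.1 ⬝ᵥ z := rfl
        rw [hx1] at e1
        have e4 : a h * (h'.1 ⬝ᵥ x - h'.1 ⬝ᵥ z - a h') =
            (a h * h'.1 ⬝ᵥ x - a h' * h.2) - (a h * h'.1 ⬝ᵥ z - a h' * h.1 ⬝ᵥ z) +
              a h' * (h.2 - h.1 ⬝ᵥ z - a h) := by ring
        rw [e4, e1, e2, this]
        ring
      rcases mul_eq_zero.1 e3 with e5 | e5
      · exact absurd e5 (ha0 h hh)
      · have : a h' = h'.2 - h'.1 ⬝ᵥ z := rfl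
        rw [this] at e5
        linarith
  obtain ⟨v, hv⟩ := pk_generic_vector T hT0
  have hv1 : ∀ h ∈ H, h.1 ⬝ᵥ v ≠ 0 := fun h hh =>
    hv _ (Finset.mem_union_left _ (Finset.mem_image_of_mem _ hh))
  have hv2 : ∀ h ∈ H, ∀ h' ∈ H, h ≠ h' → a h * (h'.1 ⬝ᵥ v) - a h' * (h.1 ⬝ᵥ v) ≠ 0 := by
    intro h hh h' hh' hne
    have := hv (a h • h'.1 - a h' • h.1) (Finset.mem_union_right _ (Finset.mem_image.2
      ⟨(h, h'), Finset.mem_filter.2 ⟨Finset.mem_product.2 ⟨hh, hh'⟩, hne⟩, rfl⟩))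
    rwa [sub_dotProduct, smul_dotProduct, smul_dotProduct, smul_eq_mul, smul_eq_mul] at this
  have hinj : Set.InjOn (fun h : (Fin n → ℝ) × ℝ => a h / (h.1 ⬝ᵥ v)) (H : Finset _) := by
    intro h hh h' hh' heq
    by_contra hne
    apply hv2 h hh h' hh' hne
    have h1 := hv1 h hh
    have h2 := hv1 h' hh'
    simp only at heq
    rw [div_eq_div_iff h1 h2] at heq
    linarith
  rw [← Finset.card_image_of_injOn hinj]
  apply pk_line_zeros p z v ⟨0, by simpa using hz⟩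
  intro t ht
  obtain ⟨h, hh, rfl⟩ := Finset.mem_image.1 ht
  apply hvan h hh
  rw [dotProduct_add, dotProduct_smul, smul_eq_mul, div_mul_cancel₀ _ (hv1 h hh)]
  simp only [ha]
  ring

/-- the cross product, in coordinates -/
def pkCross (ν v : Fin 3 → ℝ) : Fin 3 → ℝ :=
  ![ν 1 * v 2 - ν 2 * v 1, ν 2 * v 0 - ν 0 * v 2, ν 0 * v 1 - ν 1 * v 0]

theorem pk_cross_dot (ν v a : Fin 3 → ℝ) : pkCross ν v ⬝ᵥ a =
    (ν 1 * v 2 - ν 2 * v 1) * a 0 + (ν 2 * v 0 - ν 0 * v 2) * a 1 + (ν 0 * v 1 - ν 1 * v 0) * a 2 := by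
  simp [pkCross, dotProduct, Fin.sum_univ_three]

theorem pk_dot3 (a b : Fin 3 → ℝ) : a ⬝ᵥ b = a 0 * b 0 + a 1 * b 1 + a 2 * b 2 := by
  simp [dotProduct, Fin.sum_univ_three]

theorem pk_dot_self_pos {a : Fin 3 → ℝ} (ha : a ≠ 0) : 0 < a ⬝ᵥ a := by
  rw [pk_dot3]
  have h : ¬ (a 0 = 0 ∧ a 1 = 0 ∧ a 2 = 0) := by
    rintro ⟨h0, h1, h2⟩
    apply ha
    funext i
    fin_cases i <;> simp [h0, h1, h2]
  by_contra hcon
  apply h
  have e0 := mul_self_nonneg (a 0)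
  have e1 := mul_self_nonneg (a 1)
  have e2 := mul_self_nonneg (a 2)
  refine ⟨mul_self_eq_zero.1 (by linarith), mul_self_eq_zero.1 (by linarith),
    mul_self_eq_zero.1 (by linarith)⟩

/-- a vector orthogonal to `ν` and to `ν × v` is parallel to `v` (`v ⊥ ν`) -/
theorem pk_parallel {ν v a : Fin 3 → ℝ} (hν : ν ≠ 0) (hv : v ≠ 0) (h1 : ν ⬝ᵥ v = 0)
    (h2 : ν ⬝ᵥ a = 0) (h3 : pkCross ν v ⬝ᵥ a = 0) : ∃ t : ℝ, a = t • v := by
  have hνν := pk_dot_self_pos hν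
  have hvv := pk_dot_self_pos hv
  rw [pk_cross_dot] at h3
  rw [pk_dot3] at h1 h2 hνν hvv
  refine ⟨(v ⬝ᵥ a) / (v ⬝ᵥ v), ?_⟩
  rw [pk_dot3, pk_dot3]
  have key : ∀ i : Fin 3, (v 0 * v 0 + v 1 * v 1 + v 2 * v 2) * a i =
      (v 0 * a 0 + v 1 * a 1 + v 2 * a 2) * v i := by
    intro i
    have hk : (ν 0 * ν 0 + ν 1 * ν 1 + ν 2 * ν 2) * ((v 0 * v 0 + v 1 * v 1 + v 2 * v 2) * a i -
        (v 0 * a 0 + v 1 * a 1 + v 2 * a 2) * v i) = 0 := by
      fin_cases i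
      · simp only [Fin.zero_eta]
        linear_combination (ν 1 * v 2 - ν 2 * v 1) * h3 +
          ((v 0 * v 0 + v 1 * v 1 + v 2 * v 2) * ν 0 - (ν 0 * v 0 + ν 1 * v 1 + ν 2 * v 2) * v 0) * h2 +
          ((ν 0 * v 0 + ν 1 * v 1 + ν 2 * v 2) * a 0 - (v 0 * a 0 + v 1 * a 1 + v 2 * a 2) * ν 0) * h1
      · simp only [Fin.mk_one]
        linear_combination (ν 2 * v 0 - ν 0 * v 2) * h3 +
          ((v 0 * v 0 + v 1 * v 1 + v 2 * v 2) * ν 1 - (ν 0 * v 0 + ν 1 * v 1 + ν 2 * v 2) * v 1) * h2 +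
          ((ν 0 * v 0 + ν 1 * v 1 + ν 2 * v 2) * a 1 - (v 0 * a 0 + v 1 * a 1 + v 2 * a 2) * ν 1) * h1
      · simp only [Fin.reduceFinMk]
        linear_combination (ν 0 * v 1 - ν 1 * v 0) * h3 +
          ((v 0 * v 0 + v 1 * v 1 + v 2 * v 2) * ν 2 - (ν 0 * v 0 + ν 1 * v 1 + ν 2 * v 2) * v 2) * h2 +
          ((ν 0 * v 0 + ν 1 * v 1 + ν 2 * v 2) * a 2 - (v 0 * a 0 + v 1 * a 1 + v 2 * a 2) * ν 2) * h1
    rcases mul_eq_zero.1 hk with h | h
    · exact absurd h hνν.ne'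
    · linarith
  funext i
  rw [Pi.smul_apply, smul_eq_mul, div_mul_eq_mul_div, eq_div_iff hvv.ne', mul_comm (a i)]
  exact key i

/-- `ν × v ≠ 0` for `v ⊥ ν` -/
theorem pk_cross_ne {ν v : Fin 3 → ℝ} (hν : ν ≠ 0) (hv : v ≠ 0) (h1 : ν ⬝ᵥ v = 0) :
    pkCross ν v ≠ 0 := by
  intro h0
  have hνν := pk_dot_self_pos hν
  have hvv := pk_dot_self_pos hv
  rw [pk_dot3] at h1 hνν hvv
  have c0 : ν 1 * v 2 - ν 2 * v 1 = 0 := by simpa [pkCross] using congrFun h0 0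
  have c1 : ν 2 * v 0 - ν 0 * v 2 = 0 := by simpa [pkCross] using congrFun h0 1
  have c2 : ν 0 * v 1 - ν 1 * v 0 = 0 := by simpa [pkCross] using congrFun h0 2
  have : (ν 0 * ν 0 + ν 1 * ν 1 + ν 2 * ν 2) * (v 0 * v 0 + v 1 * v 1 + v 2 * v 2) = 0 := by
    linear_combination (ν 1 * v 2 - ν 2 * v 1) * c0 + (ν 2 * v 0 - ν 0 * v 2) * c1 +
      (ν 0 * v 1 - ν 1 * v 0) * c2 + (ν 0 * v 0 + ν 1 * v 1 + ν 2 * v 2) * h1
  have h2 := mul_pos hνν hvv
  linarith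

/-- **PK-2c** Concurrent lines in a plane of `ℝ^3`: if `p` does not vanish identically on the plane
`{y | ν ⬝ (y - x) = 0}` then at most `totalDegree p` lines through `x` inside this plane are
contained in `Z(p)`.  (`V` = pairwise non-parallel directions.)

Proof (helper90): compose `p` with the orthogonal projection onto the plane; the new polynomial vanishes on the
planes through `x` spanned by `ν` and `v ∈ V`: `pk_hyperplanes`. -/
theorem pk_concurrent (p : MvPolynomial (Fin 3) ℝ) (x ν z : Fin 3 → ℝ) (hν : ν ≠ 0)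
    (hz : ν ⬝ᵥ (z - x) = 0) (hpz : eval z p ≠ 0) (V : Finset (Fin 3 → ℝ))
    (hV : ∀ v ∈ V, v ≠ 0 ∧ ν ⬝ᵥ v = 0 ∧ ∀ t : ℝ, eval (x + t • v) p = 0)
    (hpar : ∀ v ∈ V, ∀ v' ∈ V, v ≠ v' → ∀ c : ℝ, v' ≠ c • v) :
    V.card ≤ p.totalDegree := by
  classical
  have hνν := pk_dot_self_pos hν
  -- the projection
  set π : (Fin 3 → ℝ) → (Fin 3 → ℝ) := fun y => y - ((ν ⬝ᵥ (y - x)) / (ν ⬝ᵥ ν)) • ν with hπ
  set φ : Fin 3 → MvPolynomial (Fin 3) ℝ := fun i =>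
    pkAff (fun j => (if j = i then 1 else 0) - ν j * ν i / (ν ⬝ᵥ ν)) ((ν ⬝ᵥ x) * ν i / (ν ⬝ᵥ ν)) with hφ
  have hφe : ∀ u : Fin 3 → ℝ, (fun i => eval u (φ i)) = π u := by
    intro u
    funext i
    simp only [hφ, hπ, pk_aff_eval, Pi.sub_apply, Pi.smul_apply, smul_eq_mul, dotProduct_sub]
    simp only [sub_mul, Finset.sum_sub_distrib, ite_mul, one_mul, zero_mul, Finset.sum_ite_eq',
      Finset.mem_univ, if_true]
    have : ∑ j, ν j * ν i / (ν ⬝ᵥ ν) * u j = (ν ⬝ᵥ u) * ν i / (ν ⬝ᵥ ν) := by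
      generalize ν ⬝ᵥ ν = N
      show ∑ j, ν j * ν i / N * u j = (∑ j, ν j * u j) * ν i / N
      rw [Finset.sum_mul, Finset.sum_div]
      refine Finset.sum_congr rfl fun j _ => ?_
      ring
    rw [this]
    ring
  obtain ⟨hdeg, hev⟩ := pk_subst φ (fun i => pk_aff_degree _ _) p
  have hev' : ∀ u, eval u (bind₁ φ p) = eval (π u) p := fun u => by rw [hev, hφe]
  have hπz : π z = z := by
    simp only [hπ, hz, zero_div, zero_smul, sub_zero]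
  have hne : bind₁ φ p ≠ 0 := by
    intro h0
    apply hpz
    rw [← hπz, ← hev', h0, map_zero]
  have hinj : Set.InjOn (fun v : Fin 3 → ℝ => (pkCross ν v, pkCross ν v ⬝ᵥ x)) (V : Finset _) := by
    intro v hv v' hv' heq
    by_contra hvv
    have h1 : pkCross ν v = pkCross ν v' := congrArg Prod.fst heq
    obtain ⟨a1, a2, -⟩ := hV v hv
    obtain ⟨b1, b2, -⟩ := hV v' hv'
    have h3 : pkCross ν v ⬝ᵥ v' = 0 := by
      rw [h1, pk_cross_dot]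
      ring
    obtain ⟨t, ht⟩ := pk_parallel hν a1 a2 b2 h3
    exact hpar v hv v' hv' hvv t ht
  rw [← Finset.card_image_of_injOn hinj]
  refine le_trans (pk_hyperplanes (bind₁ φ p) hne _ ?_ ?_ ?_) hdeg
  · intro h hh
    obtain ⟨v, hv, rfl⟩ := Finset.mem_image.1 hh
    exact pk_cross_ne hν (hV v hv).1 (hV v hv).2.1
  · intro h hh h' hh' hne'
    obtain ⟨v, hv, rfl⟩ := Finset.mem_image.1 hh
    obtain ⟨v', hv', rfl⟩ := Finset.mem_image.1 hh'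
    have hvv : v ≠ v' := fun e => hne' (by rw [e])
    refine ⟨x + v, ?_, ?_⟩
    · simp only
      rw [dotProduct_add]
      have : pkCross ν v ⬝ᵥ v = 0 := by
        rw [pk_cross_dot]
        ring
      rw [this, add_zero]
    · simp only
      rw [dotProduct_add]
      intro h0
      have h3 : pkCross ν v' ⬝ᵥ v = 0 := by linarith
      obtain ⟨t, ht⟩ := pk_parallel hν (hV v' hv').1 (hV v' hv').2.1 (hV v hv).2.1 h3
      exact hpar v' hv' v hv hvv.symm t ht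
  · intro h hh y hy
    obtain ⟨v, hv, rfl⟩ := Finset.mem_image.1 hh
    simp only at hy
    rw [hev']
    have e1 : ν ⬝ᵥ (π y - x) = 0 := by
      simp only [hπ]
      have : y - (ν ⬝ᵥ (y - x) / ν ⬝ᵥ ν) • ν - x = (y - x) - (ν ⬝ᵥ (y - x) / ν ⬝ᵥ ν) • ν := by abel
      rw [this, dotProduct_sub, dotProduct_smul, smul_eq_mul, div_mul_cancel₀ _ hνν.ne', sub_self]
    have e2 : pkCross ν v ⬝ᵥ (π y - x) = 0 := by
      simp only [hπ]
      have : y - (ν ⬝ᵥ (y - x) / ν ⬝ᵥ ν) • ν - x = (y - x) - (ν ⬝ᵥ (y - x) / ν ⬝ᵥ ν) • ν := by abel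
      have h0 : pkCross ν v ⬝ᵥ ν = 0 := by
        rw [pk_cross_dot]
        ring
      rw [this, dotProduct_sub, dotProduct_smul, h0, smul_zero, sub_zero, dotProduct_sub, hy, sub_self]
    obtain ⟨t, ht⟩ := pk_parallel hν (hV v hv).1 (hV v hv).2.1 e1 e2
    have : π y = x + t • v := by rw [← ht]; abel
    rw [this]
    exact (hV v hv).2.2 t

end Claimed.Agent.R273
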