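/-
LIB-ST (row273): definitions (lines as affine subspaces, incidences) and the dictionary
line <-> parametrisation.
-/
import Mathlib

set_option autoImplicit false

namespace Claimed.Agent.R273

open scoped Classical

/-- a line of a real vector space. -/
def stIsLine {E : Type} [AddCommGroup E] [Module ℝ E] (l : AffineSubspace ℝ E) : Prop :=
  Module.finrank ℝ l.direction = 1

/-- number of incidences between a finite set of points and a finite set of affine subspaces. -/
noncomputable def stInc {E : Type} [AddCommGroup E] [Module ℝ E] (P : Finset E)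
    (L : Finset (AffineSubspace ℝ E)) : ℕ :=
  ∑ l ∈ L, (P.filter (fun x => x ∈ l)).card

/-- **ST-0a** parametrisation of a line. -/
theorem st_line_param {E : Type} [AddCommGroup E] [Module ℝ E] (l : AffineSubspace ℝ E) :
    stIsLine l ↔ ∃ p v : E, v ≠ 0 ∧ ∀ x, x ∈ l ↔ ∃ t : ℝ, x = p + t • v := by
  constructor
  · intro hl
    have hne : (l : Set E).Nonempty := by
      rcases l.eq_bot_or_nonempty with h | h
      · exfalso
        unfold stIsLine at hl
        rw [h, AffineSubspace.direction_bot, finrank_bot] at hl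
        exact zero_ne_one hl
      · exact h
    obtain ⟨p, hp⟩ := hne
    obtain ⟨⟨v, hvd⟩, hv0, hv⟩ := finrank_eq_one_iff'.1 hl
    refine ⟨p, v, fun h => hv0 (Subtype.ext h), fun x => ?_⟩
    rw [← AffineSubspace.vsub_right_mem_direction_iff_mem hp x]
    constructor
    · intro hx
      obtain ⟨c, hc⟩ := hv ⟨x -ᵥ p, hx⟩
      refine ⟨c, ?_⟩
      have h1 : c • v = x - p := congrArg Subtype.val hc
      rw [h1]
      abel
    · rintro ⟨t, rfl⟩
      have : p + t • v -ᵥ p = t • v := by simp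
      rw [this]
      exact l.direction.smul_mem t hvd
  · rintro ⟨p, v, hv, hx⟩
    have hp : p ∈ l := (hx p).2 ⟨0, by simp⟩
    have hd : l.direction = Submodule.span ℝ {v} := by
      ext w
      rw [AffineSubspace.mem_direction_iff_eq_vsub_right hp, Submodule.mem_span_singleton]
      constructor
      · rintro ⟨x, hxl, rfl⟩
        obtain ⟨t, rfl⟩ := (hx x).1 hxl
        exact ⟨t, by simp⟩
      · rintro ⟨t, rfl⟩
        exact ⟨p + t • v, (hx _).2 ⟨t, rfl⟩, by simp⟩
    unfold stIsLine
    rw [hd]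
    exact finrank_span_singleton hv

/-- a line through two distinct points, parametrised by these points -/
theorem st_line_two {E : Type} [AddCommGroup E] [Module ℝ E] (l : AffineSubspace ℝ E)
    (hl : stIsLine l) (x y : E) (hxy : x ≠ y) (hx : x ∈ l) (hy : y ∈ l) (z : E) :
    z ∈ l ↔ ∃ c : ℝ, z = x + c • (y - x) := by
  obtain ⟨p, v, hv, h⟩ := (st_line_param l).1 hl
  obtain ⟨s, rfl⟩ := (h x).1 hx
  obtain ⟨t, rfl⟩ := (h y).1 hy
  have hst : t - s ≠ 0 := by
    intro h0
    apply hxy
    have : t = s := by linarith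
    rw [this]
  have e : p + t • v - (p + s • v) = (t - s) • v := by
    rw [sub_smul]
    abel
  rw [h z, e]
  constructor
  · rintro ⟨u, rfl⟩
    refine ⟨(u - s) / (t - s), ?_⟩
    rw [smul_smul, div_mul_cancel₀ _ hst, sub_smul]
    abel
  · rintro ⟨c, rfl⟩
    refine ⟨s + c * (t - s), ?_⟩
    rw [add_smul, smul_smul, add_assoc]

/-- **ST-0b** two distinct points lie on at most one line. -/
theorem st_line_unique {E : Type} [AddCommGroup E] [Module ℝ E] (l l' : AffineSubspace ℝ E)
    (hl : stIsLine l) (hl' : stIsLine l') (x y : E) (hxy : x ≠ y) (hx : x ∈ l) (hy : y ∈ l)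
    (hx' : x ∈ l') (hy' : y ∈ l') : l = l' := by
  apply SetLike.ext
  intro z
  rw [st_line_two l hl x y hxy hx hy z, st_line_two l' hl' x y hxy hx' hy' z]

/-- **ST-0c** the line through two distinct points. -/
theorem st_line_through {E : Type} [AddCommGroup E] [Module ℝ E] (x y : E) (hxy : x ≠ y) :
    stIsLine (line[ℝ, x, y]) ∧ x ∈ line[ℝ, x, y] ∧ y ∈ line[ℝ, x, y] := by
  refine ⟨?_, left_mem_affineSpan_pair ℝ x y, right_mem_affineSpan_pair ℝ x y⟩
  rw [st_line_param]
  refine ⟨x, y - x, sub_ne_zero.2 hxy.symm, fun z => ?_⟩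
  rw [mem_affineSpan_pair_iff_exists_lineMap_eq]
  constructor
  · rintro ⟨r, rfl⟩
    exact ⟨r, by rw [AffineMap.lineMap_apply, vsub_eq_sub, vadd_eq_add, add_comm]⟩
  · rintro ⟨t, rfl⟩
    exact ⟨t, by rw [AffineMap.lineMap_apply, vsub_eq_sub, vadd_eq_add, add_comm]⟩

/-- **ST-0d** a set of points of a line is collinear; a collinear set with two distinct points lies
on a line. -/
theorem st_collinear_of_line {E : Type} [AddCommGroup E] [Module ℝ E] (l : AffineSubspace ℝ E)
    (hl : stIsLine l) (T : Set E) (hT : ∀ x ∈ T, x ∈ l) : Collinear ℝ T := by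
  obtain ⟨p, v, -, h⟩ := (st_line_param l).1 hl
  rw [collinear_iff_exists_forall_eq_smul_vadd]
  refine ⟨p, v, fun x hx => ?_⟩
  obtain ⟨t, rfl⟩ := (h x).1 (hT x hx)
  exact ⟨t, by rw [vadd_eq_add, add_comm]⟩

theorem st_line_of_collinear {E : Type} [AddCommGroup E] [Module ℝ E] (T : Set E)
    (hT : Collinear ℝ T) (x y : E) (hx : x ∈ T) (hy : y ∈ T) (hxy : x ≠ y) :
    ∀ z ∈ T, z ∈ line[ℝ, x, y] :=
  fun _ hz => hT.mem_affineSpan_of_mem_of_ne hx hy hz hxy

/-- **ST-0e** image of a line under an injective-on-its-direction linear map. -/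
theorem st_line_map {E F : Type} [AddCommGroup E] [Module ℝ E] [AddCommGroup F] [Module ℝ F]
    (φ : E →ₗ[ℝ] F) (l : AffineSubspace ℝ E) (hl : stIsLine l)
    (hφ : ∀ v ∈ l.direction, φ v = 0 → v = 0) : stIsLine (l.map φ.toAffineMap) := by
  obtain ⟨p, v, hv, h⟩ := (st_line_param l).1 hl
  have hp : p ∈ l := (h p).2 ⟨0, by simp⟩
  have hpv : p + v ∈ l := (h (p + v)).2 ⟨1, by simp⟩
  have hvd : v ∈ l.direction := by
    have := AffineSubspace.vsub_mem_direction hpv hp
    simpa using this
  rw [st_line_param]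
  refine ⟨φ p, φ v, fun h0 => hv (hφ v hvd h0), fun z => ?_⟩
  rw [AffineSubspace.mem_map]
  constructor
  · rintro ⟨x, hx, rfl⟩
    obtain ⟨t, rfl⟩ := (h x).1 hx
    exact ⟨t, by simp⟩
  · rintro ⟨t, rfl⟩
    exact ⟨p + t • v, (h _).2 ⟨t, rfl⟩, by simp⟩

end Claimed.Agent.R273
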