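/-
LIB-ST (row273): the two trivial incidence bounds.
-/
import Claimed.Agent.R273.StDefs

set_option autoImplicit false

namespace Claimed.Agent.R273

open scoped Classical
open Finset

theorem st_triv_num (k : ℕ) : k ≤ (k * k - k) + 1 := by
  rcases k with _ | _ | k
  · simp
  · simp
  · have h : (k + 1 + 1) + (k + 1 + 1) ≤ (k + 1 + 1) * (k + 1 + 1) := by nlinarith
    omega

/-- abstract form of the two trivial bounds: a family of subsets `A i` of `S`, two of which share at most
one element -/
theorem st_triv_abs {ι α : Type} (I : Finset ι) (S : Finset α) (A : ι → Finset α)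
    (hA : ∀ i ∈ I, A i ⊆ S)
    (h2 : ∀ i ∈ I, ∀ j ∈ I, ∀ x y, x ≠ y → x ∈ A i → y ∈ A i → x ∈ A j → y ∈ A j → i = j) :
    ∑ i ∈ I, (A i).card ≤ S.card ^ 2 + I.card := by
  have h1 : ∑ i ∈ I, (A i).offDiag.card ≤ S.card ^ 2 := by
    rw [← card_biUnion]
    · rw [sq, ← card_product]
      apply card_le_card
      intro z hz
      obtain ⟨i, hi, hzi⟩ := mem_biUnion.1 hz
      obtain ⟨a, b, -⟩ := mem_offDiag.1 hzi
      exact mem_product.2 ⟨hA i hi a, hA i hi b⟩
    · intro i hi j hj hij
      show Disjoint (A i).offDiag (A j).offDiag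
      rw [Finset.disjoint_left]
      intro z hz hz'
      obtain ⟨a, b, c⟩ := mem_offDiag.1 hz
      obtain ⟨a', b', -⟩ := mem_offDiag.1 hz'
      exact hij (h2 i hi j hj z.1 z.2 c a b a' b')
  calc ∑ i ∈ I, (A i).card ≤ ∑ i ∈ I, ((A i).offDiag.card + 1) := by
        refine sum_le_sum fun i _ => ?_
        rw [offDiag_card]
        exact st_triv_num _
    _ = ∑ i ∈ I, (A i).offDiag.card + I.card := by
        rw [sum_add_distrib, sum_const, smul_eq_mul, mul_one]
    _ ≤ _ := Nat.add_le_add_right h1 _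

/-- **ST-1c** double counting. -/
theorem st_inc_comm {E : Type} [AddCommGroup E] [Module ℝ E] (P : Finset E)
    (L : Finset (AffineSubspace ℝ E)) :
    stInc P L = ∑ x ∈ P, (L.filter (fun l => x ∈ l)).card := by
  unfold stInc
  simp only [card_filter]
  rw [sum_comm]

/-- **ST-1a** `I ≤ n² + L` (two points lie on at most one line). -/
theorem st_triv_points {E : Type} [AddCommGroup E] [Module ℝ E] (P : Finset E)
    (L : Finset (AffineSubspace ℝ E)) (hL : ∀ l ∈ L, stIsLine l) :
    stInc P L ≤ P.card ^ 2 + L.card := by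
  unfold stInc
  refine st_triv_abs L P (fun l => P.filter (fun x => x ∈ l)) (fun l _ => filter_subset _ _) ?_
  intro l hl l' hl' x y hxy hx hy hx' hy'
  exact st_line_unique l l' (hL l hl) (hL l' hl') x y hxy (mem_filter.1 hx).2 (mem_filter.1 hy).2
    (mem_filter.1 hx').2 (mem_filter.1 hy').2

/-- **ST-1b** `I ≤ L² + n` (two lines share at most one point). -/
theorem st_triv_lines {E : Type} [AddCommGroup E] [Module ℝ E] (P : Finset E)
    (L : Finset (AffineSubspace ℝ E)) (hL : ∀ l ∈ L, stIsLine l) :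
    stInc P L ≤ L.card ^ 2 + P.card := by
  rw [st_inc_comm]
  refine st_triv_abs P L (fun x => L.filter (fun l => x ∈ l)) (fun x _ => filter_subset _ _) ?_
  intro x _ x' _ l l' hll hl hl' hl2 hl2'
  by_contra hxx
  exact hll (st_line_unique l l' (hL l (mem_filter.1 hl).1) (hL l' (mem_filter.1 hl').1) x x' hxx
    (mem_filter.1 hl).2 (mem_filter.1 hl2).2 (mem_filter.1 hl').2 (mem_filter.1 hl2').2)

end Claimed.Agent.R273
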