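/-
LIB-ST (row273): Szemeredi-Trotter in the plane by polynomial partitioning
(Kaplan-Matousek-Sharir).  Proofs: helper90 (aux prefix `stp_`).
-/
import Claimed.Agent.R273.StTriv
import Claimed.Agent.R273.PkHyper
import Claimed.Agent.R273.BuPart

set_option autoImplicit false

namespace Claimed.Agent.R273

open scoped Classical
open Finset

/-- implicit equation of a line of the plane -/
theorem stp_line_eq (l : AffineSubspace ℝ (Fin 2 → ℝ)) (hl : stIsLine l) :
    ∃ h : (Fin 2 → ℝ) × ℝ, h.1 ≠ 0 ∧ ∀ x, x ∈ l ↔ h.1 ⬝ᵥ x = h.2 := by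
  obtain ⟨p, v, hv, hx⟩ := (st_line_param l).1 hl
  refine ⟨(![-(v 1), v 0], -(v 1) * p 0 + v 0 * p 1), ?_, fun x => ?_⟩
  · intro h
    apply hv
    have h0 := congrFun h 0
    have h1 := congrFun h 1
    simp at h0 h1
    funext i
    fin_cases i <;> simp [h0, h1]
  · rw [hx]
    simp only [dotProduct, Fin.sum_univ_two, Matrix.cons_val_zero, Matrix.cons_val_one]
    constructor
    · rintro ⟨t, rfl⟩
      simp
      ring
    · intro h
      by_cases h0 : v 0 = 0
      · have h1 : v 1 ≠ 0 := by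
          intro h1
          apply hv
          funext i
          fin_cases i <;> simp [h0, h1]
        refine ⟨(x 1 - p 1) / v 1, ?_⟩
        funext i
        fin_cases i
        · simp only [h0, zero_mul, add_zero] at h
          have : x 0 = p 0 := by
            have h2 : v 1 * (x 0 - p 0) = 0 := by linarith
            rcases mul_eq_zero.1 h2 with h3 | h3
            · exact absurd h3 h1
            · linarith
          simp [h0, this]
        · simp
          field_simp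
          ring
      · refine ⟨(x 0 - p 0) / v 0, ?_⟩
        funext i
        fin_cases i
        · simp
          field_simp
          ring
        · simp
          field_simp
          linarith

/-- zeros of a polynomial on a line on which it does not vanish identically -/
theorem stp_zeros (g : MvPolynomial (Fin 2) ℝ) (l : AffineSubspace ℝ (Fin 2 → ℝ)) (hl : stIsLine l)
    (hne : ∃ x ∈ l, MvPolynomial.eval x g ≠ 0) (P : Finset (Fin 2 → ℝ)) :
    (P.filter (fun x => x ∈ l ∧ MvPolynomial.eval x g = 0)).card ≤ g.totalDegree := by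
  obtain ⟨p, v, hv, hx⟩ := (st_line_param l).1 hl
  have hch : ∀ x : Fin 2 → ℝ, ∃ t : ℝ, x ∈ l → x = p + t • v := by
    intro x
    by_cases h : x ∈ l
    · obtain ⟨t, ht⟩ := (hx x).1 h
      exact ⟨t, fun _ => ht⟩
    · exact ⟨0, fun h' => absurd h' h⟩
  choose τ hτ using hch
  have hinj : Set.InjOn τ (P.filter (fun x => x ∈ l ∧ MvPolynomial.eval x g = 0) : Finset _) := by
    intro a ha b hb hab
    have ha' := (mem_filter.1 (mem_coe.1 ha)).2.1
    have hb' := (mem_filter.1 (mem_coe.1 hb)).2.1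
    rw [hτ a ha', hτ b hb', hab]
  rw [← card_image_of_injOn hinj]
  apply pk_line_zeros g p v
  · obtain ⟨x, hxl, hxg⟩ := hne
    exact ⟨τ x, by rw [← hτ x hxl]; exact hxg⟩
  · intro t ht
    obtain ⟨x, hxm, rfl⟩ := mem_image.1 ht
    have h2 := (mem_filter.1 hxm).2
    rw [← hτ x h2.1]
    exact h2.2

/-- cells met by a line -/
theorem stp_cells {J : ℕ} (f : Fin J → MvPolynomial (Fin 2) ℝ) (l : AffineSubspace ℝ (Fin 2 → ℝ))
    (hl : stIsLine l) (hne : ∀ j, ∃ x ∈ l, MvPolynomial.eval x (f j) ≠ 0) :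
    (univ.filter (fun σ : Fin J → Bool => ∃ x ∈ l, ∀ j,
      buSgn (σ j) (MvPolynomial.eval x (f j)))).card ≤ ∑ j, (f j).totalDegree + 1 := by
  obtain ⟨p, v, hv, hx⟩ := (st_line_param l).1 hl
  set γ : Fin 2 → Polynomial ℝ := fun i => Polynomial.C (v i) * Polynomial.X + Polynomial.C (p i)
    with hγ
  have hev : ∀ t : ℝ, (fun i => (γ i).eval t) = p + t • v := by
    intro t
    funext i
    simp [hγ]
    ring
  have h1 := bu_curve_cells f γ 1 (fun i => Polynomial.natDegree_linear_le) (by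
    intro j
    obtain ⟨x, hxl, hxg⟩ := hne j
    obtain ⟨t, rfl⟩ := (hx x).1 hxl
    exact ⟨t, by rw [hev]; exact hxg⟩)
  rw [one_mul] at h1
  refine le_trans (card_le_card ?_) h1
  intro σ hσ
  obtain ⟨x, hxl, hs⟩ := (mem_filter.1 hσ).2
  obtain ⟨t, rfl⟩ := (hx x).1 hxl
  exact mem_filter.2 ⟨mem_univ _, t, by rw [hev]; exact hs⟩

/-- a line contained in another line is equal to it -/
theorem stp_line_le (l l' : AffineSubspace ℝ (Fin 2 → ℝ)) (hl : stIsLine l) (hl' : stIsLine l')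
    (h : ∀ x ∈ l, x ∈ l') : l = l' := by
  obtain ⟨p, v, hv, hx⟩ := (st_line_param l).1 hl
  have h0 : p ∈ l := (hx p).2 ⟨0, by simp⟩
  have h1 : p + v ∈ l := (hx (p + v)).2 ⟨1, by simp⟩
  exact st_line_unique l l' hl hl' p (p + v) (by simpa using hv) h0 h1 (h _ h0) (h _ h1)

/-- the lines inside the zero set -/
theorem stp_inside {J : ℕ} (f : Fin J → MvPolynomial (Fin 2) ℝ) (hf : ∀ j, f j ≠ 0)
    (L : Finset (AffineSubspace ℝ (Fin 2 → ℝ))) (hL : ∀ l ∈ L, stIsLine l)
    (hin : ∀ l ∈ L, ∃ j, ∀ x ∈ l, MvPolynomial.eval x (f j) = 0) :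
    L.card ≤ ∑ j, (f j).totalDegree := by
  have hch : ∀ l : AffineSubspace ℝ (Fin 2 → ℝ), ∃ h : (Fin 2 → ℝ) × ℝ, l ∈ L →
      (h.1 ≠ 0 ∧ ∀ x, x ∈ l ↔ h.1 ⬝ᵥ x = h.2) := by
    intro l
    by_cases h : l ∈ L
    · obtain ⟨e, he⟩ := stp_line_eq l (hL l h)
      exact ⟨e, fun _ => he⟩
    · exact ⟨(0, 0), fun h' => absurd h' h⟩
  choose e he using hch
  have hinj : Set.InjOn e (L : Finset _) := by
    intro a ha b hb hab
    have ha' := he a (mem_coe.1 ha)
    have hb' := he b (mem_coe.1 hb)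
    apply SetLike.ext
    intro x
    rw [ha'.2, hb'.2, hab]
  rw [← card_image_of_injOn hinj]
  have hF : (∏ j, f j) ≠ 0 := prod_ne_zero_iff.2 fun j _ => hf j
  refine le_trans (pk_hyperplanes (∏ j, f j) hF (L.image e) ?_ ?_ ?_)
    (MvPolynomial.totalDegree_finsetProd _ _)
  · intro h hh
    obtain ⟨l, hl, rfl⟩ := mem_image.1 hh
    exact (he l hl).1
  · intro h hh h' hh' hne
    obtain ⟨l, hl, rfl⟩ := mem_image.1 hh
    obtain ⟨l', hl', rfl⟩ := mem_image.1 hh'
    by_contra hcon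
    push Not at hcon
    apply hne
    have : l = l' := stp_line_le l l' (hL l hl) (hL l' hl') fun x hx =>
      ((he l' hl').2 x).2 (hcon x (((he l hl).2 x).1 hx))
    rw [this]
  · intro h hh x hx
    obtain ⟨l, hl, rfl⟩ := mem_image.1 hh
    obtain ⟨j, hj⟩ := hin l hl
    rw [map_prod]
    exact prod_eq_zero (mem_univ j) (hj x (((he l hl).2 x).2 hx))


/-- the sign classes are disjoint -/
theorem stp_cell_disj {J : ℕ} (f : Fin J → MvPolynomial (Fin 2) ℝ) (P : Finset (Fin 2 → ℝ)) :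
    ∑ σ : Fin J → Bool, (buCell f P σ).card ≤ P.card := by
  rw [← card_biUnion]
  · apply card_le_card
    intro x hx
    obtain ⟨σ, -, hσ⟩ := mem_biUnion.1 hx
    exact (mem_filter.1 hσ).1
  · intro σ _ σ' _ hne
    show Disjoint (buCell f P σ) (buCell f P σ')
    rw [Finset.disjoint_left]
    intro x hx hx'
    apply hne
    funext j
    have h1 := (mem_filter.1 hx).2 j
    have h2 := (mem_filter.1 hx').2 j
    unfold buSgn at h1 h2
    cases h3 : σ j <;> cases h4 : σ' j <;> simp only [h3, h4, if_true, Bool.false_eq_true, if_false] at h1 h2 ⊢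
    · linarith
    · linarith

/-- the combinatorial core of the partitioning argument -/
theorem stp_core {J : ℕ} (f : Fin J → MvPolynomial (Fin 2) ℝ) (hf : ∀ j, f j ≠ 0)
    (P : Finset (Fin 2 → ℝ)) (L : Finset (AffineSubspace ℝ (Fin 2 → ℝ)))
    (hL : ∀ l ∈ L, stIsLine l) :
    stInc P L ≤ ((∑ j, (f j).totalDegree) ^ 2 + P.card) + L.card * (∑ j, (f j).totalDegree) +
      (∑ σ : Fin J → Bool, (buCell f P σ).card ^ 2 + L.card * (∑ j, (f j).totalDegree + 1)) := by
  set D : ℕ := ∑ j, (f j).totalDegree with hD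
  set Lin := L.filter (fun l => ∃ j, ∀ x ∈ l, MvPolynomial.eval x (f j) = 0) with hLin
  set Lout := L.filter (fun l => ¬ ∃ j, ∀ x ∈ l, MvPolynomial.eval x (f j) = 0) with hLout
  have hsplit : stInc P L = stInc P Lin + stInc P Lout := by
    unfold stInc
    rw [hLin, hLout, sum_filter_add_sum_filter_not]
  have hLoutc : Lout.card ≤ L.card := card_le_card (filter_subset _ _)
  have hLoutL : ∀ l ∈ Lout, stIsLine l := fun l hl => hL l (mem_filter.1 hl).1
  have hLoutne : ∀ l ∈ Lout, ∀ j, ∃ x ∈ l, MvPolynomial.eval x (f j) ≠ 0 := by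
    intro l hl j
    have := (mem_filter.1 hl).2
    push Not at this
    exact this j
  -- inside lines
  have h1 : stInc P Lin ≤ D ^ 2 + P.card := by
    have hc : Lin.card ≤ D := stp_inside f hf Lin (fun l hl => hL l (mem_filter.1 hl).1)
      (fun l hl => (mem_filter.1 hl).2)
    refine (st_triv_lines P Lin (fun l hl => hL l (mem_filter.1 hl).1)).trans ?_
    exact Nat.add_le_add_right (Nat.pow_le_pow_left hc 2) _
  -- outside lines: pointwise split
  have h2 : ∀ l ∈ Lout, (P.filter (fun x => x ∈ l)).card ≤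
      D + ∑ σ : Fin J → Bool, ((buCell f P σ).filter (fun x => x ∈ l)).card := by
    intro l hl
    have hsub : P.filter (fun x => x ∈ l) ⊆
        (univ.biUnion fun j => P.filter (fun x => x ∈ l ∧ MvPolynomial.eval x (f j) = 0)) ∪
        (univ.biUnion fun σ : Fin J → Bool => (buCell f P σ).filter (fun x => x ∈ l)) := by
      intro x hx
      obtain ⟨hxP, hxl⟩ := mem_filter.1 hx
      by_cases hz : ∃ j, MvPolynomial.eval x (f j) = 0
      · obtain ⟨j, hj⟩ := hz
        exact mem_union_left _ (mem_biUnion.2 ⟨j, mem_univ _, mem_filter.2 ⟨hxP, hxl, hj⟩⟩)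
      · push Not at hz
        refine mem_union_right _ (mem_biUnion.2
          ⟨fun j => decide (0 < MvPolynomial.eval x (f j)), mem_univ _, mem_filter.2
            ⟨mem_filter.2 ⟨hxP, fun j => ?_⟩, hxl⟩⟩)
        unfold buSgn
        by_cases hp : 0 < MvPolynomial.eval x (f j)
        · simp [hp]
        · simp only [hp, decide_false, Bool.false_eq_true, if_false]
          exact lt_of_le_of_ne (not_lt.1 hp) (hz j)
    refine (card_le_card hsub).trans ((card_union_le _ _).trans (Nat.add_le_add ?_ card_biUnion_le))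
    exact card_biUnion_le.trans (sum_le_sum fun j _ => stp_zeros (f j) l (hLoutL l hl)
      (hLoutne l hl j) P)
  have h3 : stInc P Lout ≤ Lout.card * D + ∑ σ : Fin J → Bool, stInc (buCell f P σ) Lout := by
    unfold stInc
    rw [sum_comm]
    calc ∑ l ∈ Lout, (P.filter (fun x => x ∈ l)).card
        ≤ ∑ l ∈ Lout, (D + ∑ σ : Fin J → Bool, ((buCell f P σ).filter (fun x => x ∈ l)).card) :=
          sum_le_sum h2
      _ = _ := by rw [sum_add_distrib, sum_const, smul_eq_mul]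
  -- each cell
  have h4 : ∀ σ : Fin J → Bool, stInc (buCell f P σ) Lout ≤ (buCell f P σ).card ^ 2 +
      (Lout.filter (fun l => ∃ x ∈ l, ∀ j, buSgn (σ j) (MvPolynomial.eval x (f j)))).card := by
    intro σ
    have he : stInc (buCell f P σ) Lout = stInc (buCell f P σ)
        (Lout.filter (fun l => ∃ x ∈ l, ∀ j, buSgn (σ j) (MvPolynomial.eval x (f j)))) := by
      unfold stInc
      refine (sum_subset (filter_subset _ _) fun l hl hnot => ?_).symm
      rw [card_eq_zero, filter_eq_empty_iff]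
      intro x hx hxl
      exact hnot (mem_filter.2 ⟨hl, x, hxl, (mem_filter.1 hx).2⟩)
    rw [he]
    exact st_triv_points _ _ fun l hl => hLoutL l (mem_filter.1 hl).1
  have h5 : ∑ σ : Fin J → Bool,
      (Lout.filter (fun l => ∃ x ∈ l, ∀ j, buSgn (σ j) (MvPolynomial.eval x (f j)))).card ≤
      Lout.card * (D + 1) := by
    have e : ∑ σ : Fin J → Bool,
        (Lout.filter (fun l => ∃ x ∈ l, ∀ j, buSgn (σ j) (MvPolynomial.eval x (f j)))).card =
        ∑ l ∈ Lout, (univ.filter (fun σ : Fin J → Bool => ∃ x ∈ l, ∀ j,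
          buSgn (σ j) (MvPolynomial.eval x (f j)))).card := by
      simp only [card_filter]
      rw [sum_comm]
    rw [e, ← smul_eq_mul, ← sum_const]
    exact sum_le_sum fun l hl => stp_cells f l (hLoutL l hl) (hLoutne l hl)
  have h6 : ∑ σ : Fin J → Bool, stInc (buCell f P σ) Lout ≤
      ∑ σ : Fin J → Bool, (buCell f P σ).card ^ 2 + Lout.card * (D + 1) := by
    refine (sum_le_sum fun σ _ => h4 σ).trans ?_
    rw [sum_add_distrib]
    exact Nat.add_le_add_left h5 _
  have h7 : Lout.card * D ≤ L.card * D := Nat.mul_le_mul_right _ hLoutc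
  have h8 : Lout.card * (D + 1) ≤ L.card * (D + 1) := Nat.mul_le_mul_right _ hLoutc
  rw [hsplit]
  omega

/-- **ST-2** parametric form: for every real `r ≥ 1`,  `I ≤ C (n²/r² + r L + n + r²)`. -/
theorem st_plane_param : ∃ C : ℝ, 0 < C ∧ ∀ (P : Finset (Fin 2 → ℝ))
    (L : Finset (AffineSubspace ℝ (Fin 2 → ℝ))), (∀ l ∈ L, stIsLine l) → ∀ r : ℝ, 1 ≤ r →
    (stInc P L : ℝ) ≤ C * ((P.card : ℝ) ^ 2 / r ^ 2 + r * L.card + P.card + r ^ 2) := by
  refine ⟨64, by norm_num, fun P L hL r hr => ?_⟩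
  obtain ⟨J, f, hf, hD, -, hcell⟩ := bu_partition_real 2 P r hr
  have hcore := stp_core f hf P L hL
  set D : ℕ := ∑ j, (f j).totalDegree with hDdef
  have hr0 : 0 < r := by linarith
  have hD' : (D : ℝ) ≤ 8 * r := by
    have h := hD
    norm_num at h
    linarith
  have hD0 : (0 : ℝ) ≤ D := Nat.cast_nonneg _
  have hsum : (∑ σ : Fin J → Bool, ((buCell f P σ).card : ℝ)) ≤ (P.card : ℝ) := by
    have := stp_cell_disj f P
    exact_mod_cast this
  have hcoreR : (stInc P L : ℝ) ≤ ((D : ℝ) ^ 2 + (P.card : ℝ)) + (L.card : ℝ) * D +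
      (∑ σ : Fin J → Bool, ((buCell f P σ).card : ℝ) ^ 2 + (L.card : ℝ) * ((D : ℝ) + 1)) := by
    exact_mod_cast hcore
  set n : ℝ := (P.card : ℝ) with hn
  set m : ℝ := (L.card : ℝ) with hm
  have hn0 : 0 ≤ n := Nat.cast_nonneg _
  have hm0 : 0 ≤ m := Nat.cast_nonneg _
  have hq0 : 0 ≤ 2 ^ 2 * n / r ^ 2 := by positivity
  have hsq : (∑ σ : Fin J → Bool, ((buCell f P σ).card : ℝ) ^ 2) ≤ 4 * (n ^ 2 / r ^ 2) := by
    calc (∑ σ : Fin J → Bool, ((buCell f P σ).card : ℝ) ^ 2)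
        ≤ ∑ σ : Fin J → Bool, (2 ^ 2 * n / r ^ 2) * ((buCell f P σ).card : ℝ) := by
          refine sum_le_sum fun σ _ => ?_
          rw [sq]
          exact mul_le_mul_of_nonneg_right (hcell σ) (Nat.cast_nonneg _)
      _ = (2 ^ 2 * n / r ^ 2) * ∑ σ : Fin J → Bool, ((buCell f P σ).card : ℝ) := by
          rw [mul_sum]
      _ ≤ (2 ^ 2 * n / r ^ 2) * n := mul_le_mul_of_nonneg_left hsum hq0
      _ = 4 * (n ^ 2 / r ^ 2) := by ring
  have h1 : (D : ℝ) ^ 2 ≤ 64 * r ^ 2 := by nlinarith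
  have h2 : m * D ≤ 8 * (r * m) := by nlinarith
  have h3 : m ≤ r * m := by nlinarith
  have h4 : 0 ≤ n ^ 2 / r ^ 2 := by positivity
  have h5 : 0 ≤ r * m := by positivity
  nlinarith

/-- **ST-3** Szemeredi-Trotter in `ℝ²`. -/
theorem st_plane : ∃ C : ℝ, 0 < C ∧ ∀ (P : Finset (Fin 2 → ℝ))
    (L : Finset (AffineSubspace ℝ (Fin 2 → ℝ))), (∀ l ∈ L, stIsLine l) →
    (stInc P L : ℝ) ≤ C * ((P.card : ℝ) ^ ((2 : ℝ) / 3) * (L.card : ℝ) ^ ((2 : ℝ) / 3)
      + P.card + L.card) := by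
  obtain ⟨C0, hC0, hpar⟩ := st_plane_param
  refine ⟨3 * C0 + 2, by positivity, fun P L hL => ?_⟩
  have ht1 : (stInc P L : ℝ) ≤ (P.card : ℝ) ^ 2 + (L.card : ℝ) := by
    exact_mod_cast st_triv_points P L hL
  have ht2 : (stInc P L : ℝ) ≤ (L.card : ℝ) ^ 2 + (P.card : ℝ) := by
    exact_mod_cast st_triv_lines P L hL
  set n : ℝ := (P.card : ℝ) with hn
  set m : ℝ := (L.card : ℝ) with hm
  have hn0 : 0 ≤ n := Nat.cast_nonneg _
  have hm0 : 0 ≤ m := Nat.cast_nonneg _
  have hX0 : 0 ≤ n ^ ((2 : ℝ) / 3) * m ^ ((2 : ℝ) / 3) := by positivity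
  by_cases c1 : n ^ 2 < m
  · nlinarith
  by_cases c2 : m ^ 2 < n
  · nlinarith
  push Not at c1 c2
  by_cases c3 : n = 0
  · have : m ≤ 0 := by rw [c3] at c1; simpa using c1
    nlinarith
  have hnpos : 0 < n := lt_of_le_of_ne hn0 (Ne.symm c3)
  have hmpos : 0 < m := by
    rcases hm0.lt_or_eq with h | h
    · exact h
    · rw [← h] at c2
      norm_num at c2
      linarith
  set a : ℝ := n ^ ((1 : ℝ) / 3) with ha
  set b : ℝ := m ^ ((1 : ℝ) / 3) with hb
  have ha0 : 0 < a := Real.rpow_pos_of_pos hnpos _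
  have hb0 : 0 < b := Real.rpow_pos_of_pos hmpos _
  have ea3 : a ^ 3 = n := by
    rw [ha, ← Real.rpow_natCast, ← Real.rpow_mul hn0]
    norm_num
  have eb3 : b ^ 3 = m := by
    rw [hb, ← Real.rpow_natCast, ← Real.rpow_mul hm0]
    norm_num
  have ea2 : n ^ ((2 : ℝ) / 3) = a ^ 2 := by
    rw [ha, ← Real.rpow_natCast, ← Real.rpow_mul hn0]
    norm_num
  have eb2 : m ^ ((2 : ℝ) / 3) = b ^ 2 := by
    rw [hb, ← Real.rpow_natCast, ← Real.rpow_mul hm0]
    norm_num
  have hba : b ≤ a ^ 2 := by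
    rw [← pow_le_pow_iff_left₀ hb0.le (by positivity) (show (3 : ℕ) ≠ 0 by norm_num), eb3]
    calc m ≤ n ^ 2 := c1
      _ = (a ^ 2) ^ 3 := by rw [← ea3]; ring
  have hab : a ≤ b ^ 2 := by
    rw [← pow_le_pow_iff_left₀ ha0.le (by positivity) (show (3 : ℕ) ≠ 0 by norm_num), ea3]
    calc n ≤ m ^ 2 := c2
      _ = (b ^ 2) ^ 3 := by rw [← eb3]; ring
  have hr : 1 ≤ a ^ 2 / b := by rwa [one_le_div hb0]
  have h := hpar P L hL (a ^ 2 / b) hr
  rw [← hn, ← hm] at h
  have e1 : n ^ 2 / (a ^ 2 / b) ^ 2 = a ^ 2 * b ^ 2 := by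
    rw [← ea3]
    field_simp
  have e2 : a ^ 2 / b * m = a ^ 2 * b ^ 2 := by
    rw [← eb3]
    field_simp
  have e3 : (a ^ 2 / b) ^ 2 ≤ a ^ 2 * b ^ 2 := by
    rw [div_pow, div_le_iff₀ (by positivity)]
    have : a ^ 2 ≤ (b ^ 2) ^ 2 := pow_le_pow_left₀ ha0.le hab 2
    have h2 : 0 < a ^ 2 := by positivity
    nlinarith
  rw [e1, e2] at h
  rw [ea2, eb2]
  have hY : 0 ≤ a ^ 2 * b ^ 2 := by positivity
  have h' : (stInc P L : ℝ) ≤ C0 * (3 * (a ^ 2 * b ^ 2) + n) := by
    refine h.trans (mul_le_mul_of_nonneg_left ?_ hC0.le)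
    linarith
  nlinarith

end Claimed.Agent.R273
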