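/-
LIB-ST (row273): Szemeredi-Trotter in an arbitrary real vector space, by generic projection.
-/
import Claimed.Agent.R273.StPlane

set_option autoImplicit false

namespace Claimed.Agent.R273

open scoped Classical
open Finset

/-- a vector outside finitely many proper subspaces -/
theorem stj_outside {E : Type} [AddCommGroup E] [Module ℝ E] (U : Finset (Submodule ℝ E))
    (hU : ∀ W ∈ U, W ≠ ⊤) : ∃ v : E, ∀ W ∈ U, v ∉ W := by
  have h1 : (⊤ : Submodule ℝ E) ∉ U := fun h => hU ⊤ h rfl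
  have h2 := Subspace.biUnion_ne_univ_of_top_notMem (k := ℝ) (E := E) (s := U) h1
  rw [Ne, Set.eq_univ_iff_forall] at h2
  push Not at h2
  obtain ⟨v, hv⟩ := h2
  refine ⟨v, fun W hW hvW => hv ?_⟩
  exact Set.mem_biUnion (Finset.mem_coe.2 hW) hvW

theorem stj_finrank_pair {E : Type} [AddCommGroup E] [Module ℝ E] (x y : E) :
    Module.finrank ℝ (Submodule.span ℝ ({x, y} : Set E)) ≤ 2 := by
  have h := finrank_span_finset_le_card (R := ℝ) ({x, y} : Finset E)
  have h2 : ({x, y} : Finset E).card ≤ 2 := Finset.card_le_two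
  have e : ((({x, y} : Finset E) : Set E)) = ({x, y} : Set E) := by simp
  rw [e] at h
  exact h.trans h2

/-- **ST-4a** one step of generic projection. -/
theorem st_generic_vector {E : Type} [AddCommGroup E] [Module ℝ E] [FiniteDimensional ℝ E]
    (hE : 3 ≤ Module.finrank ℝ E) (P : Finset E) :
    ∃ v : E, v ≠ 0 ∧ ∀ a ∈ P, ∀ b ∈ P, ∀ c ∈ P, v ∉ Submodule.span ℝ {b - a, c - a} := by
  obtain ⟨v, hv⟩ := stj_outside (insert ⊥ (((P ×ˢ P) ×ˢ P).image
    (fun y => Submodule.span ℝ ({y.1.2 - y.1.1, y.2 - y.1.1} : Set E)))) (by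
    intro W hW hT
    rcases mem_insert.1 hW with h | h
    · rw [h] at hT
      have := congrArg (fun W : Submodule ℝ E => Module.finrank ℝ W) hT
      simp only [finrank_bot, finrank_top] at this
      omega
    · obtain ⟨y, -, rfl⟩ := mem_image.1 h
      have h1 := stj_finrank_pair (y.1.2 - y.1.1) (y.2 - y.1.1)
      rw [hT, finrank_top] at h1
      omega)
  refine ⟨v, fun h0 => hv ⊥ (mem_insert_self _ _) (by rw [h0]; exact Submodule.zero_mem _), ?_⟩
  intro a ha b hb c hc
  exact hv _ (mem_insert_of_mem (mem_image.2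
    ⟨((a, b), c), mem_product.2 ⟨mem_product.2 ⟨ha, hb⟩, hc⟩, rfl⟩))

/-- two points of `P` on a line with at least two points of `P` -/
theorem stj_two {E : Type} [AddCommGroup E] [Module ℝ E] (P : Finset E) (l : AffineSubspace ℝ E)
    (h : 2 ≤ (P.filter (fun x => x ∈ l)).card) : ∃ a ∈ P, ∃ b ∈ P, a ≠ b ∧ a ∈ l ∧ b ∈ l := by
  obtain ⟨a, ha, b, hb, hab⟩ := Finset.one_lt_card.1 (Nat.lt_of_succ_le h)
  exact ⟨a, (mem_filter.1 ha).1, b, (mem_filter.1 hb).1, hab, (mem_filter.1 ha).2, (mem_filter.1 hb).2⟩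

/-- **ST-4b** a linear map which is injective on `P` and keeps non-collinear triples of `P`
non-collinear does not decrease the incidences with lines containing at least two points of `P`:
the images of these lines are distinct lines. -/
theorem st_inc_map {E F : Type} [AddCommGroup E] [Module ℝ E] [AddCommGroup F] [Module ℝ F]
    (φ : E →ₗ[ℝ] F) (P : Finset E) (L : Finset (AffineSubspace ℝ E))
    (hL : ∀ l ∈ L, stIsLine l ∧ 2 ≤ (P.filter (fun x => x ∈ l)).card)
    (hφ : ∀ a ∈ P, ∀ b ∈ P, ∀ c ∈ P, ∀ s t : ℝ, φ (s • (b - a) + t • (c - a)) = 0 →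
      s • (b - a) + t • (c - a) = 0) :
    (P.image φ).card = P.card ∧
    (∀ l ∈ L, stIsLine (l.map φ.toAffineMap)) ∧
    (L.image (fun l => l.map φ.toAffineMap)).card = L.card ∧
    stInc P L ≤ stInc (P.image φ) (L.image (fun l => l.map φ.toAffineMap)) := by
  have hinjP : Set.InjOn φ (P : Finset E) := by
    intro a ha b hb hab
    have h1 := hφ a ha b hb a ha 1 0 (by simp [hab])
    simp only [one_smul, sub_self, smul_zero, add_zero] at h1
    exact (sub_eq_zero.1 h1).symm
  have hinjL : Set.InjOn (fun l : AffineSubspace ℝ E => l.map φ.toAffineMap) (L : Finset _) := by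
    intro l hl l' hl' heq
    obtain ⟨a, ha, b, hb, hab, hal, hbl⟩ := stj_two P l (hL l hl).2
    obtain ⟨a', ha', b', hb', hab', hal', hbl'⟩ := stj_two P l' (hL l' hl').2
    have key : ∀ c ∈ P, c ∈ l' → c ∈ l := by
      intro c hc hcl'
      have h1 : φ.toAffineMap c ∈ l'.map φ.toAffineMap := AffineSubspace.mem_map.2 ⟨c, hcl', rfl⟩
      have heq' : l.map φ.toAffineMap = l'.map φ.toAffineMap := heq
      rw [← heq'] at h1
      obtain ⟨x, hx, hxc⟩ := AffineSubspace.mem_map.1 h1
      obtain ⟨s, rfl⟩ := (st_line_two l (hL l hl).1 a b hab hal hbl x).1 hx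
      have hxc' : φ (a + s • (b - a)) = φ c := hxc
      have h2 := hφ a ha b hb c hc (-s) 1 (by
        rw [map_add, map_smul, map_smul, map_sub, map_sub]
        rw [map_add, map_smul, map_sub] at hxc'
        rw [← hxc']
        simp only [neg_smul, one_smul]
        abel)
      rw [st_line_two l (hL l hl).1 a b hab hal hbl c]
      refine ⟨s, ?_⟩
      simp only [neg_smul, one_smul] at h2
      have h3 : c - a = s • (b - a) := by
        have := add_eq_zero_iff_eq_neg.1 h2
        rw [neg_eq_iff_eq_neg] at this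
        rw [← sub_eq_zero]
        rw [← h2]
        abel
      rw [← h3]
      abel
    exact st_line_unique l l' (hL l hl).1 (hL l' hl').1 a' b' hab' (key a' ha' hal')
      (key b' hb' hbl') hal' hbl'
  refine ⟨card_image_of_injOn hinjP, ?_, card_image_of_injOn hinjL, ?_⟩
  · intro l hl
    obtain ⟨a, ha, b, hb, hab, hal, hbl⟩ := stj_two P l (hL l hl).2
    apply st_line_map φ l (hL l hl).1
    intro v hv hv0
    have h1 : v +ᵥ a ∈ l := AffineSubspace.vadd_mem_of_mem_direction hv hal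
    obtain ⟨s, hs⟩ := (st_line_two l (hL l hl).1 a b hab hal hbl _).1 h1
    have h2 : v = s • (b - a) := by
      rw [vadd_eq_add, add_comm] at hs
      exact add_left_cancel hs
    have h3 := hφ a ha b hb a ha s 0 (by simp [← h2, hv0])
    simp only [sub_self, smul_zero, add_zero] at h3
    rw [h2, h3]
  · unfold stInc
    rw [sum_image hinjL]
    refine sum_le_sum fun l _ => ?_
    refine card_le_card_of_injOn φ ?_ (hinjP.mono ?_)
    · intro x hx
      obtain ⟨hxP, hxl⟩ := mem_filter.1 (mem_coe.1 hx)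
      exact mem_coe.2 (mem_filter.2 ⟨mem_image_of_mem _ hxP, AffineSubspace.mem_map.2 ⟨x, hxl, rfl⟩⟩)
    · intro x hx
      exact mem_coe.2 (mem_filter.1 (mem_coe.1 hx)).1

/-- projection of a finite-dimensional space to the plane, injective on finitely many subspaces of dimension
at most two -/
theorem stj_proj_fam (n : ℕ) : ∀ (W : Type) [AddCommGroup W] [Module ℝ W] [FiniteDimensional ℝ W],
    Module.finrank ℝ W ≤ n → ∀ U : Finset (Submodule ℝ W), (∀ V ∈ U, Module.finrank ℝ V ≤ 2) →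
    ∃ ψ : W →ₗ[ℝ] (Fin 2 → ℝ), ∀ V ∈ U, ∀ w ∈ V, ψ w = 0 → w = 0 := by
  induction n with
  | zero =>
    intro W _ _ _ hW U _
    obtain ⟨ψ, hψ⟩ := (finrank_le_iff_exists_linearMap (R := ℝ) (M := W) (M' := Fin 2 → ℝ)).1
      (by simp; omega)
    exact ⟨ψ, fun V _ w _ hw => hψ (hw.trans (map_zero ψ).symm)⟩
  | succ n ih =>
    intro W _ _ _ hW U hU
    by_cases h2 : Module.finrank ℝ W ≤ 2
    · obtain ⟨ψ, hψ⟩ := (finrank_le_iff_exists_linearMap (R := ℝ) (M := W) (M' := Fin 2 → ℝ)).1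
        (by simpa using h2)
      exact ⟨ψ, fun V _ w _ hw => hψ (hw.trans (map_zero ψ).symm)⟩
    · push Not at h2
      obtain ⟨v, hv⟩ := stj_outside (insert ⊥ U) (by
        intro V hV hT
        rcases mem_insert.1 hV with h | h
        · rw [h] at hT
          have := congrArg (fun V : Submodule ℝ W => Module.finrank ℝ V) hT
          simp only [finrank_bot, finrank_top] at this
          omega
        · have h1 := hU V h
          rw [hT, finrank_top] at h1
          omega)
      have hv0 : v ≠ 0 := fun h0 => hv ⊥ (mem_insert_self _ _) (by rw [h0]; exact Submodule.zero_mem _)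
      set K : Submodule ℝ W := Submodule.span ℝ {v} with hK
      have hq : Module.finrank ℝ (W ⧸ K) ≤ n := by
        have h1 := Submodule.finrank_quotient_add_finrank K
        rw [hK, finrank_span_singleton hv0] at h1
        rw [hK]
        omega
      obtain ⟨ψ, hψ⟩ := ih (W ⧸ K) hq (U.image (Submodule.map K.mkQ)) (by
        intro V hV
        obtain ⟨V0, hV0, rfl⟩ := mem_image.1 hV
        exact (Submodule.finrank_map_le _ _).trans (hU V0 hV0))
      refine ⟨ψ.comp K.mkQ, fun V hV w hw hw0 => ?_⟩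
      have h1 : K.mkQ w = 0 := hψ _ (mem_image_of_mem _ hV) _ (Submodule.mem_map_of_mem hw) hw0
      rw [Submodule.mkQ_apply, Submodule.Quotient.mk_eq_zero, hK, Submodule.mem_span_singleton] at h1
      obtain ⟨t, rfl⟩ := h1
      by_cases ht : t = 0
      · rw [ht, zero_smul]
      · exfalso
        apply hv V (mem_insert_of_mem hV)
        have := V.smul_mem t⁻¹ hw
        rwa [smul_smul, inv_mul_cancel₀ ht, one_smul] at this

/-- **ST-4c** existence of a good projection to the plane. -/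
theorem st_good_projection {E : Type} [AddCommGroup E] [Module ℝ E] (P : Finset E) :
    ∃ φ : E →ₗ[ℝ] (Fin 2 → ℝ), ∀ a ∈ P, ∀ b ∈ P, ∀ c ∈ P, ∀ s t : ℝ,
      φ (s • (b - a) + t • (c - a)) = 0 → s • (b - a) + t • (c - a) = 0 := by
  set D : Finset E := (P ×ˢ P).image (fun y => y.2 - y.1) with hD
  set W : Submodule ℝ E := Submodule.span ℝ (D : Set E) with hW
  have : FiniteDimensional ℝ W := FiniteDimensional.span_finset ℝ D
  have hmem : ∀ a ∈ P, ∀ b ∈ P, b - a ∈ W := fun a ha b hb =>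
    Submodule.subset_span (mem_coe.2 (mem_image.2 ⟨(a, b), mem_product.2 ⟨ha, hb⟩, rfl⟩))
  obtain ⟨ψ, hψ⟩ := stj_proj_fam (Module.finrank ℝ W) W le_rfl
    (((P ×ˢ P) ×ˢ P).image (fun y => Submodule.comap W.subtype
      (Submodule.span ℝ ({y.1.2 - y.1.1, y.2 - y.1.1} : Set E)))) (by
    intro V hV
    obtain ⟨y, -, rfl⟩ := mem_image.1 hV
    rw [← Submodule.finrank_map_subtype_eq]
    have : FiniteDimensional ℝ (Submodule.span ℝ ({y.1.2 - y.1.1, y.2 - y.1.1} : Set E)) :=
      FiniteDimensional.span_of_finite ℝ (by simp)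
    exact (Submodule.finrank_mono (Submodule.map_comap_le _ _)).trans (stj_finrank_pair _ _))
  obtain ⟨g, hg⟩ := LinearMap.exists_extend ψ
  refine ⟨g, fun a ha b hb c hc s t h0 => ?_⟩
  have hx : s • (b - a) + t • (c - a) ∈ W :=
    W.add_mem (W.smul_mem s (hmem a ha b hb)) (W.smul_mem t (hmem a ha c hc))
  have h1 : ψ ⟨_, hx⟩ = 0 := by
    rw [← hg]
    exact h0
  have h2 := hψ _ (mem_image.2 ⟨((a, b), c), mem_product.2 ⟨mem_product.2 ⟨ha, hb⟩, hc⟩, rfl⟩)
    ⟨_, hx⟩ (by
      rw [Submodule.mem_comap]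
      exact Submodule.add_mem _ (Submodule.smul_mem _ s (Submodule.subset_span (by simp)))
        (Submodule.smul_mem _ t (Submodule.subset_span (by simp)))) h1
  exact congrArg Subtype.val h2

/-- **ST-4** Szemeredi-Trotter in any real vector space. -/
theorem st_general : ∃ C : ℝ, 0 < C ∧ ∀ (E : Type) [AddCommGroup E] [Module ℝ E] (P : Finset E)
    (L : Finset (AffineSubspace ℝ E)), (∀ l ∈ L, stIsLine l) →
    (stInc P L : ℝ) ≤ C * ((P.card : ℝ) ^ ((2 : ℝ) / 3) * (L.card : ℝ) ^ ((2 : ℝ) / 3)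
      + P.card + L.card) := by
  obtain ⟨C, hC, hpl⟩ := st_plane
  refine ⟨C + 1, by positivity, ?_⟩
  intro E _ _ P L hL
  set L2 := L.filter (fun l => 2 ≤ (P.filter (fun x => x ∈ l)).card) with hL2
  set L1 := L.filter (fun l => ¬ 2 ≤ (P.filter (fun x => x ∈ l)).card) with hL1
  have hsplit : stInc P L = stInc P L2 + stInc P L1 := by
    unfold stInc
    rw [hL1, hL2, sum_filter_add_sum_filter_not]
  have h1 : stInc P L1 ≤ L.card := by
    unfold stInc
    calc ∑ l ∈ L1, (P.filter (fun x => x ∈ l)).card ≤ ∑ _l ∈ L1, 1 := by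
          refine sum_le_sum fun l hl => ?_
          have := (mem_filter.1 hl).2
          omega
      _ = L1.card := by simp
      _ ≤ L.card := card_le_card (filter_subset _ _)
  obtain ⟨φ, hφ⟩ := st_good_projection P
  obtain ⟨e1, e2, e3, e4⟩ := st_inc_map φ P L2
    (fun l hl => ⟨hL l (mem_filter.1 hl).1, (mem_filter.1 hl).2⟩) hφ
  have h3 : (L2.card : ℝ) ≤ L.card := by exact_mod_cast card_le_card (filter_subset _ _)
  have h4 : (L2.card : ℝ) ^ ((2 : ℝ) / 3) ≤ (L.card : ℝ) ^ ((2 : ℝ) / 3) :=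
    Real.rpow_le_rpow (Nat.cast_nonneg _) h3 (by norm_num)
  have hgen : ∀ (P' : Finset (Fin 2 → ℝ)) (L' : Finset (AffineSubspace ℝ (Fin 2 → ℝ))),
      P'.card = P.card → L'.card = L2.card → (∀ l ∈ L', stIsLine l) → stInc P L2 ≤ stInc P' L' →
      (stInc P L2 : ℝ) ≤ C * ((P.card : ℝ) ^ ((2 : ℝ) / 3) * (L.card : ℝ) ^ ((2 : ℝ) / 3)
        + P.card + L.card) := by
    intro P' L' a1 a3 a2 a4
    have h2 := hpl P' L' a2
    rw [a1, a3] at h2
    refine le_trans (by exact_mod_cast a4) (h2.trans (mul_le_mul_of_nonneg_left ?_ hC.le))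
    have : (P.card : ℝ) ^ ((2 : ℝ) / 3) * (L2.card : ℝ) ^ ((2 : ℝ) / 3) ≤
        (P.card : ℝ) ^ ((2 : ℝ) / 3) * (L.card : ℝ) ^ ((2 : ℝ) / 3) :=
      mul_le_mul_of_nonneg_left h4 (by positivity)
    linarith
  have h5 := hgen _ _ e1 e3 (by
    intro l hl
    obtain ⟨l0, hl0, rfl⟩ := mem_image.1 hl
    exact e2 l0 hl0) e4
  have h6 : (stInc P L : ℝ) = stInc P L2 + stInc P L1 := by exact_mod_cast hsplit
  have h7 : (stInc P L1 : ℝ) ≤ L.card := by exact_mod_cast h1
  have h8 : 0 ≤ (P.card : ℝ) ^ ((2 : ℝ) / 3) * (L.card : ℝ) ^ ((2 : ℝ) / 3) := by positivity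
  have h9 : (0 : ℝ) ≤ P.card := Nat.cast_nonneg _
  rw [h6, add_mul, one_mul]
  linarith

end Claimed.Agent.R273
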