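/-
LIB-ST (row273): rich points, rich lines, and the deliverable `RichLinesStmt d`.
-/
import Claimed.Agent.R273.StProj
import Claimed.Agent.R273.Dir

set_option autoImplicit false

namespace Claimed.Agent.R273

open scoped Classical

/-- the arithmetic of the rich point / rich line bounds -/
theorem str_num {C0 s m k I : ℝ} (hC0 : 0 < C0) (hs : 0 ≤ s) (hm : 0 ≤ m) (hk : 2 ≤ k)
    (h1 : k * s ≤ I)
    (h2 : I ≤ C0 * (s ^ ((2 : ℝ) / 3) * m ^ ((2 : ℝ) / 3) + s + m)) (h3 : I ≤ m ^ 2 + s) :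
    s ≤ (64 * C0 ^ 3 + 4 * C0) * (m ^ 2 / k ^ 3 + m / k) := by
  have hk0 : 0 < k := by linarith
  have hk3 : 0 < k ^ 3 := by positivity
  have hA : 0 ≤ m ^ 2 / k ^ 3 := by positivity
  have hB : 0 ≤ m / k := by positivity
  have hC3 : 0 < C0 ^ 3 := by positivity
  by_cases hk2 : 2 * C0 ≤ k
  · set a : ℝ := s ^ ((1 : ℝ) / 3) with ha
    set b : ℝ := m ^ ((1 : ℝ) / 3) with hb
    have ha0 : 0 ≤ a := Real.rpow_nonneg hs _
    have hb0 : 0 ≤ b := Real.rpow_nonneg hm _
    have ea3 : a ^ 3 = s := by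
      rw [ha, ← Real.rpow_natCast, ← Real.rpow_mul hs]
      norm_num
    have eb3 : b ^ 3 = m := by
      rw [hb, ← Real.rpow_natCast, ← Real.rpow_mul hm]
      norm_num
    have ea2 : s ^ ((2 : ℝ) / 3) = a ^ 2 := by
      rw [ha, ← Real.rpow_natCast, ← Real.rpow_mul hs]
      norm_num
    have eb2 : m ^ ((2 : ℝ) / 3) = b ^ 2 := by
      rw [hb, ← Real.rpow_natCast, ← Real.rpow_mul hm]
      norm_num
    rw [ea2, eb2] at h2
    have h4 : C0 * s ≤ k * s / 2 := by nlinarith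
    have h5 : k * s / 2 ≤ C0 * (a ^ 2 * b ^ 2) + C0 * m := by nlinarith
    by_cases c : k * s / 4 ≤ C0 * (a ^ 2 * b ^ 2)
    · rcases ha0.eq_or_lt with h0 | h0
      · have : s = 0 := by rw [← ea3, ← h0]; norm_num
        rw [this]
        positivity
      · have h6 : k * a ≤ 4 * C0 * b ^ 2 := by
          have h7 : a ^ 2 * (k * a) ≤ a ^ 2 * (4 * C0 * b ^ 2) := by
            have : a ^ 2 * (k * a) = k * s := by rw [← ea3]; ring
            rw [this]
            nlinarith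
          exact le_of_mul_le_mul_left h7 (by positivity)
        have h8 : (k * a) ^ 3 ≤ (4 * C0 * b ^ 2) ^ 3 := pow_le_pow_left₀ (by positivity) h6 3
        have h9 : s * k ^ 3 ≤ 64 * C0 ^ 3 * m ^ 2 := by
          have e1 : (k * a) ^ 3 = s * k ^ 3 := by rw [← ea3]; ring
          have e2 : (4 * C0 * b ^ 2) ^ 3 = 64 * C0 ^ 3 * m ^ 2 := by rw [← eb3]; ring
          rw [← e1, ← e2]
          exact h8
        have h10 : s ≤ 64 * C0 ^ 3 * (m ^ 2 / k ^ 3) := by
          rw [← mul_div_assoc, le_div_iff₀ hk3]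
          exact h9
        nlinarith
    · push Not at c
      have h6 : s * k ≤ 4 * C0 * m := by nlinarith
      have h7 : s ≤ 4 * C0 * (m / k) := by
        rw [← mul_div_assoc, le_div_iff₀ hk0]
        exact h6
      nlinarith
  · push Not at hk2
    have h4 : s ≤ m ^ 2 := by nlinarith
    have h5 : k ^ 3 ≤ (2 * C0) ^ 3 := pow_le_pow_left₀ hk0.le hk2.le 3
    have h6 : m ^ 2 ≤ 8 * C0 ^ 3 * (m ^ 2 / k ^ 3) := by
      rw [← mul_div_assoc, le_div_iff₀ hk3]
      have : (2 * C0) ^ 3 = 8 * C0 ^ 3 := by ring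
      rw [this] at h5
      have hm2 : 0 ≤ m ^ 2 := by positivity
      nlinarith
    nlinarith

/-- **ST-5a** rich points: at most `C (L²/k³ + L/k)` points lie on at least `k ≥ 2` of `L` lines. -/
theorem st_rich_points : ∃ C : ℝ, 0 < C ∧ ∀ (E : Type) [AddCommGroup E] [Module ℝ E]
    (L : Finset (AffineSubspace ℝ E)) (k : ℕ) (S : Finset E), (∀ l ∈ L, stIsLine l) → 2 ≤ k →
    (∀ p ∈ S, k ≤ (L.filter (fun l => p ∈ l)).card) →
    (S.card : ℝ) ≤ C * ((L.card : ℝ) ^ 2 / (k : ℝ) ^ 3 + (L.card : ℝ) / k) := by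
  obtain ⟨C0, hC0, hg⟩ := st_general
  refine ⟨64 * C0 ^ 3 + 4 * C0, by positivity, ?_⟩
  intro E _ _ L k S hL hk hS
  have h1 : k * S.card ≤ stInc S L := by
    rw [st_inc_comm, mul_comm, ← smul_eq_mul, ← Finset.sum_const]
    exact Finset.sum_le_sum hS
  have h3 := st_triv_lines S L hL
  exact str_num (I := (stInc S L : ℝ)) hC0 (Nat.cast_nonneg _) (Nat.cast_nonneg _)
    (by exact_mod_cast hk) (by exact_mod_cast h1) (hg E S L hL) (by exact_mod_cast h3)

/-- **ST-5b** rich lines: at most `C (n²/k³ + n/k)` lines contain at least `k ≥ 2` of `n` points.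
(Same proof with the roles exchanged, `st_triv_points` for bounded `k`.) -/
theorem st_rich_lines : ∃ C : ℝ, 0 < C ∧ ∀ (E : Type) [AddCommGroup E] [Module ℝ E]
    (X : Finset E) (k : ℕ) (L : Finset (AffineSubspace ℝ E)), 2 ≤ k →
    (∀ l ∈ L, stIsLine l ∧ k ≤ (X.filter (fun x => x ∈ l)).card) →
    (L.card : ℝ) ≤ C * ((X.card : ℝ) ^ 2 / (k : ℝ) ^ 3 + (X.card : ℝ) / k) := by
  obtain ⟨C0, hC0, hg⟩ := st_general
  refine ⟨64 * C0 ^ 3 + 4 * C0, by positivity, ?_⟩
  intro E _ _ X k L hk hL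
  have h1 : k * L.card ≤ stInc X L := by
    unfold stInc
    rw [mul_comm, ← smul_eq_mul, ← Finset.sum_const]
    exact Finset.sum_le_sum fun l hl => (hL l hl).2
  have h3 := st_triv_points X L fun l hl => (hL l hl).1
  have h2 := hg E X L fun l hl => (hL l hl).1
  refine str_num (I := (stInc X L : ℝ)) hC0 (Nat.cast_nonneg _) (Nat.cast_nonneg _)
    (by exact_mod_cast hk) (by exact_mod_cast h1) ?_ (by exact_mod_cast h3)
  refine h2.trans (le_of_eq ?_)
  ring

/-- **ST-5c** the deliverable of `Dir.lean`. -/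
theorem st_richLinesStmt (d : ℕ) : RichLinesStmt d := by
  obtain ⟨C, hC, h⟩ := st_rich_lines
  refine ⟨C, hC, fun X t ht L hL => h (Pt d) X t L ht (fun l hl => ⟨(hL l hl).1, ?_⟩)⟩
  obtain ⟨T, hTX, htT, hTl⟩ := (hL l hl).2
  exact htT.trans (Finset.card_le_card (fun x hx =>
    Finset.mem_filter.2 ⟨hTX hx, hTl x hx⟩))

end Claimed.Agent.R273
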