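import Claimed.Agent.R273.GdAG
import Claimed.Agent.R273.StRich

/-!
# Row 273, S4, unit GD: THE REAL INCIDENCE PART (Bad3 of helper148's note): rich `(k+1)`-flats.  Architect helper60.  Prefix `gd_`.

GOAL: `gd_rich_pairs`: among `n` REAL `k`-flats (primes of degree one, `¬ SpNonreal`) the ordered pairs lying in a common `(k+1)`-flat whose span contains more than `τ` of the flats number `≤ C (n²/τ + n U)`, `U` = maximal occupancy.

LEAF GD-RE-SLICE (`gd_common_compl`, `gd_avoid_affine`, `gd_rich_flats`): real affine geometry + `st_rich_lines`.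
LEAF GD-RE-DYAD  (`gd_dyadic`): pure counting.
LEAF GD-RE-MODEL-A (`gd_real_sub`, `gd_real_hull`, `gd_rho_dim`, `gd_rho_inj`), LEAF GD-RE-MODEL-B (`gd_rho_join`, `gd_cop_iff`): complex flats ↔ real affine subspaces (linear algebra).
LEAF GD-RE-PAIRS (`gd_rich_pairs`): assembly.
-/

set_option autoImplicit false

namespace Claimed.Agent.R273

open MvPolynomial Module

variable {d : ℕ}

/-! ### GD-RE-SLICE -/

theorem gd_common_compl_aux {E : Type} [AddCommGroup E] [Module ℝ E] [FiniteDimensional ℝ E] (k : ℕ)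
    (𝒱 : Finset (Submodule ℝ E)) (h𝒱 : ∀ V ∈ 𝒱, finrank ℝ V = k) :
    ∀ j : ℕ, j + k ≤ finrank ℝ E → ∃ K : Submodule ℝ E, finrank ℝ K = j ∧ ∀ V ∈ 𝒱, Disjoint V K := by
  classical
  intro j
  induction j with
  | zero =>
    intro _
    exact ⟨⊥, finrank_bot ℝ E, fun V _ => disjoint_bot_right⟩
  | succ j ih =>
    intro hj
    obtain ⟨K, hK, hd⟩ := ih (by omega)
    -- the proper subspaces to avoid
    set s : Finset (Submodule ℝ E) := insert K (𝒱.image fun V => V ⊔ K) with hs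
    have htop : ⊤ ∉ s := by
      intro h
      rw [hs, Finset.mem_insert, Finset.mem_image] at h
      rcases h with h | ⟨V, hV, h⟩
      · rw [← h, finrank_top] at hK
        omega
      · have h1 := Submodule.finrank_sup_add_finrank_inf_eq V K
        rw [h, finrank_top, h𝒱 V hV, hK] at h1
        omega
    have hne := Subspace.biUnion_ne_univ_of_top_notMem htop
    obtain ⟨v, hv⟩ := (Set.ne_univ_iff_exists_notMem _).1 hne
    simp only [Set.mem_iUnion, not_exists] at hv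
    have hvK : v ∉ K := fun h => hv K (by rw [hs]; exact Finset.mem_insert_self _ _) h
    have hvV : ∀ V ∈ 𝒱, v ∉ V ⊔ K := fun V hV h =>
      hv (V ⊔ K) (by rw [hs]; exact Finset.mem_insert_of_mem (Finset.mem_image_of_mem _ hV)) h
    have hv0 : v ≠ 0 := fun h => hvK (h ▸ K.zero_mem)
    refine ⟨K ⊔ Submodule.span ℝ {v}, ?_, fun V hV => ?_⟩
    · have h1 := Submodule.finrank_sup_add_finrank_inf_eq K (Submodule.span ℝ {v})
      have h2 : K ⊓ Submodule.span ℝ {v} = ⊥ :=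
        disjoint_iff.1 ((Submodule.disjoint_span_singleton' hv0).2 hvK)
      rw [h2, finrank_bot, finrank_span_singleton hv0, hK] at h1
      omega
    · rw [Submodule.disjoint_def]
      intro x hxV hx
      obtain ⟨y, hy, z, hz, rfl⟩ := Submodule.mem_sup.1 hx
      obtain ⟨c, rfl⟩ := Submodule.mem_span_singleton.1 hz
      by_cases hc : c = 0
      · subst hc
        rw [zero_smul, add_zero] at hxV ⊢
        exact (Submodule.disjoint_def.1 (hd V hV)) y hxV hy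
      · exfalso
        apply hvV V hV
        have h3 : v = c⁻¹ • (y + c • v) + (-(c⁻¹ • y)) := by
          rw [smul_add, smul_smul, inv_mul_cancel₀ hc, one_smul]
          abel
        rw [h3]
        exact Submodule.add_mem_sup (V.smul_mem _ hxV) (K.neg_mem (K.smul_mem _ hy))

/-- finitely many subspaces of the same dimension have a common complement.  Induction on `j ≤ finrank E - k`: `K_j` of dimension `j` with `K_j ⊓ V = ⊥` for all `V ∈ 𝒱`; if `j + k < finrank E` the subspaces `V ⊔ K_j` are proper,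
choose `v` outside their union (`Subspace.biUnion_ne_univ_of_top_notMem`), `K_{j+1} := K_j ⊔ span {v}`. -/
theorem gd_common_compl {E : Type} [AddCommGroup E] [Module ℝ E] [FiniteDimensional ℝ E] (k : ℕ)
    (𝒱 : Finset (Submodule ℝ E)) (h𝒱 : ∀ V ∈ 𝒱, finrank ℝ V = k) (hk : k ≤ finrank ℝ E) :
    ∃ K : Submodule ℝ E, ∀ V ∈ 𝒱, IsCompl V K := by
  obtain ⟨K, hK, hd⟩ := gd_common_compl_aux k 𝒱 h𝒱 (finrank ℝ E - k) (by omega)
  refine ⟨K, fun V hV => ⟨hd V hV, ?_⟩⟩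
  rw [codisjoint_iff]
  apply Submodule.eq_top_of_finrank_eq
  have h1 := Submodule.finrank_sup_add_finrank_inf_eq V K
  rw [disjoint_iff.1 (hd V hV), finrank_bot, h𝒱 V hV, hK] at h1
  omega

open scoped Pointwise in
/-- a finite union of proper affine subspaces is not everything.  (Each proper nonempty `A` lies in `{x | φ x = c}`, `φ ≠ 0`; restrict to a line `a + s v` with `φ_A v ≠ 0` for all `A` (`v` outside the kernels: `Subspace.biUnion_ne_univ_of_top_notMem`): every `A` excludes at most one `s`.) -/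
theorem gd_avoid_affine {E : Type} [AddCommGroup E] [Module ℝ E] [FiniteDimensional ℝ E]
    (𝒜 : Finset (AffineSubspace ℝ E)) (h𝒜 : ∀ A ∈ 𝒜, A ≠ ⊤) : ∃ a : E, ∀ A ∈ 𝒜, a ∉ A := by
  classical
  by_contra hcon
  push Not at hcon
  set s : Finset (AffineSubspace ℝ E) :=
    𝒜.filter (fun A : AffineSubspace ℝ E => (A : Set E).Nonempty) with hs
  let g : AffineSubspace ℝ E → E := fun A => if h : (A : Set E).Nonempty then h.some else 0
  have hg : ∀ A ∈ s, g A ∈ A := by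
    intro A hA
    have h : (A : Set E).Nonempty := (Finset.mem_filter.1 hA).2
    show (if h : (A : Set E).Nonempty then h.some else 0) ∈ A
    rw [dif_pos h]
    exact h.some_mem
  have hcov : ⋃ A ∈ s, g A +ᵥ ((A.direction.toAddSubgroup : AddSubgroup E) : Set E) = Set.univ := by
    rw [Set.eq_univ_iff_forall]
    intro x
    obtain ⟨A, hA, hx⟩ := hcon x
    have hAs : A ∈ s := Finset.mem_filter.2 ⟨hA, ⟨x, hx⟩⟩
    refine Set.mem_iUnion₂.2 ⟨A, hAs, ?_⟩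
    rw [Set.mem_vadd_set_iff_neg_vadd_mem]
    have := (AffineSubspace.vsub_right_mem_direction_iff_mem (hg A hAs) x).2 hx
    rw [vsub_eq_sub, sub_eq_neg_add] at this
    exact this
  obtain ⟨A, hA, hfi⟩ := AddSubgroup.exists_finiteIndex_of_leftCoset_cover hcov
  have hdir : A.direction = ⊤ := by
    by_contra hne
    have : Finite (E ⧸ A.direction) := AddSubgroup.finite_quotient_of_finiteIndex
    have : Nontrivial (E ⧸ A.direction) := Submodule.Quotient.nontrivial_iff.mpr hne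
    have : Infinite (E ⧸ A.direction) := Module.Free.infinite ℝ (E ⧸ A.direction)
    exact not_finite (E ⧸ A.direction)
  exact h𝒜 A (Finset.mem_filter.1 hA).1
    ((AffineSubspace.direction_eq_top_iff_of_nonempty (Finset.mem_filter.1 hA).2).1 hdir)

/-- the `K`-saturation of an affine subspace -/
noncomputable def gdSat {E : Type} [AddCommGroup E] [Module ℝ E] (K : Submodule ℝ E)
    (G : AffineSubspace ℝ E) : AffineSubspace ℝ E :=
  (G.map K.mkQ.toAffineMap).comap K.mkQ.toAffineMap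

theorem gd_mem_sat {E : Type} [AddCommGroup E] [Module ℝ E] (K : Submodule ℝ E)
    (G : AffineSubspace ℝ E) (x : E) : x ∈ gdSat K G ↔ ∃ g ∈ G, x - g ∈ K := by
  unfold gdSat
  rw [AffineSubspace.mem_comap, AffineSubspace.mem_map]
  constructor
  · rintro ⟨g, hg, h⟩
    refine ⟨g, hg, ?_⟩
    have h' : K.mkQ g = K.mkQ x := h
    rw [Submodule.mkQ_apply, Submodule.mkQ_apply, eq_comm, Submodule.Quotient.eq] at h'
    exact h'
  · rintro ⟨g, hg, h⟩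
    refine ⟨g, hg, ?_⟩
    show K.mkQ g = K.mkQ x
    rw [Submodule.mkQ_apply, Submodule.mkQ_apply, eq_comm, Submodule.Quotient.eq]
    exact h

theorem gd_slice_point {E : Type} [AddCommGroup E] [Module ℝ E] {K : Submodule ℝ E}
    {F : AffineSubspace ℝ E} (hF : (F : Set E).Nonempty) (h : IsCompl F.direction K) (a : E) :
    ∃ p, p ∈ F ∧ p - a ∈ K := by
  obtain ⟨f, hf⟩ := hF
  have h1 : a - f ∈ F.direction ⊔ K := by rw [h.sup_eq_top]; exact Submodule.mem_top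
  obtain ⟨v, hv, κ, hκ, hvk⟩ := Submodule.mem_sup.1 h1
  refine ⟨v +ᵥ f, AffineSubspace.vadd_mem_of_mem_direction hv hf, ?_⟩
  have : (v +ᵥ f) - a = -κ := by
    rw [vadd_eq_add, eq_neg_iff_add_eq_zero]
    have : a = v + κ + f := by rw [hvk]; abel
    rw [this]; abel
  rw [this]
  exact K.neg_mem hκ

theorem gd_join_eq {E : Type} [AddCommGroup E] [Module ℝ E] [FiniteDimensional ℝ E] {k : ℕ}
    {F₁ F₂ H : AffineSubspace ℝ E} (h1 : (F₁ : Set E).Nonempty) (h2 : (F₂ : Set E).Nonempty)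
    (d1 : finrank ℝ F₁.direction = k) (d2 : finrank ℝ F₂.direction = k) (hne : F₁ ≠ F₂)
    (hH : finrank ℝ H.direction = k + 1) (l1 : F₁ ≤ H) (l2 : F₂ ≤ H) : F₁ ⊔ F₂ = H := by
  have hJ : F₁ ⊔ F₂ ≤ H := sup_le l1 l2
  have hJn : ((F₁ ⊔ F₂ : AffineSubspace ℝ E) : Set E).Nonempty :=
    h1.mono (SetLike.coe_subset_coe.2 (le_sup_left : F₁ ≤ F₁ ⊔ F₂))
  have hge : k + 1 ≤ finrank ℝ (F₁ ⊔ F₂).direction := by
    by_contra hlt
    have hle : finrank ℝ (F₁ ⊔ F₂).direction ≤ k := by omega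
    have e1 : F₁ = F₁ ⊔ F₂ := AffineSubspace.eq_of_direction_eq_of_nonempty_of_le
      (Submodule.eq_of_le_of_finrank_le (AffineSubspace.direction_le le_sup_left) (by omega)) h1
      le_sup_left
    have e2 : F₂ = F₁ ⊔ F₂ := AffineSubspace.eq_of_direction_eq_of_nonempty_of_le
      (Submodule.eq_of_le_of_finrank_le (AffineSubspace.direction_le le_sup_right) (by omega)) h2
      le_sup_right
    exact hne (e1.trans e2.symm)
  exact AffineSubspace.eq_of_direction_eq_of_nonempty_of_le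
    (Submodule.eq_of_le_of_finrank_le (AffineSubspace.direction_le hJ) (by omega)) hJn hJ

open scoped Classical in
/-- **Rich `(k+1)`-flats.**  `C` = the constant of `st_rich_lines`.  PROOF (generic slicing).  WLOG `𝓗 ≠ ∅`, so `k + 1 ≤ finrank E`.  `K` := a common complement of the directions of the `F ∈ 𝓕` (`gd_common_compl`), `π := K.mkQ : E → E ⧸ K`; `π` restricted to `F.direction` is bijective.
For `F ≠ F'` in `𝓕`, resp. `F ∈ 𝓕`, `H ∈ 𝓗`, `¬ F ≤ H`: `G := F ⊓ F'`, resp. `F ⊓ H`, is a proper affine subspace of `F`, so `G.map π` is a proper affine subspace of `E ⧸ K` (`π|_F` is injective and onto).  Choose `a ∈ E ⧸ K` outside all of them (`gd_avoid_affine`).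
`p_F` := the unique point of `F` with `π p_F = a`;  `ℓ_H := H ⊓ (comap π {a})`, an affine subspace with direction `H.direction ⊓ K` of dimension `1` (`H` contains some `F`, so `π` maps `H.direction` onto; rank-nullity), nonempty.
`F ≤ H ⇒ p_F ∈ ℓ_H`;  `F ↦ p_F` injective on `𝓕`;  `p_F ∈ H ⇒ F ≤ H`;  `H ↦ ℓ_H` injective on `𝓗`: if `ℓ_H = ℓ_H'` take `F₁ ≠ F₂ ≤ H` (`t ≥ 2`): `p_{F_i} ∈ H'`, so `F₁, F₂ ≤ H'`, `F₁ ⊔ F₂ ≤ H ⊓ H'` has dimension `≥ k + 1`: `H = H'`.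
Apply `st_rich_lines` to `X := 𝓕.image p`, `L := 𝓗.image ℓ`. -/
theorem gd_rich_flats : ∃ C : ℝ, 0 < C ∧ ∀ (E : Type) [AddCommGroup E] [Module ℝ E]
    [FiniteDimensional ℝ E] (k : ℕ) (𝓕 𝓗 : Finset (AffineSubspace ℝ E)) (t : ℕ), 2 ≤ t →
    (∀ F ∈ 𝓕, (F : Set E).Nonempty ∧ finrank ℝ F.direction = k) →
    (∀ H ∈ 𝓗, finrank ℝ H.direction = k + 1 ∧ t ≤ (𝓕.filter fun F => F ≤ H).card) →
    (𝓗.card : ℝ) ≤ C * ((𝓕.card : ℝ) ^ 2 / (t : ℝ) ^ 3 + (𝓕.card : ℝ) / t) := by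
  obtain ⟨C, hC, hst⟩ := st_rich_lines
  refine ⟨C, hC, ?_⟩
  intro E _ _ _ k 𝓕 𝓗 t ht hF hH
  rcases 𝓗.eq_empty_or_nonempty with rfl | hne
  · rw [Finset.card_empty, Nat.cast_zero]
    positivity
  obtain ⟨H₀, hH₀⟩ := hne
  have hsome : ∀ H ∈ 𝓗, ∃ F ∈ 𝓕, F ≤ H := by
    intro H hHm
    have h1 : 0 < (𝓕.filter fun F => F ≤ H).card := by have := (hH H hHm).2; omega
    obtain ⟨F, hFm⟩ := Finset.card_pos.1 h1
    exact ⟨F, (Finset.mem_filter.1 hFm).1, (Finset.mem_filter.1 hFm).2⟩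
  obtain ⟨F₀, hF₀, -⟩ := hsome H₀ hH₀
  have hk : k ≤ finrank ℝ E := by
    rw [← (hF F₀ hF₀).2]
    exact Submodule.finrank_le _
  obtain ⟨K, hK⟩ := gd_common_compl k (𝓕.image AffineSubspace.direction) (by
    intro V hV
    obtain ⟨F, hFm, rfl⟩ := Finset.mem_image.1 hV
    exact (hF F hFm).2) hk
  have hK' : ∀ F ∈ 𝓕, IsCompl F.direction K := fun F hFm => hK _ (Finset.mem_image_of_mem _ hFm)
  -- the bad family
  set 𝒜 : Finset (AffineSubspace ℝ E) :=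
    ((𝓕 ×ˢ (𝓕 ∪ 𝓗)).filter (fun r => ¬ r.1 ≤ r.2)).image (fun r => gdSat K (r.1 ⊓ r.2)) with h𝒜def
  have h𝒜 : ∀ A ∈ 𝒜, A ≠ ⊤ := by
    intro A hA htop
    obtain ⟨⟨F, A'⟩, hr, rfl⟩ := Finset.mem_image.1 hA
    obtain ⟨hr1, hr2⟩ := Finset.mem_filter.1 hr
    have hFm : F ∈ 𝓕 := (Finset.mem_product.1 hr1).1
    obtain ⟨f, hf, hfA⟩ := SetLike.not_le_iff_exists.1 hr2
    have hmem : f ∈ gdSat K (F ⊓ A') := by
      have : gdSat K (F ⊓ A') = ⊤ := htop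
      rw [this]; exact AffineSubspace.mem_top ℝ E f
    obtain ⟨g, hg, hgK⟩ := (gd_mem_sat K _ f).1 hmem
    have hgF : g ∈ F := (AffineSubspace.mem_inf_iff _ _ _).1 hg |>.1
    have hgA : g ∈ A' := (AffineSubspace.mem_inf_iff _ _ _).1 hg |>.2
    have hdir : f - g ∈ F.direction := AffineSubspace.vsub_mem_direction hf hgF
    have h0 : f - g = 0 := Submodule.disjoint_def.1 (hK' F hFm).disjoint _ hdir hgK
    rw [sub_eq_zero] at h0
    exact hfA (h0 ▸ hgA)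
  obtain ⟨a, ha⟩ := gd_avoid_affine 𝒜 h𝒜
  have hp : ∀ F ∈ 𝓕, ∃ p, p ∈ F ∧ p - a ∈ K := fun F hFm =>
    gd_slice_point (hF F hFm).1 (hK' F hFm) a
  choose! p hpF hpK using hp
  have key : ∀ F ∈ 𝓕, ∀ A ∈ 𝓕 ∪ 𝓗, p F ∈ A → F ≤ A := by
    intro F hFm A hA hpA
    by_contra hle
    refine ha (gdSat K (F ⊓ A)) ?_ ?_
    · exact Finset.mem_image.2 ⟨(F, A), Finset.mem_filter.2 ⟨Finset.mem_product.2 ⟨hFm, hA⟩, hle⟩, rfl⟩
    · refine (gd_mem_sat K _ a).2 ⟨p F, (AffineSubspace.mem_inf_iff _ _ _).2 ⟨hpF F hFm, hpA⟩, ?_⟩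
      rw [← neg_sub]
      exact K.neg_mem (hpK F hFm)
  have pinj : Set.InjOn p (𝓕 : Set (AffineSubspace ℝ E)) := by
    intro F hFm F' hFm' heq
    exact le_antisymm (key F hFm F' (Finset.mem_union_left _ hFm') (heq ▸ hpF F' hFm'))
      (key F' hFm' F (Finset.mem_union_left _ hFm) (heq ▸ hpF F hFm))
  set S : AffineSubspace ℝ E := AffineSubspace.mk' a K with hS
  have hpS : ∀ F ∈ 𝓕, p F ∈ S := fun F hFm => AffineSubspace.mem_mk'.2 (hpK F hFm)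
  have hline : ∀ H ∈ 𝓗, stIsLine (H ⊓ S) := by
    intro H hHm
    obtain ⟨F, hFm, hle⟩ := hsome H hHm
    unfold stIsLine
    rw [AffineSubspace.direction_inf_of_mem (hle (hpF F hFm)) (hpS F hFm), hS,
      AffineSubspace.direction_mk']
    have h1 := Submodule.finrank_sup_add_finrank_inf_eq H.direction K
    have h2 : H.direction ⊔ K = ⊤ := by
      rw [eq_top_iff, ← (hK' F hFm).sup_eq_top]
      exact sup_le_sup_right (AffineSubspace.direction_le hle) K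
    have h3 := Submodule.finrank_add_eq_of_isCompl (hK' F hFm)
    rw [h2, finrank_top, (hH H hHm).1] at h1
    rw [(hF F hFm).2] at h3
    omega
  have hcount : ∀ H ∈ 𝓗, t ≤ ((𝓕.image p).filter (fun x => x ∈ H ⊓ S)).card := by
    intro H hHm
    refine (hH H hHm).2.trans (Finset.card_le_card_of_injOn p ?_ ?_)
    · intro F hFm
      obtain ⟨h1, h2⟩ := Finset.mem_filter.1 hFm
      exact Finset.mem_coe.2 (Finset.mem_filter.2 ⟨Finset.mem_image_of_mem _ h1,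
        (AffineSubspace.mem_inf_iff _ _ _).2 ⟨h2 (hpF F h1), hpS F h1⟩⟩)
    · exact pinj.mono fun F hFm => (Finset.mem_filter.1 hFm).1
  have linj : Set.InjOn (fun H => H ⊓ S) (𝓗 : Set (AffineSubspace ℝ E)) := by
    intro H hHm H' hHm' heq
    have heq' : H ⊓ S = H' ⊓ S := heq
    have h1 : 1 < (𝓕.filter fun F => F ≤ H).card := by have := (hH H hHm).2; omega
    obtain ⟨F₁, hF₁, F₂, hF₂, hne⟩ := Finset.one_lt_card.1 h1
    obtain ⟨m1, l1⟩ := Finset.mem_filter.1 hF₁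
    obtain ⟨m2, l2⟩ := Finset.mem_filter.1 hF₂
    have q : ∀ F ∈ 𝓕, F ≤ H → F ≤ H' := by
      intro F hFm hle
      refine key F hFm H' (Finset.mem_union_right _ hHm') ?_
      have : p F ∈ H ⊓ S := (AffineSubspace.mem_inf_iff _ _ _).2 ⟨hle (hpF F hFm), hpS F hFm⟩
      rw [heq'] at this
      exact ((AffineSubspace.mem_inf_iff _ _ _).1 this).1
    exact (gd_join_eq (hF F₁ m1).1 (hF F₂ m2).1 (hF F₁ m1).2 (hF F₂ m2).2 hne (hH H hHm).1 l1 l2).symm.trans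
      (gd_join_eq (hF F₁ m1).1 (hF F₂ m2).1 (hF F₁ m1).2 (hF F₂ m2).2 hne (hH H' hHm').1 (q F₁ m1 l1)
        (q F₂ m2 l2))
  have hfin := hst E (𝓕.image p) t (𝓗.image fun H => H ⊓ S) ht (by
    intro l hl
    obtain ⟨H, hHm, rfl⟩ := Finset.mem_image.1 hl
    exact ⟨hline H hHm, hcount H hHm⟩)
  rw [Finset.card_image_of_injOn linj, Finset.card_image_of_injOn pinj] at hfin
  exact hfin

/-! ### GD-RE-DYAD -/

theorem gd_dyadic_sq (t₁ : ℕ) : ∀ v : ℕ, t₁ ≤ v →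
    (v : ℝ) ^ 2 ≤ (t₁ : ℝ) ^ 2 + ∑ t ∈ Finset.Ioc t₁ v, 2 * (t : ℝ) := by
  intro v hv
  induction v, hv using Nat.le_induction with
  | base => simp
  | succ v hv ih =>
    rw [Finset.sum_Ioc_succ_top hv]
    push_cast
    nlinarith

open scoped Classical in
/-- **Dyadic summation of the rich bound.**  `t₀ := ⌊τ⌋₊ ≥ 2`, `t₀ ≥ τ/2`.  Layers `T_j = 2^j t₀ ≤ u_H < 2 T_j`: at most `C (n²/T_j³ + n/T_j)` members, each with `u_H² ≤ 4 T_j²`; only `T_j ≤ U` occur; `∑ 1/T_j ≤ 2/t₀ ≤ 4/τ`, `∑_{T_j ≤ U} T_j ≤ 2 U`.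
(Or layer cake: `u² = ∑_{t ≤ u} (2t - 1)`, `∑_{t > t₀} 1/t² ≤ 1/t₀`.) -/
theorem gd_dyadic {α : Type*} (C n U τ : ℝ) (hC : 0 ≤ C) (hn : 0 ≤ n) (hU0 : 0 ≤ U) (hτ : 2 ≤ τ)
    (𝓗 : Finset α)
    (u : α → ℕ)
    (hrich : ∀ t : ℕ, 2 ≤ t →
      ((𝓗.filter fun H => t ≤ u H).card : ℝ) ≤ C * (n ^ 2 / (t : ℝ) ^ 3 + n / t))
    (hU : ∀ H ∈ 𝓗, (u H : ℝ) ≤ U) :
    ∑ H ∈ 𝓗.filter (fun H => τ < (u H : ℝ)), ((u H : ℝ)) ^ 2 ≤ 16 * C * (n ^ 2 / τ + n * U) := by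
  have hτ0 : 0 < τ := by linarith
  obtain ⟨t₁, ht₁⟩ : ∃ t₁ : ℕ, t₁ = ⌊τ⌋₊ := ⟨_, rfl⟩
  have h2 : 2 ≤ t₁ := by rw [ht₁]; exact Nat.le_floor (by exact_mod_cast hτ)
  have h2R : (2 : ℝ) ≤ t₁ := by exact_mod_cast h2
  have ht₁0 : (0 : ℝ) < t₁ := by linarith
  have ht₁τ : (t₁ : ℝ) ≤ τ := ht₁ ▸ Nat.floor_le hτ0.le
  have hτt₁ : τ < t₁ + 1 := ht₁ ▸ Nat.lt_floor_add_one τ
  have hτ2 : τ ≤ 2 * t₁ := by linarith
  obtain ⟨M, hM⟩ : ∃ M : ℕ, M = ⌊U⌋₊ := ⟨_, rfl⟩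
  have hMU : (M : ℝ) ≤ U := hM ▸ Nat.floor_le hU0
  obtain ⟨S, hSdef⟩ : ∃ S : Finset α, S = 𝓗.filter (fun H => τ < (u H : ℝ)) := ⟨_, rfl⟩
  rw [← hSdef]
  have hSmem : ∀ H ∈ S, H ∈ 𝓗 ∧ t₁ ≤ u H ∧ u H ≤ M := by
    intro H hH
    rw [hSdef, Finset.mem_filter] at hH
    refine ⟨hH.1, ?_, ?_⟩
    · have : (t₁ : ℝ) < u H := lt_of_le_of_lt ht₁τ hH.2
      exact_mod_cast this.le
    · rw [hM]; exact Nat.le_floor (hU H hH.1)
  rcases S.eq_empty_or_nonempty with hS | ⟨H₀, hH₀⟩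
  · rw [hS, Finset.sum_empty]; positivity
  have ht₁M : t₁ ≤ M := (hSmem H₀ hH₀).2.1.trans (hSmem H₀ hH₀).2.2
  have ht₁U : (t₁ : ℝ) ≤ U := le_trans (by exact_mod_cast ht₁M) hMU
  have hpt : ∀ H ∈ S, (u H : ℝ) ^ 2
      ≤ (t₁ : ℝ) ^ 2 + ∑ t ∈ Finset.Ioc t₁ M, if t ≤ u H then 2 * (t : ℝ) else 0 := by
    intro H hH
    obtain ⟨-, h1, h3⟩ := hSmem H hH
    refine (gd_dyadic_sq t₁ (u H) h1).trans (le_of_eq ?_)
    congr 1
    rw [← Finset.sum_filter]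
    refine Finset.sum_congr ?_ fun _ _ => rfl
    ext t
    simp only [Finset.mem_Ioc, Finset.mem_filter]
    constructor
    · rintro ⟨a, b⟩; exact ⟨⟨a, b.trans h3⟩, b⟩
    · rintro ⟨⟨a, -⟩, b⟩; exact ⟨a, b⟩
  have hcardS : (S.card : ℝ) ≤ C * (n ^ 2 / (t₁ : ℝ) ^ 3 + n / t₁) := by
    refine le_trans ?_ (hrich t₁ h2)
    have : S ⊆ 𝓗.filter fun H => t₁ ≤ u H := by
      intro H hH
      exact Finset.mem_filter.2 ⟨(hSmem H hH).1, (hSmem H hH).2.1⟩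
    exact_mod_cast Finset.card_le_card this
  have hfirst : (S.card : ℝ) * (t₁ : ℝ) ^ 2 ≤ C * (2 * (n ^ 2 / τ) + n * U) := by
    calc (S.card : ℝ) * (t₁ : ℝ) ^ 2 ≤ C * (n ^ 2 / (t₁ : ℝ) ^ 3 + n / t₁) * (t₁ : ℝ) ^ 2 :=
          mul_le_mul_of_nonneg_right hcardS (by positivity)
      _ = C * (n ^ 2 / t₁ + n * t₁) := by field_simp
      _ ≤ C * (2 * (n ^ 2 / τ) + n * U) := by
          refine mul_le_mul_of_nonneg_left (add_le_add ?_ (mul_le_mul_of_nonneg_left ht₁U hn)) hC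
          rw [← mul_div_assoc, div_le_div_iff₀ ht₁0 hτ0]
          nlinarith [sq_nonneg n]
  have hterm : ∀ t ∈ Finset.Ioc t₁ M, (∑ H ∈ S, if t ≤ u H then 2 * (t : ℝ) else 0)
      ≤ 2 * C * n ^ 2 * ((t : ℝ) ^ 2)⁻¹ + 2 * C * n := by
    intro t ht
    have htt : t₁ < t := (Finset.mem_Ioc.1 ht).1
    have ht2 : 2 ≤ t := by omega
    have ht0 : (0 : ℝ) < t := by exact_mod_cast (by omega : 0 < t)
    rw [← Finset.sum_filter, Finset.sum_const, nsmul_eq_mul]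
    have hc : ((S.filter fun H => t ≤ u H).card : ℝ) ≤ C * (n ^ 2 / (t : ℝ) ^ 3 + n / t) := by
      refine le_trans ?_ (hrich t ht2)
      have : (S.filter fun H => t ≤ u H) ⊆ 𝓗.filter fun H => t ≤ u H := by
        intro H hH
        obtain ⟨a, b⟩ := Finset.mem_filter.1 hH
        exact Finset.mem_filter.2 ⟨(hSmem H a).1, b⟩
      exact_mod_cast Finset.card_le_card this
    calc ((S.filter fun H => t ≤ u H).card : ℝ) * (2 * (t : ℝ))
        ≤ C * (n ^ 2 / (t : ℝ) ^ 3 + n / t) * (2 * (t : ℝ)) :=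
          mul_le_mul_of_nonneg_right hc (by positivity)
      _ = 2 * C * n ^ 2 * ((t : ℝ) ^ 2)⁻¹ + 2 * C * n := by field_simp
  have hinv : ∑ t ∈ Finset.Ioc t₁ M, ((t : ℝ) ^ 2)⁻¹ ≤ 2 / τ := by
    refine (sum_Ioc_inv_sq_le_sub (α := ℝ) (by omega) ht₁M).trans ?_
    have h1 : (0 : ℝ) ≤ (M : ℝ)⁻¹ := by positivity
    have h3 : (t₁ : ℝ)⁻¹ ≤ 2 / τ := by
      rw [inv_eq_one_div, div_le_div_iff₀ ht₁0 hτ0]
      linarith
    linarith
  have hcnt : ((Finset.Ioc t₁ M).card : ℝ) ≤ U := by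
    rw [Nat.card_Ioc]
    refine le_trans ?_ hMU
    exact_mod_cast Nat.sub_le _ _
  have hsecond : ∑ t ∈ Finset.Ioc t₁ M, (∑ H ∈ S, if t ≤ u H then 2 * (t : ℝ) else 0)
      ≤ 2 * C * n ^ 2 * (2 / τ) + 2 * C * n * U := by
    calc ∑ t ∈ Finset.Ioc t₁ M, (∑ H ∈ S, if t ≤ u H then 2 * (t : ℝ) else 0)
        ≤ ∑ t ∈ Finset.Ioc t₁ M, (2 * C * n ^ 2 * ((t : ℝ) ^ 2)⁻¹ + 2 * C * n) :=
          Finset.sum_le_sum hterm
      _ = 2 * C * n ^ 2 * ∑ t ∈ Finset.Ioc t₁ M, ((t : ℝ) ^ 2)⁻¹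
            + ((Finset.Ioc t₁ M).card : ℝ) * (2 * C * n) := by
          rw [Finset.sum_add_distrib, Finset.mul_sum, Finset.sum_const, nsmul_eq_mul]
      _ ≤ 2 * C * n ^ 2 * (2 / τ) + 2 * C * n * U := by
          refine add_le_add (mul_le_mul_of_nonneg_left hinv (by positivity)) ?_
          rw [mul_comm]
          exact mul_le_mul_of_nonneg_left hcnt (by positivity)
  have hA : 0 ≤ C * (n ^ 2 / τ) := by positivity
  have hB : 0 ≤ C * (n * U) := by positivity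
  calc ∑ H ∈ S, (u H : ℝ) ^ 2
      ≤ ∑ H ∈ S, ((t₁ : ℝ) ^ 2 + ∑ t ∈ Finset.Ioc t₁ M, if t ≤ u H then 2 * (t : ℝ) else 0) :=
        Finset.sum_le_sum hpt
    _ = (S.card : ℝ) * (t₁ : ℝ) ^ 2
          + ∑ t ∈ Finset.Ioc t₁ M, (∑ H ∈ S, if t ≤ u H then 2 * (t : ℝ) else 0) := by
        rw [Finset.sum_add_distrib, Finset.sum_const, nsmul_eq_mul, Finset.sum_comm]
    _ ≤ C * (2 * (n ^ 2 / τ) + n * U) + (2 * C * n ^ 2 * (2 / τ) + 2 * C * n * U) :=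
        add_le_add hfirst hsecond
    _ = 6 * (C * (n ^ 2 / τ)) + 3 * (C * (n * U)) := by ring
    _ ≤ 16 * C * (n ^ 2 / τ + n * U) := by nlinarith

/-! ### GD-RE-MODEL -/

/-- the complex point of a real vector -/
def gdC (r : Fin d → ℝ) : SpC d := fun i => (r i : ℂ)

/-- the real points of a subset of `ℂ^d` -/
def gdRe (V : Set (SpC d)) : Set (Fin d → ℝ) := {r | gdC r ∈ V}

/-- the real affine subspace spanned by the real points of `Z(p)` -/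
noncomputable def gdRho (p : Ideal (PrfPol d)) : AffineSubspace ℝ (Fin d → ℝ) :=
  affineSpan ℝ (gdRe (spZ p))

theorem gd_C_add (r s : Fin d → ℝ) : gdC (r + s) = gdC r + gdC s := by
  funext i; simp [gdC]

theorem gd_C_sub (r s : Fin d → ℝ) : gdC (r - s) = gdC r - gdC s := by
  funext i; simp [gdC]

theorem gd_C_smul (c : ℝ) (r : Fin d → ℝ) : gdC (c • r) = (c : ℂ) • gdC r := by
  funext i; simp [gdC]

/-- `gdC` as a real linear map -/
noncomputable def gdCL (d : ℕ) : (Fin d → ℝ) →ₗ[ℝ] SpC d where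
  toFun := gdC
  map_add' := gd_C_add
  map_smul' c r := by
    rw [gd_C_smul]
    funext i
    simp

theorem gd_C_sum {ι : Type*} (s : Finset ι) (c : ι → ℝ) (v : ι → Fin d → ℝ) :
    gdC (∑ i ∈ s, c i • v i) = ∑ i ∈ s, (c i : ℂ) • gdC (v i) := by
  have h := map_sum (gdCL d) (fun i => c i • v i) s
  have h2 : ∀ i, gdCL d (c i • v i) = (c i : ℂ) • gdC (v i) := fun i => gd_C_smul _ _
  simp only [h2] at h
  exact h

/-- real vectors which are independent over `ℝ` are independent over `ℂ`. -/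
theorem gd_C_indep {ι : Type*} [Fintype ι] (v : ι → Fin d → ℝ) (h : LinearIndependent ℝ v) :
    LinearIndependent ℂ (fun i => gdC (v i)) := by
  rw [Fintype.linearIndependent_iff] at h ⊢
  intro g hg i
  have hre : ∑ i, (g i).re • v i = 0 := by
    funext j
    have := congrArg Complex.re (congrFun hg j)
    simpa [gdC, Finset.sum_apply] using this
  have him : ∑ i, (g i).im • v i = 0 := by
    funext j
    have := congrArg Complex.im (congrFun hg j)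
    simpa [gdC, Finset.sum_apply] using this
  exact Complex.ext (h _ hre i) (h _ him i)

/-- the real points of a complex flat form a real affine subspace of dimension `≤` the complex dimension (real vectors which are independent over `ℝ` are independent over `ℂ`: separate real and imaginary parts). -/
theorem gd_real_sub (x₀ : SpC d) (W : Submodule ℂ (SpC d)) :
    ∃ A : AffineSubspace ℝ (Fin d → ℝ), (∀ r, r ∈ A ↔ gdC r - x₀ ∈ W) ∧
      finrank ℝ A.direction ≤ finrank ℂ W := by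
  let A : AffineSubspace ℝ (Fin d → ℝ) :=
    { carrier := {r | gdC r - x₀ ∈ W}
      smul_vsub_vadd_mem' := by
        intro c p₁ p₂ p₃ h₁ h₂ h₃
        have e : gdC (c • (p₁ -ᵥ p₂) +ᵥ p₃) - x₀
            = (c : ℂ) • ((gdC p₁ - x₀) - (gdC p₂ - x₀)) + (gdC p₃ - x₀) := by
          rw [vsub_eq_sub, vadd_eq_add, gd_C_add, gd_C_smul, gd_C_sub]
          abel_nf
        show gdC (c • (p₁ -ᵥ p₂) +ᵥ p₃) - x₀ ∈ W
        rw [e]
        exact W.add_mem (W.smul_mem _ (W.sub_mem h₁ h₂)) h₃ }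
  refine ⟨A, fun r => Iff.rfl, ?_⟩
  obtain ⟨Dr, hDr⟩ : ∃ Dr : Submodule ℝ (Fin d → ℝ), Dr = (W.restrictScalars ℝ).comap (gdCL d) :=
    ⟨_, rfl⟩
  have hmem : ∀ v, v ∈ Dr ↔ gdC v ∈ W := by
    intro v
    rw [hDr]
    rfl
  have hle : A.direction ≤ Dr := by
    rw [AffineSubspace.direction_eq_vectorSpan, vectorSpan_def, Submodule.span_le]
    rintro _ ⟨p₁, h₁, p₂, h₂, rfl⟩
    have h₁' : gdC p₁ - x₀ ∈ W := h₁
    have h₂' : gdC p₂ - x₀ ∈ W := h₂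
    show p₁ -ᵥ p₂ ∈ Dr
    rw [hmem, vsub_eq_sub, gd_C_sub]
    have := W.sub_mem h₁' h₂'
    simpa using this
  refine (Submodule.finrank_mono hle).trans ?_
  have hb := (Module.finBasis ℝ Dr).linearIndependent
  have hb' : LinearIndependent ℝ (fun i => ((Module.finBasis ℝ Dr i : Dr) : Fin d → ℝ)) :=
    hb.map' Dr.subtype (Submodule.ker_subtype _)
  have hc := gd_C_indep _ hb'
  have hW : LinearIndependent ℂ (fun i => (⟨gdC ((Module.finBasis ℝ Dr i : Dr) : Fin d → ℝ),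
      (hmem _).1 (Module.finBasis ℝ Dr i).2⟩ : W)) := by
    refine LinearIndependent.of_comp W.subtype ?_
    exact hc
  have := hW.fintype_card_le_finrank
  simpa using this

theorem gd_real_eq {x : SpC d} (hx : SpReal x) : gdC (fun i => (x i).re) = x := by
  funext i
  exact Complex.ext (by simp [gdC]) (by simp [gdC, hx i])

/-- a carrier which is not `SpNonreal` lies in every complex flat containing its real points. -/
theorem gd_real_hull (p : Ideal (PrfPol d)) (hnr : ¬ SpNonreal p) (x' : SpC d)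
    (W' : Submodule ℂ (SpC d)) (h : ∀ r ∈ gdRe (spZ p), gdC r - x' ∈ W') :
    ∀ z ∈ spZ p, z - x' ∈ W' := by
  intro z hz
  by_contra hzW
  obtain ⟨φ, hφz, hφW⟩ := Submodule.exists_le_ker_of_notMem hzW
  apply hnr
  have heval : ∀ y : SpC d,
      eval y (∑ i, C (φ (Pi.single i 1)) * (X i - C (x' i)) : PrfPol d) = φ (y - x') := by
    intro y
    rw [map_sum]
    have e : y - x' = ∑ i, (y i - x' i) • (Pi.single i (1 : ℂ) : SpC d) := by
      funext j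
      simp [Finset.sum_apply, Pi.single_apply]
    conv_rhs => rw [e, map_sum]
    refine Finset.sum_congr rfl fun i _ => ?_
    simp only [map_mul, eval_C, map_sub, eval_X, map_smul, smul_eq_mul]
    ring
  refine ⟨∑ i, C (φ (Pi.single i 1)) * (X i - C (x' i)), ?_, ?_, ?_⟩
  · refine totalDegree_finsetSum_le fun i _ => ?_
    refine (totalDegree_mul _ _).trans ?_
    rw [totalDegree_C, zero_add]
    refine (totalDegree_sub _ _).trans ?_
    rw [totalDegree_C, totalDegree_X]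
    simp
  · intro hl
    have := hz _ hl
    rw [aeval_eq_eval] at this
    have this2 := (heval z).symm.trans this
    exact hφz this2
  · intro x hx hxr
    rw [heval]
    have h1 : (fun i => (x i).re) ∈ gdRe (spZ p) := by
      show gdC _ ∈ spZ p
      rw [gd_real_eq hxr]
      exact hx
    have h2 := h _ h1
    rw [gd_real_eq hxr] at h2
    exact hφW h2

theorem gd_re_subset_rho (p : Ideal (PrfPol d)) : gdRe (spZ p) ⊆ (gdRho p : Set (Fin d → ℝ)) :=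
  subset_affineSpan ℝ _

/-- `gdRho p` lies in the real affine subspace of every complex flat containing `Z(p)`. -/
theorem gd_rho_le_of_flat (p : Ideal (PrfPol d)) (x₀ : SpC d) (W : Submodule ℂ (SpC d))
    (A : AffineSubspace ℝ (Fin d → ℝ)) (hA : ∀ r, r ∈ A ↔ gdC r - x₀ ∈ W)
    (h : ∀ z ∈ spZ p, z - x₀ ∈ W) : gdRho p ≤ A := by
  refine affineSpan_le.2 fun r hr => ?_
  exact (hA r).2 (h _ hr)

theorem gd_rho_nonempty (p : Ideal (PrfPol d)) (hp : p.IsPrime) (hnr : ¬ SpNonreal p) :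
    (gdRe (spZ p)).Nonempty := by
  by_contra hemp
  rw [Set.not_nonempty_iff_eq_empty] at hemp
  apply hnr
  refine ⟨1, by simp, fun h1 => hp.ne_top ((Ideal.eq_top_iff_one _).2 h1), ?_⟩
  intro x hx hxr
  have h1 : (fun i => (x i).re) ∈ gdRe (spZ p) := by
    show gdC _ ∈ spZ p
    rw [gd_real_eq hxr]
    exact hx
  rw [hemp] at h1
  exact absurd h1 (Set.notMem_empty _)

/-- `Z(p) = x₀ + W` (`geo_flat_of_deg_one`).  Nonempty: `l = 1 ∉ p`.  `≤`: `gdRho p ≤ A` of `gd_real_sub`.  `≥`: let `r₀` be a real point, `W'` := the complex span of `{gdC v | v ∈ (gdRho p).direction}`, `finrank ℂ W' ≤ finrank ℝ direction`;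
`gd_real_hull`: `Z(p) ⊆ gdC r₀ + W'`, so `vdim Z(p) ≤ finrank W'` (`geo_flat_isVar`, `ph_vdim_mono`). -/
theorem gd_rho_dim (p : Ideal (PrfPol d)) (hp : p.IsPrime) (h1 : vdeg (spZ p) = 1)
    (hnr : ¬ SpNonreal p) :
    ((gdRho p : AffineSubspace ℝ (Fin d → ℝ)) : Set (Fin d → ℝ)).Nonempty ∧
      finrank ℝ (gdRho p).direction = vdim (spZ p) := by
  obtain ⟨r₀, hr₀⟩ := gd_rho_nonempty p hp hnr
  refine ⟨⟨r₀, gd_re_subset_rho p hr₀⟩, le_antisymm ?_ ?_⟩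
  · obtain ⟨x₀, W, hW, hZ⟩ := geo_flat_of_deg_one (gd_isVar hp) h1
    obtain ⟨A, hA, hAd⟩ := gd_real_sub x₀ W
    have hle : gdRho p ≤ A := gd_rho_le_of_flat p x₀ W A hA (fun z hz => by
      rw [hZ] at hz
      exact hz)
    exact (Submodule.finrank_mono (AffineSubspace.direction_le hle)).trans (hAd.trans hW.le)
  · obtain ⟨b, hb⟩ : ∃ b : Basis (Fin (finrank ℝ (gdRho p).direction)) ℝ (gdRho p).direction,
        b = Module.finBasis ℝ (gdRho p).direction := ⟨_, rfl⟩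
    obtain ⟨W', hW'⟩ : ∃ W' : Submodule ℂ (SpC d),
        W' = Submodule.span ℂ (Set.range fun i => gdC ((b i : (gdRho p).direction) : Fin d → ℝ)) :=
      ⟨_, rfl⟩
    have hfin : finrank ℂ W' ≤ finrank ℝ (gdRho p).direction := by
      rw [hW']
      have := finrank_range_le_card (R := ℂ)
        (fun i => gdC ((b i : (gdRho p).direction) : Fin d → ℝ))
      simpa [Set.finrank] using this
    have hdir : ∀ v ∈ (gdRho p).direction, gdC v ∈ W' := by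
      intro v hv
      have e := b.sum_repr ⟨v, hv⟩
      have e' : v = ∑ i, (b.repr ⟨v, hv⟩ i) • ((b i : (gdRho p).direction) : Fin d → ℝ) := by
        have h3 := congrArg (fun w : (gdRho p).direction => (w : Fin d → ℝ)) e
        simp only [Submodule.coe_sum, Submodule.coe_smul] at h3
        exact h3.symm
      rw [e', gd_C_sum, hW']
      refine Submodule.sum_mem _ fun i _ => Submodule.smul_mem _ _ (Submodule.subset_span ⟨i, rfl⟩)
    have hhull := gd_real_hull p hnr (gdC r₀) W' (fun r hr => by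
      rw [← gd_C_sub]
      exact hdir _ (AffineSubspace.vsub_mem_direction (gd_re_subset_rho p hr)
        (gd_re_subset_rho p hr₀)))
    have hsub : spZ p ⊆ {x : SpC d | x - gdC r₀ ∈ W'} := hhull
    calc vdim (spZ p) ≤ vdim {x : SpC d | x - gdC r₀ ∈ W'} := ph_vdim_mono hsub
      _ = finrank ℂ W' := (geo_flat_isVar (gdC r₀) W').2.1
      _ ≤ _ := hfin

theorem gd_rho_sub_of_le (p q : Ideal (PrfPol d)) (hq : q.IsPrime) (hq1 : vdeg (spZ q) = 1)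
    (hpr : ¬ SpNonreal p) (h : gdRho p ≤ gdRho q) : spZ p ⊆ spZ q := by
  obtain ⟨x₀, W, -, hZ⟩ := geo_flat_of_deg_one (gd_isVar hq) hq1
  obtain ⟨A, hA, -⟩ := gd_real_sub x₀ W
  have hle : gdRho q ≤ A := gd_rho_le_of_flat q x₀ W A hA (fun z hz => by
    rw [hZ] at hz
    exact hz)
  have := gd_real_hull p hpr x₀ W (fun r hr => (hA r).1 (hle (h (gd_re_subset_rho p hr))))
  intro z hz
  rw [hZ]
  exact this z hz

/-- `Z(q) = x₀ + W`; `A` of `gd_real_sub` contains `gdRe Z(q)`, hence `gdRho q = gdRho p ⊇ gdRe Z(p)`; `gd_real_hull`: `Z(p) ⊆ Z(q)`.  Symmetric.  `gd_prime_eq`. -/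
theorem gd_rho_inj (p q : Ideal (PrfPol d)) (hp : p.IsPrime) (hq : q.IsPrime)
    (hp1 : vdeg (spZ p) = 1) (hq1 : vdeg (spZ q) = 1) (hpr : ¬ SpNonreal p) (hqr : ¬ SpNonreal q)
    (h : gdRho p = gdRho q) : p = q :=
  gd_prime_eq p q hp hq (Set.Subset.antisymm (gd_rho_sub_of_le p q hq hq1 hpr h.le)
    (gd_rho_sub_of_le q p hp hp1 hqr h.ge))

/-- `≥ k + 1`: `gdRho 𝔵 ≠ gdRho 𝔶` (`gd_rho_inj`), both of dimension `k`, so the join is strictly larger than `gdRho 𝔵`.  `≤ k + 1`: the join lies in `A` of `gd_real_sub` for the flat of `InFlat`. -/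
theorem gd_rho_join (k : ℕ) (𝔵 𝔶 : Ideal (PrfPol d)) (hx : 𝔵.IsPrime) (hy : 𝔶.IsPrime)
    (hx1 : vdeg (spZ 𝔵) = 1) (hy1 : vdeg (spZ 𝔶) = 1) (hxr : ¬ SpNonreal 𝔵) (hyr : ¬ SpNonreal 𝔶)
    (hxk : vdim (spZ 𝔵) = k) (hyk : vdim (spZ 𝔶) = k) (hne : 𝔵 ≠ 𝔶)
    (hfl : InFlat (spZ 𝔵 ∪ spZ 𝔶) (k + 1)) :
    finrank ℝ (gdRho 𝔵 ⊔ gdRho 𝔶).direction = k + 1 := by
  refine le_antisymm ?_ ?_
  · obtain ⟨x₀, W, hW, hZ⟩ := hfl
    obtain ⟨A, hA, hAd⟩ := gd_real_sub x₀ W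
    have h1 : gdRho 𝔵 ≤ A := gd_rho_le_of_flat 𝔵 x₀ W A hA (fun z hz => hZ z (Or.inl hz))
    have h2 : gdRho 𝔶 ≤ A := gd_rho_le_of_flat 𝔶 x₀ W A hA (fun z hz => hZ z (Or.inr hz))
    exact (Submodule.finrank_mono (AffineSubspace.direction_le (sup_le h1 h2))).trans
      (hAd.trans hW)
  · by_contra hlt
    have hle : finrank ℝ (gdRho 𝔵 ⊔ gdRho 𝔶).direction ≤ k := by omega
    obtain ⟨hxn, hxd⟩ := gd_rho_dim 𝔵 hx hx1 hxr
    obtain ⟨hyn, hyd⟩ := gd_rho_dim 𝔶 hy hy1 hyr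
    have e1 : gdRho 𝔵 = gdRho 𝔵 ⊔ gdRho 𝔶 := by
      refine AffineSubspace.eq_of_direction_eq_of_nonempty_of_le ?_ hxn le_sup_left
      exact Submodule.eq_of_le_of_finrank_le (AffineSubspace.direction_le le_sup_left)
        (by rw [hxd, hxk]; exact hle)
    have e2 : gdRho 𝔶 = gdRho 𝔵 ⊔ gdRho 𝔶 := by
      refine AffineSubspace.eq_of_direction_eq_of_nonempty_of_le ?_ hyn le_sup_right
      exact Submodule.eq_of_le_of_finrank_le (AffineSubspace.direction_le le_sup_right)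
        (by rw [hyd, hyk]; exact hle)
    exact hne (gd_rho_inj 𝔵 𝔶 hx hy hx1 hy1 hxr hyr (e1.trans e2.symm))

/-- `→`: `(x₀, W)` of `InFlat`, `A` of `gd_real_sub`: `gdRho 𝔵 ⊔ gdRho 𝔶 ≤ A`, dimensions `k + 1` (`gd_rho_join`) and `≤ k + 1`: equal (`AffineSubspace.eq_of_direction_eq_of_nonempty_of_le`); `GdCop` puts `gdRe Z(𝔮)` into `A`.
`←`: for a flat `(x', W')` containing `X ∪ Y`, `A'` of `gd_real_sub` contains `gdRho 𝔵 ⊔ gdRho 𝔶 ≥ gdRho 𝔮 ⊇ gdRe Z(𝔮)`; `gd_real_hull`. -/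
theorem gd_cop_iff (k : ℕ) (𝔵 𝔶 𝔮 : Ideal (PrfPol d)) (hx : 𝔵.IsPrime) (hy : 𝔶.IsPrime)
    (hx1 : vdeg (spZ 𝔵) = 1) (hy1 : vdeg (spZ 𝔶) = 1) (hxr : ¬ SpNonreal 𝔵) (hyr : ¬ SpNonreal 𝔶)
    (hxk : vdim (spZ 𝔵) = k) (hyk : vdim (spZ 𝔶) = k) (hne : 𝔵 ≠ 𝔶)
    (hfl : InFlat (spZ 𝔵 ∪ spZ 𝔶) (k + 1)) (hqr : ¬ SpNonreal 𝔮) :
    GdCop 𝔵 𝔶 𝔮 ↔ gdRho 𝔮 ≤ gdRho 𝔵 ⊔ gdRho 𝔶 := by
  constructor
  · intro hcop
    have hjoin := gd_rho_join k 𝔵 𝔶 hx hy hx1 hy1 hxr hyr hxk hyk hne hfl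
    obtain ⟨x₀, W, hW, hZ⟩ := hfl
    obtain ⟨A, hA, hAd⟩ := gd_real_sub x₀ W
    have h1 : gdRho 𝔵 ≤ A := gd_rho_le_of_flat 𝔵 x₀ W A hA (fun z hz => hZ z (Or.inl hz))
    have h2 : gdRho 𝔶 ≤ A := gd_rho_le_of_flat 𝔶 x₀ W A hA (fun z hz => hZ z (Or.inr hz))
    obtain ⟨⟨r, hr⟩, -⟩ := gd_rho_dim 𝔵 hx hx1 hxr
    have e : gdRho 𝔵 ⊔ gdRho 𝔶 = A := by
      refine AffineSubspace.eq_of_direction_eq_of_nonempty_of_le ?_
        ⟨r, (le_sup_left : gdRho 𝔵 ≤ gdRho 𝔵 ⊔ gdRho 𝔶) hr⟩ (sup_le h1 h2)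
      exact Submodule.eq_of_le_of_finrank_le (AffineSubspace.direction_le (sup_le h1 h2))
        (by rw [hjoin]; exact hAd.trans hW)
    rw [e]
    exact gd_rho_le_of_flat 𝔮 x₀ W A hA (hcop x₀ W hZ)
  · intro hle x' W' hZ
    obtain ⟨A, hA, -⟩ := gd_real_sub x' W'
    have h1 : gdRho 𝔵 ≤ A := gd_rho_le_of_flat 𝔵 x' W' A hA (fun z hz => hZ z (Or.inl hz))
    have h2 : gdRho 𝔶 ≤ A := gd_rho_le_of_flat 𝔶 x' W' A hA (fun z hz => hZ z (Or.inr hz))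
    exact gd_real_hull 𝔮 hqr x' W'
      (fun r hr => (hA r).1 ((sup_le h1 h2) (hle (gd_re_subset_rho 𝔮 hr))))

/-! ### GD-RE-PAIRS -/

open scoped Classical in
/-- **Rich pairs.**  `C := 16 C₀`, `C₀` of `gd_rich_flats`.  `Cpl` := the pairs `(𝔵,𝔶) ∈ 𝓕 ×ˢ 𝓕`, `𝔵 ≠ 𝔶`, `InFlat`;  `𝓗 := Cpl.image (fun r => gdRho r.1 ⊔ gdRho r.2)`;  `u H := (𝓕.filter (gdRho · ≤ H)).card`.
`gd_cop_iff`: `gdU 𝓕 𝔵 𝔶 = u (gdRho 𝔵 ⊔ gdRho 𝔶)` on `Cpl`.  `gd_rich_flats` with `E = Fin d → ℝ`, the flats `𝓕.image gdRho` (`gd_rho_dim`; `gd_rho_inj`: the image has `n` elements and `(image.filter (· ≤ H)).card = u H`), the subfamily `𝓗.filter (t ≤ u ·)` (`gd_rho_join`).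
`gd_dyadic`.  The pairs of `Cpl` with join `H` lie in `(𝓕.filter (gdRho · ≤ H)) ×ˢ (same)`: at most `u H ²` (`Finset.card_le_card_of_...`, fibrewise count `Finset.card_eq_sum_card_image`/`card_le_sum_fiber`). -/
theorem gd_rich_pairs : ∃ C : ℝ, 0 < C ∧ ∀ (d k : ℕ) (𝓕 : Finset (Ideal (PrfPol d))) (τ U : ℝ),
    2 ≤ τ → 0 ≤ U →
    (∀ p ∈ 𝓕, p.IsPrime ∧ vdim (spZ p) = k ∧ vdeg (spZ p) = 1 ∧ ¬ SpNonreal p) →
    (∀ 𝔵 ∈ 𝓕, ∀ 𝔶 ∈ 𝓕, 𝔵 ≠ 𝔶 → InFlat (spZ 𝔵 ∪ spZ 𝔶) (k + 1) → (gdU 𝓕 𝔵 𝔶 : ℝ) ≤ U) →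
    (((𝓕 ×ˢ 𝓕).filter fun r => r.1 ≠ r.2 ∧ InFlat (spZ r.1 ∪ spZ r.2) (k + 1) ∧
        τ < (gdU 𝓕 r.1 r.2 : ℝ)).card : ℝ) ≤ C * ((𝓕.card : ℝ) ^ 2 / τ + 𝓕.card * U) := by
  obtain ⟨C₀, hC₀, hrf⟩ := gd_rich_flats
  refine ⟨16 * C₀, by positivity, ?_⟩
  intro d k 𝓕 τ U hτ hU0 h𝓕 hUb
  set Cpl := (𝓕 ×ˢ 𝓕).filter fun r => r.1 ≠ r.2 ∧ InFlat (spZ r.1 ∪ spZ r.2) (k + 1) with hCpl
  set J : Ideal (PrfPol d) × Ideal (PrfPol d) → AffineSubspace ℝ (Fin d → ℝ) :=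
    fun r => gdRho r.1 ⊔ gdRho r.2 with hJ
  set 𝓗 := Cpl.image J with h𝓗
  set u : AffineSubspace ℝ (Fin d → ℝ) → ℕ :=
    fun H => (𝓕.filter fun p => gdRho p ≤ H).card with hu
  have hmem : ∀ r ∈ Cpl, r.1 ∈ 𝓕 ∧ r.2 ∈ 𝓕 ∧ r.1 ≠ r.2 ∧ InFlat (spZ r.1 ∪ spZ r.2) (k + 1) := by
    intro r hr
    obtain ⟨h1, h2, h3⟩ := Finset.mem_filter.1 hr
    exact ⟨(Finset.mem_product.1 h1).1, (Finset.mem_product.1 h1).2, h2, h3⟩
  have hgdU : ∀ r ∈ Cpl, gdU 𝓕 r.1 r.2 = u (J r) := by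
    intro r hr
    obtain ⟨h1, h2, h3, h4⟩ := hmem r hr
    unfold gdU
    simp only [hu]
    congr 1
    apply Finset.filter_congr
    intro q hq
    exact gd_cop_iff k r.1 r.2 q (h𝓕 _ h1).1 (h𝓕 _ h2).1 (h𝓕 _ h1).2.2.1 (h𝓕 _ h2).2.2.1
      (h𝓕 _ h1).2.2.2 (h𝓕 _ h2).2.2.2 (h𝓕 _ h1).2.1 (h𝓕 _ h2).2.1 h3 h4 (h𝓕 _ hq).2.2.2
  have hinj : Set.InjOn gdRho (𝓕 : Set (Ideal (PrfPol d))) := by
    intro p hp q hq h
    exact gd_rho_inj p q (h𝓕 p hp).1 (h𝓕 q hq).1 (h𝓕 p hp).2.2.1 (h𝓕 q hq).2.2.1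
      (h𝓕 p hp).2.2.2 (h𝓕 q hq).2.2.2 h
  have hrich : ∀ t : ℕ, 2 ≤ t → ((𝓗.filter fun H => t ≤ u H).card : ℝ)
      ≤ C₀ * ((𝓕.card : ℝ) ^ 2 / (t : ℝ) ^ 3 + (𝓕.card : ℝ) / t) := by
    intro t ht
    have key := hrf (Fin d → ℝ) k (𝓕.image gdRho) (𝓗.filter fun H => t ≤ u H) t ht
      (by
        intro F hF
        obtain ⟨p, hp, rfl⟩ := Finset.mem_image.1 hF
        have h1 := gd_rho_dim p (h𝓕 p hp).1 (h𝓕 p hp).2.2.1 (h𝓕 p hp).2.2.2
        exact ⟨h1.1, h1.2.trans (h𝓕 p hp).2.1⟩)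
      (by
        intro H hH
        obtain ⟨hH1, hH2⟩ := Finset.mem_filter.1 hH
        obtain ⟨r, hr, rfl⟩ := Finset.mem_image.1 hH1
        obtain ⟨h1, h2, h3, h4⟩ := hmem r hr
        refine ⟨gd_rho_join k r.1 r.2 (h𝓕 _ h1).1 (h𝓕 _ h2).1 (h𝓕 _ h1).2.2.1 (h𝓕 _ h2).2.2.1
          (h𝓕 _ h1).2.2.2 (h𝓕 _ h2).2.2.2 (h𝓕 _ h1).2.1 (h𝓕 _ h2).2.1 h3 h4, ?_⟩
        rw [Finset.filter_image, Finset.card_image_of_injOn
          (hinj.mono (fun x hx => (Finset.mem_filter.1 hx).1))]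
        exact hH2)
    rwa [Finset.card_image_of_injOn hinj] at key
  have hU : ∀ H ∈ 𝓗, (u H : ℝ) ≤ U := by
    intro H hH
    obtain ⟨r, hr, rfl⟩ := Finset.mem_image.1 hH
    obtain ⟨h1, h2, h3, h4⟩ := hmem r hr
    rw [← hgdU r hr]
    exact hUb r.1 h1 r.2 h2 h3 h4
  have hdy := gd_dyadic C₀ (𝓕.card : ℝ) U τ hC₀.le (Nat.cast_nonneg _) hU0 hτ 𝓗 u hrich hU
  set T := (𝓕 ×ˢ 𝓕).filter fun r => r.1 ≠ r.2 ∧ InFlat (spZ r.1 ∪ spZ r.2) (k + 1) ∧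
        τ < (gdU 𝓕 r.1 r.2 : ℝ) with hT
  have hTC : ∀ r ∈ T, r ∈ Cpl ∧ τ < (gdU 𝓕 r.1 r.2 : ℝ) := by
    intro r hr
    obtain ⟨h1, h2, h3, h4⟩ := Finset.mem_filter.1 hr
    exact ⟨Finset.mem_filter.2 ⟨h1, h2, h3⟩, h4⟩
  have hmaps : ∀ r ∈ T, J r ∈ 𝓗.filter (fun H => τ < (u H : ℝ)) := by
    intro r hr
    obtain ⟨h1, h2⟩ := hTC r hr
    refine Finset.mem_filter.2 ⟨Finset.mem_image_of_mem _ h1, ?_⟩
    rw [← hgdU r h1]
    exact h2
  have hcount : T.card = ∑ H ∈ 𝓗.filter (fun H => τ < (u H : ℝ)), (T.filter fun r => J r = H).card :=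
    Finset.card_eq_sum_card_fiberwise hmaps
  have hfib : ∀ H, (T.filter fun r => J r = H).card ≤ u H ^ 2 := by
    intro H
    have hsub : (T.filter fun r => J r = H) ⊆
        (𝓕.filter fun p => gdRho p ≤ H) ×ˢ (𝓕.filter fun p => gdRho p ≤ H) := by
      intro r hr
      obtain ⟨hr1, hr2⟩ := Finset.mem_filter.1 hr
      obtain ⟨h1, h2, -, -⟩ := hmem r (hTC r hr1).1
      refine Finset.mem_product.2 ⟨Finset.mem_filter.2 ⟨h1, ?_⟩, Finset.mem_filter.2 ⟨h2, ?_⟩⟩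
      · rw [← hr2]; exact le_sup_left
      · rw [← hr2]; exact le_sup_right
    refine (Finset.card_le_card hsub).trans ?_
    rw [Finset.card_product, sq]
  calc (T.card : ℝ) = ∑ H ∈ 𝓗.filter (fun H => τ < (u H : ℝ)),
        ((T.filter fun r => J r = H).card : ℝ) := by rw [hcount]; push_cast; rfl
    _ ≤ ∑ H ∈ 𝓗.filter (fun H => τ < (u H : ℝ)), ((u H : ℝ)) ^ 2 :=
        Finset.sum_le_sum (fun H _ => by exact_mod_cast hfib H)
    _ ≤ 16 * C₀ * ((𝓕.card : ℝ) ^ 2 / τ + 𝓕.card * U) := hdy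

end Claimed.Agent.R273
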