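import Claimed.Agent.R273.GdMass

/-!
# Row 273, S4, unit GD: THE TOP GLUE.  Architect helper60.

* `gd_depth : SpDepthStmt d`
* `gd_tang  : SpTangStmt d`
All proofs here are complete (no `sorry` in this file); the leaves are in `GdAG`, `GdReal`, `GdMass` and in helper26's `Geo*.lean`.
-/

set_option autoImplicit false

namespace Claimed.Agent.R273

open MvPolynomial Module

variable {d : ℕ}

/-! ### bookkeeping -/

theorem gd_mem_R {S₁ S₂ : Finset (SpC d)} {asg₁ asg₂ : SpC d → Ideal (PrfPol d)}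
    {Pr : Ideal (PrfPol d) × Ideal (PrfPol d) → Prop} {r : Ideal (PrfPol d) × Ideal (PrfPol d)} :
    r ∈ gdR S₁ S₂ asg₁ asg₂ Pr ↔ (∃ x ∈ S₁, ∃ y ∈ S₂, r = (asg₁ x, asg₂ y)) ∧ Pr r := by
  classical
  unfold gdR
  rw [Finset.mem_filter, Finset.mem_image]
  constructor
  · rintro ⟨⟨z, hz, rfl⟩, hP⟩
    exact ⟨⟨z.1, (Finset.mem_product.1 hz).1, z.2, (Finset.mem_product.1 hz).2, rfl⟩, hP⟩
  · rintro ⟨⟨x, hx, y, hy, rfl⟩, hP⟩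
    exact ⟨⟨(x, y), Finset.mem_product.2 ⟨hx, hy⟩, rfl⟩, hP⟩

theorem gd_mem_hv {e w : ℝ} {S : Finset (SpC d)} {asg : SpC d → Ideal (PrfPol d)}
    {p : Ideal (PrfPol d)} :
    p ∈ gdHv e w S asg ↔ (∃ x ∈ S, asg x = p) ∧ vdeg (spZ p) = 1 ∧ GdHeavy e w S asg p := by
  classical
  unfold gdHv gdFl
  rw [Finset.mem_filter, Finset.mem_filter, Finset.mem_image]
  tauto

theorem gd_card_cover7 {α : Type*} (Λ : Finset α) (P1 P2 P3 P4 P5 P6 P7 : α → Prop) (c : ℝ)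
    (hcov : ∀ z ∈ Λ, P1 z ∨ P2 z ∨ P3 z ∨ P4 z ∨ P5 z ∨ P6 z ∨ P7 z)
    (hb : ∀ Λ' ⊆ Λ, ((∀ z ∈ Λ', P1 z) ∨ (∀ z ∈ Λ', P2 z) ∨ (∀ z ∈ Λ', P3 z) ∨ (∀ z ∈ Λ', P4 z) ∨
      (∀ z ∈ Λ', P5 z) ∨ (∀ z ∈ Λ', P6 z) ∨ (∀ z ∈ Λ', P7 z)) → (Λ'.card : ℝ) ≤ c) :
    (Λ.card : ℝ) ≤ 7 * c := by
  classical
  have hsub : Λ ⊆ Λ.filter P1 ∪ (Λ.filter P2 ∪ (Λ.filter P3 ∪ (Λ.filter P4 ∪ (Λ.filter P5 ∪
      (Λ.filter P6 ∪ Λ.filter P7))))) := by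
    intro z hz
    simp only [Finset.mem_union, Finset.mem_filter]
    rcases hcov z hz with h | h | h | h | h | h | h <;> tauto
  have hc : Λ.card ≤ (Λ.filter P1).card + ((Λ.filter P2).card + ((Λ.filter P3).card +
      ((Λ.filter P4).card + ((Λ.filter P5).card + ((Λ.filter P6).card + (Λ.filter P7).card))))) := by
    refine (Finset.card_le_card hsub).trans ?_
    refine (Finset.card_union_le _ _).trans (Nat.add_le_add_left ?_ _)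
    refine (Finset.card_union_le _ _).trans (Nat.add_le_add_left ?_ _)
    refine (Finset.card_union_le _ _).trans (Nat.add_le_add_left ?_ _)
    refine (Finset.card_union_le _ _).trans (Nat.add_le_add_left ?_ _)
    refine (Finset.card_union_le _ _).trans (Nat.add_le_add_left ?_ _)
    exact Finset.card_union_le _ _
  have hc' : (Λ.card : ℝ) ≤ ((Λ.filter P1).card : ℝ) + (((Λ.filter P2).card : ℝ) +
      (((Λ.filter P3).card : ℝ) + (((Λ.filter P4).card : ℝ) + (((Λ.filter P5).card : ℝ) +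
      (((Λ.filter P6).card : ℝ) + ((Λ.filter P7).card : ℝ)))))) := by exact_mod_cast hc
  have b1 := hb (Λ.filter P1) (Finset.filter_subset _ _)
    (Or.inl fun z hz => (Finset.mem_filter.1 hz).2)
  have b2 := hb (Λ.filter P2) (Finset.filter_subset _ _)
    (Or.inr (Or.inl fun z hz => (Finset.mem_filter.1 hz).2))
  have b3 := hb (Λ.filter P3) (Finset.filter_subset _ _)
    (Or.inr (Or.inr (Or.inl fun z hz => (Finset.mem_filter.1 hz).2)))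
  have b4 := hb (Λ.filter P4) (Finset.filter_subset _ _)
    (Or.inr (Or.inr (Or.inr (Or.inl fun z hz => (Finset.mem_filter.1 hz).2))))
  have b5 := hb (Λ.filter P5) (Finset.filter_subset _ _)
    (Or.inr (Or.inr (Or.inr (Or.inr (Or.inl fun z hz => (Finset.mem_filter.1 hz).2)))))
  have b6 := hb (Λ.filter P6) (Finset.filter_subset _ _)
    (Or.inr (Or.inr (Or.inr (Or.inr (Or.inr (Or.inl fun z hz => (Finset.mem_filter.1 hz).2))))))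
  have b7 := hb (Λ.filter P7) (Finset.filter_subset _ _)
    (Or.inr (Or.inr (Or.inr (Or.inr (Or.inr (Or.inr fun z hz => (Finset.mem_filter.1 hz).2))))))
  linarith

/-- `cap ≤ (η/8) |S|` -/
theorem gd_cap_le {N B θ w η s : ℝ} (hN : 0 ≤ N) (hs : N * Real.exp (-(θ * w)) ≤ s)
    (hn : B ^ (-(1 / 3 : ℝ)) * Real.exp (θ * w) ≤ η / 8) (hB : 0 < B) :
    N * B ^ (-(1 / 3 : ℝ)) ≤ η / 8 * s := by
  have e1 : Real.exp (-(θ * w)) * Real.exp (θ * w) = 1 := by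
    rw [← Real.exp_add]; simp
  have hB' : 0 ≤ B ^ (-(1 / 3 : ℝ)) := Real.rpow_nonneg hB.le _
  have hE : 0 < Real.exp (θ * w) := Real.exp_pos _
  calc N * B ^ (-(1 / 3 : ℝ))
      = (N * Real.exp (-(θ * w))) * (B ^ (-(1 / 3 : ℝ)) * Real.exp (θ * w)) := by
        calc N * B ^ (-(1 / 3 : ℝ))
            = N * B ^ (-(1 / 3 : ℝ)) * (Real.exp (-(θ * w)) * Real.exp (θ * w)) := by
              rw [e1, mul_one]
          _ = _ := by ring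
    _ ≤ (N * Real.exp (-(θ * w))) * (η / 8) :=
        mul_le_mul_of_nonneg_left hn (mul_nonneg hN (Real.exp_pos _).le)
    _ ≤ s * (η / 8) := by
        refine mul_le_mul_of_nonneg_right hs ?_
        exact le_trans (mul_nonneg hB' hE.le) hn
    _ = η / 8 * s := by ring

/-! ### classification of the bad pairs -/

theorem gd_classify {k : ℕ} {e w τ : ℝ} {S₁ S₂ : Finset (SpC d)}
    {asg₁ asg₂ : SpC d → Ideal (PrfPol d)} {x y : SpC d} (hx : x ∈ S₁) (hy : y ∈ S₂)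
    (hpx : (asg₁ x).IsPrime) (hpy : (asg₂ y).IsPrime)
    (hbad : ¬ GdGood (k + 1) (gdHv e w S₁ asg₁ ∪ gdHv e w S₂ asg₂) τ (asg₁ x, asg₂ y)) :
    GdTanL (asg₁ x) (asg₂ y) ∨ GdTanR (asg₁ x) (asg₂ y) ∨
    (vdeg (spZ (asg₁ x)) ≠ 1 ∧ InFlat (spZ (asg₁ x) ∪ spZ (asg₂ y)) (k + 1)) ∨
    (vdeg (spZ (asg₂ y)) ≠ 1 ∧ InFlat (spZ (asg₁ x) ∪ spZ (asg₂ y)) (k + 1)) ∨
    (vdeg (spZ (asg₁ x)) = 1 ∧ ¬ GdHeavy e w S₁ asg₁ (asg₁ x)) ∨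
    (vdeg (spZ (asg₂ y)) = 1 ∧ ¬ GdHeavy e w S₂ asg₂ (asg₂ y)) ∨
    (asg₁ x ≠ asg₂ y ∧ InFlat (spZ (asg₁ x) ∪ spZ (asg₂ y)) (k + 1) ∧
      asg₁ x ∈ gdHv e w S₁ asg₁ ∪ gdHv e w S₂ asg₂ ∧
      asg₂ y ∈ gdHv e w S₁ asg₁ ∪ gdHv e w S₂ asg₂ ∧
      τ < (gdU (gdHv e w S₁ asg₁ ∪ gdHv e w S₂ asg₂) (asg₁ x) (asg₂ y) : ℝ)) := by
  classical
  by_cases htr : SpTransv (asg₁ x) (asg₂ y)
  · have h2 : ¬ (InFlat (spZ (asg₁ x) ∪ spZ (asg₂ y)) (k + 1) →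
        asg₁ x ∈ gdHv e w S₁ asg₁ ∪ gdHv e w S₂ asg₂ ∧
        asg₂ y ∈ gdHv e w S₁ asg₁ ∪ gdHv e w S₂ asg₂ ∧
        (gdU (gdHv e w S₁ asg₁ ∪ gdHv e w S₂ asg₂) (asg₁ x) (asg₂ y) : ℝ) ≤ τ) :=
      fun h => hbad ⟨htr, h⟩
    rw [Classical.not_imp] at h2
    obtain ⟨hfl, h3⟩ := h2
    by_cases a1 : vdeg (spZ (asg₁ x)) = 1
    · by_cases b1 : vdeg (spZ (asg₂ y)) = 1
      · by_cases a2 : GdHeavy e w S₁ asg₁ (asg₁ x)
        · by_cases b2 : GdHeavy e w S₂ asg₂ (asg₂ y)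
          · have ma : asg₁ x ∈ gdHv e w S₁ asg₁ ∪ gdHv e w S₂ asg₂ :=
              Finset.mem_union_left _ (gd_mem_hv.2 ⟨⟨x, hx, rfl⟩, a1, a2⟩)
            have mb : asg₂ y ∈ gdHv e w S₁ asg₁ ∪ gdHv e w S₂ asg₂ :=
              Finset.mem_union_right _ (gd_mem_hv.2 ⟨⟨y, hy, rfl⟩, b1, b2⟩)
            refine Or.inr (Or.inr (Or.inr (Or.inr (Or.inr (Or.inr ⟨?_, hfl, ma, mb, ?_⟩)))))
            · intro heq
              rw [← heq] at htr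
              exact gd_flat_not_transv _ hpx a1 htr
            · by_contra hle
              exact h3 ⟨ma, mb, not_lt.1 hle⟩
          · exact Or.inr (Or.inr (Or.inr (Or.inr (Or.inr (Or.inl ⟨b1, b2⟩)))))
        · exact Or.inr (Or.inr (Or.inr (Or.inr (Or.inl ⟨a1, a2⟩))))
      · exact Or.inr (Or.inr (Or.inr (Or.inl ⟨b1, hfl⟩)))
    · exact Or.inr (Or.inr (Or.inl ⟨a1, hfl⟩))
  · rcases gd_not_transv _ _ hpx hpy htr with h | h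
    · exact Or.inl h
    · exact Or.inr (Or.inl h)

/-! ### the mass of the bad pairs -/

theorem gd_depth_mass (hd : 3 ≤ d) {k : ℕ} (hkd : k + 1 < d) {D : SpData d} {θ w e τ η C : ℝ}
    (hD : D.Reg θ) (hθ : θ ≤ 1) (he : 0 < e)
    {S₁ S₂ : Finset (SpC d)} {asg₁ asg₂ : SpC d → Ideal (PrfPol d)}
    (hF₁ : SpFamOk D k w θ S₁ asg₁) (hF₂ : SpFamOk D k w θ S₂ asg₂)
    (hL₁ : SpFlatOk e w θ S₁ asg₁) (hL₂ : SpFlatOk e w θ S₂ asg₂)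
    (hrich : ∀ Λ ⊆ S₁ ×ˢ S₂,
        (∀ z ∈ Λ, asg₁ z.1 ≠ asg₂ z.2 ∧ InFlat (spZ (asg₁ z.1) ∪ spZ (asg₂ z.2)) (k + 1) ∧
          asg₁ z.1 ∈ gdHv e w S₁ asg₁ ∪ gdHv e w S₂ asg₂ ∧
          asg₂ z.2 ∈ gdHv e w S₁ asg₁ ∪ gdHv e w S₂ asg₂ ∧
          τ < (gdU (gdHv e w S₁ asg₁ ∪ gdHv e w S₂ asg₂) (asg₁ z.1) (asg₂ z.2) : ℝ)) →
        (Λ.card : ℝ) ≤ C * (Real.exp (θ * w) ^ 4 / τ +
          Real.exp (θ * w) ^ 4 * Real.exp (w / 12) * D.B ^ (-(1 / 3 : ℝ))) * S₁.card * S₂.card)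
    (n1 : D.B ^ (-(1 / 3 : ℝ)) * Real.exp (θ * w) ≤ η / 8)
    (n2 : Real.exp (θ * w) * Real.exp (-(w / 12)) ≤ η / 8)
    (n3 : C * (Real.exp (θ * w) ^ 4 / τ +
        Real.exp (θ * w) ^ 4 * Real.exp (w / 12) * D.B ^ (-(1 / 3 : ℝ))) ≤ η / 8)
    (Λ : Finset (SpC d × SpC d)) (hΛ : Λ ⊆ S₁ ×ˢ S₂)
    (hbad : ∀ z ∈ Λ, (asg₁ z.1, asg₂ z.2) ∉
      gdR S₁ S₂ asg₁ asg₂ (GdGood (k + 1) (gdHv e w S₁ asg₁ ∪ gdHv e w S₂ asg₂) τ)) :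
    (Λ.card : ℝ) ≤ η * S₁.card * S₂.card := by
  classical
  have hB : 0 < D.B := lt_of_lt_of_le one_pos (hD.one_le_B hθ)
  have hN : 0 ≤ D.N := le_trans zero_le_one (hD.one_le_N hθ)
  have c1 : D.N * D.B ^ (-(1 / 3 : ℝ)) ≤ η / 8 * S₁.card := gd_cap_le hN hF₁.size n1 hB
  have c2 : D.N * D.B ^ (-(1 / 3 : ℝ)) ≤ η / 8 * S₂.card := gd_cap_le hN hF₂.size n1 hB
  have s1 : (0 : ℝ) ≤ S₁.card := Nat.cast_nonneg _
  have s2 : (0 : ℝ) ≤ S₂.card := Nat.cast_nonneg _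
  have hkd' : k < d := by omega
  have key := gd_card_cover7 Λ
    (fun z => GdTanL (asg₁ z.1) (asg₂ z.2)) (fun z => GdTanR (asg₁ z.1) (asg₂ z.2))
    (fun z => vdeg (spZ (asg₁ z.1)) ≠ 1 ∧ InFlat (spZ (asg₁ z.1) ∪ spZ (asg₂ z.2)) (k + 1))
    (fun z => vdeg (spZ (asg₂ z.2)) ≠ 1 ∧ InFlat (spZ (asg₁ z.1) ∪ spZ (asg₂ z.2)) (k + 1))
    (fun z => vdeg (spZ (asg₁ z.1)) = 1 ∧ ¬ GdHeavy e w S₁ asg₁ (asg₁ z.1))
    (fun z => vdeg (spZ (asg₂ z.2)) = 1 ∧ ¬ GdHeavy e w S₂ asg₂ (asg₂ z.2))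
    (fun z => asg₁ z.1 ≠ asg₂ z.2 ∧ InFlat (spZ (asg₁ z.1) ∪ spZ (asg₂ z.2)) (k + 1) ∧
      asg₁ z.1 ∈ gdHv e w S₁ asg₁ ∪ gdHv e w S₂ asg₂ ∧
      asg₂ z.2 ∈ gdHv e w S₁ asg₁ ∪ gdHv e w S₂ asg₂ ∧
      τ < (gdU (gdHv e w S₁ asg₁ ∪ gdHv e w S₂ asg₂) (asg₁ z.1) (asg₂ z.2) : ℝ))
    (η / 8 * S₁.card * S₂.card) ?_ ?_
  · have : 0 ≤ η / 8 * S₁.card * S₂.card := by
      have hη : 0 ≤ η / 8 := le_trans (mul_nonneg (Real.exp_pos _).le (Real.exp_pos _).le) n2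
      positivity
    nlinarith
  · intro z hz
    have hz' := Finset.mem_product.1 (hΛ hz)
    refine gd_classify hz'.1 hz'.2 (hF₁.prime _ hz'.1) (hF₂.prime _ hz'.2) ?_
    intro hgood
    exact hbad z hz (gd_mem_R.2 ⟨⟨z.1, hz'.1, z.2, hz'.2, rfl⟩, hgood⟩)
  · intro Λ' hΛ' hcase
    have hsub : Λ' ⊆ S₁ ×ˢ S₂ := hΛ'.trans hΛ
    rcases hcase with h | h | h | h | h | h | h
    · -- TanL
      have := gd_mass_pinL hd hD hθ S₁ S₂ asg₁ asg₂ hF₂.sub hF₂.mem GdTanL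
        (fun x hx => by
          obtain ⟨x₀, W, hW, hp⟩ := gd_tanL_flat (asg₁ x) (hF₁.prime x hx)
          exact ⟨x₀, W, by rw [hF₁.dim x hx] at hW; omega, hp⟩) Λ' hsub h
      calc (Λ'.card : ℝ) ≤ D.N * D.B ^ (-(1 / 3 : ℝ)) * S₁.card := this
        _ ≤ η / 8 * S₂.card * S₁.card := mul_le_mul_of_nonneg_right c2 s1
        _ = η / 8 * S₁.card * S₂.card := by ring
    · -- TanR
      have := gd_mass_pinR hd hD hθ S₁ S₂ asg₁ asg₂ hF₁.sub hF₁.mem GdTanR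
        (fun y hy => by
          obtain ⟨y₀, W, hW, hp⟩ := gd_tanR_flat (asg₂ y) (hF₂.prime y hy)
          exact ⟨y₀, W, by rw [hF₂.dim y hy] at hW; omega, hp⟩) Λ' hsub h
      calc (Λ'.card : ℝ) ≤ D.N * D.B ^ (-(1 / 3 : ℝ)) * S₂.card := this
        _ ≤ η / 8 * S₁.card * S₂.card := mul_le_mul_of_nonneg_right c1 s2
    · -- NonlinL
      have := gd_mass_pinL hd hD hθ S₁ S₂ asg₁ asg₂ hF₂.sub hF₂.mem
        (fun 𝔵 𝔶 => vdeg (spZ 𝔵) ≠ 1 ∧ InFlat (spZ 𝔵 ∪ spZ 𝔶) (k + 1))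
        (fun x hx => by
          by_cases h1 : vdeg (spZ (asg₁ x)) = 1
          · exact ⟨0, ⊥, by rw [finrank_bot]; omega, fun 𝔶 hr => absurd h1 hr.1⟩
          · obtain ⟨y₀, W, hW, hp⟩ := gd_pin_nonlin (asg₁ x) (hF₁.prime x hx) h1
            rw [hF₁.dim x hx] at hW hp
            exact ⟨y₀, W, by omega, fun 𝔶 hr => hp (spZ 𝔶) (by rw [Set.union_comm]; exact hr.2)⟩)
        Λ' hsub h
      calc (Λ'.card : ℝ) ≤ D.N * D.B ^ (-(1 / 3 : ℝ)) * S₁.card := this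
        _ ≤ η / 8 * S₂.card * S₁.card := mul_le_mul_of_nonneg_right c2 s1
        _ = η / 8 * S₁.card * S₂.card := by ring
    · -- NonlinR
      have := gd_mass_pinR hd hD hθ S₁ S₂ asg₁ asg₂ hF₁.sub hF₁.mem
        (fun 𝔵 𝔶 => vdeg (spZ 𝔶) ≠ 1 ∧ InFlat (spZ 𝔵 ∪ spZ 𝔶) (k + 1))
        (fun y hy => by
          by_cases h1 : vdeg (spZ (asg₂ y)) = 1
          · exact ⟨0, ⊥, by rw [finrank_bot]; omega, fun 𝔵 hr => absurd h1 hr.1⟩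
          · obtain ⟨y₀, W, hW, hp⟩ := gd_pin_nonlin (asg₂ y) (hF₂.prime y hy) h1
            rw [hF₂.dim y hy] at hW hp
            exact ⟨y₀, W, by omega, fun 𝔵 hr => hp (spZ 𝔵) hr.2⟩)
        Λ' hsub h
      calc (Λ'.card : ℝ) ≤ D.N * D.B ^ (-(1 / 3 : ℝ)) * S₂.card := this
        _ ≤ η / 8 * S₁.card * S₂.card := mul_le_mul_of_nonneg_right c1 s2
    · -- LightL
      have := gd_mass_lightL he S₁ S₂ asg₁ hL₁ Λ' hsub h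
      calc (Λ'.card : ℝ) ≤ Real.exp (θ * w) * Real.exp (-(w / 12)) * S₁.card * S₂.card := this
        _ ≤ η / 8 * S₁.card * S₂.card :=
          mul_le_mul_of_nonneg_right (mul_le_mul_of_nonneg_right n2 s1) s2
    · -- LightR
      have := gd_mass_lightR he S₁ S₂ asg₂ hL₂ Λ' hsub h
      calc (Λ'.card : ℝ) ≤ Real.exp (θ * w) * Real.exp (-(w / 12)) * S₁.card * S₂.card := this
        _ ≤ η / 8 * S₁.card * S₂.card :=
          mul_le_mul_of_nonneg_right (mul_le_mul_of_nonneg_right n2 s1) s2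
    · -- Rich
      have := hrich Λ' hsub h
      exact this.trans (mul_le_mul_of_nonneg_right (mul_le_mul_of_nonneg_right n3 s1) s2)

/-! ### the good pairs -/

theorem gd_inFlat_of_cop {u : ℕ} {𝔵 𝔶 𝔮 : Ideal (PrfPol d)} (hfl : InFlat (spZ 𝔵 ∪ spZ 𝔶) u)
    (hc : GdCop 𝔵 𝔶 𝔮) : InFlat (spZ 𝔵 ∪ spZ 𝔮) u := by
  obtain ⟨x₀, W, hW, h⟩ := hfl
  refine ⟨x₀, W, hW, ?_⟩
  rintro z (hz | hz)
  · exact h z (Or.inl hz)
  · exact hc x₀ W h z hz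

theorem gd_depth_good {k : ℕ} {D : SpData d} {θ w e τ : ℝ} (hτ : 1 ≤ τ)
    {S₁ S₂ : Finset (SpC d)} {asg₁ asg₂ : SpC d → Ideal (PrfPol d)}
    (hF₁ : SpFamOk D k w θ S₁ asg₁) (hF₂ : SpFamOk D k w θ S₂ asg₂)
    (r : Ideal (PrfPol d) × Ideal (PrfPol d))
    (hr : r ∈ gdR S₁ S₂ asg₁ asg₂ (GdGood (k + 1) (gdHv e w S₁ asg₁ ∪ gdHv e w S₂ asg₂) τ)) :
    SpTransv r.1 r.2 ∧ vdim (spImg (spZ r.1) (spZ r.2)) = 2 * k + 1 ∧
      vdeg (spZ r.1) * vdeg (spZ r.2) ≤ 2 * vdeg (spImg (spZ r.1) (spZ r.2)) ∧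
      ∀ 𝒴 : Finset (Ideal (PrfPol d)),
        (∀ q ∈ 𝒴, (r.1, q) ∈
            gdR S₁ S₂ asg₁ asg₂ (GdGood (k + 1) (gdHv e w S₁ asg₁ ∪ gdHv e w S₂ asg₂) τ) ∧
          spImg (spZ r.1) (spZ q) = spImg (spZ r.1) (spZ r.2)) →
        (𝒴.card : ℝ) ≤ τ := by
  classical
  obtain ⟨⟨x, hx, y, hy, rfl⟩, htr, hgood⟩ := gd_mem_R.1 hr
  simp only at htr hgood ⊢
  have hpx := hF₁.prime x hx
  have hpy := hF₂.prime y hy
  have hdx := hF₁.dim x hx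
  have hdy := hF₂.dim y hy
  have hvdeg : ∀ p ∈ gdHv e w S₁ asg₁ ∪ gdHv e w S₂ asg₂, vdeg (spZ p) = 1 := by
    intro p hp
    rcases Finset.mem_union.1 hp with h | h
    · exact (gd_mem_hv.1 h).2.1
    · exact (gd_mem_hv.1 h).2.1
  refine ⟨htr, ?_, ?_, ?_⟩
  · rw [gd_img_dim _ _ hpx hpy (gd_transv_notTanR htr), hdx, hdy]
    ring
  · by_cases hfl : InFlat (spZ (asg₁ x) ∪ spZ (asg₂ y)) (k + 1)
    · obtain ⟨ma, mb, _⟩ := hgood hfl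
      rw [hvdeg _ ma, hvdeg _ mb]
      have := ph_vdeg_pos _ (sp_img_isVar (gd_isVar hpx) (gd_isVar hpy))
      omega
    · exact gd_caseA_deg hpx hpy (by omega) htr (fun h => hfl (by rw [hdx] at h; exact h))
  · intro 𝒴 h𝒴
    by_cases hfl : InFlat (spZ (asg₁ x) ∪ spZ (asg₂ y)) (k + 1)
    · obtain ⟨_, _, hU⟩ := hgood hfl
      refine le_trans ?_ hU
      unfold gdU
      have hsub : 𝒴 ⊆ (gdHv e w S₁ asg₁ ∪ gdHv e w S₂ asg₂).filter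
          fun q => GdCop (asg₁ x) (asg₂ y) q := by
        intro q hq
        obtain ⟨hqR, himg⟩ := h𝒴 q hq
        have hcop : GdCop (asg₁ x) (asg₂ y) q :=
          gd_cop_of_img _ _ _ (ph_isVar_nonempty _ (gd_isVar hpx)) himg.le
        obtain ⟨_, _, hg⟩ := gd_mem_R.1 hqR
        exact Finset.mem_filter.2 ⟨(hg (gd_inFlat_of_cop hfl hcop)).2.1, hcop⟩
      exact_mod_cast Finset.card_le_card hsub
    · have hall : ∀ q ∈ 𝒴, q = asg₂ y := by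
        intro q hq
        obtain ⟨hqR, himg⟩ := h𝒴 q hq
        obtain ⟨⟨x', _, y', hy', heq⟩, htr', _⟩ := gd_mem_R.1 hqR
        have hq' : q = asg₂ y' := (Prod.mk.inj heq).2
        have hpq : q.IsPrime := hq' ▸ hF₂.prime y' hy'
        have hdq : vdim (spZ q) = k := hq' ▸ hF₂.dim y' hy'
        exact gd_caseA_unique hpx hpy hpq (by omega) (by omega) htr htr'
          (fun h => hfl (by rw [hdx] at h; exact h.2)) himg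
      have hsub : 𝒴 ⊆ {asg₂ y} := fun q hq => Finset.mem_singleton.2 (hall q hq)
      have hc : 𝒴.card ≤ 1 := by
        simpa using Finset.card_le_card hsub
      calc (𝒴.card : ℝ) ≤ 1 := by exact_mod_cast hc
        _ ≤ τ := hτ

/-- **geo:generic-depth in the form consumed by sc:retained-products.** -/
theorem gd_depth (hd : 3 ≤ d) : SpDepthStmt d := by
  obtain ⟨C, hC, hrich⟩ := gd_mass_rich hd
  intro k hk1 hkd ε η hε hη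
  obtain ⟨θ, hθ0, hθ1, hnum⟩ := gd_num C ε η hC hε hη
  refine ⟨θ, hθ0, ?_⟩
  intro D w e hD hw1 hw2 he S₁ S₂ asg₁ asg₂ hF₁ hF₂ hL₁ hL₂
  have hB : 0 < D.B := lt_of_lt_of_le one_pos (hD.one_le_B hθ1)
  obtain ⟨n1, n2, n3, n4⟩ := hnum w D.B hw1 hB hw2
  refine ⟨gdR S₁ S₂ asg₁ asg₂
    (GdGood (k + 1) (gdHv e w S₁ asg₁ ∪ gdHv e w S₂ asg₂) (Real.exp (ε * w))), ?_, ?_⟩
  · intro Λ hΛ hbad
    exact gd_depth_mass hd hkd hD hθ1 he hF₁ hF₂ hL₁ hL₂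
      (hrich k hkd D θ w e _ hD hθ1 he n4 S₁ S₂ asg₁ asg₂ hF₁ hF₂ hL₁ hL₂) n1 n2 n3 Λ hΛ hbad
  · intro r hr
    exact gd_depth_good (by linarith) hF₁ hF₂ r hr

/-- **hypersurface targets** (only the tangency deletion). -/
theorem gd_tang (hd : 3 ≤ d) : SpTangStmt d := by
  intro η hη
  obtain ⟨θ, hθ0, hθ1, hnum⟩ := gd_num 1 1 η one_pos one_pos hη
  refine ⟨θ, hθ0, ?_⟩
  intro D w hD hw1 hw2 S₁ S₂ asg₁ asg₂ hS₁ _ hsize h₁ h₂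
  have hB : 0 < D.B := lt_of_lt_of_le one_pos (hD.one_le_B hθ1)
  have hN : 0 ≤ D.N := le_trans zero_le_one (hD.one_le_N hθ1)
  obtain ⟨n1, _, _, _⟩ := hnum w D.B hw1 hB hw2
  refine ⟨gdR S₁ S₂ asg₁ asg₂ (fun r => ¬ GdTanR r.1 r.2), ?_, ?_⟩
  · intro Λ hΛ hbad
    have hrel : ∀ z ∈ Λ, GdTanR (asg₁ z.1) (asg₂ z.2) := by
      intro z hz
      have hz' := Finset.mem_product.1 (hΛ hz)
      by_contra hn
      exact hbad z hz (gd_mem_R.2 ⟨⟨z.1, hz'.1, z.2, hz'.2, rfl⟩, hn⟩)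
    have := gd_mass_pinR hd hD hθ1 S₁ S₂ asg₁ asg₂ hS₁ (fun x hx => (h₁ x hx).2) GdTanR
      (fun y hy => by
        obtain ⟨y₀, W, hW, hp⟩ := gd_tanR_flat (asg₂ y) (h₂ y hy).1
        exact ⟨y₀, W, by rw [(h₂ y hy).2.1] at hW; omega, hp⟩) Λ hΛ hrel
    have c1 : D.N * D.B ^ (-(1 / 3 : ℝ)) ≤ η / 8 * S₁.card := gd_cap_le hN hsize n1 hB
    have s1 : (0 : ℝ) ≤ S₁.card := Nat.cast_nonneg _
    have s2 : (0 : ℝ) ≤ S₂.card := Nat.cast_nonneg _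
    calc (Λ.card : ℝ) ≤ D.N * D.B ^ (-(1 / 3 : ℝ)) * S₂.card := this
      _ ≤ η / 8 * S₁.card * S₂.card := mul_le_mul_of_nonneg_right c1 s2
      _ ≤ η * S₁.card * S₂.card := by
        have : 0 ≤ η * S₁.card * S₂.card := by positivity
        nlinarith
  · intro r hr
    obtain ⟨⟨x, hx, y, hy, rfl⟩, hnt⟩ := gd_mem_R.1 hr
    exact geo_img_full (gd_isVar (h₁ x hx).1) (gd_isVar (h₂ y hy).1)
      (by rw [(h₂ y hy).2.1]; omega) (gd_nt (h₂ y hy).1 hnt)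

end Claimed.Agent.R273
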