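import Mathlib

/-!
# Row 273: rank of finitely many vectors and minors (Mathlib only).   helper133.   Prefix `mla_`.

* `mla_extract`         : `r` independent members of a set whose span has dimension `≥ r`;
* `mla_exists_minor`    : `r ≤ finrank (span (w '' S))` gives a nonzero `r × r` minor;
* `mla_rank_of_minor`   : the converse;
* `mla_exists_orth`     : a nonzero vector orthogonal to a proper subspace of `ι → K`;
* `mla_totalDegree_det_le`, `mla_rank_test` : rank test for vectors of polynomials.
Consumed by `PrfRegA.lean` (`prfr_exists_minor`, `prfr_rank_of_minor`, `prfr_exists_orth`) and `ScoReg.lean` (`sp_rank_test`).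
-/

set_option autoImplicit false

namespace Claimed.Agent.R273

open MvPolynomial Module

/-- `r` independent members of a set whose span has dimension `≥ r`. -/
theorem mla_extract {K V : Type*} [Field K] [AddCommGroup V] [Module K V] [FiniteDimensional K V]
    {r : ℕ} (s : Set V) (h : r ≤ finrank K (Submodule.span K s)) :
    ∃ f : Fin r → V, (∀ i, f i ∈ s) ∧ LinearIndependent K f := by
  obtain ⟨b, hbs, hspan, hli⟩ := exists_linearIndependent K s
  have hfin : b.Finite := hli.setFinite
  have : Fintype b := hfin.fintype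
  have hcard : finrank K (Submodule.span K b) = Fintype.card b := by
    have := finrank_span_eq_card hli
    rwa [Subtype.range_coe] at this
  rw [← hspan, hcard] at h
  obtain ⟨e⟩ := Function.Embedding.nonempty_of_card_le (α := Fin r) (β := b) (by simpa using h)
  exact ⟨fun i => (e i : V), fun i => hbs (e i).2, hli.comp e e.injective⟩

theorem mla_exists_minor {K : Type*} [Field K] {ι : Type*} [Fintype ι] {r : ℕ} {α : Type*}
    (w : α → ι → K) (S : Set α) (h : r ≤ finrank K (Submodule.span K (w '' S))) :
    ∃ (φ : Fin r → α) (c : Fin r → ι), (∀ i, φ i ∈ S) ∧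
      (Matrix.of fun i j => w (φ i) (c j)).det ≠ 0 := by
  obtain ⟨f, hf, hli⟩ := mla_extract (w '' S) h
  choose φ hφS hφ using hf
  set A : Matrix (Fin r) ι K := Matrix.of fun i j => w (φ i) j with hA
  have hrow : LinearIndependent K A.row := by
    have : A.row = f := by
      funext i
      rw [← hφ i]
      rfl
    rw [this]; exact hli
  have hrank : A.rank = r := by simpa using hrow.rank_matrix
  have h2 : r ≤ finrank K (Submodule.span K (Set.range A.col)) := by
    rw [← A.rank_eq_finrank_span_cols, hrank]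
  obtain ⟨g, hg, hgli⟩ := mla_extract (Set.range A.col) h2
  choose c hc using hg
  refine ⟨φ, c, hφS, ?_⟩
  set M : Matrix (Fin r) (Fin r) K := Matrix.of fun i j => w (φ i) (c j) with hM
  have hcol : LinearIndependent K M.col := by
    have : M.col = g := by
      funext j
      rw [← hc j]
      rfl
    rw [this]; exact hgli
  have hu : IsUnit M := Matrix.linearIndependent_cols_iff_isUnit.1 hcol
  exact ((Matrix.isUnit_iff_isUnit_det M).1 hu).ne_zero

theorem mla_rank_of_minor {K : Type*} [Field K] {ι : Type*} [Finite ι] {r : ℕ} {α : Type*}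
    (w : α → ι → K) (S : Set α) (φ : Fin r → α) (c : Fin r → ι) (hφ : ∀ i, φ i ∈ S)
    (h : (Matrix.of fun i j => w (φ i) (c j)).det ≠ 0) :
    r ≤ finrank K (Submodule.span K (w '' S)) := by
  set M : Matrix (Fin r) (Fin r) K := Matrix.of fun i j => w (φ i) (c j) with hM
  have hu : IsUnit M := (Matrix.isUnit_iff_isUnit_det M).2 (isUnit_iff_ne_zero.2 h)
  have hrow : LinearIndependent K M.row := Matrix.linearIndependent_rows_iff_isUnit.2 hu
  have hli : LinearIndependent K (fun i => w (φ i)) := by
    refine LinearIndependent.of_comp (LinearMap.funLeft K K c) ?_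
    exact hrow
  have h1 := finrank_span_eq_card hli
  rw [Fintype.card_fin] at h1
  rw [← h1]
  refine Submodule.finrank_mono (Submodule.span_mono ?_)
  rintro _ ⟨i, rfl⟩
  exact ⟨φ i, hφ i, rfl⟩

theorem mla_exists_orth {K : Type*} [Field K] {ι : Type*} [Fintype ι] (U : Submodule K (ι → K))
    (h : finrank K U < Fintype.card ι) : ∃ v : ι → K, v ≠ 0 ∧ ∀ u ∈ U, ∑ j, u j * v j = 0 := by
  classical
  have hlt : U < ⊤ := by
    refine lt_top_iff_ne_top.2 fun htop => ?_
    rw [htop, finrank_top, finrank_fintype_fun_eq_card] at h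
    exact lt_irrefl _ h
  obtain ⟨f, hf0, hfU⟩ := U.exists_le_ker_of_lt_top hlt
  have hsum : ∀ u : ι → K, f u = ∑ j, u j * f (Pi.single j 1) := by
    intro u
    rw [f.pi_apply_eq_sum_univ u]
    refine Finset.sum_congr rfl fun j _ => ?_
    rw [smul_eq_mul]
    congr 2
    funext i
    simp [Pi.single_apply, eq_comm]
  refine ⟨fun j => f (Pi.single j 1), ?_, fun u hu => ?_⟩
  · intro hv
    apply hf0
    ext u
    have : ∀ j, f (Pi.single j 1) = 0 := fun j => congrFun hv j
    simp [this]
  · rw [← hsum u]
    exact hfU hu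

theorem mla_totalDegree_det_le {S κ m : Type*} [CommRing S] [Fintype m] [DecidableEq m]
    (M : Matrix m m (MvPolynomial κ S)) (d : ℕ) (hM : ∀ i j, (M i j).totalDegree ≤ d) :
    M.det.totalDegree ≤ Fintype.card m * d := by
  rw [Matrix.det_apply]
  apply totalDegree_finsetSum_le
  intro σ _
  refine (totalDegree_smul_le _ _).trans ?_
  refine (totalDegree_finsetProd _ _).trans ?_
  calc ∑ i, (M (σ i) i).totalDegree ≤ ∑ _i : m, d := Finset.sum_le_sum fun i _ => hM _ _
    _ = Fintype.card m * d := by simp

/-- rank test by minors -/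
theorem mla_rank_test {κ ι : Type*} [Fintype ι] (A : Finset (ι → MvPolynomial κ ℂ)) (L r : ℕ)
    (hA : ∀ a ∈ A, ∀ i, (a i).totalDegree ≤ L) :
    ∃ 𝒢 : Finset (MvPolynomial κ ℂ), (∀ G ∈ 𝒢, G.totalDegree ≤ r * L) ∧
      ∀ z : κ → ℂ, (∃ G ∈ 𝒢, eval z G ≠ 0) ↔
        r ≤ finrank ℂ (Submodule.span ℂ ((fun a i => eval z (a i)) '' (A : Set (ι → MvPolynomial κ ℂ)))) := by
  classical
  let minor : ((Fin r → {a // a ∈ A}) × (Fin r → ι)) → MvPolynomial κ ℂ :=
    fun p => (Matrix.of fun i j => (p.1 i).1 (p.2 j)).det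
  refine ⟨Finset.univ.image minor, ?_, ?_⟩
  · intro G hG
    obtain ⟨p, -, rfl⟩ := Finset.mem_image.1 hG
    have := mla_totalDegree_det_le (Matrix.of fun i j => (p.1 i).1 (p.2 j)) L
      (fun i j => hA _ (p.1 i).2 _)
    simpa using this
  · intro z
    have hev : ∀ p, eval z (minor p) = (Matrix.of fun i j => eval z ((p.1 i).1 (p.2 j))).det := by
      intro p
      show eval z (Matrix.det _) = _
      rw [RingHom.map_det]
      rfl
    constructor
    · rintro ⟨G, hG, hne⟩
      obtain ⟨p, -, rfl⟩ := Finset.mem_image.1 hG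
      rw [hev] at hne
      exact mla_rank_of_minor (fun (a : ι → MvPolynomial κ ℂ) i => eval z (a i))
        (A : Set (ι → MvPolynomial κ ℂ)) (fun i => (p.1 i).1) p.2 (fun i => (p.1 i).2) hne
    · intro h
      obtain ⟨φ, c, hφ, hdet⟩ := mla_exists_minor (fun (a : ι → MvPolynomial κ ℂ) i => eval z (a i))
        (A : Set (ι → MvPolynomial κ ℂ)) h
      refine ⟨minor (fun i => ⟨φ i, hφ i⟩, c), Finset.mem_image_of_mem _ (Finset.mem_univ _), ?_⟩
      rw [hev]
      exact hdet

end Claimed.Agent.R273
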