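import Claimed.Agent.R273.ScoDefs
import Claimed.Agent.R273.GeoDefs
import Claimed.Agent.R273.MinorLA

/-!
# Row 273, SPARSE, unit SCO, LEAF SCO-TEST (sc:outer-regularity [R3, R4]): tangent and label tests at actual pairs.   helper70.   Prefix `sctest`.

`sctest_main` = `ScoTestStmt d` with `j`, the plateau and the secant statement as explicit hypotheses (`ScoReg.lean: sco_test` is the instance `j = scoJ d b`).

* linear algebra: `sctestPerp S` = orthogonal complement for the dot product, `sctestRows A v` = the rows `(a·v) a' - (a'·v) a`; `(Rows)^⊥ = A^⊥ + ℂ v` if `v ∉ A^⊥`; `sctest_rank_le`, `sctest_rank_ge`;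
* tangent spaces: `scoT F x = (∇F(x))^⊥` at zeros of `F`; `sctest_tan_le`, `sctest_tan_eq`;
* test polynomials in `(x,y)`: `sctestSrc f = ∇f(x)·(y-x)`, `sctestTgt f = ∇f(y)·(y-x)`, `sctestVec F` (vectors of the inequality test), degrees;
* `SctestPair` = what is used of a retained carrier pair; `sctest_generic`: the general pair of the product; the four systems do not vanish identically on the product;
* `sctest_good_of_tests`: meaning at an actual pair;  `sctest_main`: four applications of `SpProdStmt` at the time `(t+1)/2`.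
-/

set_option autoImplicit false

namespace Claimed.Agent.R273

open MvPolynomial Module

/-! ### linear algebra: orthogonal complements for the dot product -/

section LA

variable {ι : Type*} [Fintype ι]

/-- orthogonal complement of a set of vectors for the dot product -/
def sctestPerp (S : Set (ι → ℂ)) : Submodule ℂ (ι → ℂ) where
  carrier := {v | ∀ a ∈ S, ∑ i, a i * v i = 0}
  add_mem' := by
    intro u v hu hv a ha
    have h1 := hu a ha
    have h2 := hv a ha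
    simp only [Pi.add_apply, mul_add, Finset.sum_add_distrib]
    rw [h1, h2, add_zero]
  zero_mem' := by
    intro a _
    simp
  smul_mem' := by
    intro c v hv a ha
    have h1 := hv a ha
    have : ∑ i, a i * (c • v) i = c * ∑ i, a i * v i := by
      rw [Finset.mul_sum]
      exact Finset.sum_congr rfl fun i _ => by simp only [Pi.smul_apply, smul_eq_mul]; ring
    rw [this, h1, mul_zero]

theorem sctest_mem_perp (S : Set (ι → ℂ)) (v : ι → ℂ) :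
    v ∈ sctestPerp S ↔ ∀ a ∈ S, ∑ i, a i * v i = 0 := Iff.rfl

theorem sctest_perp_finrank (S : Set (ι → ℂ)) :
    finrank ℂ (sctestPerp S) + finrank ℂ (Submodule.span ℂ S) = Fintype.card ι :=
  ph_finrank_orth S _ fun _ => Iff.rfl

theorem sctest_perp_union (S S' : Set (ι → ℂ)) : sctestPerp (S ∪ S') = sctestPerp S ⊓ sctestPerp S' := by
  ext v
  rw [Submodule.mem_inf, sctest_mem_perp, sctest_mem_perp, sctest_mem_perp]
  constructor
  · intro h
    exact ⟨fun a ha => h a (Or.inl ha), fun a ha => h a (Or.inr ha)⟩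
  · rintro ⟨h1, h2⟩ a (ha | ha)
    · exact h1 a ha
    · exact h2 a ha

/-- the rows `(a·v) a' - (a'·v) a` -/
def sctestRows (A : Set (ι → ℂ)) (v : ι → ℂ) : Set (ι → ℂ) :=
  {r | ∃ a ∈ A, ∃ a' ∈ A, r = (∑ i, a i * v i) • a' - (∑ i, a' i * v i) • a}

theorem sctest_rows_dot (a a' v w : ι → ℂ) :
    ∑ i, ((∑ i, a i * v i) • a' - (∑ i, a' i * v i) • a) i * w i =
      (∑ i, a i * v i) * (∑ i, a' i * w i) - (∑ i, a' i * v i) * (∑ i, a i * w i) := by
  simp only [Pi.sub_apply, Pi.smul_apply, smul_eq_mul, sub_mul, Finset.sum_sub_distrib,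
    Finset.mul_sum, mul_assoc]

theorem sctest_perp_rows_ge (A : Set (ι → ℂ)) (v : ι → ℂ) :
    sctestPerp A ⊔ Submodule.span ℂ {v} ≤ sctestPerp (sctestRows A v) := by
  refine sup_le ?_ ?_
  · rintro w hw _ ⟨a, ha, a', ha', rfl⟩
    rw [sctest_rows_dot, hw a ha, hw a' ha', mul_zero, mul_zero, sub_zero]
  · rw [Submodule.span_singleton_le_iff_mem]
    rintro _ ⟨a, ha, a', ha', rfl⟩
    rw [sctest_rows_dot]
    ring

theorem sctest_perp_rows_le (A : Set (ι → ℂ)) (v : ι → ℂ) (hv : v ∉ sctestPerp A) :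
    sctestPerp (sctestRows A v) ≤ sctestPerp A ⊔ Submodule.span ℂ {v} := by
  rw [sctest_mem_perp] at hv
  push Not at hv
  obtain ⟨a₀, ha₀, hne⟩ := hv
  intro w hw
  set c : ℂ := (∑ i, a₀ i * w i) / (∑ i, a₀ i * v i) with hc
  have h1 : w - c • v ∈ sctestPerp A := by
    intro a' ha'
    have h2 := hw _ ⟨a₀, ha₀, a', ha', rfl⟩
    rw [sctest_rows_dot] at h2
    have h3 : ∑ i, a' i * (w - c • v) i = (∑ i, a' i * w i) - c * ∑ i, a' i * v i := by
      simp only [Pi.sub_apply, Pi.smul_apply, smul_eq_mul, mul_sub, Finset.sum_sub_distrib,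
        Finset.mul_sum]
      congr 1
      exact Finset.sum_congr rfl fun i _ => by ring
    rw [h3, hc]
    field_simp
    linear_combination h2
  have h4 : w = (w - c • v) + c • v := by abel
  rw [h4]
  exact Submodule.add_mem_sup h1 (Submodule.smul_mem _ _ (Submodule.mem_span_singleton_self v))

theorem sctest_finrank_sup_le (T : Submodule ℂ (ι → ℂ)) (v : ι → ℂ) :
    finrank ℂ (T ⊔ Submodule.span ℂ {v} : Submodule ℂ (ι → ℂ)) ≤ finrank ℂ T + 1 := by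
  refine (Submodule.finrank_add_le_finrank_add_finrank _ _).trans ?_
  have := finrank_span_le_card (R := ℂ) ({v} : Set (ι → ℂ))
  simp only [Set.toFinset_singleton, Finset.card_singleton] at this
  omega

theorem sctest_finrank_sup_ge (T : Submodule ℂ (ι → ℂ)) (v : ι → ℂ) (hv : v ∉ T) :
    finrank ℂ T + 1 ≤ finrank ℂ (T ⊔ Submodule.span ℂ {v} : Submodule ℂ (ι → ℂ)) := by
  have hlt : T < T ⊔ Submodule.span ℂ {v} := by
    refine lt_of_le_of_ne le_sup_left fun h => hv ?_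
    rw [h]
    exact Submodule.mem_sup_right (Submodule.mem_span_singleton_self v)
  exact Submodule.finrank_lt_finrank_of_lt hlt

/-- VANISHING: equal projected spaces force rank `≤ j`. -/
theorem sctest_rank_le (A B : Set (ι → ℂ)) (v : ι → ℂ) (j : ℕ)
    (heq : sctestPerp A ⊔ Submodule.span ℂ {v} = sctestPerp B ⊔ Submodule.span ℂ {v})
    (hB : Fintype.card ι ≤ finrank ℂ (sctestPerp B) + j) :
    finrank ℂ (Submodule.span ℂ (B ∪ sctestRows A v)) ≤ j := by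
  have h1 := sctest_perp_finrank (B ∪ sctestRows A v)
  have h2 : sctestPerp B ≤ sctestPerp (B ∪ sctestRows A v) := by
    rw [sctest_perp_union]
    refine le_inf le_rfl ?_
    refine le_trans ?_ (sctest_perp_rows_ge A v)
    rw [heq]
    exact le_sup_left
  have h3 := Submodule.finrank_mono h2
  omega

/-- NON-VANISHING: unequal projected spaces of the same dimension force rank `≥ j + 1`. -/
theorem sctest_rank_ge (A B : Set (ι → ℂ)) (v : ι → ℂ) (j k : ℕ) (hjk : j + k = Fintype.card ι)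
    (hA : finrank ℂ (sctestPerp A) ≤ k) (hB : finrank ℂ (sctestPerp B) = k)
    (hvA : v ∉ sctestPerp A) (hvB : v ∉ sctestPerp B)
    (hne : sctestPerp A ⊔ Submodule.span ℂ {v} ≠ sctestPerp B ⊔ Submodule.span ℂ {v}) :
    j + 1 ≤ finrank ℂ (Submodule.span ℂ (B ∪ sctestRows A v)) := by
  by_contra hcon
  push Not at hcon
  apply hne
  have h1 := sctest_perp_finrank (B ∪ sctestRows A v)
  have h2 : sctestPerp (B ∪ sctestRows A v) ≤ sctestPerp B := by
    rw [sctest_perp_union]; exact inf_le_left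
  have h3 : sctestPerp (B ∪ sctestRows A v) = sctestPerp B :=
    Submodule.eq_of_le_of_finrank_le h2 (by omega)
  have h4 : sctestPerp B ≤ sctestPerp A ⊔ Submodule.span ℂ {v} := by
    rw [← h3, sctest_perp_union]
    exact inf_le_right.trans (sctest_perp_rows_le A v hvA)
  have h5 : sctestPerp B ⊔ Submodule.span ℂ {v} ≤ sctestPerp A ⊔ Submodule.span ℂ {v} :=
    sup_le h4 le_sup_right
  have h6 := sctest_finrank_sup_ge _ v hvB
  have h7 := sctest_finrank_sup_le (sctestPerp A) v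
  exact (Submodule.eq_of_le_of_finrank_le h5 (by omega)).symm

end LA


variable {d : ℕ}

/-! ### tangent spaces -/

theorem sctest_dAt (f : PrfPol d) (x v : SpC d) : dAt f x v = ∑ i, prfGrad f x i * v i := by
  unfold dAt prfGrad
  simp only [aeval_eq_eval]

/-- at a zero of the system the tangent space is the orthogonal complement of the gradients -/
theorem sctest_tan_perp (F : Set (PrfPol d)) (x : SpC d) (hx : ∀ f ∈ F, eval x f = 0) :
    scoT F x = sctestPerp ((fun f => prfGrad f x) '' F) := by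
  ext v
  rw [ph_mem_tanSp_span F x (fun g hg => by rw [aeval_eq_eval]; exact hx g hg) v, sctest_mem_perp]
  constructor
  · rintro h _ ⟨f, hf, rfl⟩
    rw [← sctest_dAt]
    exact h f hf
  · intro h f hf
    rw [sctest_dAt]
    exact h _ ⟨f, hf, rfl⟩

theorem sctest_tan_le (F : Set (PrfPol d)) (x : SpC d) (j : ℕ) (h : j ≤ prfJacRk F x) :
    finrank ℂ (scoT F x) + j ≤ d := by
  have h1 := ph_tanSp_finrank (Ideal.span F) x
  rw [Fintype.card_fin] at h1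
  have key : ∀ n : ℕ, finrank ℂ (scoT F x) + n = d → prfJacRk F x ≤ n →
      finrank ℂ (scoT F x) + j ≤ d := by
    intro n h2 h3
    omega
  refine key _ h1 ?_
  unfold prfJacRk
  refine Submodule.finrank_mono (Submodule.span_mono ?_)
  rintro _ ⟨f, hf, rfl⟩
  refine ⟨f, Ideal.subset_span hf, ?_⟩
  funext i
  simp only [aeval_eq_eval]
  rfl

theorem sctest_tan_mono (𝔭 : Ideal (PrfPol d)) (F : Set (PrfPol d)) (hF : ∀ f ∈ F, f ∈ 𝔭) (x : SpC d) :
    tanSp 𝔭 x ≤ scoT F x := by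
  intro v hv f hf
  exact hv f (Ideal.span_le.mpr hF hf)

theorem sctest_tan_eq (𝔭 : Ideal (PrfPol d)) (h𝔭 : 𝔭.IsPrime) (F : Set (PrfPol d))
    (hF : ∀ f ∈ F, f ∈ 𝔭) (x : SpC d) (hx : x ∈ spZ 𝔭) (hrk : finrank ℂ (scoT F x) ≤ vdim (spZ 𝔭)) :
    scoT F x = tanSp 𝔭 x ∧ finrank ℂ (scoT F x) = vdim (spZ 𝔭) := by
  have h1 := sctest_tan_mono 𝔭 F hF x
  have h2 := ph_tan_ge 𝔭 h𝔭 x hx
  have h3 : tanSp 𝔭 x = scoT F x := Submodule.eq_of_le_of_finrank_le h1 (hrk.trans h2)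
  refine ⟨h3.symm, le_antisymm hrk ?_⟩
  rw [← h3]
  exact h2

/-! ### the test polynomials in `(x,y)` -/

/-- `(x,y) ↦ ∇f(x)·(y-x)` -/
noncomputable def sctestSrc (f : PrfPol d) : SpLPol d :=
  ∑ i, rename Sum.inl (pderiv i f) * (X (Sum.inr i) - X (Sum.inl i))

/-- `(x,y) ↦ ∇f(y)·(y-x)` -/
noncomputable def sctestTgt (f : PrfPol d) : SpLPol d :=
  ∑ i, rename Sum.inr (pderiv i f) * (X (Sum.inr i) - X (Sum.inl i))

theorem sctest_eval_inl (f : PrfPol d) (x y : SpC d) :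
    eval (Sum.elim x y) (rename Sum.inl f) = eval x f := by
  rw [eval_rename]; rfl

theorem sctest_eval_inr (f : PrfPol d) (x y : SpC d) :
    eval (Sum.elim x y) (rename Sum.inr f) = eval y f := by
  rw [eval_rename]; rfl

theorem sctest_eval_src (f : PrfPol d) (x y : SpC d) :
    eval (Sum.elim x y) (sctestSrc f) = ∑ i, prfGrad f x i * (y - x) i := by
  unfold sctestSrc prfGrad
  rw [map_sum]
  refine Finset.sum_congr rfl fun i _ => ?_
  rw [map_mul, sctest_eval_inl, map_sub, eval_X, eval_X]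
  rfl

theorem sctest_eval_tgt (f : PrfPol d) (x y : SpC d) :
    eval (Sum.elim x y) (sctestTgt f) = ∑ i, prfGrad f y i * (y - x) i := by
  unfold sctestTgt prfGrad
  rw [map_sum]
  refine Finset.sum_congr rfl fun i _ => ?_
  rw [map_mul, sctest_eval_inr, map_sub, eval_X, eval_X]
  rfl

theorem sctest_pderiv_degree (p : PrfPol d) (i : Fin d) (h : pderiv i p ≠ 0) :
    (pderiv i p).totalDegree + 1 ≤ p.totalDegree := by
  have hne : (pderiv i p).support.Nonempty := support_nonempty.mpr h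
  obtain ⟨m, hm, hdeg⟩ := Finset.exists_mem_eq_sup _ hne (fun s => s.sum fun _ e => e)
  have h0 : (pderiv i p).totalDegree = m.sum fun _ e => e := hdeg
  rw [MvPolynomial.mem_support_iff, coeff_pderiv] at hm
  have h1 : m + Finsupp.single i 1 ∈ p.support := by
    rw [MvPolynomial.mem_support_iff]
    intro h0
    apply hm
    rw [h0, zero_mul]
  have h2 := MvPolynomial.le_totalDegree h1
  rw [Finsupp.sum_add_index' (fun _ => rfl) (fun _ _ _ => rfl), Finsupp.sum_single_index rfl] at h2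
  omega

theorem sctest_term_degree (e : Fin d → Fin d ⊕ Fin d) (p : PrfPol d) (i : Fin d) :
    (rename e (pderiv i p) * (X (Sum.inr i) - X (Sum.inl i)) : SpLPol d).totalDegree
      ≤ p.totalDegree := by
  by_cases h : pderiv i p = 0
  · rw [h, map_zero, zero_mul, totalDegree_zero]; exact Nat.zero_le _
  · refine (totalDegree_mul _ _).trans ?_
    have h1 := totalDegree_rename_le e (pderiv i p)
    have h2 : ((X (Sum.inr i) - X (Sum.inl i) : SpLPol d)).totalDegree ≤ 1 := by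
      refine (totalDegree_sub _ _).trans (max_le ?_ ?_) <;> exact (totalDegree_X _).le
    have h3 := sctest_pderiv_degree p i h
    omega

theorem sctest_src_degree (f : PrfPol d) : (sctestSrc f).totalDegree ≤ f.totalDegree :=
  totalDegree_finsetSum_le fun i _ => sctest_term_degree _ f i

theorem sctest_tgt_degree (f : PrfPol d) : (sctestTgt f).totalDegree ≤ f.totalDegree :=
  totalDegree_finsetSum_le fun i _ => sctest_term_degree _ f i


/-! ### retained carrier pairs: the general pair -/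

/-- what the tests use of a retained carrier pair -/
structure SctestPair (F : Set (PrfPol d)) (gp : PrfPol d) (j : ℕ) (𝔵 𝔶 : Ideal (PrfPol d)) : Prop where
  px : 𝔵.IsPrime
  py : 𝔶.IsPrime
  Fx : ∀ f ∈ F, f ∈ 𝔵
  Fy : ∀ f ∈ F, f ∈ 𝔶
  rank : ∀ x, eval x gp ≠ 0 → j ≤ prfJacRk F x
  gx : ∃ x ∈ spZ 𝔵, eval x gp ≠ 0
  gy : ∃ y ∈ spZ 𝔶, eval y gp ≠ 0
  dx : vdim (spZ 𝔵) + j = d
  dy : vdim (spZ 𝔶) + j = d
  tr : SpTransv 𝔵 𝔶

theorem sctest_zero_of_mem {F : Set (PrfPol d)} {𝔭 : Ideal (PrfPol d)} (hF : ∀ f ∈ F, f ∈ 𝔭)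
    {x : SpC d} (hx : x ∈ spZ 𝔭) : ∀ f ∈ F, eval x f = 0 :=
  fun f hf => (ph_mem_zeroLocus 𝔭 x).mp hx f (hF f hf)

theorem sctest_generic {F : Set (PrfPol d)} {gp : PrfPol d} {j : ℕ} {𝔵 𝔶 : Ideal (PrfPol d)}
    (h : SctestPair F gp j 𝔵 𝔶) :
    ∃ H : SpLPol d, (∃ z ∈ prodSet (spZ 𝔵) (spZ 𝔶), eval z H ≠ 0) ∧
      ∀ x ∈ spZ 𝔵, ∀ y ∈ spZ 𝔶, eval (Sum.elim x y) H ≠ 0 →
        scoT F x = tanSp 𝔵 x ∧ scoT F y = tanSp 𝔶 y ∧ finrank ℂ (scoT F x) + j = d ∧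
        finrank ℂ (scoT F y) + j = d ∧ y - x ∉ scoT F x ∧ y - x ∉ scoT F y := by
  obtain ⟨x₁, hx₁, y₁, hy₁, h1, h2⟩ := h.tr
  obtain ⟨f₀, hf₀, hne₀⟩ : ∃ f ∈ 𝔵, dAt f x₁ (y₁ - x₁) ≠ 0 := by
    by_contra hc
    push Not at hc
    exact h1 hc
  obtain ⟨f₁, hf₁, hne₁⟩ : ∃ f ∈ 𝔶, dAt f y₁ (y₁ - x₁) ≠ 0 := by
    by_contra hc
    push Not at hc
    exact h2 hc
  obtain ⟨x₀, hx₀, hgx⟩ := h.gx
  obtain ⟨y₀, hy₀, hgy⟩ := h.gy
  have hV : IsVar (prodSet (spZ 𝔵) (spZ 𝔶)) := ph_prod_isVar ⟨𝔵, h.px, rfl⟩ ⟨𝔶, h.py, rfl⟩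
  refine ⟨(rename Sum.inl gp * rename Sum.inr gp) * (sctestSrc f₀ * sctestTgt f₁), ?_, ?_⟩
  · by_contra hc
    push Not at hc
    rcases ph_isVar_mul hV _ _ hc with h3 | h3
    · rcases ph_isVar_mul hV _ _ h3 with h4 | h4
      · have := h4 (Sum.elim x₀ y₀) ⟨hx₀, hy₀⟩
        rw [sctest_eval_inl] at this
        exact hgx this
      · have := h4 (Sum.elim x₀ y₀) ⟨hx₀, hy₀⟩
        rw [sctest_eval_inr] at this
        exact hgy this
    · rcases ph_isVar_mul hV _ _ h3 with h4 | h4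
      · have := h4 (Sum.elim x₁ y₁) ⟨hx₁, hy₁⟩
        rw [sctest_eval_src, ← sctest_dAt] at this
        exact hne₀ this
      · have := h4 (Sum.elim x₁ y₁) ⟨hx₁, hy₁⟩
        rw [sctest_eval_tgt, ← sctest_dAt] at this
        exact hne₁ this
  · intro x hx y hy hne
    rw [map_mul, map_mul, map_mul, sctest_eval_inl, sctest_eval_inr, sctest_eval_src, sctest_eval_tgt,
      ← sctest_dAt, ← sctest_dAt] at hne
    have hg1 : eval x gp ≠ 0 := fun h0 => hne (by rw [h0]; ring)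
    have hg2 : eval y gp ≠ 0 := fun h0 => hne (by rw [h0]; ring)
    have hs : dAt f₀ x (y - x) ≠ 0 := fun h0 => hne (by rw [h0]; ring)
    have ht : dAt f₁ y (y - x) ≠ 0 := fun h0 => hne (by rw [h0]; ring)
    have e1 := sctest_tan_le F x j (h.rank x hg1)
    have e2 := sctest_tan_le F y j (h.rank y hg2)
    have hdx := h.dx
    have hdy := h.dy
    obtain ⟨a1, a2⟩ := sctest_tan_eq 𝔵 h.px F h.Fx x hx (by omega)
    obtain ⟨b1, b2⟩ := sctest_tan_eq 𝔶 h.py F h.Fy y hy (by omega)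
    refine ⟨a1, b1, by omega, by omega, ?_, ?_⟩
    · rw [a1]
      exact fun hm => hs (hm f₀ hf₀)
    · rw [b1]
      exact fun hm => ht (hm f₁ hf₁)

theorem sctest_src_nonvan {F : Set (PrfPol d)} {gp : PrfPol d} {j : ℕ} {𝔵 𝔶 : Ideal (PrfPol d)}
    (h : SctestPair F gp j 𝔵 𝔶) : ∃ f ∈ F, ¬ PrfVanProd (sctestSrc f) 𝔵 𝔶 := by
  obtain ⟨H, ⟨z, hz, hne⟩, hH⟩ := sctest_generic h
  obtain ⟨x, hx, y, hy, rfl⟩ := ph_prodSet_elim hz
  obtain ⟨-, -, -, -, h1, -⟩ := hH x hx y hy hne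
  rw [sctest_tan_perp F x (sctest_zero_of_mem h.Fx hx), sctest_mem_perp] at h1
  push Not at h1
  obtain ⟨_, ⟨f, hf, rfl⟩, h2⟩ := h1
  refine ⟨f, hf, fun hv => h2 ?_⟩
  rw [← sctest_eval_src]
  exact hv x hx y hy

theorem sctest_tgt_nonvan {F : Set (PrfPol d)} {gp : PrfPol d} {j : ℕ} {𝔵 𝔶 : Ideal (PrfPol d)}
    (h : SctestPair F gp j 𝔵 𝔶) : ∃ f ∈ F, ¬ PrfVanProd (sctestTgt f) 𝔵 𝔶 := by
  obtain ⟨H, ⟨z, hz, hne⟩, hH⟩ := sctest_generic h
  obtain ⟨x, hx, y, hy, rfl⟩ := ph_prodSet_elim hz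
  obtain ⟨-, -, -, -, -, h1⟩ := hH x hx y hy hne
  rw [sctest_tan_perp F y (sctest_zero_of_mem h.Fy hy), sctest_mem_perp] at h1
  push Not at h1
  obtain ⟨_, ⟨f, hf, rfl⟩, h2⟩ := h1
  refine ⟨f, hf, fun hv => h2 ?_⟩
  rw [← sctest_eval_tgt]
  exact hv x hx y hy


/-! ### the inequality test -/

open scoped Classical in
/-- the polynomial vectors of the inequality test: `∇f(y)` and `(∇f(x)·v)∇f'(x) - (∇f'(x)·v)∇f(x)` -/
noncomputable def sctestVec (F : Finset (PrfPol d)) : Finset (Fin d → SpLPol d) :=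
  (F.image fun f i => rename Sum.inr (pderiv i f)) ∪
    ((F ×ˢ F).image fun ff i => sctestSrc ff.1 * rename Sum.inl (pderiv i ff.2) -
      sctestSrc ff.2 * rename Sum.inl (pderiv i ff.1))

theorem sctest_vec_eval (F : Finset (PrfPol d)) (x y : SpC d) :
    (fun (a : Fin d → SpLPol d) i => eval (Sum.elim x y) (a i)) '' (sctestVec F : Set (Fin d → SpLPol d)) =
      ((fun f => prfGrad f y) '' (F : Set (PrfPol d))) ∪
        sctestRows ((fun f => prfGrad f x) '' (F : Set (PrfPol d))) (y - x) := by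
  classical
  ext w
  constructor
  · rintro ⟨a, ha, rfl⟩
    rw [Finset.mem_coe, sctestVec, Finset.mem_union, Finset.mem_image, Finset.mem_image] at ha
    rcases ha with ⟨f, hf, rfl⟩ | ⟨ff, hff, rfl⟩
    · left
      refine ⟨f, hf, ?_⟩
      funext i
      beta_reduce
      rw [sctest_eval_inr]
      rfl
    · right
      rw [Finset.mem_product] at hff
      refine ⟨_, ⟨ff.1, hff.1, rfl⟩, _, ⟨ff.2, hff.2, rfl⟩, ?_⟩
      funext i
      beta_reduce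
      rw [map_sub, map_mul, map_mul, sctest_eval_src, sctest_eval_src, sctest_eval_inl, sctest_eval_inl]
      rfl
  · rintro (⟨f, hf, rfl⟩ | ⟨_, ⟨f, hf, rfl⟩, _, ⟨f', hf', rfl⟩, rfl⟩)
    · refine ⟨fun i => rename Sum.inr (pderiv i f), ?_, ?_⟩
      · rw [Finset.mem_coe, sctestVec, Finset.mem_union]
        exact Or.inl (Finset.mem_image.mpr ⟨f, hf, rfl⟩)
      · funext i
        beta_reduce
        rw [sctest_eval_inr]
        rfl
    · refine ⟨fun i => sctestSrc f * rename Sum.inl (pderiv i f') -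
        sctestSrc f' * rename Sum.inl (pderiv i f), ?_, ?_⟩
      · rw [Finset.mem_coe, sctestVec, Finset.mem_union]
        exact Or.inr (Finset.mem_image.mpr ⟨(f, f'), Finset.mem_product.mpr ⟨hf, hf'⟩, rfl⟩)
      · funext i
        beta_reduce
        rw [map_sub, map_mul, map_mul, sctest_eval_src, sctest_eval_src, sctest_eval_inl, sctest_eval_inl]
        rfl

theorem sctest_pderiv_degree_le (p : PrfPol d) (i : Fin d) :
    (pderiv i p).totalDegree ≤ p.totalDegree := by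
  by_cases h : pderiv i p = 0
  · rw [h, totalDegree_zero]; exact Nat.zero_le _
  · have := sctest_pderiv_degree p i h
    omega

theorem sctest_vec_degree (F : Finset (PrfPol d)) (L : ℕ) (hF : ∀ f ∈ F, f.totalDegree ≤ L) :
    ∀ a ∈ sctestVec F, ∀ i, (a i).totalDegree ≤ 2 * L := by
  classical
  intro a ha i
  rw [sctestVec, Finset.mem_union, Finset.mem_image, Finset.mem_image] at ha
  rcases ha with ⟨f, hf, rfl⟩ | ⟨ff, hff, rfl⟩
  · have h1 := totalDegree_rename_le (Sum.inr : Fin d → Fin d ⊕ Fin d) (pderiv i f)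
    have h2 := sctest_pderiv_degree_le f i
    have h3 := hF f hf
    show (rename Sum.inr (pderiv i f)).totalDegree ≤ 2 * L
    omega
  · rw [Finset.mem_product] at hff
    have key : ∀ f ∈ F, ∀ f' ∈ F, (sctestSrc f * rename Sum.inl (pderiv i f')).totalDegree ≤ 2 * L := by
      intro f hf f' hf'
      refine (totalDegree_mul _ _).trans ?_
      have h1 := totalDegree_rename_le (Sum.inl : Fin d → Fin d ⊕ Fin d) (pderiv i f')
      have h2 := sctest_pderiv_degree_le f' i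
      have h3 := hF f hf
      have h4 := hF f' hf'
      have h5 := sctest_src_degree f
      omega
    exact (totalDegree_sub _ _).trans (max_le (key _ hff.1 _ hff.2) (key _ hff.2 _ hff.1))

/-- the inequality system vanishes at a pair with equal projected tangent spaces -/
theorem sctest_neq_van (F : Finset (PrfPol d)) (x y : SpC d) (hx : ∀ f ∈ F, eval x f = 0)
    (hy : ∀ f ∈ F, eval y f = 0) (j : ℕ) (hdim : d ≤ finrank ℂ (scoT (F : Set (PrfPol d)) y) + j)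
    (heq : scoT (F : Set (PrfPol d)) x ⊔ Submodule.span ℂ {y - x} =
      scoT (F : Set (PrfPol d)) y ⊔ Submodule.span ℂ {y - x})
    (𝒢 : Finset (SpLPol d))
    (h𝒢 : ∀ z : Fin d ⊕ Fin d → ℂ, (∃ G ∈ 𝒢, eval z G ≠ 0) ↔ j + 1 ≤ finrank ℂ (Submodule.span ℂ
      ((fun (a : Fin d → SpLPol d) i => eval z (a i)) '' (sctestVec F : Set (Fin d → SpLPol d))))) :
    ∀ G ∈ 𝒢, eval (Sum.elim x y) G = 0 := by
  intro G hG
  by_contra hne
  have h1 := (h𝒢 (Sum.elim x y)).mp ⟨G, hG, hne⟩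
  rw [sctest_vec_eval] at h1
  rw [sctest_tan_perp _ x hx, sctest_tan_perp _ y hy] at heq
  rw [sctest_tan_perp _ y hy] at hdim
  have h2 := sctest_rank_le _ _ (y - x) j heq (by rw [Fintype.card_fin]; exact hdim)
  omega

/-- the inequality system does not vanish on a retained product whose source lies in no `(k+1)`-flat -/
theorem sctest_neq_nonvan
    (sec : ∀ (k : ℕ) (𝔵 𝔶 : Ideal (PrfPol d)), 𝔵.IsPrime → 𝔶.IsPrime → 1 ≤ k → vdim (spZ 𝔵) = k →
      vdim (spZ 𝔶) = k → SpTransv 𝔵 𝔶 →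
      GenOn (prodSet (spZ 𝔵) (spZ 𝔶)) (fun z =>
        tanSp 𝔵 (prL z) ⊔ Submodule.span ℂ {prR z - prL z} =
          tanSp 𝔶 (prR z) ⊔ Submodule.span ℂ {prR z - prL z}) →
      InFlat (spZ 𝔵) (k + 1) ∧ InFlat (spZ 𝔶) (k + 1))
    {F : Finset (PrfPol d)} {gp : PrfPol d} {j : ℕ} {𝔵 𝔶 : Ideal (PrfPol d)}
    (h : SctestPair (F : Set (PrfPol d)) gp j 𝔵 𝔶) (hk : 1 ≤ d - j)
    (hflat : ¬ InFlat (spZ 𝔵) (d - j + 1)) (𝒢 : Finset (SpLPol d))
    (h𝒢 : ∀ z : Fin d ⊕ Fin d → ℂ, (∃ G ∈ 𝒢, eval z G ≠ 0) ↔ j + 1 ≤ finrank ℂ (Submodule.span ℂ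
      ((fun (a : Fin d → SpLPol d) i => eval z (a i)) '' (sctestVec F : Set (Fin d → SpLPol d))))) :
    ∃ G ∈ 𝒢, ¬ PrfVanProd G 𝔵 𝔶 := by
  by_contra hc
  push Not at hc
  apply hflat
  have hdx := h.dx
  have hdy := h.dy
  refine (sec (d - j) 𝔵 𝔶 h.px h.py hk (by omega) (by omega) h.tr ?_).1
  obtain ⟨H, hH1, hH2⟩ := sctest_generic h
  refine ⟨H, hH1, fun z hz hne => ?_⟩
  obtain ⟨x, hx, y, hy, rfl⟩ := ph_prodSet_elim hz
  obtain ⟨a1, a2, a3, a4, a5, a6⟩ := hH2 x hx y hy hne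
  show tanSp 𝔵 x ⊔ Submodule.span ℂ {y - x} = tanSp 𝔶 y ⊔ Submodule.span ℂ {y - x}
  rw [← a1, ← a2]
  by_contra hne'
  have hx0 := sctest_zero_of_mem h.Fx hx
  have hy0 := sctest_zero_of_mem h.Fy hy
  rw [sctest_tan_perp _ x hx0] at a3 a5 hne'
  rw [sctest_tan_perp _ y hy0] at a4 a6 hne'
  have h1 := sctest_rank_ge _ _ (y - x) j (d - j) (by rw [Fintype.card_fin]; omega) (by omega)
    (by omega) a5 a6 hne'
  rw [← sctest_vec_eval] at h1
  obtain ⟨G, hG, hG'⟩ := (h𝒢 _).mpr h1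
  exact hG' (hc G hG x hx y hy)


/-! ### the label test -/

theorem sctest_uni (g : SpLPol d) (p v : SpC d) :
    ∃ P : Polynomial ℂ, ∀ T : ℂ, P.eval T = eval (Sum.elim p (T • v)) g := by
  induction g using MvPolynomial.induction_on with
  | C a => exact ⟨Polynomial.C a, fun T => by simp⟩
  | add f g hf hg =>
    obtain ⟨P, hP⟩ := hf
    obtain ⟨Q, hQ⟩ := hg
    exact ⟨P + Q, fun T => by simp [hP, hQ]⟩
  | mul_X f s hf =>
    obtain ⟨P, hP⟩ := hf
    cases s with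
    | inl i => exact ⟨P * Polynomial.C (p i), fun T => by simp [hP]⟩
    | inr i => exact ⟨P * (Polynomial.X * Polynomial.C (v i)), fun T => by
      simp only [Polynomial.eval_mul, Polynomial.eval_X, Polynomial.eval_C, hP, map_mul, eval_X,
        Sum.elim_inr, Pi.smul_apply, smul_eq_mul]⟩

theorem sctest_lam_ne (g : SpLPol d) (p v : SpC d) (h : ∃ lam : ℂ, eval (Sum.elim p (lam • v)) g ≠ 0) :
    ∃ lam : ℂ, lam ≠ 0 ∧ eval (Sum.elim p (lam • v)) g ≠ 0 := by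
  obtain ⟨P, hP⟩ := sctest_uni g p v
  obtain ⟨lam₀, h0⟩ := h
  by_contra hc
  push Not at hc
  have h1 : P * Polynomial.X = 0 := by
    apply Polynomial.funext
    intro T
    rw [Polynomial.eval_mul, Polynomial.eval_X, Polynomial.eval_zero]
    by_cases hT : T = 0
    · rw [hT, mul_zero]
    · rw [hP, hc T hT, zero_mul]
  have h2 : P = 0 := by
    rcases mul_eq_zero.mp h1 with h | h
    · exact h
    · exact absurd h Polynomial.X_ne_zero
  apply h0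
  rw [← hP, h2, Polynomial.eval_zero]

theorem sctest_lab_nonvan (g : SpLPol d) (r : Ideal (PrfPol d) × Ideal (PrfPol d))
    (h : ∃ w ∈ spImgP r, eval w g ≠ 0) : ∃ lam : ℂ, ¬ PrfVanProd (spPull lam g) r.1 r.2 := by
  obtain ⟨w, ⟨z, ⟨hz1, hz2⟩, lam, rfl⟩, hne⟩ := ph_exists_ne_of_zcl h
  refine ⟨lam, fun hv => hne ?_⟩
  rw [← sp_eval_pull]
  exact hv z.1 hz1 z.2 hz2

/-! ### from the retained products -/

theorem sctest_asg {X : SpPool d} {j : ℕ} {asg : SpC d → Ideal (PrfPol d)} (h : SpAsg X j asg)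
    {x : SpC d} (hx : x ∈ X.pts) : (asg x).IsPrime ∧ x ∈ spZ (asg x) ∧ asg x ∈ X.carriers j := by
  obtain ⟨a, ha, hxa⟩ := Finset.mem_biUnion.mp hx
  have h1 := h a ha x hxa
  exact ⟨h1.1.1.1, h1.2, ⟨a, ha, ⟨x, hxa, h1⟩⟩⟩

theorem sctest_pair_of_ok {D : SpData d} {X : SpPool d} {s : ℝ} {b : ℕ → ℝ} {j : ℕ} {τ ε η₀ : ℝ}
    {ρ : SpRet d} (hρ : ρ.Ok D X X s b j τ ε η₀) (r : Ideal (PrfPol d) × Ideal (PrfPol d))
    (hr : r ∈ ρ.R) : SctestPair (ρ.F : Set (PrfPol d)) ρ.g j r.1 r.2 := by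
  obtain ⟨⟨x₀, hx₀, hx₀r⟩, ⟨y₀, hy₀, hy₀r⟩⟩ := hρ.R_sub r hr
  obtain ⟨px, zx, cx⟩ := sctest_asg hρ.asg₁ (hρ.sub₁ hx₀)
  obtain ⟨py, zy, cy⟩ := sctest_asg hρ.asg₂ (hρ.sub₂ hy₀)
  rw [hx₀r] at px zx cx
  rw [hy₀r] at py zy cy
  have Fx : ∀ f ∈ (ρ.F : Set (PrfPol d)), f ∈ r.1 := fun f hf => hρ.F_van f hf _ (Or.inl cx)
  have Fy : ∀ f ∈ (ρ.F : Set (PrfPol d)), f ∈ r.2 := fun f hf => hρ.F_van f hf _ (Or.inl cy)
  have gx := hρ.g_ne₁ x₀ hx₀
  have gy := hρ.g_ne₂ y₀ hy₀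
  have e1 := sctest_tan_le _ x₀ j (hρ.g_rank x₀ gx)
  have e2 := sctest_tan_le _ y₀ j (hρ.g_rank y₀ gy)
  have e3 := Submodule.finrank_mono (sctest_tan_mono r.1 _ Fx x₀)
  have e4 := Submodule.finrank_mono (sctest_tan_mono r.2 _ Fy y₀)
  have e5 : vdim (spZ r.1) ≤ _ := ph_tan_ge r.1 px x₀ zx
  have e6 : vdim (spZ r.2) ≤ _ := ph_tan_ge r.2 py y₀ zy
  have e7 := hρ.dim r hr
  have e8 : vdim (spImgP r) ≤ vdim (spZ r.1) + vdim (spZ r.2) + 1 :=
    sp_img_vdim_le ⟨r.1, px, rfl⟩ ⟨r.2, py, rfl⟩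
  exact
    { px := px
      py := py
      Fx := Fx
      Fy := Fy
      rank := hρ.g_rank
      gx := ⟨x₀, zx, gx⟩
      gy := ⟨y₀, zy, gy⟩
      dx := by omega
      dy := by omega
      tr := hρ.transv r hr }


/-! ### meaning of the tests at an actual pair -/

theorem sctest_good_of_tests {F : Finset (PrfPol d)} {gp : PrfPol d} {j : ℕ}
    {𝔵 𝔶 : Ideal (PrfPol d)} (h : SctestPair (F : Set (PrfPol d)) gp j 𝔵 𝔶)
    (ℱ : Set (SpLPol d)) (g : SpLPol d)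
    (hg : ∀ w, eval w g ≠ 0 → finrank ℂ (scoT ℱ w) ≤ 2 * (d - j) + 1)
    (𝒢 : Finset (SpLPol d))
    (h𝒢 : ∀ z : Fin d ⊕ Fin d → ℂ, (∃ G ∈ 𝒢, eval z G ≠ 0) ↔ j + 1 ≤ finrank ℂ (Submodule.span ℂ
      ((fun (a : Fin d → SpLPol d) i => eval z (a i)) '' (sctestVec F : Set (Fin d → SpLPol d)))))
    (p q : SpC d) (hp : p ∈ spZ 𝔵) (hq : q ∈ spZ 𝔶) (hgp : eval p gp ≠ 0) (hgq : eval q gp ≠ 0)
    (t1 : ¬ ∀ lam : ℂ, eval (Sum.elim p q) (spPull lam g) = 0)
    (t2 : ¬ ∀ f ∈ F, eval (Sum.elim p q) (sctestSrc f) = 0)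
    (t3 : ¬ ∀ f ∈ F, eval (Sum.elim p q) (sctestTgt f) = 0)
    (t4 : ¬ (2 ≤ d - j ∧ ∀ G ∈ 𝒢, eval (Sum.elim p q) G = 0)) :
    ScoGood (F : Set (PrfPol d)) ℱ j p q := by
  have hp0 := sctest_zero_of_mem h.Fx hp
  have hq0 := sctest_zero_of_mem h.Fy hq
  have e1 := sctest_tan_le _ p j (h.rank p hgp)
  have e2 := sctest_tan_le _ q j (h.rank q hgq)
  refine ⟨by omega, by omega, ?_, ?_, ?_, ?_⟩
  · push Not at t1
    obtain ⟨lam₀, h0⟩ := t1
    rw [sp_eval_pull] at h0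
    obtain ⟨lam, hl, hne⟩ := sctest_lam_ne g p (q - p) ⟨lam₀, h0⟩
    exact ⟨lam, hl, hg _ hne⟩
  · intro hm
    apply t2
    intro f hf
    rw [sctest_tan_perp _ p hp0] at hm
    rw [sctest_eval_src]
    exact hm _ ⟨f, hf, rfl⟩
  · intro hm
    apply t3
    intro f hf
    rw [sctest_tan_perp _ q hq0] at hm
    rw [sctest_eval_tgt]
    exact hm _ ⟨f, hf, rfl⟩
  · intro hk heq
    apply t4
    refine ⟨hk, sctest_neq_van F p q hp0 hq0 j ?_ heq 𝒢 h𝒢⟩
    have e3 := Submodule.finrank_mono (sctest_tan_mono 𝔶 _ h.Fy q)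
    have e4 : vdim (spZ 𝔶) ≤ _ := ph_tan_ge 𝔶 h.py q hq
    have e5 := h.dy
    omega

/-! ### the count -/

theorem sctest_T_mono {B s u v : ℝ} (hB : 0 ≤ B) (hs : 0 ≤ s) (h : u ≤ v) :
    prfT B s u ≤ prfT B s v := by
  unfold prfT
  exact mul_le_mul_of_nonneg_left (Real.exp_le_exp.mpr (mul_le_mul_of_nonneg_right h hs)) hB

theorem sctest_T_gain {B s u v C : ℝ} (hB : 0 ≤ B) (h : C ≤ (v - u) * s) :
    C * prfT B s u ≤ prfT B s v := by
  unfold prfT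
  have h1 : Real.exp (v * s) = Real.exp ((v - u) * s) * Real.exp (u * s) := by
    rw [← Real.exp_add]; congr 1; ring
  have h2 : C ≤ Real.exp ((v - u) * s) := by
    have := Real.add_one_le_exp ((v - u) * s)
    linarith
  rw [h1]
  have h3 : 0 ≤ B * Real.exp (u * s) := mul_nonneg hB (Real.exp_pos _).le
  calc C * (B * Real.exp (u * s)) ≤ Real.exp ((v - u) * s) * (B * Real.exp (u * s)) :=
        mul_le_mul_of_nonneg_right h2 h3
    _ = B * (Real.exp ((v - u) * s) * Real.exp (u * s)) := by ring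

theorem sctest_main (prod : SpProdStmt d)
    (sec : ∀ (k : ℕ) (𝔵 𝔶 : Ideal (PrfPol d)), 𝔵.IsPrime → 𝔶.IsPrime → 1 ≤ k → vdim (spZ 𝔵) = k →
      vdim (spZ 𝔶) = k → SpTransv 𝔵 𝔶 →
      GenOn (prodSet (spZ 𝔵) (spZ 𝔶)) (fun z =>
        tanSp 𝔵 (prL z) ⊔ Submodule.span ℂ {prR z - prL z} =
          tanSp 𝔶 (prR z) ⊔ Submodule.span ℂ {prR z - prL z}) →
      InFlat (spZ 𝔵) (k + 1) ∧ InFlat (spZ 𝔶) (k + 1))
    (b : ℕ → ℝ) (hb : SpAdm d b) (j : ℕ) (τ t : ℝ) (hτ : τ < t) (ht : t < 1)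
    (hplat : SpPlat d b j ((t + 1) / 2)) (η : ℝ) (hη : 0 < η) :
    ∃ θ : ℝ, 0 < θ ∧ ∀ (D : SpData d) (X : SpPool d), SpTwo D X X (Real.log D.B) θ b →
      ∀ (ε η₀ : ℝ) (ρ : SpRet d), ρ.Ok D X X (Real.log D.B) b j τ ε η₀ →
        (2 ≤ d - j → ∀ x ∈ ρ.S₁, ¬ InFlat (spZ (ρ.asg₁ x)) (d - j + 1)) →
        ∀ (ℱ : Finset (SpLPol d)) (g : SpLPol d)
          (R' : Finset (Ideal (PrfPol d) × Ideal (PrfPol d))), R' ⊆ ρ.R →
          (g.totalDegree : ℝ) ≤ prfT D.B (Real.log D.B) t →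
          (∀ r ∈ R', ∃ w ∈ spImgP r, eval w g ≠ 0) →
          (∀ w, eval w g ≠ 0 → finrank ℂ (scoT (ℱ : Set (SpLPol d)) w) ≤ 2 * (d - j) + 1) →
          ∀ Λ ⊆ ρ.S₁ ×ˢ ρ.S₂, (∀ z ∈ Λ, (ρ.asg₁ z.1, ρ.asg₂ z.2) ∈ R' ∧
            ¬ ScoGood (ρ.F : Set (PrfPol d)) (ℱ : Set (SpLPol d)) j z.1 z.2) →
            (Λ.card : ℝ) ≤ η * (X.pts.card : ℝ) ^ 2 := by
  classical
  set t' : ℝ := (t + 1) / 2 with ht'
  obtain ⟨θ₁, hθ₁, H⟩ := prod b hb (η / 4) (by positivity) j t' hplat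
  have hgap : 0 < t' - τ := by rw [ht']; linarith
  set θ₂ : ℝ := (t' - τ) / (2 * (d + 1)) with hθ₂
  have hθ₂pos : 0 < θ₂ := by rw [hθ₂]; positivity
  refine ⟨min θ₁ θ₂, lt_min hθ₁ hθ₂pos, ?_⟩
  intro D X htwo ε η₀ ρ hρ hflat ℱ g R' hR' hgdeg hgne hgrk Λ hΛ hbad
  set s : ℝ := Real.log D.B with hs
  have hθpos : 0 < min θ₁ θ₂ := lt_min hθ₁ hθ₂pos
  have htwo₁ : SpTwo D X X s θ₁ b := htwo.mono hθpos (min_le_left _ _)
  have hs1 : 1 / θ₂ ≤ s :=
    (one_div_le_one_div_of_le hθpos (min_le_right _ _)).trans htwo.okX.s_ge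
  have hs0 : 0 ≤ s := le_trans (by positivity) hs1
  have hB : 0 ≤ D.B := Real.rpow_nonneg (Nat.cast_nonneg _) _
  have hgain : (2 * (d + 1) : ℝ) * prfT D.B s τ ≤ prfT D.B s t' := by
    apply sctest_T_gain hB
    have h1 : (t' - τ) * (1 / θ₂) = 2 * (d + 1) := by
      rw [hθ₂]; field_simp
    rw [← h1]
    exact mul_le_mul_of_nonneg_left hs1 hgap.le
  have hT0 : 0 ≤ prfT D.B s τ := mul_nonneg hB (Real.exp_pos _).le
  have hτt' : prfT D.B s τ ≤ prfT D.B s t' := sctest_T_mono hB hs0 (by linarith)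
  have htt' : prfT D.B s t ≤ prfT D.B s t' := sctest_T_mono hB hs0 (by rw [ht']; linarith)
  set n : ℝ := (X.pts.card : ℝ) with hn
  -- product testing
  have key : ∀ 𝒢 : Set (SpLPol d), (∀ G ∈ 𝒢, (G.totalDegree : ℝ) ≤ prfT D.B s t') →
      ∀ Γ ⊆ Λ, (∀ z ∈ Γ, (∀ G ∈ 𝒢, eval (Sum.elim z.1 z.2) G = 0) ∧
        ∃ G ∈ 𝒢, ¬ PrfVanProd G (ρ.asg₁ z.1) (ρ.asg₂ z.2)) → (Γ.card : ℝ) ≤ η / 4 * n * n := by
    intro 𝒢 hdeg Γ hΓ hz
    refine H D X X s htwo₁ ρ.asg₁ ρ.asg₂ hρ.asg₁ hρ.asg₂ 𝒢 hdeg Γ ?_ hz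
    exact (hΓ.trans hΛ).trans (Finset.product_subset_product hρ.sub₁ hρ.sub₂)
  -- the inequality system
  set L : ℕ := ⌊prfT D.B s τ⌋₊ with hL
  have hFL : ∀ f ∈ ρ.F, f.totalDegree ≤ L := fun f hf => Nat.le_floor (hρ.F_deg f hf)
  obtain ⟨𝒢, h𝒢deg, h𝒢⟩ := mla_rank_test (sctestVec ρ.F) (2 * L) (j + 1) (sctest_vec_degree ρ.F L hFL)
  have hpair : ∀ z ∈ Λ, SctestPair (ρ.F : Set (PrfPol d)) ρ.g j (ρ.asg₁ z.1) (ρ.asg₂ z.2) :=
    fun z hz => sctest_pair_of_ok hρ _ (hR' (hbad z hz).1)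
  set Λ₁ := Λ.filter fun z => ∀ lam : ℂ, eval (Sum.elim z.1 z.2) (spPull lam g) = 0 with hΛ₁
  set Λ₂ := Λ.filter fun z => ∀ f ∈ ρ.F, eval (Sum.elim z.1 z.2) (sctestSrc f) = 0 with hΛ₂
  set Λ₃ := Λ.filter fun z => ∀ f ∈ ρ.F, eval (Sum.elim z.1 z.2) (sctestTgt f) = 0 with hΛ₃
  set Λ₄ := Λ.filter fun z => 2 ≤ d - j ∧ ∀ G ∈ 𝒢, eval (Sum.elim z.1 z.2) G = 0 with hΛ₄
  have c1 : (Λ₁.card : ℝ) ≤ η / 4 * n * n := by
    refine key {G | ∃ lam : ℂ, G = spPull lam g} ?_ Λ₁ (Finset.filter_subset _ _) ?_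
    · rintro G ⟨lam, rfl⟩
      have h1 : ((spPull lam g).totalDegree : ℝ) ≤ (g.totalDegree : ℝ) := by
        exact_mod_cast sp_pull_degree lam g
      linarith
    · intro z hz
      rw [hΛ₁, Finset.mem_filter] at hz
      refine ⟨?_, ?_⟩
      · rintro G ⟨lam, rfl⟩
        exact hz.2 lam
      · obtain ⟨lam, hl⟩ := sctest_lab_nonvan g _ (hgne _ (hbad z hz.1).1)
        exact ⟨_, ⟨lam, rfl⟩, hl⟩
  have c2 : (Λ₂.card : ℝ) ≤ η / 4 * n * n := by
    refine key {G | ∃ f ∈ ρ.F, G = sctestSrc f} ?_ Λ₂ (Finset.filter_subset _ _) ?_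
    · rintro G ⟨f, hf, rfl⟩
      have h1 : ((sctestSrc f).totalDegree : ℝ) ≤ (f.totalDegree : ℝ) := by
        exact_mod_cast sctest_src_degree f
      have h2 := hρ.F_deg f hf
      linarith
    · intro z hz
      rw [hΛ₂, Finset.mem_filter] at hz
      refine ⟨?_, ?_⟩
      · rintro G ⟨f, hf, rfl⟩
        exact hz.2 f hf
      · obtain ⟨f, hf, hl⟩ := sctest_src_nonvan (hpair z hz.1)
        exact ⟨_, ⟨f, hf, rfl⟩, hl⟩
  have c3 : (Λ₃.card : ℝ) ≤ η / 4 * n * n := by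
    refine key {G | ∃ f ∈ ρ.F, G = sctestTgt f} ?_ Λ₃ (Finset.filter_subset _ _) ?_
    · rintro G ⟨f, hf, rfl⟩
      have h1 : ((sctestTgt f).totalDegree : ℝ) ≤ (f.totalDegree : ℝ) := by
        exact_mod_cast sctest_tgt_degree f
      have h2 := hρ.F_deg f hf
      linarith
    · intro z hz
      rw [hΛ₃, Finset.mem_filter] at hz
      refine ⟨?_, ?_⟩
      · rintro G ⟨f, hf, rfl⟩
        exact hz.2 f hf
      · obtain ⟨f, hf, hl⟩ := sctest_tgt_nonvan (hpair z hz.1)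
        exact ⟨_, ⟨f, hf, rfl⟩, hl⟩
  have c4 : (Λ₄.card : ℝ) ≤ η / 4 * n * n := by
    refine key (𝒢 : Set (SpLPol d)) ?_ Λ₄ (Finset.filter_subset _ _) ?_
    · intro G hG
      have h1 : (G.totalDegree : ℝ) ≤ ((j + 1) * (2 * L) : ℕ) := by
        exact_mod_cast h𝒢deg G hG
      have h2 : (L : ℝ) ≤ prfT D.B s τ := Nat.floor_le hT0
      have h3 : (j : ℝ) ≤ d := by exact_mod_cast hplat.1
      push_cast at h1
      have h4 : ((j : ℝ) + 1) * (2 * (L : ℝ)) ≤ (2 * (d + 1) : ℝ) * prfT D.B s τ := by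
        have h5 : (0 : ℝ) ≤ L := Nat.cast_nonneg _
        nlinarith
      linarith
    · intro z hz
      rw [hΛ₄, Finset.mem_filter] at hz
      refine ⟨fun G hG => hz.2.2 G hG, ?_⟩
      have hz1 : z.1 ∈ ρ.S₁ := (Finset.mem_product.mp (hΛ hz.1)).1
      obtain ⟨G, hG, hl⟩ := sctest_neq_nonvan sec (hpair z hz.1) (by omega) (hflat hz.2.1 z.1 hz1) 𝒢 h𝒢
      exact ⟨G, hG, hl⟩
  have hcov : Λ ⊆ (Λ₁ ∪ Λ₂) ∪ (Λ₃ ∪ Λ₄) := by
    intro z hz
    by_contra hc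
    simp only [Finset.mem_union, not_or] at hc
    obtain ⟨⟨n1, n2⟩, n3, n4⟩ := hc
    rw [hΛ₁, Finset.mem_filter, not_and] at n1
    rw [hΛ₂, Finset.mem_filter, not_and] at n2
    rw [hΛ₃, Finset.mem_filter, not_and] at n3
    rw [hΛ₄, Finset.mem_filter, not_and] at n4
    have hz' := Finset.mem_product.mp (hΛ hz)
    apply (hbad z hz).2
    exact sctest_good_of_tests (hpair z hz) _ g hgrk 𝒢 h𝒢 z.1 z.2
      (sctest_asg hρ.asg₁ (hρ.sub₁ hz'.1)).2.1 (sctest_asg hρ.asg₂ (hρ.sub₂ hz'.2)).2.1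
      (hρ.g_ne₁ _ hz'.1) (hρ.g_ne₂ _ hz'.2) (n1 hz) (n2 hz) (n3 hz) (n4 hz)
  have hcard : Λ.card ≤ (Λ₁.card + Λ₂.card) + (Λ₃.card + Λ₄.card) :=
    (Finset.card_le_card hcov).trans ((Finset.card_union_le _ _).trans
      (add_le_add (Finset.card_union_le _ _) (Finset.card_union_le _ _)))
  have hcard' : (Λ.card : ℝ) ≤ ((Λ₁.card : ℝ) + Λ₂.card) + ((Λ₃.card : ℝ) + Λ₄.card) := by
    exact_mod_cast hcard
  calc (Λ.card : ℝ) ≤ 4 * (η / 4 * n * n) := by linarith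
    _ = η * n ^ 2 := by ring

end Claimed.Agent.R273
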