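import Claimed.Agent.R273.ScoDefs
import Claimed.Agent.R273.GeoDefs
import Claimed.Agent.R273.MinorLA
import Claimed.Agent.R273.ScoTest

/-!
# Row 273, SPARSE, unit SCO, first half (sparse-cones.tex l.340-560): the set-up at the outermost endpoint and sc:outer-regularity.  Architect helper37.

CONTEXT of every statement: `b` admissible, `b (d-1) = 1`, `j = scoJ d b`, `k = d - j`, `β = b (j-1)`; ONE pool `X` in both roles, `SpTwo D X X s θ b` with `s = log B`; `n = |X.pts|`; `T_u = prfT B s u = B^{1+u}`; `e_j = spE B s b j = B^{d-2k}`.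
Fixed times `β < τ < t₀ < t₁ < t₁' < t₂ < 1`, `t₀ > 1 + b 0 + b 1`, depth tolerance `0 < ε < (t₁ - t₀)/4`.   `ρ : SpRet d` = retained products (`SpCom.lean`) at `(j, τ, ε, η₀)`.

LEAF SCO-NUM (`sco_j_*`): `2 ≤ j < d`; `b i = 1` for `j ≤ i < d`, `b i < 1` for `i < j`; `SpPlat d b j t` for `β < t < 1`; `1 + b 0 + b 1 < 1`.  (`k ≥ d - 1` would give `∑ b ≥ b 0 + (d-1) > 0`.)
LEAF SCO-SET (`sco_setup`): `ρ₀` from `SpRPStmt` at `(j, τ, ε, η/4)`.  `k = 1`: done.  `k ≥ 2`: delete (in both roles) the points whose carrier lies in a `(k+1)`-flat: these carriers are `≤ prfDeg ≤ e_j e^{η' s}` in number (`SpDegStmt`, `vdeg ≥ 1`), each contains `≤ B^{k+1}` sample points (`SpCaps.flat`, `3 ≤ k+1 < d`):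
  `≤ B^{d-2k} B^{k+1} e^{η' s} = B^{d-k+1+η'} ≤ B^{d-1+η'} ≤ (η/4) N e^{-θ s}`.  Restrict `R` to the carriers which still have points.  All fields of `SpRet.Ok` survive with `η` instead of `η/4`: the assigned sets only decrease and `|S_i|` changes by a factor `≥ 1 - η/4` (in `R_loss`, `mass`: `e^{η s/2} ≥ 4`).
LEAF SCO-BIG (`sco_big`) [R1].  Suppose `|Λ| > η n²`; drop the diagonal (`≤ n`).  `sp_env_core` with `L = scoU ρ`, `T = ⌊T_{t₀}⌋`, `m = 2k+1`, `lab z = spLab {z}`, `img z = spImgP (asg z)`: `h, a, Λ'`.  By (0) and the hypothesis `h ≥ 2k+2` (an irreducible `(2k+1)`-fold inside a component of dimension `2k+1` IS that component).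
  `a binom(T+h,h) ≤ (2d+1)^{2d} H_U(T) ≤ (2d+1)^{2d} (∑ vdeg) binom(T+2k+1,2k+1)` (`ph_hilbert_up_family` for the finite set of distinct images; `ρ.deg_up`: `∑ vdeg ≤ e_j² e^{η₀ s}`).  Borrow (`hbor`) `SpCRAt d b u`, `u ≤ β`, `β - u ≤ ξ`, for `Λ'` (density `η/(4(2d+1))`, tolerance `ξ`):
  `Rk(u) e^{-ξ s} ≤ H_{Λ'}(⌊T_u⌋) ≤ a binom(⌊T_u⌋+h,h)`.  `Rk(β) ≤ Rk(u) e^{(4d+2) ξ s}` (`sp_rk_growth` at `t = β`), `Rk(β) = e_j² T_β^{2k+1} min(1, T_β/(D_0D_1))`.  Hence `min(T_{t₀}/T_β, T_{t₀}/(D_0 D_1)) ≤ C_d e^{(η₀ + (4d+3) ξ) s}`, but the left side is `e^{min(t₀-β, t₀-1-b0-b1) s}` (`s = log B`).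
LEAF SCO-LAB (`sco_lab`) [R2].  `𝓘` := the distinct images `spImgP r`, `r ∈ ρ.R`, which are components of `scoSys0 ρ ⌊T_{t₀}⌋` (dimension `2k+1`).  `SpRegLabStmt` with `L = ⌊T_{t₀}⌋`, `D = ⌊T_{t₁}⌋`: `ℱ, g, ℰ`.  `R' := {r ∈ ρ.R | spImgP r ∈ 𝓘 \ ℰ}`.
  Omitted mass: not components: `sco_big`; in `ℰ`: `ρ.mass` with `𝒥 = ℰ`: `≤ (∑_ℰ vdeg / e_j²) e^{(ε+η₀)s} n² ≤ Cn (T_{t₀}/T_{t₁}) e^{(ε + 2η₀) s} n² ≤ e^{-(t₁-t₀)s/2} n²`.   `deg g ≤ Cn T_{t₁} ≤ T_{t₁'}`.  `finrank (scoT ℱ w) = 2d - rank` at zeros of `ℱ` (`ph_tanSp_finrank`), `= 0` elsewhere.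
LEAF SCO-RKT (`sp_rank_test`): rank `≥ r` of finitely many polynomial vectors = non-vanishing of one of the `r × r` minors.
LEAF SCO-TEST (`sco_test`) [R3, R4].  Four systems of polynomials in `(x,y)`, `v = y - x`, all of degree `≤ 2(d+1) max(T_τ, T_t) ≤ T_{t'}`, `t' = (t+1)/2`; `SpProdStmt` at `(j, t', η/4)` for each:
  (lab) `{spPull lam g | lam : ℂ}`; (src) `{∇f(x)·v | f ∈ F}`; (tgt) `{∇f(y)·v | f ∈ F}`; (neq, `k ≥ 2`) the `(j+1)`-minors (`sp_rank_test`) of the vectors `∇f(y)` and `(∇f(x)·v)∇f'(x) - (∇f'(x)·v)∇f(x)`, `f, f' ∈ F`.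
  NOT IDENTICALLY ZERO on `Z(𝔵) × Z(𝔶)`, `(𝔵,𝔶) ∈ R'`: (lab) `g ≠ 0` somewhere on the closure of the labels, hence at a label.  (src/tgt) `ρ.transv` gives `f₀ ∈ 𝔵` with `P = ∇f₀(x)·v` nonzero at one pair; `ρ.g` is nonzero at a point of `Z(𝔵)` (`R_sub`, `g_ne`); the product is irreducible (`ph_prod_isVar`, `ph_isVar_mul`):
  a pair with `P ≠ 0`, `ρ.g(x) ≠ 0`; there `scoT F x = tanSp 𝔵 x` (`sco_tan_eq`-argument: `g_rank`, `ph_tan_ge`).  (neq) `ScoSecStmt`: no common flat (`hspan`), so equality of the projected tangent spaces is NOT generic: a pair where `ρ.g(x) ρ.g(y) P_src P_tgt ≠ 0` and the spaces differ;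
  there `Ann(T_x + ℂv)` is spanned by the rows, `Ann(T_y) = span ∇F(y)`, and the spaces differ iff the rank is `≥ j+1`.
  MEANING at an actual pair of `S₁ × S₂` where the four systems do not vanish: `ScoGood` (`tan_p, tan_q` from `g_ne`, `g_rank`; (lab): `lam ↦ g(p, lam v)` is a nonzero polynomial, so it is nonzero at some `lam ≠ 0`).
LEAF SCO-REG (`sco_reg`): the assembly, see the docstring.
-/

set_option autoImplicit false

namespace Claimed.Agent.R273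

open MvPolynomial Module

variable {d : ℕ}

/-! ### SCO-NUM -/

theorem sco_j_lt_of (b : ℕ → ℝ) (hb : SpAdm d b) {i : ℕ} (hi : i < d) (h : b i < 1) :
    i < scoJ d b := by
  unfold scoJ
  have hsub : Finset.range (i + 1) ⊆ (Finset.range d).filter fun i => b i < 1 := by
    intro i' hi'
    rw [Finset.mem_range] at hi'
    rw [Finset.mem_filter, Finset.mem_range]
    exact ⟨by omega, lt_of_le_of_lt (hb.mono i' i (by omega) hi) h⟩
  have := Finset.card_le_card hsub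
  rw [Finset.card_range] at this
  omega

theorem sco_j_le_of (b : ℕ → ℝ) (hb : SpAdm d b) {i : ℕ} (_hi : i < d) (h : 1 ≤ b i) :
    scoJ d b ≤ i := by
  unfold scoJ
  have hsub : ((Finset.range d).filter fun i => b i < 1) ⊆ Finset.range i := by
    intro i' hi'
    rw [Finset.mem_filter, Finset.mem_range] at hi'
    rw [Finset.mem_range]
    by_contra hcon
    have := hb.mono i i' (not_lt.1 hcon) hi'.1
    linarith [hi'.2]
  have := Finset.card_le_card hsub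
  rwa [Finset.card_range] at this

theorem sco_j_range (hd : 3 ≤ d) (b : ℕ → ℝ) (hb : SpAdm d b) (h1 : b (d - 1) = 1) :
    2 ≤ scoJ d b ∧ scoJ d b < d ∧ (∀ i < scoJ d b, b i < 1) ∧
      ∀ i, scoJ d b ≤ i → i < d → b i = 1 := by
  have hJd : scoJ d b ≤ d - 1 := sco_j_le_of b hb (by omega) h1.ge
  have hm := sp_adm_margins hd b hb
  have hb1 : b 1 < 1 := by linarith [hb.lo, hm.1]
  have h2 : 1 < scoJ d b := sco_j_lt_of b hb (by omega) hb1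
  refine ⟨h2, by omega, ?_, ?_⟩
  · intro i hi
    by_contra hcon
    have := sco_j_le_of b hb (i := i) (by omega) (not_lt.1 hcon)
    omega
  · intro i hi hid
    have h3 : ¬ b i < 1 := fun h => by
      have := sco_j_lt_of b hb hid h
      omega
    have h4 : b i ≤ b (d - 1) := hb.mono i (d - 1) (by omega) (by omega)
    linarith [not_lt.1 h3]

theorem sco_j_plat (hd : 3 ≤ d) (b : ℕ → ℝ) (hb : SpAdm d b) (h1 : b (d - 1) = 1) (t : ℝ)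
    (ht : b (scoJ d b - 1) < t) (ht1 : t < 1) : SpPlat d b (scoJ d b) t ∧ -1 ≤ t := by
  obtain ⟨h2, hJd, _, h4⟩ := sco_j_range hd b hb h1
  refine ⟨⟨hJd.le, ?_, ?_⟩, ?_⟩
  · intro i hi
    exact lt_of_le_of_lt (hb.mono i (scoJ d b - 1) (by omega) (by omega)) ht
  · intro i hi hid
    rw [h4 i hi hid]
    exact ht1
  · have := hb.mono 0 (scoJ d b - 1) (by omega) (by omega)
    linarith [hb.lo]

/-! ### contracts -/

/-- the context of the unit: admissible outer profile -/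
structure ScoProf (d : ℕ) (b : ℕ → ℝ) : Prop where
  adm : SpAdm d b
  top : b (d - 1) = 1

/-- **(SET)** retained products for the pool in both roles, no carrier in a `(k+1)`-flat if `k ≥ 2` -/
def ScoSetupStmt (d : ℕ) : Prop :=
  ∀ b : ℕ → ℝ, ScoProf d b → ∀ τ : ℝ, b (scoJ d b - 1) < τ → τ < 1 → ∀ ε η : ℝ, 0 < ε → 0 < η →
    ∃ θ : ℝ, 0 < θ ∧ ∀ (D : SpData d) (X : SpPool d), SpTwo D X X (Real.log D.B) θ b →
      ∃ ρ : SpRet d, ρ.Ok D X X (Real.log D.B) b (scoJ d b) τ ε η ∧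
        (2 ≤ d - scoJ d b → ∀ x ∈ ρ.S₁, ¬ InFlat (spZ (ρ.asg₁ x)) (d - scoJ d b + 1))

/-- the union of the retained product images -/
def scoU (ρ : SpRet d) : Set (Fin d ⊕ Fin d → ℂ) := ⋃ r ∈ ρ.R, spImgP r

/-- the equations of the envelope of `scoU ρ` -/
def scoSys0 (ρ : SpRet d) (T : ℕ) : Set (SpLPol d) :=
  {f | f.totalDegree ≤ T ∧ ∀ x ∈ scoU ρ, eval x f = 0}

/-- **(BIG)** the images which are not components of the envelope represent a negligible product mass -/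
def ScoBigStmt (d : ℕ) : Prop :=
  ∀ b : ℕ → ℝ, ScoProf d b → ∀ τ t₀ ε : ℝ, b (scoJ d b - 1) < τ → τ < t₀ → t₀ < 1 →
    1 + b 0 + b 1 < t₀ → ∀ η : ℝ, 0 < η → ∃ η₀ θ : ℝ, 0 < η₀ ∧ 0 < θ ∧
    ∀ (D : SpData d) (X : SpPool d), SpTwo D X X (Real.log D.B) θ b →
      ∀ ρ : SpRet d, ρ.Ok D X X (Real.log D.B) b (scoJ d b) τ ε η₀ →
        ∀ Λ ⊆ ρ.S₁ ×ˢ ρ.S₂, (∀ z ∈ Λ, (ρ.asg₁ z.1, ρ.asg₂ z.2) ∈ ρ.R ∧
          ¬ IsCompOf (spImgP (ρ.asg₁ z.1, ρ.asg₂ z.2))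
            (scoSys0 ρ ⌊prfT D.B (Real.log D.B) t₀⌋₊)) →
          (Λ.card : ℝ) ≤ η * (X.pts.card : ℝ) ^ 2

/-- **(REG-LAB)** poly:regularity in the label space `ℂ^{d ⊕ d}` (consumed from S3 = `prf_reg`, one system, Ph language) -/
def SpRegLabStmt (d : ℕ) : Prop :=
  ∃ Cn : ℕ, 0 < Cn ∧ ∀ (G : Set (SpLPol d)) (L : ℕ), 1 ≤ L → (∀ g ∈ G, g.totalDegree ≤ L) →
    ∀ (m : ℕ) (𝒱 : Finset (Set (Fin d ⊕ Fin d → ℂ))), (∀ V ∈ 𝒱, IsCompOf V G ∧ vdim V = m) →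
    ∀ D : ℕ, Cn * L ≤ D →
      ∃ (ℱ : Finset (SpLPol d)) (g : SpLPol d) (ℰ : Finset (Set (Fin d ⊕ Fin d → ℂ))), ℰ ⊆ 𝒱 ∧
        (∀ f ∈ ℱ, f.totalDegree ≤ D ∧ ∀ V ∈ 𝒱, ∀ x ∈ V, eval x f = 0) ∧ g.totalDegree ≤ Cn * D ∧
        (∑ V ∈ ℰ, vdeg V) * D ≤ Cn * (∑ V ∈ 𝒱, vdeg V) * L ∧
        (∀ V ∈ 𝒱, V ∉ ℰ → ∃ x ∈ V, eval x g ≠ 0) ∧
        ∀ x, eval x g ≠ 0 → finrank ℂ (scoT (ℱ : Set (SpLPol d)) x) ≤ m

/-- **(LAB)** the common label equations and their test polynomial -/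
def ScoLabStmt (d : ℕ) : Prop :=
  ∀ b : ℕ → ℝ, ScoProf d b → ∀ τ t₀ t₁ t₁' ε : ℝ, b (scoJ d b - 1) < τ → τ < t₀ → t₀ < t₁ →
    t₁ < t₁' → t₁' < 1 → 1 + b 0 + b 1 < t₀ → 0 < ε → ε < (t₁ - t₀) / 4 → ∀ η : ℝ, 0 < η →
    ∃ η₀ θ : ℝ, 0 < η₀ ∧ 0 < θ ∧
    ∀ (D : SpData d) (X : SpPool d), SpTwo D X X (Real.log D.B) θ b →
      ∀ ρ : SpRet d, ρ.Ok D X X (Real.log D.B) b (scoJ d b) τ ε η₀ →
        ∃ (ℱ : Finset (SpLPol d)) (g : SpLPol d) (R' : Finset (Ideal (PrfPol d) × Ideal (PrfPol d))),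
          R' ⊆ ρ.R ∧ (∀ H ∈ ℱ, (H.totalDegree : ℝ) ≤ prfT D.B (Real.log D.B) t₁) ∧
          (g.totalDegree : ℝ) ≤ prfT D.B (Real.log D.B) t₁' ∧
          (∀ r ∈ R', spImgP r ⊆ Zl (ℱ : Set (SpLPol d))) ∧
          (∀ r ∈ R', ∃ w ∈ spImgP r, eval w g ≠ 0) ∧
          (∀ w, eval w g ≠ 0 → finrank ℂ (scoT (ℱ : Set (SpLPol d)) w) ≤ 2 * (d - scoJ d b) + 1) ∧
          ∀ Λ ⊆ ρ.S₁ ×ˢ ρ.S₂, (∀ z ∈ Λ, (ρ.asg₁ z.1, ρ.asg₂ z.2) ∈ ρ.R ∧
            (ρ.asg₁ z.1, ρ.asg₂ z.2) ∉ R') → (Λ.card : ℝ) ≤ η * (X.pts.card : ℝ) ^ 2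

/-- **(SEC-FLAT)** consumed from S4 (geo:secants, "when `k = l`, equality of the projected tangent spaces at a general pair already implies the common-flat conclusion") -/
def ScoSecStmt (d : ℕ) : Prop :=
  ∀ (k : ℕ) (𝔵 𝔶 : Ideal (PrfPol d)), 𝔵.IsPrime → 𝔶.IsPrime → 1 ≤ k → vdim (spZ 𝔵) = k →
    vdim (spZ 𝔶) = k → SpTransv 𝔵 𝔶 →
    GenOn (prodSet (spZ 𝔵) (spZ 𝔶)) (fun z =>
      tanSp 𝔵 (prL z) ⊔ Submodule.span ℂ {prR z - prL z} =
        tanSp 𝔶 (prR z) ⊔ Submodule.span ℂ {prR z - prL z}) →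
    InFlat (spZ 𝔵) (k + 1) ∧ InFlat (spZ 𝔶) (k + 1)

/-- **(TEST)** all but `η n²` of the actual pairs with carrier pair in `R'` are regular -/
def ScoTestStmt (d : ℕ) : Prop :=
  ∀ b : ℕ → ℝ, ScoProf d b → ∀ τ t : ℝ, b (scoJ d b - 1) < τ → τ < t → t < 1 → ∀ η : ℝ, 0 < η →
    ∃ θ : ℝ, 0 < θ ∧ ∀ (D : SpData d) (X : SpPool d), SpTwo D X X (Real.log D.B) θ b →
      ∀ (ε η₀ : ℝ) (ρ : SpRet d), ρ.Ok D X X (Real.log D.B) b (scoJ d b) τ ε η₀ →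
        (2 ≤ d - scoJ d b → ∀ x ∈ ρ.S₁, ¬ InFlat (spZ (ρ.asg₁ x)) (d - scoJ d b + 1)) →
        ∀ (ℱ : Finset (SpLPol d)) (g : SpLPol d)
          (R' : Finset (Ideal (PrfPol d) × Ideal (PrfPol d))), R' ⊆ ρ.R →
          (g.totalDegree : ℝ) ≤ prfT D.B (Real.log D.B) t →
          (∀ r ∈ R', ∃ w ∈ spImgP r, eval w g ≠ 0) →
          (∀ w, eval w g ≠ 0 → finrank ℂ (scoT (ℱ : Set (SpLPol d)) w) ≤ 2 * (d - scoJ d b) + 1) →
          ∀ Λ ⊆ ρ.S₁ ×ˢ ρ.S₂, (∀ z ∈ Λ, (ρ.asg₁ z.1, ρ.asg₂ z.2) ∈ R' ∧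
            ¬ ScoGood (ρ.F : Set (PrfPol d)) (ℱ : Set (SpLPol d)) (scoJ d b) z.1 z.2) →
            (Λ.card : ℝ) ≤ η * (X.pts.card : ℝ) ^ 2

/-! ### leaves -/

set_option maxHeartbeats 1000000 in
theorem sco_setup (hd : 3 ≤ d) (lim : SpLimStmt d) (rp : SpRPStmt d) : ScoSetupStmt d := by
  classical
  intro b hprof τ hτ1 hτ2 ε η hε hη
  obtain ⟨hj2, hjd, hblt, hbeq⟩ := sco_j_range hd b hprof.adm hprof.top
  obtain ⟨hplat, hτm⟩ := sco_j_plat hd b hprof.adm hprof.top τ hτ1 hτ2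
  obtain ⟨j, hjdef⟩ : ∃ j, j = scoJ d b := ⟨_, rfl⟩
  rw [← hjdef] at hj2 hjd hblt hbeq hplat ⊢
  have hd1 : 1 ≤ d := by omega
  obtain ⟨η₁, hη₁d⟩ : ∃ η₁ : ℝ, η₁ = min η 1 := ⟨_, rfl⟩
  have hη₁ : 0 < η₁ := by rw [hη₁d]; positivity
  have hη₁η : η₁ ≤ η := hη₁d ▸ min_le_left _ _
  have hη₁1 : η₁ ≤ 1 := hη₁d ▸ min_le_right _ _
  obtain ⟨θr, hθr, Hrp⟩ := rp b hprof.adm j τ hj2 hjd hplat hτm ε (η₁ / 4) hε (by positivity)
  obtain ⟨θg, hθg, Hdeg⟩ := lim.deg b hprof.adm (1 / 4) (by norm_num)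
  obtain ⟨θa, hθa, Habs⟩ := spl_absorb (4 / η₁) (1 / 2) (by norm_num)
  obtain ⟨θc, hθc, Habs4⟩ := spl_absorb 4 (3 * η₁ / 4) (by positivity)
  obtain ⟨θ, hθd⟩ : ∃ θ : ℝ, θ = min (min θr θg) (min (min θa θc) (1 / 4)) := ⟨_, rfl⟩
  have hθ : 0 < θ := by rw [hθd]; positivity
  have hθ1 : θ ≤ θr := hθd ▸ (min_le_left _ _).trans (min_le_left _ _)
  have hθ2 : θ ≤ θg := hθd ▸ (min_le_left _ _).trans (min_le_right _ _)
  have hθ3 : θ ≤ θa := hθd ▸ (min_le_right _ _).trans ((min_le_left _ _).trans (min_le_left _ _))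
  have hθ4 : θ ≤ θc := hθd ▸ (min_le_right _ _).trans ((min_le_left _ _).trans (min_le_right _ _))
  have hθ5 : θ ≤ 1 / 4 := hθd ▸ (min_le_right _ _).trans (min_le_right _ _)
  refine ⟨θ, hθ, ?_⟩
  intro D X htwo
  obtain ⟨s, hsd⟩ : ∃ s : ℝ, s = Real.log D.B := ⟨_, rfl⟩
  rw [← hsd] at htwo ⊢
  have hokX : X.Ok D s θ b := htwo.okX
  have hs : 0 < s := spl_s_pos hθ hokX
  have hBpos : 0 < D.B := spl_B_pos hθ hokX
  have hNpos : 0 < D.N := spl_N_pos hd1 hθ hokX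
  have hexps : Real.exp s = D.B := by rw [hsd, Real.exp_log hBpos]
  have hB1 : 1 ≤ D.B := by
    rw [← hexps]
    exact Real.one_le_exp hs.le
  obtain ⟨ρ₀, hρ₀⟩ := Hrp D X X s (htwo.mono hθ hθ1)
  by_cases hk : 2 ≤ d - j
  swap
  · exact ⟨ρ₀, hρ₀.mono_eta (by linarith) hs.le, fun h => absurd h hk⟩
  obtain ⟨hSS, hasg⟩ := hρ₀.same rfl
  obtain ⟨S₀, S₂, asg, asg₂, F, g, R⟩ := ρ₀
  simp only at hSS hasg
  subst hSS
  subst hasg
  obtain ⟨k, hkd⟩ : ∃ k, k = d - j := ⟨_, rfl⟩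
  rw [← hkd] at hk ⊢
  obtain ⟨Bad, hBadd⟩ : ∃ Bad, Bad = S₀.filter (fun x => InFlat (spZ (asg x)) (k + 1)) := ⟨_, rfl⟩
  obtain ⟨S, hSd⟩ : ∃ S, S = S₀.filter (fun x => ¬ InFlat (spZ (asg x)) (k + 1)) := ⟨_, rfl⟩
  obtain ⟨R', hR'd⟩ : ∃ R', R' = R.filter (fun r => (∃ x ∈ S, asg x = r.1) ∧ ∃ y ∈ S, asg y = r.2) :=
    ⟨_, rfl⟩
  have hSsub : S ⊆ S₀ := hSd ▸ Finset.filter_subset _ _
  have hS₀X : S₀ ⊆ X.pts := hρ₀.sub₁
  have hptsD : X.pts ⊆ D.pts := Finset.biUnion_subset.mpr hokX.sub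
  have hcar : ∀ x ∈ S₀, (asg x).IsPrime ∧ x ∈ spZ (asg x) ∧ asg x ∈ X.carriers j := by
    intro x hx
    obtain ⟨a, ha, hxa⟩ := Finset.mem_biUnion.1 (hS₀X hx)
    have h1 := hρ₀.asg₁ a ha x hxa
    exact ⟨prf_carr_prime h1, h1.2, a, ha, x, hxa, h1⟩
  -- the number of deleted points
  obtain ⟨n, hn⟩ : ∃ n : ℝ, n = (X.pts.card : ℝ) := ⟨_, rfl⟩
  have hnlow : D.N * Real.exp (-(1 / 4 * s)) ≤ n := by
    obtain ⟨a, ha⟩ := hokX.ne
    have h1 := hokX.size a ha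
    have h2 : ((X.π a).S.card : ℝ) ≤ n := by
      rw [hn]
      exact_mod_cast Finset.card_le_card (Finset.subset_biUnion_of_mem (fun a => (X.π a).S) ha)
    have h3 : Real.exp (-(1 / 4 * s)) ≤ Real.exp (-(θ * s)) := by
      apply Real.exp_le_exp.2
      nlinarith
    calc D.N * Real.exp (-(1 / 4 * s)) ≤ D.N * Real.exp (-(θ * s)) := by gcongr
      _ ≤ _ := h1.trans h2
  have hBad : (Bad.card : ℝ) ≤ η₁ / 4 * n := by
    obtain ⟨𝒜, h𝒜d⟩ : ∃ 𝒜, 𝒜 = Bad.image asg := ⟨_, rfl⟩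
    have hBadS : ∀ x ∈ Bad, x ∈ S₀ ∧ InFlat (spZ (asg x)) (k + 1) := by
      intro x hx
      rw [hBadd] at hx
      exact Finset.mem_filter.1 hx
    have h𝒜 : ∀ P ∈ 𝒜, P.IsPrime ∧ P ∈ X.carriers j ∧ InFlat (spZ P) (k + 1) := by
      intro P hP
      rw [h𝒜d] at hP
      obtain ⟨x, hx, rfl⟩ := Finset.mem_image.1 hP
      exact ⟨(hcar x (hBadS x hx).1).1, (hcar x (hBadS x hx).1).2.2, (hBadS x hx).2⟩
    have h1 : (𝒜.card : ℝ) ≤ spE D.B s b j * Real.exp (1 / 4 * s) := by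
      have h2 : 𝒜.card ≤ prfDeg 𝒜 := by
        unfold prfDeg
        rw [Finset.card_eq_sum_ones]
        exact Finset.sum_le_sum fun P hP => prf_deg_pos P (h𝒜 P hP).1
      have h3 := Hdeg D X s (htwo.reg.mono hθ2) (hokX.mono hθ hθ2) j hjd.le 𝒜
        (fun P hP => (h𝒜 P (Finset.mem_coe.1 hP)).2.1)
      have h4 : (𝒜.card : ℝ) ≤ (prfDeg 𝒜 : ℝ) := by exact_mod_cast h2
      exact h4.trans h3
    have h5 : ∀ P ∈ 𝒜, ((Bad.filter (fun x => asg x = P)).card : ℝ) ≤ D.B ^ (k + 1) := by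
      intro P hP
      obtain ⟨x₀, W, hW, hWx⟩ := (h𝒜 P hP).2.2
      apply htwo.reg.caps.flat (k + 1) (by omega) (by omega) W hW
      · intro x hx
        exact hptsD (hS₀X (hBadS x (Finset.mem_filter.1 hx).1).1)
      · intro x hx y hy
        obtain ⟨hx1, hx2⟩ := Finset.mem_filter.1 hx
        obtain ⟨hy1, hy2⟩ := Finset.mem_filter.1 hy
        have hxP : x ∈ spZ P := hx2 ▸ (hcar x (hBadS x hx1).1).2.1
        have hyP : y ∈ spZ P := hy2 ▸ (hcar y (hBadS y hy1).1).2.1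
        have := W.sub_mem (hWx x hxP) (hWx y hyP)
        simpa using this
    have h6 : Bad.card = ∑ P ∈ 𝒜, (Bad.filter (fun x => asg x = P)).card := by
      rw [h𝒜d]
      exact Finset.card_eq_sum_card_image asg Bad
    have h7 : (Bad.card : ℝ) ≤ spE D.B s b j * Real.exp (1 / 4 * s) * D.B ^ (k + 1) := by
      rw [h6, Nat.cast_sum]
      calc ∑ P ∈ 𝒜, ((Bad.filter (fun x => asg x = P)).card : ℝ)
          ≤ ∑ _P ∈ 𝒜, D.B ^ (k + 1) := Finset.sum_le_sum h5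
        _ = (𝒜.card : ℝ) * D.B ^ (k + 1) := by rw [Finset.sum_const, nsmul_eq_mul]
        _ ≤ _ := by gcongr
    -- `e_j B^{2k} = N`
    have h8 : spE D.B s b j * (D.B ^ 2) ^ k = D.N := by
      rw [← spl_spE_top hd1 hprof.adm hθ hokX, ← spl_spE_mul D.B s b hjd.le]
      congr 1
      have : ∀ i ∈ Finset.Ico j d, spD D.B s b i = D.B ^ 2 := by
        intro i hi
        obtain ⟨hi1, hi2⟩ := Finset.mem_Ico.1 hi
        unfold spD prfT
        rw [hbeq i hi1 hi2, one_mul, hexps]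
        ring
      rw [Finset.prod_congr rfl this, Finset.prod_const, Nat.card_Ico, hkd]
    have hE := spl_spE_pos hθ hokX j
    have h9 : D.B ^ (k + 1) * D.B ≤ (D.B ^ 2) ^ k := by
      rw [← pow_mul, ← pow_succ]
      exact pow_le_pow_right₀ hB1 (by omega)
    have h10 : (Bad.card : ℝ) * D.B ≤ Real.exp (1 / 4 * s) * D.N := by
      calc (Bad.card : ℝ) * D.B ≤ spE D.B s b j * Real.exp (1 / 4 * s) * D.B ^ (k + 1) * D.B := by
            gcongr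
        _ = Real.exp (1 / 4 * s) * (spE D.B s b j * (D.B ^ (k + 1) * D.B)) := by ring
        _ ≤ Real.exp (1 / 4 * s) * (spE D.B s b j * (D.B ^ 2) ^ k) := by gcongr
        _ = _ := by rw [h8]
    have h11 : (4 : ℝ) / η₁ ≤ Real.exp (1 / 2 * s) := Habs θ s hθ hθ3 hokX.s_ge
    have h12 : (4 : ℝ) ≤ η₁ * Real.exp (1 / 2 * s) := by
      rw [div_le_iff₀ hη₁] at h11
      linarith
    -- conclude
    have h13 : (Bad.card : ℝ) * D.B ≤ η₁ / 4 * n * D.B := by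
      have e1 : Real.exp (1 / 4 * s) * D.N * 4
          ≤ η₁ * (D.N * Real.exp (-(1 / 4 * s))) * D.B := by
        have e2 : Real.exp (-(1 / 4 * s)) * D.B = Real.exp (1 / 4 * s) * Real.exp (1 / 2 * s) := by
          rw [← hexps, ← Real.exp_add, ← Real.exp_add]
          congr 1
          ring
        calc Real.exp (1 / 4 * s) * D.N * 4 ≤ Real.exp (1 / 4 * s) * D.N * (η₁ * Real.exp (1 / 2 * s)) := by
              gcongr
          _ = η₁ * D.N * (Real.exp (1 / 4 * s) * Real.exp (1 / 2 * s)) := by ring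
          _ = η₁ * D.N * (Real.exp (-(1 / 4 * s)) * D.B) := by rw [e2]
          _ = _ := by ring
      have e3 : η₁ * (D.N * Real.exp (-(1 / 4 * s))) * D.B ≤ η₁ * n * D.B := by gcongr
      nlinarith
    exact le_of_mul_le_mul_right h13 hBpos
  obtain ⟨m₀, hm₀⟩ : ∃ m₀ : ℝ, m₀ = (S₀.card : ℝ) := ⟨_, rfl⟩
  obtain ⟨m, hm⟩ : ∃ m : ℝ, m = (S.card : ℝ) := ⟨_, rfl⟩
  have hn0 : 0 ≤ n := hn ▸ Nat.cast_nonneg _
  have hm0 : 0 ≤ m := hm ▸ Nat.cast_nonneg _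
  have hsplit : m₀ = (Bad.card : ℝ) + m := by
    rw [hm₀, hm, hBadd, hSd]
    exact_mod_cast (Finset.card_filter_add_card_filter_not _).symm
  have hm₀n : m₀ ≤ n := by
    rw [hm₀, hn]
    exact_mod_cast Finset.card_le_card hS₀X
  have hloss₀ : (1 - η₁ / 4) * n ≤ m₀ := by
    have := hρ₀.loss₁
    rw [hn, hm₀]
    exact this
  have hηn : 0 ≤ η₁ * n := by positivity
  have hηn1 : η₁ * n ≤ n := mul_le_of_le_one_left hn0 hη₁1
  have hloss : (1 - η₁) * n ≤ m := by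
    have e1 : (1 - η₁) * n = n - η₁ * n := by ring
    have e2 : (1 - η₁ / 4) * n = n - η₁ * n / 4 := by ring
    have e3 : η₁ / 4 * n = η₁ * n / 4 := by ring
    rw [e2] at hloss₀
    rw [e3] at hBad
    rw [e1]
    linarith
  have hm2 : m₀ ≤ 2 * m := by
    have e2 : (1 - η₁ / 4) * n = n - η₁ * n / 4 := by ring
    have e3 : η₁ / 4 * n = η₁ * n / 4 := by ring
    rw [e2] at hloss₀
    rw [e3] at hBad
    linarith
  have hm₀0 : 0 ≤ m₀ := hm₀ ▸ Nat.cast_nonneg _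
  have hm4 : m₀ * m₀ ≤ 4 * (m * m) := by
    calc m₀ * m₀ ≤ (2 * m) * (2 * m) := mul_le_mul hm2 hm2 hm₀0 (by positivity)
      _ = 4 * (m * m) := by ring
  have hOk : SpRet.Ok (⟨S, S, asg, asg, F, g, R'⟩ : SpRet d) D X X s b j τ ε η₁ := by
    refine
    { sub₁ := hSsub.trans hS₀X
      sub₂ := hSsub.trans hS₀X
      loss₁ := by rw [← hn, ← hm]; exact hloss
      loss₂ := by rw [← hn, ← hm]; exact hloss
      asg₁ := hρ₀.asg₁
      asg₂ := hρ₀.asg₁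
      same := fun _ => ⟨rfl, rfl⟩
      F_deg := hρ₀.F_deg
      F_van := hρ₀.F_van
      g_deg := hρ₀.g_deg
      g_rank := hρ₀.g_rank
      g_ne₁ := fun x hx => hρ₀.g_ne₁ x (hSsub hx)
      g_ne₂ := fun x hx => hρ₀.g_ne₁ x (hSsub hx)
      real₁ := fun x hx => hρ₀.real₁ x (hSsub hx)
      real₂ := fun x hx => hρ₀.real₁ x (hSsub hx)
      R_sub := fun r hr => by
        rw [hR'd] at hr
        exact (Finset.mem_filter.1 hr).2
      R_loss := ?_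
      dim := fun r hr => by
        rw [hR'd] at hr
        exact hρ₀.dim r (Finset.mem_filter.1 hr).1
      transv := fun r hr => by
        rw [hR'd] at hr
        exact hρ₀.transv r (Finset.mem_filter.1 hr).1
      deg_up := ?_
      mass := ?_ }
    · intro Λ hΛ hz
      have h1 := hρ₀.R_loss Λ (hΛ.trans (Finset.product_subset_product hSsub hSsub))
        (fun z hzΛ hmem => hz z hzΛ (by
          rw [hR'd]
          exact Finset.mem_filter.2 ⟨hmem, ⟨z.1, (Finset.mem_product.1 (hΛ hzΛ)).1, rfl⟩,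
            ⟨z.2, (Finset.mem_product.1 (hΛ hzΛ)).2, rfl⟩⟩))
      simp only at h1 ⊢
      rw [← hm₀] at h1
      rw [← hm]
      calc (Λ.card : ℝ) ≤ η₁ / 4 * m₀ * m₀ := h1
        _ = η₁ / 4 * (m₀ * m₀) := by ring
        _ ≤ η₁ / 4 * (4 * (m * m)) := by gcongr
        _ = η₁ * m * m := by ring
    · intro 𝒥 h𝒥
      have h1 := hρ₀.deg_up 𝒥 (fun Z hZ => by
        obtain ⟨r, hr, e⟩ := h𝒥 Z hZ
        rw [hR'd] at hr
        exact ⟨r, (Finset.mem_filter.1 hr).1, e⟩)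
      refine h1.trans ?_
      have : Real.exp (η₁ / 4 * s) ≤ Real.exp (η₁ * s) := by
        apply Real.exp_le_exp.2
        nlinarith
      gcongr
    · intro 𝒥 Λ hΛ hz
      have h1 := hρ₀.mass 𝒥 Λ (hΛ.trans (Finset.product_subset_product hSsub hSsub))
        (fun z hzΛ => by
          have h2 := hz z hzΛ
          rw [hR'd] at h2
          exact ⟨(Finset.mem_filter.1 h2.1).1, h2.2⟩)
      simp only at h1 ⊢
      rw [← hm₀] at h1
      rw [← hm]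
      have hE := spl_spE_pos hθ hokX j
      obtain ⟨V, hV⟩ : ∃ V : ℝ, V = ((∑ Z ∈ 𝒥, vdeg Z : ℕ) : ℝ) / spE D.B s b j ^ 2 := ⟨_, rfl⟩
      rw [← hV] at h1 ⊢
      have hV0 : 0 ≤ V := by rw [hV]; positivity
      have h4 : (4 : ℝ) ≤ Real.exp (3 * η₁ / 4 * s) := Habs4 θ s hθ hθ4 hokX.s_ge
      have e1 : Real.exp ((ε + η₁) * s) = Real.exp ((ε + η₁ / 4) * s) * Real.exp (3 * η₁ / 4 * s) := by
        rw [← Real.exp_add]
        congr 1
        ring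
      have h2 : m₀ * m₀ ≤ 4 * (m * m) := hm4
      calc (Λ.card : ℝ) ≤ V * Real.exp ((ε + η₁ / 4) * s) * m₀ * m₀ := h1
        _ = V * Real.exp ((ε + η₁ / 4) * s) * (m₀ * m₀) := by ring
        _ ≤ V * Real.exp ((ε + η₁ / 4) * s) * (Real.exp (3 * η₁ / 4 * s) * (m * m)) := by
            have : 4 * (m * m) ≤ Real.exp (3 * η₁ / 4 * s) * (m * m) := by
              have : 0 ≤ m * m := by positivity
              gcongr
            have h5 := h2.trans this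
            gcongr
        _ = V * Real.exp ((ε + η₁) * s) * m * m := by rw [e1]; ring
  refine ⟨_, hOk.mono_eta hη₁η hs.le, ?_⟩
  intro _ x hx
  simp only at hx ⊢
  rw [hSd] at hx
  exact (Finset.mem_filter.1 hx).2

theorem scob_choose_ge (x : ℝ) (hx : 0 ≤ x) (k : ℕ) :
    x ^ k / (k.factorial : ℝ) ≤ ((⌊x⌋₊ + k).choose k : ℝ) := by
  have h1 := Nat.pow_le_choose (α := ℝ) k (⌊x⌋₊ + k)
  have e : ⌊x⌋₊ + k + 1 - k = ⌊x⌋₊ + 1 := by omega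
  rw [e] at h1
  refine le_trans ?_ h1
  have h2 : x ≤ ((⌊x⌋₊ + 1 : ℕ) : ℝ) := by
    push_cast
    exact (Nat.lt_floor_add_one x).le
  gcongr

theorem scob_choose_le (x : ℝ) (hx : 1 ≤ x) (k : ℕ) :
    ((⌊x⌋₊ + k).choose k : ℝ) ≤ (((k : ℝ) + 1) * x) ^ k / (k.factorial : ℝ) := by
  have h1 := Nat.choose_le_pow_div (α := ℝ) k (⌊x⌋₊ + k)
  refine le_trans h1 ?_
  have h2 : ((⌊x⌋₊ + k : ℕ) : ℝ) ≤ ((k : ℝ) + 1) * x := by
    push_cast
    have := Nat.floor_le (by linarith : (0 : ℝ) ≤ x)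
    have hk : (0 : ℝ) ≤ k := Nat.cast_nonneg _
    nlinarith
  gcongr

/-- `binom(⌊x⌋+k,k) ≤ M^M x^k / k!` for `k + 1 ≤ M` -/
theorem scob_choose_le' (x : ℝ) (hx : 1 ≤ x) (k M : ℕ) (hk : k + 1 ≤ M) :
    ((⌊x⌋₊ + k).choose k : ℝ) ≤ (M : ℝ) ^ M * x ^ k / (k.factorial : ℝ) := by
  refine (scob_choose_le x hx k).trans ?_
  have h1 : ((k : ℝ) + 1) ≤ M := by exact_mod_cast hk
  have hM1 : (1 : ℝ) ≤ M := le_trans (by linarith [Nat.cast_nonneg (α := ℝ) k]) h1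
  have h2 : ((k : ℝ) + 1) ^ k ≤ (M : ℝ) ^ M :=
    calc ((k : ℝ) + 1) ^ k ≤ (M : ℝ) ^ k := by gcongr
      _ ≤ (M : ℝ) ^ M := pow_le_pow_right₀ hM1 (by omega)
  rw [mul_pow]
  gcongr

/-- from binomials to powers -/
theorem scob_num1 (M m h : ℕ) (hm : m + 1 ≤ M) (hh : h + 1 ≤ M) (x y a Q P : ℝ) (hx : 1 ≤ x)
    (hy : 1 ≤ y) (hP : 0 ≤ P) (hQ : 0 ≤ Q)
    (h1 : a * ((⌊x⌋₊ + h).choose h : ℝ) ≤ (M : ℝ) ^ M * (Q * ((⌊x⌋₊ + m).choose m : ℝ)))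
    (h2 : P ≤ a * ((⌊y⌋₊ + h).choose h : ℝ)) :
    P * x ^ h ≤ ((M : ℝ) ^ M) ^ 3 * Q * x ^ m * y ^ h := by
  have hM0 : (0 : ℝ) ≤ (M : ℝ) ^ M := by positivity
  have hf0 : (0 : ℝ) < (h.factorial : ℝ) := by positivity
  have hx0 : 0 < x := by linarith
  have hy0 : 0 < y := by linarith
  have c1 := scob_choose_ge x hx0.le h
  have c2 := scob_choose_le' x hx m M hm
  have c3 := scob_choose_le' y hy h M hh
  have c2' : ((⌊x⌋₊ + m).choose m : ℝ) ≤ (M : ℝ) ^ M * x ^ m := by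
    refine c2.trans (div_le_self (by positivity) ?_)
    exact_mod_cast Nat.succ_le_of_lt (Nat.factorial_pos m)
  have key : P * (x ^ h / (h.factorial : ℝ))
      ≤ ((M : ℝ) ^ M * (Q * ((M : ℝ) ^ M * x ^ m))) * ((M : ℝ) ^ M * y ^ h / (h.factorial : ℝ)) := by
    calc P * (x ^ h / (h.factorial : ℝ)) ≤ P * ((⌊x⌋₊ + h).choose h : ℝ) :=
          mul_le_mul_of_nonneg_left c1 hP
      _ ≤ (a * ((⌊y⌋₊ + h).choose h : ℝ)) * ((⌊x⌋₊ + h).choose h : ℝ) :=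
          mul_le_mul_of_nonneg_right h2 (Nat.cast_nonneg _)
      _ = (a * ((⌊x⌋₊ + h).choose h : ℝ)) * ((⌊y⌋₊ + h).choose h : ℝ) := by ring
      _ ≤ ((M : ℝ) ^ M * (Q * ((⌊x⌋₊ + m).choose m : ℝ))) * ((⌊y⌋₊ + h).choose h : ℝ) :=
          mul_le_mul_of_nonneg_right h1 (Nat.cast_nonneg _)
      _ ≤ _ := by gcongr
  have := mul_le_mul_of_nonneg_right key hf0.le
  calc P * x ^ h = P * (x ^ h / (h.factorial : ℝ)) * (h.factorial : ℝ) := by field_simp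
    _ ≤ ((M : ℝ) ^ M * (Q * ((M : ℝ) ^ M * x ^ m))) * ((M : ℝ) ^ M * y ^ h / (h.factorial : ℝ))
          * (h.factorial : ℝ) := this
    _ = _ := by field_simp

/-- elimination of the borrowed rank -/
theorem scob_num2 (m h : ℕ) (hmh : m + 1 ≤ h) (P A C₂ e x y w μ EG : ℝ) (hP : 0 ≤ P) (hA : 0 < A)
    (he : 0 < e) (hy : 0 < y) (hyx : y ≤ x) (hw : 0 < w) (hEG : 0 < EG)
    (h3 : P * A * x ^ h ≤ C₂ * e ^ 2 * x ^ m * y ^ h)
    (hG : e ^ 2 * w ^ m * μ ≤ P * (w / y) ^ (m + 1) * EG) :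
    μ * x * A ≤ C₂ * EG * w := by
  have hx : 0 < x := lt_of_lt_of_le hy hyx
  have hq : 1 ≤ x / y := by rwa [one_le_div hy]
  have h4 : P * A * (x / y) ^ h ≤ C₂ * e ^ 2 * x ^ m := by
    rw [div_pow, mul_div_assoc', div_le_iff₀ (by positivity)]
    exact h3
  have h5 : P * A * (x / y) ^ (m + 1) ≤ C₂ * e ^ 2 * x ^ m :=
    (mul_le_mul_of_nonneg_left (pow_le_pow_right₀ hq hmh) (by positivity)).trans h4
  have h6 : P * A * x ≤ C₂ * e ^ 2 * y ^ (m + 1) := by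
    rw [div_pow, mul_div_assoc', div_le_iff₀ (by positivity)] at h5
    have : (P * A * x) * x ^ m ≤ (C₂ * e ^ 2 * y ^ (m + 1)) * x ^ m := by
      calc (P * A * x) * x ^ m = P * A * x ^ (m + 1) := by ring
        _ ≤ C₂ * e ^ 2 * x ^ m * y ^ (m + 1) := h5
        _ = _ := by ring
    exact le_of_mul_le_mul_right this (by positivity)
  have h7 : (μ * x * A) * (e ^ 2 * w ^ m * y ^ (m + 1)) ≤ (C₂ * EG * w) * (e ^ 2 * w ^ m * y ^ (m + 1)) := by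
    calc (μ * x * A) * (e ^ 2 * w ^ m * y ^ (m + 1))
        = (e ^ 2 * w ^ m * μ) * (A * x * y ^ (m + 1)) := by ring
      _ ≤ (P * (w / y) ^ (m + 1) * EG) * (A * x * y ^ (m + 1)) :=
          mul_le_mul_of_nonneg_right hG (by positivity)
      _ = (P * A * x) * (w ^ (m + 1) * EG) := by
          rw [div_pow]
          field_simp
      _ ≤ (C₂ * e ^ 2 * y ^ (m + 1)) * (w ^ (m + 1) * EG) :=
          mul_le_mul_of_nonneg_right h6 (by positivity)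
      _ = _ := by ring
  exact le_of_mul_le_mul_right h7 (by positivity)

theorem scob_lab_iUnion (Λ : Finset (SpC d × SpC d)) :
    (⋃ z ∈ Λ, spLab ({z} : Set (SpC d × SpC d))) = spLab (Λ : Set (SpC d × SpC d)) := by
  ext w
  simp only [Set.mem_iUnion]
  constructor
  · rintro ⟨z, hz, z', hz', lam, rfl⟩
    rw [Set.mem_singleton_iff] at hz'
    subst hz'
    exact ⟨z', hz, lam, rfl⟩
  · rintro ⟨z, hz, lam, rfl⟩
    exact ⟨z, hz, z, rfl, lam, rfl⟩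

theorem scob_asg_mem {X : SpPool d} {j : ℕ} {asg : SpC d → Ideal (PrfPol d)} (h : SpAsg X j asg)
    {x : SpC d} (hx : x ∈ X.pts) : (asg x).IsPrime ∧ x ∈ spZ (asg x) := by
  unfold SpPool.pts at hx
  obtain ⟨a, ha, hxa⟩ := Finset.mem_biUnion.mp hx
  exact ⟨prf_carr_prime (h a ha x hxa), (h a ha x hxa).2⟩

/-- FINITE CORE of SCO-BIG -/
theorem scob_core {D : SpData d} {X : SpPool d} {s : ℝ} {b : ℕ → ℝ} {j : ℕ} {τ ε η₀ : ℝ}
    (hj : j ≤ d) (hj1 : 1 ≤ j)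
    (ρ : SpRet d) (hρ : ρ.Ok D X X s b j τ ε η₀) (T : ℕ) (Λ : Finset (SpC d × SpC d))
    (hΛ : Λ ⊆ ρ.S₁ ×ˢ ρ.S₂) (hne : Λ.Nonempty)
    (hz : ∀ z ∈ Λ, (ρ.asg₁ z.1, ρ.asg₂ z.2) ∈ ρ.R ∧
      ¬ IsCompOf (spImgP (ρ.asg₁ z.1, ρ.asg₂ z.2)) (scoSys0 ρ T)) :
    ∃ (h a : ℕ) (Λ' : Finset (SpC d × SpC d)), 2 * (d - j) + 2 ≤ h ∧ h ≤ 2 * d ∧ Λ' ⊆ Λ ∧
      Λ.card ≤ (2 * d + 1) * Λ'.card ∧
      (a : ℝ) * ((T + h).choose h : ℝ) ≤ ((2 * d + 1 : ℕ) : ℝ) ^ (2 * d + 1) *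
        (spE D.B s b j ^ 2 * Real.exp (η₀ * s) *
          ((T + (2 * (d - j) + 1)).choose (2 * (d - j) + 1) : ℝ)) ∧
      ∀ T' : ℕ, hA (spLab (Λ' : Set (SpC d × SpC d))) T' ≤ a * (T' + h).choose h := by
  classical
  have hcard : Fintype.card (Fin d ⊕ Fin d) = 2 * d := by simp [two_mul]
  have hmem : ∀ z ∈ Λ, z.1 ∈ X.pts ∧ z.2 ∈ X.pts := fun z hz' => by
    have := Finset.mem_product.mp (hΛ hz')
    exact ⟨hρ.sub₁ this.1, hρ.sub₂ this.2⟩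
  have hvarR : ∀ r ∈ ρ.R, IsVar (spImgP r) := by
    intro r hr
    obtain ⟨⟨x, hx, hx'⟩, ⟨y, hy, hy'⟩⟩ := hρ.R_sub r hr
    refine sp_img_isVar ⟨r.1, ?_, rfl⟩ ⟨r.2, ?_, rfl⟩
    · rw [← hx']; exact (scob_asg_mem hρ.asg₁ (hρ.sub₁ hx)).1
    · rw [← hy']; exact (scob_asg_mem hρ.asg₂ (hρ.sub₂ hy)).1
  obtain ⟨h, a, Λ', hmh, hh, hsub, hc, hI, h0, hII, -⟩ :=
    sp_env_core (scoU ρ) T (2 * (d - j) + 1) (by rw [hcard]; omega) Λ
      (fun z => spLab ({z} : Set (SpC d × SpC d)))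
      (fun z => spImgP (ρ.asg₁ z.1, ρ.asg₂ z.2))
      (fun z hz' => sp_lab_subset_img (scob_asg_mem hρ.asg₁ (hmem z hz').1).2
        (scob_asg_mem hρ.asg₂ (hmem z hz').2).2)
      (fun z hz' => (Set.subset_biUnion_of_mem (u := fun r => spImgP r) (hz z hz').1).trans
        (ph_subset_env _ _))
      (fun z hz' => hvarR _ (hz z hz').1)
      (fun z hz' => (hρ.dim _ (hz z hz').1).ge)
  rw [hcard] at hh hc hI
  have hne' : Λ'.Nonempty := by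
    rw [← Finset.card_pos]
    have := Finset.card_pos.mpr hne
    by_contra hcon
    have h00 : Λ'.card = 0 := by omega
    rw [h00] at hc
    omega
  have hh2 : 2 * (d - j) + 2 ≤ h := by
    by_contra hcon
    have hEq : h = 2 * (d - j) + 1 := by omega
    obtain ⟨z, hz'⟩ := hne'
    obtain ⟨W, hW, hWd, hzW⟩ := h0 z hz'
    have hzΛ := hsub hz'
    have := sp_isVar_eq_of_vdim (ph_isCompOf_isVar hW) (hvarR _ (hz z hzΛ).1) hzW
      (by rw [hWd, hEq, hρ.dim _ (hz z hzΛ).1])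
    exact (hz z hzΛ).2 (this ▸ hW)
  refine ⟨h, a, Λ', hh2, hh, hsub, hc, ?_, fun T' => ?_⟩
  · -- upper bound for the union of the images
    set 𝒥 : Finset (Set (Fin d ⊕ Fin d → ℂ)) := ρ.R.image spImgP with h𝒥
    have hU : scoU ρ = ⋃ Z ∈ 𝒥, Z := by
      unfold scoU
      rw [h𝒥, Finset.set_biUnion_finset_image]
    have h1 : hA (scoU ρ) T ≤ (∑ Z ∈ 𝒥, vdeg Z) *
        (T + (2 * (d - j) + 1)).choose (2 * (d - j) + 1) := by
      rw [hU]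
      refine ph_hilbert_up_family 𝒥 (fun Z hZ => ?_) _ (fun Z hZ => ?_) T
      · obtain ⟨r, hr, rfl⟩ := Finset.mem_image.mp hZ
        exact hvarR r hr
      · obtain ⟨r, hr, rfl⟩ := Finset.mem_image.mp hZ
        exact hρ.dim r hr
    have h2 := hρ.deg_up 𝒥 (fun Z hZ => by
      obtain ⟨r, hr, rfl⟩ := Finset.mem_image.mp hZ
      exact ⟨r, hr, rfl⟩)
    have hI' : (a : ℝ) * ((T + h).choose h : ℝ)
        ≤ ((2 * d + 1 : ℕ) : ℝ) ^ (2 * d) * (hA (scoU ρ) T : ℝ) := by exact_mod_cast hI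
    have h1' : (hA (scoU ρ) T : ℝ) ≤ ((∑ Z ∈ 𝒥, vdeg Z : ℕ) : ℝ) *
        ((T + (2 * (d - j) + 1)).choose (2 * (d - j) + 1) : ℝ) := by exact_mod_cast h1
    have hM1 : (1 : ℝ) ≤ ((2 * d + 1 : ℕ) : ℝ) := by
      exact_mod_cast Nat.succ_le_succ (Nat.zero_le _)
    calc (a : ℝ) * ((T + h).choose h : ℝ)
        ≤ ((2 * d + 1 : ℕ) : ℝ) ^ (2 * d) * (hA (scoU ρ) T : ℝ) := hI'
      _ ≤ ((2 * d + 1 : ℕ) : ℝ) ^ (2 * d + 1) * (hA (scoU ρ) T : ℝ) :=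
          mul_le_mul_of_nonneg_right (pow_le_pow_right₀ hM1 (Nat.le_succ _)) (Nat.cast_nonneg _)
      _ ≤ _ := by
          refine mul_le_mul_of_nonneg_left (h1'.trans ?_) (by positivity)
          exact mul_le_mul_of_nonneg_right h2 (Nat.cast_nonneg _)
  · rw [← scob_lab_iUnion]
    exact hII T'

theorem scob_rk_nonneg {B : ℝ} (hB : 0 < B) (s : ℝ) (b : ℕ → ℝ) (t : ℝ) : 0 ≤ spRk d B s b t := by
  unfold spRk
  have h1 := spn_T_pos hB s t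
  have h2 := spn_D_pos hB s b 0
  have h3 := spn_D_pos hB s b 1
  exact mul_nonneg (mul_nonneg (sq_nonneg _) h1.le) (le_min zero_le_one (by positivity))

/-- the exponent computation at the outermost endpoint, `s = log B` -/
theorem scob_num3 (B s b0 b1 β t₀ γ : ℝ) (hB : 0 < B) (hs : 0 ≤ s) (hsB : Real.exp s = B)
    (h1 : γ ≤ t₀ - β) (h2 : γ ≤ t₀ - 1 - b0 - b1) :
    Real.exp (γ * s) * prfT B s β
      ≤ min 1 (prfT B s β / (prfT B s b0 * prfT B s b1)) * prfT B s t₀ := by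
  have hw := spn_T_pos hB s β
  have hx := spn_T_pos hB s t₀
  have hD0 := spn_T_pos hB s b0
  have hD1 := spn_T_pos hB s b1
  have e1 : Real.exp (γ * s) * prfT B s β ≤ prfT B s t₀ := by
    have : prfT B s t₀ = prfT B s β * Real.exp ((t₀ - β) * s) := by
      rw [← spl_T_add]; congr 1; ring
    rw [this, mul_comm]
    exact mul_le_mul_of_nonneg_left (Real.exp_le_exp.mpr (mul_le_mul_of_nonneg_right h1 hs)) hw.le
  have e2 : Real.exp (γ * s) ≤ prfT B s t₀ / (prfT B s b0 * prfT B s b1) := by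
    have : prfT B s t₀ / (prfT B s b0 * prfT B s b1) = Real.exp ((t₀ - 1 - b0 - b1) * s) := by
      unfold prfT
      rw [div_eq_iff (by positivity)]
      have e3 : Real.exp ((t₀ - 1 - b0 - b1) * s) * (B * Real.exp (b0 * s) * (B * Real.exp (b1 * s)))
          = B * (B * (Real.exp ((t₀ - 1 - b0 - b1) * s) * Real.exp (b0 * s) * Real.exp (b1 * s))) := by
        ring
      rw [e3, ← Real.exp_add, ← Real.exp_add]
      nth_rewrite 3 [← hsB]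
      rw [← Real.exp_add]
      congr 2
      ring
    rw [this]
    exact Real.exp_le_exp.mpr (mul_le_mul_of_nonneg_right h2 hs)
  rcases le_total 1 (prfT B s β / (prfT B s b0 * prfT B s b1)) with h | h
  · rw [min_eq_left h, one_mul]
    exact e1
  · rw [min_eq_right h]
    calc Real.exp (γ * s) * prfT B s β
        ≤ prfT B s t₀ / (prfT B s b0 * prfT B s b1) * prfT B s β :=
          mul_le_mul_of_nonneg_right e2 hw.le
      _ = _ := by ring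

theorem sco_big (hd : 3 ≤ d) (lim : SpLimStmt d)
    (hbor : ∀ b : ℕ → ℝ, SpAdm d b → ∀ j, 1 ≤ j → j < d → ∀ ξ : ℝ, 0 < ξ →
      ∃ u : ℝ, -1 ≤ u ∧ u ≤ b (j - 1) ∧ b (j - 1) - u ≤ ξ ∧ SpCRAt d b u) : ScoBigStmt d := by
  classical
  intro b hb τ t₀ ε hβτ hτt ht1 h01 η hη
  obtain ⟨hj2, hjd, hlt1, heq1⟩ := sco_j_range hd b hb.adm hb.top
  set j := scoJ d b with hj
  set β := b (j - 1) with hβ
  set γ := min (t₀ - β) (t₀ - 1 - b 0 - b 1) with hγ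
  have hγ0 : 0 < γ := lt_min (by linarith) (by linarith)
  have hd0 : (0 : ℝ) < 2 * (d : ℝ) + 1 := by positivity
  set ξ := γ / (4 * (2 * (d : ℝ) + 1)) with hξ
  have hξ0 : 0 < ξ := by positivity
  have hξeq : (2 * (d : ℝ) + 1) * ξ = γ / 4 := by
    rw [hξ]; field_simp
  obtain ⟨u, hu1, hu2, hu3, hCR⟩ := hbor b hb.adm j (by omega) hjd ξ hξ0
  set α' := η / (2 * (2 * (d : ℝ) + 1)) with hα'
  have hα'0 : 0 < α' := by positivity
  obtain ⟨θ₁, hθ₁, H₁⟩ := hCR α' ξ hα'0 hξ0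
  set M : ℕ := 2 * d + 1 with hM
  obtain ⟨θ₂, hθ₂, H₂⟩ := spl_absorb (((M : ℝ) ^ M) ^ 3 + 1) (γ / 2) (by positivity)
  obtain ⟨θ₃, hθ₃, H₃⟩ := spl_absorb (2 / η) 1 one_pos
  set θ := min (min θ₁ θ₂) (min θ₃ 1) with hθ
  have hθ0 : 0 < θ := lt_min (lt_min hθ₁ hθ₂) (lt_min hθ₃ one_pos)
  have hle₁ : θ ≤ θ₁ := (min_le_left _ _).trans (min_le_left _ _)
  have hle₂ : θ ≤ θ₂ := (min_le_left _ _).trans (min_le_right _ _)
  have hle₃ : θ ≤ θ₃ := (min_le_right _ _).trans (min_le_left _ _)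
  have hle1 : θ ≤ 1 := (min_le_right _ _).trans (min_le_right _ _)
  refine ⟨γ / 4, θ, by positivity, hθ0, fun D X hTwo ρ hρ Λ hΛ hz => ?_⟩
  by_contra hcon
  push Not at hcon
  set s := Real.log D.B with hs
  have hok := hTwo.okX
  have hs0 : 0 < s := spl_s_pos hθ0 hok
  have hB : 0 < D.B := spl_B_pos hθ0 hok
  have hsB : Real.exp s = D.B := Real.exp_log hB
  set n := (X.pts.card : ℝ) with hn
  -- n is large
  have hnbig : 2 / η ≤ n := by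
    obtain ⟨a, ha⟩ := hok.ne
    have h1 : D.N * Real.exp (-(θ * s)) ≤ n := by
      refine (hok.size a ha).trans ?_
      rw [hn]
      exact_mod_cast Finset.card_le_card (Finset.subset_biUnion_of_mem (fun a => (X.π a).S) ha)
    have h2 : 2 / η ≤ Real.exp (1 * s) := H₃ θ s hθ0 hle₃ hok.s_ge
    rw [one_mul, hsB] at h2
    have hB1 : 1 ≤ D.B := by
      rw [← hsB]; exact Real.one_le_exp hs0.le
    have h3 : D.B ≤ D.N * Real.exp (-(θ * s)) := by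
      have h4 : Real.exp (-s) ≤ Real.exp (-(θ * s)) := Real.exp_le_exp.mpr (by nlinarith)
      have h5 : Real.exp (-s) = D.B⁻¹ := by rw [Real.exp_neg, hsB]
      have h6 : D.B ^ 2 ≤ D.N := by
        rw [spl_N_eq (by omega) D]
        exact pow_le_pow_right₀ hB1 (by omega)
      calc D.B = D.B ^ 2 * D.B⁻¹ := by field_simp
        _ ≤ D.N * Real.exp (-(θ * s)) := by
            rw [← h5]
            exact mul_le_mul h6 h4 (Real.exp_pos _).le (le_trans (by positivity) h6)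
    linarith
  have hn0 : 0 < n := lt_of_lt_of_le (by positivity) hnbig
  -- drop the diagonal
  set Λ₀ := Λ.filter (fun z => z.1 ≠ z.2) with hΛ₀
  have hdiag : ((Λ.filter (fun z => ¬ z.1 ≠ z.2)).card : ℝ) ≤ n := by
    rw [hn]
    have : (Λ.filter (fun z => ¬ z.1 ≠ z.2)).card ≤ X.pts.card := by
      refine Finset.card_le_card_of_injOn Prod.fst ?_ ?_
      · intro z hz'
        have hz'' := (Finset.mem_filter.mp hz').1
        exact hρ.sub₁ (Finset.mem_product.mp (hΛ hz'')).1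
      · intro z hz' z' hz'' hEq
        have e1 : z.1 = z.2 := by simpa using (Finset.mem_filter.mp hz').2
        have e2 : z'.1 = z'.2 := by simpa using (Finset.mem_filter.mp hz'').2
        exact Prod.ext hEq (by rw [← e1, ← e2]; exact hEq)
    exact_mod_cast this
  have hsplit : (Λ.card : ℝ) = (Λ₀.card : ℝ) + ((Λ.filter (fun z => ¬ z.1 ≠ z.2)).card : ℝ) := by
    rw [hΛ₀]
    exact_mod_cast (Finset.card_filter_add_card_filter_not (s := Λ) (fun z => z.1 ≠ z.2)).symm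
  have hΛ₀big : η / 2 * n ^ 2 ≤ (Λ₀.card : ℝ) := by
    have h1 : n ≤ η / 2 * n ^ 2 := by
      have : 1 ≤ η / 2 * n := by
        rw [div_le_iff₀ hη] at hnbig
        linarith
      nlinarith
    linarith
  have hΛ₀sub : Λ₀ ⊆ Λ := Finset.filter_subset _ _
  have hΛ₀ne : Λ₀.Nonempty := by
    rw [← Finset.card_pos]
    have : (0 : ℝ) < (Λ₀.card : ℝ) := lt_of_lt_of_le (by positivity) hΛ₀big
    exact_mod_cast this
  obtain ⟨h, a, Λ', hh2, hh, hsub, hc, hI, hII⟩ := scob_core hjd.le (by omega) ρ hρ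
    ⌊prfT D.B s t₀⌋₊ Λ₀ (hΛ₀sub.trans hΛ) hΛ₀ne (fun z hz' => hz z (hΛ₀sub hz'))
  -- the borrowed rank
  have hβ1 : -1 ≤ β := hb.adm.lo.trans (hb.adm.mono 0 (j - 1) (Nat.zero_le _) (by omega))
  have hx1 : 1 ≤ prfT D.B s t₀ := spl_one_le_T hθ0 hok (by linarith)
  have hy1 : 1 ≤ prfT D.B s u := spl_one_le_T hθ0 hok hu1
  have hw0 : 0 < prfT D.B s β := spn_T_pos hB s β
  have hΛ'big : α' * n * n ≤ (Λ'.card : ℝ) := by
    have h1 : (Λ₀.card : ℝ) ≤ (2 * (d : ℝ) + 1) * (Λ'.card : ℝ) := by exact_mod_cast hc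
    have h2 : (2 * (d : ℝ) + 1) * (α' * n * n) = η / 2 * n ^ 2 := by
      rw [hα']; field_simp
    have h3 : (2 * (d : ℝ) + 1) * (α' * n * n) ≤ (2 * (d : ℝ) + 1) * (Λ'.card : ℝ) := by linarith
    exact le_of_mul_le_mul_left h3 hd0
  have hR := H₁ D X X s (hTwo.mono hθ0 hle₁) Λ'
    (fun z hz' => by
      have := Finset.mem_product.mp (hΛ (hΛ₀sub (hsub hz')))
      exact Finset.mem_product.mpr ⟨hρ.sub₁ this.1, hρ.sub₂ this.2⟩)
    (fun z hz' => (Finset.mem_filter.mp (hsub hz')).2) hΛ'big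
  have hII' : (hA (spLab (Λ' : Set (SpC d × SpC d))) ⌊prfT D.B s u⌋₊ : ℝ)
      ≤ (a : ℝ) * ((⌊prfT D.B s u⌋₊ + h).choose h : ℝ) := by exact_mod_cast hII _
  have hE0 : 0 < spE D.B s b j := spn_E_pos hB s b j
  have hP0 : 0 ≤ spRk d D.B s b u := scob_rk_nonneg hB s b u
  have hN1 := scob_num1 M (2 * (d - j) + 1) h (by omega) (by omega) (prfT D.B s t₀) (prfT D.B s u) a
    (spE D.B s b j ^ 2 * Real.exp (γ / 4 * s)) (spRk d D.B s b u * Real.exp (-(ξ * s))) hx1 hy1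
    (by positivity) (by positivity) hI (hR.trans hII')
  have hG : spE D.B s b j ^ 2 * prfT D.B s β ^ (2 * (d - j) + 1) *
      min 1 (prfT D.B s β / (spD D.B s b 0 * spD D.B s b 1))
      ≤ spRk d D.B s b u * (prfT D.B s β / prfT D.B s u) ^ (2 * (d - j) + 1 + 1) *
        Real.exp (2 * d * (β - u) * s) := by
    have h1 := spn_rk_growth b j hjd.le u β β D.B s hB hs0.le hu2 le_rfl
      (fun i hi => hb.adm.mono i (j - 1) (by omega) (by omega))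
      (fun i hi hid => hb.adm.mono (j - 1) i (by omega) hid)
    have h2 : spRk d D.B s b β = spE D.B s b j ^ 2 * prfT D.B s β ^ (2 * (d - j) + 1) *
        min 1 (prfT D.B s β / (spD D.B s b 0 * spD D.B s b 1)) := by
      unfold spRk
      rw [spn_sigma_plateau b j hjd.le β D.B s hB hs0.le
        (fun i hi => hb.adm.mono i (j - 1) (by omega) (by omega))
        (fun i hi hid => hb.adm.mono (j - 1) i (by omega) hid)]
      ring
    rw [← h2]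
    exact h1
  have hN2 := scob_num2 (2 * (d - j) + 1) h (by omega) (spRk d D.B s b u) (Real.exp (-(ξ * s)))
    (((M : ℝ) ^ M) ^ 3 * Real.exp (γ / 4 * s)) (spE D.B s b j) (prfT D.B s t₀) (prfT D.B s u)
    (prfT D.B s β) _ (Real.exp (2 * d * (β - u) * s)) hP0 (Real.exp_pos _) hE0 (by linarith)
    (spn_T_mono hB hs0.le (by linarith)) hw0 (Real.exp_pos _)
    (by
      calc spRk d D.B s b u * Real.exp (-(ξ * s)) * prfT D.B s t₀ ^ h
          ≤ ((M : ℝ) ^ M) ^ 3 * (spE D.B s b j ^ 2 * Real.exp (γ / 4 * s)) *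
            prfT D.B s t₀ ^ (2 * (d - j) + 1) * prfT D.B s u ^ h := hN1
        _ = _ := by ring) hG
  have hN3 := scob_num3 D.B s (b 0) (b 1) β t₀ γ hB hs0.le hsB (min_le_left _ _) (min_le_right _ _)
  have hfin : Real.exp (γ * s) * Real.exp (-(ξ * s))
      ≤ ((M : ℝ) ^ M) ^ 3 * Real.exp (γ / 4 * s) * Real.exp (2 * d * (β - u) * s) := by
    have h1 : (Real.exp (γ * s) * Real.exp (-(ξ * s))) * prfT D.B s β
        ≤ (((M : ℝ) ^ M) ^ 3 * Real.exp (γ / 4 * s) * Real.exp (2 * d * (β - u) * s)) * prfT D.B s β := by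
      calc (Real.exp (γ * s) * Real.exp (-(ξ * s))) * prfT D.B s β
          = (Real.exp (γ * s) * prfT D.B s β) * Real.exp (-(ξ * s)) := by ring
        _ ≤ (min 1 (prfT D.B s β / (prfT D.B s (b 0) * prfT D.B s (b 1))) * prfT D.B s t₀) *
              Real.exp (-(ξ * s)) := mul_le_mul_of_nonneg_right hN3 (Real.exp_pos _).le
        _ ≤ _ := hN2
    exact le_of_mul_le_mul_right h1 hw0
  have habs : ((M : ℝ) ^ M) ^ 3 < Real.exp (γ / 2 * s) := by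
    have := H₂ θ s hθ0 hle₂ hok.s_ge
    linarith
  have hEG : Real.exp (2 * d * (β - u) * s) ≤ Real.exp (2 * d * ξ * s) := by
    refine Real.exp_le_exp.mpr (mul_le_mul_of_nonneg_right ?_ hs0.le)
    exact mul_le_mul_of_nonneg_left hu3 (by positivity)
  have hlt : Real.exp (γ * s) * Real.exp (-(ξ * s))
      < Real.exp (γ / 2 * s) * Real.exp (γ / 4 * s) * Real.exp (2 * d * ξ * s) := by
    calc Real.exp (γ * s) * Real.exp (-(ξ * s))
        ≤ ((M : ℝ) ^ M) ^ 3 * Real.exp (γ / 4 * s) * Real.exp (2 * d * (β - u) * s) := hfin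
      _ ≤ ((M : ℝ) ^ M) ^ 3 * Real.exp (γ / 4 * s) * Real.exp (2 * d * ξ * s) :=
          mul_le_mul_of_nonneg_left hEG (by positivity)
      _ < _ := by
          have h5 : 0 < Real.exp (γ / 4 * s) * Real.exp (2 * d * ξ * s) := by positivity
          calc ((M : ℝ) ^ M) ^ 3 * Real.exp (γ / 4 * s) * Real.exp (2 * d * ξ * s)
              = ((M : ℝ) ^ M) ^ 3 * (Real.exp (γ / 4 * s) * Real.exp (2 * d * ξ * s)) := by ring
            _ < Real.exp (γ / 2 * s) * (Real.exp (γ / 4 * s) * Real.exp (2 * d * ξ * s)) :=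
                mul_lt_mul_of_pos_right habs h5
            _ = _ := by ring
  rw [← Real.exp_add, ← Real.exp_add, ← Real.exp_add, Real.exp_lt_exp] at hlt
  have : γ / 2 * s + γ / 4 * s + 2 * d * ξ * s = γ * s + -(ξ * s) := by
    have : 2 * (d : ℝ) * ξ = γ / 4 - ξ := by linarith
    rw [this]; ring
  linarith

theorem sco_lab_T_mul (B s u v : ℝ) : prfT B s v = prfT B s u * Real.exp ((v - u) * s) := by
  unfold prfT
  rw [mul_assoc, ← Real.exp_add]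
  congr 2
  ring

/-- floors of the two degrees -/
theorem sco_lab_floor (Cn : ℕ) (hCn : 0 < Cn) (T0 T1 : ℝ) (hT0 : 1 ≤ T0)
    (hT1 : ((Cn : ℝ) + 1) * T0 ≤ T1) :
    1 ≤ ⌊T0⌋₊ ∧ (⌊T0⌋₊ : ℝ) ≤ T0 ∧ (⌊T1⌋₊ : ℝ) ≤ T1 ∧ T1 / 2 ≤ (⌊T1⌋₊ : ℝ) ∧
      Cn * ⌊T0⌋₊ ≤ ⌊T1⌋₊ := by
  have hCnR : (1 : ℝ) ≤ Cn := by exact_mod_cast hCn
  have h2 : 2 ≤ T1 := by nlinarith
  have hL : (⌊T0⌋₊ : ℝ) ≤ T0 := Nat.floor_le (by linarith)
  refine ⟨Nat.le_floor (by exact_mod_cast hT0), hL, Nat.floor_le (by linarith), ?_, ?_⟩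
  · have := Nat.lt_floor_add_one T1
    linarith
  · apply Nat.le_floor
    push_cast
    nlinarith

/-- `s ≥ 1/θ`, `θ ≤ c/K` give `e^{c s} ≥ K` -/
theorem sco_lab_exp (c K θ s : ℝ) (hc : 0 < c) (hK : 0 < K) (hθ0 : 0 < θ) (hθc : θ ≤ c / K)
    (hsge : 1 / θ ≤ s) : K ≤ Real.exp (c * s) := by
  have hcs : K ≤ c * s := by
    have h1 : K / c ≤ 1 / θ := by
      rw [div_le_div_iff₀ hc hθ0]
      have := (le_div_iff₀ hK).mp hθc
      linarith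
    have h2 : K / c ≤ s := h1.trans hsge
    have := (div_le_iff₀ hc).mp h2
    linarith
  have := Real.add_one_le_exp (c * s)
  linarith

/-- the exceptional mass -/
theorem sco_lab_mass (Cn : ℕ) (η γ ε η₀ s e T0 T1 n c1 c2 lam : ℝ) (sE sV L Dd : ℕ)
    (hη : 0 < η) (hs : 0 < s) (he : 0 < e) (hT0 : 1 ≤ T0) (hT01 : T1 = T0 * Real.exp (γ * s))
    (hεγ : ε < γ / 4) (hη₀ : η₀ ≤ γ / 4) (hK : 4 * (Cn : ℝ) / η ≤ Real.exp (γ / 4 * s))
    (hL : (L : ℝ) ≤ T0) (hD : T1 / 2 ≤ (Dd : ℝ))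
    (hdeg : sE * Dd ≤ Cn * sV * L) (hup : (sV : ℝ) ≤ e ^ 2 * Real.exp (η₀ * s))
    (hc1 : c1 ≤ n) (hc2 : c2 ≤ n) (hc10 : 0 ≤ c1) (hc20 : 0 ≤ c2)
    (hlam : lam ≤ (sE : ℝ) / e ^ 2 * Real.exp ((ε + η₀) * s) * c1 * c2) :
    lam ≤ η / 2 * n ^ 2 := by
  have hT1pos : 0 < T1 := by rw [hT01]; positivity
  have hdegR : (sE : ℝ) * Dd ≤ Cn * sV * L := by exact_mod_cast hdeg
  have h1 : (sE : ℝ) * (T1 / 2) ≤ Cn * (e ^ 2 * Real.exp (η₀ * s)) * T0 := by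
    calc (sE : ℝ) * (T1 / 2) ≤ sE * Dd := by gcongr
      _ ≤ Cn * sV * L := hdegR
      _ ≤ Cn * (e ^ 2 * Real.exp (η₀ * s)) * T0 := by gcongr
  have h2 : (sE : ℝ) / e ^ 2 ≤ 2 * Cn * Real.exp (η₀ * s) * Real.exp (-(γ * s)) := by
    rw [div_le_iff₀ (by positivity)]
    have h3 : (sE : ℝ) * (T0 * Real.exp (γ * s))
        ≤ 2 * Cn * (e ^ 2 * Real.exp (η₀ * s)) * T0 := by
      rw [← hT01]; linarith
    have h4 : (sE : ℝ) * Real.exp (γ * s) ≤ 2 * Cn * (e ^ 2 * Real.exp (η₀ * s)) := by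
      have hT0pos : 0 < T0 := by linarith
      refine le_of_mul_le_mul_right ?_ hT0pos
      calc (sE : ℝ) * Real.exp (γ * s) * T0 = (sE : ℝ) * (T0 * Real.exp (γ * s)) := by ring
        _ ≤ _ := h3
    calc (sE : ℝ) = (sE : ℝ) * Real.exp (γ * s) * Real.exp (-(γ * s)) := by
          rw [mul_assoc, ← Real.exp_add]; simp
      _ ≤ 2 * Cn * (e ^ 2 * Real.exp (η₀ * s)) * Real.exp (-(γ * s)) := by gcongr
      _ = _ := by ring
  have h5 : Real.exp (η₀ * s) * Real.exp (-(γ * s)) * Real.exp ((ε + η₀) * s)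
      ≤ Real.exp (-(γ / 4 * s)) := by
    rw [← Real.exp_add, ← Real.exp_add]
    apply Real.exp_le_exp.mpr
    have : (ε + 2 * η₀ - γ + γ / 4) * s ≤ 0 :=
      mul_nonpos_of_nonpos_of_nonneg (by linarith) hs.le
    linarith
  have h6 : (Cn : ℝ) * Real.exp (-(γ / 4 * s)) ≤ η / 4 := by
    rw [Real.exp_neg, ← div_eq_mul_inv, div_le_iff₀ (Real.exp_pos _)]
    have := (div_le_iff₀ hη).mp hK
    linarith
  have hn0 : 0 ≤ n := hc10.trans hc1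
  calc lam ≤ (sE : ℝ) / e ^ 2 * Real.exp ((ε + η₀) * s) * c1 * c2 := hlam
    _ ≤ (2 * Cn * Real.exp (η₀ * s) * Real.exp (-(γ * s))) * Real.exp ((ε + η₀) * s) * n * n := by
        gcongr
    _ = 2 * Cn * (Real.exp (η₀ * s) * Real.exp (-(γ * s)) * Real.exp ((ε + η₀) * s)) * n ^ 2 := by
        ring
    _ ≤ 2 * Cn * Real.exp (-(γ / 4 * s)) * n ^ 2 := by gcongr
    _ = 2 * ((Cn : ℝ) * Real.exp (-(γ / 4 * s))) * n ^ 2 := by ring
    _ ≤ 2 * (η / 4) * n ^ 2 := by gcongr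
    _ = η / 2 * n ^ 2 := by ring

theorem sco_lab_E_pos (B s : ℝ) (b : ℕ → ℝ) (j : ℕ) (hB : 0 < B) : 0 < spE B s b j := by
  unfold spE
  apply Finset.prod_pos
  intro i _
  unfold spD prfT
  positivity

theorem sco_lab (hd : 3 ≤ d) (lim : SpLimStmt d) (big : ScoBigStmt d) (reg : SpRegLabStmt d) :
    ScoLabStmt d := by
  classical
  obtain ⟨Cn, hCn, hreg⟩ := reg
  intro b hb τ t₀ t₁ t₁' ε hβτ hτ0 h01 h11' h1'1 hb01 hε hεγ η hη
  obtain ⟨η₁, θ₁, hη₁, hθ₁, hbig⟩ :=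
    big b hb τ t₀ ε hβτ hτ0 (by linarith) hb01 (η / 2) (by positivity)
  obtain ⟨γ, hγdef⟩ : ∃ γ, γ = t₁ - t₀ := ⟨_, rfl⟩
  have hγ : 0 < γ := by rw [hγdef]; linarith
  obtain ⟨c, hcdef⟩ : ∃ c, c = min (γ / 4) (t₁' - t₁) := ⟨_, rfl⟩
  have hc : 0 < c := by rw [hcdef]; exact lt_min (by positivity) (by linarith)
  obtain ⟨K, hKdef⟩ : ∃ K : ℝ, K = Cn + 1 + 4 * Cn / η := ⟨_, rfl⟩
  have hK : 0 < K := by rw [hKdef]; positivity
  refine ⟨min η₁ (γ / 4), min (min 1 θ₁) (c / K), lt_min hη₁ (by positivity),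
    lt_min (lt_min one_pos hθ₁) (by positivity), ?_⟩
  intro D X htwo ρ hρ
  obtain ⟨θ, hθdef⟩ : ∃ θ, θ = min (min 1 θ₁) (c / K) := ⟨_, rfl⟩
  rw [← hθdef] at htwo
  have hθ0 : 0 < θ := by rw [hθdef]; exact lt_min (lt_min one_pos hθ₁) (by positivity)
  have hθ1 : θ ≤ 1 := by rw [hθdef]; exact (min_le_left _ _).trans (min_le_left _ _)
  have hθθ₁ : θ ≤ θ₁ := by rw [hθdef]; exact (min_le_left _ _).trans (min_le_right _ _)
  have hθc : θ ≤ c / K := by rw [hθdef]; exact min_le_right _ _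
  have hbig' := hbig D X (htwo.mono hθ0 hθθ₁) ρ
  obtain ⟨s, hsdef⟩ : ∃ s, s = Real.log D.B := ⟨_, rfl⟩
  rw [← hsdef] at htwo hρ hbig' ⊢
  have hB1 : 1 ≤ D.B := htwo.reg.one_le_B hθ1
  have hB0 : 0 < D.B := by linarith
  have hsge : 1 / θ ≤ s := htwo.okX.s_ge
  have hs0 : 0 < s := lt_of_lt_of_le (by positivity) hsge
  have hexp : K ≤ Real.exp (c * s) := sco_lab_exp c K θ s hc hK hθ0 hθc hsge
  have hexpγ4 : K ≤ Real.exp (γ / 4 * s) := hexp.trans (Real.exp_le_exp.mpr (by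
    have : c ≤ γ / 4 := by rw [hcdef]; exact min_le_left _ _
    gcongr))
  have hexpγ : K ≤ Real.exp (γ * s) := hexpγ4.trans (Real.exp_le_exp.mpr (by
    have : γ / 4 ≤ γ := by linarith
    gcongr))
  have hexpγ' : K ≤ Real.exp ((t₁' - t₁) * s) := hexp.trans (Real.exp_le_exp.mpr (by
    have : c ≤ t₁' - t₁ := by rw [hcdef]; exact min_le_right _ _
    gcongr))
  have hKCn : (Cn : ℝ) + 1 ≤ K := by
    rw [hKdef]
    have : 0 ≤ 4 * (Cn : ℝ) / η := by positivity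
    linarith
  have hKη : 4 * (Cn : ℝ) / η ≤ K := by
    rw [hKdef]
    have : (0 : ℝ) ≤ Cn := Nat.cast_nonneg _
    linarith
  -- the times
  obtain ⟨T0, hT0def⟩ : ∃ T0, T0 = prfT D.B s t₀ := ⟨_, rfl⟩
  obtain ⟨T1, hT1def⟩ : ∃ T1, T1 = prfT D.B s t₁ := ⟨_, rfl⟩
  obtain ⟨T1', hT1'def⟩ : ∃ T1', T1' = prfT D.B s t₁' := ⟨_, rfl⟩
  have ht0 : -1 ≤ t₀ := by
    have h1 := hb.adm.lo
    have h2 := hb.adm.mono 0 1 (by omega) (by omega)
    linarith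
  have hT0 : 1 ≤ T0 := by
    rw [hT0def]
    unfold prfT
    have hBe : D.B = Real.exp s := by rw [hsdef, Real.exp_log hB0]
    rw [hBe, ← Real.exp_add]
    apply Real.one_le_exp
    have : 0 ≤ (1 + t₀) * s := mul_nonneg (by linarith) hs0.le
    linarith
  have hT01 : T1 = T0 * Real.exp (γ * s) := by
    rw [hT0def, hT1def, hγdef]
    exact sco_lab_T_mul _ _ _ _
  have hT11' : T1' = T1 * Real.exp ((t₁' - t₁) * s) := by
    rw [hT1'def, hT1def]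
    exact sco_lab_T_mul _ _ _ _
  have hT0pos : 0 < T0 := by linarith
  have hT1ge : ((Cn : ℝ) + 1) * T0 ≤ T1 := by
    rw [hT01, mul_comm]
    exact mul_le_mul_of_nonneg_left (hKCn.trans hexpγ) hT0pos.le
  have hT1pos : 0 < T1 := by rw [hT01]; positivity
  have hT1'ge : (Cn : ℝ) * T1 ≤ T1' := by
    rw [hT11', mul_comm]
    exact mul_le_mul_of_nonneg_left (by linarith) hT1pos.le
  rw [← hT1def, ← hT1'def]
  rw [← hT0def] at hbig'
  -- degrees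
  obtain ⟨hL1, hLle, hDle, hDge, hCL⟩ := sco_lab_floor Cn hCn T0 T1 hT0 hT1ge
  obtain ⟨L, hLdef⟩ : ∃ L, L = ⌊T0⌋₊ := ⟨_, rfl⟩
  obtain ⟨Dd, hDddef⟩ : ∃ Dd, Dd = ⌊T1⌋₊ := ⟨_, rfl⟩
  rw [← hLdef] at hL1 hLle hCL hbig'
  rw [← hDddef] at hDle hDge hCL
  -- the family of images
  obtain ⟨G, hGdef⟩ : ∃ G, G = scoSys0 ρ L := ⟨_, rfl⟩
  rw [← hGdef] at hbig'
  obtain ⟨𝒱, h𝒱def⟩ : ∃ 𝒱, 𝒱 = (ρ.R.image spImgP).filter (fun V => IsCompOf V G) := ⟨_, rfl⟩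
  have h𝒱mem : ∀ V, V ∈ 𝒱 ↔ (∃ r ∈ ρ.R, spImgP r = V) ∧ IsCompOf V G := by
    intro V
    rw [h𝒱def, Finset.mem_filter, Finset.mem_image]
  obtain ⟨ℱ, g, ℰ, hℰ𝒱, hℱ, hgdeg, hℰdeg, hgne, hgrk⟩ :=
    hreg G L hL1 (by
      intro f hf
      rw [hGdef] at hf
      exact hf.1) (2 * (d - scoJ d b) + 1) 𝒱 (by
      intro V hV
      obtain ⟨⟨r, hr, hrV⟩, hcomp⟩ := (h𝒱mem V).mp hV
      exact ⟨hcomp, by rw [← hrV]; exact hρ.dim r hr⟩) Dd hCL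
  refine ⟨ℱ, g, ρ.R.filter (fun r => spImgP r ∈ 𝒱 ∧ spImgP r ∉ ℰ), Finset.filter_subset _ _,
    ?_, ?_, ?_, ?_, hgrk, ?_⟩
  · intro H hH
    have : ((H.totalDegree : ℕ) : ℝ) ≤ (Dd : ℝ) := by exact_mod_cast (hℱ H hH).1
    exact this.trans hDle
  · have : ((g.totalDegree : ℕ) : ℝ) ≤ ((Cn * Dd : ℕ) : ℝ) := by exact_mod_cast hgdeg
    refine this.trans ?_
    push_cast
    calc (Cn : ℝ) * Dd ≤ Cn * T1 := by gcongr
      _ ≤ T1' := hT1'ge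
  · intro r hr w hw f hf
    rw [Finset.mem_filter] at hr
    exact (hℱ f hf).2 _ hr.2.1 w hw
  · intro r hr
    rw [Finset.mem_filter] at hr
    exact hgne _ hr.2.1 hr.2.2
  · intro Λ hΛ hz
    have hρ₁ : ρ.Ok D X X s b (scoJ d b) τ ε η₁ := hρ.mono_eta (min_le_left _ _) hs0.le
    -- the pairs whose image is not a component
    have hA : ((Λ.filter (fun z => ¬ IsCompOf (spImgP (ρ.asg₁ z.1, ρ.asg₂ z.2)) G)).card : ℝ)
        ≤ η / 2 * (X.pts.card : ℝ) ^ 2 := by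
      apply hbig' hρ₁ _ ((Finset.filter_subset _ _).trans hΛ)
      intro z hzm
      rw [Finset.mem_filter] at hzm
      exact ⟨(hz z hzm.1).1, hzm.2⟩
    -- the pairs whose image is exceptional
    have hBm := hρ.mass ℰ (Λ.filter (fun z => IsCompOf (spImgP (ρ.asg₁ z.1, ρ.asg₂ z.2)) G))
      ((Finset.filter_subset _ _).trans hΛ) (by
        intro z hzm
        rw [Finset.mem_filter] at hzm
        obtain ⟨hzR, hzR'⟩ := hz z hzm.1
        refine ⟨hzR, ?_⟩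
        by_contra hcon
        apply hzR'
        rw [Finset.mem_filter]
        exact ⟨hzR, (h𝒱mem _).mpr ⟨⟨_, hzR, rfl⟩, hzm.2⟩, hcon⟩)
    have hup := hρ.deg_up 𝒱 (by
      intro Z hZ
      obtain ⟨⟨r, hr, hrV⟩, _⟩ := (h𝒱mem Z).mp hZ
      exact ⟨r, hr, hrV.symm⟩)
    have hB' : ((Λ.filter (fun z => IsCompOf (spImgP (ρ.asg₁ z.1, ρ.asg₂ z.2)) G)).card : ℝ)
        ≤ η / 2 * (X.pts.card : ℝ) ^ 2 :=
      sco_lab_mass Cn η γ ε (min η₁ (γ / 4)) s (spE D.B s b (scoJ d b)) T0 T1 (X.pts.card : ℝ)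
        (ρ.S₁.card : ℝ) (ρ.S₂.card : ℝ) _ (∑ Z ∈ ℰ, vdeg Z) (∑ Z ∈ 𝒱, vdeg Z) L Dd hη hs0
        (sco_lab_E_pos _ _ _ _ hB0) hT0 hT01 (by rw [hγdef]; exact hεγ) (min_le_right _ _)
        (hKη.trans hexpγ4) hLle hDge hℰdeg hup
        (by exact_mod_cast Finset.card_le_card hρ.sub₁)
        (by exact_mod_cast Finset.card_le_card hρ.sub₂) (Nat.cast_nonneg _) (Nat.cast_nonneg _) hBm
    have hsplit := Finset.card_filter_add_card_filter_not (s := Λ)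
      (fun z => IsCompOf (spImgP (ρ.asg₁ z.1, ρ.asg₂ z.2)) G)
    have hsplitR : (Λ.card : ℝ)
        = ((Λ.filter (fun z => IsCompOf (spImgP (ρ.asg₁ z.1, ρ.asg₂ z.2)) G)).card : ℝ)
          + ((Λ.filter (fun z => ¬ IsCompOf (spImgP (ρ.asg₁ z.1, ρ.asg₂ z.2)) G)).card : ℝ) := by
      exact_mod_cast hsplit.symm
    rw [hsplitR]
    linarith

/-- rank test by minors -/
theorem sp_rank_test {κ ι : Type*} [Fintype ι] (A : Finset (ι → MvPolynomial κ ℂ)) (L r : ℕ)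
    (hA : ∀ a ∈ A, ∀ i, (a i).totalDegree ≤ L) :
    ∃ 𝒢 : Finset (MvPolynomial κ ℂ), (∀ G ∈ 𝒢, G.totalDegree ≤ r * L) ∧
      ∀ z : κ → ℂ, (∃ G ∈ 𝒢, eval z G ≠ 0) ↔
        r ≤ finrank ℂ (Submodule.span ℂ ((fun a i => eval z (a i)) '' (A : Set (ι → MvPolynomial κ ℂ)))) :=
  mla_rank_test A L r hA

theorem sco_test (hd : 3 ≤ d) (lim : SpLimStmt d) (sec : ScoSecStmt d) : ScoTestStmt d := by
  intro b hb τ t h1 h2 h3 η hη
  have hplat := (sco_j_plat hd b hb.adm hb.top ((t + 1) / 2) (by linarith) (by linarith)).1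
  exact sctest_main lim.prod sec b hb.adm (scoJ d b) τ t h2 h3 hplat η hη

theorem sco_reg_count {V : Type*} [DecidableEq V] (P S₁ S₂ : Finset V)
    (Γ Γ' B2 B3 B4 : Finset (V × V)) (η α : ℝ) (hα : η = α / 16)
    (hΓ : Γ ⊆ P ×ˢ P) (h1 : S₁ ⊆ P) (h2 : S₂ ⊆ P)
    (l1 : (1 - η) * (P.card : ℝ) ≤ S₁.card) (l2 : (1 - η) * (P.card : ℝ) ≤ S₂.card)
    (hcov : ∀ z ∈ Γ, z ∈ S₁ ×ˢ S₂ → z ∈ Γ' ∨ z ∈ B2 ∨ z ∈ B3 ∨ z ∈ B4)
    (b2 : (B2.card : ℝ) ≤ η * (P.card : ℝ) ^ 2) (b3 : (B3.card : ℝ) ≤ η * (P.card : ℝ) ^ 2)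
    (b4 : (B4.card : ℝ) ≤ η * (P.card : ℝ) ^ 2)
    (hdense : α * (P.card : ℝ) ^ 2 ≤ Γ.card) : α / 2 * (P.card : ℝ) ^ 2 ≤ Γ'.card := by
  have hsub : Γ ⊆ Γ' ∪ (B2 ∪ (B3 ∪ (B4 ∪ (((P \ S₁) ×ˢ P) ∪ (P ×ˢ (P \ S₂)))))) := by
    intro z hz
    have hzP := Finset.mem_product.1 (hΓ hz)
    simp only [Finset.mem_union]
    by_cases hz1 : z.1 ∈ S₁
    · by_cases hz2 : z.2 ∈ S₂
      · rcases hcov z hz (Finset.mem_product.2 ⟨hz1, hz2⟩) with h | h | h | h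
        · exact Or.inl h
        · exact Or.inr (Or.inl h)
        · exact Or.inr (Or.inr (Or.inl h))
        · exact Or.inr (Or.inr (Or.inr (Or.inl h)))
      · refine Or.inr (Or.inr (Or.inr (Or.inr (Or.inr ?_))))
        exact Finset.mem_product.2 ⟨hzP.1, Finset.mem_sdiff.2 ⟨hzP.2, hz2⟩⟩
    · refine Or.inr (Or.inr (Or.inr (Or.inr (Or.inl ?_))))
      exact Finset.mem_product.2 ⟨Finset.mem_sdiff.2 ⟨hzP.1, hz1⟩, hzP.2⟩
  have hc : Γ.card ≤ Γ'.card + (B2.card + (B3.card + (B4.card +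
      ((P \ S₁).card * P.card + P.card * (P \ S₂).card)))) := by
    refine (Finset.card_le_card hsub).trans ?_
    refine (Finset.card_union_le _ _).trans (Nat.add_le_add_left ?_ _)
    refine (Finset.card_union_le _ _).trans (Nat.add_le_add_left ?_ _)
    refine (Finset.card_union_le _ _).trans (Nat.add_le_add_left ?_ _)
    refine (Finset.card_union_le _ _).trans (Nat.add_le_add_left ?_ _)
    refine (Finset.card_union_le _ _).trans ?_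
    rw [Finset.card_product, Finset.card_product]
  have hc' : (Γ.card : ℝ) ≤ Γ'.card + (B2.card + (B3.card + (B4.card +
      (((P \ S₁).card : ℝ) * P.card + P.card * ((P \ S₂).card : ℝ))))) := by
    exact_mod_cast hc
  have e1 : ((P \ S₁).card : ℝ) = P.card - S₁.card := by
    have := Finset.card_sdiff_add_card_eq_card h1
    have h' : ((P \ S₁).card : ℝ) + S₁.card = P.card := by exact_mod_cast this
    linarith
  have e2 : ((P \ S₂).card : ℝ) = P.card - S₂.card := by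
    have := Finset.card_sdiff_add_card_eq_card h2
    have h' : ((P \ S₂).card : ℝ) + S₂.card = P.card := by exact_mod_cast this
    linarith
  have hP : (0 : ℝ) ≤ P.card := Nat.cast_nonneg _
  have d1 : ((P \ S₁).card : ℝ) * P.card ≤ η * (P.card : ℝ) ^ 2 := by
    rw [e1, pow_two, ← mul_assoc]
    exact mul_le_mul_of_nonneg_right (by linarith) hP
  have d2 : (P.card : ℝ) * ((P \ S₂).card : ℝ) ≤ η * (P.card : ℝ) ^ 2 := by
    rw [e2, pow_two, mul_comm, ← mul_assoc]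
    exact mul_le_mul_of_nonneg_right (by linarith) hP
  have hP2 : (0 : ℝ) ≤ (P.card : ℝ) ^ 2 := by positivity
  rw [hα] at b2 b3 b4 d1 d2
  nlinarith

/-- **(SCO-REG)** assembly.  `m := max (b (j-1)) (1 + b 0 + b 1) < 1` (`sp_adm_margins`, `sco_j_range`), `g := (1 - m)/6`: `t₀ = m + g`, `τ = (b (j-1) + t₀)/2`, `t₁ = m + 2g`, `t₁' = m + 3g`, `t₂ = m + 4g`, `ε = g/8`, `η = α/16`.
`θ_T` from `ScoTestStmt (τ, t₁', η)`, `(η₀, θ_L)` from `ScoLabStmt`, `θ_S` from `ScoSetupStmt (τ, ε, min η₀ η)`; `θ = min`.  (`SpRet.Ok` is monotone in `η`: prove `SpRet.Ok.mono_eta` or apply the set-up with `min η₀ η` and use it for both.)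
`𝔠.Ok`, `𝔠.Outer` give `SpTwo D X X (log B) θ b`.  `σ := ⟨ρ.asg₁, ρ.F, ℱ, R', 𝔠.Γ.filter (z ∈ S₁ × S₂, carrier pair ∈ R', ScoGood)⟩`; `ρ.same`: `S₁ = S₂`, `asg₁ = asg₂`.
Losses: points `2 η n²`, `ρ.R_loss` `η n²`, `R \ R'` `η n²`, not good `η n²`: `≤ 5α/16 n² ≤ (α/2) n²`. -/
theorem sco_reg (hd : 3 ≤ d) (set : ScoSetupStmt d) (lab : ScoLabStmt d) (test : ScoTestStmt d) :
    ScoRegStmt d := by
  classical
  intro b hb h1 α hα
  obtain ⟨hJ2, hJd, hJlt, _⟩ := sco_j_range hd b hb h1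
  have hprof : ScoProf d b := ⟨hb, h1⟩
  have hβ1 : b (scoJ d b - 1) < 1 := hJlt _ (by omega)
  have hc1 : 1 + b 0 + b 1 < 1 := by linarith [(sp_adm_margins hd b hb).1]
  obtain ⟨m, hm⟩ : ∃ m, m = max (b (scoJ d b - 1)) (1 + b 0 + b 1) := ⟨_, rfl⟩
  have hmβ : b (scoJ d b - 1) ≤ m := by rw [hm]; exact le_max_left _ _
  have hmc : 1 + b 0 + b 1 ≤ m := by rw [hm]; exact le_max_right _ _
  have hm1 : m < 1 := by rw [hm]; exact max_lt hβ1 hc1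
  obtain ⟨g, hg⟩ : ∃ g, g = (1 - m) / 6 := ⟨_, rfl⟩
  have hg0 : 0 < g := by rw [hg]; linarith
  have hη : 0 < α / 16 := by positivity
  obtain ⟨θT, hθT, HT⟩ := test b hprof ((b (scoJ d b - 1) + (m + g)) / 2) (m + 3 * g)
    (by linarith) (by linarith) (by linarith) (α / 16) hη
  obtain ⟨η₀, θL, hη₀, hθL, HL⟩ := lab b hprof ((b (scoJ d b - 1) + (m + g)) / 2) (m + g)
    (m + 2 * g) (m + 3 * g) (g / 8) (by linarith) (by linarith) (by linarith) (by linarith)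
    (by linarith) (by linarith) (by linarith) (by linarith) (α / 16) hη
  have hη' : 0 < min η₀ (α / 16) := lt_min hη₀ hη
  obtain ⟨θS, hθS, HS⟩ := set b hprof ((b (scoJ d b - 1) + (m + g)) / 2) (by linarith)
    (by linarith) (g / 8) (min η₀ (α / 16)) (by linarith) hη'
  have hθ : 0 < min θT (min θL θS) := lt_min hθT (lt_min hθL hθS)
  refine ⟨m + 4 * g, min θT (min θL θS), by linarith, hθ, ?_⟩
  intro 𝔠 hok hout
  obtain ⟨hXY, hvs, hs, _, _⟩ := hout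
  have hokX : 𝔠.X.Ok 𝔠.D (Real.log 𝔠.D.B) (min θT (min θL θS)) b := by
    have := hok.okX
    rwa [hvs, hs] at this
  have htwo : SpTwo 𝔠.D 𝔠.X 𝔠.X (Real.log 𝔠.D.B) (min θT (min θL θS)) b :=
    SpTwo.self hok.reg hokX
  have hs0 : 0 ≤ Real.log 𝔠.D.B := le_trans (by positivity) hokX.s_ge
  obtain ⟨ρ, hρ, hflat⟩ := HS 𝔠.D 𝔠.X
    (htwo.mono hθ ((min_le_right _ _).trans (min_le_right _ _)))
  have hρ0 := hρ.mono_eta (min_le_left _ _) hs0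
  have hρ1 := hρ.mono_eta (min_le_right _ _) hs0
  obtain ⟨ℱ, gg, R', hR', hℱdeg, hgdeg, hvan, hgne, hrank, hloss3⟩ := HL 𝔠.D 𝔠.X
    (htwo.mono hθ ((min_le_right _ _).trans (min_le_left _ _))) ρ hρ0
  have hloss4 := HT 𝔠.D 𝔠.X (htwo.mono hθ (min_le_left _ _)) (g / 8) _ ρ hρ hflat ℱ gg R' hR'
    hgdeg hgne hrank
  obtain ⟨hSS, hasg⟩ := hρ.same rfl
  have hΓsub : 𝔠.Γ ⊆ 𝔠.X.pts ×ˢ 𝔠.X.pts := by
    have := hok.sub
    rwa [← hXY] at this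
  have hdense : α * (𝔠.X.pts.card : ℝ) ^ 2 ≤ 𝔠.Γ.card := by
    have := hok.dense
    rw [← hXY] at this
    rw [pow_two, ← mul_assoc]
    exact this
  refine ⟨⟨ρ.asg₁, ρ.F, ℱ, R', 𝔠.Γ.filter fun z => z ∈ ρ.S₁ ×ˢ ρ.S₂ ∧
    (ρ.asg₁ z.1, ρ.asg₂ z.2) ∈ R' ∧
    ScoGood (ρ.F : Set (PrfPol d)) (ℱ : Set (SpLPol d)) (scoJ d b) z.1 z.2⟩, ?_⟩
  refine ⟨hρ.asg₁, fun f hf p hp => hρ.F_van f hf p (Or.inl hp), Finset.filter_subset _ _, ?_, ?_,
    ?_, hvan, ?_⟩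
  · -- density
    have hn : (0 : ℝ) ≤ 𝔠.X.pts.card := Nat.cast_nonneg _
    have c1 : (ρ.S₁.card : ℝ) ≤ 𝔠.X.pts.card := by exact_mod_cast Finset.card_le_card hρ.sub₁
    have c2 : (ρ.S₂.card : ℝ) ≤ 𝔠.X.pts.card := by exact_mod_cast Finset.card_le_card hρ.sub₂
    refine sco_reg_count 𝔠.X.pts ρ.S₁ ρ.S₂ 𝔠.Γ _
      ((ρ.S₁ ×ˢ ρ.S₂).filter fun z => (ρ.asg₁ z.1, ρ.asg₂ z.2) ∉ ρ.R)
      ((ρ.S₁ ×ˢ ρ.S₂).filter fun z => (ρ.asg₁ z.1, ρ.asg₂ z.2) ∈ ρ.R ∧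
        (ρ.asg₁ z.1, ρ.asg₂ z.2) ∉ R')
      ((ρ.S₁ ×ˢ ρ.S₂).filter fun z => (ρ.asg₁ z.1, ρ.asg₂ z.2) ∈ R' ∧
        ¬ ScoGood (ρ.F : Set (PrfPol d)) (ℱ : Set (SpLPol d)) (scoJ d b) z.1 z.2)
      (α / 16) α rfl hΓsub hρ.sub₁ hρ.sub₂ hρ1.loss₁ hρ1.loss₂ ?_ ?_ ?_ ?_ hdense
    · intro z hz hzS
      simp only [Finset.mem_filter]
      by_cases hR : (ρ.asg₁ z.1, ρ.asg₂ z.2) ∈ ρ.R
      · by_cases hRR : (ρ.asg₁ z.1, ρ.asg₂ z.2) ∈ R'
        · by_cases hG : ScoGood (ρ.F : Set (PrfPol d)) (ℱ : Set (SpLPol d)) (scoJ d b) z.1 z.2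
          · exact Or.inl ⟨hz, hzS, hRR, hG⟩
          · exact Or.inr (Or.inr (Or.inr ⟨hzS, hRR, hG⟩))
        · exact Or.inr (Or.inr (Or.inl ⟨hzS, hR, hRR⟩))
      · exact Or.inr (Or.inl ⟨hzS, hR⟩)
    · refine (hρ1.R_loss _ (Finset.filter_subset _ _)
        (fun z hz => (Finset.mem_filter.1 hz).2)).trans ?_
      rw [pow_two, mul_assoc]
      exact mul_le_mul_of_nonneg_left (mul_le_mul c1 c2 (Nat.cast_nonneg _) hn) hη.le
    · exact hloss3 _ (Finset.filter_subset _ _) (fun z hz => (Finset.mem_filter.1 hz).2)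
    · exact hloss4 _ (Finset.filter_subset _ _) (fun z hz => (Finset.mem_filter.1 hz).2)
  · intro z hz
    have := (Finset.mem_filter.1 hz).2.2.1
    show (ρ.asg₁ z.1, ρ.asg₁ z.2) ∈ R'
    rw [← hasg] at this
    exact this
  · intro H hH
    refine (hℱdeg H hH).trans ?_
    rw [hs]
    have hB0 : 0 ≤ 𝔠.D.B := by unfold SpData.B SpData.N; positivity
    unfold prfT
    refine mul_le_mul_of_nonneg_left (Real.exp_le_exp.2 ?_) hB0
    exact mul_le_mul_of_nonneg_right (by linarith) hs0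
  · intro z hz
    exact (Finset.mem_filter.1 hz).2.2.2

end Claimed.Agent.R273
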