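import Claimed.Agent.R273.GeoTri
import Claimed.Agent.R273.ScoReg

/-!
# Row 273, S4: exports in the shapes consumed by the other units.  Architect helper26.
* `geo_scoSec : ScoSecStmt d` (helper37, outermost endpoint), PROVED from `geo_sec_b`.
-/

set_option autoImplicit false

namespace Claimed.Agent.R273

open MvPolynomial Module

variable {d : ℕ}

theorem geo_inFlat_mono {T T' : Set (SpC d)} {u : ℕ} (h : T ⊆ T') (hT : InFlat T' u) :
    InFlat T u := by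
  obtain ⟨x₀, W, hW, hx⟩ := hT
  exact ⟨x₀, W, hW, fun x hxT => hx x (h hxT)⟩

theorem geo_scoSec (d : ℕ) : ScoSecStmt d := by
  intro k 𝔵 𝔶 h𝔵 h𝔶 _ hx hy _ hgen
  have hX : IsVar (spZ 𝔵) := ⟨𝔵, h𝔵, rfl⟩
  have hY : IsVar (spZ 𝔶) := ⟨𝔶, h𝔶, rfl⟩
  have h1 : GenOn (prodSet (spZ 𝔵) (spZ 𝔶)) (GeoTanLE (spZ 𝔵) (spZ 𝔶)) := by
    refine geo_gen_mono hgen fun z _ heq ξ hξ => ?_
    rw [spZ, geo_tanAt_prime _ h𝔵] at hξ
    have h2 : ξ ∈ tanSp 𝔶 (prR z) ⊔ Submodule.span ℂ {prR z - prL z} := by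
      rw [← heq]
      exact Submodule.mem_sup_left hξ
    obtain ⟨η, hη, w, hw, rfl⟩ := Submodule.mem_sup.mp h2
    obtain ⟨c, rfl⟩ := Submodule.mem_span_singleton.mp hw
    refine ⟨η, ?_, c, rfl⟩
    rw [spZ, geo_tanAt_prime _ h𝔶]
    exact hη
  have h2 : GenOn (prodSet (spZ 𝔵) (spZ 𝔶)) (GeoTanGE (spZ 𝔵) (spZ 𝔶)) := by
    refine geo_gen_mono hgen fun z _ heq η hη => ?_
    rw [spZ, geo_tanAt_prime _ h𝔶] at hη
    have h2 : η ∈ tanSp 𝔵 (prL z) ⊔ Submodule.span ℂ {prR z - prL z} := by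
      rw [heq]
      exact Submodule.mem_sup_left hη
    obtain ⟨ξ, hξ, w, hw, rfl⟩ := Submodule.mem_sup.mp h2
    obtain ⟨c, rfl⟩ := Submodule.mem_span_singleton.mp hw
    refine ⟨ξ, ?_, c, rfl⟩
    rw [spZ, geo_tanAt_prime _ h𝔵]
    exact hξ
  have h3 := geo_sec_b hX hY (hx.trans hy.symm) h1 h2
  rw [hx] at h3
  exact ⟨geo_inFlat_mono Set.subset_union_left h3, geo_inFlat_mono Set.subset_union_right h3⟩

end Claimed.Agent.R273
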