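-- KEEP
import Mathlib

/-!
# Row 273, S4 TERM / assigned lines (secants.tex l.252-337): THE NUMERICS.  Architect helper28.  Prefix `geo_tl_`.  Mathlib only.

SIMPLIFICATION w.r.t. the paper: no dyadic decomposition in `s`, no Hoelder, no logarithms.  Szemeredi-Trotter is used in the LINEARISED form
  `I(L', H') ≤ C (|L'|² / τ² + τ |H'| + |L'| + |H'|)`  for every `τ > 0`      (`x^{2/3} y^{2/3} ≤ x²/τ² + τ y`, `geo_tl_amgm`).

`geo_tl_count` (abstract weighted count; stated and proved in GeoTLCnt.lean).  Lines `l ∈ 𝓛` of weight `n l ≥ 1`, total weight `≤ N`; planes `H ∈ 𝓗` with `h H` points; `S H = ∑_{l ⊂ H} n l`, `A ≤ S H ≤ h H ≤ hmax`; `n l * h H ≤ K = 2^k₀` for `l ⊂ H`; `32 C K ≤ A²`.  Then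
  `∑_H h H * S H ≤ 16 C N hmax + 73728 C³ K N² / A²`.
Proof.  Classes `L_i = {l : log₂ (n l) = i}`, `H_a = {H : log₂ (h H) = a}`, `m_i = |L_i|`, `N_i = ∑_{L_i} n l ≥ 2^i m_i`, `F_a = |H_a|`.  An incidence between `L_i` and `H_a` forces `i + a ≤ k₀`.
Fix `a`, put `j = k₀ - a - i`, `w_j = (3/4)^j`, `κ = 1/(32 C)`, `τ_i = κ A w_j / 2^i`:
  `Σ_a := ∑_{H ∈ H_a} S H ≤ ∑_{i ≤ k₀ - a} 2^{i+1} I(L_i, H_a) ≤ 2 C ∑_i [2^i N_i² / (κ A w_j)² + κ A w_j F_a + N_i + 2^i F_a] ≤ 2 C [X_a + 4 κ A F_a + N + 2^{k₀-a+1} F_a]`.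
`A F_a ≤ Σ_a`; `8 C κ A F_a = A F_a / 4`; `2^{a+1} > h H ≥ A`, so `2 C 2^{k₀-a+1} F_a ≤ 8 C K F_a / A ≤ A F_a / 4`.  Hence `Σ_a ≤ 4 C (N + X_a)`, and
  `∑_{H_a} h H S H ≤ 2^{a+1} Σ_a ≤ 8 C (2^a N + ∑_i 2^{a+i} N_i² / (κ A w_j)²)`, `2^{a+i} / w_j² = K (8/9)^j`.
`∑_{a : H_a ≠ ∅} 2^a ≤ 2 hmax`;  `∑_a (8/9)^j ≤ 9`;  `∑_i N_i² ≤ N²`.
-/

set_option autoImplicit false

namespace Claimed.Agent.R273

open scoped Classical
open Finset

/-- linearisation of the Szemeredi-Trotter main term -/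
theorem geo_tl_amgm (x y τ : ℝ) (hx : 0 ≤ x) (hy : 0 ≤ y) (hτ : 0 < τ) :
    x ^ ((2 : ℝ) / 3) * y ^ ((2 : ℝ) / 3) ≤ x ^ 2 / τ ^ 2 + τ * y := by
  have h1 : (0 : ℝ) ≤ x ^ 2 / τ ^ 2 := by positivity
  have h2 : (0 : ℝ) ≤ τ * y := by positivity
  have h := Real.geom_mean_le_arith_mean2_weighted (w₁ := 1 / 3) (w₂ := 2 / 3) (by norm_num)
    (by norm_num) h1 h2 (by norm_num)
  have e1 : (x ^ 2 / τ ^ 2) ^ ((1 : ℝ) / 3) = x ^ ((2 : ℝ) / 3) / τ ^ ((2 : ℝ) / 3) := by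
    rw [Real.div_rpow (by positivity) (by positivity), ← Real.rpow_natCast x 2,
      ← Real.rpow_natCast τ 2, ← Real.rpow_mul hx, ← Real.rpow_mul hτ.le]
    norm_num
  have e2 : (τ * y) ^ ((2 : ℝ) / 3) = τ ^ ((2 : ℝ) / 3) * y ^ ((2 : ℝ) / 3) :=
    Real.mul_rpow hτ.le hy
  have hτ' : (0 : ℝ) < τ ^ ((2 : ℝ) / 3) := Real.rpow_pos_of_pos hτ _
  have e3 : x ^ ((2 : ℝ) / 3) * y ^ ((2 : ℝ) / 3)
      = (x ^ 2 / τ ^ 2) ^ ((1 : ℝ) / 3) * (τ * y) ^ ((2 : ℝ) / 3) := by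
    rw [e1, e2]
    field_simp
  rw [e3]
  linarith

theorem geo_tl_geom (r : ℝ) (h0 : 0 ≤ r) (h1 : r < 1) (m : ℕ) :
    ∑ i ∈ range (m + 1), r ^ (m - i) ≤ 1 / (1 - r) := by
  rw [Finset.sum_flip (fun k => r ^ k), le_div_iff₀ (by linarith)]
  have h := geom_sum_mul_neg r (m + 1)
  have h2 : (0 : ℝ) ≤ r ^ (m + 1) := by positivity
  linarith

/-- the arithmetic of the line-plane product `b h ≤ C' M²` -/
theorem geo_tl_prod_num (C b h M : ℝ) (hC : 1 ≤ C) (hb : 0 ≤ b) (hbh : b ≤ h) (hM : 1 ≤ M)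
    (h2 : h ≤ 2 * M ^ 2)
    (hI : h / 2 * (b - 1) ≤ C * (h ^ ((2 : ℝ) / 3) * (b * M) ^ ((2 : ℝ) / 3) + h + b * M)) :
    b * h ≤ 512 * C ^ 3 * M ^ 2 := by
  have hh : 0 ≤ h := hb.trans hbh
  have hM0 : 0 < M := by linarith
  have hC0 : 0 < C := by linarith
  have hC2 : 1 ≤ C ^ 2 := by nlinarith
  have hC3 : C ≤ C ^ 3 := by nlinarith
  have hC23 : C ^ 2 ≤ C ^ 3 := by nlinarith
  have hM2 : 0 < M ^ 2 := by positivity
  by_cases hb16 : b ≤ 16 * C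
  · calc b * h ≤ (16 * C) * (2 * M ^ 2) := mul_le_mul hb16 h2 hh (by positivity)
      _ = 32 * C * M ^ 2 := by ring
      _ ≤ 512 * C ^ 3 * M ^ 2 := by nlinarith
  · push Not at hb16
    set t : ℝ := (h * (b * M)) ^ ((1 : ℝ) / 3) with ht
    have hbM : 0 ≤ b * M := by positivity
    have ht0 : 0 ≤ t := Real.rpow_nonneg (by positivity) _
    have ht3 : t ^ 3 = h * (b * M) := by
      rw [ht, ← Real.rpow_natCast, ← Real.rpow_mul (by positivity)]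
      norm_num
    have ht2 : h ^ ((2 : ℝ) / 3) * (b * M) ^ ((2 : ℝ) / 3) = t ^ 2 := by
      rw [ht, ← Real.mul_rpow hh hbM, ← Real.rpow_natCast, ← Real.rpow_mul (by positivity)]
      norm_num
    rw [ht2] at hI
    -- 13/32 h b ≤ C (t^2 + b M)
    have k1 : C * h ≤ h * b / 16 := by nlinarith
    have k2 : h / 2 * (b - 1) ≥ 15 / 32 * (h * b) := by nlinarith
    have k3 : 13 / 32 * (h * b) ≤ C * (t ^ 2 + b * M) := by nlinarith
    by_cases hc : b * M ≤ t ^ 2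
    · -- 13/64 hb ≤ C t^2
      have k4 : 13 / 64 * (h * b) ≤ C * t ^ 2 := by nlinarith
      have k5 : 13 / 64 * t ^ 3 ≤ C * M * t ^ 2 := by
        rw [ht3]; nlinarith
      have k6 : t ≤ 64 / 13 * (C * M) := by
        by_contra hcon
        push Not at hcon
        have htpos : 0 < t := lt_of_le_of_lt (by positivity) hcon
        have : C * M * t ^ 2 < 13 / 64 * t ^ 3 := by
          have : 0 < t ^ 2 := by positivity
          nlinarith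
        linarith
      have k7 : t ^ 3 ≤ (64 / 13 * (C * M)) ^ 3 := pow_le_pow_left₀ ht0 k6 3
      rw [ht3] at k7
      have k8 : (b * h) * M ≤ (512 * C ^ 3 * M ^ 2) * M := by
        have : (0 : ℝ) ≤ C ^ 3 * M ^ 3 := by positivity
        nlinarith
      exact le_of_mul_le_mul_right k8 hM0
    · push Not at hc
      have k4 : 13 / 64 * (h * b) ≤ C * (b * M) := by nlinarith
      have hbpos : 0 < b := by linarith
      have k5 : h ≤ 64 / 13 * (C * M) := by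
        have : (13 / 64 * h) * b ≤ (C * M) * b := by nlinarith
        have := le_of_mul_le_mul_right this hbpos
        linarith
      have k6 : b * h ≤ (64 / 13 * (C * M)) ^ 2 := by
        have : b * h ≤ h * h := mul_le_mul_of_nonneg_right hbh hh
        have h3 : h * h ≤ (64 / 13 * (C * M)) * (64 / 13 * (C * M)) := mul_le_mul k5 k5 hh (by positivity)
        nlinarith
      have : (0 : ℝ) ≤ C ^ 3 * M ^ 2 := by positivity
      have h4 : C ^ 2 * M ^ 2 ≤ C ^ 3 * M ^ 2 := mul_le_mul_of_nonneg_right hC23 hM2.le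
      nlinarith

end Claimed.Agent.R273
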