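-- KEEP
import Claimed.Agent.R273.GeoTLNum

/-!
# Row 273, S4 TERM / assigned lines: the abstract weighted count `geo_tl_count`.  helper28.  Plan: header of GeoTLNum.lean.
-/

set_option autoImplicit false

namespace Claimed.Agent.R273

open scoped Classical
open Finset

/-- one class of lines against one family of planes -/
theorem geo_tl_cls {α β : Type} (L' : Finset α) (H' : Finset β) (inc : α → β → Prop) (n : α → ℕ)
    (C T : ℝ) (i : ℕ) (hC : 0 ≤ C) (hT : 0 < T)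
    (hST : ∀ τ : ℝ, 0 < τ → ((∑ H ∈ H', (L'.filter (fun l => inc l H)).card : ℕ) : ℝ) ≤
        C * ((L'.card : ℝ) ^ 2 / τ ^ 2 + τ * H'.card + L'.card + H'.card))
    (hn1 : ∀ l ∈ L', 2 ^ i ≤ n l) (hn2 : ∀ l ∈ L', n l < 2 ^ (i + 1)) :
    (∑ H ∈ H', ∑ l ∈ L'.filter (fun l => inc l H), (n l : ℝ)) ≤
      2 * C * (2 ^ i * (∑ l ∈ L', (n l : ℝ)) ^ 2 / T ^ 2 + T * H'.card + ∑ l ∈ L', (n l : ℝ)
        + 2 ^ i * H'.card) := by
  set p : ℝ := 2 ^ i with hp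
  have hp0 : 0 < p := by positivity
  set m : ℝ := (L'.card : ℝ) with hm'
  set F : ℝ := (H'.card : ℝ) with hF'
  set Ni : ℝ := ∑ l ∈ L', (n l : ℝ) with hNi
  have hm0 : 0 ≤ m := Nat.cast_nonneg _
  have hF0 : 0 ≤ F := Nat.cast_nonneg _
  have hm : p * m ≤ Ni := by
    calc p * m = ∑ _l ∈ L', p := by simp [mul_comm, hm']
      _ ≤ Ni := sum_le_sum (fun l hl => by
          have := hn1 l hl
          rw [hp]
          exact_mod_cast this)
  have h1 : (∑ H ∈ H', ∑ l ∈ L'.filter (fun l => inc l H), (n l : ℝ)) ≤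
      2 * p * ((∑ H ∈ H', (L'.filter (fun l => inc l H)).card : ℕ) : ℝ) := by
    push_cast
    rw [mul_sum]
    apply sum_le_sum
    intro H _
    calc ∑ l ∈ L'.filter (fun l => inc l H), (n l : ℝ)
        ≤ ∑ _l ∈ L'.filter (fun l => inc l H), (2 * p) := sum_le_sum (fun l hl => by
          have := (hn2 l (mem_filter.1 hl).1).le
          rw [hp]
          have h' : (n l : ℝ) ≤ 2 ^ (i + 1) := by exact_mod_cast this
          rw [pow_succ] at h'
          linarith)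
      _ = 2 * p * ((L'.filter (fun l => inc l H)).card : ℝ) := by simp [mul_comm]
  have h2 := hST (T / p) (by positivity)
  have h3 : 2 * p * (C * (m ^ 2 / (T / p) ^ 2 + T / p * F + m + F)) =
      2 * C * (p * (p * m) ^ 2 / T ^ 2 + T * F + p * m + p * F) := by
    field_simp
  have h4 : (p * m) ^ 2 ≤ Ni ^ 2 := pow_le_pow_left₀ (by positivity) hm 2
  calc _ ≤ 2 * p * ((∑ H ∈ H', (L'.filter (fun l => inc l H)).card : ℕ) : ℝ) := h1
    _ ≤ 2 * p * (C * (m ^ 2 / (T / p) ^ 2 + T / p * F + m + F)) := by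
        apply mul_le_mul_of_nonneg_left h2 (by positivity)
    _ = 2 * C * (p * (p * m) ^ 2 / T ^ 2 + T * F + p * m + p * F) := h3
    _ ≤ 2 * C * (p * Ni ^ 2 / T ^ 2 + T * F + Ni + p * F) := by
        apply mul_le_mul_of_nonneg_left _ (by positivity)
        have : p * (p * m) ^ 2 / T ^ 2 ≤ p * Ni ^ 2 / T ^ 2 := by
          apply div_le_div_of_nonneg_right _ (by positivity)
          exact mul_le_mul_of_nonneg_left h4 hp0.le
        linarith

/-- one dyadic class of planes -/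
theorem geo_tl_row {α β : Type} (𝓛 : Finset α) (𝓗 : Finset β) (inc : α → β → Prop)
    (n : α → ℕ) (h : β → ℕ) (C A N : ℝ) (k₀ : ℕ) (hC : 1 ≤ C) (hA : 0 < A)
    (hST : ∀ 𝓛' ⊆ 𝓛, ∀ 𝓗' ⊆ 𝓗, ∀ τ : ℝ, 0 < τ →
      ((∑ H ∈ 𝓗', (𝓛'.filter (fun l => inc l H)).card : ℕ) : ℝ) ≤
        C * ((𝓛'.card : ℝ) ^ 2 / τ ^ 2 + τ * 𝓗'.card + 𝓛'.card + 𝓗'.card))
    (hpos : ∀ l ∈ 𝓛, 1 ≤ n l)
    (hmass : ∑ l ∈ 𝓛, (n l : ℝ) ≤ N)
    (hprod : ∀ l ∈ 𝓛, ∀ H ∈ 𝓗, inc l H → n l * h H ≤ 2 ^ k₀)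
    (hS1 : ∀ H ∈ 𝓗, A ≤ ∑ l ∈ 𝓛.filter (fun l => inc l H), (n l : ℝ))
    (hS2 : ∀ H ∈ 𝓗, ∑ l ∈ 𝓛.filter (fun l => inc l H), (n l : ℝ) ≤ h H)
    (hK : 32 * C * 2 ^ k₀ ≤ A ^ 2) (a : ℕ) (ha : a ≤ k₀) :
    ∑ H ∈ 𝓗.filter (fun H => Nat.log 2 (h H) = a),
        ∑ l ∈ 𝓛.filter (fun l => inc l H), (n l : ℝ) ≤
      4 * C * (N + ∑ i ∈ range (k₀ - a + 1),
        2 ^ i * (∑ l ∈ 𝓛.filter (fun l => Nat.log 2 (n l) = i), (n l : ℝ)) ^ 2 /
          (A / (32 * C) * (3 / 4) ^ (k₀ - a - i)) ^ 2) := by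
  have hC0 : 0 < C := by linarith
  set Ha := 𝓗.filter (fun H => Nat.log 2 (h H) = a) with hHa
  set Li : ℕ → Finset α := fun i => 𝓛.filter (fun l => Nat.log 2 (n l) = i) with hLi
  set Ni : ℕ → ℝ := fun i => ∑ l ∈ Li i, (n l : ℝ) with hNi
  set T : ℕ → ℝ := fun i => A / (32 * C) * (3 / 4) ^ (k₀ - a - i) with hT
  set F : ℝ := (Ha.card : ℝ) with hF
  set X : ℝ := ∑ i ∈ range (k₀ - a + 1), 2 ^ i * (Ni i) ^ 2 / (T i) ^ 2 with hX
  have hT0 : ∀ i, 0 < T i := fun i => by rw [hT]; positivity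
  have hNi0 : ∀ i, 0 ≤ Ni i := fun i => sum_nonneg (fun l _ => Nat.cast_nonneg _)
  have hX0 : 0 ≤ X := sum_nonneg (fun i _ => by have := hT0 i; have := hNi0 i; positivity)
  have hN0 : 0 ≤ N := le_trans (sum_nonneg (fun l _ => Nat.cast_nonneg _)) hmass
  have hF0 : 0 ≤ F := Nat.cast_nonneg _
  have hHsub : Ha ⊆ 𝓗 := filter_subset _ _
  -- `h H ≠ 0`
  have hh0 : ∀ H ∈ 𝓗, h H ≠ 0 := by
    intro H hH h0
    have := (hS1 H hH).trans (hS2 H hH)
    rw [h0] at this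
    simp at this
    linarith
  have e1 : ∀ H ∈ Ha, ∑ l ∈ 𝓛.filter (fun l => inc l H), (n l : ℝ) =
      ∑ i ∈ range (k₀ - a + 1), ∑ l ∈ (Li i).filter (fun l => inc l H), (n l : ℝ) := by
    intro H hH
    rw [← sum_fiberwise_of_maps_to (g := fun l => Nat.log 2 (n l)) (t := range (k₀ - a + 1))]
    · apply sum_congr rfl
      intro i _
      rw [hLi]
      simp only [filter_filter]
      apply sum_congr _ (fun _ _ => rfl)
      ext l
      simp only [mem_filter]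
      tauto
    · intro l hl
      obtain ⟨hl1, hl2⟩ := mem_filter.1 hl
      obtain ⟨hH1, hH2⟩ := mem_filter.1 hH
      have h1 : 2 ^ Nat.log 2 (n l) ≤ n l :=
        Nat.pow_log_le_self 2 (by have := hpos l hl1; omega)
      have h2 : 2 ^ a ≤ h H := by
        rw [← hH2]
        exact Nat.pow_log_le_self 2 (hh0 H hH1)
      have h3 : 2 ^ (Nat.log 2 (n l) + a) ≤ 2 ^ k₀ := by
        rw [pow_add]
        exact (Nat.mul_le_mul h1 h2).trans (hprod l hl1 H hH1 hl2)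
      have h4 := (Nat.pow_le_pow_iff_right (by norm_num : 1 < 2)).1 h3
      rw [mem_range]
      omega
  have e2 : ∑ H ∈ Ha, ∑ l ∈ 𝓛.filter (fun l => inc l H), (n l : ℝ) =
      ∑ i ∈ range (k₀ - a + 1), ∑ H ∈ Ha, ∑ l ∈ (Li i).filter (fun l => inc l H), (n l : ℝ) := by
    rw [sum_comm]
    exact sum_congr rfl e1
  have e3 : ∀ i ∈ range (k₀ - a + 1),
      ∑ H ∈ Ha, ∑ l ∈ (Li i).filter (fun l => inc l H), (n l : ℝ) ≤
        2 * C * (2 ^ i * (Ni i) ^ 2 / (T i) ^ 2 + T i * F + Ni i + 2 ^ i * F) := by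
    intro i _
    apply geo_tl_cls (Li i) Ha inc n C (T i) i hC0.le (hT0 i)
      (hST (Li i) (filter_subset _ _) Ha hHsub)
    · intro l hl
      obtain ⟨hl1, hl2⟩ := mem_filter.1 hl
      rw [← hl2]
      exact Nat.pow_log_le_self 2 (by have := hpos l hl1; omega)
    · intro l hl
      obtain ⟨hl1, hl2⟩ := mem_filter.1 hl
      rw [← hl2]
      exact Nat.lt_pow_succ_log_self (by norm_num) _
  have s1 : ∑ i ∈ range (k₀ - a + 1), T i ≤ A / (32 * C) * 4 := by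
    rw [hT, ← mul_sum]
    apply mul_le_mul_of_nonneg_left _ (by positivity)
    have := geo_tl_geom (3 / 4) (by norm_num) (by norm_num) (k₀ - a)
    norm_num at this ⊢
    exact this
  have s2 : ∑ i ∈ range (k₀ - a + 1), Ni i ≤ N := by
    refine le_trans ?_ hmass
    apply sum_fiberwise_le_sum_of_sum_fiber_nonneg
    intro y _
    exact sum_nonneg (fun l _ => Nat.cast_nonneg _)
  have s3 : ∑ i ∈ range (k₀ - a + 1), (2 : ℝ) ^ i ≤ 2 ^ (k₀ - a + 1) := by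
    rw [geom_sum_eq (by norm_num)]
    norm_num
  have e4 : ∑ H ∈ Ha, ∑ l ∈ 𝓛.filter (fun l => inc l H), (n l : ℝ) ≤
      2 * C * (X + A / (32 * C) * 4 * F + N + 2 ^ (k₀ - a + 1) * F) := by
    rw [e2]
    refine (sum_le_sum e3).trans ?_
    rw [← mul_sum]
    apply mul_le_mul_of_nonneg_left _ (by positivity)
    simp only [sum_add_distrib, ← sum_mul]
    have t1 := mul_le_mul_of_nonneg_right s1 hF0
    have t3 := mul_le_mul_of_nonneg_right s3 hF0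
    linarith
  have e5 : A * F ≤ ∑ H ∈ Ha, ∑ l ∈ 𝓛.filter (fun l => inc l H), (n l : ℝ) := by
    calc A * F = ∑ _H ∈ Ha, A := by simp [mul_comm, hF]
      _ ≤ _ := sum_le_sum (fun H hH => hS1 H (hHsub hH))
  have e6 : 2 * C * (2 ^ (k₀ - a + 1) * F) ≤ A * F / 4 := by
    rcases Ha.eq_empty_or_nonempty with hem | ⟨H, hH⟩
    · have : F = 0 := by rw [hF, hem]; simp
      rw [this]; simp
    · obtain ⟨hH1, hH2⟩ := mem_filter.1 hH
      have h1 : (h H : ℝ) < 2 ^ (a + 1) := by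
        have := Nat.lt_pow_succ_log_self (by norm_num : 1 < 2) (h H)
        rw [hH2] at this
        exact_mod_cast this
      have h2 : A < 2 ^ (a + 1) := lt_of_le_of_lt ((hS1 H hH1).trans (hS2 H hH1)) h1
      have h3 : (2 : ℝ) ^ (k₀ - a + 1) * 2 ^ (a + 1) = 4 * 2 ^ k₀ := by
        rw [← pow_add]
        have : k₀ - a + 1 + (a + 1) = k₀ + 2 := by omega
        rw [this, pow_add]
        ring
      have h4 : (2 : ℝ) ^ (k₀ - a + 1) * A ≤ 4 * 2 ^ k₀ := by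
        rw [← h3]
        exact mul_le_mul_of_nonneg_left h2.le (by positivity)
      have h5 : 2 * C * 2 ^ (k₀ - a + 1) ≤ A / 4 := by
        have : 2 * C * 2 ^ (k₀ - a + 1) * A ≤ A / 4 * A := by nlinarith
        exact le_of_mul_le_mul_right this hA
      calc 2 * C * (2 ^ (k₀ - a + 1) * F) = 2 * C * 2 ^ (k₀ - a + 1) * F := by ring
        _ ≤ A / 4 * F := mul_le_mul_of_nonneg_right h5 hF0
        _ = A * F / 4 := by ring
  have e7 : 2 * C * (A / (32 * C) * 4 * F) = A * F / 4 := by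
    field_simp
    ring
  nlinarith

/-- the algebra of one term -/
theorem geo_tl_term (C A y : ℝ) (hC : 0 < C) (hA : 0 < A) (k₀ a i : ℕ) (hi : a + i ≤ k₀) :
    (2 : ℝ) ^ a * (2 ^ i * y / (A / (32 * C) * (3 / 4) ^ (k₀ - a - i)) ^ 2) =
      2 ^ k₀ * 1024 * C ^ 2 / A ^ 2 * ((8 / 9) ^ (k₀ - a - i) * y) := by
  set j := k₀ - a - i with hj
  have h1 : (2 : ℝ) ^ k₀ = 2 ^ a * 2 ^ i * 2 ^ j := by
    rw [← pow_add, ← pow_add]
    congr 1
    omega
  have h2 : (((3 : ℝ) / 4) ^ j) ^ 2 * (8 / 9) ^ j * 2 ^ j = 1 := by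
    rw [← pow_mul, mul_comm j 2, pow_mul, ← mul_pow, ← mul_pow]
    norm_num
  set w : ℝ := (3 / 4) ^ j with hw
  have hw0 : 0 < w := by positivity
  set g : ℝ := (8 / 9) ^ j
  set u : ℝ := 2 ^ j
  rw [h1]
  have h3 : 1 / w ^ 2 = g * u := by
    field_simp
    linarith
  calc (2 : ℝ) ^ a * (2 ^ i * y / (A / (32 * C) * w) ^ 2)
      = 2 ^ a * 2 ^ i * y * 1024 * C ^ 2 / A ^ 2 * (1 / w ^ 2) := by
        field_simp
        ring
    _ = _ := by
        rw [h3]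
        ring

/-- **the abstract weighted count** -/
theorem geo_tl_count {α β : Type} (𝓛 : Finset α) (𝓗 : Finset β) (inc : α → β → Prop)
    (n : α → ℕ) (h : β → ℕ) (C A N : ℝ) (k₀ hmax : ℕ) (hC : 1 ≤ C) (hA : 0 < A)
    (hST : ∀ 𝓛' ⊆ 𝓛, ∀ 𝓗' ⊆ 𝓗, ∀ τ : ℝ, 0 < τ →
      ((∑ H ∈ 𝓗', (𝓛'.filter (fun l => inc l H)).card : ℕ) : ℝ) ≤
        C * ((𝓛'.card : ℝ) ^ 2 / τ ^ 2 + τ * 𝓗'.card + 𝓛'.card + 𝓗'.card))
    (hpos : ∀ l ∈ 𝓛, 1 ≤ n l)
    (hmass : ((∑ l ∈ 𝓛, n l : ℕ) : ℝ) ≤ N)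
    (hprod : ∀ l ∈ 𝓛, ∀ H ∈ 𝓗, inc l H → n l * h H ≤ 2 ^ k₀)
    (hS1 : ∀ H ∈ 𝓗, A ≤ ((∑ l ∈ 𝓛.filter (fun l => inc l H), n l : ℕ) : ℝ))
    (hS2 : ∀ H ∈ 𝓗, ∑ l ∈ 𝓛.filter (fun l => inc l H), n l ≤ h H)
    (hcap : ∀ H ∈ 𝓗, h H ≤ hmax)
    (hK : 32 * C * 2 ^ k₀ ≤ A ^ 2) :
    ((∑ H ∈ 𝓗, h H * ∑ l ∈ 𝓛.filter (fun l => inc l H), n l : ℕ) : ℝ) ≤
      16 * C * N * hmax + 73728 * C ^ 3 * 2 ^ k₀ * N ^ 2 / A ^ 2 := by
  have hC0 : 0 < C := by linarith
  have hmass' : ∑ l ∈ 𝓛, (n l : ℝ) ≤ N := by exact_mod_cast hmass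
  have hS1' : ∀ H ∈ 𝓗, A ≤ ∑ l ∈ 𝓛.filter (fun l => inc l H), (n l : ℝ) := by
    intro H hH
    exact_mod_cast hS1 H hH
  have hS2' : ∀ H ∈ 𝓗, ∑ l ∈ 𝓛.filter (fun l => inc l H), (n l : ℝ) ≤ h H := by
    intro H hH
    exact_mod_cast hS2 H hH
  have hN0 : 0 ≤ N := le_trans (sum_nonneg (fun l _ => Nat.cast_nonneg _)) hmass'
  rcases 𝓗.eq_empty_or_nonempty with hem | ⟨H₀, hH₀⟩
  · rw [hem]
    simp only [sum_empty, Nat.cast_zero]
    positivity
  push_cast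
  set S : β → ℝ := fun H => ∑ l ∈ 𝓛.filter (fun l => inc l H), (n l : ℝ) with hS
  have hS0 : ∀ H, 0 ≤ S H := fun H => sum_nonneg (fun l _ => Nat.cast_nonneg _)
  set Ni : ℕ → ℝ := fun i => ∑ l ∈ 𝓛.filter (fun l => Nat.log 2 (n l) = i), (n l : ℝ) with hNi
  have hNi0 : ∀ i, 0 ≤ Ni i := fun i => sum_nonneg (fun l _ => Nat.cast_nonneg _)
  set X : ℕ → ℝ := fun a => ∑ i ∈ range (k₀ - a + 1),
        2 ^ i * (Ni i) ^ 2 / (A / (32 * C) * (3 / 4) ^ (k₀ - a - i)) ^ 2 with hX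
  have hX0 : ∀ a, 0 ≤ X a := fun a => sum_nonneg (fun i _ => by have := hNi0 i; positivity)
  set amax := Nat.log 2 hmax with hamax
  set R := (range (k₀ + 1)).filter (fun a => a ≤ amax) with hR
  have hh0 : ∀ H ∈ 𝓗, h H ≠ 0 := by
    intro H hH h0
    have := (hS1' H hH).trans (hS2' H hH)
    rw [h0] at this
    simp at this
    linarith
  have f1 : ∑ H ∈ 𝓗, (h H : ℝ) * S H =
      ∑ a ∈ R, ∑ H ∈ 𝓗.filter (fun H => Nat.log 2 (h H) = a), (h H : ℝ) * S H := by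
    symm
    apply sum_fiberwise_of_maps_to
    intro H hH
    rw [hR, mem_filter, mem_range]
    refine ⟨?_, Nat.log_mono_right (hcap H hH)⟩
    -- some line lies in `H`
    have hne : (𝓛.filter (fun l => inc l H)).Nonempty := by
      by_contra hem
      rw [not_nonempty_iff_eq_empty] at hem
      have := hS1' H hH
      rw [hem] at this
      simp at this
      linarith
    obtain ⟨l, hl⟩ := hne
    obtain ⟨hl1, hl2⟩ := mem_filter.1 hl
    have h1 : h H ≤ 2 ^ k₀ := by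
      have := hprod l hl1 H hH hl2
      have h' := hpos l hl1
      nlinarith
    have h2 : 2 ^ Nat.log 2 (h H) ≤ 2 ^ k₀ := (Nat.pow_log_le_self 2 (hh0 H hH)).trans h1
    have h3 := (Nat.pow_le_pow_iff_right (by norm_num : 1 < 2)).1 h2
    omega
  have f2 : ∀ a ∈ R, ∑ H ∈ 𝓗.filter (fun H => Nat.log 2 (h H) = a), (h H : ℝ) * S H ≤
      8 * C * N * 2 ^ a + 8 * C * (2 ^ a * X a) := by
    intro a ha
    have ha' : a ≤ k₀ := by
      have := (mem_filter.1 ha).1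
      rw [mem_range] at this
      omega
    have hrow := geo_tl_row 𝓛 𝓗 inc n h C A N k₀ hC hA hST hpos hmass' hprod hS1' hS2' hK a ha'
    calc ∑ H ∈ 𝓗.filter (fun H => Nat.log 2 (h H) = a), (h H : ℝ) * S H
        ≤ ∑ H ∈ 𝓗.filter (fun H => Nat.log 2 (h H) = a), 2 ^ (a + 1) * S H := by
          apply sum_le_sum
          intro H hH
          apply mul_le_mul_of_nonneg_right _ (hS0 H)
          have := Nat.lt_pow_succ_log_self (by norm_num : 1 < 2) (h H)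
          rw [(mem_filter.1 hH).2] at this
          exact_mod_cast this.le
      _ = 2 ^ (a + 1) * ∑ H ∈ 𝓗.filter (fun H => Nat.log 2 (h H) = a), S H := by rw [mul_sum]
      _ ≤ 2 ^ (a + 1) * (4 * C * (N + X a)) := mul_le_mul_of_nonneg_left hrow (by positivity)
      _ = _ := by rw [pow_succ]; ring
  have f3 : ∑ a ∈ R, (2 : ℝ) ^ a ≤ 2 * hmax := by
    have h0 : hmax ≠ 0 := by
      have h1 := hh0 H₀ hH₀
      have h2 := hcap H₀ hH₀
      omega
    calc ∑ a ∈ R, (2 : ℝ) ^ a ≤ ∑ a ∈ range (amax + 1), (2 : ℝ) ^ a := by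
          apply sum_le_sum_of_subset_of_nonneg
          · intro a ha
            rw [mem_range]
            have := (mem_filter.1 ha).2
            omega
          · intro a _ _
            positivity
      _ ≤ 2 ^ (amax + 1) := by
          rw [geom_sum_eq (by norm_num)]
          norm_num
      _ = 2 * 2 ^ amax := by rw [pow_succ]; ring
      _ ≤ 2 * hmax := by
          have := Nat.pow_log_le_self 2 h0
          have h' : ((2 : ℝ) ^ amax) ≤ hmax := by exact_mod_cast this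
          linarith
  have f4 : ∑ a ∈ R, 2 ^ a * X a ≤ ∑ a ∈ range (k₀ + 1), 2 ^ a * X a := by
    apply sum_le_sum_of_subset_of_nonneg (filter_subset _ _)
    intro a _ _
    have := hX0 a
    positivity
  have f5 : ∀ a ∈ range (k₀ + 1), 2 ^ a * X a = 2 ^ k₀ * 1024 * C ^ 2 / A ^ 2 *
      ∑ i ∈ range (k₀ - a + 1), (8 / 9) ^ (k₀ - a - i) * (Ni i) ^ 2 := by
    intro a ha
    rw [hX, mul_sum, mul_sum]
    apply sum_congr rfl
    intro i hi
    rw [mem_range] at ha hi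
    exact geo_tl_term C A _ hC0 hA k₀ a i (by omega)
  have f6 : ∑ a ∈ range (k₀ + 1), ∑ i ∈ range (k₀ - a + 1), ((8 : ℝ) / 9) ^ (k₀ - a - i) * (Ni i) ^ 2
      ≤ 9 * N ^ 2 := by
    rw [sum_comm' (t' := range (k₀ + 1)) (s' := fun i => range (k₀ - i + 1))]
    · have g1 : ∀ i ∈ range (k₀ + 1),
          ∑ a ∈ range (k₀ - i + 1), ((8 : ℝ) / 9) ^ (k₀ - a - i) * (Ni i) ^ 2 ≤ 9 * (N * Ni i) := by
        intro i _
        rw [← sum_mul]
        have h1 : ∑ a ∈ range (k₀ - i + 1), ((8 : ℝ) / 9) ^ (k₀ - a - i) ≤ 9 := by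
          have := geo_tl_geom (8 / 9) (by norm_num) (by norm_num) (k₀ - i)
          norm_num at this
          refine le_trans (le_of_eq ?_) this
          apply sum_congr rfl
          intro a _
          rw [Nat.sub_right_comm]
        have h2 : Ni i ≤ N := by
          refine le_trans ?_ hmass'
          exact sum_le_sum_of_subset_of_nonneg (filter_subset _ _) (fun l _ _ => Nat.cast_nonneg _)
        have h3 : (Ni i) ^ 2 ≤ N * Ni i := by nlinarith [hNi0 i]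
        calc _ ≤ 9 * (Ni i) ^ 2 := mul_le_mul_of_nonneg_right h1 (by positivity)
          _ ≤ 9 * (N * Ni i) := by linarith
      refine (sum_le_sum g1).trans ?_
      rw [← mul_sum, ← mul_sum]
      have g2 : ∑ i ∈ range (k₀ + 1), Ni i ≤ N := by
        refine le_trans ?_ hmass'
        apply sum_fiberwise_le_sum_of_sum_fiber_nonneg
        intro y _
        exact sum_nonneg (fun l _ => Nat.cast_nonneg _)
      nlinarith
    · intro a i
      simp only [mem_range]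
      omega
  have hK' : 0 ≤ 2 ^ k₀ * 1024 * C ^ 2 / A ^ 2 := by positivity
  calc ∑ H ∈ 𝓗, (h H : ℝ) * S H
      = ∑ a ∈ R, ∑ H ∈ 𝓗.filter (fun H => Nat.log 2 (h H) = a), (h H : ℝ) * S H := f1
    _ ≤ ∑ a ∈ R, (8 * C * N * 2 ^ a + 8 * C * (2 ^ a * X a)) := sum_le_sum f2
    _ = 8 * C * N * ∑ a ∈ R, (2 : ℝ) ^ a + 8 * C * ∑ a ∈ R, 2 ^ a * X a := by
        rw [sum_add_distrib, mul_sum, mul_sum]
    _ ≤ 8 * C * N * (2 * hmax) + 8 * C * (2 ^ k₀ * 1024 * C ^ 2 / A ^ 2 * (9 * N ^ 2)) := by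
        have t1 : 8 * C * N * ∑ a ∈ R, (2 : ℝ) ^ a ≤ 8 * C * N * (2 * hmax) :=
          mul_le_mul_of_nonneg_left f3 (by positivity)
        have t2 : ∑ a ∈ R, 2 ^ a * X a ≤ 2 ^ k₀ * 1024 * C ^ 2 / A ^ 2 * (9 * N ^ 2) := by
          refine f4.trans ?_
          rw [sum_congr rfl f5, ← mul_sum]
          exact mul_le_mul_of_nonneg_left f6 hK'
        have t3 := mul_le_mul_of_nonneg_left t2 (by positivity : 0 ≤ 8 * C)
        linarith
    _ = _ := by ring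

end Claimed.Agent.R273
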