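-- KEEP
import Claimed.Agent.R273.StRich
import Claimed.Agent.R273.GeoTLNum

/-!
# Row 273, S4 TERM / assigned lines: the LINE-PLANE PRODUCT `b h_H ≤ C M²` (secants.tex l.266-291, eq. geo:line-plane-product).  Architect helper28.

`P ⊆ ℝ^d` finite, `M = dM P = 1 + |Δ(P)|`, `H` a plane, `l ⊆ H` a line, `b = |P ∩ l|`, `h = |P ∩ H|`.

* `geo_tl_fib`: two circles of a plane with distinct centres meet in at most two points
  (Mathlib: `EuclideanGeometry.eq_of_dist_eq_of_dist_eq_of_mem_of_finrank_eq_two`).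
* `geo_tl_two_circles`: `h ≤ 2 M²`: if `h ≥ 2` take `c₁ ≠ c₂ ∈ P ∩ H`; `x ↦ (dist x c₁, dist x c₂) ∈ (Δ ∪ {0})²` has fibres `≤ 2` (`Finset.card_le_mul_card_image`).
* `geo_tl_prod_inc`: `l = {o + t e}`, `‖e‖ = 1`.  `u x = ⟪x - o, e⟫`, `w x = ‖x - o‖²`, `Φ x = (u x, w x) ∈ ℝ × ℝ`.  For `a = o + α e`: `‖x - a‖² = w x - 2 α u x + α²`.
  `Φ x` determines `dist x o` and `dist x (o + e)`: fibres of `Φ` on `P ∩ H` have `≤ 2` elements, `|Φ(P ∩ H)| ≥ h / 2`.
  Lines `Λ(α, ρ) = {(u, w) : w = ρ + 2 α u}`, `(α, ρ) = (u a, r² - (u a)²)`, `a ∈ P ∩ l`, `r ∈ Δ(P)`: at most `b M` lines; `Λ(α, ρ) = Λ(α', ρ')` forces `α = α'`.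
  The point `Φ x` lies on the `≥ b - 1` distinct lines `Λ(u a, ‖x - a‖² - (u a)²)`, `a ∈ P ∩ l`, `a ≠ x`.  `st_general` in `ℝ × ℝ`.
* `geo_tl_prod`: `geo_tl_prod_num`.
-/

set_option autoImplicit false

namespace Claimed.Agent.R273

open scoped Classical
open Finset Claims.C0444

variable {d : ℕ}

theorem geo_tlp_coords {d : ℕ} (H : AffineSubspace ℝ (Pt d)) (hH : Module.finrank ℝ H.direction = 2)
    (o e : Pt d) (he : e ∈ H.direction) (hn : ‖e‖ = 1) :
    ∃ x₁ x₂ : Pt d → ℝ,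
      (∀ z ∈ H, ∀ z' ∈ H, dist z z' ^ 2 = (x₁ z - x₁ z') ^ 2 + (x₂ z - x₂ z') ^ 2) ∧
      ∀ t : ℝ, x₁ (o + t • e) = t ∧ x₂ (o + t • e) = 0 := by
  have hon : Orthonormal ℝ (({0} : Set (Fin 2)).domRestrict
      (fun _ : Fin 2 => (⟨e, he⟩ : H.direction))) := by
    constructor
    · intro i
      exact hn
    · intro i j hij
      exact absurd (Subtype.ext (i.2.trans j.2.symm)) hij
  obtain ⟨b, hb⟩ := hon.exists_orthonormalBasis_extension_of_card_eq (by simpa using hH)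
  have hb0 : b 0 = ⟨e, he⟩ := hb 0 rfl
  have h01 : inner ℝ ((b 1 : H.direction) : Pt d) e = 0 := by
    have h : inner ℝ (b 1) (b 0) = 0 := b.orthonormal.2 (show (1 : Fin 2) ≠ 0 by decide)
    rw [hb0, Submodule.coe_inner] at h
    exact h
  have h00 : inner ℝ ((b 0 : H.direction) : Pt d) e = 1 := by
    rw [hb0]
    simp [hn]
  refine ⟨fun z => inner ℝ ((b 0 : H.direction) : Pt d) (z - o),
    fun z => inner ℝ ((b 1 : H.direction) : Pt d) (z - o), ?_, ?_⟩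
  · intro z hz z' hz'
    have hv : z - z' ∈ H.direction := AffineSubspace.vsub_mem_direction hz hz'
    have h := b.sum_sq_norm_inner_right ⟨z - z', hv⟩
    rw [Fin.sum_univ_two] at h
    simp only [Submodule.coe_inner, Real.norm_eq_abs, sq_abs, Submodule.coe_norm] at h
    rw [dist_eq_norm, ← h, ← inner_sub_right, ← inner_sub_right]
    simp
  · intro t
    simp only [add_sub_cancel_left, inner_smul_right, h00, h01, mul_one, mul_zero, and_self]

theorem geo_tlp_dist_mem {d : ℕ} {P : Finset (Pt d)} {x y : Pt d} (hx : x ∈ P) (hy : y ∈ P)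
    (hxy : x ≠ y) : dist x y ∈ distinctDistances P := by
  unfold distinctDistances
  exact Finset.mem_image.2 ⟨(x, y), Finset.mem_filter.2 ⟨Finset.mem_product.2 ⟨hx, hy⟩, hxy⟩, rfl⟩

theorem geo_tl_fib (T : Finset (Pt d)) (H : AffineSubspace ℝ (Pt d))
    (hH : Module.finrank ℝ H.direction = 2) (hT : ∀ x ∈ T, x ∈ H) (c₁ c₂ : Pt d) (h1 : c₁ ∈ H)
    (h2 : c₂ ∈ H) (hne : c₁ ≠ c₂) (r₁ r₂ : ℝ) :
    (T.filter (fun x => dist x c₁ = r₁ ∧ dist x c₂ = r₂)).card ≤ 2 := by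
  by_contra hcon
  push Not at hcon
  obtain ⟨a, ha, b, hb, c, hc, hab, hac, hbc⟩ := Finset.two_lt_card.1 hcon
  simp only [Finset.mem_filter] at ha hb hc
  rcases EuclideanGeometry.eq_of_dist_eq_of_dist_eq_of_mem_of_finrank_eq_two hH h1 h2
    (hT a ha.1) (hT b hb.1) (hT c hc.1) hne hab ha.2.1 hb.2.1 hc.2.1 ha.2.2 hb.2.2 hc.2.2 with h | h
  · exact hac h.symm
  · exact hbc h.symm

theorem geo_tl_dist_mem (P : Finset (Pt d)) (x c : Pt d) (hx : x ∈ P) (hc : c ∈ P) :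
    dist x c ∈ insert (0 : ℝ) (distinctDistances P) := by
  by_cases h : x = c
  · subst h
    simp
  · refine Finset.mem_insert_of_mem ?_
    unfold distinctDistances
    exact Finset.mem_image.2 ⟨(x, c), Finset.mem_filter.2 ⟨Finset.mem_product.2 ⟨hx, hc⟩, h⟩, rfl⟩

theorem geo_tl_two_circles (P : Finset (Pt d)) (H : AffineSubspace ℝ (Pt d))
    (hH : Module.finrank ℝ H.direction = 2) :
    (P.filter (fun x => x ∈ H)).card ≤ 2 * (dM P) ^ 2 := by
  set T := P.filter (fun x => x ∈ H) with hTdef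
  have hM1 : 1 ≤ dM P := by unfold dM; omega
  by_cases hcard : T.card ≤ 1
  · have : 1 ≤ (dM P) ^ 2 := Nat.one_le_pow _ _ hM1
    omega
  · push Not at hcard
    obtain ⟨c₁, hc₁, c₂, hc₂, hne⟩ := Finset.one_lt_card.1 hcard
    have hc₁' := (Finset.mem_filter.1 hc₁)
    have hc₂' := (Finset.mem_filter.1 hc₂)
    set D0 := insert (0 : ℝ) (distinctDistances P) with hD0
    have hD0c : D0.card ≤ dM P := by
      have := Finset.card_insert_le (0 : ℝ) (distinctDistances P)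
      rw [← hD0] at this
      unfold dM
      omega
    have h1 := Finset.card_le_mul_card_image (f := fun x : Pt d => (dist x c₁, dist x c₂)) T 2
      (by
        intro a _
        have := geo_tl_fib T H hH (fun x hx => (Finset.mem_filter.1 hx).2) c₁ c₂ hc₁'.2 hc₂'.2 hne
          a.1 a.2
        refine le_trans (Finset.card_le_card ?_) this
        intro x hx
        simp only [Finset.mem_filter] at hx ⊢
        refine ⟨hx.1, ?_, ?_⟩
        · rw [← hx.2]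
        · rw [← hx.2])
    have h2 : (T.image (fun x : Pt d => (dist x c₁, dist x c₂))).card ≤ (dM P) ^ 2 := by
      calc (T.image (fun x : Pt d => (dist x c₁, dist x c₂))).card ≤ (D0 ×ˢ D0).card := by
            apply Finset.card_le_card
            intro z hz
            obtain ⟨x, hx, rfl⟩ := Finset.mem_image.1 hz
            have hxP := (Finset.mem_filter.1 hx).1
            exact Finset.mem_product.2 ⟨geo_tl_dist_mem P x c₁ hxP hc₁'.1,
              geo_tl_dist_mem P x c₂ hxP hc₂'.1⟩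
        _ = D0.card * D0.card := Finset.card_product _ _
        _ ≤ dM P * dM P := Nat.mul_le_mul hD0c hD0c
        _ = (dM P) ^ 2 := by ring
    calc T.card ≤ 2 * _ := h1
      _ ≤ 2 * (dM P) ^ 2 := Nat.mul_le_mul_left _ h2

/-- the line `w = ρ + 2 α u` of `ℝ × ℝ` -/
noncomputable def geoTlLam (α ρ : ℝ) : AffineSubspace ℝ (ℝ × ℝ) :=
  AffineSubspace.mk' ((0 : ℝ), ρ) (Submodule.span ℝ {((1 : ℝ), 2 * α)})

theorem geo_tl_lam_line (α ρ : ℝ) : stIsLine (geoTlLam α ρ) := by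
  unfold stIsLine geoTlLam
  rw [AffineSubspace.direction_mk']
  exact finrank_span_singleton (by simp)

theorem geo_tl_lam_mem (α ρ u w : ℝ) : (u, w) ∈ geoTlLam α ρ ↔ w = ρ + 2 * α * u := by
  unfold geoTlLam
  rw [AffineSubspace.mem_mk', Submodule.mem_span_singleton]
  constructor
  · rintro ⟨t, ht⟩
    simp only [Prod.smul_mk, smul_eq_mul, mul_one, vsub_eq_sub, Prod.mk_sub_mk, sub_zero,
      Prod.mk.injEq] at ht
    obtain ⟨h1, h2⟩ := ht
    subst h1
    linarith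
  · intro h
    refine ⟨u, ?_⟩
    simp only [Prod.smul_mk, smul_eq_mul, mul_one, vsub_eq_sub, Prod.mk_sub_mk, sub_zero,
      Prod.mk.injEq, true_and]
    rw [h]; ring

theorem geo_tl_lam_inj (α ρ α' ρ' : ℝ) (h : geoTlLam α ρ = geoTlLam α' ρ') : α = α' := by
  have h0 : ((0 : ℝ), ρ) ∈ geoTlLam α' ρ' := by
    rw [← h, geo_tl_lam_mem]; ring
  have h1 : ((1 : ℝ), ρ + 2 * α) ∈ geoTlLam α' ρ' := by
    rw [← h, geo_tl_lam_mem]; ring
  rw [geo_tl_lam_mem] at h0 h1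
  linarith

theorem geo_tl_prod_inc : ∃ C : ℝ, 1 ≤ C ∧ ∀ (d : ℕ) (P : Finset (Pt d))
    (l H : AffineSubspace ℝ (Pt d)), stIsLine l → Module.finrank ℝ H.direction = 2 → l ≤ H →
    ((P.filter (fun x => x ∈ H)).card : ℝ) / 2 * (((P.filter (fun x => x ∈ l)).card : ℝ) - 1) ≤
      C * (((P.filter (fun x => x ∈ H)).card : ℝ) ^ ((2 : ℝ) / 3) *
          (((P.filter (fun x => x ∈ l)).card : ℝ) * (dM P : ℝ)) ^ ((2 : ℝ) / 3) +
        ((P.filter (fun x => x ∈ H)).card : ℝ) +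
        ((P.filter (fun x => x ∈ l)).card : ℝ) * (dM P : ℝ)) := by
  obtain ⟨C, hC, hst⟩ := st_general
  refine ⟨max C 1, le_max_right _ _, ?_⟩
  intro d P l H hl hH hlH
  obtain ⟨o, v, hv, hmem⟩ := (st_line_param l).1 hl
  set T := P.filter (fun x => x ∈ H) with hT
  set Bl := P.filter (fun x => x ∈ l) with hBl
  set nv : ℝ := ‖v‖ ^ 2 with hnv
  have hnv0 : 0 < nv := by
    have : 0 < ‖v‖ := norm_pos_iff.2 hv
    positivity
  set Φ : Pt d → ℝ × ℝ := fun x => (inner ℝ (x - o) v, ‖x - o‖ ^ 2) with hΦ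
  set al : Pt d → ℝ := fun a => inner ℝ (a - o) v / nv with hal
  have hpar : ∀ a ∈ l, a = o + al a • v := by
    intro a ha
    obtain ⟨t, rfl⟩ := (hmem a).1 ha
    have : al (o + t • v) = t := by
      simp only [hal, add_sub_cancel_left, inner_smul_left, real_inner_self_eq_norm_sq]
      simp only [conj_trivial]
      field_simp
      rw [hnv]
    rw [this]
  have hdist : ∀ (x : Pt d) (α : ℝ), ‖x - (o + α • v)‖ ^ 2
      = ‖x - o‖ ^ 2 - 2 * α * inner ℝ (x - o) v + α ^ 2 * nv := by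
    intro x α
    have e : x - (o + α • v) = (x - o) - α • v := by abel
    rw [e, norm_sub_sq_real, inner_smul_right, norm_smul, mul_pow, Real.norm_eq_abs, sq_abs]
    ring
  have ho : o ∈ l := (hmem o).2 ⟨0, by simp⟩
  have hov : o + v ∈ l := (hmem (o + v)).2 ⟨1, by simp⟩
  have hne : o ≠ o + v := by
    intro h
    exact hv (by simpa using h)
  -- fibres of Φ
  have hfib : T.card ≤ 2 * (T.image Φ).card := by
    refine Finset.card_le_mul_card_image T 2 ?_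
    intro z _
    have := geo_tl_fib T H hH (fun x hx => (Finset.mem_filter.1 hx).2) o (o + v) (hlH ho) (hlH hov)
      hne (Real.sqrt z.2) (Real.sqrt (z.2 - 2 * z.1 + nv))
    refine le_trans (Finset.card_le_card ?_) this
    intro x hx
    simp only [Finset.mem_filter] at hx ⊢
    refine ⟨hx.1, ?_, ?_⟩
    · rw [← hx.2, dist_eq_norm]
      exact (Real.sqrt_sq (norm_nonneg _)).symm
    · rw [← hx.2, dist_eq_norm]
      have h1 := hdist x 1
      rw [one_smul] at h1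
      have h2 : ‖x - o‖ ^ 2 - 2 * inner ℝ (x - o) v + nv = ‖x - (o + v)‖ ^ 2 := by
        rw [h1]; ring
      show _ = Real.sqrt (‖x - o‖ ^ 2 - 2 * inner ℝ (x - o) v + nv)
      rw [h2]
      exact (Real.sqrt_sq (norm_nonneg _)).symm
  -- the lines
  set 𝓛 : Finset (AffineSubspace ℝ (ℝ × ℝ)) := (Bl ×ˢ distinctDistances P).image
    (fun z => geoTlLam (al z.1) (z.2 ^ 2 - (al z.1) ^ 2 * nv)) with h𝓛
  have h𝓛line : ∀ m ∈ 𝓛, stIsLine m := by
    intro m hm
    obtain ⟨z, _, rfl⟩ := Finset.mem_image.1 hm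
    exact geo_tl_lam_line _ _
  have h𝓛card : 𝓛.card ≤ Bl.card * dM P := by
    calc 𝓛.card ≤ (Bl ×ˢ distinctDistances P).card := Finset.card_image_le
      _ = Bl.card * (distinctDistances P).card := Finset.card_product _ _
      _ ≤ Bl.card * dM P := Nat.mul_le_mul_left _ (by unfold dM; omega)
  have hrich : ∀ p ∈ T.image Φ, Bl.card - 1 ≤ (𝓛.filter (fun m => p ∈ m)).card := by
    intro p hp
    obtain ⟨x, hx, rfl⟩ := Finset.mem_image.1 hp
    have hxP : x ∈ P := (Finset.mem_filter.1 hx).1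
    calc Bl.card - 1 ≤ (Bl.erase x).card := Finset.pred_card_le_card_erase
      _ ≤ (𝓛.filter (fun m => Φ x ∈ m)).card := by
        refine Finset.card_le_card_of_injOn
          (fun a => geoTlLam (al a) ((dist x a) ^ 2 - (al a) ^ 2 * nv)) ?_ ?_
        · intro a ha
          have ha' := Finset.mem_erase.1 (Finset.mem_coe.1 ha)
          have haB := Finset.mem_filter.1 ha'.2
          refine Finset.mem_coe.2 (Finset.mem_filter.2 ⟨?_, ?_⟩)
          · refine Finset.mem_image.2 ⟨(a, dist x a), Finset.mem_product.2 ⟨ha'.2, ?_⟩, rfl⟩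
            unfold distinctDistances
            exact Finset.mem_image.2 ⟨(x, a), Finset.mem_filter.2
              ⟨Finset.mem_product.2 ⟨hxP, haB.1⟩, fun h => ha'.1 h.symm⟩, rfl⟩
          · show (inner ℝ (x - o) v, ‖x - o‖ ^ 2) ∈ _
            rw [geo_tl_lam_mem, dist_eq_norm]
            have h1 := hdist x (al a)
            rw [← hpar a haB.2] at h1
            rw [h1]; ring
        · intro a ha a' ha' haa
          have h1 := Finset.mem_filter.1 (Finset.mem_erase.1 (Finset.mem_coe.1 ha)).2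
          have h2 := Finset.mem_filter.1 (Finset.mem_erase.1 (Finset.mem_coe.1 ha')).2
          have h3 := geo_tl_lam_inj _ _ _ _ haa
          rw [hpar a h1.2, hpar a' h2.2, h3]
  have hinc : (T.image Φ).card * (Bl.card - 1) ≤ stInc (T.image Φ) 𝓛 := by
    rw [st_inc_comm]
    calc (T.image Φ).card * (Bl.card - 1) = ∑ _p ∈ T.image Φ, (Bl.card - 1) := by
          rw [Finset.sum_const, smul_eq_mul]
      _ ≤ _ := Finset.sum_le_sum hrich
  have hST := hst (ℝ × ℝ) (T.image Φ) 𝓛 h𝓛line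
  -- real arithmetic
  have hic : ((T.image Φ).card : ℝ) ≤ (T.card : ℝ) := by exact_mod_cast Finset.card_image_le
  have hLc : (𝓛.card : ℝ) ≤ (Bl.card : ℝ) * (dM P : ℝ) := by exact_mod_cast h𝓛card
  have hT0 : (0 : ℝ) ≤ (T.card : ℝ) := Nat.cast_nonneg _
  have hbM0 : (0 : ℝ) ≤ (Bl.card : ℝ) * (dM P : ℝ) := mul_nonneg (Nat.cast_nonneg _) (Nat.cast_nonneg _)
  have hr1 : (0 : ℝ) ≤ (T.card : ℝ) ^ ((2 : ℝ) / 3) := Real.rpow_nonneg hT0 _
  have hr2 : (0 : ℝ) ≤ ((Bl.card : ℝ) * (dM P : ℝ)) ^ ((2 : ℝ) / 3) := Real.rpow_nonneg hbM0 _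
  have hrhs0 : (0 : ℝ) ≤ (T.card : ℝ) ^ ((2 : ℝ) / 3) * ((Bl.card : ℝ) * (dM P : ℝ)) ^ ((2 : ℝ) / 3)
      + (T.card : ℝ) + (Bl.card : ℝ) * (dM P : ℝ) :=
    add_nonneg (add_nonneg (mul_nonneg hr1 hr2) hT0) hbM0
  have hup : (stInc (T.image Φ) 𝓛 : ℝ) ≤ max C 1 * ((T.card : ℝ) ^ ((2 : ℝ) / 3)
      * ((Bl.card : ℝ) * (dM P : ℝ)) ^ ((2 : ℝ) / 3) + (T.card : ℝ) + (Bl.card : ℝ) * (dM P : ℝ)) := by
    refine hST.trans ?_
    have h1 : ((T.image Φ).card : ℝ) ^ ((2 : ℝ) / 3) ≤ (T.card : ℝ) ^ ((2 : ℝ) / 3) :=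
      Real.rpow_le_rpow (Nat.cast_nonneg _) hic (by norm_num)
    have h2 : (𝓛.card : ℝ) ^ ((2 : ℝ) / 3) ≤ ((Bl.card : ℝ) * (dM P : ℝ)) ^ ((2 : ℝ) / 3) :=
      Real.rpow_le_rpow (Nat.cast_nonneg _) hLc (by norm_num)
    have h3 : ((T.image Φ).card : ℝ) ^ ((2 : ℝ) / 3) * (𝓛.card : ℝ) ^ ((2 : ℝ) / 3)
        ≤ (T.card : ℝ) ^ ((2 : ℝ) / 3) * ((Bl.card : ℝ) * (dM P : ℝ)) ^ ((2 : ℝ) / 3) :=
      mul_le_mul h1 h2 (Real.rpow_nonneg (Nat.cast_nonneg _) _) hr1
    calc C * (((T.image Φ).card : ℝ) ^ ((2 : ℝ) / 3) * (𝓛.card : ℝ) ^ ((2 : ℝ) / 3)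
          + (T.image Φ).card + 𝓛.card)
        ≤ C * ((T.card : ℝ) ^ ((2 : ℝ) / 3) * ((Bl.card : ℝ) * (dM P : ℝ)) ^ ((2 : ℝ) / 3)
          + (T.card : ℝ) + (Bl.card : ℝ) * (dM P : ℝ)) :=
          mul_le_mul_of_nonneg_left (by linarith) hC.le
      _ ≤ _ := mul_le_mul_of_nonneg_right (le_max_left _ _) hrhs0
  by_cases hb : Bl.card = 0
  · rw [hb]
    have h1 : (T.card : ℝ) / 2 * (((0 : ℕ) : ℝ) - 1) ≤ 0 := by
      have : (0 : ℝ) ≤ (T.card : ℝ) := Nat.cast_nonneg _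
      push_cast
      nlinarith
    refine h1.trans ?_
    have : (0 : ℝ) ≤ max C 1 := le_trans zero_le_one (le_max_right _ _)
    rw [hb] at hrhs0
    exact mul_nonneg this hrhs0
  · have hb1 : 1 ≤ Bl.card := Nat.one_le_iff_ne_zero.2 hb
    refine le_trans ?_ hup
    have h1 : ((T.image Φ).card : ℝ) * ((Bl.card : ℝ) - 1) ≤ (stInc (T.image Φ) 𝓛 : ℝ) := by
      have := (Nat.cast_le (α := ℝ)).2 hinc
      rw [Nat.cast_mul, Nat.cast_sub hb1, Nat.cast_one] at this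
      exact this
    refine le_trans ?_ h1
    have h2 : (T.card : ℝ) / 2 ≤ ((T.image Φ).card : ℝ) := by
      have := (Nat.cast_le (α := ℝ)).2 hfib
      push_cast at this
      linarith
    have h3 : (0 : ℝ) ≤ (Bl.card : ℝ) - 1 := by
      have : (1 : ℝ) ≤ (Bl.card : ℝ) := by exact_mod_cast hb1
      linarith
    exact mul_le_mul_of_nonneg_right h2 h3

/-- **eq. (geo:line-plane-product)** -/
theorem geo_tl_prod : ∃ C : ℝ, 1 ≤ C ∧ ∀ (d : ℕ) (P : Finset (Pt d))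
    (l H : AffineSubspace ℝ (Pt d)), stIsLine l → Module.finrank ℝ H.direction = 2 → l ≤ H →
    ((P.filter (fun x => x ∈ l)).card : ℝ) * ((P.filter (fun x => x ∈ H)).card : ℝ) ≤
      C * (dM P : ℝ) ^ 2 := by
  obtain ⟨C, hC, h⟩ := geo_tl_prod_inc
  refine ⟨512 * C ^ 3, by nlinarith [pow_le_pow_left₀ (by norm_num : (0:ℝ) ≤ 1) hC 3], ?_⟩
  intro d P l H hl hH hlH
  refine geo_tl_prod_num C _ _ _ hC (Nat.cast_nonneg _) ?_ ?_ ?_ (h d P l H hl hH hlH)
  · exact_mod_cast card_le_card (fun x hx => by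
      rw [mem_filter] at hx ⊢
      exact ⟨hx.1, hlH hx.2⟩)
  · unfold dM
    push_cast
    linarith [(Nat.cast_nonneg (distinctDistances P).card : (0:ℝ) ≤ _)]
  · exact_mod_cast geo_tl_two_circles P H hH

end Claimed.Agent.R273
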