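-- KEEP
import Claimed.Agent.R273.StRich

/-!
# Row 273, LIB-ST: incidences between `k`-flats and `(k+1)`-flats of a real vector space.  Architect helper191.  Prefix `stf_`.

Consumers: TERM / assigned lines (`k = 1`: lines in planes, TmL*.lean), GD-Bad3 (helper60, all `k`).   Mathlib + St*.lean only (all sorry-free).

`stFlat k a`: `a` is a nonempty affine subspace with finite-dimensional direction of dimension `k`.   `stIncF 𝒜 𝓗 = ∑_{H ∈ 𝓗} #{a ∈ 𝒜 | a ≤ H}`.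

LEAF ST-FLAT-A (`stf_functional`, `stf_slice_flat`, `stf_slice`).
* `stf_functional`: `Module.Dual ℝ E` is not the union of the finitely many proper subspaces `{f | f v = 0}`, `v ∈ S` (`stj_outside` for the space `Module.Dual ℝ E`; proper because some functional does not vanish at `v ≠ 0`:
  `Module.exists_dual_forall_apply_eq_zero_iff`-type lemma / extend `v` to a basis, `Module.Basis.coord`; Mathlib: `exists_dual_map_eq_bot_of_notMem`, `Module.forall_dual_apply_eq_zero_iff ℝ v`).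
* `stf_slice_flat`: `a` a `(k+1)`-flat, `v ∈ a.direction`, `f v ≠ 0`.  Nonempty: `p ∈ a`, `p + ((c - f p)/f v) • v ∈ a ⊓ stLevel f c`.  Direction: `(a ⊓ L).direction = a.direction ⊓ ker f` (`AffineSubspace.direction_inf_of_mem`), and
  `finrank (a.direction ⊓ ker f) + 1 = finrank a.direction` (rank-nullity for `f.domRestrict a.direction`, which is onto `ℝ`).
* `stf_slice`: SLICING.  Let `S` contain one vector `v` with `v ≠ 0` of each of the (finitely many) nonzero subspaces `a.direction` (`a ∈ 𝒜`), `H.direction` (`H ∈ 𝓗`), `(a ⊓ a').direction`, `(H ⊓ H').direction` (pairs of distinct members).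
  `f` from `stf_functional`.  `c` := a real number different from the finitely many values `f p`, where `p` runs over one chosen point of each nonempty `a ⊓ a'` (`a ≠ a'` in `𝒜`)   (`Set.Finite.exists_notMem` / `Infinite.exists_notMem_finset`).
  `σ b := b ⊓ stLevel f c`.  Monotone.  Injective on `𝓗`: if `σ H = σ H' =: m`, `H ≠ H'`: `m ≤ H ⊓ H'`, `m` is a `(k+1)`-flat, `H ⊓ H' < H` has dimension `≤ k + 1`, so `(H ⊓ H').direction = m.direction ≤ ker f` and it is nonzero (`k + 1 ≥ 1`): contradiction with the choice of `f`.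
  Injective on `𝒜`: the same if `k ≥ 1`; if `k = 0`: `m = {p'}`, `a ⊓ a'` is nonempty of dimension `0` (two distinct lines), so it is `{p'}`, and the chosen point is `p = p'`, `f p = c`: contradiction.
  (uniform treatment: `D := (a ⊓ a').direction`; if `D ≠ ⊥`, `f` does not vanish on `D` but `finrank D ≤ k = finrank m.direction`, `m.direction ≤ D` give `D = m.direction ≤ ker f`; if `D = ⊥` then `a ⊓ a'` is the chosen point.)
LEAF ST-FLAT-B (`stf_base`, `st_flat_inc`, `stf_triv`, `st_rich_flats`).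
* `stf_base`: a `0`-flat is `{p}`; `P := 𝒜.image (point)`, same cardinality; `{p} ≤ H ↔ p ∈ H`; `stFlat 1 H → stIsLine H`; `st_general`.
* `st_flat_inc`: induction on `k` with `stf_slice`: `stIncF 𝒜 𝓗 ≤ stIncF (𝒜.image σ) (𝓗.image σ)` (`Finset.sum_image`, `Finset.card_le_card_of_injOn`), cardinalities preserved (`Finset.card_image_of_injOn`).  The SAME constant for all `k`.
* `stf_triv`: two distinct `k`-flats lie in at most one `(k+1)`-flat (`a ⊔ a' ≤ H ⊓ H'`, dimensions) + `st_triv_abs` (StTriv.lean); or slice down to `st_triv_points`.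
* `st_rich_flats`: `str_num` exactly as in `st_rich_lines`.
-/

set_option autoImplicit false

namespace Claimed.Agent.R273

open scoped Classical

section

variable {E : Type} [AddCommGroup E] [Module ℝ E]

/-- a `k`-dimensional flat -/
def stFlat (k : ℕ) (a : AffineSubspace ℝ E) : Prop :=
  (a : Set E).Nonempty ∧ FiniteDimensional ℝ a.direction ∧ Module.finrank ℝ a.direction = k

/-- incidences (inclusions) between two families of affine subspaces -/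
noncomputable def stIncF (𝒜 𝓗 : Finset (AffineSubspace ℝ E)) : ℕ :=
  ∑ H ∈ 𝓗, (𝒜.filter (fun a => a ≤ H)).card

/-- the hyperplane `{f = c}` -/
def stLevel (f : E →ₗ[ℝ] ℝ) (c : ℝ) : AffineSubspace ℝ E where
  carrier := {x | f x = c}
  smul_vsub_vadd_mem' := by
    intro t p1 p2 p3 h1 h2 h3
    simp only [Set.mem_setOf_eq] at *
    simp [h1, h2, h3]

theorem stf_mem_level (f : E →ₗ[ℝ] ℝ) (c : ℝ) (x : E) : x ∈ stLevel f c ↔ f x = c := Iff.rfl

/-! ### ST-FLAT-A -/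

theorem stf_functional (S : Finset E) (hS : ∀ v ∈ S, v ≠ 0) : ∃ f : E →ₗ[ℝ] ℝ, ∀ v ∈ S, f v ≠ 0 := by
  set U : Finset (Submodule ℝ (Module.Dual ℝ E)) :=
    S.image (fun v => LinearMap.ker (Module.Dual.eval ℝ E v)) with hU
  have hU' : ∀ W ∈ U, W ≠ ⊤ := by
    intro W hW
    obtain ⟨v, hv, rfl⟩ := Finset.mem_image.1 hW
    intro htop
    apply hS v hv
    rw [← Module.forall_dual_apply_eq_zero_iff ℝ v]
    intro φ
    have : φ ∈ LinearMap.ker (Module.Dual.eval ℝ E v) := by rw [htop]; trivial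
    simpa using this
  obtain ⟨f, hf⟩ := stj_outside U hU'
  refine ⟨f, fun v hv h0 => hf _ (Finset.mem_image_of_mem _ hv) ?_⟩
  simpa using h0

theorem stf_level_direction (f : E →ₗ[ℝ] ℝ) (c : ℝ) (q : E) (hq : q ∈ stLevel f c) :
    (stLevel f c).direction = LinearMap.ker f := by
  ext v
  rw [AffineSubspace.mem_direction_iff_eq_vsub_right hq, LinearMap.mem_ker]
  rw [stf_mem_level] at hq
  constructor
  · rintro ⟨p, hp, rfl⟩
    rw [stf_mem_level] at hp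
    simp [hp, hq]
  · intro hv
    refine ⟨v + q, ?_, by simp⟩
    rw [stf_mem_level, map_add, hv, hq, zero_add]

theorem stf_finrank_inf_ker (W : Submodule ℝ E) [FiniteDimensional ℝ W] (f : E →ₗ[ℝ] ℝ)
    (hf : ∃ v ∈ W, f v ≠ 0) :
    Module.finrank ℝ (W ⊓ LinearMap.ker f : Submodule ℝ E) + 1 = Module.finrank ℝ W := by
  obtain ⟨v, hvW, hv⟩ := hf
  set g : W →ₗ[ℝ] ℝ := f.domRestrict W with hg
  have h1 := LinearMap.finrank_range_add_finrank_ker g
  have h2 : LinearMap.range g = ⊤ := by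
    rw [LinearMap.range_eq_top]
    intro y
    refine ⟨(y / f v) • ⟨v, hvW⟩, ?_⟩
    rw [map_smul, hg, LinearMap.domRestrict_apply]
    simp only [smul_eq_mul]
    field_simp
  have h3 : Module.finrank ℝ (LinearMap.ker g) = Module.finrank ℝ (W ⊓ LinearMap.ker f : Submodule ℝ E) := by
    have h4 : (LinearMap.ker g).map W.subtype = W ⊓ LinearMap.ker f := by
      rw [hg, LinearMap.ker_domRestrict, Submodule.map_comap_subtype]
    rw [← h4, Submodule.finrank_map_subtype_eq]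
  rw [h2, finrank_top, Module.finrank_self, h3] at h1
  omega

theorem stf_eq_of_le {j : ℕ} {b b' : AffineSubspace ℝ E} (hb : stFlat j b) (hb' : stFlat j b')
    (h : b ≤ b') : b = b' := by
  obtain ⟨hn, _, hr⟩ := hb
  obtain ⟨_, hfd', hr'⟩ := hb'
  have hd : b.direction = b'.direction :=
    Submodule.eq_of_le_of_finrank_eq (AffineSubspace.direction_le h) (hr.trans hr'.symm)
  exact AffineSubspace.eq_of_direction_eq_of_nonempty_of_le hd hn h

theorem stf_inf_finrank {j : ℕ} {b b' : AffineSubspace ℝ E} (hb : stFlat (j + 1) b)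
    (hb' : stFlat (j + 1) b') (hne : b ≠ b')
    (hn : ((b ⊓ b' : AffineSubspace ℝ E) : Set E).Nonempty) :
    FiniteDimensional ℝ (b ⊓ b').direction ∧ Module.finrank ℝ (b ⊓ b').direction ≤ j := by
  have hfd := hb.2.1
  have hle : (b ⊓ b').direction ≤ b.direction := AffineSubspace.direction_le inf_le_left
  have hfd2 : FiniteDimensional ℝ (b ⊓ b').direction := Submodule.finiteDimensional_of_le hle
  refine ⟨hfd2, ?_⟩
  by_contra hcon
  have h1 : Module.finrank ℝ (b ⊓ b').direction ≤ j + 1 := by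
    rw [← hb.2.2]; exact Submodule.finrank_mono hle
  have h2 : stFlat (j + 1) (b ⊓ b') := ⟨hn, hfd2, by omega⟩
  exact hne ((stf_eq_of_le h2 hb inf_le_left).symm.trans (stf_eq_of_le h2 hb' inf_le_right))

theorem stf_slice_flat (k : ℕ) (a : AffineSubspace ℝ E) (ha : stFlat (k + 1) a) (f : E →ₗ[ℝ] ℝ)
    (c : ℝ) (hf : ∃ v ∈ a.direction, f v ≠ 0) : stFlat k (a ⊓ stLevel f c) := by
  obtain ⟨⟨p, hp⟩, hfd, hr⟩ := ha
  obtain ⟨v, hv, hfv⟩ := hf
  have hq1 : ((c - f p) / f v) • v +ᵥ p ∈ a :=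
    AffineSubspace.vadd_mem_of_mem_direction (a.direction.smul_mem _ hv) hp
  have hq2 : ((c - f p) / f v) • v +ᵥ p ∈ stLevel f c := by
    rw [stf_mem_level, vadd_eq_add, map_add, map_smul, smul_eq_mul]
    field_simp
    ring
  have hdir : (a ⊓ stLevel f c).direction = a.direction ⊓ LinearMap.ker f := by
    rw [AffineSubspace.direction_inf_of_mem hq1 hq2, stf_level_direction f c _ hq2]
  refine ⟨⟨_, hq1, hq2⟩, ?_, ?_⟩
  · rw [hdir]
    exact Submodule.finiteDimensional_of_le inf_le_left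
  · rw [hdir]
    have := stf_finrank_inf_ker a.direction f ⟨v, hv, hfv⟩
    omega

theorem stf_slice_inj (j : ℕ) (b b' : AffineSubspace ℝ E) (hb : stFlat (j + 1) b)
    (hb' : stFlat (j + 1) b') (f : E →ₗ[ℝ] ℝ) (c : ℝ) (hm : stFlat j (b ⊓ stLevel f c))
    (q : E) (hq : ((b ⊓ b' : AffineSubspace ℝ E) : Set E).Nonempty → q ∈ b ⊓ b') (hC : f q ≠ c)
    (h : b ⊓ stLevel f c = b' ⊓ stLevel f c) : b = b' := by
  by_contra hne
  have hle : b ⊓ stLevel f c ≤ b ⊓ b' := le_inf inf_le_left (h.le.trans inf_le_left)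
  have hn : ((b ⊓ b' : AffineSubspace ℝ E) : Set E).Nonempty := hm.1.mono hle
  obtain ⟨hfd, hr⟩ := stf_inf_finrank hb hb' hne hn
  have hr2 : j ≤ Module.finrank ℝ (b ⊓ b').direction := by
    rw [← hm.2.2]; exact Submodule.finrank_mono (AffineSubspace.direction_le hle)
  have hfl : stFlat j (b ⊓ b') := ⟨hn, hfd, le_antisymm hr hr2⟩
  have heq := stf_eq_of_le hm hfl hle
  have hq' : q ∈ b ⊓ stLevel f c := by rw [heq]; exact hq hn
  exact hC hq'.2

theorem stf_dir_ne_bot {j : ℕ} {b : AffineSubspace ℝ E} (hb : stFlat (j + 1) b) :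
    b.direction ≠ ⊥ := by
  intro h
  have := hb.2.2
  rw [h, finrank_bot] at this
  omega

/-- **SLICING** -/
theorem stf_slice (k : ℕ) (𝒜 𝓗 : Finset (AffineSubspace ℝ E)) (h𝒜 : ∀ a ∈ 𝒜, stFlat (k + 1) a)
    (h𝓗 : ∀ H ∈ 𝓗, stFlat (k + 2) H) :
    ∃ σ : AffineSubspace ℝ E → AffineSubspace ℝ E, (∀ a ∈ 𝒜, stFlat k (σ a)) ∧
      (∀ H ∈ 𝓗, stFlat (k + 1) (σ H)) ∧ Set.InjOn σ 𝒜 ∧ Set.InjOn σ 𝓗 ∧
      ∀ a ∈ 𝒜, ∀ H ∈ 𝓗, a ≤ H → σ a ≤ σ H := by
  set pick : AffineSubspace ℝ E → E := fun b =>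
    if h : b.direction ≠ ⊥ then (Submodule.exists_mem_ne_zero_of_ne_bot h).choose else 0 with hpick
  have hpick1 : ∀ b : AffineSubspace ℝ E, b.direction ≠ ⊥ → pick b ∈ b.direction ∧ pick b ≠ 0 := by
    intro b hb
    simp only [hpick, dif_pos hb]
    exact (Submodule.exists_mem_ne_zero_of_ne_bot hb).choose_spec
  have hdir : ∀ b ∈ 𝒜 ∪ 𝓗, b.direction ≠ ⊥ := by
    intro b hb
    rcases Finset.mem_union.1 hb with hb | hb
    · exact stf_dir_ne_bot (h𝒜 b hb)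
    · exact stf_dir_ne_bot (h𝓗 b hb)
  obtain ⟨f, hf⟩ := stf_functional ((𝒜 ∪ 𝓗).image pick) (by
    intro v hv
    obtain ⟨b, hb, rfl⟩ := Finset.mem_image.1 hv
    exact (hpick1 b (hdir b hb)).2)
  have hF : ∀ b ∈ 𝒜 ∪ 𝓗, ∃ v ∈ b.direction, f v ≠ 0 := fun b hb =>
    ⟨pick b, (hpick1 b (hdir b hb)).1, hf _ (Finset.mem_image_of_mem _ hb)⟩
  set pt : AffineSubspace ℝ E → E := fun b =>
    if h : (b : Set E).Nonempty then h.some else 0 with hpt
  have hpt1 : ∀ b : AffineSubspace ℝ E, (b : Set E).Nonempty → pt b ∈ b := by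
    intro b hb
    simp only [hpt, dif_pos hb]
    exact hb.some_mem
  obtain ⟨c, hc⟩ := Infinite.exists_notMem_finset
    (((𝒜 ∪ 𝓗) ×ˢ (𝒜 ∪ 𝓗)).image (fun p => f (pt (p.1 ⊓ p.2))))
  have hC : ∀ b ∈ 𝒜 ∪ 𝓗, ∀ b' ∈ 𝒜 ∪ 𝓗, f (pt (b ⊓ b')) ≠ c := by
    intro b hb b' hb' h
    exact hc (Finset.mem_image.2 ⟨(b, b'), Finset.mem_product.2 ⟨hb, hb'⟩, h⟩)
  have hA : ∀ a ∈ 𝒜, stFlat k (a ⊓ stLevel f c) := fun a ha =>
    stf_slice_flat k a (h𝒜 a ha) f c (hF a (Finset.mem_union_left _ ha))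
  have hH : ∀ H ∈ 𝓗, stFlat (k + 1) (H ⊓ stLevel f c) := fun H hH =>
    stf_slice_flat (k + 1) H (h𝓗 H hH) f c (hF H (Finset.mem_union_right _ hH))
  refine ⟨fun b => b ⊓ stLevel f c, hA, hH, ?_, ?_, ?_⟩
  · intro a ha a' ha' h
    exact stf_slice_inj k a a' (h𝒜 a ha) (h𝒜 a' ha') f c (hA a ha) (pt (a ⊓ a')) (hpt1 _)
      (hC a (Finset.mem_union_left _ ha) a' (Finset.mem_union_left _ ha')) h
  · intro H hH' H' hH'' h
    exact stf_slice_inj (k + 1) H H' (h𝓗 H hH') (h𝓗 H' hH'') f c (hH H hH') (pt (H ⊓ H')) (hpt1 _)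
      (hC H (Finset.mem_union_right _ hH') H' (Finset.mem_union_right _ hH'')) h
  · intro a _ H _ h
    exact inf_le_inf_right _ h

end

/-! ### ST-FLAT-B -/

theorem stf_base : ∃ C : ℝ, 0 < C ∧ ∀ (E : Type) [AddCommGroup E] [Module ℝ E]
    (𝒜 𝓗 : Finset (AffineSubspace ℝ E)), (∀ a ∈ 𝒜, stFlat 0 a) → (∀ H ∈ 𝓗, stFlat 1 H) →
    (stIncF 𝒜 𝓗 : ℝ) ≤ C * ((𝒜.card : ℝ) ^ ((2 : ℝ) / 3) * (𝓗.card : ℝ) ^ ((2 : ℝ) / 3)
      + 𝒜.card + 𝓗.card) := by
  obtain ⟨C, hC, hg⟩ := st_general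
  refine ⟨C, hC, ?_⟩
  intro E _ _ 𝒜 𝓗 h𝒜 h𝓗
  set pt : AffineSubspace ℝ E → E := fun b =>
    if h : (b : Set E).Nonempty then h.some else 0 with hpt
  have hpt1 : ∀ a ∈ 𝒜, pt a ∈ a := by
    intro a ha
    simp only [hpt, dif_pos (h𝒜 a ha).1]
    exact (h𝒜 a ha).1.some_mem
  have hbot : ∀ a ∈ 𝒜, a.direction = ⊥ := fun a ha => by
    have := (h𝒜 a ha).2.1
    exact Submodule.finrank_eq_zero.1 (h𝒜 a ha).2.2
  have hle : ∀ a ∈ 𝒜, ∀ H : AffineSubspace ℝ E, a ≤ H ↔ pt a ∈ H := by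
    intro a ha H
    constructor
    · intro h; exact h (hpt1 a ha)
    · intro h x hx
      have h1 : x -ᵥ pt a ∈ a.direction := AffineSubspace.vsub_mem_direction hx (hpt1 a ha)
      rw [hbot a ha, Submodule.mem_bot, vsub_eq_zero_iff_eq] at h1
      rw [h1]; exact h
  have hinj : Set.InjOn pt 𝒜 := by
    intro a ha a' ha' h
    apply le_antisymm
    · rw [hle a ha, h]; exact hpt1 a' ha'
    · rw [hle a' ha', ← h]; exact hpt1 a ha
  have hcard : (𝒜.image pt).card = 𝒜.card := Finset.card_image_of_injOn hinj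
  have hinc : stIncF 𝒜 𝓗 = stInc (𝒜.image pt) 𝓗 := by
    unfold stIncF stInc
    refine Finset.sum_congr rfl (fun H _ => ?_)
    rw [Finset.filter_image, Finset.card_image_of_injOn
      (hinj.mono (fun x hx => (Finset.mem_filter.1 hx).1))]
    congr 1
    exact Finset.filter_congr (fun a ha => hle a ha H)
  have h2 := hg E (𝒜.image pt) 𝓗 (fun H hH => (h𝓗 H hH).2.2)
  rw [hcard] at h2
  rw [hinc]
  exact h2

/-- **Szemeredi-Trotter for `k`-flats in `(k+1)`-flats** -/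
theorem st_flat_inc : ∃ C : ℝ, 0 < C ∧ ∀ (E : Type) [AddCommGroup E] [Module ℝ E] (k : ℕ)
    (𝒜 𝓗 : Finset (AffineSubspace ℝ E)), (∀ a ∈ 𝒜, stFlat k a) → (∀ H ∈ 𝓗, stFlat (k + 1) H) →
    (stIncF 𝒜 𝓗 : ℝ) ≤ C * ((𝒜.card : ℝ) ^ ((2 : ℝ) / 3) * (𝓗.card : ℝ) ^ ((2 : ℝ) / 3)
      + 𝒜.card + 𝓗.card) := by
  obtain ⟨C, hC, hb⟩ := stf_base
  refine ⟨C, hC, ?_⟩
  intro E _ _ k
  induction k with
  | zero =>
    intro 𝒜 𝓗 h𝒜 h𝓗
    exact hb E 𝒜 𝓗 h𝒜 h𝓗
  | succ k ih =>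
    intro 𝒜 𝓗 h𝒜 h𝓗
    obtain ⟨σ, h1, h2, h3, h4, h5⟩ := stf_slice k 𝒜 𝓗 h𝒜 h𝓗
    have hle : stIncF 𝒜 𝓗 ≤ stIncF (𝒜.image σ) (𝓗.image σ) := by
      unfold stIncF
      rw [Finset.sum_image h4]
      refine Finset.sum_le_sum (fun H hH => ?_)
      apply Finset.card_le_card_of_injOn σ
      · intro a ha
        obtain ⟨ha1, ha2⟩ := Finset.mem_filter.1 ha
        exact Finset.mem_filter.2 ⟨Finset.mem_image_of_mem _ ha1, h5 a ha1 H hH ha2⟩
      · exact h3.mono (fun a ha => (Finset.mem_filter.1 ha).1)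
    have h6 := ih (𝒜.image σ) (𝓗.image σ)
      (by
        intro a ha
        obtain ⟨a0, ha0, rfl⟩ := Finset.mem_image.1 ha
        exact h1 a0 ha0)
      (by
        intro H hH
        obtain ⟨H0, hH0, rfl⟩ := Finset.mem_image.1 hH
        exact h2 H0 hH0)
    rw [Finset.card_image_of_injOn h3, Finset.card_image_of_injOn h4] at h6
    exact le_trans (by exact_mod_cast hle) h6

theorem stf_triv {E : Type} [AddCommGroup E] [Module ℝ E] (k : ℕ)
    (𝒜 𝓗 : Finset (AffineSubspace ℝ E)) (h𝒜 : ∀ a ∈ 𝒜, stFlat k a)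
    (h𝓗 : ∀ H ∈ 𝓗, stFlat (k + 1) H) : stIncF 𝒜 𝓗 ≤ 𝒜.card ^ 2 + 𝓗.card := by
  unfold stIncF
  refine st_triv_abs 𝓗 𝒜 (fun H => 𝒜.filter (fun a => a ≤ H))
    (fun H _ => Finset.filter_subset _ _) ?_
  intro H hH H' hH' a a' hne ha ha' hb hb'
  by_contra hHH
  obtain ⟨ha1, ha2⟩ := Finset.mem_filter.1 ha
  obtain ⟨ha1', ha2'⟩ := Finset.mem_filter.1 ha'
  obtain ⟨_, hb2⟩ := Finset.mem_filter.1 hb
  obtain ⟨_, hb2'⟩ := Finset.mem_filter.1 hb'
  have hle : a ≤ H ⊓ H' := le_inf ha2 hb2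
  have hle' : a' ≤ H ⊓ H' := le_inf ha2' hb2'
  have hn : ((H ⊓ H' : AffineSubspace ℝ E) : Set E).Nonempty := (h𝒜 a ha1).1.mono hle
  obtain ⟨hfd, hr⟩ := stf_inf_finrank (h𝓗 H hH) (h𝓗 H' hH') hHH hn
  have hr2 : k ≤ Module.finrank ℝ (H ⊓ H').direction := by
    rw [← (h𝒜 a ha1).2.2]; exact Submodule.finrank_mono (AffineSubspace.direction_le hle)
  have hfl : stFlat k (H ⊓ H') := ⟨hn, hfd, le_antisymm hr hr2⟩
  exact hne ((stf_eq_of_le (h𝒜 a ha1) hfl hle).trans (stf_eq_of_le (h𝒜 a' ha1') hfl hle').symm)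

/-- **rich flats**: at most `C (m²/t³ + m/t)` `(k+1)`-flats contain at least `t ≥ 2` of `m` given `k`-flats -/
theorem st_rich_flats : ∃ C : ℝ, 0 < C ∧ ∀ (E : Type) [AddCommGroup E] [Module ℝ E] (k : ℕ)
    (𝒜 : Finset (AffineSubspace ℝ E)) (t : ℕ) (𝓗 : Finset (AffineSubspace ℝ E)), 2 ≤ t →
    (∀ a ∈ 𝒜, stFlat k a) →
    (∀ H ∈ 𝓗, stFlat (k + 1) H ∧ t ≤ (𝒜.filter (fun a => a ≤ H)).card) →
    (𝓗.card : ℝ) ≤ C * ((𝒜.card : ℝ) ^ 2 / (t : ℝ) ^ 3 + (𝒜.card : ℝ) / t) := by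
  obtain ⟨C0, hC0, hg⟩ := st_flat_inc
  refine ⟨64 * C0 ^ 3 + 4 * C0, by positivity, ?_⟩
  intro E _ _ k 𝒜 t 𝓗 ht h𝒜 h𝓗
  have h1 : t * 𝓗.card ≤ stIncF 𝒜 𝓗 := by
    unfold stIncF
    rw [mul_comm, ← smul_eq_mul, ← Finset.sum_const]
    exact Finset.sum_le_sum fun H hH => (h𝓗 H hH).2
  have h3 := stf_triv k 𝒜 𝓗 h𝒜 fun H hH => (h𝓗 H hH).1
  have h2 := hg E k 𝒜 𝓗 h𝒜 fun H hH => (h𝓗 H hH).1
  refine str_num (I := (stIncF 𝒜 𝓗 : ℝ)) hC0 (Nat.cast_nonneg _) (Nat.cast_nonneg _)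
    (by exact_mod_cast ht) (by exact_mod_cast h1) ?_ (by exact_mod_cast h3)
  refine h2.trans (le_of_eq ?_)
  ring

end Claimed.Agent.R273
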