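-- KEEP
import Claimed.Agent.R273.StFlat
import Claimed.Agent.R273.GeoTLProd
import Claimed.Agent.R273.GeoTLCnt

/-!
# Row 273, S4 TERM / assigned lines: THE REAL CORE (secants.tex l.252-337).  Architect helper28.

`GeoTLCore d`: `P ⊆ ℝ^d`, `N = |P| ≥ 1/δ`, `M ≤ δ A`, plane cap `|P ∩ H| ≤ B^{8/3}`; a partial assignment `q ∈ Q ↦ lin q` (a real line through `q`);
for every centre `p` a family `pl p` of at most `E = δ N / A` planes through `p`.  Then the pairs `(p, q)` with `lin q ⊆ H` for some `H ∈ pl p` are `≤ ε N²`.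

Proof (`geo_tl_core`).  `S H = #{q ∈ Q | lin q ≤ H}`, `h H = |P ∩ H|`.  `|Γ| ≤ ∑_p ∑_{H ∈ pl p} S H`.
Planes with `S H < A`: `≤ N E A = δ N²`.  Planes with `S H ≥ A`: `≤ ∑_{H : S H ≥ A} h H S H` (`H ∈ pl p → p ∈ H`), and `geo_tl_count` with
`𝓛 = Q.image lin`, `n l = #{q ∈ Q | lin q = l} ≤ |P ∩ l|`, `inc = (≤)`, `hST = geo_tl_inc` (`st_flat_inc`, `k = 1`), `K = 2^k₀ ∈ (C₂ M², 2 C₂ M²]` (`geo_tl_prod`), `hmax = ⌊B^{8/3}⌋`:
`|Γ| ≤ δ N² + 16 C₁ N B^{8/3} + 73728 C₁³ 2 C₂ δ² N²`, and `N B^{8/3} ≤ N^{17/9} ≤ δ^{1/9} N²` (`geo_tl_final`; `d ≥ 3`, `N ≥ 1/δ`).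
-/

set_option autoImplicit false

namespace Claimed.Agent.R273

open scoped Classical
open Finset Claims.C0444

/-- the real core of the paragraph "Assigned lines" -/
def GeoTLCore (d : ℕ) : Prop :=
  ∀ ε : ℝ, 0 < ε → ∃ δ₀ : ℝ, 0 < δ₀ ∧ ∀ (P : Finset (Pt d)) (δ : ℝ), 0 < δ → δ ≤ δ₀ →
    1 ≤ δ * (P.card : ℝ) → (dM P : ℝ) ≤ δ * dA P →
    (∀ H : AffineSubspace ℝ (Pt d), Module.finrank ℝ H.direction = 2 →
      ((P.filter (fun x => x ∈ H)).card : ℝ) ≤ ((P.card : ℝ) ^ ((1 : ℝ) / d)) ^ ((8 : ℝ) / 3)) →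
    ∀ (Q : Finset (Pt d)) (lin : Pt d → AffineSubspace ℝ (Pt d)), Q ⊆ P →
      (∀ q ∈ Q, stIsLine (lin q) ∧ q ∈ lin q) →
    ∀ pl : Pt d → Finset (AffineSubspace ℝ (Pt d)),
      (∀ p ∈ P, ((pl p).card : ℝ) ≤ δ * (P.card : ℝ) / dA P) →
      (∀ p ∈ P, ∀ H ∈ pl p, Module.finrank ℝ H.direction = 2 ∧ p ∈ H) →
    ∀ Γ ⊆ P ×ˢ Q, (∀ z ∈ Γ, ∃ H ∈ pl z.1, lin z.2 ≤ H) →
      (Γ.card : ℝ) ≤ ε * (P.card : ℝ) ^ 2

/-- lines in planes, linearised Szemeredi-Trotter -/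
theorem geo_tl_inc : ∃ C : ℝ, 1 ≤ C ∧ ∀ (E : Type) [AddCommGroup E] [Module ℝ E]
    (𝒜 𝓗 : Finset (AffineSubspace ℝ E)), (∀ a ∈ 𝒜, stFlat 1 a) → (∀ H ∈ 𝓗, stFlat 2 H) →
    ∀ τ : ℝ, 0 < τ → (stIncF 𝒜 𝓗 : ℝ) ≤
      C * ((𝒜.card : ℝ) ^ 2 / τ ^ 2 + τ * 𝓗.card + 𝒜.card + 𝓗.card) := by
  obtain ⟨C, hC, h⟩ := st_flat_inc
  refine ⟨max C 1, le_max_right _ _, ?_⟩
  intro E _ _ 𝒜 𝓗 h𝒜 h𝓗 τ hτ
  have h1 := h E 1 𝒜 𝓗 h𝒜 h𝓗
  have h2 := geo_tl_amgm (𝒜.card : ℝ) (𝓗.card : ℝ) τ (Nat.cast_nonneg _) (Nat.cast_nonneg _) hτ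
  have h3 : (0 : ℝ) ≤ (𝒜.card : ℝ) ^ 2 / τ ^ 2 + τ * 𝓗.card + 𝒜.card + 𝓗.card := by positivity
  calc (stIncF 𝒜 𝓗 : ℝ) ≤ C * ((𝒜.card : ℝ) ^ ((2 : ℝ) / 3) * (𝓗.card : ℝ) ^ ((2 : ℝ) / 3)
      + 𝒜.card + 𝓗.card) := h1
    _ ≤ C * ((𝒜.card : ℝ) ^ 2 / τ ^ 2 + τ * 𝓗.card + 𝒜.card + 𝓗.card) := by
        apply mul_le_mul_of_nonneg_left _ hC.le
        linarith
    _ ≤ max C 1 * ((𝒜.card : ℝ) ^ 2 / τ ^ 2 + τ * 𝓗.card + 𝒜.card + 𝓗.card) :=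
        mul_le_mul_of_nonneg_right (le_max_left _ _) h3

/-- `N B^{8/3} ≤ δ^{1/9} N²` -/
theorem geo_tl_final (d : ℕ) (hd : 3 ≤ d) (N δ : ℝ) (hδ : 0 < δ) (hN : 1 ≤ δ * N) (hδ1 : δ ≤ 1) :
    N * (N ^ ((1 : ℝ) / d)) ^ ((8 : ℝ) / 3) ≤ δ ^ ((1 : ℝ) / 9) * N ^ 2 := by
  have hN0 : 0 < N := by
    by_contra h
    push Not at h
    nlinarith
  have hN1 : 1 ≤ N := by nlinarith
  have hd' : (3 : ℝ) ≤ d := by exact_mod_cast hd
  have e1 : (N ^ ((1 : ℝ) / d)) ^ ((8 : ℝ) / 3) = N ^ ((1 : ℝ) / d * (8 / 3)) :=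
    (Real.rpow_mul hN0.le _ _).symm
  have e0 : (1 : ℝ) / d ≤ 1 / 3 := one_div_le_one_div_of_le (by norm_num) hd'
  have e2 : N ^ ((1 : ℝ) / d * (8 / 3)) ≤ N ^ ((8 : ℝ) / 9) :=
    Real.rpow_le_rpow_of_exponent_le hN1 (by linarith)
  have e3 : 1 ≤ δ ^ ((1 : ℝ) / 9) * N ^ ((1 : ℝ) / 9) := by
    rw [← Real.mul_rpow hδ.le hN0.le]
    exact Real.one_le_rpow hN (by norm_num)
  have e4 : N * N ^ ((8 : ℝ) / 9) * N ^ ((1 : ℝ) / 9) = N ^ 2 := by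
    rw [mul_assoc, ← Real.rpow_add hN0]
    norm_num
    ring
  have e5 : (0 : ℝ) ≤ N * N ^ ((8 : ℝ) / 9) := by positivity
  calc N * (N ^ ((1 : ℝ) / d)) ^ ((8 : ℝ) / 3) ≤ N * N ^ ((8 : ℝ) / 9) := by
        rw [e1]
        exact mul_le_mul_of_nonneg_left e2 hN0.le
    _ ≤ N * N ^ ((8 : ℝ) / 9) * (δ ^ ((1 : ℝ) / 9) * N ^ ((1 : ℝ) / 9)) :=
        le_mul_of_one_le_right e5 e3
    _ = δ ^ ((1 : ℝ) / 9) * (N * N ^ ((8 : ℝ) / 9) * N ^ ((1 : ℝ) / 9)) := by ring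
    _ = _ := by rw [e4]

theorem geo_tl_core_hK (C₁ C₂ δ A K : ℝ) (hC₁ : 1 ≤ C₁) (hC₂ : 1 ≤ C₂) (hδ : 0 < δ) (hδ1 : δ ≤ 1)
    (hδ5 : δ ≤ 1 / (64 * C₁ * C₂)) (hA : 0 < A) (hK : K ≤ 2 * C₂ * δ ^ 2 * A ^ 2) :
    32 * C₁ * K ≤ A ^ 2 := by
  have hC₁0 : 0 < C₁ := by linarith
  have hC₂0 : 0 < C₂ := by linarith
  have h1 : 64 * C₁ * C₂ * δ ≤ 1 := by
    rw [le_div_iff₀ (by positivity)] at hδ5
    linarith
  have h2 : δ ^ 2 ≤ δ := by nlinarith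
  have h3 : 64 * C₁ * C₂ * δ ^ 2 ≤ 1 := by
    have : 64 * C₁ * C₂ * δ ^ 2 ≤ 64 * C₁ * C₂ * δ :=
      mul_le_mul_of_nonneg_left h2 (by positivity)
    linarith
  have hA2 : 0 < A ^ 2 := by positivity
  calc 32 * C₁ * K ≤ 32 * C₁ * (2 * C₂ * δ ^ 2 * A ^ 2) :=
        mul_le_mul_of_nonneg_left hK (by positivity)
    _ = (64 * C₁ * C₂ * δ ^ 2) * A ^ 2 := by ring
    _ ≤ 1 * A ^ 2 := mul_le_mul_of_nonneg_right h3 hA2.le
    _ = A ^ 2 := one_mul _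

theorem geo_tl_core_t1 (d : ℕ) (hd : 3 ≤ d) (C₁ ε δ N : ℝ) (hC₁ : 1 ≤ C₁) (hε : 0 < ε) (hδ : 0 < δ)
    (hδ1 : δ ≤ 1) (hδN : 1 ≤ δ * N) (hδ3 : δ ≤ (ε / (48 * C₁)) ^ 9) :
    16 * C₁ * N * (⌊(N ^ ((1 : ℝ) / d)) ^ ((8 : ℝ) / 3)⌋₊ : ℝ) ≤ ε / 3 * N ^ 2 := by
  have hC₁0 : 0 < C₁ := by linarith
  have hN0 : 0 < N := by
    by_contra h
    push Not at h
    nlinarith
  have hN2 : 0 < N ^ 2 := by positivity
  set Bc : ℝ := (N ^ ((1 : ℝ) / d)) ^ ((8 : ℝ) / 3) with hBc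
  have hBc0 : 0 ≤ Bc := Real.rpow_nonneg (Real.rpow_nonneg hN0.le _) _
  have h1 : (⌊Bc⌋₊ : ℝ) ≤ Bc := Nat.floor_le hBc0
  have h2 : N * Bc ≤ δ ^ ((1 : ℝ) / 9) * N ^ 2 := geo_tl_final d hd N δ hδ hδN hδ1
  have h3 : δ ^ ((1 : ℝ) / 9) ≤ ε / (48 * C₁) := by
    have h4 : δ ^ ((1 : ℝ) / 9) ≤ ((ε / (48 * C₁)) ^ 9) ^ ((1 : ℝ) / 9) :=
      Real.rpow_le_rpow hδ.le hδ3 (by norm_num)
    have h5 : ((ε / (48 * C₁)) ^ 9) ^ ((1 : ℝ) / 9) = ε / (48 * C₁) := by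
      rw [← Real.rpow_natCast, ← Real.rpow_mul (by positivity)]
      norm_num
    rw [h5] at h4
    exact h4
  calc 16 * C₁ * N * (⌊Bc⌋₊ : ℝ) ≤ 16 * C₁ * N * Bc :=
        mul_le_mul_of_nonneg_left h1 (by positivity)
    _ = 16 * C₁ * (N * Bc) := by ring
    _ ≤ 16 * C₁ * (ε / (48 * C₁) * N ^ 2) := by
        refine mul_le_mul_of_nonneg_left (h2.trans ?_) (by positivity)
        exact mul_le_mul_of_nonneg_right h3 hN2.le
    _ = ε / 3 * N ^ 2 := by field_simp; ring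

theorem geo_tl_core_t2 (C₁ C₂ ε δ A N K : ℝ) (hC₁ : 1 ≤ C₁) (hC₂ : 1 ≤ C₂) (hδ : 0 < δ)
    (hδ1 : δ ≤ 1) (hδ4 : δ ≤ ε / (442368 * C₁ ^ 3 * C₂)) (hA : 0 < A)
    (hK : K ≤ 2 * C₂ * δ ^ 2 * A ^ 2) :
    73728 * C₁ ^ 3 * K * N ^ 2 / A ^ 2 ≤ ε / 3 * N ^ 2 := by
  have hC₁0 : 0 < C₁ := by linarith
  have hC₂0 : 0 < C₂ := by linarith
  have hA2 : 0 < A ^ 2 := by positivity
  have h1 : 442368 * C₁ ^ 3 * C₂ * δ ≤ ε := by
    rw [le_div_iff₀ (by positivity)] at hδ4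
    linarith
  have h2 : δ ^ 2 ≤ δ := by nlinarith
  have h3 : 147456 * C₁ ^ 3 * C₂ * δ ^ 2 ≤ ε / 3 := by
    have : 147456 * C₁ ^ 3 * C₂ * δ ^ 2 ≤ 147456 * C₁ ^ 3 * C₂ * δ :=
      mul_le_mul_of_nonneg_left h2 (by positivity)
    linarith
  rw [div_le_iff₀ hA2]
  calc 73728 * C₁ ^ 3 * K * N ^ 2
      = 73728 * C₁ ^ 3 * N ^ 2 * K := by ring
    _ ≤ 73728 * C₁ ^ 3 * N ^ 2 * (2 * C₂ * δ ^ 2 * A ^ 2) :=
        mul_le_mul_of_nonneg_left hK (by positivity)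
    _ = (147456 * C₁ ^ 3 * C₂ * δ ^ 2) * (N ^ 2 * A ^ 2) := by ring
    _ ≤ ε / 3 * (N ^ 2 * A ^ 2) := mul_le_mul_of_nonneg_right h3 (by positivity)
    _ = ε / 3 * N ^ 2 * A ^ 2 := by ring

/-- abstract double counting of the pairs `(p, q)`: light and heavy planes -/
theorem geo_tl_core_cnt {α β γ : Type} (P : Finset α) (Q : Finset β) (pl : α → Finset γ)
    (R : β → γ → Prop) (h : γ → ℕ) (A W : ℝ) (hA : 0 ≤ A)
    (hh : ∀ H, (P.filter (fun p => H ∈ pl p)).card ≤ h H)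
    (hW : ∀ p ∈ P, ((pl p).card : ℝ) * A ≤ W)
    (Γ : Finset (α × β)) (hΓ : Γ ⊆ P ×ˢ Q) (hΓ2 : ∀ z ∈ Γ, ∃ H ∈ pl z.1, R z.2 H) :
    (Γ.card : ℝ) ≤ ((∑ H ∈ (P.biUnion pl).filter
        (fun H => A ≤ ((Q.filter (fun q => R q H)).card : ℝ)),
          h H * (Q.filter (fun q => R q H)).card : ℕ) : ℝ) + (P.card : ℝ) * W := by
  set S : γ → ℕ := fun H => (Q.filter (fun q => R q H)).card with hSdef
  set 𝓗 : Finset γ := (P.biUnion pl).filter (fun H => A ≤ (S H : ℝ)) with h𝓗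
  have hΓ1 : Γ.card ≤ ∑ p ∈ P, ∑ H ∈ pl p, S H := by
    have hsub : Γ ⊆ P.biUnion (fun p => (pl p).biUnion (fun H =>
        (Q.filter (fun q => R q H)).image (fun q => (p, q)))) := by
      intro z hz
      obtain ⟨H, hH, hzH⟩ := hΓ2 z hz
      have hz' := Finset.mem_product.1 (hΓ hz)
      exact Finset.mem_biUnion.2 ⟨z.1, hz'.1, Finset.mem_biUnion.2 ⟨H, hH,
        Finset.mem_image.2 ⟨z.2, Finset.mem_filter.2 ⟨hz'.2, hzH⟩, rfl⟩⟩⟩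
    refine (Finset.card_le_card hsub).trans (Finset.card_biUnion_le.trans ?_)
    refine Finset.sum_le_sum (fun p _ => Finset.card_biUnion_le.trans ?_)
    exact Finset.sum_le_sum (fun H _ => Finset.card_image_le)
  have hsplit : ∑ p ∈ P, ∑ H ∈ pl p, S H
      = ∑ p ∈ P, ∑ H ∈ (pl p).filter (fun H => A ≤ (S H : ℝ)), S H
        + ∑ p ∈ P, ∑ H ∈ (pl p).filter (fun H => ¬ A ≤ (S H : ℝ)), S H := by
    rw [← Finset.sum_add_distrib]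
    refine Finset.sum_congr rfl (fun p _ => ?_)
    rw [Finset.sum_filter_add_sum_filter_not]
  have hheavy : ∑ p ∈ P, ∑ H ∈ (pl p).filter (fun H => A ≤ (S H : ℝ)), S H
      ≤ ∑ H ∈ 𝓗, h H * S H := by
    have h1 : ∀ p ∈ P, ∑ H ∈ (pl p).filter (fun H => A ≤ (S H : ℝ)), S H
        = ∑ H ∈ 𝓗, if H ∈ pl p then S H else 0 := by
      intro p hp
      rw [← Finset.sum_filter]
      refine Finset.sum_congr ?_ (fun _ _ => rfl)
      ext H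
      simp only [h𝓗, Finset.mem_filter, Finset.mem_biUnion]
      constructor
      · rintro ⟨h1, h2⟩
        exact ⟨⟨⟨p, hp, h1⟩, h2⟩, h1⟩
      · rintro ⟨⟨_, h2⟩, h1⟩
        exact ⟨h1, h2⟩
    rw [Finset.sum_congr rfl h1, Finset.sum_comm]
    refine Finset.sum_le_sum (fun H _ => ?_)
    rw [← Finset.sum_filter, Finset.sum_const, smul_eq_mul]
    exact Nat.mul_le_mul_right _ (hh H)
  have hlight : ((∑ p ∈ P, ∑ H ∈ (pl p).filter (fun H => ¬ A ≤ (S H : ℝ)), S H : ℕ) : ℝ)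
      ≤ (P.card : ℝ) * W := by
    push_cast
    calc ∑ p ∈ P, ∑ H ∈ (pl p).filter (fun H => ¬ A ≤ (S H : ℝ)), (S H : ℝ)
        ≤ ∑ _p ∈ P, W := by
          refine Finset.sum_le_sum (fun p hp => ?_)
          calc ∑ H ∈ (pl p).filter (fun H => ¬ A ≤ (S H : ℝ)), (S H : ℝ)
              ≤ ∑ _H ∈ (pl p).filter (fun H => ¬ A ≤ (S H : ℝ)), A :=
                Finset.sum_le_sum (fun H hH => (not_le.1 (Finset.mem_filter.1 hH).2).le)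
            _ = (((pl p).filter (fun H => ¬ A ≤ (S H : ℝ))).card : ℝ) * A := by
                rw [Finset.sum_const, nsmul_eq_mul]
            _ ≤ ((pl p).card : ℝ) * A := by
                refine mul_le_mul_of_nonneg_right ?_ hA
                exact_mod_cast Finset.card_le_card (Finset.filter_subset _ _)
            _ ≤ W := hW p hp
      _ = (P.card : ℝ) * W := by
          rw [Finset.sum_const, nsmul_eq_mul]
  have hfin : (Γ.card : ℝ) ≤ ((∑ H ∈ 𝓗, h H * S H : ℕ) : ℝ)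
      + ((∑ p ∈ P, ∑ H ∈ (pl p).filter (fun H => ¬ A ≤ (S H : ℝ)), S H : ℕ) : ℝ) := by
    have : Γ.card ≤ ∑ H ∈ 𝓗, h H * S H
        + ∑ p ∈ P, ∑ H ∈ (pl p).filter (fun H => ¬ A ≤ (S H : ℝ)), S H := by
      rw [hsplit] at hΓ1
      omega
    exact_mod_cast this
  linarith

/-- **the real core** -/
theorem geo_tl_core (d : ℕ) (hd : 3 ≤ d) : GeoTLCore d := by
  obtain ⟨C₁, hC₁, hinc⟩ := geo_tl_inc
  obtain ⟨C₂, hC₂, hprod⟩ := geo_tl_prod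
  intro ε hε
  have hC₁0 : 0 < C₁ := by linarith
  have hC₂0 : 0 < C₂ := by linarith
  refine ⟨min (min 1 (ε / 3)) (min ((ε / (48 * C₁)) ^ 9)
    (min (ε / (442368 * C₁ ^ 3 * C₂)) (1 / (64 * C₁ * C₂)))), ?_, ?_⟩
  · refine lt_min (lt_min one_pos (by positivity)) (lt_min (by positivity)
      (lt_min (by positivity) (by positivity)))
  intro P δ hδ hδδ₀ hδN hM hcap Q lin hQP hlin pl hplc hpl Γ hΓ hΓ2
  have hδ1 : δ ≤ 1 := hδδ₀.trans ((min_le_left _ _).trans (min_le_left _ _))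
  have hδ2 : δ ≤ ε / 3 := hδδ₀.trans ((min_le_left _ _).trans (min_le_right _ _))
  have hδ3 : δ ≤ (ε / (48 * C₁)) ^ 9 := hδδ₀.trans ((min_le_right _ _).trans (min_le_left _ _))
  have hδ4 : δ ≤ ε / (442368 * C₁ ^ 3 * C₂) :=
    hδδ₀.trans ((min_le_right _ _).trans ((min_le_right _ _).trans (min_le_left _ _)))
  have hδ5 : δ ≤ 1 / (64 * C₁ * C₂) :=
    hδδ₀.trans ((min_le_right _ _).trans ((min_le_right _ _).trans (min_le_right _ _)))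
  clear hδδ₀
  set N : ℝ := (P.card : ℝ) with hN
  have hN0 : 0 < N := by
    by_contra h
    push Not at h
    nlinarith
  set A : ℝ := dA P with hAdef
  have hA : 0 < A := by
    rw [hAdef]; unfold dA
    exact Real.rpow_pos_of_pos hN0 _
  set M : ℝ := (dM P : ℝ) with hMdef
  have hM1 : 1 ≤ M := by
    rw [hMdef]; unfold dM; push_cast
    linarith [(Nat.cast_nonneg (distinctDistances P).card : (0 : ℝ) ≤ _)]
  obtain ⟨k, hk1, hk2⟩ := exists_nat_pow_near (x := C₂ * M ^ 2) (y := 2) (by nlinarith)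
    (by norm_num)
  have hk₀1 : C₂ * M ^ 2 ≤ 2 ^ (k + 1) := hk2.le
  have hk₀2 : (2 : ℝ) ^ (k + 1) ≤ 2 * (C₂ * M ^ 2) := by rw [pow_succ]; linarith
  have hk₀3 : (2 : ℝ) ^ (k + 1) ≤ 2 * C₂ * δ ^ 2 * A ^ 2 := by
    have : M ^ 2 ≤ (δ * A) ^ 2 := pow_le_pow_left₀ (by linarith) hM 2
    nlinarith
  -- the objects
  set 𝓛 : Finset (AffineSubspace ℝ (Pt d)) := Q.image lin with h𝓛
  set n : AffineSubspace ℝ (Pt d) → ℕ := fun l => (Q.filter (fun q => lin q = l)).card with hn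
  set S : AffineSubspace ℝ (Pt d) → ℕ := fun H => (Q.filter (fun q => lin q ≤ H)).card with hSdef
  set h : AffineSubspace ℝ (Pt d) → ℕ := fun H => (P.filter (fun x => x ∈ H)).card with hh
  have hS : ∀ H, ∑ l ∈ 𝓛.filter (fun l => l ≤ H), n l = S H := by
    intro H
    have h1 := Finset.card_eq_sum_card_fiberwise (f := lin) (s := Q.filter (fun q => lin q ≤ H))
      (t := 𝓛.filter (fun l => l ≤ H)) (by
        intro q hq
        have hq' := Finset.mem_filter.1 (Finset.mem_coe.1 hq)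
        exact Finset.mem_coe.2 (Finset.mem_filter.2 ⟨Finset.mem_image_of_mem _ hq'.1, hq'.2⟩))
    rw [hSdef]
    show _ = (Q.filter (fun q => lin q ≤ H)).card
    rw [h1]
    refine Finset.sum_congr rfl ?_
    intro l hl
    have hl' := (Finset.mem_filter.1 hl).2
    show (Q.filter (fun q => lin q = l)).card = _
    congr 1
    ext q
    simp only [Finset.mem_filter]
    constructor
    · rintro ⟨h1, h2⟩
      exact ⟨⟨h1, h2 ▸ hl'⟩, h2⟩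
    · rintro ⟨⟨h1, _⟩, h2⟩
      exact ⟨h1, h2⟩
  set 𝓗 : Finset (AffineSubspace ℝ (Pt d)) :=
    (P.biUnion pl).filter (fun H => A ≤ (S H : ℝ)) with h𝓗
  have h𝓗pl : ∀ H ∈ 𝓗, Module.finrank ℝ H.direction = 2 ∧ (H : Set (Pt d)).Nonempty := by
    intro H hH
    obtain ⟨p, hp, hHp⟩ := Finset.mem_biUnion.1 (Finset.mem_filter.1 hH).1
    exact ⟨(hpl p hp H hHp).1, ⟨p, (hpl p hp H hHp).2⟩⟩
  have key := geo_tl_count 𝓛 𝓗 (fun l H => l ≤ H) n h C₁ A N (k + 1)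
    ⌊(N ^ ((1 : ℝ) / d)) ^ ((8 : ℝ) / 3)⌋₊ hC₁ hA
    (by
      intro 𝓛' h𝓛' 𝓗' h𝓗' τ hτ
      refine hinc (Pt d) 𝓛' 𝓗' ?_ ?_ τ hτ
      · intro a ha
        obtain ⟨q, hq, rfl⟩ := Finset.mem_image.1 (h𝓛' ha)
        exact ⟨⟨q, (hlin q hq).2⟩, inferInstance, (hlin q hq).1⟩
      · intro H hH
        exact ⟨(h𝓗pl H (h𝓗' hH)).2, inferInstance, (h𝓗pl H (h𝓗' hH)).1⟩)
    (by
      intro l hl
      obtain ⟨q, hq, rfl⟩ := Finset.mem_image.1 hl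
      exact Finset.card_pos.2 ⟨q, Finset.mem_filter.2 ⟨hq, rfl⟩⟩)
    (by
      have h1 : ∑ l ∈ 𝓛, n l = Q.card :=
        (Finset.card_eq_sum_card_fiberwise (f := lin) (s := Q) (t := 𝓛) (by
          intro q hq
          exact Finset.mem_coe.2 (Finset.mem_image_of_mem _ (Finset.mem_coe.1 hq)))).symm
      rw [h1]
      exact Nat.cast_le.2 (Finset.card_le_card hQP))
    (by
      intro l hl H hH hlH
      obtain ⟨q₀, hq₀, hq₀l⟩ := Finset.mem_image.1 hl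
      have h1 : n l ≤ (P.filter (fun x => x ∈ l)).card := by
        apply Finset.card_le_card
        intro q hq
        have hq' := Finset.mem_filter.1 hq
        exact Finset.mem_filter.2 ⟨hQP hq'.1, hq'.2 ▸ (hlin q hq'.1).2⟩
      have h2 := hprod d P l H (hq₀l ▸ (hlin q₀ hq₀).1) (h𝓗pl H hH).1 hlH
      have h3 : ((n l * h H : ℕ) : ℝ) ≤ ((2 ^ (k + 1) : ℕ) : ℝ) := by
        push_cast
        calc (n l : ℝ) * (h H : ℝ) ≤ ((P.filter (fun x => x ∈ l)).card : ℝ) * (h H : ℝ) :=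
              mul_le_mul_of_nonneg_right (by exact_mod_cast h1) (Nat.cast_nonneg _)
          _ ≤ C₂ * M ^ 2 := h2
          _ ≤ 2 ^ (k + 1) := hk₀1
      exact_mod_cast h3)
    (by
      intro H hH
      rw [hS H]
      exact (Finset.mem_filter.1 hH).2)
    (by
      intro H _
      rw [hS H]
      apply Finset.card_le_card
      intro q hq
      have hq' := Finset.mem_filter.1 hq
      exact Finset.mem_filter.2 ⟨hQP hq'.1, hq'.2 (hlin q hq'.1).2⟩)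
    (by
      intro H hH
      exact Nat.le_floor (hcap H (h𝓗pl H hH).1))
    (geo_tl_core_hK C₁ C₂ δ A _ hC₁ hC₂ hδ hδ1 hδ5 hA hk₀3)
  simp only [hS] at key
  have hcnt := geo_tl_core_cnt P Q pl (fun q H => lin q ≤ H) h A (δ * N) hA.le
    (by
      intro H
      apply Finset.card_le_card
      intro p hp
      have hp' := Finset.mem_filter.1 hp
      exact Finset.mem_filter.2 ⟨hp'.1, (hpl p hp'.1 H hp'.2).2⟩)
    (by
      intro p hp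
      calc ((pl p).card : ℝ) * A ≤ (δ * N / A) * A :=
            mul_le_mul_of_nonneg_right (hplc p hp) hA.le
        _ = δ * N := by field_simp)
    Γ hΓ hΓ2
  have t1 := geo_tl_core_t1 d hd C₁ ε δ N hC₁ hε hδ hδ1 hδN hδ3
  have t2 := geo_tl_core_t2 C₁ C₂ ε δ A N _ hC₁ hC₂ hδ hδ1 hδ4 hA hk₀3
  have hN2 : 0 < N ^ 2 := by positivity
  have t3 : N * (δ * N) ≤ ε / 3 * N ^ 2 := by
    have := mul_le_mul_of_nonneg_right hδ2 hN2.le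
    nlinarith
  have hcnt' : (Γ.card : ℝ) ≤ ((∑ H ∈ 𝓗, h H * S H : ℕ) : ℝ) + N * (δ * N) := hcnt
  linarith

end Claimed.Agent.R273
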