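-- KEEP
import Claimed.Agent.R273.GeoDefs
import Claimed.Agent.R273.SpTop

/-!
# Row 273, S4: `geo:terminal` (terminal-curve deletion) = `SpTermStmt d`, and its four parts.  Chief architect helper26.

Target: `SpTermStmt d` of SpTop.lean (helper37's frame; the regime `D.Reg δ₀` contains the distance bound `M ≤ δ A`, the degree budget `E = δ N / A`
and the flat caps in COMPLEX form, so the induction hypothesis is not needed here).  Paper: secants.tex l.222-513.

The statement is split by the TYPE of the pair (centre `x`, curve `Y = Z(cho y)`); `r = finrank (dirSpan Y)` = dimension of the affine span of `Y`: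

* `GeoTFStmt d` : `r < d` and `x` in the affine span of `Y`   (flat caps only; contains "centres on their assigned line");
* `GeoTLStmt d` : `r = 1`, `x` outside the line                 (real incidence geometry: Szemeredi-Trotter);
* `GeoTPStmt d` : `r = 2`, `x` outside the plane of `Y`         (perspectivities, stabiliser of a plane curve);
* `GeoT3Stmt`   : `d = 3`, `r = 3` (non-planar space curves)    (trisecants, BEZ-ISO, projection degrees).

NOTE (deviation from the paper): for `d = 3` the paper treats planar and non-planar curves of one group together.  Here the assignment is split FIRST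
(the statement is uniform in the assignment, so it can be applied to the restriction of the assignment to the planar, resp. non-planar, curves); the pair argument of
"Nonlinear curves when d ≥ 4" works verbatim for planar curves seen from outside their plane also when `d = 3` (`E = o(N)` is all it needs).
So `GeoT3Stmt` only sees NON-PLANAR curves.

Glue `geo_term_of_parts` is proved below from the one leaf `geo_classify`.
-/

set_option autoImplicit false

namespace Claimed.Agent.R273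

open MvPolynomial Module

/-- geo:terminal restricted to the pairs (centre, curve) of type `K`. -/
def GeoTermOn (d : ℕ) (K : SpC d → Set (SpC d) → Prop) : Prop :=
  ∀ ε : ℝ, 0 < ε → ∃ δ₀ : ℝ, 0 < δ₀ ∧ ∀ D : SpData d, D.Reg δ₀ →
    ∀ (cho : SpC d → Ideal (PrfPol d)) (Q : Finset (SpC d)), Q ⊆ D.pts →
      (∀ y ∈ Q, (cho y).IsPrime ∧ vdim (zeroLocus ℂ (cho y)) = 1 ∧ y ∈ zeroLocus ℂ (cho y) ∧
        ¬ SpThin (cho y)) →
      ∀ Γ ⊆ D.pts ×ˢ Q, (∀ z ∈ Γ, z.1 ≠ z.2 ∧ SpTerm D z.1 (cho z.2) ∧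
          K z.1 (zeroLocus ℂ (cho z.2))) →
        (Γ.card : ℝ) ≤ ε * D.N ^ 2

/-- centre inside the (proper) affine span of the curve -/
def GeoTFStmt (d : ℕ) : Prop := GeoTermOn d (fun a Y => finrank ℂ (dirSpan Y) < d ∧ InSpan a Y)

/-- assigned (real) lines, centre off the line -/
def GeoTLStmt (d : ℕ) : Prop := GeoTermOn d (fun a Y => finrank ℂ (dirSpan Y) = 1 ∧ ¬ InSpan a Y)

/-- planar nonlinear curves, centre off the plane -/
def GeoTPStmt (d : ℕ) : Prop := GeoTermOn d (fun a Y => finrank ℂ (dirSpan Y) = 2 ∧ ¬ InSpan a Y)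

/-- non-planar curves in `ℂ³` -/
def GeoT3Stmt : Prop := GeoTermOn 3 (fun _ Y => finrank ℂ (dirSpan Y) = 3)

/-! ### LEAF GEO-CONE (`geo_cone_smul`, `geo_cone_closed`, `geo_cone_one`, `geo_classify`), ~300 lines -/

/-- cones are cones.  `c.Mem w` gives a zero of `c.F`, so `c.deg ≥ 1` (a nonzero form of degree `0` is a nonzero constant: `MvPolynomial.IsHomogeneous`, `totalDegree = 0`, `eq_C_of_..`);
`eval (t • x) F = t ^ deg * eval x F` (`MvPolynomial.IsHomogeneous.eval₂`-type lemma / `IsHomogeneous.eval_smul`..), `c.φ (t • x) = t • c.φ x`. -/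
theorem geo_cone_smul {d : ℕ} (c : PCurve d) {w : SpC d} (h : c.Mem w) (t : ℂ) : c.Mem (t • w) := by
  obtain ⟨u, rfl, hu⟩ := h
  refine ⟨t • u, by simp, ?_⟩
  rw [pmb_homog_eval_smul c.hom, hu, mul_zero]

/-- the coordinates of a linear map as linear forms -/
noncomputable def geoLinForm {d : ℕ} {κ : Type*} (f : SpC d →ₗ[ℂ] (κ → ℂ)) (i : κ) : PrfPol d :=
  ∑ j, C (f (Pi.single j 1) i) * X j

theorem geo_cone_linForm_eval {d : ℕ} {κ : Type*} (f : SpC d →ₗ[ℂ] (κ → ℂ)) (i : κ) (w : SpC d) :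
    eval w (geoLinForm f i) = f w i := by
  rw [geoLinForm, LinearMap.pi_apply_eq_sum_univ f w]
  simp only [map_sum, map_mul, eval_C, eval_X, Finset.sum_apply, Pi.smul_apply, smul_eq_mul]
  refine Finset.sum_congr rfl fun j _ => ?_
  rw [mul_comm]
  have e : (Pi.single j 1 : SpC d) = fun k => if j = k then 1 else 0 := by
    funext k
    simp [Pi.single_apply, eq_comm]
  rw [e]

/-- cones are Zariski closed: with a linear left inverse `ψ` of `c.φ` (`LinearMap.exists_leftInverse_of_injective`), `c.Mem w ↔ c.φ (ψ w) = w ∧ eval (ψ w) c.F = 0`: the zero set of `d + 1` polynomials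
(`aeval (fun i => ∑ j, C (ψ (Pi.single j 1) i) * X j) c.F` and `X k - ∑ ..`). -/
theorem geo_cone_closed {d : ℕ} (c : PCurve d) :
    ∃ G : Set (PrfPol d), ∀ w : SpC d, c.Mem w ↔ w ∈ Zl G := by
  obtain ⟨ψ, hψ⟩ := LinearMap.exists_leftInverse_of_injective c.φ (LinearMap.ker_eq_bot.2 c.inj)
  have hψ' : ∀ x, ψ (c.φ x) = x := fun x => by
    have := congrArg (fun f : (Fin 3 → ℂ) →ₗ[ℂ] (Fin 3 → ℂ) => f x) hψ
    simpa using this
  refine ⟨insert (aeval (geoLinForm ψ) c.F) (Set.range fun k => X k - geoLinForm (c.φ.comp ψ) k), ?_⟩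
  intro w
  have e1 : eval w (aeval (geoLinForm ψ) c.F) = eval (ψ w) c.F := by
    rw [pmb_eval_aeval]
    congr 2
    funext i
    exact geo_cone_linForm_eval ψ i w
  constructor
  · rintro ⟨x, rfl, hx⟩ g hg
    rcases hg with rfl | ⟨k, rfl⟩
    · rw [e1, hψ' x, hx]
    · rw [map_sub, eval_X, geo_cone_linForm_eval, LinearMap.comp_apply, hψ' x, sub_self]
  · intro hw
    refine ⟨ψ w, ?_, ?_⟩
    · funext k
      have := hw _ (Set.mem_insert_of_mem _ ⟨k, rfl⟩)
      rw [map_sub, eval_X, geo_cone_linForm_eval, LinearMap.comp_apply, sub_eq_zero] at this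
      exact this.symm
    · rw [← e1]
      exact hw _ (Set.mem_insert _ _)

/-- a product of polynomials vanishing on an irreducible variety has a vanishing factor -/
theorem geo_cone_list_prod {ι : Type*} [Fintype ι] {Y : Set (ι → ℂ)} (hV : IsVar Y) (l : List (MvPolynomial ι ℂ))
    (h : ∀ x ∈ Y, eval x l.prod = 0) : ∃ g ∈ l, ∀ x ∈ Y, eval x g = 0 := by
  induction l with
  | nil =>
    obtain ⟨x, hx⟩ := ph_isVar_nonempty Y hV
    have := h x hx
    simp at this
  | cons g l ih =>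
    rw [List.prod_cons] at h
    rcases ph_isVar_mul hV g l.prod h with h1 | h1
    · exact ⟨g, List.mem_cons_self, h1⟩
    · obtain ⟨g', hg', h2⟩ := ih h1
      exact ⟨g', List.mem_cons_of_mem _ hg', h2⟩

/-- ONE directional curve carries the whole cone over an irreducible curve.  `Y ⊆ {a} ∪ ⋃_{c ∈ L} (a + Cone c)`, all closed (`geo_cone_closed`, translated); `Y` irreducible (`ph_isVar_mul`; induction on the list: if `Y ⊄ Z(G₁)` pick `g₁ ∈ G₁`, `y₁ ∈ Y` with `g₁ y₁ ≠ 0`; then for every `g₂` of the rest `g₁ g₂ = 0` on `Y`);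
`Y ⊆ {a}` is impossible (`ph_point`, `ph_vdim_mono`).  The point `y = a` (if `a ∈ Y`): `c.Mem 0` by `geo_cone_smul` with `t = 0`. -/
theorem geo_cone_one {d : ℕ} (L : List (PCurve d)) (a : SpC d) (Y : Set (SpC d)) (hV : IsVar Y)
    (hdim : vdim Y = 1) (h : ConeIn L a Y) : ∃ c ∈ L, ∀ y ∈ Y, c.Mem (y - a) := by
  classical
  by_contra hcon
  push Not at hcon
  -- a point of `Y` different from `a`
  have hne : ∃ y₀ ∈ Y, y₀ ≠ a := by
    by_contra hc
    push Not at hc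
    have hsub : Y ⊆ {a} := fun y hy => hc y hy
    have := ph_vdim_mono hsub
    rw [hdim, (ph_point a).2.1] at this
    omega
  obtain ⟨y₀, hy₀, hy₀a⟩ := hne
  obtain ⟨i₀, hi₀⟩ : ∃ i, y₀ i ≠ a i := by
    by_contra hc
    push Not at hc
    exact hy₀a (funext hc)
  -- a polynomial for each cone
  have hsel : ∀ c : PCurve d, ∃ g : PrfPol d, (∀ w, c.Mem w → eval w g = 0) ∧
      (c ∈ L → ∃ y ∈ Y, eval (y - a) g ≠ 0) := by
    intro c
    obtain ⟨G, hG⟩ := geo_cone_closed c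
    by_cases hc : c ∈ L
    · obtain ⟨y, hy, hyc⟩ := hcon c hc
      rw [hG] at hyc
      have : ∃ g ∈ G, eval (y - a) g ≠ 0 := by
        by_contra hh
        push Not at hh
        exact hyc hh
      obtain ⟨g, hg, hgy⟩ := this
      exact ⟨g, fun w hw => (hG w).1 hw g hg, fun _ => ⟨y, hy, hgy⟩⟩
    · exact ⟨0, fun w _ => by simp, fun h' => absurd h' hc⟩
  choose sel hsel1 hsel2 using hsel
  have hsh : ∀ (g : PrfPol d) (y : SpC d), eval y (aeval (fun i => X i - C (a i) : Fin d → PrfPol d) g) = eval (y - a) g := by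
    intro g y
    rw [pmb_eval_aeval]
    congr 2
    funext i
    simp
  set l : List (PrfPol d) := (X i₀ - C (a i₀)) :: L.map (fun c => aeval (fun i => X i - C (a i) : Fin d → PrfPol d) (sel c)) with hl
  have hprod : ∀ x ∈ Y, eval x l.prod = 0 := by
    intro x hx
    rw [map_list_prod]
    apply List.prod_eq_zero
    by_cases hxa : x = a
    · rw [hl, List.map_cons]
      have : eval x (X i₀ - C (a i₀)) = 0 := by rw [hxa]; simp
      rw [this]
      exact List.mem_cons_self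
    · obtain ⟨c, hc, hcm⟩ := h x hx hxa
      rw [List.mem_map]
      refine ⟨aeval (fun i => X i - C (a i) : Fin d → PrfPol d) (sel c), ?_, ?_⟩
      · rw [hl]
        exact List.mem_cons_of_mem _ (List.mem_map.2 ⟨c, hc, rfl⟩)
      · rw [hsh]
        exact hsel1 c _ hcm
  obtain ⟨g, hg, hgY⟩ := geo_cone_list_prod hV l hprod
  rw [hl, List.mem_cons] at hg
  rcases hg with rfl | hg
  · have := hgY y₀ hy₀
    simp only [map_sub, eval_X, eval_C, sub_eq_zero] at this
    exact hi₀ this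
  · obtain ⟨c, hc, rfl⟩ := List.mem_map.1 hg
    obtain ⟨y, hy, hyg⟩ := hsel2 c hc
    apply hyg
    rw [← hsh]
    exact hgY y hy

/-- `Y` an irreducible curve whose cone from `a` lies in the planar curves `L`.
(1) `dirSpan Y ≠ 0`: otherwise `Y ⊆ {y₀}`, `vdim Y = 0` (`ph_point`, `ph_vdim_mono`).
(2) `geo_cone_one`: `Y ⊆ a + Cone c ⊆ a + range c.φ` for ONE `c`; `W := range c.φ`, `finrank W = 3`.
(3) `dirSpan Y ≤ W`; if `a` is not in the span, `dirSpan Y + ℂ (y₀ - a) ≤ W` has dimension `r + 1`. -/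
theorem geo_classify {d : ℕ} (L : List (PCurve d)) (a : SpC d) (Y : Set (SpC d))
    (hV : IsVar Y) (hdim : vdim Y = 1) (h : ConeIn L a Y) :
    1 ≤ finrank ℂ (dirSpan Y) ∧ finrank ℂ (dirSpan Y) ≤ 3 ∧
      (¬ InSpan a Y → finrank ℂ (dirSpan Y) ≤ 2) := by
  obtain ⟨y₀, hy₀⟩ := ph_isVar_nonempty Y hV
  obtain ⟨c, -, hc⟩ := geo_cone_one L a Y hV hdim h
  have hW : finrank ℂ (LinearMap.range c.φ) = 3 := by
    rw [LinearMap.finrank_range_of_inj c.inj]
    simp
  have hmemW : ∀ y ∈ Y, y - a ∈ LinearMap.range c.φ := by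
    intro y hy
    obtain ⟨x, hx, -⟩ := hc y hy
    exact ⟨x, hx⟩
  have hle : dirSpan Y ≤ LinearMap.range c.φ := by
    rw [dirSpan, Submodule.span_le]
    rintro v ⟨y, hy, y', hy', rfl⟩
    have : y - y' = (y - a) - (y' - a) := by abel
    rw [this]
    exact Submodule.sub_mem _ (hmemW y hy) (hmemW y' hy')
  refine ⟨?_, ?_, ?_⟩
  · by_contra hc0
    have h0 : finrank ℂ (dirSpan Y) = 0 := by omega
    have hbot : dirSpan Y = ⊥ := Submodule.finrank_eq_zero.1 h0
    have hsub : Y ⊆ {y₀} := by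
      intro y hy
      have : y - y₀ ∈ dirSpan Y := Submodule.subset_span ⟨y, hy, y₀, hy₀, rfl⟩
      rw [hbot, Submodule.mem_bot, sub_eq_zero] at this
      exact this
    have := ph_vdim_mono hsub
    rw [hdim, (ph_point y₀).2.1] at this
    omega
  · rw [← hW]
    exact Submodule.finrank_mono hle
  · intro hin
    have hlt : dirSpan Y < LinearMap.range c.φ := by
      refine lt_of_le_of_ne hle ?_
      intro heq
      apply hin
      refine ⟨y₀, hy₀, ?_⟩
      have : a - y₀ = -(y₀ - a) := by abel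
      rw [this, heq]
      exact Submodule.neg_mem _ (hmemW y₀ hy₀)
    have := Submodule.finrank_lt_finrank_of_lt hlt
    omega

/-- the uniform flat cap, difference form -/
theorem geo_tf_cap {d : ℕ} (hd : 3 ≤ d) {D : SpData d} {θ : ℝ} (hD : D.Reg θ) (hθ : θ ≤ 1)
    (W : Submodule ℂ (SpC d)) (hW : finrank ℂ W < d) (T : Finset (SpC d)) (hT : T ⊆ D.pts)
    (h : ∀ x ∈ T, ∀ y ∈ T, x - y ∈ W) : (T.card : ℝ) ≤ D.N * D.B ^ (-(1 / 3 : ℝ)) := by
  have hB1 : 1 ≤ D.B := hD.one_le_B hθ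
  have hB0 : 0 < D.B := by linarith
  have hd3 : (3 : ℝ) ≤ d := by exact_mod_cast hd
  have hN : D.N * D.B ^ (-(1 / 3 : ℝ)) = D.B ^ ((d : ℝ) - 1 / 3) := by
    have : D.N = D.B ^ (d : ℝ) := by
      rw [Real.rpow_natCast]
      unfold SpData.B
      rw [one_div, Real.rpow_inv_natCast_pow (by unfold SpData.N; positivity) (by omega)]
    rw [this, ← Real.rpow_add hB0]
    congr 1
  rw [hN]
  by_cases h2 : finrank ℂ W ≤ 2
  · refine (hD.caps.plane W h2 T hT h).trans ?_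
    exact Real.rpow_le_rpow_of_exponent_le hB1 (by linarith)
  · push Not at h2
    refine (hD.caps.flat (finrank ℂ W) (by omega) hW W le_rfl T hT h).trans ?_
    rw [← Real.rpow_natCast]
    apply Real.rpow_le_rpow_of_exponent_le hB1
    have : ((finrank ℂ W : ℕ) : ℝ) + 1 ≤ d := by exact_mod_cast hW
    linarith

open scoped Classical in
/-- counting by columns -/
theorem geo_tf_rows {α β : Type*} (X : Finset α) (Q : Finset β) (Γ : Finset (α × β))
    (hΓ : Γ ⊆ X ×ˢ Q) (c : ℝ)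
    (h : ∀ y ∈ Q, ∀ T ⊆ X, (∀ x ∈ T, (x, y) ∈ Γ) → (T.card : ℝ) ≤ c) :
    (Γ.card : ℝ) ≤ c * Q.card := by
  have hsub : Γ ⊆ Q.biUnion fun y => (X.filter fun x => (x, y) ∈ Γ).image (fun x => (x, y)) := by
    intro z hz
    have h1 := Finset.mem_product.1 (hΓ hz)
    refine Finset.mem_biUnion.2 ⟨z.2, h1.2, Finset.mem_image.2 ⟨z.1, ?_, rfl⟩⟩
    exact Finset.mem_filter.2 ⟨h1.1, hz⟩
  have h1 : Γ.card ≤ ∑ y ∈ Q, (X.filter fun x => (x, y) ∈ Γ).card :=
    (Finset.card_le_card hsub).trans (Finset.card_biUnion_le.trans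
      (Finset.sum_le_sum fun p _ => Finset.card_image_le))
  have h2 : (Γ.card : ℝ) ≤ ∑ y ∈ Q, ((X.filter fun x => (x, y) ∈ Γ).card : ℝ) := by
    exact_mod_cast h1
  have h3 : ∑ y ∈ Q, ((X.filter fun x => (x, y) ∈ Γ).card : ℝ) ≤ ∑ _y ∈ Q, c :=
    Finset.sum_le_sum fun y hy => h y hy _ (Finset.filter_subset _ _)
      (fun x hx => (Finset.mem_filter.1 hx).2)
  rw [Finset.sum_const, nsmul_eq_mul] at h3
  linarith

/-- in the regime `B^{-1/3}` is small -/
theorem geo_tf_small {d : ℕ} (hd : 3 ≤ d) (ε : ℝ) (hε : 0 < ε) : ∃ δ₀ : ℝ, 0 < δ₀ ∧ δ₀ ≤ 1 ∧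
    ∀ D : SpData d, D.Reg δ₀ → D.B ^ (-(1 / 3 : ℝ)) ≤ ε := by
  set b : ℝ := max ((1 / ε) ^ 3) 1 with hb
  have hb1 : 1 ≤ b := le_max_right _ _
  have hb0 : 0 < b := by linarith
  refine ⟨min 1 (1 / b ^ d), by positivity, min_le_left _ _, ?_⟩
  intro D hD
  have hN0 : 0 ≤ D.N := by unfold SpData.N; positivity
  have hbB : b ≤ D.B := by
    have h1 : D.δ ≤ 1 / b ^ d := hD.le.trans (min_le_right _ _)
    have h4 : b ^ d ≤ D.N := by
      have hbd : 0 < b ^ d := by positivity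
      have : 1 ≤ 1 / b ^ d * D.N := hD.big.trans (mul_le_mul_of_nonneg_right h1 hN0)
      rw [one_div, inv_mul_eq_div, one_le_div hbd] at this
      exact this
    have h5 : (b ^ d) ^ ((1 : ℝ) / d) ≤ D.N ^ ((1 : ℝ) / d) :=
      Real.rpow_le_rpow (by positivity) h4 (by positivity)
    rw [one_div, Real.pow_rpow_inv_natCast hb0.le (by omega)] at h5
    unfold SpData.B; rw [one_div]; exact h5
  have h0 : 0 < (1 / ε) ^ 3 := by positivity
  have h1 : (1 / ε) ^ 3 ≤ D.B := (le_max_left _ _).trans hbB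
  have h2 : D.B ^ (-(1 / 3 : ℝ)) ≤ ((1 / ε) ^ 3) ^ (-(1 / 3 : ℝ)) :=
    Real.rpow_le_rpow_of_nonpos h0 h1 (by norm_num)
  have h3 : ((1 / ε) ^ 3) ^ (-(1 / 3 : ℝ)) = ε := by
    rw [← Real.rpow_natCast, ← Real.rpow_mul (by positivity)]
    have : ((3 : ℕ) : ℝ) * (-(1 / 3 : ℝ)) = -1 := by norm_num
    rw [this, Real.rpow_neg_one, one_div, inv_inv]
  rwa [h3] at h2

/-- every column is capped -/
theorem geo_tf_col {d : ℕ} (hd : 3 ≤ d) {D : SpData d} {θ : ℝ} (hD : D.Reg θ) (hθ : θ ≤ 1)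
    (Y : Set (SpC d)) (T : Finset (SpC d)) (hT : T ⊆ D.pts)
    (h : ∀ x ∈ T, finrank ℂ (dirSpan Y) < d ∧ InSpan x Y) :
    (T.card : ℝ) ≤ D.N * D.B ^ (-(1 / 3 : ℝ)) := by
  have hN0 : 0 ≤ D.N := by unfold SpData.N; positivity
  have hB30 : 0 ≤ D.B ^ (-(1 / 3 : ℝ)) := by
    have := hD.one_le_B hθ
    positivity
  by_cases hne : T.Nonempty
  · obtain ⟨x₀, hx₀⟩ := hne
    apply geo_tf_cap hd hD hθ (dirSpan Y) (h x₀ hx₀).1 T hT
    intro x hx x' hx'
    obtain ⟨y₁, hy₁, h1⟩ := (h x hx).2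
    obtain ⟨y₂, hy₂, h2⟩ := (h x' hx').2
    have h3 : y₁ - y₂ ∈ dirSpan Y := Submodule.subset_span ⟨y₁, hy₁, y₂, hy₂, rfl⟩
    have h4 : x - x' = (x - y₁) - (x' - y₂) + (y₁ - y₂) := by abel
    rw [h4]
    exact Submodule.add_mem _ (Submodule.sub_mem _ h1 h2) h3
  · rw [Finset.not_nonempty_iff_eq_empty.1 hne]
    simp only [Finset.card_empty, Nat.cast_zero]
    exact mul_nonneg hN0 hB30

/-- LEAF GEO-TF (~200 lines).  For fixed `y` the centres `x` with `(x,y) ∈ Γ` satisfy `x - y₁ ∈ W := dirSpan Y_y` for some `y₁ ∈ Y_y`, so their pairwise differences lie in `W` (`y₁ - y₁' ∈ W`); `r = finrank W < d`.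
Caps (`D.Reg.caps`): `r ≤ 1`: `2 δ B²`; `r = 2`: `B^{8/3}`; `3 ≤ r < d`: `B^r ≤ B^{d-1}`.  All are `≤ B^{d - 1/3}` (`B ≥ 1`: `SpData.Reg.one_le_B`, `δ ≤ 1/2`, `d ≥ 3`).  `N = B^d` (`Real.rpow_natCast`, `← Real.rpow_mul`).
`|Γ| ≤ ∑_{y ∈ Q} #{x} ≤ N B^{d-1/3} = N² B^{-1/3}`, and `B^{-1/3} = N^{-1/(3d)} ≤ δ^{1/(3d)} ≤ ε` for `δ₀ := min (1/2) (ε^{3d})` (`1 ≤ δ N`). -/
theorem geo_TF (d : ℕ) (hd : 3 ≤ d) : GeoTFStmt d := by
  classical
  intro ε hε
  obtain ⟨δ₀, hδ₀, hδ₁, hsmall⟩ := geo_tf_small hd ε hε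
  refine ⟨δ₀, hδ₀, ?_⟩
  intro D hD cho Q hQ _hcho Γ hΓ hK
  have hN0 : 0 ≤ D.N := by unfold SpData.N; positivity
  have hBε := hsmall D hD
  have h1 := geo_tf_rows D.pts Q Γ hΓ (D.N * D.B ^ (-(1 / 3 : ℝ))) (fun y _ T hT hTΓ =>
    geo_tf_col hd hD hδ₁ (zeroLocus ℂ (cho y)) T hT (fun x hx => (hK (x, y) (hTΓ x hx)).2.2))
  have hQN : (Q.card : ℝ) ≤ D.N := by
    have h2 : Q.card ≤ D.P.card := (Finset.card_le_card hQ).trans Finset.card_image_le
    unfold SpData.N
    exact_mod_cast h2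
  calc (Γ.card : ℝ) ≤ D.N * D.B ^ (-(1 / 3 : ℝ)) * Q.card := h1
    _ ≤ D.N * ε * D.N :=
        mul_le_mul (mul_le_mul_of_nonneg_left hBε hN0) hQN (Nat.cast_nonneg _)
          (mul_nonneg hN0 hε.le)
    _ = ε * D.N ^ 2 := by ring

/-- **Glue**: geo:terminal from its four parts. -/
theorem geo_term_of_parts (d : ℕ) (hd : 3 ≤ d) (hTF : GeoTFStmt d) (hTL : GeoTLStmt d)
    (hTP : GeoTPStmt d) (hT3 : d = 3 → GeoT3Stmt) : SpTermStmt d := by
  classical
  intro ε hε
  obtain ⟨δ1, hδ1, H1⟩ := hTF (ε / 4) (by positivity)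
  obtain ⟨δ2, hδ2, H2⟩ := hTL (ε / 4) (by positivity)
  obtain ⟨δ3, hδ3, H3⟩ := hTP (ε / 4) (by positivity)
  have h4 : GeoTermOn d (fun _ Y => d = 3 ∧ finrank ℂ (dirSpan Y) = 3) := by
    by_cases h3 : d = 3
    · subst h3
      intro ε' hε'
      obtain ⟨δ4, hδ4, H4⟩ := hT3 rfl ε' hε'
      exact ⟨δ4, hδ4, fun D hD cho Q hQ hcho Γ hΓ hT => H4 D hD cho Q hQ hcho Γ hΓ
        (fun z hz => ⟨(hT z hz).1, (hT z hz).2.1, (hT z hz).2.2.2⟩)⟩
    · intro ε' hε'
      refine ⟨1, one_pos, fun D _ cho Q _ _ Γ _ hT => ?_⟩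
      have : Γ = ∅ := by
        apply Finset.eq_empty_of_forall_notMem
        intro z hz
        exact h3 (hT z hz).2.2.1
      rw [this]
      simp only [Finset.card_empty, Nat.cast_zero]
      positivity
  obtain ⟨δ4, hδ4, H4⟩ := h4 (ε / 4) (by positivity)
  refine ⟨min (min δ1 δ2) (min δ3 δ4), by positivity, ?_⟩
  intro D hD cho Q hQ hcho Γ hΓ hT
  have hD1 : D.Reg δ1 := hD.mono ((min_le_left _ _).trans (min_le_left _ _))
  have hD2 : D.Reg δ2 := hD.mono ((min_le_left _ _).trans (min_le_right _ _))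
  have hD3 : D.Reg δ3 := hD.mono ((min_le_right _ _).trans (min_le_left _ _))
  have hD4 : D.Reg δ4 := hD.mono ((min_le_right _ _).trans (min_le_right _ _))
  set Y : SpC d → Set (SpC d) := fun y => zeroLocus ℂ (cho y) with hY
  set K1 : SpC d × SpC d → Prop := fun z =>
    finrank ℂ (dirSpan (Y z.2)) < d ∧ InSpan z.1 (Y z.2) with hK1
  set K2 : SpC d × SpC d → Prop := fun z =>
    finrank ℂ (dirSpan (Y z.2)) = 1 ∧ ¬ InSpan z.1 (Y z.2) with hK2
  set K3 : SpC d × SpC d → Prop := fun z =>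
    finrank ℂ (dirSpan (Y z.2)) = 2 ∧ ¬ InSpan z.1 (Y z.2) with hK3
  set K4 : SpC d × SpC d → Prop := fun z => d = 3 ∧ finrank ℂ (dirSpan (Y z.2)) = 3 with hK4
  have hcov : Γ ⊆ (Γ.filter K1 ∪ Γ.filter K2) ∪ (Γ.filter K3 ∪ Γ.filter K4) := by
    intro z hz
    have hzQ : z.2 ∈ Q := (Finset.mem_product.1 (hΓ hz)).2
    obtain ⟨hpr, hdim, _, _⟩ := hcho z.2 hzQ
    obtain ⟨c1, c2, c3⟩ := geo_classify (D.C (spRe z.1)) z.1 (Y z.2) ⟨cho z.2, hpr, rfl⟩ hdim
      (hT z hz).2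
    simp only [Finset.mem_union, Finset.mem_filter]
    by_cases hin : InSpan z.1 (Y z.2)
    · by_cases hr : finrank ℂ (dirSpan (Y z.2)) < d
      · exact Or.inl (Or.inl ⟨hz, hr, hin⟩)
      · exact Or.inr (Or.inr ⟨hz, by omega, by omega⟩)
    · have c4 := c3 hin
      by_cases hr : finrank ℂ (dirSpan (Y z.2)) = 1
      · exact Or.inl (Or.inr ⟨hz, hr, hin⟩)
      · exact Or.inr (Or.inl ⟨hz, by omega, hin⟩)
  have e1 := H1 D hD1 cho Q hQ hcho (Γ.filter K1) ((Finset.filter_subset _ _).trans hΓ)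
    (fun z hz => ⟨(hT z (Finset.mem_filter.1 hz).1).1, (hT z (Finset.mem_filter.1 hz).1).2,
      (Finset.mem_filter.1 hz).2⟩)
  have e2 := H2 D hD2 cho Q hQ hcho (Γ.filter K2) ((Finset.filter_subset _ _).trans hΓ)
    (fun z hz => ⟨(hT z (Finset.mem_filter.1 hz).1).1, (hT z (Finset.mem_filter.1 hz).1).2,
      (Finset.mem_filter.1 hz).2⟩)
  have e3 := H3 D hD3 cho Q hQ hcho (Γ.filter K3) ((Finset.filter_subset _ _).trans hΓ)
    (fun z hz => ⟨(hT z (Finset.mem_filter.1 hz).1).1, (hT z (Finset.mem_filter.1 hz).1).2,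
      (Finset.mem_filter.1 hz).2⟩)
  have e4 := H4 D hD4 cho Q hQ hcho (Γ.filter K4) ((Finset.filter_subset _ _).trans hΓ)
    (fun z hz => ⟨(hT z (Finset.mem_filter.1 hz).1).1, (hT z (Finset.mem_filter.1 hz).1).2,
      (Finset.mem_filter.1 hz).2⟩)
  have hcard : Γ.card ≤ ((Γ.filter K1).card + (Γ.filter K2).card)
      + ((Γ.filter K3).card + (Γ.filter K4).card) := by
    refine (Finset.card_le_card hcov).trans ?_
    refine (Finset.card_union_le _ _).trans ?_
    exact Nat.add_le_add (Finset.card_union_le _ _) (Finset.card_union_le _ _)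
  have hcard' : (Γ.card : ℝ) ≤ (((Γ.filter K1).card : ℝ) + ((Γ.filter K2).card : ℝ))
      + (((Γ.filter K3).card : ℝ) + ((Γ.filter K4).card : ℝ)) := by
    exact_mod_cast hcard
  nlinarith [hcard', e1, e2, e3, e4]

end Claimed.Agent.R273
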