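import Claimed.Agent.R273.PjDim
import Claimed.Agent.R273.HomFac

/-!
# Row 273, S3b (helper299), layer 1: irreducible hypersurfaces and their general lines through a point.  Prefix `pj_`.

`zset μ = {μ = 0}` (RkBasic).  `pjLine μ w₀ u = μ(w₀ + X u) ∈ ℂ[X]`.  `G := phSh w₀ μ = μ(w₀ + ·)`, `G_j := homogeneousComponent j G`, `D := μ.totalDegree`.

LEAF PJ-line-a (`pj_count_roots`), Mathlib only.  `P ≠ 0`.  `D = card P.roots` (`IsAlgClosed.splits`, `Polynomial.splits_iff_card_roots`) `= ∑_{a ∈ roots.toFinset} rootMultiplicity a P` (`Multiset.toFinset_sum_count_eq`, `Polynomial.count_roots`).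
   `rootMultiplicity 0 P ≤ m`: `X^(m+1) ∣ P` would kill `coeff m` (`Polynomial.X_pow_dvd_iff`, `Polynomial.le_rootMultiplicity_iff`/`pow_rootMultiplicity_dvd`, `X - C 0 = X`).  For a root `a ≠ 0`: `rootMultiplicity a P = 1`
   (`Polynomial.one_lt_rootMultiplicity_iff_isRoot`: multiplicity `> 1` iff root of `P` and of `P.derivative`).  So `D ≤ m + #{nonzero roots}`; `Set.ncard_coe_finset` for `roots.toFinset.erase 0`.
LEAF PJ-line-b (`pj_eval_pjLine`, `pj_coeff_pjLine`, `pj_natDegree_pjLine_le`, `pj_deriv_pjLine`).  `pjLine μ w₀ u = aeval (fun i => C (u i) * X) G` (algebra homs agree on `X i`); for a homogeneous `H` of degree `j`: `aeval (fun i => C (u i) * X) H = C (eval u H) * X^j` (on monomials);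
   sum over the components (`MvPolynomial.sum_homogeneousComponent`).  `pjEul G := ∑_{j ≤ deg G} j • G_j`.
LEAF PJ-line-c (`pj_zset_isVar`, `pj_zset_null`, `pj_zset_vdim_lt`, `pj_hypersurface`).  `span {μ}` is prime (`Irreducible.prime`, `Ideal.span_singleton_prime`; `MvPolynomial` over a field is a UFD), `zeroLocus ℂ (span {μ}) = zset μ` (`zeroLocus_span`), Nullstellensatz `IsPrime.vanishingIdeal_zeroLocus`, `Ideal.mem_span_singleton`.
   `pj_zset_vdim_lt`: `ph_vdim_lt_of_ssubset` inside `univ` (`ph_univ`); if `zset μ = ∅` then `vdim ∅ = 0`.. (state: `μ ≠ 0`, `Nonempty κ` is not needed: if `card κ = 0` then `μ` is a nonzero constant and `zset μ = ∅`; so the statement is `zset μ = ∅ ∨ vdim < card`; for irreducible `μ` the set is nonempty by `ph_isVar_nonempty`).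
   `pj_hypersurface`: `q := vanishingIdeal ℂ W` is prime, `≠ ⊥` (else `W = univ`, `vdim = card κ`); a nonzero `f ∈ q` is a product of irreducibles (`WfDvdMonoid.exists_factors`/`UniqueFactorizationMonoid.exists_prime_factors`), one factor `μ ∈ q`.  `W ⊆ zset μ`; if `W ≠ zset μ` there is `g ∈ q`, `μ ∤ g`,
   so `vdim W < vdim (zset μ) < card κ` (`ph_vdim_lt_of_ssubset`), contradiction with `vdim W + 1 = card κ`.
LEAF PJ-line-d (`pj_line_roots`).  `m := ` least `j` with `G_j ≠ 0`; `m ≤ r` (`hr`, `ph_ord_iff`); `G_D ≠ 0` (`ph_homogComp_totalDegree_ne_zero`; `G.totalDegree = D`: `ph_totalDegree_phSh_le` twice with `ph_phSh_neg`).  `R := phSh (-w₀) (pjEul G)`, so `eval (w₀ + v) R = eval v (pjEul G)`.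
   CASE A: `R` vanishes on `zset μ`.  Then `μ ∣ R` (`pj_zset_null`), so `G ∣ pjEul G`, `pjEul G = G * q`, `deg q = 0` (`totalDegree_mul_of_isDomain`; `deg (pjEul G) ≤ D`; if `pjEul G = 0` then `j G_j = 0` for all `j`, so `m = D = 0`), `q = C c`; compare components: `j G_j = c G_j`; `j = m, D`: `m = D`.  `Ψ := G_D`; the bound is `D - r = 0`.
   CASE B: otherwise `Ψ₁` from `pj_avoid` (`V = zset μ`, `ρ = X`, `h = R`), `Ψ := Ψ₁ G_D G_m`.  `P := pjLine μ w₀ u`: `natDegree = D`, `coeff m ≠ 0`, at a root `a ≠ 0`: `a P'(a) = eval (a u) (pjEul G) = eval (w₀ + a u) R ≠ 0`.  `pj_count_roots`.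
   Finiteness: `P ≠ 0` has finitely many roots.
-/

set_option autoImplicit false

namespace Claimed.Agent.R273

open MvPolynomial Module

variable {κ : Type*}

/-! ### PJ-line-a -/

theorem pj_count_roots (P : Polynomial ℂ) (m : ℕ) (hm : P.coeff m ≠ 0)
    (hs : ∀ a : ℂ, a ≠ 0 → P.IsRoot a → P.derivative.eval a ≠ 0) :
    P.natDegree - m ≤ {a : ℂ | a ≠ 0 ∧ P.IsRoot a}.ncard := by
  classical
  have hP : P ≠ 0 := by
    rintro rfl
    simp at hm
  have hcard : P.roots.card = P.natDegree :=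
    Polynomial.splits_iff_card_roots.1 (IsAlgClosed.splits P)
  have hsum : P.roots.card = ∑ a ∈ P.roots.toFinset, P.roots.count a :=
    (Multiset.toFinset_sum_count_eq _).symm
  have hset : {a : ℂ | a ≠ 0 ∧ P.IsRoot a} = ↑(P.roots.toFinset.erase 0) := by
    ext a
    simp [hP, and_comm]
  rw [hset, Set.ncard_coe_finset]
  have h0 : P.roots.count 0 ≤ m := by
    rw [Polynomial.count_roots]
    by_contra h
    push Not at h
    have h2 : (Polynomial.X - Polynomial.C (0 : ℂ)) ^ (m + 1) ∣ P :=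
      (Polynomial.le_rootMultiplicity_iff hP).1 h
    rw [Polynomial.C_0, sub_zero, Polynomial.X_pow_dvd_iff] at h2
    exact hm (h2 m (Nat.lt_succ_self m))
  have h1 : ∀ a ∈ P.roots.toFinset.erase 0, P.roots.count a ≤ 1 := by
    intro a ha
    rw [Polynomial.count_roots]
    by_contra h
    push Not at h
    have h2 := (Polynomial.one_lt_rootMultiplicity_iff_isRoot hP).1 h
    exact hs a (Finset.ne_of_mem_erase ha) h2.1 h2.2
  have h3 := Finset.sum_le_card_nsmul _ _ 1 h1
  rw [smul_eq_mul, mul_one] at h3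
  by_cases h00 : (0 : ℂ) ∈ P.roots.toFinset
  · rw [← Finset.add_sum_erase _ _ h00] at hsum
    omega
  · rw [Finset.erase_eq_of_notMem h00] at h3 ⊢
    omega

/-! ### PJ-line-b -/

/-- the restriction of `μ` to the line `w₀ + X u` -/
noncomputable def pjLine (μ : MvPolynomial κ ℂ) (w₀ u : κ → ℂ) : Polynomial ℂ :=
  aeval (fun i => Polynomial.C (w₀ i) + Polynomial.C (u i) * Polynomial.X) μ

/-- the Euler operator `∑ j G_j` -/
noncomputable def pjEul (G : MvPolynomial κ ℂ) : MvPolynomial κ ℂ :=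
  ∑ j ∈ Finset.range (G.totalDegree + 1), (j : ℂ) • homogeneousComponent j G

theorem pj_eval_pjLine (μ : MvPolynomial κ ℂ) (w₀ u : κ → ℂ) (a : ℂ) :
    (pjLine μ w₀ u).eval a = eval (w₀ + a • u) μ := by
  have h : ((Polynomial.aeval a : Polynomial ℂ →ₐ[ℂ] ℂ).comp
      (aeval (fun i => Polynomial.C (w₀ i) + Polynomial.C (u i) * Polynomial.X)) :
        MvPolynomial κ ℂ →ₐ[ℂ] ℂ) = aeval (w₀ + a • u) := by
    apply MvPolynomial.algHom_ext
    intro i
    simp only [AlgHom.comp_apply, aeval_X, map_add, map_mul, Polynomial.aeval_C, Polynomial.aeval_X,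
      Pi.add_apply, Pi.smul_apply, smul_eq_mul, Algebra.algebraMap_self, RingHom.id_apply]
    ring
  have h2 := congrArg (fun φ : MvPolynomial κ ℂ →ₐ[ℂ] ℂ => φ μ) h
  simpa [pjLine, Polynomial.coe_aeval_eq_eval, MvPolynomial.coe_aeval_eq_eval] using h2

theorem pj_pjLine_eq_map (μ : MvPolynomial κ ℂ) (w₀ u : κ → ℂ) :
    pjLine μ w₀ u = Polynomial.map (eval u) (homfacPhi (phSh w₀ μ)) := by
  have h : (((Polynomial.mapAlgHom (aeval u : MvPolynomial κ ℂ →ₐ[ℂ] ℂ)).comp homfacPhi).comp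
      (phSh w₀) : MvPolynomial κ ℂ →ₐ[ℂ] Polynomial ℂ)
      = aeval (fun i => Polynomial.C (w₀ i) + Polynomial.C (u i) * Polynomial.X) := by
    apply MvPolynomial.algHom_ext
    intro i
    simp [homfacPhi, phSh, add_comm]
  have h2 := congrArg (fun φ : MvPolynomial κ ℂ →ₐ[ℂ] Polynomial ℂ => φ μ) h
  rw [pjLine, ← h2]
  simp [Polynomial.mapAlgHom, MvPolynomial.coe_aeval_eq_eval]

theorem pj_coeff_pjLine (μ : MvPolynomial κ ℂ) (w₀ u : κ → ℂ) (j : ℕ) :
    (pjLine μ w₀ u).coeff j = eval u (homogeneousComponent j (phSh w₀ μ)) := by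
  rw [pj_pjLine_eq_map, Polynomial.coeff_map, homfac_coeff]

theorem pj_natDegree_pjLine_le' (μ : MvPolynomial κ ℂ) (w₀ u : κ → ℂ) :
    (pjLine μ w₀ u).natDegree ≤ (phSh w₀ μ).totalDegree := by
  rw [Polynomial.natDegree_le_iff_coeff_eq_zero]
  intro j hj
  rw [pj_coeff_pjLine, homogeneousComponent_eq_zero _ _ hj, map_zero]

theorem pj_natDegree_pjLine_le (μ : MvPolynomial κ ℂ) (w₀ u : κ → ℂ) :
    (pjLine μ w₀ u).natDegree ≤ μ.totalDegree :=
  (pj_natDegree_pjLine_le' μ w₀ u).trans (ph_totalDegree_phSh_le w₀ μ)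

/-- a form of degree `j` at a multiple of `u` -/
theorem pj_eval_smul_of_homog {H : MvPolynomial κ ℂ} {j : ℕ} (hH : H.IsHomogeneous j) (u : κ → ℂ)
    (a : ℂ) : eval (a • u) H = a ^ j * eval u H := by
  have h1 := pj_eval_pjLine H 0 u a
  rw [zero_add] at h1
  rw [← h1, pj_pjLine_eq_map, ph_phSh_zero, homfac_phi_of_homog hH, Polynomial.map_mul,
    Polynomial.map_C, Polynomial.map_pow, Polynomial.map_X, Polynomial.eval_mul, Polynomial.eval_C,
    Polynomial.eval_pow, Polynomial.eval_X, mul_comm]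

theorem pj_deriv_pjLine (μ : MvPolynomial κ ℂ) (w₀ u : κ → ℂ) (a : ℂ) :
    a * (pjLine μ w₀ u).derivative.eval a = eval (a • u) (pjEul (phSh w₀ μ)) := by
  have h1 := Polynomial.as_sum_range' (pjLine μ w₀ u) ((phSh w₀ μ).totalDegree + 1)
    (Nat.lt_succ_of_le (pj_natDegree_pjLine_le' μ w₀ u))
  rw [h1, pjEul, map_sum, map_sum, Polynomial.eval_finsetSum, Finset.mul_sum]
  refine Finset.sum_congr rfl (fun j _ => ?_)
  rw [Polynomial.derivative_monomial, Polynomial.eval_monomial, pj_coeff_pjLine, smul_eval,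
    pj_eval_smul_of_homog (homogeneousComponent_isHomogeneous _ _)]
  rcases j with _ | j
  · simp
  · simp only [Nat.add_sub_cancel]
    ring

/-! ### PJ-line-c -/

variable [Fintype κ]

omit [Fintype κ] in
theorem pj_zset_eq (μ : MvPolynomial κ ℂ) : zeroLocus ℂ (Ideal.span {μ}) = zset μ := by
  rw [zeroLocus_span]
  ext x
  simp [zset, aeval_eq_eval]

theorem pj_zset_isVar (μ : MvPolynomial κ ℂ) (hμ : Irreducible μ) : IsVar (zset μ) := by
  exact ⟨Ideal.span {μ}, (Ideal.span_singleton_prime hμ.ne_zero).2 hμ.prime, (pj_zset_eq μ).symm⟩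

/-- Nullstellensatz for an irreducible hypersurface -/
theorem pj_zset_null (μ : MvPolynomial κ ℂ) (hμ : Irreducible μ) (G : MvPolynomial κ ℂ) :
    (∀ w ∈ zset μ, eval w G = 0) ↔ μ ∣ G := by
  have hp : (Ideal.span {μ}).IsPrime := (Ideal.span_singleton_prime hμ.ne_zero).2 hμ.prime
  constructor
  · intro h
    have h1 : G ∈ vanishingIdeal ℂ (zeroLocus ℂ (Ideal.span {μ})) := by
      rw [mem_vanishingIdeal_iff, pj_zset_eq]
      intro x hx
      rw [aeval_eq_eval]
      exact h x hx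
    rw [IsPrime.vanishingIdeal_zeroLocus] at h1
    exact Ideal.mem_span_singleton.1 h1
  · rintro ⟨q, rfl⟩ w hw
    rw [map_mul, show eval w μ = 0 from hw, zero_mul]

theorem pj_zset_vdim_lt (μ : MvPolynomial κ ℂ) (hμ : Irreducible μ) :
    vdim (zset μ) < Fintype.card κ := by
  rw [← (ph_univ (ι := κ)).2.1]
  apply ph_vdim_lt_of_ssubset ph_univ.1 (Set.subset_univ _) μ (fun x hx => hx) _
    (ph_isVar_nonempty _ (pj_zset_isVar μ hμ))
  by_contra h
  push Not at h
  exact hμ.ne_zero (MvPolynomial.funext fun x => by simpa using h x (Set.mem_univ x))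

/-- an irreducible variety of codimension one is an irreducible hypersurface -/
theorem pj_hypersurface (W : Set (κ → ℂ)) (hW : IsVar W) (hdim : vdim W + 1 = Fintype.card κ) :
    ∃ μ : MvPolynomial κ ℂ, Irreducible μ ∧ W = zset μ := by
  obtain ⟨q, hq, rfl⟩ := hW
  have hq0 : q ≠ ⊥ := by
    rintro rfl
    have h1 : zeroLocus ℂ (⊥ : Ideal (MvPolynomial κ ℂ)) = Set.univ := by
      ext x
      simp
    rw [h1, ph_univ.2.1] at hdim
    omega
  obtain ⟨f, hfq, hf0⟩ := Submodule.exists_mem_ne_zero_of_ne_bot hq0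
  obtain ⟨fs, hfs, u, hu⟩ := WfDvdMonoid.exists_factors f hf0
  have hprod : fs.prod ∈ q := by
    have h1 : fs.prod = f * ((u⁻¹ : (MvPolynomial κ ℂ)ˣ) : MvPolynomial κ ℂ) := by
      rw [← hu, mul_assoc, Units.mul_inv, mul_one]
    rw [h1]
    exact q.mul_mem_right _ hfq
  obtain ⟨μ, hμfs, hμq⟩ := (hq.multiset_prod_mem_iff_exists_mem fs).1 hprod
  have hirr := hfs μ hμfs
  refine ⟨μ, hirr, ?_⟩
  have hsub : zeroLocus ℂ q ⊆ zset μ := fun x hx => (ph_mem_zeroLocus q x).1 hx μ hμq
  by_contra hne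
  have hex : ∃ g ∈ q, ¬ μ ∣ g := by
    by_contra hcon
    push Not at hcon
    apply hne
    apply Set.Subset.antisymm hsub
    intro x hx
    rw [ph_mem_zeroLocus]
    intro g hg
    obtain ⟨r, rfl⟩ := hcon g hg
    rw [map_mul, show eval x μ = 0 from hx, zero_mul]
  obtain ⟨g, hgq, hgμ⟩ := hex
  have h1 : vdim (zeroLocus ℂ q) < vdim (zset μ) := by
    apply ph_vdim_lt_of_ssubset (pj_zset_isVar μ hirr) hsub g
      (fun x hx => (ph_mem_zeroLocus q x).1 hx g hgq) _ (ph_isVar_nonempty _ ⟨q, hq, rfl⟩)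
    by_contra hcon
    push Not at hcon
    exact hgμ ((pj_zset_null μ hirr g).1 hcon)
  have h2 := pj_zset_vdim_lt μ hirr
  omega

/-! ### PJ-line-d -/

omit [Fintype κ] in
theorem pj_eval_phSh (z x : κ → ℂ) (g : MvPolynomial κ ℂ) :
    eval x (phSh z g) = eval (x + z) g := by
  have h : ((eval x).comp (phSh z).toRingHom : MvPolynomial κ ℂ →+* ℂ) = eval (x + z) := by
    apply MvPolynomial.ringHom_ext
    · intro r
      simp [phSh]
    · intro i
      simp [phSh]
  exact congrArg (fun φ : MvPolynomial κ ℂ →+* ℂ => φ g) h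

omit [Fintype κ] in
theorem pj_hc_pjEul (G : MvPolynomial κ ℂ) (j : ℕ) :
    homogeneousComponent j (pjEul G) = (j : ℂ) • homogeneousComponent j G := by
  classical
  unfold pjEul
  rw [map_sum]
  have h1 : ∀ i ∈ Finset.range (G.totalDegree + 1),
      homogeneousComponent j ((i : ℂ) • homogeneousComponent i G) =
        if j = i then (j : ℂ) • homogeneousComponent j G else 0 := by
    intro i _
    rw [map_smul, homogeneousComponent_of_mem (homogeneousComponent_isHomogeneous i G)]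
    split_ifs with h
    · subst h
      rfl
    · simp
  rw [Finset.sum_congr rfl h1, Finset.sum_ite_eq]
  split_ifs with h
  · rfl
  · rw [homogeneousComponent_eq_zero _ _ (by simpa using h), smul_zero]

omit [Fintype κ] in
theorem pj_totalDegree_pjEul_le (G : MvPolynomial κ ℂ) :
    (pjEul G).totalDegree ≤ G.totalDegree := by
  unfold pjEul
  apply totalDegree_finsetSum_le
  intro i hi
  refine (totalDegree_smul_le _ _).trans ?_
  exact ((homogeneousComponent_isHomogeneous i G).totalDegree_le).trans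
    (by simpa [Nat.lt_succ_iff] using hi)

/-- **the general line through `w₀` meets an irreducible hypersurface of degree `D` and order `≤ r` at `w₀` in at least `D - r` distinct further points** -/
theorem pj_line_roots (μ : MvPolynomial κ ℂ) (hμ : Irreducible μ) (w₀ : κ → ℂ) (r : ℕ)
    (hr : ¬ OrdGE w₀ (r + 1) μ) :
    ∃ Ψ : MvPolynomial κ ℂ, Ψ ≠ 0 ∧ ∀ u, eval u Ψ ≠ 0 →
      {a : ℂ | a ≠ 0 ∧ eval (w₀ + a • u) μ = 0}.Finite ∧
        μ.totalDegree - r ≤ {a : ℂ | a ≠ 0 ∧ eval (w₀ + a • u) μ = 0}.ncard := by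
  classical
  obtain ⟨G, hG⟩ : ∃ G, G = phSh w₀ μ := ⟨_, rfl⟩
  have hμ0 : μ ≠ 0 := hμ.ne_zero
  have hG0 : G ≠ 0 := by
    rw [hG]
    intro h
    apply hμ0
    apply ph_phSh_injective w₀
    rw [h, map_zero]
  have hdeg : G.totalDegree = μ.totalDegree := by
    apply le_antisymm
    · rw [hG]
      exact ph_totalDegree_phSh_le _ _
    · have h1 := ph_totalDegree_phSh_le (-w₀) G
      rw [hG, ph_phSh_neg, ← hG] at h1
      exact h1
  have hGD : homogeneousComponent μ.totalDegree G ≠ 0 := by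
    rw [← hdeg]
    exact ph_homogComp_totalDegree_ne_zero hG0
  have hex : ∃ j, homogeneousComponent j G ≠ 0 := ⟨_, hGD⟩
  obtain ⟨m, hm⟩ : ∃ m, m = Nat.find hex := ⟨_, rfl⟩
  have hGm : homogeneousComponent m G ≠ 0 := by
    rw [hm]
    exact Nat.find_spec hex
  have hmr : m ≤ r := by
    unfold OrdGE at hr
    push Not at hr
    obtain ⟨d, hd, hdr⟩ := hr
    have hd' : d ∈ G.support := by
      rw [hG]
      exact hd
    have h1 : homogeneousComponent d.degree G ≠ 0 := by
      intro h0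
      have h2 := congrArg (coeff d) h0
      rw [coeff_homogeneousComponent, if_pos rfl, coeff_zero] at h2
      exact (mem_support_iff.1 hd') h2
    have h2 := Nat.find_min' hex h1
    omega
  have hset : ∀ u, {a : ℂ | a ≠ 0 ∧ eval (w₀ + a • u) μ = 0} =
      {a : ℂ | a ≠ 0 ∧ (pjLine μ w₀ u).IsRoot a} := by
    intro u
    ext a
    simp only [Set.mem_ofPred_eq, Polynomial.IsRoot.def, pj_eval_pjLine]
  have hPne : ∀ u, eval u (homogeneousComponent μ.totalDegree G) ≠ 0 → pjLine μ w₀ u ≠ 0 := by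
    intro u hu h0
    have h1 := pj_coeff_pjLine μ w₀ u μ.totalDegree
    rw [h0, Polynomial.coeff_zero, ← hG] at h1
    exact hu h1.symm
  have hfin : ∀ u, eval u (homogeneousComponent μ.totalDegree G) ≠ 0 →
      {a : ℂ | a ≠ 0 ∧ eval (w₀ + a • u) μ = 0}.Finite := by
    intro u hu
    rw [hset]
    exact (Polynomial.finite_setOfPred_isRoot (hPne u hu)).subset fun a ha => ha.2
  obtain ⟨R, hR⟩ : ∃ R, R = phSh (-w₀) (pjEul G) := ⟨_, rfl⟩
  have hRev : ∀ v, eval (w₀ + v) R = eval v (pjEul G) := by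
    intro v
    have h1 : w₀ + v + -w₀ = v := by abel
    rw [hR, pj_eval_phSh, h1]
  by_cases hA : ∀ x ∈ zset μ, eval x R = 0
  · have hdvd : μ ∣ R := (pj_zset_null μ hμ R).1 hA
    have hdvd' : G ∣ pjEul G := by
      obtain ⟨q, hq⟩ := hdvd
      refine ⟨phSh w₀ q, ?_⟩
      have h1 := congrArg (phSh w₀) hq
      rw [hR, ph_phSh_neg', map_mul, ← hG] at h1
      exact h1
    have hDr : μ.totalDegree ≤ r := by
      obtain ⟨q, hq⟩ := hdvd'
      by_cases hE : pjEul G = 0
      · have h1 := pj_hc_pjEul G μ.totalDegree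
        rw [hE, map_zero] at h1
        have h2 := (smul_eq_zero.1 h1.symm).resolve_right hGD
        have h3 : μ.totalDegree = 0 := by exact_mod_cast h2
        omega
      · have hq0 : q ≠ 0 := by
          rintro rfl
          exact hE (by rw [hq, mul_zero])
        have h1 := totalDegree_mul_of_isDomain hG0 hq0
        rw [← hq] at h1
        have h2 := pj_totalDegree_pjEul_le G
        have h3 : q.totalDegree = 0 := by omega
        obtain ⟨c, hc⟩ : ∃ c, q = C c := ⟨_, totalDegree_eq_zero_iff_eq_C.1 h3⟩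
        have h4 : ∀ j : ℕ, (j : ℂ) • homogeneousComponent j G = c • homogeneousComponent j G := by
          intro j
          rw [← pj_hc_pjEul, hq, hc, mul_comm, C_mul', map_smul]
        have h5 : ∀ j : ℕ, homogeneousComponent j G ≠ 0 → (j : ℂ) = c := by
          intro j hj
          have h6 := h4 j
          rw [← sub_eq_zero, ← sub_smul] at h6
          exact sub_eq_zero.1 ((smul_eq_zero.1 h6).resolve_right hj)
        have h6 : (m : ℂ) = (μ.totalDegree : ℂ) := (h5 m hGm).trans (h5 _ hGD).symm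
        have h7 : m = μ.totalDegree := by exact_mod_cast h6
        omega
    refine ⟨homogeneousComponent μ.totalDegree G, hGD, fun u hu => ⟨hfin u hu, ?_⟩⟩
    have h1 : μ.totalDegree - r = 0 := by omega
    rw [h1]
    exact Nat.zero_le _
  · push Not at hA
    obtain ⟨Ψ₁, hΨ₁, hav⟩ := pj_avoid (pj_zset_isVar μ hμ) (fun i => X i) (pj_zset_vdim_lt μ hμ)
      w₀ R hA
    refine ⟨Ψ₁ * homogeneousComponent μ.totalDegree G * homogeneousComponent m G,
      mul_ne_zero (mul_ne_zero hΨ₁ hGD) hGm, ?_⟩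
    intro u hu
    rw [map_mul, map_mul] at hu
    have hu1 : eval u Ψ₁ ≠ 0 := left_ne_zero_of_mul (left_ne_zero_of_mul hu)
    have hu2 : eval u (homogeneousComponent μ.totalDegree G) ≠ 0 :=
      right_ne_zero_of_mul (left_ne_zero_of_mul hu)
    have hu3 : eval u (homogeneousComponent m G) ≠ 0 := right_ne_zero_of_mul hu
    refine ⟨hfin u hu2, ?_⟩
    rw [hset]
    have hnat : (pjLine μ w₀ u).natDegree = μ.totalDegree := by
      apply le_antisymm (pj_natDegree_pjLine_le _ _ _)
      apply Polynomial.le_natDegree_of_ne_zero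
      rw [pj_coeff_pjLine, ← hG]
      exact hu2
    have hcm : (pjLine μ w₀ u).coeff m ≠ 0 := by
      rw [pj_coeff_pjLine, ← hG]
      exact hu3
    have hcount := pj_count_roots (pjLine μ w₀ u) m hcm ?_
    · rw [hnat] at hcount
      omega
    · intro a ha hroot hder
      have hx : w₀ + a • u ∈ zset μ := by
        show eval _ μ = 0
        rw [← pj_eval_pjLine]
        exact hroot
      have h1 := hav u hu1 _ hx a ha (by funext i; simp [pmap])
      apply h1
      rw [hRev, hG, ← pj_deriv_pjLine, hder, mul_zero]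

end Claimed.Agent.R273
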