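-- KEEP
import Claimed.Agent.R273.GeoTop
import Claimed.Agent.R273.GeoLin
import Claimed.Agent.R273.PjLine

/-!
# Row 273, S4 TERM / assigned lines: FROM THE COMPLEX FRAME TO REAL LINES AND PLANES (secants.tex l.252-257).  Architect helper28.  Prefix `geo_tl_`.

* `geo_tl_line` (A1).  `Y = Z(𝔶)` irreducible curve with `finrank (dirSpan Y) = 1`, not thin, through the real point `prfPt q`.
  `W := dirSpan Y`; `Y ⊆ geoFlat (prfPt q) W`, `geo_var_eq_flat`: `Y = geoFlat (prfPt q) W`; `geo_flat_isVar`: `vdeg Y = 1`; `¬ SpThin`: two distinct real points `x₁, x₂ ∈ Y`;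
  `v := spRe (x₁ - x₂)`, `prfPt v = x₁ - x₂ ∈ W`, `≠ 0`; `W = span {prfPt v}` (`finrank_eq_one_iff_of_nonzero'`).
* `geo_tl_plane_zero` (A2a).  `F` homogeneous on `ℂ³`, `F(μ + t ν) = 0` for infinitely many `t`: `F = 0` on `span {μ, ν}`.
  `g(T) = F(μ + T ν) ∈ ℂ[T]` (`aeval (fun i => C (μ i) + X * C (ν i)) F`) has infinitely many roots: `g = 0` (`Polynomial.eq_zero_of_infinite_isRoot`).
  `F(s μ + t ν) = s^e F(μ + (t/s) ν) = 0` for `s ≠ 0`; `S ↦ F(S μ + t ν)` is a polynomial vanishing for all `S ≠ 0`, hence at `S = 0`.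
* `geo_tl_irr_plane` (A2b).  `F` irreducible, `F = 0` on a 2-dimensional subspace `U ⊆ ℂ³`: `Z(F) = U`.
  `U = ker λ`, `λ ≠ 0` (`Submodule.exists_le_ker_of_lt_top`, dimensions), `Λ = ∑ C (λ e_i) X_i`.  Nullstellensatz (`MvPolynomial.vanishingIdeal_zeroLocus_eq_radical`): `Λ ∣ F^n`.
  `Λ ≠ 0` is not a unit (`Λ(0) = 0`): it has an irreducible factor `π` (`WfDvdMonoid.exists_irreducible_factor`); `π` is prime, `π ∣ F`, `π ~ F` (`Irreducible.associated_of_dvd`), so `F ∣ Λ` and `Z(F) ⊆ Z(Λ) = U`.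
* `geo_tl_cone` (A2).  `ℂ = ⋃_{c ∈ L} {t | c.Mem (a + t v)}`: one of the sets is infinite.  Two values `t₁ ≠ t₂` give `a = φ μ`, `v = φ ν`; `φ` injective: `F(μ + t ν) = 0` for these `t`; A2a, A2b with `U = span {μ, ν}`; `c.Mem w ↔ w ∈ φ(U) = span {a, v}`.
* `geo_tl_real_span` (A3).  real vectors of the complexification of `span_ℝ {a, v}`: `prfPt w = α prfPt a + β prfPt v`; real parts: `w = (re α) a + (re β) v`.
* `geo_tl_indep`.  `a, v` real-independent iff `prfPt a, prfPt v` complex-independent (real and imaginary parts of a relation).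
* `geo_tl_deg_pos`.  an irreducible form has degree `≥ 1` (`MvPolynomial.totalDegree_eq_zero_iff_eq_C`-type: degree `0` homogeneous = constant = unit or zero).
* `geo_tl_cap`.  the complex plane cap gives the real plane cap: `V = H.direction = span_ℝ {a, b}`, `W = span_ℂ {prfPt a, prfPt b}`, `T = (P ∩ H).image prfPt`.
-/

set_option autoImplicit false

namespace Claimed.Agent.R273

open scoped Classical
open MvPolynomial Module

variable {d : ℕ}

theorem geo_tl_pt_add (p q : Pt d) : prfPt (p + q) = prfPt p + prfPt q := by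
  funext i
  simp [prfPt]

theorem geo_tl_pt_sub (p q : Pt d) : prfPt (p - q) = prfPt p - prfPt q := by
  funext i
  simp [prfPt]

theorem geo_tl_pt_smul (t : ℝ) (p : Pt d) : prfPt (t • p) = (t : ℂ) • prfPt p := by
  funext i
  simp [prfPt]

theorem geo_tl_pt_zero : prfPt (0 : Pt d) = 0 := by
  funext i
  simp [prfPt]

/-- (A1) -/
theorem geo_tl_line (𝔶 : Ideal (PrfPol d)) (h𝔶 : 𝔶.IsPrime) (hdim : vdim (zeroLocus ℂ 𝔶) = 1)
    (q : Pt d) (hq : prfPt q ∈ zeroLocus ℂ 𝔶) (hthin : ¬ SpThin 𝔶)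
    (hr : finrank ℂ (dirSpan (zeroLocus ℂ 𝔶)) = 1) :
    ∃ v : Pt d, v ≠ 0 ∧ dirSpan (zeroLocus ℂ 𝔶) = Submodule.span ℂ {prfPt v} ∧
      ∀ y, y ∈ zeroLocus ℂ 𝔶 ↔ ∃ t : ℂ, y = prfPt q + t • prfPt v := by
  have hV : IsVar (zeroLocus ℂ 𝔶) := ⟨𝔶, h𝔶, rfl⟩
  have hsub : zeroLocus ℂ 𝔶 ⊆ geoFlat (prfPt q) (dirSpan (zeroLocus ℂ 𝔶)) := by
    intro y hy
    exact Submodule.subset_span ⟨y, hy, prfPt q, hq, rfl⟩
  have hYeq : zeroLocus ℂ 𝔶 = geoFlat (prfPt q) (dirSpan (zeroLocus ℂ 𝔶)) :=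
    geo_var_eq_flat hV _ _ hsub (by rw [hr, hdim])
  have hdeg : vdeg (zeroLocus ℂ 𝔶) = 1 := by
    rw [hYeq]
    exact (geo_flat_isVar _ _).2.2
  have hex : ∃ x₁ ∈ zeroLocus ℂ 𝔶, ∃ x₂ ∈ zeroLocus ℂ 𝔶, SpReal x₁ ∧ SpReal x₂ ∧ x₁ ≠ x₂ := by
    by_contra hcon
    apply hthin
    refine ⟨hdeg, hdim, ?_⟩
    intro x hx y hy h1 h2
    by_contra hne
    exact hcon ⟨x, hx, y, hy, h1, h2, hne⟩
  obtain ⟨x₁, hx₁, x₂, hx₂, r1, r2, hne⟩ := hex
  have hv : prfPt (spRe (x₁ - x₂)) = x₁ - x₂ := by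
    funext i
    apply Complex.ext
    · simp [prfPt, spRe]
    · simp [prfPt, spRe, r1 i, r2 i]
  have hvW : prfPt (spRe (x₁ - x₂)) ∈ dirSpan (zeroLocus ℂ 𝔶) := by
    rw [hv]
    exact Submodule.subset_span ⟨x₁, hx₁, x₂, hx₂, rfl⟩
  have hv0 : prfPt (spRe (x₁ - x₂)) ≠ 0 := by
    rw [hv]
    exact sub_ne_zero.2 hne
  have hspan : dirSpan (zeroLocus ℂ 𝔶) = Submodule.span ℂ {prfPt (spRe (x₁ - x₂))} := by
    symm
    apply Submodule.eq_of_le_of_finrank_eq
    · rw [Submodule.span_le, Set.singleton_subset_iff]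
      exact hvW
    · rw [finrank_span_singleton hv0, hr]
  refine ⟨spRe (x₁ - x₂), ?_, hspan, ?_⟩
  · intro h
    apply hv0
    rw [h]
    exact geo_tl_pt_zero
  · intro y
    have e : y ∈ zeroLocus ℂ 𝔶 ↔ y - prfPt q ∈ dirSpan (zeroLocus ℂ 𝔶) := by
      constructor
      · intro hy
        exact hsub hy
      · intro hy
        rw [hYeq]
        exact hy
    rw [e, hspan, Submodule.mem_span_singleton]
    constructor
    · rintro ⟨t, ht⟩
      exact ⟨t, by rw [ht]; abel⟩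
    · rintro ⟨t, rfl⟩
      exact ⟨t, by abel⟩

/-- (A2a) -/
theorem geo_tl_plane_zero (F : MvPolynomial (Fin 3) ℂ) (e : ℕ) (hF : F.IsHomogeneous e)
    (μ ν : Fin 3 → ℂ) (hinf : {t : ℂ | eval (μ + t • ν) F = 0}.Infinite) :
    ∀ u ∈ Submodule.span ℂ {μ, ν}, eval u F = 0 := by
  have h1 : pjLine F μ ν = 0 := by
    apply Polynomial.eq_zero_of_infinite_isRoot
    refine hinf.mono (fun t ht => ?_)
    change (pjLine F μ ν).eval t = 0
    rw [pj_eval_pjLine]
    exact ht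
  have h2 : ∀ t : ℂ, eval (μ + t • ν) F = 0 := by
    intro t
    rw [← pj_eval_pjLine, h1, Polynomial.eval_zero]
  have h3 : ∀ s t : ℂ, s ≠ 0 → eval (t • ν + s • μ) F = 0 := by
    intro s t hs
    have e1 : t • ν + s • μ = s • (μ + (t / s) • ν) := by
      rw [smul_add, smul_smul, mul_div_cancel₀ _ hs, add_comm]
    rw [e1, pj_eval_smul_of_homog hF, h2, mul_zero]
  intro u hu
  obtain ⟨s, t, rfl⟩ := Submodule.mem_span_pair.1 hu
  rw [add_comm]
  by_cases hs : s = 0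
  · have h4 : pjLine F (t • ν) μ = 0 := by
      apply Polynomial.eq_zero_of_infinite_isRoot
      have hinf2 : ({0}ᶜ : Set ℂ).Infinite := (Set.finite_singleton (0 : ℂ)).infinite_compl
      refine hinf2.mono (fun S hS => ?_)
      change (pjLine F (t • ν) μ).eval S = 0
      rw [pj_eval_pjLine]
      exact h3 S t hS
    rw [← pj_eval_pjLine, h4, Polynomial.eval_zero]
  · exact h3 s t hs

/-- (A2b) -/
theorem geo_tl_irr_plane (F : MvPolynomial (Fin 3) ℂ) (hF : Irreducible F)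
    (U : Submodule ℂ (Fin 3 → ℂ)) (hU : finrank ℂ U = 2) (h0 : ∀ u ∈ U, eval u F = 0)
    (u : Fin 3 → ℂ) : eval u F = 0 ↔ u ∈ U := by
  refine ⟨fun hu => ?_, h0 u⟩
  have hlt : U < ⊤ := by
    rw [lt_top_iff_ne_top]
    rintro rfl
    rw [finrank_top] at hU
    simp at hU
  obtain ⟨f, hf0, hUf⟩ := Submodule.exists_le_ker_of_lt_top U hlt
  have hker : U = LinearMap.ker f := by
    apply Submodule.eq_of_le_of_finrank_le hUf
    have h1 := LinearMap.finrank_range_add_finrank_ker f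
    have h2 : 0 < finrank ℂ (LinearMap.range f) := by
      rw [Module.finrank_pos_iff_exists_ne_zero]
      obtain ⟨x, hx⟩ : ∃ x, f x ≠ 0 := by
        by_contra h
        push Not at h
        exact hf0 (LinearMap.ext h)
      exact ⟨⟨f x, LinearMap.mem_range_self f x⟩, fun h => hx (congrArg Subtype.val h)⟩
    have h3 : finrank ℂ (Fin 3 → ℂ) = 3 := by simp
    omega
  set Λ : MvPolynomial (Fin 3) ℂ := ∑ i, C (f (Pi.single i 1)) * X i with hΛ
  have hev : ∀ x : Fin 3 → ℂ, eval x Λ = f x := by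
    intro x
    rw [hΛ, map_sum]
    conv_rhs => rw [LinearMap.pi_apply_eq_sum_univ f x]
    refine Finset.sum_congr rfl (fun i _ => ?_)
    rw [map_mul, eval_C, eval_X, smul_eq_mul, mul_comm]
    congr 2
    funext j
    simp [Pi.single_apply, eq_comm]
  have hrad : F ∈ (Ideal.span {Λ}).radical := by
    rw [← MvPolynomial.vanishingIdeal_zeroLocus_eq_radical (K := ℂ), mem_vanishingIdeal_iff]
    intro x hx
    rw [mem_zeroLocus_iff] at hx
    have h1 := hx Λ (Ideal.subset_span rfl)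
    rw [MvPolynomial.aeval_eq_eval, hev] at h1
    rw [MvPolynomial.aeval_eq_eval]
    exact h0 x (hker ▸ h1)
  obtain ⟨n, hn⟩ := hrad
  rw [Ideal.mem_span_singleton] at hn
  have hΛ0 : Λ ≠ 0 := by
    intro h
    apply hf0
    refine LinearMap.ext (fun x => ?_)
    rw [← hev, h]
    simp
  have hΛu : ¬ IsUnit Λ := by
    intro h
    have := h.map (eval (0 : Fin 3 → ℂ))
    rw [hev, map_zero] at this
    exact not_isUnit_zero this
  obtain ⟨π, hπ, hπΛ⟩ := WfDvdMonoid.exists_irreducible_factor hΛu hΛ0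
  have h1 : π ∣ F := hπ.prime.dvd_of_dvd_pow (hπΛ.trans hn)
  have h2 : F ∣ Λ := ((hπ.associated_of_dvd hF h1).symm.dvd).trans hπΛ
  obtain ⟨G, hG⟩ := h2
  have h3 : f u = 0 := by rw [← hev, hG, map_mul, hu, zero_mul]
  rw [hker]
  exact h3

/-- (A2) -/
theorem geo_tl_cone (L : List (PCurve d)) (hirr : ∀ c ∈ L, Irreducible c.F) (a v : SpC d)
    (hind : LinearIndependent ℂ ![a, v]) (hcov : ∀ t : ℂ, ∃ c ∈ L, c.Mem (a + t • v)) :
    ∃ c ∈ L, ∀ w, c.Mem w ↔ w ∈ Submodule.span ℂ {a, v} := by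
  obtain ⟨c, hcL, hcinf⟩ : ∃ c ∈ L, {t : ℂ | c.Mem (a + t • v)}.Infinite := by
    by_contra h
    push Not at h
    have hfin : (⋃ c ∈ {c | c ∈ L}, {t : ℂ | c.Mem (a + t • v)}).Finite :=
      Set.Finite.biUnion (List.finite_toSet L) (fun c hc => h c hc)
    refine Set.infinite_univ (α := ℂ) (hfin.subset (fun t _ => ?_))
    obtain ⟨c, hc, hm⟩ := hcov t
    exact Set.mem_biUnion (show c ∈ {c | c ∈ L} from hc) hm
  refine ⟨c, hcL, ?_⟩
  obtain ⟨t₁, ht₁, t₂, ht₂, hne⟩ := hcinf.nontrivial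
  obtain ⟨x₁, hx₁, _⟩ := ht₁
  obtain ⟨x₂, hx₂, _⟩ := ht₂
  have hsub : t₁ - t₂ ≠ 0 := sub_ne_zero.2 hne
  set ν : Fin 3 → ℂ := (t₁ - t₂)⁻¹ • (x₁ - x₂) with hν
  set μ : Fin 3 → ℂ := x₁ - t₁ • ν with hμ
  have hφν : c.φ ν = v := by
    rw [hν, map_smul, map_sub, hx₁, hx₂]
    have : a + t₁ • v - (a + t₂ • v) = (t₁ - t₂) • v := by rw [sub_smul]; abel
    rw [this, smul_smul, inv_mul_cancel₀ hsub, one_smul]
  have hφμ : c.φ μ = a := by
    rw [hμ, map_sub, map_smul, hφν, hx₁]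
    abel
  have hinf : {t : ℂ | eval (μ + t • ν) c.F = 0}.Infinite := by
    refine hcinf.mono (fun t ht => ?_)
    obtain ⟨x, hx, hx0⟩ := ht
    have : x = μ + t • ν := c.inj (by rw [hx, map_add, map_smul, hφμ, hφν])
    rw [this] at hx0
    exact hx0
  have h0 := geo_tl_plane_zero c.F c.deg c.hom μ ν hinf
  have hind2 : LinearIndependent ℂ ![μ, ν] := by
    apply LinearIndependent.of_comp c.φ
    have : (c.φ ∘ ![μ, ν]) = ![a, v] := by
      funext i
      fin_cases i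
      · exact hφμ
      · exact hφν
    rw [this]
    exact hind
  have hrank : finrank ℂ (Submodule.span ℂ {μ, ν}) = 2 := by
    have h1 := finrank_span_eq_card hind2
    have h2 : Set.range ![μ, ν] = {μ, ν} := by
      simp [Matrix.range_cons, Matrix.range_empty, Set.pair_comm]
    rw [h2] at h1
    simpa using h1
  have hiff := geo_tl_irr_plane c.F (hirr c hcL) _ hrank h0
  have hmap : (Submodule.span ℂ {μ, ν}).map c.φ = Submodule.span ℂ {a, v} := by
    rw [Submodule.map_span, Set.image_pair, hφμ, hφν]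
  intro w
  rw [← hmap, Submodule.mem_map]
  constructor
  · rintro ⟨x, hx, hx0⟩
    exact ⟨x, (hiff x).1 hx0, hx⟩
  · rintro ⟨x, hx, hxw⟩
    exact ⟨x, hxw, (hiff x).2 hx⟩

/-- real parts of a complex combination of real vectors -/
theorem geo_tl_re_comb (a v w : Pt d) (α β : ℂ) (h : α • prfPt a + β • prfPt v = prfPt w) :
    α.re • a + β.re • v = w := by
  ext i
  have h1 := congrArg Complex.re (congrFun h i)
  simpa [prfPt] using h1

theorem geo_tl_im_comb (a v w : Pt d) (α β : ℂ) (h : α • prfPt a + β • prfPt v = prfPt w) :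
    α.im • a + β.im • v = 0 := by
  ext i
  have h1 := congrArg Complex.im (congrFun h i)
  simpa [prfPt] using h1

/-- (A3) -/
theorem geo_tl_real_span (a v w : Pt d) :
    prfPt w ∈ Submodule.span ℂ {prfPt a, prfPt v} ↔ w ∈ Submodule.span ℝ {a, v} := by
  rw [Submodule.mem_span_pair, Submodule.mem_span_pair]
  constructor
  · rintro ⟨α, β, h⟩
    exact ⟨α.re, β.re, geo_tl_re_comb a v w α β h⟩
  · rintro ⟨s, t, rfl⟩
    exact ⟨s, t, by rw [geo_tl_pt_add, geo_tl_pt_smul, geo_tl_pt_smul]⟩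

theorem geo_tl_indep (a v : Pt d) (h : LinearIndependent ℝ ![a, v]) :
    LinearIndependent ℂ ![prfPt a, prfPt v] := by
  rw [LinearIndependent.pair_iff] at h ⊢
  intro s t hst
  rw [← geo_tl_pt_zero] at hst
  have h1 := h _ _ (geo_tl_re_comb a v 0 s t hst)
  have h2 := h _ _ (geo_tl_im_comb a v 0 s t hst)
  exact ⟨Complex.ext h1.1 h2.1, Complex.ext h1.2 h2.2⟩

theorem geo_tl_deg_pos (c : PCurve d) (hc : Irreducible c.F) : 1 ≤ c.deg :=
  homfac_deg_pos hc c.hom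

theorem geo_tl_cap (P : Finset (Pt d)) (B δ : ℝ) (hcaps : SpCaps (P.image prfPt) B δ)
    (H : AffineSubspace ℝ (Pt d)) (hH : finrank ℝ H.direction = 2) :
    ((P.filter (fun x => x ∈ H)).card : ℝ) ≤ B ^ ((8 : ℝ) / 3) := by
  let bs := Module.finBasisOfFinrankEq ℝ H.direction hH
  set a : Pt d := (bs 0 : Pt d) with ha
  set b : Pt d := (bs 1 : Pt d) with hb
  have hdir : ∀ z ∈ H.direction, z ∈ Submodule.span ℝ {a, b} := by
    intro z hz
    rw [Submodule.mem_span_pair]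
    refine ⟨bs.repr ⟨z, hz⟩ 0, bs.repr ⟨z, hz⟩ 1, ?_⟩
    have h1 := bs.sum_repr ⟨z, hz⟩
    rw [Fin.sum_univ_two] at h1
    exact congrArg Subtype.val h1
  have hrank : finrank ℂ (Submodule.span ℂ {prfPt a, prfPt b}) ≤ 2 := by
    have h1 := finrank_span_finset_le_card (R := ℂ) ({prfPt a, prfPt b} : Finset (SpC d))
    have h2 : ({prfPt a, prfPt b} : Finset (SpC d)).card ≤ 2 := Finset.card_le_two
    have h3 : ((({prfPt a, prfPt b} : Finset (SpC d)) : Set (SpC d))) = {prfPt a, prfPt b} := by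
      simp
    rw [h3] at h1
    exact h1.trans h2
  have h := hcaps.plane _ hrank ((P.filter (fun x => x ∈ H)).image prfPt)
    (Finset.image_subset_image (Finset.filter_subset _ _)) (by
      intro x hx y hy
      obtain ⟨p, hp, rfl⟩ := Finset.mem_image.1 hx
      obtain ⟨q, hq, rfl⟩ := Finset.mem_image.1 hy
      rw [← geo_tl_pt_sub, geo_tl_real_span]
      exact hdir _ (AffineSubspace.vsub_mem_direction (Finset.mem_filter.1 hp).2
        (Finset.mem_filter.1 hq).2))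
  rwa [Finset.card_image_of_injective _ sp_pt_injective] at h

end Claimed.Agent.R273
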