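-- KEEP
import Claimed.Agent.R273.GeoTLCx
import Claimed.Agent.R273.GeoTLCore

/-!
# Row 273, S4 TERM: `geo_TL : 3 ≤ d → GeoTLStmt d` (assigned lines, centre off the line).  Architect helper28.

`geo_tl_reduce : GeoTLCore d → GeoTLStmt d` (glue, PROVED here from the leaves of GeoTLCx.lean):
real points `p = spRe x`, real lines `lin q = q + ℝ v_q` (`geo_tl_line`), planes `pl p = {p + geoTLdir c : c ∈ D.C p, dimension 2}`, `geoTLdir c` = real span of the real vectors of the cone of `c`;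
for a terminal pair the cone of ONE `c` is the complex plane spanned by `q - p` and `v_q` (`geo_tl_cone`), whose real vectors are `span_ℝ {q - p, v_q}` (`geo_tl_real_span`);
`|pl p| ≤ length (D.C p) ≤ ∑ deg ≤ E` (`geo_tl_deg_pos`).
-/

set_option autoImplicit false

namespace Claimed.Agent.R273

open scoped Classical
open MvPolynomial Module

variable {d : ℕ}

/-- real span of the real vectors of the cone of a directional curve -/
noncomputable def geoTLdir (c : PCurve d) : Submodule ℝ (Pt d) :=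
  Submodule.span ℝ {w : Pt d | c.Mem (prfPt w)}

/-- the real planes through `p` given by the directional curves -/
noncomputable def geoTLpl (L : List (PCurve d)) (p : Pt d) : Finset (AffineSubspace ℝ (Pt d)) :=
  (L.map fun c => AffineSubspace.mk' p (geoTLdir c)).toFinset.filter
    fun H => finrank ℝ H.direction = 2

theorem geo_tl_pl_card (L : List (PCurve d)) (hirr : ∀ c ∈ L, Irreducible c.F) (p : Pt d) :
    (geoTLpl L p).card ≤ (L.map PCurve.deg).sum := by
  calc (geoTLpl L p).card ≤ (L.map fun c => AffineSubspace.mk' p (geoTLdir c)).toFinset.card :=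
        Finset.card_le_card (Finset.filter_subset _ _)
    _ ≤ (L.map fun c => AffineSubspace.mk' p (geoTLdir c)).length := List.toFinset_card_le _
    _ = (L.map PCurve.deg).length := by simp
    _ ≤ (L.map PCurve.deg).sum := by
        apply List.length_le_sum_of_one_le
        intro i hi
        obtain ⟨c, hc, rfl⟩ := List.mem_map.1 hi
        exact geo_tl_deg_pos c (hirr c hc)

/-- the plane of a terminal pair -/
theorem geo_tl_pair (L : List (PCurve d)) (hirr : ∀ c ∈ L, Irreducible c.F) (p q v : Pt d)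
    (hind : LinearIndependent ℝ ![q - p, v])
    (hcov : ∀ t : ℂ, ∃ c ∈ L, c.Mem (prfPt (q - p) + t • prfPt v)) :
    ∃ H ∈ geoTLpl L p, AffineSubspace.mk' q (Submodule.span ℝ {v}) ≤ H := by
  obtain ⟨c, hc, hmem⟩ := geo_tl_cone L hirr _ _ (geo_tl_indep _ _ hind) hcov
  have hdir : geoTLdir c = Submodule.span ℝ {q - p, v} := by
    unfold geoTLdir
    have : {w : Pt d | c.Mem (prfPt w)} = (Submodule.span ℝ {q - p, v} : Set (Pt d)) := by
      ext w
      simp only [Set.mem_ofPred_eq, SetLike.mem_coe]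
      rw [hmem, geo_tl_real_span]
    rw [this, Submodule.span_eq]
  have hfr : finrank ℝ (Submodule.span ℝ {q - p, v}) = 2 := by
    have h1 := finrank_span_eq_card hind
    have h2 : Set.range ![q - p, v] = {q - p, v} := by
      ext w
      simp only [Set.mem_range, Fin.exists_fin_two, Matrix.cons_val_zero, Matrix.cons_val_one,
        Set.mem_insert_iff, Set.mem_singleton_iff, eq_comm]
    rw [h2] at h1
    simpa using h1
  refine ⟨AffineSubspace.mk' p (geoTLdir c), ?_, ?_⟩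
  · unfold geoTLpl
    rw [Finset.mem_filter, List.mem_toFinset]
    refine ⟨List.mem_map.2 ⟨c, hc, rfl⟩, ?_⟩
    rw [AffineSubspace.direction_mk', hdir, hfr]
  · intro x hx
    rw [AffineSubspace.mem_mk'] at hx ⊢
    rw [hdir]
    have e : x -ᵥ p = (q - p) + (x -ᵥ q) := by
      simp only [vsub_eq_sub]
      abel
    rw [e]
    refine Submodule.add_mem _ (Submodule.subset_span (by simp)) ?_
    exact Submodule.span_mono (by simp) hx

/-- the plane of a terminal pair, complex hypotheses -/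
theorem geo_tl_pair_cx (D : SpData d) (hirr : ∀ p ∈ D.P, ∀ c ∈ D.C p, Irreducible c.F)
    (𝔶 : Ideal (PrfPol d)) (p q v : Pt d) (hp : p ∈ D.P) (v0 : v ≠ 0)
    (vspan : dirSpan (zeroLocus ℂ 𝔶) = Submodule.span ℂ {prfPt v})
    (vmem : ∀ y, y ∈ zeroLocus ℂ 𝔶 ↔ ∃ t : ℂ, y = prfPt q + t • prfPt v)
    (hterm : SpTerm D (prfPt p) 𝔶) (hnot : ¬ InSpan (prfPt p) (zeroLocus ℂ 𝔶)) :
    ∃ H ∈ geoTLpl (D.C p) p, AffineSubspace.mk' q (Submodule.span ℝ {v}) ≤ H := by
  have hqY : prfPt q ∈ zeroLocus ℂ 𝔶 := (vmem _).2 ⟨0, by simp⟩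
  apply geo_tl_pair (D.C p) (hirr p hp) p q v
  · rw [LinearIndependent.pair_iff]
    intro s t hst
    have hs : s = 0 := by
      by_contra hs
      apply hnot
      refine ⟨prfPt q, hqY, ?_⟩
      rw [vspan, Submodule.mem_span_singleton]
      refine ⟨((t / s : ℝ) : ℂ), ?_⟩
      rw [← geo_tl_pt_smul, ← geo_tl_pt_sub]
      congr 1
      have h1 : s • (q - p) = -(t • v) := eq_neg_of_add_eq_zero_left hst
      have h2 : q - p = -((t / s) • v) := by
        have : s⁻¹ • (s • (q - p)) = s⁻¹ • (-(t • v)) := by rw [h1]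
        rw [smul_smul, inv_mul_cancel₀ hs, one_smul, smul_neg, smul_smul] at this
        rw [this, div_eq_inv_mul]
      have h3 : p - q = -(q - p) := by abel
      rw [h3, h2, neg_neg]
    refine ⟨hs, ?_⟩
    rw [hs, zero_smul, zero_add] at hst
    exact (smul_eq_zero.1 hst).resolve_right v0
  · intro t
    have hy : prfPt q + t • prfPt v ∈ zeroLocus ℂ 𝔶 := (vmem _).2 ⟨t, rfl⟩
    have hne : prfPt q + t • prfPt v ≠ prfPt p := by
      intro h
      apply hnot
      refine ⟨prfPt p, h ▸ hy, ?_⟩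
      rw [sub_self]
      exact Submodule.zero_mem _
    obtain ⟨c, hc, hm⟩ := hterm _ hy hne
    rw [sp_re_pt] at hc
    refine ⟨c, hc, ?_⟩
    have e : prfPt (q - p) + t • prfPt v = prfPt q + t • prfPt v - prfPt p := by
      rw [geo_tl_pt_sub]
      abel
    rw [e]
    exact hm

/-- **Glue**: the complex statement from the real core. -/
theorem geo_tl_reduce (d : ℕ) (hcore : GeoTLCore d) : GeoTLStmt d := by
  intro ε hε
  obtain ⟨δ₀, hδ₀, Hc⟩ := hcore ε hε
  refine ⟨δ₀, hδ₀, ?_⟩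
  intro D hD cho Q hQ hcho Γ hΓ hT
  -- every point of a pair is real
  have hpt : ∀ z ∈ Γ, (spRe z.1 ∈ D.P ∧ prfPt (spRe z.1) = z.1) ∧
      (spRe z.2 ∈ D.P ∧ prfPt (spRe z.2) = z.2) := by
    intro z hz
    obtain ⟨h1, h2⟩ := Finset.mem_product.1 (hΓ hz)
    obtain ⟨p, hp, hp'⟩ := Finset.mem_image.1 h1
    obtain ⟨q, hq, hq'⟩ := Finset.mem_image.1 (hQ h2)
    rw [← hp', ← hq', sp_re_pt, sp_re_pt]
    exact ⟨⟨hp, rfl⟩, ⟨hq, rfl⟩⟩
  have hv : ∀ q ∈ Γ.image (fun z => spRe z.2), ∃ v : Pt d, v ≠ 0 ∧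
      dirSpan (zeroLocus ℂ (cho (prfPt q))) = Submodule.span ℂ {prfPt v} ∧
      ∀ y, y ∈ zeroLocus ℂ (cho (prfPt q)) ↔ ∃ t : ℂ, y = prfPt q + t • prfPt v := by
    intro q hq
    obtain ⟨z, hz, rfl⟩ := Finset.mem_image.1 hq
    have hzQ : z.2 ∈ Q := (Finset.mem_product.1 (hΓ hz)).2
    obtain ⟨c1, c2, c3, c4⟩ := hcho z.2 hzQ
    have e := (hpt z hz).2.2
    rw [e]
    have := geo_tl_line (cho z.2) c1 c2 (spRe z.2) (by rw [e]; exact c3) c4 (hT z hz).2.2.1
    rwa [e] at this
  choose! vq hvq using hv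
  have hcard : (Γ.image (fun z => (spRe z.1, spRe z.2))).card = Γ.card := by
    apply Finset.card_image_of_injOn
    intro z hz z' hz' h
    simp only [Prod.mk.injEq] at h
    apply Prod.ext
    · rw [← (hpt z hz).1.2, ← (hpt z' hz').1.2, h.1]
    · rw [← (hpt z hz).2.2, ← (hpt z' hz').2.2, h.2]
  have g1 : Γ.image (fun z => spRe z.2) ⊆ D.P := by
    intro q hq
    obtain ⟨z, hz, rfl⟩ := Finset.mem_image.1 hq
    exact (hpt z hz).2.1
  have g2 : ∀ q ∈ Γ.image (fun z => spRe z.2),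
      stIsLine (AffineSubspace.mk' q (Submodule.span ℝ {vq q})) ∧
        q ∈ AffineSubspace.mk' q (Submodule.span ℝ {vq q}) := by
    intro q hq
    refine ⟨?_, AffineSubspace.self_mem_mk' _ _⟩
    unfold stIsLine
    rw [AffineSubspace.direction_mk']
    exact finrank_span_singleton (hvq q hq).1
  have g3 : ∀ p ∈ D.P, ((geoTLpl (D.C p) p).card : ℝ) ≤ D.δ * (D.P.card : ℝ) / dA D.P := by
    intro p hp
    refine le_trans ?_ (hD.deg p hp)
    exact_mod_cast geo_tl_pl_card (D.C p) (hD.irr p hp) p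
  have g4 : ∀ p ∈ D.P, ∀ H ∈ geoTLpl (D.C p) p, finrank ℝ H.direction = 2 ∧ p ∈ H := by
    intro p _ H hH
    unfold geoTLpl at hH
    rw [Finset.mem_filter, List.mem_toFinset] at hH
    refine ⟨hH.2, ?_⟩
    obtain ⟨c, _, rfl⟩ := List.mem_map.1 hH.1
    exact AffineSubspace.self_mem_mk' _ _
  have g5 : Γ.image (fun z => (spRe z.1, spRe z.2)) ⊆ D.P ×ˢ Γ.image (fun z => spRe z.2) := by
    intro w hw
    obtain ⟨z, hz, rfl⟩ := Finset.mem_image.1 hw
    exact Finset.mem_product.2 ⟨(hpt z hz).1.1, Finset.mem_image.2 ⟨z, hz, rfl⟩⟩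
  have g6 : ∀ w ∈ Γ.image (fun z => (spRe z.1, spRe z.2)), ∃ H ∈ geoTLpl (D.C w.1) w.1,
      AffineSubspace.mk' w.2 (Submodule.span ℝ {vq w.2}) ≤ H := by
    intro w hw
    obtain ⟨z, hz, rfl⟩ := Finset.mem_image.1 hw
    have ep : prfPt (spRe z.1) = z.1 := (hpt z hz).1.2
    have eq' : prfPt (spRe z.2) = z.2 := (hpt z hz).2.2
    obtain ⟨v0, vspan, vmem⟩ := hvq (spRe z.2) (Finset.mem_image.2 ⟨z, hz, rfl⟩)
    obtain ⟨_, hterm, _, hnot⟩ := hT z hz
    rw [eq'] at vspan vmem
    exact geo_tl_pair_cx D hD.irr (cho z.2) (spRe z.1) (spRe z.2) (vq (spRe z.2)) (hpt z hz).1.1 v0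
      vspan (by rw [eq']; exact vmem) (by rw [ep]; exact hterm) (by rw [ep]; exact hnot)
  have main := Hc D.P D.δ hD.pos hD.le hD.big hD.dist
    (fun H hH => geo_tl_cap D.P D.B D.δ hD.caps H hH) (Γ.image (fun z => spRe z.2))
    (fun q => AffineSubspace.mk' q (Submodule.span ℝ {vq q})) g1 g2
    (fun p => geoTLpl (D.C p) p) g3 g4 (Γ.image (fun z => (spRe z.1, spRe z.2))) g5 g6
  rw [hcard] at main
  exact main

/-- **geo:terminal, assigned lines.** -/
theorem geo_TL (d : ℕ) (hd : 3 ≤ d) : GeoTLStmt d := geo_tl_reduce d (geo_tl_core d hd)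

end Claimed.Agent.R273
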