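/-
LIB-GK (row273), part 1: rich points of lines contained in a surface of small degree.
This REPLACES ci:flat (critical/flat lines, Bezout for lines, square-free parts) of Appendix B.
Sorry-free (helper62).
-/
import Claimed.Agent.R273.StRich
import Claimed.Agent.R273.PkHyper

set_option autoImplicit false

namespace Claimed.Agent.R273

open scoped Classical
open MvPolynomial

theorem gk_level {e : ℕ} (G : ℕ → MvPolynomial (Fin 3) ℝ) (a : ℝ) (ha : a ≠ 0) (he : G e = C a)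
    (l : AffineSubspace ℝ (Fin 3 → ℝ)) (hl : stIsLine l) (h0 : ∀ x ∈ l, eval x (G 0) = 0) :
    ∃ i, i < e ∧ (∀ i' ≤ i, ∀ x ∈ l, eval x (G i') = 0) ∧ ∃ x ∈ l, eval x (G (i + 1)) ≠ 0 := by
  obtain ⟨p, v, hv, hx⟩ := (st_line_param l).1 hl
  have hp : p ∈ l := (hx p).2 ⟨0, by simp⟩
  have hpe : ∃ x ∈ l, eval x (G e) ≠ 0 := ⟨p, hp, by rw [he, eval_C]; exact ha⟩
  have hex : ∃ m, ∃ x ∈ l, eval x (G m) ≠ 0 := ⟨e, hpe⟩
  obtain ⟨m, hm⟩ : ∃ m, m = Nat.find hex := ⟨_, rfl⟩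
  have hm1 : ∃ x ∈ l, eval x (G m) ≠ 0 := by rw [hm]; exact Nat.find_spec hex
  have hm2 : ∀ i < m, ∀ x ∈ l, eval x (G i) = 0 := by
    intro i hi x hxl
    by_contra hcon
    rw [hm] at hi
    exact Nat.find_min hex hi ⟨x, hxl, hcon⟩
  have hm0 : m ≠ 0 := by
    intro h00
    obtain ⟨x, hxl, hne⟩ := hm1
    rw [h00] at hne
    exact hne (h0 x hxl)
  have hme : m ≤ e := by rw [hm]; exact Nat.find_min' hex hpe
  refine ⟨m - 1, by omega, fun i' hi' => hm2 i' (by omega), ?_⟩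
  have h1 : m - 1 + 1 = m := by omega
  rw [h1]
  exact hm1

theorem gk_tangent (F : MvPolynomial (Fin 3) ℝ) (l : AffineSubspace ℝ (Fin 3 → ℝ))
    (hl : stIsLine l) (h0 : ∀ x ∈ l, eval x F = 0) (p : Fin 3 → ℝ) (hp : p ∈ l) :
    ∀ x ∈ l, (fun i => eval p (pderiv i F)) ⬝ᵥ x = (fun i => eval p (pderiv i F)) ⬝ᵥ p := by
  intro x hx
  by_cases hxp : x = p
  · rw [hxp]
  have h1 : ∀ t : ℝ, eval (p + t • (x - p)) F = 0 := fun t =>
    h0 _ ((st_line_two l hl p x (Ne.symm hxp) hp hx _).2 ⟨t, rfl⟩)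
  have h2 := pk_line_deriv F p (x - p) h1
  simp only [dotProduct]
  have h3 : ∑ i, (eval p (pderiv i F)) * x i - ∑ i, eval p (pderiv i F) * p i = 0 := by
    rw [← Finset.sum_sub_distrib, ← h2]
    refine Finset.sum_congr rfl fun i _ => ?_
    simp only [Pi.sub_apply]
    ring
  linarith

/-- zeros of a polynomial on a line on which it does not vanish identically -/
theorem gk_zeros {n : ℕ} (g : MvPolynomial (Fin n) ℝ) (l : AffineSubspace ℝ (Fin n → ℝ))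
    (hl : stIsLine l) (hne : ∃ x ∈ l, MvPolynomial.eval x g ≠ 0) (P : Finset (Fin n → ℝ)) :
    (P.filter (fun x => x ∈ l ∧ MvPolynomial.eval x g = 0)).card ≤ g.totalDegree := by
  obtain ⟨p, v, hv, hx⟩ := (st_line_param l).1 hl
  have hch : ∀ x : Fin n → ℝ, ∃ t : ℝ, x ∈ l → x = p + t • v := by
    intro x
    by_cases h : x ∈ l
    · obtain ⟨t, ht⟩ := (hx x).1 h
      exact ⟨t, fun _ => ht⟩
    · exact ⟨0, fun h' => absurd h' h⟩
  choose τ hτ using hch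
  have hinj : Set.InjOn τ (P.filter (fun x => x ∈ l ∧ MvPolynomial.eval x g = 0) : Finset _) := by
    intro a ha b hb hab
    have ha' := (Finset.mem_filter.1 (Finset.mem_coe.1 ha)).2.1
    have hb' := (Finset.mem_filter.1 (Finset.mem_coe.1 hb)).2.1
    rw [hτ a ha', hτ b hb', hab]
  rw [← Finset.card_image_of_injOn hinj]
  apply pk_line_zeros g p v
  · obtain ⟨x, hxl, hxg⟩ := hne
    exact ⟨τ x, by rw [← hτ x hxl]; exact hxg⟩
  · intro t ht
    obtain ⟨x, hxm, rfl⟩ := Finset.mem_image.1 ht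
    have h2 := (Finset.mem_filter.1 hxm).2
    rw [← hτ x h2.1]
    exact h2.2

/-- a plane contained in a plane is equal to it -/
theorem gk_plane_sub {ν ν' : Fin 3 → ℝ} {β β' : ℝ} (hν : ν ≠ 0) (hν' : ν' ≠ 0)
    (h : ∀ x : Fin 3 → ℝ, ν ⬝ᵥ x = β → ν' ⬝ᵥ x = β') :
    ∀ x : Fin 3 → ℝ, ν' ⬝ᵥ x = β' → ν ⬝ᵥ x = β := by
  have hνν := pk_dot_self_pos hν
  have hνν' := pk_dot_self_pos hν'
  obtain ⟨c, hc⟩ : ∃ c : ℝ, c = (ν' ⬝ᵥ ν) / (ν ⬝ᵥ ν) := ⟨_, rfl⟩
  obtain ⟨x0, hx0⟩ : ∃ x0 : Fin 3 → ℝ, x0 = (β / (ν ⬝ᵥ ν)) • ν := ⟨_, rfl⟩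
  have h0 : ν ⬝ᵥ x0 = β := by
    rw [hx0, dotProduct_smul, smul_eq_mul]
    field_simp
  have h0' := h x0 h0
  obtain ⟨u, hu⟩ : ∃ u : Fin 3 → ℝ, u = ν' - c • ν := ⟨_, rfl⟩
  have hcν : c * (ν ⬝ᵥ ν) = ν' ⬝ᵥ ν := by
    rw [hc]
    field_simp
  have h1 : ν ⬝ᵥ u = 0 := by
    rw [hu, dotProduct_sub, dotProduct_smul, smul_eq_mul, hcν, dotProduct_comm]
    ring
  have h2 : ν' ⬝ᵥ u = 0 := by
    have := h (x0 + u) (by rw [dotProduct_add, h0, h1, add_zero])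
    rw [dotProduct_add, h0'] at this
    linarith
  have h3 : u ⬝ᵥ u = 0 := by
    have e : u ⬝ᵥ u = ν' ⬝ᵥ u - c * (ν ⬝ᵥ u) := by
      calc u ⬝ᵥ u = (ν' - c • ν) ⬝ᵥ u := by rw [← hu]
        _ = _ := by rw [sub_dotProduct, smul_dotProduct, smul_eq_mul]
    rw [e, h1, h2]
    ring
  have h4 : u = 0 := by
    by_contra hne
    exact absurd h3 (pk_dot_self_pos hne).ne'
  have h5 : ν' = c • ν := by
    rw [h4] at hu
    exact (sub_eq_zero.1 hu.symm)
  have hc0 : c ≠ 0 := by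
    rintro rfl
    apply hν'
    rw [h5, zero_smul]
  have h6 : β' = c * β := by
    rw [← h0', h5, smul_dotProduct, smul_eq_mul, h0]
  intro x hx
  rw [h5, smul_dotProduct, smul_eq_mul, h6] at hx
  exact mul_left_cancel₀ hc0 hx

/-- concurrent lines in a plane inside `Z(g)` -/
theorem gk_concurrent (g : MvPolynomial (Fin 3) ℝ) (p ν z : Fin 3 → ℝ) (hν : ν ≠ 0)
    (hz : ν ⬝ᵥ z = ν ⬝ᵥ p) (hgz : eval z g ≠ 0) (N : Finset (AffineSubspace ℝ (Fin 3 → ℝ)))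
    (hN : ∀ l ∈ N, stIsLine l ∧ p ∈ l ∧ (∀ x ∈ l, eval x g = 0) ∧ ∀ x ∈ l, ν ⬝ᵥ x = ν ⬝ᵥ p) :
    N.card ≤ g.totalDegree := by
  have hch : ∀ l : AffineSubspace ℝ (Fin 3 → ℝ), ∃ v : Fin 3 → ℝ, l ∈ N →
      (v ≠ 0 ∧ ∀ x, x ∈ l ↔ ∃ t : ℝ, x = p + t • v) := by
    intro l
    by_cases h : l ∈ N
    · obtain ⟨q, v, hv, hx⟩ := (st_line_param l).1 (hN l h).1
      refine ⟨v, fun _ => ⟨hv, fun x => ?_⟩⟩
      obtain ⟨s, hs⟩ := (hx p).1 (hN l h).2.1
      rw [hx x]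
      constructor
      · rintro ⟨t, rfl⟩
        exact ⟨t - s, by rw [hs, sub_smul]; abel⟩
      · rintro ⟨t, rfl⟩
        exact ⟨t + s, by rw [hs, add_smul]; abel⟩
    · exact ⟨0, fun h' => absurd h' h⟩
  choose dir hdir using hch
  have hinj : Set.InjOn dir N := by
    intro l hl l' hl' hll
    apply SetLike.ext
    intro x
    rw [(hdir l hl).2 x, (hdir l' hl').2 x, hll]
  rw [← Finset.card_image_of_injOn hinj]
  apply pk_concurrent g p ν z hν (by rw [dotProduct_sub, hz, sub_self]) hgz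
  · intro v hv
    obtain ⟨l, hl, rfl⟩ := Finset.mem_image.1 hv
    refine ⟨(hdir l hl).1, ?_, fun t => (hN l hl).2.2.1 _ (((hdir l hl).2 _).2 ⟨t, rfl⟩)⟩
    have := (hN l hl).2.2.2 (p + (1:ℝ) • dir l) (((hdir l hl).2 _).2 ⟨1, rfl⟩)
    rw [one_smul, dotProduct_add] at this
    linarith
  · intro v hv v' hv' hne c hc
    obtain ⟨l, hl, rfl⟩ := Finset.mem_image.1 hv
    obtain ⟨l', hl', rfl⟩ := Finset.mem_image.1 hv'
    apply hne
    have hll : l = l' := by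
      apply st_line_unique l l' (hN l hl).1 (hN l' hl').1 p (p + dir l') ?_ (hN l hl).2.1 ?_
        (hN l' hl').2.1 ?_
      · intro h
        exact (hdir l' hl').1 (by simpa using h.symm)
      · exact ((hdir l hl).2 _).2 ⟨c, by rw [hc]⟩
      · exact ((hdir l' hl').2 _).2 ⟨1, by rw [one_smul]⟩
    rw [hll]

/-- the number of distinct planes (as sets) on which `g` vanishes -/
theorem gk_planes (g : MvPolynomial (Fin 3) ℝ) (hg : g ≠ 0) (T : Finset (Set (Fin 3 → ℝ)))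
    (hT : ∀ t ∈ T, ∃ (ν : Fin 3 → ℝ) (β : ℝ), ν ≠ 0 ∧ t = {x | ν ⬝ᵥ x = β} ∧
      ∀ x ∈ t, eval x g = 0) :
    T.card ≤ g.totalDegree := by
  have hch : ∀ t : Set (Fin 3 → ℝ), ∃ h : (Fin 3 → ℝ) × ℝ, t ∈ T →
      (h.1 ≠ 0 ∧ t = {x | h.1 ⬝ᵥ x = h.2} ∧ ∀ x ∈ t, eval x g = 0) := by
    intro t
    by_cases h : t ∈ T
    · obtain ⟨ν, β, h1⟩ := hT t h
      exact ⟨(ν, β), fun _ => h1⟩
    · exact ⟨(0, 0), fun h' => absurd h' h⟩
  choose rep hrep using hch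
  have hinj : Set.InjOn rep T := by
    intro t ht t' ht' htt
    rw [(hrep t ht).2.1, (hrep t' ht').2.1, htt]
  rw [← Finset.card_image_of_injOn hinj]
  apply pk_hyperplanes g hg
  · intro h hh
    obtain ⟨t, ht, rfl⟩ := Finset.mem_image.1 hh
    exact (hrep t ht).1
  · intro h hh h' hh' hne
    obtain ⟨t, ht, rfl⟩ := Finset.mem_image.1 hh
    obtain ⟨t', ht', rfl⟩ := Finset.mem_image.1 hh'
    by_contra hcon
    push Not at hcon
    apply hne
    have hback := gk_plane_sub (hrep t ht).1 (hrep t' ht').1 hcon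
    have htt : t = t' := by
      rw [(hrep t ht).2.1, (hrep t' ht').2.1]
      ext x
      exact ⟨hcon x, hback x⟩
    rw [htt]
  · intro h hh x hx
    obtain ⟨t, ht, rfl⟩ := Finset.mem_image.1 hh
    apply (hrep t ht).2.2 x
    rw [(hrep t ht).2.1]
    exact hx

theorem gk_surface : ∃ C : ℝ, 0 < C ∧ ∀ (F : MvPolynomial (Fin 3) ℝ)
    (L : Finset (AffineSubspace ℝ (Fin 3 → ℝ))) (B₀ : ℝ) (k : ℕ) (S : Finset (Fin 3 → ℝ)),
    F ≠ 0 → (∀ l ∈ L, stIsLine l ∧ ∀ x ∈ l, eval x F = 0) →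
    (∀ (ν : Fin 3 → ℝ) (β : ℝ), ν ≠ 0 →
      ((L.filter (fun l => ∀ x ∈ l, ν ⬝ᵥ x = β)).card : ℝ) ≤ B₀) →
    2 * F.totalDegree < k →
    (∀ p ∈ S, k ≤ (L.filter (fun l => p ∈ l)).card) →
    (S.card : ℝ) ≤ C * ((L.card : ℝ) * F.totalDegree / k
      + (F.totalDegree : ℝ) ^ 2 * (B₀ ^ 2 / (k : ℝ) ^ 3 + B₀ / k)) := by
  obtain ⟨Cst, hCst, hst⟩ := st_rich_points
  refine ⟨2 + 8 * Cst, by positivity, ?_⟩
  intro F L B₀ k S hF hL hB hk hS
  obtain ⟨D, hD⟩ : ∃ D, D = F.totalDegree := ⟨_, rfl⟩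
  obtain ⟨e, G, heD, hG0, hstep, hGne, hGdeg, a, ha, hGe⟩ := pk_chain F hF
  rw [← hD] at hk heD hGdeg ⊢
  have hB0 : 0 ≤ B₀ := le_trans (Nat.cast_nonneg _)
    (hB (fun _ => 1) 0 (fun h => one_ne_zero (congrFun h 0)))
  have hk0 : 0 < k := by omega
  have hkR : (0 : ℝ) < k := by exact_mod_cast hk0
  -- levels
  have hlev : ∀ l : AffineSubspace ℝ (Fin 3 → ℝ), ∃ i, l ∈ L →
      (i < e ∧ (∀ i' ≤ i, ∀ x ∈ l, eval x (G i') = 0) ∧ ∃ x ∈ l, eval x (G (i + 1)) ≠ 0) := by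
    intro l
    by_cases h : l ∈ L
    · obtain ⟨i, hi⟩ := gk_level G a ha hGe l (hL l h).1 (by rw [hG0]; exact (hL l h).2)
      exact ⟨i, fun _ => hi⟩
    · exact ⟨0, fun h' => absurd h' h⟩
  choose lev hlev using hlev
  -- first index with nonzero gradient
  have hjp : ∀ p : Fin 3 → ℝ, ∃ i, ∀ i', (∃ j, eval p (pderiv j (G i')) ≠ 0) →
      (i ≤ i' ∧ ∃ j, eval p (pderiv j (G i)) ≠ 0) := by
    intro p
    by_cases h : ∃ i', ∃ j, eval p (pderiv j (G i')) ≠ 0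
    · exact ⟨Nat.find h, fun i' hi' => ⟨Nat.find_min' h hi', Nat.find_spec h⟩⟩
    · exact ⟨0, fun i' hi' => absurd ⟨i', hi'⟩ h⟩
  choose jp hjp using hjp
  obtain ⟨S1, hS1⟩ : ∃ S1, S1 = S.filter (fun p =>
    k ≤ 2 * (L.filter (fun l => p ∈ l ∧ eval p (G (lev l + 1)) = 0)).card) := ⟨_, rfl⟩
  obtain ⟨S2, hS2⟩ : ∃ S2, S2 = S.filter (fun p =>
    ¬ k ≤ 2 * (L.filter (fun l => p ∈ l ∧ eval p (G (lev l + 1)) = 0)).card) := ⟨_, rfl⟩
  have hcard : S.card = S1.card + S2.card := by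
    rw [hS1, hS2, Finset.card_filter_add_card_filter_not]
  -- the lossy incidences
  have h1 : S1.card * k ≤ 2 * (L.card * D) := by
    calc S1.card * k = ∑ _p ∈ S1, k := by rw [Finset.sum_const, smul_eq_mul]
      _ ≤ ∑ p ∈ S1, 2 * (L.filter (fun l => p ∈ l ∧ eval p (G (lev l + 1)) = 0)).card := by
          apply Finset.sum_le_sum
          intro p hp
          rw [hS1] at hp
          exact (Finset.mem_filter.1 hp).2
      _ ≤ ∑ p ∈ S, 2 * (L.filter (fun l => p ∈ l ∧ eval p (G (lev l + 1)) = 0)).card := by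
          apply Finset.sum_le_sum_of_subset
          rw [hS1]
          exact Finset.filter_subset _ _
      _ = 2 * ∑ l ∈ L, (S.filter (fun p => p ∈ l ∧ eval p (G (lev l + 1)) = 0)).card := by
          rw [← Finset.mul_sum]
          congr 1
          simp only [Finset.card_filter]
          rw [Finset.sum_comm]
      _ ≤ 2 * ∑ _l ∈ L, D := by
          apply Nat.mul_le_mul_left
          apply Finset.sum_le_sum
          intro l hl
          refine (gk_zeros (G (lev l + 1)) l (hL l hl).1 (hlev l hl).2.2 S).trans ?_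
          have := hGdeg (lev l + 1) (hlev l hl).1
          omega
      _ = 2 * (L.card * D) := by rw [Finset.sum_const, smul_eq_mul]
  -- the other lines through a point
  obtain ⟨N, hN⟩ : ∃ N : (Fin 3 → ℝ) → Finset (AffineSubspace ℝ (Fin 3 → ℝ)), N = fun p =>
    L.filter (fun l => p ∈ l ∧ ¬ eval p (G (lev l + 1)) = 0) := ⟨_, rfl⟩
  have hNmem : ∀ p l, l ∈ N p ↔ l ∈ L ∧ p ∈ l ∧ ¬ eval p (G (lev l + 1)) = 0 := by
    intro p l
    rw [hN, Finset.mem_filter]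
  have hNcard : ∀ p ∈ S2, k < 2 * (N p).card := by
    intro p hp
    rw [hS2] at hp
    obtain ⟨hpS, hp2⟩ := Finset.mem_filter.1 hp
    have e1 := hS p hpS
    have e2 : (L.filter (fun l => p ∈ l)).card =
        (L.filter (fun l => p ∈ l ∧ eval p (G (lev l + 1)) = 0)).card + (N p).card := by
      rw [hN]
      show _ = _ + (L.filter (fun l => p ∈ l ∧ ¬ eval p (G (lev l + 1)) = 0)).card
      rw [← Finset.filter_filter, ← Finset.filter_filter,
        Finset.card_filter_add_card_filter_not]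
    omega
  have hNl : ∀ p, ∀ l ∈ N p, jp p ≤ lev l ∧ ∃ j, eval p (pderiv j (G (jp p))) ≠ 0 := by
    intro p l hl
    obtain ⟨hlL, hpl, hne⟩ := (hNmem p l).1 hl
    obtain ⟨j, hj⟩ := hstep (lev l) (hlev l hlL).1
    exact hjp p (lev l) ⟨j, by rw [← hj]; exact hne⟩
  obtain ⟨ν, hν⟩ : ∃ ν : (Fin 3 → ℝ) → (Fin 3 → ℝ), ν = fun p i =>
    eval p (pderiv i (G (jp p))) := ⟨_, rfl⟩
  have hplane : ∀ p, ∀ l ∈ N p, ∀ x ∈ l, ν p ⬝ᵥ x = ν p ⬝ᵥ p := by
    intro p l hl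
    obtain ⟨hlL, hpl, hne⟩ := (hNmem p l).1 hl
    rw [hν]
    exact gk_tangent (G (jp p)) l (hL l hlL).1 ((hlev l hlL).2.1 _ (hNl p l hl).1) p hpl
  have hkey : ∀ p ∈ S2, jp p < e ∧ ν p ≠ 0 ∧
      ∀ x, ν p ⬝ᵥ x = ν p ⬝ᵥ p → eval x (G (jp p)) = 0 := by
    intro p hp
    have hc := hNcard p hp
    have hne : (N p).Nonempty := by
      rw [← Finset.card_pos]
      omega
    obtain ⟨l0, hl0⟩ := hne
    obtain ⟨hl0L, -, -⟩ := (hNmem p l0).1 hl0
    obtain ⟨hle, j, hj⟩ := hNl p l0 hl0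
    have hlt : jp p < e := lt_of_le_of_lt hle (hlev l0 hl0L).1
    have hν0 : ν p ≠ 0 := by
      intro h0
      apply hj
      have := congrFun h0 j
      rw [hν] at this
      exact this
    refine ⟨hlt, hν0, ?_⟩
    intro z hz
    by_contra hgz
    have hcc := gk_concurrent (G (jp p)) p (ν p) z hν0 hz hgz (N p) (by
      intro l hl
      obtain ⟨hlL, hpl, hne⟩ := (hNmem p l).1 hl
      exact ⟨(hL l hlL).1, hpl, (hlev l hlL).2.1 _ (hNl p l hl).1, hplane p l hl⟩)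
    have := hGdeg (jp p) hlt.le
    omega
  obtain ⟨pl, hpl⟩ : ∃ pl : (Fin 3 → ℝ) → Set (Fin 3 → ℝ), pl = fun p =>
    {x | ν p ⬝ᵥ x = ν p ⬝ᵥ p} := ⟨_, rfl⟩
  obtain ⟨M, hM⟩ : ∃ M : ℝ, M = Cst * (8 * B₀ ^ 2 / (k : ℝ) ^ 3 + 2 * B₀ / k) := ⟨_, rfl⟩
  have hM0 : 0 ≤ M := by
    rw [hM]
    positivity
  -- one plane
  have hone : ∀ p0 ∈ S2, ((S2.filter (fun p => pl p = pl p0)).card : ℝ) ≤ M := by
    intro p0 hp0
    obtain ⟨hlt, hν0, -⟩ := hkey p0 hp0
    have hD1 : 1 ≤ D := by omega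
    obtain ⟨k', hk'⟩ : ∃ k', k' = (k + 1) / 2 := ⟨_, rfl⟩
    have hk2 : 2 ≤ k' := by omega
    have hkk : k ≤ 2 * k' := by omega
    obtain ⟨LT, hLT⟩ : ∃ LT, LT = L.filter (fun l => ∀ x ∈ l, ν p0 ⬝ᵥ x = ν p0 ⬝ᵥ p0) := ⟨_, rfl⟩
    have hLTB : (LT.card : ℝ) ≤ B₀ := by
      rw [hLT]
      exact hB _ _ hν0
    have h2 := hst (Fin 3 → ℝ) LT k' (S2.filter (fun p => pl p = pl p0))
      (fun l hl => by
        rw [hLT] at hl
        exact (hL l (Finset.mem_filter.1 hl).1).1) hk2 (by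
        intro p hp
        obtain ⟨hpS2, hpp⟩ := Finset.mem_filter.1 hp
        have hc := hNcard p hpS2
        have hsub : N p ⊆ LT.filter (fun l => p ∈ l) := by
          intro l hl
          obtain ⟨hlL, hpl', hne⟩ := (hNmem p l).1 hl
          rw [hLT]
          refine Finset.mem_filter.2 ⟨Finset.mem_filter.2 ⟨hlL, fun x hx => ?_⟩, hpl'⟩
          have hx1 : x ∈ pl p := by
            rw [hpl]
            exact hplane p l hl x hx
          rw [hpp, hpl] at hx1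
          exact hx1
        have := Finset.card_le_card hsub
        omega)
    refine h2.trans ?_
    rw [hM]
    apply mul_le_mul_of_nonneg_left _ hCst.le
    have hk'R : (0 : ℝ) < k' := by
      have : 0 < k' := by omega
      exact_mod_cast this
    have hkk' : (k : ℝ) ≤ 2 * k' := by exact_mod_cast hkk
    have hc0 : (0 : ℝ) ≤ LT.card := Nat.cast_nonneg _
    have e1 : (LT.card : ℝ) ^ 2 / (k' : ℝ) ^ 3 ≤ 8 * B₀ ^ 2 / (k : ℝ) ^ 3 := by
      rw [div_le_div_iff₀ (by positivity) (by positivity)]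
      have a1 : (LT.card : ℝ) ^ 2 ≤ B₀ ^ 2 := pow_le_pow_left₀ hc0 hLTB 2
      have a2 : (k : ℝ) ^ 3 ≤ (2 * k') ^ 3 := pow_le_pow_left₀ hkR.le hkk' 3
      calc (LT.card : ℝ) ^ 2 * (k : ℝ) ^ 3 ≤ B₀ ^ 2 * (2 * k') ^ 3 :=
            mul_le_mul a1 a2 (by positivity) (by positivity)
        _ = 8 * B₀ ^ 2 * (k' : ℝ) ^ 3 := by ring
    have e2 : (LT.card : ℝ) / (k' : ℝ) ≤ 2 * B₀ / (k : ℝ) := by
      rw [div_le_div_iff₀ (by positivity) (by positivity)]
      calc (LT.card : ℝ) * (k : ℝ) ≤ B₀ * (2 * k') :=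
            mul_le_mul hLTB hkk' (by positivity) (by positivity)
        _ = 2 * B₀ * (k' : ℝ) := by ring
    linarith
  -- all planes
  have hlevel : ∀ i ∈ Finset.range e, ((S2.filter (fun p => jp p = i)).card : ℝ) ≤ D * M := by
    intro i hi
    have hie : i < e := Finset.mem_range.1 hi
    have hT : ((S2.filter (fun p => jp p = i)).image pl).card ≤ D := by
      refine (gk_planes (G i) (hGne i hie.le) _ ?_).trans ?_
      · intro t ht
        obtain ⟨p, hp, rfl⟩ := Finset.mem_image.1 ht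
        obtain ⟨hpS2, hpi⟩ := Finset.mem_filter.1 hp
        obtain ⟨-, hν0, hvan⟩ := hkey p hpS2
        refine ⟨ν p, ν p ⬝ᵥ p, hν0, by rw [hpl], ?_⟩
        intro x hx
        rw [hpl] at hx
        rw [← hpi]
        exact hvan x hx
      · have := hGdeg i hie.le
        omega
    rw [Finset.card_eq_sum_card_image pl, Nat.cast_sum]
    calc ∑ t ∈ (S2.filter (fun p => jp p = i)).image pl,
          (((S2.filter (fun p => jp p = i)).filter (fun p => pl p = t)).card : ℝ)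
        ≤ ∑ _t ∈ (S2.filter (fun p => jp p = i)).image pl, M := by
          apply Finset.sum_le_sum
          intro t ht
          obtain ⟨p0, hp0, rfl⟩ := Finset.mem_image.1 ht
          refine le_trans ?_ (hone p0 (Finset.mem_filter.1 hp0).1)
          have : ((S2.filter (fun p => jp p = i)).filter (fun p => pl p = pl p0)).card ≤
              (S2.filter (fun p => pl p = pl p0)).card := by
            apply Finset.card_le_card
            intro p hp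
            obtain ⟨hp1, hp2⟩ := Finset.mem_filter.1 hp
            exact Finset.mem_filter.2 ⟨(Finset.mem_filter.1 hp1).1, hp2⟩
          exact_mod_cast this
      _ = (((S2.filter (fun p => jp p = i)).image pl).card : ℝ) * M := by
          rw [Finset.sum_const, nsmul_eq_mul]
      _ ≤ D * M := by
          apply mul_le_mul_of_nonneg_right _ hM0
          exact_mod_cast hT
  have h2 : (S2.card : ℝ) ≤ (D : ℝ) ^ 2 * M := by
    have e1 : S2.card = ∑ i ∈ Finset.range e, (S2.filter (fun p => jp p = i)).card :=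
      Finset.card_eq_sum_card_fiberwise (fun p hp => Finset.mem_coe.2
        (Finset.mem_range.2 (hkey p (Finset.mem_coe.1 hp)).1))
    rw [e1, Nat.cast_sum]
    calc ∑ i ∈ Finset.range e, ((S2.filter (fun p => jp p = i)).card : ℝ)
        ≤ ∑ _i ∈ Finset.range e, (D : ℝ) * M := Finset.sum_le_sum hlevel
      _ = (e : ℝ) * (D * M) := by rw [Finset.sum_const, Finset.card_range, nsmul_eq_mul]
      _ ≤ (D : ℝ) * (D * M) := by
          apply mul_le_mul_of_nonneg_right _ (by positivity)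
          exact_mod_cast heD
      _ = (D : ℝ) ^ 2 * M := by ring
  have h1' : (S1.card : ℝ) ≤ 2 * ((L.card : ℝ) * D / k) := by
    have : (S1.card : ℝ) * k ≤ 2 * ((L.card : ℝ) * D) := by exact_mod_cast h1
    rw [← mul_div_assoc, le_div_iff₀ hkR]
    exact this
  have h3 : M ≤ 8 * Cst * (B₀ ^ 2 / (k : ℝ) ^ 3 + B₀ / k) := by
    rw [hM]
    have : 0 ≤ Cst * (B₀ / k) := by positivity
    have e : Cst * (8 * B₀ ^ 2 / (k : ℝ) ^ 3 + 2 * B₀ / k) =
        8 * Cst * (B₀ ^ 2 / (k : ℝ) ^ 3 + B₀ / k) - 6 * (Cst * (B₀ / k)) := by ring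
    rw [e]
    linarith
  have h4 : (D : ℝ) ^ 2 * M ≤ (D : ℝ) ^ 2 * (8 * Cst * (B₀ ^ 2 / (k : ℝ) ^ 3 + B₀ / k)) :=
    mul_le_mul_of_nonneg_left h3 (by positivity)
  have h5 : 0 ≤ (L.card : ℝ) * D / k := by positivity
  have h6 : 0 ≤ (D : ℝ) ^ 2 * (B₀ ^ 2 / (k : ℝ) ^ 3 + B₀ / k) := by positivity
  rw [hcard, Nat.cast_add]
  calc (S1.card : ℝ) + S2.card
      ≤ 2 * ((L.card : ℝ) * D / k) + (D : ℝ) ^ 2 * (8 * Cst * (B₀ ^ 2 / (k : ℝ) ^ 3 + B₀ / k)) := by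
        linarith
    _ ≤ (2 + 8 * Cst) * ((L.card : ℝ) * D / k + (D : ℝ) ^ 2 * (B₀ ^ 2 / (k : ℝ) ^ 3 + B₀ / k)) := by
        have : 0 ≤ 8 * Cst * ((L.card : ℝ) * D / k) := by positivity
        nlinarith

end Claimed.Agent.R273
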