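/-
LIB-GK (row273), part 2: the rich point bound for lines in `ℝ³` (replaces ci:rich-lines).
Sorry-free (helper62).
-/
import Claimed.Agent.R273.GkSurface
import Claimed.Agent.R273.BuPart

set_option autoImplicit false

namespace Claimed.Agent.R273

open scoped Classical
open MvPolynomial

/-- cells met by a line -/
theorem gk_cells {n J : ℕ} (f : Fin J → MvPolynomial (Fin n) ℝ) (l : AffineSubspace ℝ (Fin n → ℝ))
    (hl : stIsLine l) :
    (Finset.univ.filter (fun σ : Fin J → Bool => ∃ x ∈ l, ∀ j,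
      buSgn (σ j) (MvPolynomial.eval x (f j)))).card ≤ ∑ j, (f j).totalDegree + 1 := by
  by_cases hne : ∀ j, ∃ x ∈ l, MvPolynomial.eval x (f j) ≠ 0
  · obtain ⟨p, v, hv, hx⟩ := (st_line_param l).1 hl
    obtain ⟨γ, hγ⟩ : ∃ γ : Fin n → Polynomial ℝ, γ = fun i =>
      Polynomial.C (v i) * Polynomial.X + Polynomial.C (p i) := ⟨_, rfl⟩
    have hev : ∀ t : ℝ, (fun i => (γ i).eval t) = p + t • v := by
      intro t
      funext i
      simp [hγ]
      ring
    have h1 := bu_curve_cells f γ 1 (fun i => by rw [hγ]; exact Polynomial.natDegree_linear_le) (by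
      intro j
      obtain ⟨x, hxl, hxg⟩ := hne j
      obtain ⟨t, rfl⟩ := (hx x).1 hxl
      exact ⟨t, by rw [hev]; exact hxg⟩)
    rw [one_mul] at h1
    refine le_trans (Finset.card_le_card ?_) h1
    intro σ hσ
    obtain ⟨x, hxl, hs⟩ := (Finset.mem_filter.1 hσ).2
    obtain ⟨t, rfl⟩ := (hx x).1 hxl
    exact Finset.mem_filter.2 ⟨Finset.mem_univ _, t, by rw [hev]; exact hs⟩
  · push Not at hne
    obtain ⟨j, hj⟩ := hne
    have : (Finset.univ.filter (fun σ : Fin J → Bool => ∃ x ∈ l, ∀ j,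
      buSgn (σ j) (MvPolynomial.eval x (f j)))) = ∅ := by
      rw [Finset.filter_eq_empty_iff]
      rintro σ - ⟨x, hxl, hs⟩
      exact buSgn_ne_zero (hs j) (hj x hxl)
    rw [this]
    simp

/-- the points off the zero sets are covered by the cells -/
theorem gk_cell_cover {n J : ℕ} (f : Fin J → MvPolynomial (Fin n) ℝ) (P : Finset (Fin n → ℝ)) :
    (P.filter (fun x => ∀ j, eval x (f j) ≠ 0)).card ≤ ∑ σ : Fin J → Bool, (buCell f P σ).card := by
  refine le_trans (Finset.card_le_card ?_) Finset.card_biUnion_le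
  intro x hx
  obtain ⟨hxP, hz⟩ := Finset.mem_filter.1 hx
  refine Finset.mem_biUnion.2 ⟨fun j => decide (0 < MvPolynomial.eval x (f j)), Finset.mem_univ _,
    Finset.mem_filter.2 ⟨hxP, fun j => ?_⟩⟩
  unfold buSgn
  by_cases hp : 0 < MvPolynomial.eval x (f j)
  · simp [hp]
  · simp only [hp, decide_false, Bool.false_eq_true, if_false]
    exact lt_of_le_of_ne (not_lt.1 hp) (hz j)

theorem gk_cell_step : ∃ C : ℝ, 0 < C ∧ ∀ (L : Finset (AffineSubspace ℝ (Fin 3 → ℝ))) (k : ℕ) (r : ℝ)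
    (S : Finset (Fin 3 → ℝ)) (J : ℕ) (f : Fin J → MvPolynomial (Fin 3) ℝ),
    (∀ l ∈ L, stIsLine l) → 2 ≤ k → 1 ≤ r →
    (∀ p ∈ S, k ≤ (L.filter (fun l => p ∈ l)).card) →
    (∀ j, f j ≠ 0) → ((∑ j, (f j).totalDegree : ℕ) : ℝ) ≤ 18 * r → (2 : ℝ) ^ J ≤ r ^ 3 →
    (∀ σ : Fin J → Bool, ((buCell f S σ).card : ℝ) ≤ 8 * S.card / r ^ 3) →
    (S.card : ℝ) ≤ 2 * ((S.filter (fun x => ∀ j, eval x (f j) ≠ 0)).card : ℝ) →
    (S.card : ℝ) ≤ C * ((L.card : ℝ) ^ 2 / (r * (k : ℝ) ^ 3) + (L.card : ℝ) * r / k) := by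
  obtain ⟨Cst, hCst, hst⟩ := st_rich_points
  refine ⟨4 * 608 ^ 2 * Cst, by positivity, ?_⟩
  intro L k r S J f hL hk hr hS hf hdeg hJ hcell hhalf
  have hr0 : 0 < r := by linarith
  have hkR : (0 : ℝ) < k := by
    have : 0 < k := by omega
    exact_mod_cast this
  obtain ⟨s, hs⟩ : ∃ s : ℝ, s = S.card := ⟨_, rfl⟩
  obtain ⟨m, hm⟩ : ∃ m : ℝ, m = L.card := ⟨_, rfl⟩
  have hm0 : 0 ≤ m := by rw [hm]; exact Nat.cast_nonneg _
  have hs00 : 0 ≤ s := by rw [hs]; exact Nat.cast_nonneg _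
  rw [← hs] at hcell hhalf ⊢
  rw [← hm]
  rcases hs00.eq_or_lt with hs0 | hs0
  · rw [← hs0]
    positivity
  obtain ⟨R, hR⟩ : ∃ R : ℝ, R = r ^ 3 := ⟨_, rfl⟩
  have hR0 : 0 < R := by rw [hR]; positivity
  rw [← hR] at hJ hcell
  obtain ⟨c, hc⟩ : ∃ c : (Fin J → Bool) → ℝ, c = fun σ => ((buCell f S σ).card : ℝ) := ⟨_, rfl⟩
  have hcσ : ∀ σ, c σ = ((buCell f S σ).card : ℝ) := fun σ => by rw [hc]
  -- (1)
  have h1 : s / 2 ≤ ∑ σ, c σ := by
    have := gk_cell_cover f S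
    have h' : ((S.filter (fun x => ∀ j, eval x (f j) ≠ 0)).card : ℝ) ≤ ∑ σ, c σ := by
      simp only [hcσ]
      exact_mod_cast this
    linarith
  obtain ⟨A, hA⟩ : ∃ A : Finset (Fin J → Bool), A = Finset.univ.filter (fun σ => s / (4 * R) ≤ c σ) :=
    ⟨_, rfl⟩
  have h2 : ∑ σ, c σ = ∑ σ ∈ A, c σ +
      ∑ σ ∈ Finset.univ.filter (fun σ => ¬ s / (4 * R) ≤ c σ), c σ := by
    rw [hA, Finset.sum_filter_add_sum_filter_not]
  have h3 : ∑ σ ∈ Finset.univ.filter (fun σ => ¬ s / (4 * R) ≤ c σ), c σ ≤ s / 4 := by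
    calc ∑ σ ∈ Finset.univ.filter (fun σ => ¬ s / (4 * R) ≤ c σ), c σ
        ≤ ∑ _σ ∈ Finset.univ.filter (fun σ => ¬ s / (4 * R) ≤ c σ), s / (4 * R) := by
          apply Finset.sum_le_sum
          intro σ hσ
          exact (not_le.1 (Finset.mem_filter.1 hσ).2).le
      _ ≤ ∑ _σ : Fin J → Bool, s / (4 * R) := by
          apply Finset.sum_le_sum_of_subset_of_nonneg (Finset.filter_subset _ _)
          intro _ _ _
          positivity
      _ = (2 : ℝ) ^ J * (s / (4 * R)) := by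
          rw [Finset.sum_const, nsmul_eq_mul]
          congr 1
          simp
      _ ≤ R * (s / (4 * R)) := by
          apply mul_le_mul_of_nonneg_right hJ
          positivity
      _ = s / 4 := by
          field_simp
  have h4 : ∑ σ ∈ A, c σ ≤ (A.card : ℝ) * (8 * s / R) := by
    rw [← nsmul_eq_mul, ← Finset.sum_const]
    apply Finset.sum_le_sum
    intro σ _
    rw [hcσ]
    exact hcell σ
  have h5 : R / 32 ≤ (A.card : ℝ) := by
    have e1 : s / 4 ≤ (A.card : ℝ) * (8 * s / R) := by linarith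
    have e2 : (A.card : ℝ) * (8 * s / R) = (A.card : ℝ) * 8 / R * s := by ring
    rw [e2, div_eq_mul_inv, mul_comm s] at e1
    have e3 := le_of_mul_le_mul_right e1 hs0
    rw [le_div_iff₀ hR0] at e3
    linarith
  have hA0 : (0 : ℝ) < A.card := by
    have : 0 < R / 32 := by positivity
    linarith
  have hAne : A.Nonempty := by
    rw [← Finset.card_pos]
    exact_mod_cast hA0
  -- lines meeting a cell
  obtain ⟨Lc, hLc⟩ : ∃ Lc : (Fin J → Bool) → Finset (AffineSubspace ℝ (Fin 3 → ℝ)), Lc = fun σ =>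
    L.filter (fun l => ∃ x ∈ l, ∀ j, buSgn (σ j) (eval x (f j))) := ⟨_, rfl⟩
  have hLcσ : ∀ σ, Lc σ = L.filter (fun l => ∃ x ∈ l, ∀ j, buSgn (σ j) (eval x (f j))) :=
    fun σ => by rw [hLc]
  have h6 : ∑ σ ∈ A, ((Lc σ).card : ℝ) ≤ 19 * r * m := by
    have e0 : ∑ σ : Fin J → Bool, (Lc σ).card ≤ L.card * (∑ j, (f j).totalDegree + 1) := by
      have e : ∑ σ : Fin J → Bool, (Lc σ).card =
          ∑ l ∈ L, (Finset.univ.filter (fun σ : Fin J → Bool => ∃ x ∈ l, ∀ j,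
            buSgn (σ j) (MvPolynomial.eval x (f j)))).card := by
        simp only [hLcσ, Finset.card_filter]
        rw [Finset.sum_comm]
      rw [e, ← smul_eq_mul, ← Finset.sum_const]
      exact Finset.sum_le_sum fun l hl => gk_cells f l (hL l hl)
    have e1 : ∑ σ : Fin J → Bool, ((Lc σ).card : ℝ) ≤
        m * (((∑ j, (f j).totalDegree : ℕ) : ℝ) + 1) := by
      rw [hm]
      exact_mod_cast e0
    calc ∑ σ ∈ A, ((Lc σ).card : ℝ) ≤ ∑ σ : Fin J → Bool, ((Lc σ).card : ℝ) := by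
          apply Finset.sum_le_sum_of_subset_of_nonneg (Finset.subset_univ _)
          intro _ _ _
          positivity
      _ ≤ m * (((∑ j, (f j).totalDegree : ℕ) : ℝ) + 1) := e1
      _ ≤ m * (19 * r) := by
          apply mul_le_mul_of_nonneg_left _ hm0
          linarith
      _ = 19 * r * m := by ring
  obtain ⟨σ, hσA, hσ⟩ : ∃ σ ∈ A, ((Lc σ).card : ℝ) ≤ 19 * r * m / A.card := by
    apply Finset.exists_le_of_sum_le hAne
    rw [Finset.sum_const, nsmul_eq_mul]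
    rw [mul_div_assoc', mul_comm, mul_div_assoc, div_self hA0.ne', mul_one]
    exact h6
  have h7 : ((Lc σ).card : ℝ) ≤ 608 * m / r ^ 2 := by
    refine hσ.trans ?_
    rw [div_le_div_iff₀ hA0 (by positivity)]
    have : 19 * r * m * r ^ 2 = 608 * m * (R / 32) := by
      rw [hR]
      ring
    rw [this]
    apply mul_le_mul_of_nonneg_left h5
    positivity
  have h8 := hst (Fin 3 → ℝ) (Lc σ) k (buCell f S σ)
    (fun l hl => by
      rw [hLcσ] at hl
      exact hL l (Finset.mem_filter.1 hl).1) hk (by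
      intro p hp
      obtain ⟨hpS, hpσ⟩ := Finset.mem_filter.1 hp
      refine (hS p hpS).trans (Finset.card_le_card ?_)
      intro l hl
      obtain ⟨hlL, hpl⟩ := Finset.mem_filter.1 hl
      rw [hLcσ]
      exact Finset.mem_filter.2 ⟨Finset.mem_filter.2 ⟨hlL, p, hpl, hpσ⟩, hpl⟩)
  have h9 : s / (4 * R) ≤ c σ := by
    rw [hA] at hσA
    exact (Finset.mem_filter.1 hσA).2
  rw [hcσ] at h9
  have hc0 : (0 : ℝ) ≤ (Lc σ).card := Nat.cast_nonneg _
  have h10 : ((Lc σ).card : ℝ) ^ 2 / (k : ℝ) ^ 3 ≤ (608 * m / r ^ 2) ^ 2 / (k : ℝ) ^ 3 := by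
    apply div_le_div_of_nonneg_right (pow_le_pow_left₀ hc0 h7 2)
    positivity
  have h11 : ((Lc σ).card : ℝ) / (k : ℝ) ≤ (608 * m / r ^ 2) / (k : ℝ) :=
    div_le_div_of_nonneg_right h7 hkR.le
  have h12 : s / (4 * R) ≤ Cst * ((608 * m / r ^ 2) ^ 2 / (k : ℝ) ^ 3 + (608 * m / r ^ 2) / (k : ℝ)) := by
    refine h9.trans (h8.trans ?_)
    apply mul_le_mul_of_nonneg_left _ hCst.le
    linarith
  rw [div_le_iff₀ (by positivity)] at h12
  refine h12.trans ?_
  rw [hR]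
  have e1 : Cst * ((608 * m / r ^ 2) ^ 2 / (k : ℝ) ^ 3 + (608 * m / r ^ 2) / (k : ℝ)) * (4 * r ^ 3) =
      4 * 608 ^ 2 * Cst * (m ^ 2 / (r * (k : ℝ) ^ 3)) + 4 * 608 * Cst * (m * r / k) := by
    field_simp
  rw [e1, mul_add]
  have : 0 ≤ Cst * (m * r / k) := by positivity
  nlinarith

theorem gk_rich_points : ∃ C : ℝ, 1 ≤ C ∧ ∀ (L : Finset (AffineSubspace ℝ (Fin 3 → ℝ))) (B₀ : ℝ)
    (k : ℕ) (r : ℝ) (S : Finset (Fin 3 → ℝ)),
    (∀ l ∈ L, stIsLine l) →
    (∀ (ν : Fin 3 → ℝ) (β : ℝ), ν ≠ 0 →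
      ((L.filter (fun l => ∀ x ∈ l, ν ⬝ᵥ x = β)).card : ℝ) ≤ B₀) →
    1 ≤ r → C * r ≤ k →
    (∀ p ∈ S, k ≤ (L.filter (fun l => p ∈ l)).card) →
    (S.card : ℝ) ≤ C * ((L.card : ℝ) ^ 2 / (r * (k : ℝ) ^ 3) + (L.card : ℝ) * r / k
      + r ^ 2 * (B₀ ^ 2 / (k : ℝ) ^ 3 + B₀ / k)) := by
  obtain ⟨C1, hC1, hstep⟩ := gk_cell_step
  obtain ⟨Cs, hCs, hsurf⟩ := gk_surface
  refine ⟨80 + C1 + 72 + 5184 * Cs, by nlinarith, ?_⟩
  intro L B₀ k r S hL hB hr hkr hS
  have hr0 : 0 < r := by linarith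
  have hB0 : 0 ≤ B₀ := le_trans (Nat.cast_nonneg _)
    (hB (fun _ => 1) 0 (fun h => one_ne_zero (congrFun h 0)))
  have hk80 : 80 * r ≤ k := by
    refine le_trans ?_ hkr
    apply mul_le_mul_of_nonneg_right _ hr0.le
    nlinarith
  have hkR : (0 : ℝ) < k := by linarith
  have hk2 : 2 ≤ k := by
    have : (2 : ℝ) ≤ k := by linarith
    exact_mod_cast this
  obtain ⟨m, hm⟩ : ∃ m : ℝ, m = L.card := ⟨_, rfl⟩
  have hm0 : 0 ≤ m := by rw [hm]; exact Nat.cast_nonneg _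
  rw [← hm]
  have t1 : 0 ≤ m ^ 2 / (r * (k : ℝ) ^ 3) := by positivity
  have t2 : 0 ≤ m * r / k := by positivity
  have t3 : 0 ≤ r ^ 2 * (B₀ ^ 2 / (k : ℝ) ^ 3 + B₀ / k) := by positivity
  obtain ⟨J, f, hf, hdeg, hJ, hcell⟩ := bu_partition_real 3 S r hr
  have hdeg' : ((∑ j, (f j).totalDegree : ℕ) : ℝ) ≤ 18 * r := by
    refine hdeg.trans (le_of_eq ?_)
    norm_num
  by_cases hhalf : (S.card : ℝ) ≤ 2 * ((S.filter (fun x => ∀ j, eval x (f j) ≠ 0)).card : ℝ)
  · have h1 := hstep L k r S J f hL hk2 hr hS hf hdeg' hJ (fun σ => by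
      refine (hcell σ).trans (le_of_eq ?_)
      norm_num) hhalf
    rw [← hm] at h1
    refine h1.trans ?_
    nlinarith
  · push Not at hhalf
    obtain ⟨F, hF⟩ : ∃ F : MvPolynomial (Fin 3) ℝ, F = ∏ j, f j := ⟨_, rfl⟩
    have hF0 : F ≠ 0 := by
      rw [hF]
      exact Finset.prod_ne_zero_iff.2 fun j _ => hf j
    obtain ⟨D, hD⟩ : ∃ D, D = F.totalDegree := ⟨_, rfl⟩
    have hD18 : (D : ℝ) ≤ 18 * r := by
      refine le_trans ?_ hdeg'
      rw [hD, hF]
      exact_mod_cast totalDegree_finsetProd _ _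
    obtain ⟨SZ, hSZ⟩ : ∃ SZ, SZ = S.filter (fun x => ¬ ∀ j, eval x (f j) ≠ 0) := ⟨_, rfl⟩
    have hSZF : ∀ p ∈ SZ, p ∈ S ∧ eval p F = 0 := by
      intro p hp
      rw [hSZ] at hp
      obtain ⟨hpS, hp2⟩ := Finset.mem_filter.1 hp
      push Not at hp2
      obtain ⟨j, hj⟩ := hp2
      refine ⟨hpS, ?_⟩
      rw [hF, map_prod]
      exact Finset.prod_eq_zero (Finset.mem_univ j) hj
    have hcard : S.card = (S.filter (fun x => ∀ j, eval x (f j) ≠ 0)).card + SZ.card := by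
      rw [hSZ, Finset.card_filter_add_card_filter_not]
    have hSSZ : (S.card : ℝ) ≤ 2 * SZ.card := by
      have : (S.card : ℝ) = ((S.filter (fun x => ∀ j, eval x (f j) ≠ 0)).card : ℝ) + SZ.card := by
        exact_mod_cast hcard
      linarith
    obtain ⟨Z1, hZ1⟩ : ∃ Z1, Z1 = SZ.filter (fun p =>
      k ≤ 2 * (L.filter (fun l => p ∈ l ∧ ¬ ∀ x ∈ l, eval x F = 0)).card) := ⟨_, rfl⟩
    obtain ⟨Z2, hZ2⟩ : ∃ Z2, Z2 = SZ.filter (fun p =>
      ¬ k ≤ 2 * (L.filter (fun l => p ∈ l ∧ ¬ ∀ x ∈ l, eval x F = 0)).card) := ⟨_, rfl⟩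
    have hcardZ : SZ.card = Z1.card + Z2.card := by
      rw [hZ1, hZ2, Finset.card_filter_add_card_filter_not]
    have h1 : Z1.card * k ≤ 2 * (L.card * D) := by
      calc Z1.card * k = ∑ _p ∈ Z1, k := by rw [Finset.sum_const, smul_eq_mul]
        _ ≤ ∑ p ∈ Z1, 2 * (L.filter (fun l => p ∈ l ∧ ¬ ∀ x ∈ l, eval x F = 0)).card := by
            apply Finset.sum_le_sum
            intro p hp
            rw [hZ1] at hp
            exact (Finset.mem_filter.1 hp).2
        _ ≤ ∑ p ∈ SZ, 2 * (L.filter (fun l => p ∈ l ∧ ¬ ∀ x ∈ l, eval x F = 0)).card := by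
            apply Finset.sum_le_sum_of_subset
            rw [hZ1]
            exact Finset.filter_subset _ _
        _ = 2 * ∑ l ∈ L, (SZ.filter (fun p => p ∈ l ∧ ¬ ∀ x ∈ l, eval x F = 0)).card := by
            rw [← Finset.mul_sum]
            congr 1
            simp only [Finset.card_filter]
            rw [Finset.sum_comm]
        _ ≤ 2 * ∑ _l ∈ L, D := by
            apply Nat.mul_le_mul_left
            apply Finset.sum_le_sum
            intro l hl
            by_cases hin : ∀ x ∈ l, eval x F = 0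
            · have : SZ.filter (fun p => p ∈ l ∧ ¬ ∀ x ∈ l, eval x F = 0) = ∅ := by
                rw [Finset.filter_eq_empty_iff]
                rintro p - ⟨-, h2⟩
                exact h2 hin
              rw [this]
              simp
            · have hin' := hin
              push Not at hin'
              rw [hD]
              refine le_trans (Finset.card_le_card ?_) (gk_zeros F l (hL l hl) hin' SZ)
              intro p hp
              obtain ⟨hpZ, hpl, -⟩ := Finset.mem_filter.1 hp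
              exact Finset.mem_filter.2 ⟨hpZ, hpl, (hSZF p hpZ).2⟩
        _ = 2 * (L.card * D) := by rw [Finset.sum_const, smul_eq_mul]
    have h1' : (Z1.card : ℝ) ≤ 36 * (m * r / k) := by
      have e : (Z1.card : ℝ) * k ≤ 2 * (m * D) := by
        rw [hm]
        exact_mod_cast h1
      rw [← mul_div_assoc, le_div_iff₀ hkR]
      refine e.trans ?_
      have : m * D ≤ m * (18 * r) := mul_le_mul_of_nonneg_left hD18 hm0
      linarith
    -- the lines inside the surface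
    obtain ⟨k', hk'⟩ : ∃ k', k' = (k + 1) / 2 := ⟨_, rfl⟩
    have hkk : k ≤ 2 * k' := by omega
    have hkk' : (k : ℝ) ≤ 2 * k' := by exact_mod_cast hkk
    have hk'R : (0 : ℝ) < k' := by linarith
    obtain ⟨Lin, hLin⟩ : ∃ Lin, Lin = L.filter (fun l => ∀ x ∈ l, eval x F = 0) := ⟨_, rfl⟩
    have hLinm : (Lin.card : ℝ) ≤ m := by
      rw [hm, hLin]
      exact_mod_cast Finset.card_le_card (Finset.filter_subset _ _)
    have h2 := hsurf F Lin B₀ k' Z2 hF0
      (fun l hl => by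
        rw [hLin] at hl
        obtain ⟨h1, h2⟩ := Finset.mem_filter.1 hl
        exact ⟨hL l h1, h2⟩)
      (fun ν β hν => by
        refine le_trans ?_ (hB ν β hν)
        rw [hLin]
        exact_mod_cast Finset.card_le_card (Finset.filter_subset_filter _ (Finset.filter_subset _ _)))
      (by
        rw [← hD]
        have : ((2 * D : ℕ) : ℝ) < (k' : ℝ) := by
          push_cast
          linarith
        exact_mod_cast this)
      (by
        intro p hp
        rw [hZ2] at hp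
        obtain ⟨hpZ, hp2⟩ := Finset.mem_filter.1 hp
        have e1 := hS p (hSZF p hpZ).1
        have e2 : (L.filter (fun l => p ∈ l)).card =
            (Lin.filter (fun l => p ∈ l)).card +
            (L.filter (fun l => p ∈ l ∧ ¬ ∀ x ∈ l, eval x F = 0)).card := by
          rw [← Finset.card_filter_add_card_filter_not (s := L.filter (fun l => p ∈ l))
              (fun l => ∀ x ∈ l, eval x F = 0), Finset.filter_filter, Finset.filter_filter, hLin,
              Finset.filter_filter]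
          congr 2
          ext l
          simp only [Finset.mem_filter]
          tauto
        omega)
    rw [← hD] at h2
    have hc0 : (0 : ℝ) ≤ Lin.card := Nat.cast_nonneg _
    have hD0 : (0 : ℝ) ≤ D := Nat.cast_nonneg _
    have a1 : (Lin.card : ℝ) * D / k' ≤ 36 * (m * r / k) := by
      rw [← mul_div_assoc, div_le_div_iff₀ hk'R hkR]
      calc (Lin.card : ℝ) * D * k ≤ m * (18 * r) * (2 * k') :=
            mul_le_mul (mul_le_mul hLinm hD18 hD0 hm0) hkk' hkR.le (by positivity)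
        _ = 36 * (m * r) * k' := by ring
    have a2 : B₀ ^ 2 / (k' : ℝ) ^ 3 ≤ 8 * (B₀ ^ 2 / (k : ℝ) ^ 3) := by
      rw [← mul_div_assoc, div_le_div_iff₀ (by positivity) (by positivity)]
      have : (k : ℝ) ^ 3 ≤ (2 * k') ^ 3 := pow_le_pow_left₀ hkR.le hkk' 3
      calc B₀ ^ 2 * (k : ℝ) ^ 3 ≤ B₀ ^ 2 * (2 * k') ^ 3 :=
            mul_le_mul_of_nonneg_left this (by positivity)
        _ = 8 * B₀ ^ 2 * (k' : ℝ) ^ 3 := by ring
    have a3 : B₀ / (k' : ℝ) ≤ 8 * (B₀ / (k : ℝ)) := by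
      rw [← mul_div_assoc, div_le_div_iff₀ (by positivity) (by positivity)]
      nlinarith
    have a4 : (D : ℝ) ^ 2 * (B₀ ^ 2 / (k' : ℝ) ^ 3 + B₀ / k') ≤
        2592 * (r ^ 2 * (B₀ ^ 2 / (k : ℝ) ^ 3 + B₀ / k)) := by
      have b1 : (D : ℝ) ^ 2 ≤ (18 * r) ^ 2 := pow_le_pow_left₀ hD0 hD18 2
      calc (D : ℝ) ^ 2 * (B₀ ^ 2 / (k' : ℝ) ^ 3 + B₀ / k')
          ≤ (18 * r) ^ 2 * (8 * (B₀ ^ 2 / (k : ℝ) ^ 3) + 8 * (B₀ / (k : ℝ))) :=
            mul_le_mul b1 (by linarith) (by positivity) (by positivity)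
        _ = 2592 * (r ^ 2 * (B₀ ^ 2 / (k : ℝ) ^ 3 + B₀ / k)) := by ring
    have h3 : (Z2.card : ℝ) ≤ Cs * (36 * (m * r / k) +
        2592 * (r ^ 2 * (B₀ ^ 2 / (k : ℝ) ^ 3 + B₀ / k))) := by
      refine h2.trans ?_
      apply mul_le_mul_of_nonneg_left _ hCs.le
      linarith
    have h4 : (SZ.card : ℝ) = Z1.card + Z2.card := by exact_mod_cast hcardZ
    generalize m ^ 2 / (r * (k : ℝ) ^ 3) = X1 at *
    generalize m * r / k = X2 at *
    generalize r ^ 2 * (B₀ ^ 2 / (k : ℝ) ^ 3 + B₀ / k) = X3 at *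
    have u1 : 0 ≤ Cs * X1 := by positivity
    have u2 : 0 ≤ Cs * X2 := by positivity
    have u3 : 0 ≤ C1 * (X1 + X2 + X3) := by positivity
    have e : (80 + C1 + 72 + 5184 * Cs) * (X1 + X2 + X3) =
        152 * (X1 + X2 + X3) + C1 * (X1 + X2 + X3) + 5184 * (Cs * X1) + 5184 * (Cs * X2)
          + 5184 * (Cs * X3) := by ring
    rw [e]
    have e2 : Cs * (36 * X2 + 2592 * X3) = 36 * (Cs * X2) + 2592 * (Cs * X3) := by ring
    rw [e2] at h3
    linarith

end Claimed.Agent.R273
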