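/-
LIB-GK (row273), part 3: planar motions with many matches (ci:planar-motions, with the extra
hypothesis `C (uv)^{1/4} ≤ k`, which holds in its only application, motions.tex l.485).
Sorry-free (helper62).
-/
import Claimed.Agent.R273.GkRich
import Claimed.Agent.R273.Top

set_option autoImplicit false

namespace Claimed.Agent.R273

open scoped Classical
open scoped RealInnerProductSpace

noncomputable def gkCayleyPt (x y : ℂ) (t : ℝ) : Fin 3 → ℝ :=
  ![t, ((x - y) / 2 - Complex.I * t * ((x + y) / 2)).re,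
    ((x - y) / 2 - Complex.I * t * ((x + y) / 2)).im]

theorem gk_pt0 (x y : ℂ) (t : ℝ) : gkCayleyPt x y t 0 = t := rfl

theorem gk_pt1 (x y : ℂ) (t : ℝ) : gkCayleyPt x y t 1 = (x.re - y.re) / 2 + t * (x.im + y.im) / 2 := by
  simp [gkCayleyPt]
  ring

theorem gk_pt2 (x y : ℂ) (t : ℝ) : gkCayleyPt x y t 2 = (x.im - y.im) / 2 - t * (x.re + y.re) / 2 := by
  simp [gkCayleyPt]
  ring

theorem gk_pt_affine (x y : ℂ) (t : ℝ) :
    gkCayleyPt x y t = gkCayleyPt x y 0 + t • (gkCayleyPt x y 1 - gkCayleyPt x y 0) := by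
  funext i
  fin_cases i
  · simp [gk_pt0]
  · simp only [Fin.mk_one, Pi.add_apply, Pi.smul_apply, Pi.sub_apply, gk_pt1, smul_eq_mul]
    ring
  · simp only [Fin.reduceFinMk, Pi.add_apply, Pi.smul_apply, Pi.sub_apply, gk_pt2, smul_eq_mul]
    ring

theorem gk_cayley_lines : ∃ Λ : ℂ × ℂ → AffineSubspace ℝ (Fin 3 → ℝ),
    (∀ z, stIsLine (Λ z)) ∧ Function.Injective Λ ∧
    ∀ z p, p ∈ Λ z ↔ ∃ t : ℝ, p = gkCayleyPt z.1 z.2 t := by
  have hne : ∀ z : ℂ × ℂ, gkCayleyPt z.1 z.2 0 ≠ gkCayleyPt z.1 z.2 1 := by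
    intro z h
    have := congrFun h 0
    rw [gk_pt0, gk_pt0] at this
    exact zero_ne_one this
  have hmem : ∀ (z : ℂ × ℂ) p, p ∈ line[ℝ, gkCayleyPt z.1 z.2 0, gkCayleyPt z.1 z.2 1] ↔
      ∃ t : ℝ, p = gkCayleyPt z.1 z.2 t := by
    intro z p
    obtain ⟨h1, h2, h3⟩ := st_line_through _ _ (hne z)
    rw [st_line_two _ h1 _ _ (hne z) h2 h3 p]
    constructor
    · rintro ⟨c, rfl⟩
      exact ⟨c, (gk_pt_affine _ _ _).symm⟩
    · rintro ⟨c, rfl⟩
      exact ⟨c, gk_pt_affine _ _ _⟩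
  refine ⟨fun z => line[ℝ, gkCayleyPt z.1 z.2 0, gkCayleyPt z.1 z.2 1],
    fun z => (st_line_through _ _ (hne z)).1, ?_, hmem⟩
  intro z z' hzz
  have hzz' : line[ℝ, gkCayleyPt z.1 z.2 0, gkCayleyPt z.1 z.2 1] =
    line[ℝ, gkCayleyPt z'.1 z'.2 0, gkCayleyPt z'.1 z'.2 1] := hzz
  have key : ∀ t : ℝ, gkCayleyPt z.1 z.2 t = gkCayleyPt z'.1 z'.2 t := by
    intro t
    have h1 : gkCayleyPt z.1 z.2 t ∈ line[ℝ, gkCayleyPt z.1 z.2 0, gkCayleyPt z.1 z.2 1] :=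
      (hmem z _).2 ⟨t, rfl⟩
    rw [hzz'] at h1
    obtain ⟨t', ht'⟩ := (hmem z' _).1 h1
    have := congrFun ht' 0
    rw [gk_pt0, gk_pt0] at this
    rw [ht', this]
  have a1 := congrFun (key 0) 1
  have a2 := congrFun (key 0) 2
  have b1 := congrFun (key 1) 1
  have b2 := congrFun (key 1) 2
  rw [gk_pt1, gk_pt1] at a1 b1
  rw [gk_pt2, gk_pt2] at a2 b2
  apply Prod.ext
  · apply Complex.ext
    · linarith
    · linarith
  · apply Complex.ext
    · linarith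
    · linarith

theorem gk_cayley_chart : ∃ Φ : ℂ × ℂ → (Fin 3 → ℝ),
    (∀ g g' : ℂ × ℂ, ‖g.1‖ = 1 → g.1 ≠ -1 → ‖g'.1‖ = 1 → g'.1 ≠ -1 → Φ g = Φ g' → g = g') ∧
    ∀ (g : ℂ × ℂ), ‖g.1‖ = 1 → g.1 ≠ -1 → ∀ x y : ℂ,
      g.1 * x + g.2 = y → Φ g = gkCayleyPt x y (Φ g 0) := by
  -- `t = - b / (1 + a)`, `c = - τ (1 + i t) / 2`
  have hsq : ∀ ω : ℂ, ‖ω‖ = 1 → ω.re * ω.re + ω.im * ω.im = 1 := by
    intro ω h
    have := Complex.normSq_eq_norm_sq ω
    rw [h, Complex.normSq_apply] at this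
    linarith
  have ha : ∀ ω : ℂ, ‖ω‖ = 1 → ω ≠ -1 → 1 + ω.re ≠ 0 := by
    intro ω h hne h0
    apply hne
    have h1 := hsq ω h
    have hre : ω.re = -1 := by linarith
    have him : ω.im = 0 := by
      rw [hre] at h1
      have : ω.im * ω.im = 0 := by linarith
      exact mul_self_eq_zero.1 this
    apply Complex.ext
    · simp [hre]
    · simp [him]
  refine ⟨fun g => ![- g.1.im / (1 + g.1.re),
    (- g.2.re - g.2.im * (g.1.im / (1 + g.1.re))) / 2,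
    (- g.2.im + g.2.re * (g.1.im / (1 + g.1.re))) / 2], ?_, ?_⟩
  · intro g g' h1 h2 h1' h2' hΦ
    have e0 := congrFun hΦ 0
    have e1 := congrFun hΦ 1
    have e2 := congrFun hΦ 2
    simp only [Matrix.cons_val_zero, Matrix.cons_val_one, Matrix.cons_val] at e0 e1 e2
    obtain ⟨s, hs⟩ : ∃ s : ℝ, s = g.1.im / (1 + g.1.re) := ⟨_, rfl⟩
    have hs' : s = g'.1.im / (1 + g'.1.re) := by
      rw [neg_div, neg_div] at e0
      rw [hs]
      linarith
    rw [← hs, ← hs'] at e1 e2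
    have hpos : (0 : ℝ) < 1 + s ^ 2 := by positivity
    have hform : ∀ ω : ℂ, ‖ω‖ = 1 → ω ≠ -1 → s = ω.im / (1 + ω.re) →
        ω.re = (1 - s ^ 2) / (1 + s ^ 2) ∧ ω.im = s * (1 + ω.re) := by
      intro ω h hne hsω
      have hb : ω.im = s * (1 + ω.re) := by
        rw [hsω]
        field_simp [ha ω h hne]
      refine ⟨?_, hb⟩
      have h3 : (1 + ω.re) * (ω.re * (1 + s ^ 2) - (1 - s ^ 2)) = 0 := by
        have := hsq ω h
        rw [hb] at this
        linear_combination this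
      rcases mul_eq_zero.1 h3 with h4 | h4
      · exact absurd h4 (ha ω h hne)
      · rw [eq_div_iff hpos.ne']
        linarith
    obtain ⟨r1, i1⟩ := hform g.1 h1 h2 hs
    obtain ⟨r2, i2⟩ := hform g'.1 h1' h2' hs'
    have d1 : (g.2.re - g'.2.re) + s * (g.2.im - g'.2.im) = 0 := by linarith
    have d2 : (g.2.im - g'.2.im) - s * (g.2.re - g'.2.re) = 0 := by linarith
    have d3 : (1 + s ^ 2) * (g.2.re - g'.2.re) = 0 := by linear_combination d1 - s * d2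
    have d4 : (1 + s ^ 2) * (g.2.im - g'.2.im) = 0 := by linear_combination d2 + s * d1
    have d5 := (mul_eq_zero.1 d3).resolve_left hpos.ne'
    have d6 := (mul_eq_zero.1 d4).resolve_left hpos.ne'
    apply Prod.ext
    · apply Complex.ext
      · rw [r1, r2]
      · rw [i1, i2, r1, r2]
    · apply Complex.ext
      · linarith
      · linarith
  · intro g h1 h2 x y hy
    have h3 := ha g.1 h1 h2
    have h4 := hsq g.1 h1
    subst hy
    funext i
    fin_cases i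
    · simp [gk_pt0]
    · simp only [Fin.mk_one, gk_pt1, Matrix.cons_val_zero, Matrix.cons_val_one, Complex.add_re,
        Complex.mul_re, Complex.add_im, Complex.mul_im]
      field_simp
      linear_combination (x.re) * h4
    · simp only [Fin.reduceFinMk, gk_pt2, Matrix.cons_val_zero, Matrix.cons_val, Complex.add_re,
        Complex.mul_re, Complex.add_im, Complex.mul_im]
      field_simp
      linear_combination (x.im) * h4

theorem gk_cayley_plane_cap (U V : Finset ℂ) (ν : Fin 3 → ℝ) (β : ℝ) (hν : ν ≠ 0) :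
    (((U ×ˢ V).filter (fun z => ∀ t : ℝ, ν ⬝ᵥ gkCayleyPt z.1 z.2 t = β)).card ≤ U.card) ∧
    (((U ×ˢ V).filter (fun z => ∀ t : ℝ, ν ⬝ᵥ gkCayleyPt z.1 z.2 t = β)).card ≤ V.card) := by
  have hcond : ∀ z : ℂ × ℂ, (∀ t : ℝ, ν ⬝ᵥ gkCayleyPt z.1 z.2 t = β) →
      ν 1 * (z.1.re - z.2.re) + ν 2 * (z.1.im - z.2.im) = 2 * β ∧
      2 * ν 0 + ν 1 * (z.1.im + z.2.im) - ν 2 * (z.1.re + z.2.re) = 0 := by
    intro z hz
    have h0 := hz 0
    have h1 := hz 1
    rw [pk_dot3, gk_pt0, gk_pt1, gk_pt2] at h0 h1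
    constructor
    · linarith
    · linarith
  have hpos : ∀ z : ℂ × ℂ, (∀ t : ℝ, ν ⬝ᵥ gkCayleyPt z.1 z.2 t = β) →
      ν 1 ^ 2 + ν 2 ^ 2 ≠ 0 := by
    intro z hz h0
    have h1 : ν 1 = 0 := by nlinarith [sq_nonneg (ν 1), sq_nonneg (ν 2)]
    have h2 : ν 2 = 0 := by nlinarith [sq_nonneg (ν 1), sq_nonneg (ν 2)]
    have h3 := (hcond z hz).2
    rw [h1, h2] at h3
    apply hν
    funext i
    fin_cases i
    · simp
      linarith
    · simpa using h1
    · simpa using h2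
  constructor
  · apply Finset.card_le_card_of_injOn (fun z => z.1)
    · intro z hz
      exact (Finset.mem_product.1 (Finset.mem_filter.1 (Finset.mem_coe.1 hz)).1).1
    · intro z hz z' hz' hzz
      have hzz' : z.1 = z'.1 := hzz
      have c1 := (Finset.mem_filter.1 (Finset.mem_coe.1 hz)).2
      have c2 := (Finset.mem_filter.1 (Finset.mem_coe.1 hz')).2
      obtain ⟨a1, a2⟩ := hcond z c1
      obtain ⟨b1, b2⟩ := hcond z' c2
      have hp := hpos z c1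
      rw [hzz'] at a1 a2
      have d1 : (ν 1 ^ 2 + ν 2 ^ 2) * (z.2.re - z'.2.re) = 0 := by
        linear_combination (-ν 1) * (a1 - b1) - ν 2 * (a2 - b2)
      have d2 : (ν 1 ^ 2 + ν 2 ^ 2) * (z.2.im - z'.2.im) = 0 := by
        linear_combination (-ν 2) * (a1 - b1) + ν 1 * (a2 - b2)
      have d3 := (mul_eq_zero.1 d1).resolve_left hp
      have d4 := (mul_eq_zero.1 d2).resolve_left hp
      apply Prod.ext hzz'
      apply Complex.ext
      · linarith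
      · linarith
  · apply Finset.card_le_card_of_injOn (fun z => z.2)
    · intro z hz
      exact (Finset.mem_product.1 (Finset.mem_filter.1 (Finset.mem_coe.1 hz)).1).2
    · intro z hz z' hz' hzz
      have hzz' : z.2 = z'.2 := hzz
      have c1 := (Finset.mem_filter.1 (Finset.mem_coe.1 hz)).2
      have c2 := (Finset.mem_filter.1 (Finset.mem_coe.1 hz')).2
      obtain ⟨a1, a2⟩ := hcond z c1
      obtain ⟨b1, b2⟩ := hcond z' c2
      have hp := hpos z c1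
      rw [hzz'] at a1 a2
      have d1 : (ν 1 ^ 2 + ν 2 ^ 2) * (z.1.re - z'.1.re) = 0 := by
        linear_combination (ν 1) * (a1 - b1) - ν 2 * (a2 - b2)
      have d2 : (ν 1 ^ 2 + ν 2 ^ 2) * (z.1.im - z'.1.im) = 0 := by
        linear_combination (ν 2) * (a1 - b1) + ν 1 * (a2 - b2)
      have d3 := (mul_eq_zero.1 d1).resolve_left hp
      have d4 := (mul_eq_zero.1 d2).resolve_left hp
      refine Prod.ext ?_ hzz'
      apply Complex.ext
      · linarith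
      · linarith

theorem gk_direct_motions : ∃ C : ℝ, 0 < C ∧ ∀ (U V : Finset ℂ) (k : ℕ), 1 ≤ k →
    C * ((U.card : ℝ) * V.card) ^ ((1 : ℝ) / 4) ≤ k → k ≤ U.card → k ≤ V.card →
    ∀ 𝒢 : Finset (ℂ × ℂ),
      (∀ g ∈ 𝒢, ‖g.1‖ = 1 ∧ k ≤ (U.filter (fun x => g.1 * x + g.2 ∈ V)).card) →
      (𝒢.card : ℝ) ≤ C * ((U.card : ℝ) * V.card) ^ ((3 : ℝ) / 2) / (k : ℝ) ^ 2 := by
  obtain ⟨C0, hC0, hrich⟩ := gk_rich_points
  obtain ⟨Λ, hΛl, hΛi, hΛm⟩ := gk_cayley_lines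
  obtain ⟨Φ, hΦi, hΦm⟩ := gk_cayley_chart
  refine ⟨1 + 4 * C0, by positivity, ?_⟩
  intro U V k hk hCk hkU hkV 𝒢 h𝒢
  obtain ⟨m, hm⟩ : ∃ m : ℝ, m = (U.card : ℝ) * V.card := ⟨_, rfl⟩
  rw [← hm] at hCk ⊢
  have hm0 : 0 ≤ m := by rw [hm]; positivity
  obtain ⟨q, hq⟩ : ∃ q : ℝ, q = m ^ ((1:ℝ)/4) := ⟨_, rfl⟩
  have hq0 : 0 ≤ q := by rw [hq]; positivity
  have hq4 : q ^ 4 = m := by
    rw [hq, ← Real.rpow_natCast, ← Real.rpow_mul hm0]
    norm_num
  have h32 : m ^ ((3:ℝ)/2) = q ^ 6 := by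
    rw [hq, ← Real.rpow_natCast, ← Real.rpow_mul hm0]
    norm_num
  rw [h32]
  rw [← hq] at hCk
  obtain ⟨κ, hκ⟩ : ∃ κ : ℝ, κ = (k : ℝ) := ⟨_, rfl⟩
  have hκ1 : 1 ≤ κ := by rw [hκ]; exact_mod_cast hk
  have hκ0 : 0 < κ := by linarith
  have hκm : κ ^ 2 ≤ m := by
    rw [hm, hκ, sq]
    apply mul_le_mul _ _ (by positivity) (by positivity)
    · exact_mod_cast hkU
    · exact_mod_cast hkV
  have hκq : κ ≤ q ^ 2 := by
    apply le_of_sq_le_sq _ (by positivity)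
    calc κ ^ 2 ≤ m := hκm
      _ = (q ^ 2) ^ 2 := by rw [← hq4]; ring
  have hqpos : 0 < q := by
    rcases hq0.eq_or_lt with h | h
    · rw [← h] at hκq
      norm_num at hκq
      linarith
    · exact h
  -- matches as pairs
  obtain ⟨T, hT⟩ : ∃ T : ℂ × ℂ → Finset (ℂ × ℂ), T = fun g =>
    (U ×ˢ V).filter (fun z => g.1 * z.1 + g.2 = z.2) := ⟨_, rfl⟩
  have hTmem : ∀ g z, z ∈ T g ↔ (z.1 ∈ U ∧ z.2 ∈ V) ∧ g.1 * z.1 + g.2 = z.2 := by
    intro g z
    rw [hT, Finset.mem_filter, Finset.mem_product]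
  have hTk : ∀ g ∈ 𝒢, k ≤ (T g).card := by
    intro g hg
    refine (h𝒢 g hg).2.trans ?_
    apply Finset.card_le_card_of_injOn (fun x => (x, g.1 * x + g.2))
    · intro x hx
      obtain ⟨h1, h2⟩ := Finset.mem_filter.1 (Finset.mem_coe.1 hx)
      exact Finset.mem_coe.2 ((hTmem g _).2 ⟨⟨h1, h2⟩, rfl⟩)
    · intro x _ x' _ h
      exact (Prod.ext_iff.1 h).1
  -- half turns
  have hminus : ((𝒢.filter (fun g => g.1 = -1)).card : ℝ) ≤ q ^ 6 / κ ^ 2 := by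
    have h1 : (𝒢.filter (fun g => g.1 = -1)).card * k ≤ U.card * V.card := by
      calc (𝒢.filter (fun g => g.1 = -1)).card * k
          = ∑ _g ∈ 𝒢.filter (fun g => g.1 = -1), k := by rw [Finset.sum_const, smul_eq_mul]
        _ ≤ ∑ g ∈ 𝒢.filter (fun g => g.1 = -1), (T g).card :=
            Finset.sum_le_sum fun g hg => hTk g (Finset.mem_filter.1 hg).1
        _ = ((𝒢.filter (fun g => g.1 = -1)).biUnion T).card := by
            rw [Finset.card_biUnion]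
            intro g hg g' hg' hne
            show Disjoint (T g) (T g')
            rw [Finset.disjoint_left]
            intro z hz hz'
            apply hne
            have e1 := ((hTmem g z).1 hz).2
            have e2 := ((hTmem g' z).1 hz').2
            have f1 := (Finset.mem_filter.1 (Finset.mem_coe.1 hg)).2
            have f2 := (Finset.mem_filter.1 (Finset.mem_coe.1 hg')).2
            apply Prod.ext
            · rw [f1, f2]
            · rw [f1] at e1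
              rw [f2] at e2
              linear_combination e1 - e2
        _ ≤ (U ×ˢ V).card := by
            apply Finset.card_le_card
            intro z hz
            obtain ⟨g, -, hzg⟩ := Finset.mem_biUnion.1 hz
            exact Finset.mem_product.2 ((hTmem g z).1 hzg).1
        _ = U.card * V.card := Finset.card_product _ _
    have h2 : ((𝒢.filter (fun g => g.1 = -1)).card : ℝ) * κ ≤ m := by
      rw [hm, hκ]
      exact_mod_cast h1
    rw [le_div_iff₀ (by positivity)]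
    calc ((𝒢.filter (fun g => g.1 = -1)).card : ℝ) * κ ^ 2
        = ((𝒢.filter (fun g => g.1 = -1)).card : ℝ) * κ * κ := by ring
      _ ≤ m * q ^ 2 := mul_le_mul h2 hκq hκ0.le hm0
      _ = q ^ 6 := by rw [← hq4]; ring
  -- the other motions
  have hplus : ((𝒢.filter (fun g => ¬ g.1 = -1)).card : ℝ) ≤ 4 * C0 * (q ^ 6 / κ ^ 2) := by
    have hinj : Set.InjOn Φ (𝒢.filter (fun g => ¬ g.1 = -1) : Finset (ℂ × ℂ)) := by
      intro g hg g' hg' h
      obtain ⟨a1, a2⟩ := Finset.mem_filter.1 (Finset.mem_coe.1 hg)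
      obtain ⟨b1, b2⟩ := Finset.mem_filter.1 (Finset.mem_coe.1 hg')
      exact hΦi g g' (h𝒢 g a1).1 a2 (h𝒢 g' b1).1 b2 h
    rw [← Finset.card_image_of_injOn hinj]
    have hr1 : 1 ≤ q ^ 2 / κ := by
      rw [le_div_iff₀ hκ0, one_mul]
      exact hκq
    have hqκ : q ≤ κ := by
      rw [← hκ] at hCk
      nlinarith
    have hCr : C0 * (q ^ 2 / κ) ≤ (k : ℝ) := by
      rw [← hκ, ← mul_div_assoc, div_le_iff₀ hκ0]
      rw [← hκ] at hCk
      have h1 : C0 * q ≤ κ := by nlinarith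
      calc C0 * q ^ 2 = (C0 * q) * q := by ring
        _ ≤ κ * κ := mul_le_mul h1 hqκ hq0 hκ0.le
    have h3 := hrich ((U ×ˢ V).image Λ) (q ^ 2) k (q ^ 2 / κ)
      ((𝒢.filter (fun g => ¬ g.1 = -1)).image Φ)
      (by
        intro l hl
        obtain ⟨z, -, rfl⟩ := Finset.mem_image.1 hl
        exact hΛl z)
      (by
        intro ν β hν
        obtain ⟨c1, c2⟩ := gk_cayley_plane_cap U V ν β hν
        have hsub : ((U ×ˢ V).image Λ).filter (fun l => ∀ x ∈ l, ν ⬝ᵥ x = β) ⊆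
            ((U ×ˢ V).filter (fun z => ∀ t : ℝ, ν ⬝ᵥ gkCayleyPt z.1 z.2 t = β)).image Λ := by
          intro l hl
          obtain ⟨hl1, hl2⟩ := Finset.mem_filter.1 hl
          obtain ⟨z, hz, rfl⟩ := Finset.mem_image.1 hl1
          exact Finset.mem_image.2 ⟨z, Finset.mem_filter.2 ⟨hz, fun t =>
            hl2 _ ((hΛm z _).2 ⟨t, rfl⟩)⟩, rfl⟩
        have c3 := (Finset.card_le_card hsub).trans Finset.card_image_le
        obtain ⟨N, hN⟩ : ∃ N : ℕ, N =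
          (((U ×ˢ V).image Λ).filter (fun l => ∀ x ∈ l, ν ⬝ᵥ x = β)).card := ⟨_, rfl⟩
        rw [← hN] at c3 ⊢
        have d1 : (N : ℝ) ≤ U.card := by exact_mod_cast c3.trans c1
        have d2 : (N : ℝ) ≤ V.card := by exact_mod_cast c3.trans c2
        apply le_of_sq_le_sq _ (by positivity)
        calc (N : ℝ) ^ 2 = (N : ℝ) * N := by ring
          _ ≤ (U.card : ℝ) * V.card := mul_le_mul d1 d2 (by positivity) (by positivity)
          _ = (q ^ 2) ^ 2 := by rw [← hm, ← hq4]; ring)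
      hr1 hCr
      (by
        intro p hp
        obtain ⟨g, hg, rfl⟩ := Finset.mem_image.1 hp
        obtain ⟨a1, a2⟩ := Finset.mem_filter.1 hg
        refine (hTk g a1).trans ?_
        rw [← Finset.card_image_of_injective (T g) hΛi]
        apply Finset.card_le_card
        intro l hl
        obtain ⟨z, hz, rfl⟩ := Finset.mem_image.1 hl
        obtain ⟨hz1, hz2⟩ := (hTmem g z).1 hz
        exact Finset.mem_filter.2 ⟨Finset.mem_image.2 ⟨z, Finset.mem_product.2 hz1, rfl⟩,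
          (hΛm z _).2 ⟨_, hΦm g (h𝒢 g a1).1 a2 z.1 z.2 hz2⟩⟩)
    refine h3.trans ?_
    rw [Finset.card_image_of_injective _ hΛi, Finset.card_product, Nat.cast_mul, ← hm, ← hκ,
      ← hq4]
    have e1 : (q ^ 4) ^ 2 / (q ^ 2 / κ * κ ^ 3) = q ^ 6 / κ ^ 2 := by
      field_simp
    have e2 : q ^ 4 * (q ^ 2 / κ) / κ = q ^ 6 / κ ^ 2 := by
      field_simp
    have e3 : (q ^ 2 / κ) ^ 2 * ((q ^ 2) ^ 2 / κ ^ 3 + q ^ 2 / κ) ≤ 2 * (q ^ 6 / κ ^ 2) := by
      have f1 : (q ^ 2 / κ) ^ 2 * ((q ^ 2) ^ 2 / κ ^ 3 + q ^ 2 / κ) =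
          (q ^ 6 / κ ^ 2) * (q ^ 2 / κ ^ 3 + 1 / κ) := by
        field_simp
      rw [f1, mul_comm 2]
      apply mul_le_mul_of_nonneg_left _ (by positivity)
      have g1 : q ^ 2 / κ ^ 3 ≤ 1 := by
        rw [div_le_one (by positivity)]
        calc q ^ 2 ≤ κ ^ 2 := pow_le_pow_left₀ hq0 hqκ 2
          _ ≤ κ ^ 3 := pow_le_pow_right₀ hκ1 (by norm_num)
      have g2 : 1 / κ ≤ 1 := by
        rw [div_le_one hκ0]
        exact hκ1
      linarith
    rw [e1, e2]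
    have hC00 : 0 ≤ C0 := by linarith
    calc C0 * (q ^ 6 / κ ^ 2 + q ^ 6 / κ ^ 2 + (q ^ 2 / κ) ^ 2 * ((q ^ 2) ^ 2 / κ ^ 3 + q ^ 2 / κ))
        ≤ C0 * (q ^ 6 / κ ^ 2 + q ^ 6 / κ ^ 2 + 2 * (q ^ 6 / κ ^ 2)) := by
          apply mul_le_mul_of_nonneg_left _ hC00
          linarith
      _ = 4 * C0 * (q ^ 6 / κ ^ 2) := by ring
  have hsplit : (𝒢.card : ℝ) = ((𝒢.filter (fun g => g.1 = -1)).card : ℝ) +
      ((𝒢.filter (fun g => ¬ g.1 = -1)).card : ℝ) := by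
    exact_mod_cast (Finset.card_filter_add_card_filter_not (s := 𝒢) (fun g => g.1 = -1)).symm
  rw [hsplit, ← hκ, mul_div_assoc]
  linarith

theorem gk_expand3 (b : OrthonormalBasis (Fin 3) ℝ (Pt 3)) (x : Pt 3) :
    x = ⟪b 0, x⟫ • b 0 + ⟪b 1, x⟫ • b 1 + ⟪b 2, x⟫ • b 2 := by
  have h := b.sum_repr' x
  rw [Fin.sum_univ_three] at h
  exact h.symm

theorem gk_inner3 (b : OrthonormalBasis (Fin 3) ℝ (Pt 3)) (x y : Pt 3) :
    ⟪x, y⟫ = ⟪b 0, x⟫ * ⟪b 0, y⟫ + ⟪b 1, x⟫ * ⟪b 1, y⟫ + ⟪b 2, x⟫ * ⟪b 2, y⟫ := by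
  have h := b.sum_inner_mul_inner x y
  rw [Fin.sum_univ_three] at h
  rw [← h, real_inner_comm (b 0) x, real_inner_comm (b 1) x, real_inner_comm (b 2) x]

theorem gk_plane_frame (X : Set (Pt 3)) (hX : Coplanar ℝ X) :
    ∃ (p0 : Pt 3) (b : OrthonormalBasis (Fin 3) ℝ (Pt 3)), ∀ x ∈ X, ⟪b 2, x - p0⟫ = 0 := by
  have h1 : Module.finrank ℝ (vectorSpan ℝ X) ≤ 2 := coplanar_iff_finrank_le_two.1 hX
  have h2 := Submodule.finrank_add_finrank_orthogonal (vectorSpan ℝ X)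
  have h3 : Module.finrank ℝ (Pt 3) = 3 := by simp
  have h4 : 0 < Module.finrank ℝ (vectorSpan ℝ X)ᗮ := by omega
  obtain ⟨n0, hn0⟩ := Module.finrank_pos_iff_exists_ne_zero.1 h4
  have hn0' : (n0 : Pt 3) ≠ 0 := fun h => hn0 (Subtype.ext h)
  obtain ⟨n, hn⟩ : ∃ n : Pt 3, n = (‖(n0 : Pt 3)‖)⁻¹ • (n0 : Pt 3) := ⟨_, rfl⟩
  have hnorm : ‖n‖ = 1 := by
    rw [hn, norm_smul, norm_inv, norm_norm, inv_mul_cancel₀ (norm_ne_zero_iff.2 hn0')]
  have hperp : ∀ u ∈ vectorSpan ℝ X, ⟪n, u⟫ = 0 := by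
    intro u hu
    rw [hn, real_inner_smul_left, real_inner_comm, (Submodule.mem_orthogonal _ _).1 n0.2 u hu,
      mul_zero]
  have hon : Orthonormal ℝ (({2} : Set (Fin 3)).domRestrict (fun _ : Fin 3 => n)) := by
    rw [orthonormal_iff_ite]
    rintro ⟨i, hi⟩ ⟨j, hj⟩
    have hi' : i = 2 := hi
    have hj' : j = 2 := hj
    subst hi' hj'
    show ⟪n, n⟫ = _
    rw [real_inner_self_eq_norm_sq, hnorm]
    simp
  obtain ⟨b, hb⟩ := hon.exists_orthonormalBasis_extension_of_card_eq (by simp)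
  have hb2 : b 2 = n := hb 2 rfl
  by_cases hne : X.Nonempty
  · obtain ⟨p0, hp0⟩ := hne
    refine ⟨p0, b, fun x hx => ?_⟩
    rw [hb2]
    exact hperp _ (vsub_mem_vectorSpan ℝ hx hp0)
  · refine ⟨0, b, fun x hx => absurd ⟨x, hx⟩ hne⟩

/-- planar coordinate with respect to a frame -/
noncomputable def gkCoord (p0 : Pt 3) (b : OrthonormalBasis (Fin 3) ℝ (Pt 3)) (x : Pt 3) : ℂ :=
  ⟨⟪b 0, x - p0⟫, ⟪b 1, x - p0⟫⟩

theorem gk_coord_inj (p0 : Pt 3) (b : OrthonormalBasis (Fin 3) ℝ (Pt 3)) (x x' : Pt 3)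
    (h : ⟪b 2, x - p0⟫ = 0) (h' : ⟪b 2, x' - p0⟫ = 0) (hc : gkCoord p0 b x = gkCoord p0 b x') :
    x = x' := by
  have e0 : ⟪b 0, x - p0⟫ = ⟪b 0, x' - p0⟫ := congrArg Complex.re hc
  have e1 : ⟪b 1, x - p0⟫ = ⟪b 1, x' - p0⟫ := congrArg Complex.im hc
  have h1 := gk_expand3 b (x - p0)
  have h2 := gk_expand3 b (x' - p0)
  rw [e0, e1, h, ← h', ← h2] at h1
  exact sub_left_injective h1

theorem gk_orth_alg {a00 a10 a01 a11 a02 a12 a22 : ℝ}
    (h00 : a00 ^ 2 + a10 ^ 2 = 1) (h11 : a01 ^ 2 + a11 ^ 2 = 1) (h01 : a00 * a01 + a10 * a11 = 0)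
    (h22 : a02 ^ 2 + a12 ^ 2 + a22 ^ 2 = 1) (h02 : a00 * a02 + a10 * a12 = 0)
    (h12 : a01 * a02 + a11 * a12 = 0) :
    ∃ s : ℝ, (s = 1 ∨ s = -1) ∧ a01 = - s * a10 ∧ a11 = s * a00 ∧ a02 = 0 ∧ a12 = 0 ∧
      (a22 = 1 ∨ a22 = -1) := by
  have hs : (a00 * a11 - a10 * a01) ^ 2 = 1 := by
    linear_combination (a01 ^ 2 + a11 ^ 2) * h00 + h11 - (a00 * a01 + a10 * a11) * h01
  have hpm : ∀ t : ℝ, t ^ 2 = 1 → t = 1 ∨ t = -1 := by
    intro t ht
    have h : (t - 1) * (t + 1) = 0 := by linear_combination ht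
    rcases mul_eq_zero.1 h with h | h
    · left; linarith
    · right; linarith
  have hs0 : a00 * a11 - a10 * a01 ≠ 0 := by
    intro h
    rw [h] at hs
    norm_num at hs
  have e02 : (a00 * a11 - a10 * a01) * a02 = 0 := by linear_combination a11 * h02 - a10 * h12
  have e12 : (a00 * a11 - a10 * a01) * a12 = 0 := by linear_combination a00 * h12 - a01 * h02
  have f02 := (mul_eq_zero.1 e02).resolve_left hs0
  have f12 := (mul_eq_zero.1 e12).resolve_left hs0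
  refine ⟨a00 * a11 - a10 * a01, hpm _ hs, by linear_combination a00 * h01 - a01 * h00,
    by linear_combination a10 * h01 - a11 * h00, f02, f12, hpm _ ?_⟩
  rw [f02, f12] at h22
  linarith

theorem gk_plane_struct (p0 p0' : Pt 3) (b b' : OrthonormalBasis (Fin 3) ℝ (Pt 3))
    (g : Pt 3 ≃ᵃⁱ[ℝ] Pt 3) (M : Set (Pt 3)) (hM : ¬ Collinear ℝ M)
    (h1 : ∀ x ∈ M, ⟪b 2, x - p0⟫ = 0) (h2 : ∀ x ∈ M, ⟪b' 2, g x - p0'⟫ = 0) :
    ∃ (ω τ : ℂ) (s s2 : ℝ), ‖ω‖ = 1 ∧ (s = 1 ∨ s = -1) ∧ (s2 = 1 ∨ s2 = -1) ∧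
      (∀ x, ⟪b 2, x - p0⟫ = 0 → ⟪b' 2, g x - p0'⟫ = 0 ∧
        gkCoord p0' b' (g x) = ω * ⟨(gkCoord p0 b x).re, s * (gkCoord p0 b x).im⟩ + τ) ∧
      g.linearIsometryEquiv (b 2) = s2 • b' 2 := by
  obtain ⟨A, hA⟩ : ∃ A : Pt 3 ≃ₗᵢ[ℝ] Pt 3, A = g.linearIsometryEquiv := ⟨_, rfl⟩
  rw [← hA]
  have hgA : ∀ x y, g x - g y = A (x - y) := by
    intro x y
    rw [hA, ← vsub_eq_sub, ← vsub_eq_sub, g.map_vsub]
  obtain ⟨a, ha⟩ : ∃ a : Fin 3 → Fin 3 → ℝ, a = fun i j => ⟪b' i, A (b j)⟫ := ⟨_, rfl⟩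
  have haij : ∀ i j, ⟪b' i, A (b j)⟫ = a i j := fun i j => by rw [ha]
  have hAw : ∀ (i : Fin 3) (w : Pt 3), ⟪b' i, A w⟫ =
      ⟪b 0, w⟫ * a i 0 + ⟪b 1, w⟫ * a i 1 + ⟪b 2, w⟫ * a i 2 := by
    intro i w
    conv_lhs => rw [gk_expand3 b w]
    rw [map_add, map_add, map_smul, map_smul, map_smul, inner_add_right, inner_add_right,
      real_inner_smul_right, real_inner_smul_right, real_inner_smul_right, haij, haij, haij]
  have hMne : M.Nonempty := by
    by_contra h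
    rw [Set.not_nonempty_iff_eq_empty] at h
    apply hM
    rw [h]
    exact collinear_empty ℝ _
  obtain ⟨x0, hx0⟩ := hMne
  -- differences of points of `M`
  have hdiff : ∀ p ∈ M, ⟪b 2, p - x0⟫ = 0 ∧
      ⟪b 0, p - x0⟫ * a 2 0 + ⟪b 1, p - x0⟫ * a 2 1 = 0 := by
    intro p hp
    have e1 : ⟪b 2, p - x0⟫ = 0 := by
      have : p - x0 = (p - p0) - (x0 - p0) := by abel
      rw [this, inner_sub_right, h1 p hp, h1 x0 hx0, sub_zero]
    refine ⟨e1, ?_⟩
    have e2 : ⟪b' 2, A (p - x0)⟫ = 0 := by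
      rw [← hgA]
      have : g p - g x0 = (g p - p0') - (g x0 - p0') := by abel
      rw [this, inner_sub_right, h2 p hp, h2 x0 hx0, sub_zero]
    rw [hAw, e1] at e2
    linarith
  have h20 : a 2 0 = 0 ∧ a 2 1 = 0 := by
    by_contra hcon
    apply hM
    have hN : a 2 0 ^ 2 + a 2 1 ^ 2 ≠ 0 := by
      intro h0
      apply hcon
      constructor
      · nlinarith [sq_nonneg (a 2 0), sq_nonneg (a 2 1)]
      · nlinarith [sq_nonneg (a 2 0), sq_nonneg (a 2 1)]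
    rw [collinear_iff_of_mem hx0]
    refine ⟨(- a 2 1) • b 0 + a 2 0 • b 1, fun p hp => ?_⟩
    obtain ⟨e1, e2⟩ := hdiff p hp
    have e3 := gk_expand3 b (p - x0)
    rw [e1, zero_smul, add_zero] at e3
    generalize ⟪b 0, p - x0⟫ = α at e2 e3
    generalize ⟪b 1, p - x0⟫ = β at e2 e3
    refine ⟨(β * a 2 0 - α * a 2 1) / (a 2 0 ^ 2 + a 2 1 ^ 2), ?_⟩
    rw [vadd_eq_add, ← sub_eq_iff_eq_add, e3, smul_add, smul_smul, smul_smul]
    congr 2
    · field_simp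
      linear_combination (a 2 0) * e2
    · field_simp
      linear_combination (a 2 1) * e2
  obtain ⟨h20, h21⟩ := h20
  -- orthonormality of the columns
  have hcol : ∀ i j : Fin 3, a 0 i * a 0 j + a 1 i * a 1 j + a 2 i * a 2 j =
      if i = j then 1 else 0 := by
    intro i j
    have e1 := gk_inner3 b' (A (b i)) (A (b j))
    rw [A.inner_map_map, haij, haij, haij, haij, haij, haij,
      orthonormal_iff_ite.1 b.orthonormal i j] at e1
    exact e1.symm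
  have c00 := hcol 0 0
  have c11 := hcol 1 1
  have c01 := hcol 0 1
  have c22 := hcol 2 2
  have c02 := hcol 0 2
  have c12 := hcol 1 2
  simp only [h20, h21, if_true, Fin.reduceEq, if_false] at c00 c11 c01 c22 c02 c12
  obtain ⟨s, hs, s01, s11, s02, s12, s22⟩ := gk_orth_alg (a00 := a 0 0) (a10 := a 1 0)
    (a01 := a 0 1) (a11 := a 1 1) (a02 := a 0 2) (a12 := a 1 2) (a22 := a 2 2)
    (by linarith) (by linarith) (by linarith) (by linarith) (by linarith) (by linarith)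
  have hτ2 : ⟪b' 2, g p0 - p0'⟫ = 0 := by
    have e1 : g p0 - p0' = (g x0 - p0') - A (x0 - p0) := by
      rw [← hgA]
      abel
    rw [e1, inner_sub_right, h2 x0 hx0, hAw, h1 x0 hx0, h20, h21]
    ring
  refine ⟨⟨a 0 0, a 1 0⟩, gkCoord p0' b' (g p0), s, a 2 2, ?_, hs, s22, ?_, ?_⟩
  · rw [Complex.norm_def, Complex.normSq_mk, Real.sqrt_eq_one]
    linarith
  · intro x hx
    have e1 : g x - p0' = (g p0 - p0') + A (x - p0) := by
      rw [← hgA]
      abel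
    refine ⟨?_, ?_⟩
    · rw [e1, inner_add_right, hτ2, hAw, hx, h20, h21]
      ring
    · apply Complex.ext
      · simp only [gkCoord, Complex.add_re, Complex.mul_re]
        rw [e1, inner_add_right, hAw, hx, s01]
        ring
      · simp only [gkCoord, Complex.add_im, Complex.mul_im]
        rw [e1, inner_add_right, hAw, hx, s11]
        ring
  · have e1 := gk_expand3 b' (A (b 2))
    rw [haij, haij, haij, s02, s12, zero_smul, zero_smul, zero_add, zero_add] at e1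
    exact e1

theorem gk_plane_unique (p0 p0' : Pt 3) (b b' : OrthonormalBasis (Fin 3) ℝ (Pt 3))
    (g g' : Pt 3 ≃ᵃⁱ[ℝ] Pt 3) (ω τ : ℂ) (s s2 : ℝ)
    (h : ∀ x, ⟪b 2, x - p0⟫ = 0 → ⟪b' 2, g x - p0'⟫ = 0 ∧
        gkCoord p0' b' (g x) = ω * ⟨(gkCoord p0 b x).re, s * (gkCoord p0 b x).im⟩ + τ)
    (h' : ∀ x, ⟪b 2, x - p0⟫ = 0 → ⟪b' 2, g' x - p0'⟫ = 0 ∧
        gkCoord p0' b' (g' x) = ω * ⟨(gkCoord p0 b x).re, s * (gkCoord p0 b x).im⟩ + τ)
    (hn : g.linearIsometryEquiv (b 2) = s2 • b' 2)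
    (hn' : g'.linearIsometryEquiv (b 2) = s2 • b' 2) : g = g' := by
  apply AffineIsometryEquiv.ext
  intro x
  obtain ⟨c, hc⟩ : ∃ c : ℝ, c = ⟪b 2, x - p0⟫ := ⟨_, rfl⟩
  obtain ⟨y, hy⟩ : ∃ y : Pt 3, y = x - c • b 2 := ⟨_, rfl⟩
  have hy0 : ⟪b 2, y - p0⟫ = 0 := by
    have e : y - p0 = (x - p0) - c • b 2 := by rw [hy]; abel
    rw [e, inner_sub_right, real_inner_smul_right, ← hc, real_inner_self_eq_norm_sq,
      b.orthonormal.1 2]
    ring
  have e : x = c • b 2 +ᵥ y := by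
    rw [hy, vadd_eq_add]
    abel
  rw [e, g.map_vadd, g'.map_vadd, map_smul, map_smul, hn, hn']
  congr 1
  exact gk_coord_inj p0' b' _ _ (h y hy0).1 (h' y hy0).1 (by rw [(h y hy0).2, (h' y hy0).2])

/-- **GK-4** spatial form, as used in mot:local (planar type): `U`, `V` coplanar clouds in `ℝ³`; the spatial
isometries having at least `k` matches `U → V`, not all on one line.

Proof.  If `𝒢` is nonempty, `U` and `V` contain non-collinear triples, so they span planes `Π`, `Π'`; choose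
isometries `ℂ ≃ Π`, `ℂ ≃ Π'` (`Complex.orthonormalBasisOneI`, `stdOrthonormalBasis`).  Every `g ∈ 𝒢` maps `Π` onto `Π'`
and induces an isometry of `ℂ`, which is `z ↦ ω z + τ` or `z ↦ ω conj z + τ` (`linear_isometry_complex`).
A spatial isometry is determined by its restriction to `Π` up to the reflection in `Π'`: at most two `g` per
planar isometry.  Apply `gk_direct_motions` to `(U, V)` and to `(conj U, V)`. -/
theorem gk_spatial_planar_motions : ∃ C : ℝ, 0 < C ∧ ∀ (U V : Finset (Pt 3)) (k : ℕ),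
    Coplanar ℝ (U : Set (Pt 3)) → Coplanar ℝ (V : Set (Pt 3)) →
    C * ((U.card : ℝ) * V.card) ^ ((1 : ℝ) / 4) ≤ k →
    ∀ 𝒢 : Finset (Pt 3 ≃ᵃⁱ[ℝ] Pt 3),
      (∀ g ∈ 𝒢, k ≤ matchCount U V g ∧
        ¬ Collinear ℝ ((U.filter (fun x => g x ∈ V) : Finset (Pt 3)) : Set (Pt 3))) →
      (𝒢.card : ℝ) ≤ C * ((U.card : ℝ) * V.card) ^ ((3 : ℝ) / 2) / (k : ℝ) ^ 2 := by
  obtain ⟨Cd, hCd, hdir⟩ := gk_direct_motions
  refine ⟨4 * Cd, by positivity, ?_⟩
  intro U V k hU hV hCk 𝒢 h𝒢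
  obtain ⟨p0, b, hb⟩ := gk_plane_frame _ hU
  obtain ⟨p0', b', hb'⟩ := gk_plane_frame _ hV
  have hdata : ∀ g : Pt 3 ≃ᵃⁱ[ℝ] Pt 3, ∃ (ω τ : ℂ) (s s2 : ℝ), g ∈ 𝒢 →
      (‖ω‖ = 1 ∧ (s = 1 ∨ s = -1) ∧ (s2 = 1 ∨ s2 = -1) ∧
      (∀ x, ⟪b 2, x - p0⟫ = 0 → ⟪b' 2, g x - p0'⟫ = 0 ∧
        gkCoord p0' b' (g x) = ω * ⟨(gkCoord p0 b x).re, s * (gkCoord p0 b x).im⟩ + τ) ∧
      g.linearIsometryEquiv (b 2) = s2 • b' 2) := by
    intro g
    by_cases hg : g ∈ 𝒢
    · obtain ⟨ω, τ, s, s2, h⟩ := gk_plane_struct p0 p0' b b' g _ (h𝒢 g hg).2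
        (fun x hx => hb x (Finset.mem_coe.2 (Finset.mem_filter.1 (Finset.mem_coe.1 hx)).1))
        (fun x hx => hb' _ (Finset.mem_coe.2 (Finset.mem_filter.1 (Finset.mem_coe.1 hx)).2))
      exact ⟨ω, τ, s, s2, fun _ => h⟩
    · exact ⟨0, 0, 0, 0, fun h => absurd h hg⟩
  choose ω τ s s2 hdata using hdata
  obtain ⟨m, hm⟩ : ∃ m : ℝ, m = (U.card : ℝ) * V.card := ⟨_, rfl⟩
  rw [← hm] at hCk ⊢
  have hm0 : 0 ≤ m := by rw [hm]; positivity
  have hclass : ∀ (σ σ2 : ℝ) (𝒢c : Finset (Pt 3 ≃ᵃⁱ[ℝ] Pt 3)), (σ = 1 ∨ σ = -1) → 𝒢c ⊆ 𝒢 →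
      (∀ g ∈ 𝒢c, s g = σ ∧ s2 g = σ2) →
      (𝒢c.card : ℝ) ≤ Cd * m ^ ((3 : ℝ) / 2) / (k : ℝ) ^ 2 := by
    intro σ σ2 𝒢c hσ hsub hc
    rcases 𝒢c.eq_empty_or_nonempty with hemp | ⟨g0, hg0⟩
    · rw [hemp]
      simp only [Finset.card_empty, Nat.cast_zero]
      positivity
    have hσ0 : σ ≠ 0 := by
      rcases hσ with h | h <;> rw [h] <;> norm_num
    obtain ⟨cu, hcu⟩ : ∃ cu : Pt 3 → ℂ, cu = fun x =>
      (⟨(gkCoord p0 b x).re, σ * (gkCoord p0 b x).im⟩ : ℂ) := ⟨_, rfl⟩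
    have hcuinj : Set.InjOn cu (U : Set (Pt 3)) := by
      intro x hx x' hx' h
      rw [hcu] at h
      have e0 := congrArg Complex.re h
      have e1 := congrArg Complex.im h
      simp only at e0 e1
      exact gk_coord_inj p0 b x x' (hb x hx) (hb x' hx')
        (Complex.ext e0 (mul_left_cancel₀ hσ0 e1))
    have hcvinj : Set.InjOn (gkCoord p0' b') (V : Set (Pt 3)) := by
      intro x hx x' hx' h
      exact gk_coord_inj p0' b' x x' (hb' x hx) (hb' x' hx') h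
    have hUc : (U.image cu).card = U.card := Finset.card_image_of_injOn hcuinj
    have hVc : (V.image (gkCoord p0' b')).card = V.card := Finset.card_image_of_injOn hcvinj
    have hkey : Set.InjOn (fun g => (ω g, τ g)) (𝒢c : Set (Pt 3 ≃ᵃⁱ[ℝ] Pt 3)) := by
      intro g hg g' hg' h
      have e0 : ω g = ω g' := (Prod.ext_iff.1 h).1
      have e1 : τ g = τ g' := (Prod.ext_iff.1 h).2
      obtain ⟨-, -, -, a1, a2⟩ := hdata g (hsub hg)
      obtain ⟨-, -, -, b1, b2⟩ := hdata g' (hsub hg')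
      rw [(hc g hg).1, (hc g hg).2] at *
      rw [(hc g' hg').1, (hc g' hg').2, ← e0, ← e1] at *
      exact gk_plane_unique p0 p0' b b' g g' (ω g) (τ g) σ σ2 a1 b1 a2 b2
    have hmatch : ∀ g ∈ 𝒢c, k ≤ ((U.image cu).filter
        (fun z => ω g * z + τ g ∈ V.image (gkCoord p0' b'))).card := by
      intro g hg
      refine (h𝒢 g (hsub hg)).1.trans ?_
      unfold matchCount
      rw [← Finset.card_image_of_injOn (hcuinj.mono (by
        intro x hx
        exact Finset.mem_coe.2 (Finset.mem_filter.1 (Finset.mem_coe.1 hx)).1))]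
      apply Finset.card_le_card
      intro z hz
      obtain ⟨x, hx, rfl⟩ := Finset.mem_image.1 hz
      obtain ⟨hxU, hxV⟩ := Finset.mem_filter.1 hx
      refine Finset.mem_filter.2 ⟨Finset.mem_image_of_mem _ hxU, ?_⟩
      obtain ⟨-, -, -, a1, -⟩ := hdata g (hsub hg)
      have := (a1 x (hb x (Finset.mem_coe.2 hxU))).2
      rw [(hc g hg).1] at this
      rw [hcu, ← this]
      exact Finset.mem_image_of_mem _ hxV
    -- size conditions, from `g0`
    have hg0' := h𝒢 g0 (hsub hg0)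
    have hkU : k ≤ U.card := hg0'.1.trans (Finset.card_le_card (Finset.filter_subset _ _))
    have hkV : k ≤ V.card := by
      refine hg0'.1.trans ?_
      unfold matchCount
      apply Finset.card_le_card_of_injOn (fun x => g0 x)
      · intro x hx
        exact Finset.mem_coe.2 (Finset.mem_filter.1 (Finset.mem_coe.1 hx)).2
      · intro x _ x' _ h
        exact g0.injective h
    have hk1 : 1 ≤ k := by
      have hne : (U.filter (fun x => g0 x ∈ V)).Nonempty := by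
        by_contra h
        rw [Finset.not_nonempty_iff_eq_empty] at h
        apply hg0'.2
        rw [h, Finset.coe_empty]
        exact collinear_empty ℝ _
      obtain ⟨x, hx⟩ := hne
      obtain ⟨hxU, hxV⟩ := Finset.mem_filter.1 hx
      have u1 : (1 : ℝ) ≤ U.card := by
        exact_mod_cast Finset.card_pos.2 ⟨x, hxU⟩
      have v1 : (1 : ℝ) ≤ V.card := by
        exact_mod_cast Finset.card_pos.2 ⟨_, hxV⟩
      have m1 : 1 ≤ m := by
        rw [hm]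
        nlinarith
      have q1 : 1 ≤ m ^ ((1 : ℝ) / 4) := Real.one_le_rpow m1 (by norm_num)
      have : (0 : ℝ) < k := by nlinarith
      exact_mod_cast this
    have h3 := hdir (U.image cu) (V.image (gkCoord p0' b')) k hk1 (by
      rw [hUc, hVc, ← hm]
      have : 0 ≤ m ^ ((1 : ℝ) / 4) := by positivity
      nlinarith) (by rw [hUc]; exact hkU) (by rw [hVc]; exact hkV)
      (𝒢c.image (fun g => (ω g, τ g))) (by
        intro d hd
        obtain ⟨g, hg, rfl⟩ := Finset.mem_image.1 hd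
        exact ⟨(hdata g (hsub hg)).1, hmatch g hg⟩)
    rw [Finset.card_image_of_injOn hkey, hUc, hVc, ← hm] at h3
    exact h3
  have hs1 : ∀ g ∈ 𝒢, ¬ s g = 1 → s g = -1 := fun g hg h =>
    ((hdata g hg).2.1).resolve_left h
  have hs2 : ∀ g ∈ 𝒢, ¬ s2 g = 1 → s2 g = -1 := fun g hg h =>
    ((hdata g hg).2.2.1).resolve_left h
  have c1 := hclass 1 1 (𝒢.filter (fun g => s g = 1 ∧ s2 g = 1)) (Or.inl rfl)
    (Finset.filter_subset _ _) (fun g hg => (Finset.mem_filter.1 hg).2)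
  have c2 := hclass 1 (-1) (𝒢.filter (fun g => s g = 1 ∧ ¬ s2 g = 1)) (Or.inl rfl)
    (Finset.filter_subset _ _) (fun g hg =>
      ⟨(Finset.mem_filter.1 hg).2.1, hs2 g (Finset.mem_filter.1 hg).1 (Finset.mem_filter.1 hg).2.2⟩)
  have c3 := hclass (-1) 1 (𝒢.filter (fun g => ¬ s g = 1 ∧ s2 g = 1)) (Or.inr rfl)
    (Finset.filter_subset _ _) (fun g hg =>
      ⟨hs1 g (Finset.mem_filter.1 hg).1 (Finset.mem_filter.1 hg).2.1, (Finset.mem_filter.1 hg).2.2⟩)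
  have c4 := hclass (-1) (-1) (𝒢.filter (fun g => ¬ s g = 1 ∧ ¬ s2 g = 1)) (Or.inr rfl)
    (Finset.filter_subset _ _) (fun g hg =>
      ⟨hs1 g (Finset.mem_filter.1 hg).1 (Finset.mem_filter.1 hg).2.1,
        hs2 g (Finset.mem_filter.1 hg).1 (Finset.mem_filter.1 hg).2.2⟩)
  have hsplit : 𝒢.card = (𝒢.filter (fun g => s g = 1 ∧ s2 g = 1)).card +
      (𝒢.filter (fun g => s g = 1 ∧ ¬ s2 g = 1)).card +
      ((𝒢.filter (fun g => ¬ s g = 1 ∧ s2 g = 1)).card +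
      (𝒢.filter (fun g => ¬ s g = 1 ∧ ¬ s2 g = 1)).card) := by
    rw [← Finset.filter_filter, ← Finset.filter_filter, ← Finset.filter_filter,
      ← Finset.filter_filter, Finset.card_filter_add_card_filter_not,
      Finset.card_filter_add_card_filter_not, Finset.card_filter_add_card_filter_not]
  have hsplit' : (𝒢.card : ℝ) = ((𝒢.filter (fun g => s g = 1 ∧ s2 g = 1)).card : ℝ) +
      ((𝒢.filter (fun g => s g = 1 ∧ ¬ s2 g = 1)).card : ℝ) +
      (((𝒢.filter (fun g => ¬ s g = 1 ∧ s2 g = 1)).card : ℝ) +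
      ((𝒢.filter (fun g => ¬ s g = 1 ∧ ¬ s2 g = 1)).card : ℝ)) := by
    exact_mod_cast hsplit
  rw [hsplit']
  have e : 4 * Cd * m ^ ((3 : ℝ) / 2) / (k : ℝ) ^ 2 = 4 * (Cd * m ^ ((3 : ℝ) / 2) / (k : ℝ) ^ 2) := by
    ring
  rw [e]
  linarith

end Claimed.Agent.R273
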