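import Claimed.Agent.R273.MotLocTop

/-!
# Row 273, unit GK+LOC, package BP-ML-ADAPT: `MotCoreStmt → MotGen`.   Owner: helper284.   Prefix `mota_` / `Mota`.

Linear algebra of `O(3)` only (replaces motions.tex l.250-375; NO generic rotation).

* AD1 `mota_matrix`   : every `g : Pt 3 ≃ᵃⁱ Pt 3` is `x ↦ A x + h`, `A Aᵀ = 1`.
* AD2 `mota_normal`   : `S Sᵀ = 1`, `det S = -1`, `S ≠ -1`  ⟹  normal form `MotaNF S a ω`:
                         `a·a = 1`, and with `p = x + S x`, `m = x - S x`:  `p·a = 0`,  `m - (m·a) a = ω (a × p)`.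
* `mota_cases`        : every `g` is of class `MotaNd 1`, `MotaNd (-1)`, `MotaDeg 1` or `MotaDeg (-1)`.
* AD3 `mota_match_iff`: `(motaRev a ω h).Match v b ↔ v - b = S (v + b) + h`.
* AD4 `mota_pt_lab`, `mota_M_inj`, `mota_collinear`, `mota_coplanar`: the transformed point of the label of `x` is an injective affine
                         function of `x`; caps are transported.
* AD5 `mota_deg_count`: a motion `x ↦ ε x + h` is determined by one match.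
* AD6 `mota_labels`, `mota_class`, `mota_gen`: assembly.
-/

set_option autoImplicit false

namespace Claimed.Agent.R273

open Matrix
open scoped Classical

/-! ## Definitions -/

/-- normal form of a reversing orthogonal matrix `S` (axis `a`, Cayley parameter `ω`) -/
def MotaNF (S : Matrix (Fin 3) (Fin 3) ℝ) (a : Fin 3 → ℝ) (ω : ℝ) : Prop :=
  a ⬝ᵥ a = 1 ∧ ∀ x : Fin 3 → ℝ, (x + S *ᵥ x) ⬝ᵥ a = 0 ∧
    (x - S *ᵥ x) - ((x - S *ᵥ x) ⬝ᵥ a) • a = ω • (a ⨯₃ (x + S *ᵥ x))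

/-- the data of the motion `y = S x + h` -/
noncomputable def motaRev (a : Fin 3 → ℝ) (ω : ℝ) (h : Fin 3 → ℝ) : MotRev where
  a := a
  ω := ω
  v0 := (h ⬝ᵥ a) / 2
  d := -((1 : ℝ) / 2) • (ω • (a ⨯₃ h) + h - (h ⬝ᵥ a) • a)

/-- the label of `x` under `y = S x + h` -/
noncomputable def motaLab (S : Matrix (Fin 3) (Fin 3) ℝ) (h x : Fin 3 → ℝ) : (Fin 3 → ℝ) × (Fin 3 → ℝ) :=
  (((1 : ℝ) / 2) • (x + (S *ᵥ x + h)), ((1 : ℝ) / 2) • (x - (S *ᵥ x + h)))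

/-- linear part of `x ↦ pt (label of x)` -/
noncomputable def motaM (S : Matrix (Fin 3) (Fin 3) ℝ) (a : Fin 3 → ℝ) : Matrix (Fin 3) (Fin 3) ℝ :=
  ((1 : ℝ) / 2) • (1 + S) - vecMulVec a (Sᵀ *ᵥ a)

/-- constant part of `x ↦ pt (label of x)` -/
noncomputable def motaC (a h : Fin 3 → ℝ) : Fin 3 → ℝ := ((1 : ℝ) / 2) • h - (h ⬝ᵥ a) • a

/-- all labels of the pairs of `X × (sg Y)` -/
noncomputable def motaE (sg : ℝ) (X Y : Finset (Pt 3)) : Finset ((Fin 3 → ℝ) × (Fin 3 → ℝ)) :=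
  (X ×ˢ Y).image (fun p => (((1 : ℝ) / 2) • (p.1.ofLp + sg • p.2.ofLp),
    ((1 : ℝ) / 2) • (p.1.ofLp - sg • p.2.ofLp)))

/-- nondegenerate class: `sg g` is a reversing motion with a normal form -/
def MotaNd (sg : ℝ) (g : Pt 3 ≃ᵃⁱ[ℝ] Pt 3) : Prop :=
  ∃ (S : Matrix (Fin 3) (Fin 3) ℝ) (h a : Fin 3 → ℝ) (ω : ℝ), MotaNF S a ω ∧
    ∀ x : Pt 3, sg • (g x).ofLp = S *ᵥ x.ofLp + h

/-- degenerate class: `g x = ε x + h` -/
def MotaDeg (ε : ℝ) (g : Pt 3 ≃ᵃⁱ[ℝ] Pt 3) : Prop :=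
  ∃ h : Fin 3 → ℝ, ∀ x : Pt 3, (g x).ofLp = ε • x.ofLp + h

/-- the body of `MotCoreStmt` for fixed constants -/
def MotCoreAt (η1 η2 C K : ℝ) : Prop :=
  ∀ (m ℓ : ℝ) (E : Finset ((Fin 3 → ℝ) × (Fin 3 → ℝ))) (𝒟 : Finset MotRev),
    1 ≤ m → (E.card : ℝ) ≤ m ^ 2 → ℓ ≤ m → C * m ^ ((2 : ℝ) / 3) ≤ ℓ →
    (∀ D ∈ 𝒟, D.a ⬝ᵥ D.a = 1) →
    (∀ D ∈ 𝒟, ∀ D' ∈ 𝒟, (∀ v b, D.Match v b ↔ D'.Match v b) → D = D') →
    (∀ D ∈ 𝒟, ℓ ≤ ((D.labels E).card : ℝ) ∧ ((D.labels E).card : ℝ) < 2 * ℓ) →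
    (∀ D ∈ 𝒟, ∀ T ⊆ D.labels E, Collinear ℝ (D.pt '' (T : Set ((Fin 3 → ℝ) × (Fin 3 → ℝ)))) →
      (T.card : ℝ) < η1 * ℓ) →
    (∀ D ∈ 𝒟, ∀ T ⊆ D.labels E, ∀ (ν : Fin 3 → ℝ) (β : ℝ), ν ≠ 0 → (∀ e ∈ T, ν ⬝ᵥ D.pt e = β) →
      (T.card : ℝ) < η2 * ℓ) →
    (𝒟.card : ℝ) ≤ K * m ^ 3 / ℓ ^ ((3 : ℝ) / 2)

/-! ## AD1, AD2: matrices -/

/-- AD1 -/
theorem mota_matrix (g : Pt 3 ≃ᵃⁱ[ℝ] Pt 3) :
    ∃ (A : Matrix (Fin 3) (Fin 3) ℝ) (h : Fin 3 → ℝ), A * Aᵀ = 1 ∧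
      ∀ x : Pt 3, (g x).ofLp = A *ᵥ x.ofLp + h := by
  set L := g.linearIsometryEquiv with hL
  set f : (Fin 3 → ℝ) →ₗ[ℝ] (Fin 3 → ℝ) :=
    (WithLp.linearEquiv 2 ℝ (Fin 3 → ℝ)).toLinearMap ∘ₗ L.toLinearEquiv.toLinearMap ∘ₗ
      (WithLp.linearEquiv 2 ℝ (Fin 3 → ℝ)).symm.toLinearMap with hf
  have hfx : ∀ x : Pt 3, f x.ofLp = (L x).ofLp := fun x => rfl
  have hA : ∀ x : Pt 3, LinearMap.toMatrix' f *ᵥ x.ofLp = (L x).ofLp := by
    intro x
    rw [LinearMap.toMatrix'_mulVec, hfx]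
  have hdot : ∀ u v : Fin 3 → ℝ,
      (LinearMap.toMatrix' f *ᵥ u) ⬝ᵥ (LinearMap.toMatrix' f *ᵥ v) = u ⬝ᵥ v := by
    intro u v
    have h1 := L.inner_map_map (WithLp.toLp 2 v) (WithLp.toLp 2 u)
    rw [EuclideanSpace.inner_eq_star_dotProduct, EuclideanSpace.inner_eq_star_dotProduct,
      ← hA, ← hA] at h1
    simpa using h1
  refine ⟨LinearMap.toMatrix' f, (g 0).ofLp, ?_, ?_⟩
  · rw [mul_eq_one_comm]
    ext i j
    have h1 := hdot (Pi.single i 1) (Pi.single j 1)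
    rw [Matrix.mulVec_single_one, Matrix.mulVec_single_one] at h1
    rw [Matrix.mul_apply, Matrix.one_apply]
    simp only [dotProduct, Matrix.col_apply] at h1
    simp only [Matrix.transpose_apply]
    rw [h1]
    simp [Pi.single_apply, eq_comm]
  · intro x
    have h1 := g.map_vadd 0 x
    rw [vadd_eq_add, add_zero, vadd_eq_add] at h1
    rw [h1, WithLp.ofLp_add, hA]

theorem mota_cross_adj (M : Matrix (Fin 3) (Fin 3) ℝ) (u w : Fin 3 → ℝ) :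
    Mᵀ *ᵥ ((M *ᵥ u) ⨯₃ (M *ᵥ w)) = M.det • (u ⨯₃ w) := by
  ext i
  fin_cases i <;>
  simp [cross_apply, Matrix.mulVec, dotProduct, Fin.sum_univ_three, Matrix.det_fin_three] <;> ring

theorem mota_cross_equiv (S : Matrix (Fin 3) (Fin 3) ℝ) (hS : S * Sᵀ = 1) (u w : Fin 3 → ℝ) :
    (S *ᵥ u) ⨯₃ (S *ᵥ w) = S.det • S *ᵥ (u ⨯₃ w) := by
  have h := congrArg (fun z => S *ᵥ z) (mota_cross_adj S u w)
  simp only [Matrix.mulVec_mulVec, hS, Matrix.one_mulVec, Matrix.mulVec_smul] at h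
  exact h

theorem mota_expand (a b : Fin 3 → ℝ) (ha : a ⬝ᵥ a = 1) (hb : b ⬝ᵥ b = 1) (hab : a ⬝ᵥ b = 0)
    (y : Fin 3 → ℝ) :
    y = (y ⬝ᵥ a) • a + (y ⬝ᵥ b) • b + (y ⬝ᵥ (a ⨯₃ b)) • (a ⨯₃ b) := by
  simp only [dotProduct, Fin.sum_univ_three] at ha hb hab
  ext i
  fin_cases i <;>
  simp only [cross_apply, dotProduct, Fin.sum_univ_three, Pi.add_apply, Pi.smul_apply, smul_eq_mul,
    Fin.zero_eta, Fin.mk_one, Fin.reduceFinMk, Matrix.cons_val_zero, Matrix.cons_val_one,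
    Matrix.cons_val_two, Matrix.head_cons, Matrix.tail_cons]
  · linear_combination (-(y 0 * (b 0 * b 0 + b 1 * b 1 + b 2 * b 2) - b 0 * (y 0 * b 0 + y 1 * b 1 + y 2 * b 2))) * ha
      - (y 0 - a 0 * (y 0 * a 0 + y 1 * a 1 + y 2 * a 2)) * hb
      - (-(y 0 * (a 0 * b 0 + a 1 * b 1 + a 2 * b 2)) + a 0 * (y 0 * b 0 + y 1 * b 1 + y 2 * b 2)
          + b 0 * (y 0 * a 0 + y 1 * a 1 + y 2 * a 2)) * hab
  · linear_combination (-(y 1 * (b 0 * b 0 + b 1 * b 1 + b 2 * b 2) - b 1 * (y 0 * b 0 + y 1 * b 1 + y 2 * b 2))) * ha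
      - (y 1 - a 1 * (y 0 * a 0 + y 1 * a 1 + y 2 * a 2)) * hb
      - (-(y 1 * (a 0 * b 0 + a 1 * b 1 + a 2 * b 2)) + a 1 * (y 0 * b 0 + y 1 * b 1 + y 2 * b 2)
          + b 1 * (y 0 * a 0 + y 1 * a 1 + y 2 * a 2)) * hab
  · linear_combination (-(y 2 * (b 0 * b 0 + b 1 * b 1 + b 2 * b 2) - b 2 * (y 0 * b 0 + y 1 * b 1 + y 2 * b 2))) * ha
      - (y 2 - a 2 * (y 0 * a 0 + y 1 * a 1 + y 2 * a 2)) * hb
      - (-(y 2 * (a 0 * b 0 + a 1 * b 1 + a 2 * b 2)) + a 2 * (y 0 * b 0 + y 1 * b 1 + y 2 * b 2)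
          + b 2 * (y 0 * a 0 + y 1 * a 1 + y 2 * a 2)) * hab

theorem mota_unit (v : Fin 3 → ℝ) (hv : v ≠ 0) : ∃ r : ℝ, (r • v) ⬝ᵥ (r • v) = 1 := by
  have h0 : 0 ≤ v ⬝ᵥ v := Finset.sum_nonneg fun i _ => mul_self_nonneg _
  have h1 : v ⬝ᵥ v ≠ 0 := fun h => hv (dotProduct_self_eq_zero.1 h)
  have h2 : 0 < v ⬝ᵥ v := lt_of_le_of_ne h0 (Ne.symm h1)
  refine ⟨(Real.sqrt (v ⬝ᵥ v))⁻¹, ?_⟩
  rw [smul_dotProduct, dotProduct_smul, smul_eq_mul, smul_eq_mul, ← mul_assoc, ← mul_inv,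
    Real.mul_self_sqrt h0, inv_mul_cancel₀ h1]

theorem mota_perp (a : Fin 3 → ℝ) : ∃ b : Fin 3 → ℝ, b ⬝ᵥ b = 1 ∧ a ⬝ᵥ b = 0 := by
  have hdet : (Matrix.of ![a, 0, 0]).det = 0 :=
    Matrix.det_eq_zero_of_row_eq_zero 1 (fun j => by simp)
  obtain ⟨v, hv, hMv⟩ := Matrix.exists_mulVec_eq_zero_iff.2 hdet
  obtain ⟨r, hr⟩ := mota_unit v hv
  refine ⟨r • v, hr, ?_⟩
  have h0 := congrFun hMv 0
  simp only [Matrix.mulVec, Matrix.of_apply, Matrix.cons_val_zero, Pi.zero_apply] at h0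
  rw [dotProduct_smul, h0, smul_zero]

/-- AD2 -/
theorem mota_normal (S : Matrix (Fin 3) (Fin 3) ℝ) (hS : S * Sᵀ = 1) (hdet : S.det = -1)
    (hne : S ≠ -1) : ∃ (a : Fin 3 → ℝ) (ω : ℝ), MotaNF S a ω := by
  have hS' : Sᵀ * S = 1 := mul_eq_one_comm.1 hS
  have hd0 : (S + 1).det = 0 := by
    have e1 : S + 1 = S * (S + 1)ᵀ := by
      rw [Matrix.transpose_add, Matrix.transpose_one, mul_add, mul_one, hS, add_comm]
    have e2 : (S + 1).det = -(S + 1).det := by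
      conv_lhs => rw [e1, Matrix.det_mul, Matrix.det_transpose, hdet]
      ring
    linarith
  obtain ⟨a0, ha0, hSa0⟩ := Matrix.exists_mulVec_eq_zero_iff.2 hd0
  obtain ⟨r, hr⟩ := mota_unit a0 ha0
  obtain ⟨a, ha⟩ : ∃ a, a = r • a0 := ⟨_, rfl⟩
  rw [← ha] at hr
  have hSa : S *ᵥ a = -a := by
    have h1 : (S + 1) *ᵥ a = 0 := by rw [ha, Matrix.mulVec_smul, hSa0, smul_zero]
    rw [Matrix.add_mulVec, Matrix.one_mulVec] at h1
    exact eq_neg_of_add_eq_zero_left h1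
  have hSta : Sᵀ *ᵥ a = -a := by
    have h1 : Sᵀ *ᵥ (S *ᵥ a) = a := by rw [Matrix.mulVec_mulVec, hS', Matrix.one_mulVec]
    rw [hSa, Matrix.mulVec_neg] at h1
    rw [← h1, neg_neg, h1]
  have hdot : ∀ x, (S *ᵥ x) ⬝ᵥ a = -(x ⬝ᵥ a) := by
    intro x
    rw [dotProduct_comm, Matrix.dotProduct_mulVec, ← Matrix.mulVec_transpose, hSta, neg_dotProduct,
      dotProduct_comm]
  have hiso : ∀ x y, (S *ᵥ x) ⬝ᵥ (S *ᵥ y) = x ⬝ᵥ y := by
    intro x y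
    rw [Matrix.dotProduct_mulVec, ← Matrix.mulVec_transpose, Matrix.mulVec_mulVec, hS',
      Matrix.one_mulVec]
  obtain ⟨b, hb, hab⟩ := mota_perp a
  obtain ⟨c, hc⟩ : ∃ c, c = a ⨯₃ b := ⟨_, rfl⟩
  have hJ : ∀ w, S *ᵥ (a ⨯₃ w) = a ⨯₃ (S *ᵥ w) := by
    intro w
    have h1 := mota_cross_equiv S hS a w
    rw [hSa, hdet, map_neg, LinearMap.neg_apply, neg_smul, one_smul] at h1
    exact (neg_injective h1).symm
  have hba : b ⬝ᵥ a = 0 := by rw [dotProduct_comm, hab]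
  have hca : c ⬝ᵥ a = 0 := by rw [hc, dotProduct_comm, dot_self_cross]
  have hbc : b ⬝ᵥ c = 0 := by rw [hc, dot_cross_self]
  have hcb : c ⬝ᵥ b = 0 := by rw [dotProduct_comm, hbc]
  have hcc : c ⬝ᵥ c = 1 := by
    rw [hc, cross_dot_cross, hr, hb, hab, hba]
    ring
  have hexp : ∀ y : Fin 3 → ℝ, y = (y ⬝ᵥ a) • a + (y ⬝ᵥ b) • b + (y ⬝ᵥ c) • c := by
    intro y
    rw [hc]
    exact mota_expand a b hr hb hab y
  have hac : a ⨯₃ c = -b := by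
    rw [hc, cross_cross_eq_smul_sub_smul', hab, hr, zero_smul, one_smul, zero_sub]
  obtain ⟨α, hα⟩ : ∃ α, α = (S *ᵥ b) ⬝ᵥ b := ⟨_, rfl⟩
  obtain ⟨β, hβ⟩ : ∃ β, β = (S *ᵥ b) ⬝ᵥ c := ⟨_, rfl⟩
  have hSb : S *ᵥ b = α • b + β • c := by
    have h1 := hexp (S *ᵥ b)
    rw [hdot b, hba, neg_zero, zero_smul, zero_add, ← hα, ← hβ] at h1
    exact h1
  have hSc : S *ᵥ c = (-β) • b + α • c := by
    rw [hc, hJ, hSb, map_add, map_smul, map_smul, ← hc, hac]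
    module
  have hαβ : α ^ 2 + β ^ 2 = 1 := by
    have h1 := hiso b b
    rw [hSb, hb] at h1
    simp only [add_dotProduct, dotProduct_add, smul_dotProduct, dotProduct_smul, hb, hbc, hcb, hcc,
      smul_eq_mul] at h1
    linarith
  have hα1 : 1 + α ≠ 0 := by
    intro h
    have e1 : α = -1 := by linarith
    have e2 : β = 0 := by
      have : β ^ 2 = 0 := by rw [e1] at hαβ; linarith
      exact pow_eq_zero_iff (two_ne_zero) |>.1 this
    apply hne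
    have hall : ∀ y, S *ᵥ y = -y := by
      intro y
      conv_lhs => rw [hexp y]
      conv_rhs => rw [hexp y]
      rw [Matrix.mulVec_add, Matrix.mulVec_add, Matrix.mulVec_smul, Matrix.mulVec_smul,
        Matrix.mulVec_smul, hSa, hSb, hSc, e1, e2]
      module
    refine Matrix.ext_of_mulVec_single fun i => ?_
    rw [hall, Matrix.neg_mulVec, Matrix.one_mulVec]
  obtain ⟨ω, hω⟩ : ∃ ω, ω = -β / (1 + α) := ⟨_, rfl⟩
  have hω1 : ω * (1 + α) + β = 0 := by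
    rw [hω]
    field_simp
    ring
  have hω2 : ω * β + (1 - α) = 0 := by
    rw [hω]
    field_simp
    linear_combination -hαβ
  refine ⟨a, ω, hr, fun x => ⟨by rw [add_dotProduct, hdot, add_neg_cancel], ?_⟩⟩
  obtain ⟨ξ0, ξ1, ξ2, hx⟩ : ∃ ξ0 ξ1 ξ2 : ℝ, x = ξ0 • a + ξ1 • b + ξ2 • c := ⟨_, _, _, hexp x⟩
  have hSx : S *ᵥ x = (-ξ0) • a + ξ1 • (α • b + β • c) + ξ2 • ((-β) • b + α • c) := by
    rw [hx, Matrix.mulVec_add, Matrix.mulVec_add, Matrix.mulVec_smul, Matrix.mulVec_smul,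
      Matrix.mulVec_smul, hSa, hSb, hSc]
    module
  rw [hSx, hx]
  simp only [add_dotProduct, sub_dotProduct, smul_dotProduct, hr, hba, hca, smul_eq_mul, map_add,
    map_smul, cross_self, ← hc, hac]
  linear_combination (norm := module) hω2 • (ξ1 • b + ξ2 • c) + hω1 • (ξ2 • b - ξ1 • c)

/-- the four classes -/
theorem mota_cases (g : Pt 3 ≃ᵃⁱ[ℝ] Pt 3) :
    MotaNd 1 g ∨ MotaNd (-1) g ∨ MotaDeg 1 g ∨ MotaDeg (-1) g := by
  obtain ⟨A, h, hA, hg⟩ := mota_matrix g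
  have hdet : A.det = 1 ∨ A.det = -1 := by
    have h1 : A.det * A.det = 1 := by
      have h2 := congrArg Matrix.det hA
      rwa [Matrix.det_mul, Matrix.det_transpose, Matrix.det_one] at h2
    exact mul_self_eq_one_iff.1 h1
  rcases hdet with hd | hd
  · by_cases hA1 : A = 1
    · right; right; left
      exact ⟨h, fun x => by rw [hg x, hA1, Matrix.one_mulVec, one_smul]⟩
    · right; left
      obtain ⟨a, ω, hN⟩ := mota_normal (-A) (by rw [Matrix.transpose_neg, neg_mul_neg, hA])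
        (by rw [Matrix.det_neg, hd]; norm_num) (by intro h'; exact hA1 (neg_injective h'))
      exact ⟨-A, -h, a, ω, hN, fun x => by rw [hg x, Matrix.neg_mulVec, neg_one_smul, neg_add]⟩
  · by_cases hA1 : A = -1
    · right; right; right
      exact ⟨h, fun x => by rw [hg x, hA1, Matrix.neg_mulVec, Matrix.one_mulVec, neg_one_smul]⟩
    · left
      obtain ⟨a, ω, hN⟩ := mota_normal A hA hd hA1
      exact ⟨A, h, a, ω, hN, fun x => by rw [one_smul, hg x]⟩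

/-! ## AD3: the match relation -/

theorem mota_lab_add (S : Matrix (Fin 3) (Fin 3) ℝ) (h x : Fin 3 → ℝ) :
    (motaLab S h x).1 + (motaLab S h x).2 = x := by
  unfold motaLab
  ext i
  simp only [Pi.add_apply, Pi.smul_apply, Pi.sub_apply, smul_eq_mul]
  ring

theorem mota_lab_sub (S : Matrix (Fin 3) (Fin 3) ℝ) (h x : Fin 3 → ℝ) :
    (motaLab S h x).1 - (motaLab S h x).2 = S *ᵥ x + h := by
  unfold motaLab
  ext i
  simp only [Pi.add_apply, Pi.smul_apply, Pi.sub_apply, smul_eq_mul]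
  ring

theorem mota_match_of {S : Matrix (Fin 3) (Fin 3) ℝ} {a : Fin 3 → ℝ} {ω : ℝ} (hN : MotaNF S a ω)
    (h x : Fin 3 → ℝ) : (motaRev a ω h).Match (motaLab S h x).1 (motaLab S h x).2 := by
  obtain ⟨h1, h2⟩ := hN.2 x
  set P := x + S *ᵥ x with hP
  set Q := x - S *ᵥ x with hQ
  have hv : (motaLab S h x).1 = ((1 : ℝ) / 2) • (P + h) := by
    unfold motaLab
    simp only [hP, add_assoc]
  have hb : (motaLab S h x).2 = ((1 : ℝ) / 2) • (Q - h) := by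
    unfold motaLab
    simp only [hQ, sub_sub]
  rw [hv, hb]
  constructor
  · simp only [motaRev, smul_dotProduct, add_dotProduct, h1, smul_eq_mul]
    ring
  · simp only [motaRev, smul_dotProduct, sub_dotProduct, smul_eq_mul, map_smul, map_add]
    linear_combination (norm := module) ((1 : ℝ) / 2) • h2

theorem mota_match_iff {S : Matrix (Fin 3) (Fin 3) ℝ} {a : Fin 3 → ℝ} {ω : ℝ} (hN : MotaNF S a ω)
    (h v b : Fin 3 → ℝ) : (motaRev a ω h).Match v b ↔ v - b = S *ᵥ (v + b) + h := by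
  constructor
  · intro hM
    have hM' := mota_match_of hN h (v + b)
    set v' := (motaLab S h (v + b)).1 with hv'
    set b' := (motaLab S h (v + b)).2 with hb'
    have hadd : v' + b' = v + b := mota_lab_add S h (v + b)
    have hsub : v' - b' = S *ᵥ (v + b) + h := mota_lab_sub S h (v + b)
    set δ := v - v' with hδ
    have hbδ : b - b' = -δ := by
      rw [hδ]
      linear_combination (norm := module) -hadd
    have k1 : δ ⬝ᵥ a = 0 := by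
      rw [hδ, sub_dotProduct]
      have e1 := hM.1
      have e2 := hM'.1
      simp only [motaRev] at e1 e2
      rw [e1, e2, sub_self]
    have k2 : -δ = ω • (a ⨯₃ δ) := by
      have e1 := hM.2
      have e2 := hM'.2
      simp only [motaRev] at e1 e2
      have e3 : (b - b') - ((b - b') ⬝ᵥ a) • a = ω • (a ⨯₃ (v - v')) := by
        rw [sub_dotProduct, map_sub]
        linear_combination (norm := module) e1 - e2
      rw [hbδ, neg_dotProduct, k1, neg_zero, zero_smul, sub_zero] at e3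
      exact e3
    have k3 : δ ⬝ᵥ δ = 0 := by
      have e4 : δ ⬝ᵥ (-δ) = 0 := by
        rw [k2, dotProduct_smul, dot_cross_self, smul_zero]
      rw [dotProduct_neg] at e4
      linarith
    have k4 : δ = 0 := dotProduct_self_eq_zero.1 k3
    have hvv : v = v' := sub_eq_zero.1 k4
    have hbb : b = b' := by
      have : b - b' = 0 := by rw [hbδ, k4, neg_zero]
      exact sub_eq_zero.1 this
    rw [← hsub, ← hvv, ← hbb]
  · intro hvb
    have hM' := mota_match_of hN h (v + b)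
    have hadd := mota_lab_add S h (v + b)
    have hsub := mota_lab_sub S h (v + b)
    have e1 : (motaLab S h (v + b)).1 = v := by
      have : (2 : ℝ) • (motaLab S h (v + b)).1 = (2 : ℝ) • v := by
        linear_combination (norm := module) hadd + hsub - hvb
      exact smul_right_injective _ (two_ne_zero) this
    have e2 : (motaLab S h (v + b)).2 = b := by
      have : (2 : ℝ) • (motaLab S h (v + b)).2 = (2 : ℝ) • b := by
        linear_combination (norm := module) hadd - hsub + hvb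
      exact smul_right_injective _ (two_ne_zero) this
    rwa [e1, e2] at hM'

/-! ## AD4: caps -/

theorem mota_M_apply (S : Matrix (Fin 3) (Fin 3) ℝ) (a x : Fin 3 → ℝ) :
    motaM S a *ᵥ x = ((1 : ℝ) / 2) • (x + S *ᵥ x) - ((S *ᵥ x) ⬝ᵥ a) • a := by
  unfold motaM
  rw [Matrix.sub_mulVec, Matrix.smul_mulVec, Matrix.add_mulVec, Matrix.one_mulVec,
    Matrix.vecMulVec_mulVec, Matrix.mulVec_transpose, ← Matrix.dotProduct_mulVec,
    dotProduct_comm a, op_smul_eq_smul]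

theorem mota_pt_lab (S : Matrix (Fin 3) (Fin 3) ℝ) (a : Fin 3 → ℝ) (ω : ℝ) (h x : Fin 3 → ℝ) :
    (motaRev a ω h).pt (motaLab S h x) = motaM S a *ᵥ x + motaC a h := by
  rw [mota_M_apply]
  unfold MotRev.pt motaLab motaC motaRev
  simp only [smul_dotProduct, sub_dotProduct, add_dotProduct, smul_eq_mul]
  module

theorem mota_M_inj {S : Matrix (Fin 3) (Fin 3) ℝ} {a : Fin 3 → ℝ} {ω : ℝ} (hN : MotaNF S a ω)
    (x : Fin 3 → ℝ) (hx : motaM S a *ᵥ x = 0) : x = 0 := by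
  rw [mota_M_apply] at hx
  obtain ⟨h1, h2⟩ := hN.2 x
  have ha := hN.1
  have e1 : (S *ᵥ x) ⬝ᵥ a = 0 := by
    have := congrArg (fun z => z ⬝ᵥ a) hx
    simp only [sub_dotProduct, smul_dotProduct, h1, ha, zero_dotProduct, smul_eq_mul] at this
    linarith
  have e2 : x ⬝ᵥ a = 0 := by
    rw [add_dotProduct, e1, add_zero] at h1
    exact h1
  have e3 : x + S *ᵥ x = 0 := by
    rw [e1, zero_smul, sub_zero] at hx
    have := congrArg (fun z => (2 : ℝ) • z) hx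
    simpa [smul_smul] using this
  rw [e3, map_zero, smul_zero, sub_dotProduct, e1, e2, sub_zero, zero_smul, sub_zero] at h2
  have e4 : (2 : ℝ) • x = 0 := by
    linear_combination (norm := module) e3 + h2
  exact (smul_eq_zero.1 e4).resolve_left two_ne_zero

theorem mota_inj_surj (M : Matrix (Fin 3) (Fin 3) ℝ) (hM : ∀ x, M *ᵥ x = 0 → x = 0) :
    Function.Injective M.mulVec ∧ Function.Surjective M.mulVec := by
  have h1 : Function.Injective M.mulVecLin := by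
    refine (injective_iff_map_eq_zero _).2 fun x hx => hM x ?_
    simpa using hx
  have h2 : Function.Surjective M.mulVecLin := LinearMap.injective_iff_surjective.1 h1
  exact ⟨fun x y hxy => h1 (by simpa using hxy), fun y => by
    obtain ⟨x, hx⟩ := h2 y
    exact ⟨x, by simpa using hx⟩⟩

theorem mota_collinear (M : Matrix (Fin 3) (Fin 3) ℝ) (hM : ∀ x, M *ᵥ x = 0 → x = 0) (c : Fin 3 → ℝ)
    (T : Finset (Pt 3))
    (hc : Collinear ℝ ((fun x : Pt 3 => M *ᵥ x.ofLp + c) '' (T : Set (Pt 3)))) :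
    Collinear ℝ (T : Set (Pt 3)) := by
  obtain ⟨hinj, hsurj⟩ := mota_inj_surj M hM
  rw [collinear_iff_exists_forall_eq_smul_vadd] at hc ⊢
  obtain ⟨p0, w, hp⟩ := hc
  obtain ⟨w', hw'⟩ := hsurj w
  obtain ⟨p0', hp0'⟩ := hsurj (p0 - c)
  refine ⟨WithLp.toLp 2 p0', WithLp.toLp 2 w', fun x hx => ?_⟩
  obtain ⟨r, hr⟩ := hp _ ⟨x, hx, rfl⟩
  refine ⟨r, WithLp.ofLp_injective _ (hinj ?_)⟩
  simp only [vadd_eq_add, WithLp.ofLp_add, WithLp.ofLp_smul] at hr ⊢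
  rw [Matrix.mulVec_add, Matrix.mulVec_smul, hw', hp0']
  linear_combination (norm := module) hr

theorem mota_coplanar (M : Matrix (Fin 3) (Fin 3) ℝ) (hM : ∀ x, M *ᵥ x = 0 → x = 0) (c : Fin 3 → ℝ)
    (T : Finset (Pt 3)) (ν : Fin 3 → ℝ) (β : ℝ) (hν : ν ≠ 0)
    (hc : ∀ x ∈ T, ν ⬝ᵥ (M *ᵥ x.ofLp + c) = β) :
    Coplanar ℝ (T : Set (Pt 3)) := by
  obtain ⟨hinj, hsurj⟩ := mota_inj_surj M hM
  set φ : Pt 3 →ₗ[ℝ] ℝ :=
    { toFun := fun x => ν ⬝ᵥ (M *ᵥ x.ofLp)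
      map_add' := fun x y => by
        rw [WithLp.ofLp_add, Matrix.mulVec_add, dotProduct_add]
      map_smul' := fun r x => by
        rw [WithLp.ofLp_smul, Matrix.mulVec_smul, dotProduct_smul]
        rfl } with hφ
  have hφx : ∀ x, φ x = ν ⬝ᵥ (M *ᵥ x.ofLp) := fun x => rfl
  have hφ0 : φ ≠ 0 := by
    intro h0
    obtain ⟨z, hz⟩ := hsurj ν
    have h1 : φ (WithLp.toLp 2 z) = 0 := by rw [h0]; rfl
    rw [hφx] at h1
    change ν ⬝ᵥ M.mulVec z = 0 at h1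
    rw [hz] at h1
    exact hν (dotProduct_self_eq_zero.1 h1)
  have hker : Module.finrank ℝ (LinearMap.ker φ) + 1 = Module.finrank ℝ (Pt 3) :=
    Module.Dual.finrank_ker_add_one_of_ne_zero hφ0
  have h3 : Module.finrank ℝ (Pt 3) = 3 := by simp
  have hle : vectorSpan ℝ (T : Set (Pt 3)) ≤ LinearMap.ker φ := by
    rw [vectorSpan_def, Submodule.span_le]
    rintro _ ⟨x, hx, y, hy, rfl⟩
    have e1 := hc x hx
    have e2 := hc y hy
    rw [dotProduct_add] at e1 e2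
    rw [SetLike.mem_coe, LinearMap.mem_ker]
    change φ (x - y) = 0
    rw [map_sub, hφx, hφx]
    linarith
  rw [coplanar_iff_finrank_le_two]
  have := Submodule.finrank_mono hle
  omega

/-! ## AD5: the degenerate classes -/

theorem mota_prod_card (m : ℝ) (X Y : Finset (Pt 3)) (hm : 1 ≤ m) (hX : (X.card : ℝ) ≤ m)
    (hY : (Y.card : ℝ) ≤ m) : ((X ×ˢ Y).card : ℝ) ≤ m ^ 2 := by
  rw [Finset.card_product, Nat.cast_mul, sq]
  exact mul_le_mul hX hY (Nat.cast_nonneg _) (by linarith)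

theorem mota_deg_count (ε m ℓ : ℝ) (X Y : Finset (Pt 3)) (hm : 1 ≤ m) (hX : (X.card : ℝ) ≤ m)
    (hY : (Y.card : ℝ) ≤ m) (𝒢 : Finset (Pt 3 ≃ᵃⁱ[ℝ] Pt 3))
    (h𝒢 : ∀ g ∈ 𝒢, MotaDeg ε g ∧ ℓ ≤ (matchCount X Y g : ℝ)) :
    (𝒢.card : ℝ) * ℓ ≤ m ^ 2 := by
  set P : Finset (Σ _ : Pt 3 ≃ᵃⁱ[ℝ] Pt 3, Pt 3) :=
    𝒢.sigma (fun g => X.filter (fun x => g x ∈ Y)) with hP
  have hPc : (P.card : ℝ) = ∑ g ∈ 𝒢, (matchCount X Y g : ℝ) := by
    rw [hP, Finset.card_sigma, Nat.cast_sum]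
    rfl
  have h1 : (𝒢.card : ℝ) * ℓ ≤ P.card := by
    rw [hPc, ← nsmul_eq_mul, ← Finset.sum_const]
    exact Finset.sum_le_sum fun g hg => (h𝒢 g hg).2
  have h2 : P.card ≤ (X ×ˢ Y).card := by
    refine Finset.card_le_card_of_injOn (fun p => (p.2, p.1 p.2)) ?_ ?_
    · rintro ⟨g, x⟩ hp
      obtain ⟨_, hx⟩ := Finset.mem_sigma.1 hp
      obtain ⟨hx1, hx2⟩ := Finset.mem_filter.1 hx
      exact Finset.mem_coe.2 (Finset.mem_product.2 ⟨hx1, hx2⟩)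
    · rintro ⟨g, x⟩ hp ⟨g', x'⟩ hp' hpp
      obtain ⟨hg, _⟩ := Finset.mem_sigma.1 (Finset.mem_coe.1 hp)
      obtain ⟨hg', _⟩ := Finset.mem_sigma.1 (Finset.mem_coe.1 hp')
      simp only [Prod.mk.injEq] at hpp
      obtain ⟨rfl, hgx⟩ := hpp
      obtain ⟨h, hh⟩ := (h𝒢 g hg).1
      obtain ⟨h', hh'⟩ := (h𝒢 g' hg').1
      have e1 : h = h' := by
        have e2 := hh x
        rw [hgx, hh' x] at e2
        exact (add_left_cancel e2).symm
      have e3 : g = g' := by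
        ext1 z
        exact WithLp.ofLp_injective _ (by rw [hh z, hh' z, e1])
      rw [e3]
  have h3 : (P.card : ℝ) ≤ ((X ×ˢ Y).card : ℝ) := by exact_mod_cast h2
  exact h1.trans (h3.trans (mota_prod_card m X Y hm hX hY))

theorem mota_deg_num (m ℓ n : ℝ) (hm : 1 ≤ m) (hℓ0 : 0 < ℓ) (hℓm : ℓ ≤ m) (hn : n * ℓ ≤ m ^ 2) :
    n ≤ m ^ 3 / ℓ ^ ((3 : ℝ) / 2) := by
  have hpos : 0 < ℓ ^ ((3 : ℝ) / 2) := Real.rpow_pos_of_pos hℓ0 _
  rw [le_div_iff₀ hpos]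
  have e1 : ℓ ^ ((3 : ℝ) / 2) = ℓ * ℓ ^ ((1 : ℝ) / 2) := by
    rw [show (3 : ℝ) / 2 = 1 + 1 / 2 by norm_num, Real.rpow_add hℓ0, Real.rpow_one]
  have e2 : ℓ ^ ((1 : ℝ) / 2) ≤ m := by
    calc ℓ ^ ((1 : ℝ) / 2) ≤ m ^ ((1 : ℝ) / 2) :=
          Real.rpow_le_rpow hℓ0.le hℓm (by norm_num)
      _ ≤ m ^ (1 : ℝ) := Real.rpow_le_rpow_of_exponent_le hm (by norm_num)
      _ = m := Real.rpow_one m
  have e3 : 0 ≤ ℓ ^ ((1 : ℝ) / 2) := (Real.rpow_pos_of_pos hℓ0 _).le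
  calc n * ℓ ^ ((3 : ℝ) / 2) = (n * ℓ) * ℓ ^ ((1 : ℝ) / 2) := by rw [e1]; ring
    _ ≤ m ^ 2 * ℓ ^ ((1 : ℝ) / 2) := mul_le_mul_of_nonneg_right hn e3
    _ ≤ m ^ 2 * m := mul_le_mul_of_nonneg_left e2 (by positivity)
    _ = m ^ 3 := by ring

/-! ## AD6: assembly -/

theorem mota_E_card (sg m : ℝ) (X Y : Finset (Pt 3)) (hm : 1 ≤ m) (hX : (X.card : ℝ) ≤ m)
    (hY : (Y.card : ℝ) ≤ m) : ((motaE sg X Y).card : ℝ) ≤ m ^ 2 := by
  have h1 : ((motaE sg X Y).card : ℝ) ≤ ((X ×ˢ Y).card : ℝ) := by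
    unfold motaE
    exact_mod_cast Finset.card_image_le
  exact h1.trans (mota_prod_card m X Y hm hX hY)

theorem mota_labels {S : Matrix (Fin 3) (Fin 3) ℝ} {a : Fin 3 → ℝ} {ω : ℝ} (hN : MotaNF S a ω)
    (h : Fin 3 → ℝ) (sg : ℝ) (hsg : sg * sg = 1) (g : Pt 3 ≃ᵃⁱ[ℝ] Pt 3)
    (hg : ∀ x : Pt 3, sg • (g x).ofLp = S *ᵥ x.ofLp + h) (X Y : Finset (Pt 3)) :
    (motaRev a ω h).labels (motaE sg X Y) =
      (X.filter (fun x => g x ∈ Y)).image (fun x => motaLab S h x.ofLp) := by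
  ext e
  simp only [MotRev.labels, Finset.mem_filter, Finset.mem_image, motaE, Finset.mem_product,
    Prod.exists]
  constructor
  · rintro ⟨⟨x, y, ⟨hx, hy⟩, rfl⟩, hM⟩
    rw [mota_match_iff hN] at hM
    have e1 : ((1 : ℝ) / 2) • (x.ofLp + sg • y.ofLp) - ((1 : ℝ) / 2) • (x.ofLp - sg • y.ofLp) =
        sg • y.ofLp := by module
    have e2 : ((1 : ℝ) / 2) • (x.ofLp + sg • y.ofLp) + ((1 : ℝ) / 2) • (x.ofLp - sg • y.ofLp) =
        x.ofLp := by module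
    simp only at hM
    rw [e1, e2, ← hg x] at hM
    have e3 : sg • sg • y.ofLp = sg • sg • (g x).ofLp := by rw [hM]
    rw [smul_smul, smul_smul, hsg, one_smul, one_smul] at e3
    have e4 : y = g x := WithLp.ofLp_injective _ e3
    subst e4
    refine ⟨x, ⟨hx, hy⟩, ?_⟩
    unfold motaLab
    rw [← hg x]
  · rintro ⟨x, ⟨hx, hy⟩, rfl⟩
    refine ⟨⟨x, g x, ⟨hx, hy⟩, ?_⟩, mota_match_of hN h x.ofLp⟩
    unfold motaLab
    rw [← hg x]

theorem mota_lab_inj (S : Matrix (Fin 3) (Fin 3) ℝ) (h : Fin 3 → ℝ) :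
    Function.Injective (fun x : Pt 3 => motaLab S h x.ofLp) := by
  intro x y hxy
  have h1 := mota_lab_add S h x.ofLp
  have h2 := mota_lab_add S h y.ofLp
  simp only at hxy
  rw [hxy] at h1
  exact WithLp.ofLp_injective _ (h1.symm.trans h2)

/-- one nondegenerate class -/
theorem mota_class {η1 η2 C K : ℝ} (H : MotCoreAt η1 η2 C K) (sg : ℝ) (hsg : sg * sg = 1)
    (m ℓ : ℝ) (X Y : Finset (Pt 3)) (hm : 1 ≤ m) (hX : (X.card : ℝ) ≤ m) (hY : (Y.card : ℝ) ≤ m)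
    (hℓm : ℓ ≤ m) (hℓ : C * m ^ ((2 : ℝ) / 3) ≤ ℓ) (𝒢 : Finset (Pt 3 ≃ᵃⁱ[ℝ] Pt 3))
    (h𝒢 : ∀ g ∈ 𝒢, MotaNd sg g ∧ ℓ ≤ (matchCount X Y g : ℝ) ∧ (matchCount X Y g : ℝ) < 2 * ℓ ∧
      (∀ T ⊆ X.filter (fun x => g x ∈ Y), Collinear ℝ (T : Set (Pt 3)) → (T.card : ℝ) < η1 * ℓ) ∧
      (∀ T ⊆ X.filter (fun x => g x ∈ Y), Coplanar ℝ (T : Set (Pt 3)) → (T.card : ℝ) < η2 * ℓ)) :
    (𝒢.card : ℝ) ≤ K * m ^ 3 / ℓ ^ ((3 : ℝ) / 2) := by
  have hnd : ∀ g ∈ 𝒢, ∃ (S : Matrix (Fin 3) (Fin 3) ℝ) (h a : Fin 3 → ℝ) (ω : ℝ), MotaNF S a ω ∧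
      ∀ x : Pt 3, sg • (g x).ofLp = S *ᵥ x.ofLp + h := fun g hg => (h𝒢 g hg).1
  choose! S h a ω hN hg using hnd
  set D : (Pt 3 ≃ᵃⁱ[ℝ] Pt 3) → MotRev := fun g => motaRev (a g) (ω g) (h g) with hD
  have hinj : ∀ g ∈ 𝒢, ∀ g' ∈ 𝒢, (∀ v b, (D g).Match v b ↔ (D g').Match v b) → g = g' := by
    intro g hg1 g' hg2 hM
    ext1 x
    have m1 : (D g).Match (motaLab (S g) (h g) x.ofLp).1 (motaLab (S g) (h g) x.ofLp).2 :=
      (mota_match_iff (hN g hg1) _ _ _).2 (by rw [mota_lab_add, mota_lab_sub])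
    have m2 := (mota_match_iff (hN g' hg2) _ _ _).1 ((hM _ _).1 m1)
    rw [mota_lab_add, mota_lab_sub, ← hg g hg1 x, ← hg g' hg2 x] at m2
    have m3 : sg • sg • (g x).ofLp = sg • sg • (g' x).ofLp := by rw [m2]
    rw [smul_smul, smul_smul, hsg, one_smul, one_smul] at m3
    exact WithLp.ofLp_injective _ m3
  have hDinj : Set.InjOn D (𝒢 : Set (Pt 3 ≃ᵃⁱ[ℝ] Pt 3)) := by
    intro g hg1 g' hg2 hgg
    exact hinj g hg1 g' hg2 (fun v b => by rw [hgg])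
  have hlab : ∀ g ∈ 𝒢, (D g).labels (motaE sg X Y) =
      (X.filter (fun x => g x ∈ Y)).image (fun x => motaLab (S g) (h g) x.ofLp) :=
    fun g hg1 => mota_labels (hN g hg1) (h g) sg hsg g (hg g hg1) X Y
  have hlabc : ∀ g ∈ 𝒢, ((D g).labels (motaE sg X Y)).card = matchCount X Y g := by
    intro g hg1
    rw [hlab g hg1, Finset.card_image_of_injective _ (mota_lab_inj _ _)]
    rfl
  have hfin := H m ℓ (motaE sg X Y) (𝒢.image D) hm (mota_E_card sg m X Y hm hX hY) hℓm hℓ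
    (by
      intro D' hD'
      obtain ⟨g, hg1, rfl⟩ := Finset.mem_image.1 hD'
      exact (hN g hg1).1)
    (by
      intro D' hD' D'' hD'' hM
      obtain ⟨g, hg1, rfl⟩ := Finset.mem_image.1 hD'
      obtain ⟨g', hg2, rfl⟩ := Finset.mem_image.1 hD''
      rw [hinj g hg1 g' hg2 hM])
    (by
      intro D' hD'
      obtain ⟨g, hg1, rfl⟩ := Finset.mem_image.1 hD'
      rw [hlabc g hg1]
      exact ⟨(h𝒢 g hg1).2.1, (h𝒢 g hg1).2.2.1⟩)
    (by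
      intro D' hD' T hT hc
      obtain ⟨g, hg1, rfl⟩ := Finset.mem_image.1 hD'
      rw [hlab g hg1] at hT
      obtain ⟨T', hT', rfl⟩ := Finset.subset_image_iff.1 hT
      have hc' : Collinear ℝ (T' : Set (Pt 3)) := by
        refine mota_collinear (motaM (S g) (a g)) (mota_M_inj (hN g hg1)) (motaC (a g) (h g)) T' ?_
        convert hc using 1
        rw [Finset.coe_image, Set.image_image]
        refine Set.image_congr fun x _ => ?_
        exact (mota_pt_lab (S g) (a g) (ω g) (h g) x.ofLp).symm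
      have h5 := (h𝒢 g hg1).2.2.2.1 T' hT' hc'
      have h6 : ((T'.image (fun x => motaLab (S g) (h g) x.ofLp)).card : ℝ) ≤ T'.card := by
        exact_mod_cast Finset.card_image_le
      linarith)
    (by
      intro D' hD' T hT ν β hν hc
      obtain ⟨g, hg1, rfl⟩ := Finset.mem_image.1 hD'
      rw [hlab g hg1] at hT
      obtain ⟨T', hT', rfl⟩ := Finset.subset_image_iff.1 hT
      have hc' : Coplanar ℝ (T' : Set (Pt 3)) := by
        refine mota_coplanar (motaM (S g) (a g)) (mota_M_inj (hN g hg1)) (motaC (a g) (h g)) T' ν β hν ?_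
        intro x hx
        rw [← mota_pt_lab (S g) (a g) (ω g) (h g) x.ofLp]
        exact hc _ (Finset.mem_image_of_mem _ hx)
      have h5 := (h𝒢 g hg1).2.2.2.2 T' hT' hc'
      have h6 : ((T'.image (fun x => motaLab (S g) (h g) x.ofLp)).card : ℝ) ≤ T'.card := by
        exact_mod_cast Finset.card_image_le
      linarith)
  rwa [Finset.card_image_of_injOn hDinj] at hfin

/-- **the adapter** -/
theorem mota_gen (hc : MotCoreStmt) : MotGen := by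
  obtain ⟨η1, η2, C, K, h1, h2, hC, hK, H⟩ := hc
  have H' : MotCoreAt η1 η2 C K := H
  refine ⟨η1, η2, C, 2 * K + 2, h1, h2, hC, by positivity, ?_⟩
  intro m ℓ X Y hm hX hY hℓ 𝒢 h𝒢
  have hm0 : (0 : ℝ) < m := by linarith
  have hℓ0 : 0 < ℓ := lt_of_lt_of_le (by positivity) hℓ
  have hB0 : 0 ≤ m ^ 3 / ℓ ^ ((3 : ℝ) / 2) := by positivity
  rcases 𝒢.eq_empty_or_nonempty with rfl | ⟨g0, hg0⟩
  · simp only [Finset.card_empty, Nat.cast_zero]
    positivity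
  have hℓm : ℓ ≤ m := by
    have h3 := (h𝒢 g0 hg0).1
    have h4 : (matchCount X Y g0 : ℝ) ≤ X.card := by
      unfold matchCount
      exact_mod_cast Finset.card_filter_le _ _
    linarith
  have c1 := mota_class H' 1 (by norm_num) m ℓ X Y hm hX hY hℓm hℓ (𝒢.filter (MotaNd 1)) (by
    intro g hg
    obtain ⟨hg1, hg2⟩ := Finset.mem_filter.1 hg
    exact ⟨hg2, h𝒢 g hg1⟩)
  have c2 := mota_class H' (-1) (by norm_num) m ℓ X Y hm hX hY hℓm hℓ (𝒢.filter (MotaNd (-1))) (by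
    intro g hg
    obtain ⟨hg1, hg2⟩ := Finset.mem_filter.1 hg
    exact ⟨hg2, h𝒢 g hg1⟩)
  have c3 := mota_deg_num m ℓ _ hm hℓ0 hℓm
    (mota_deg_count 1 m ℓ X Y hm hX hY (𝒢.filter (MotaDeg 1)) (by
      intro g hg
      obtain ⟨hg1, hg2⟩ := Finset.mem_filter.1 hg
      exact ⟨hg2, (h𝒢 g hg1).1⟩))
  have c4 := mota_deg_num m ℓ _ hm hℓ0 hℓm
    (mota_deg_count (-1) m ℓ X Y hm hX hY (𝒢.filter (MotaDeg (-1))) (by
      intro g hg
      obtain ⟨hg1, hg2⟩ := Finset.mem_filter.1 hg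
      exact ⟨hg2, (h𝒢 g hg1).1⟩))
  have hcov : 𝒢 ⊆ ((𝒢.filter (MotaNd 1) ∪ 𝒢.filter (MotaNd (-1))) ∪ 𝒢.filter (MotaDeg 1)) ∪
      𝒢.filter (MotaDeg (-1)) := by
    intro g hg
    simp only [Finset.mem_union, Finset.mem_filter]
    rcases mota_cases g with h | h | h | h
    · exact Or.inl (Or.inl (Or.inl ⟨hg, h⟩))
    · exact Or.inl (Or.inl (Or.inr ⟨hg, h⟩))
    · exact Or.inl (Or.inr ⟨hg, h⟩)
    · exact Or.inr ⟨hg, h⟩
  have hcard : 𝒢.card ≤ (𝒢.filter (MotaNd 1)).card + (𝒢.filter (MotaNd (-1))).card +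
      (𝒢.filter (MotaDeg 1)).card + (𝒢.filter (MotaDeg (-1))).card := by
    refine (Finset.card_le_card hcov).trans ?_
    refine (Finset.card_union_le _ _).trans ?_
    gcongr
    refine (Finset.card_union_le _ _).trans ?_
    gcongr
    exact Finset.card_union_le _ _
  have hcard' : (𝒢.card : ℝ) ≤ ((𝒢.filter (MotaNd 1)).card : ℝ) + (𝒢.filter (MotaNd (-1))).card +
      (𝒢.filter (MotaDeg 1)).card + (𝒢.filter (MotaDeg (-1))).card := by
    exact_mod_cast hcard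
  have e1 : (2 * K + 2) * m ^ 3 / ℓ ^ ((3 : ℝ) / 2) =
      K * m ^ 3 / ℓ ^ ((3 : ℝ) / 2) + K * m ^ 3 / ℓ ^ ((3 : ℝ) / 2) + m ^ 3 / ℓ ^ ((3 : ℝ) / 2) +
        m ^ 3 / ℓ ^ ((3 : ℝ) / 2) := by ring
  rw [e1]
  linarith

end Claimed.Agent.R273
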