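import Claimed.Agent.R273.MotLocTop

/-!
# Row 273, unit GK+LOC: `MotDualStmt → MotCoreStmt` (motions.tex l.376-480, the polynomial argument).   Architect: helper231.   Prefix `motc_`.

Read the header of `MotLocTop.lean` first (definitions `MotRev`, `Match`, `pt`, `labels`, `motF`, `motG`, `motDual`).
LEAVES (fill IN PLACE, statements frozen, Mathlib + Pk*.lean only, no paper):
* ML-CORE-A  section A  flats algebra (vector identities in `Fin 3 → ℝ`; everything is `ext i; fin_cases i; simp [cross_apply, ...]; linear_combination (..) * ha`)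
* ML-CORE-B  section B  gradient lemma
* ML-CORE-C  section C  separation + propagation to the pair flats
* ML-CORE-D  section D  pruning of a bipartite graph
* ML-CORE-N  section N  numerics
GLUE (proved here): derivative closure `motc_closure`, descent `motc_zero`, final assembly `motc_core`.
-/

set_option autoImplicit false
set_option linter.unusedSimpArgs false

namespace Claimed.Agent.R273

open MvPolynomial Matrix
open scoped Classical

/-! ## A. Flats algebra  (leaf ML-CORE-A) -/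

/-- A point of the motion flat lying on the dual plane of a label lies on the pair flat of the label.
Proof.  Put `w = ω a + u - (u·a) a`, `c = (u·a) a + d + v0 a × u`.  With (K1) `v·a = v0`, (K2) `b = (b·a) a + ω a × v + d` one gets
`b - w × v - c = (b·a - u·a - u·(v × a)) a`  [uses `u × v - (u·a) a × v + (v·a) a × u = ((u × v)·a) a` for `a·a = 1`], and
`motDual a (pt (v,b)) u` says `u·a + u·(v × a) = b·a` (as `pt = v + (b·a - v·a) a`, `pt × a = v × a`, `pt·a = b·a`). -/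
theorem motc_G_mem_F (D : MotRev) (ha : D.a ⬝ᵥ D.a = 1) {v b : Fin 3 → ℝ} (hM : D.Match v b)
    (u : Fin 3 → ℝ) (hu : motDual D.a (D.pt (v, b)) u) :
    motG D u = motF v b (D.ω • D.a + u - (u ⬝ᵥ D.a) • D.a) := by
  obtain ⟨a, ω, v0, d⟩ := D
  obtain ⟨h1, h2⟩ := hM
  simp only [motDual, MotRev.pt] at hu
  simp only at ha h1 h2
  have k0 := congrFun h2 0
  have k1 := congrFun h2 1
  have k2 := congrFun h2 2
  simp only [motG, motF]
  congr 1
  simp only [dotProduct, Fin.sum_univ_three, cross_apply, Pi.add_apply, Pi.sub_apply, Pi.smul_apply, smul_eq_mul,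
    Matrix.cons_val_zero, Matrix.cons_val_one, Matrix.cons_val_two, Matrix.head_cons, Matrix.tail_cons] at *
  ext i
  fin_cases i
  · simp only [dotProduct, Fin.sum_univ_three, cross_apply, Pi.add_apply, Pi.sub_apply, Pi.smul_apply, smul_eq_mul,
      Matrix.cons_val_zero, Matrix.cons_val_one, Matrix.cons_val_two, Matrix.head_cons, Matrix.tail_cons, Fin.zero_eta, Fin.isValue]
    linear_combination (-1) * k0 - (a 1 * u 2 - a 2 * u 1) * h1 + a 0 * hu +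
      (a 0 * ((b 0 * a 0 + b 1 * a 1 + b 2 * a 2) - (v 0 * a 0 + v 1 * a 1 + v 2 * a 2)) - (u 1 * v 2 - u 2 * v 1)) * ha
  · simp only [dotProduct, Fin.sum_univ_three, cross_apply, Pi.add_apply, Pi.sub_apply, Pi.smul_apply, smul_eq_mul,
      Matrix.cons_val_zero, Matrix.cons_val_one, Matrix.cons_val_two, Matrix.head_cons, Matrix.tail_cons, Fin.mk_one, Fin.isValue]
    linear_combination (-1) * k1 - (a 2 * u 0 - a 0 * u 2) * h1 + a 1 * hu +
      (a 1 * ((b 0 * a 0 + b 1 * a 1 + b 2 * a 2) - (v 0 * a 0 + v 1 * a 1 + v 2 * a 2)) - (u 2 * v 0 - u 0 * v 2)) * ha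
  · simp only [dotProduct, Fin.sum_univ_three, cross_apply, Pi.add_apply, Pi.sub_apply, Pi.smul_apply, smul_eq_mul,
      Matrix.cons_val_zero, Matrix.cons_val_one, Matrix.cons_val_two, Matrix.head_cons, Matrix.tail_cons, Fin.reduceFinMk, Fin.isValue]
    linear_combination (-1) * k2 - (a 0 * u 1 - a 1 * u 0) * h1 + a 2 * hu +
      (a 2 * ((b 0 * a 0 + b 1 * a 1 + b 2 * a 2) - (v 0 * a 0 + v 1 * a 1 + v 2 * a 2)) - (u 0 * v 1 - u 1 * v 0)) * ha

/-- In the pair flat of a label the plane `w·a = ω` consists of points of the motion flat.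
Proof.  `u := w - ω a + ((b - w × v)·a) a`; then `u·a = (b - w × v)·a`, `ω a + u - (u·a) a = w`, and the second components agree by the
identity of `motc_G_mem_F` (their difference is a multiple of `a` and is orthogonal to `a`). -/
theorem motc_F_mem_G (D : MotRev) (ha : D.a ⬝ᵥ D.a = 1) {v b : Fin 3 → ℝ} (hM : D.Match v b)
    (w : Fin 3 → ℝ) (hw : w ⬝ᵥ D.a = D.ω) : ∃ u, motG D u = motF v b w := by
  refine ⟨w - D.ω • D.a + ((b - w ⨯₃ v) ⬝ᵥ D.a) • D.a, ?_⟩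
  have hu : motDual D.a (D.pt (v, b)) (w - D.ω • D.a + ((b - w ⨯₃ v) ⬝ᵥ D.a) • D.a) := by
    obtain ⟨a, ω, v0, d⟩ := D
    simp only [motDual, MotRev.pt]
    simp only at ha hw
    simp only [dotProduct, Fin.sum_univ_three, cross_apply, Pi.add_apply, Pi.sub_apply, Pi.smul_apply, smul_eq_mul,
      Matrix.cons_val_zero, Matrix.cons_val_one, Matrix.cons_val_two, Matrix.head_cons, Matrix.tail_cons] at *
    linear_combination hw + (((b 0 - (w 1 * v 2 - w 2 * v 1)) * a 0 + (b 1 - (w 2 * v 0 - w 0 * v 2)) * a 1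
      + (b 2 - (w 0 * v 1 - w 1 * v 0)) * a 2) - ω - (b 0 * a 0 + b 1 * a 1 + b 2 * a 2)
      + (v 0 * a 0 + v 1 * a 1 + v 2 * a 2)) * ha
  have hw' : D.ω • D.a + (w - D.ω • D.a + ((b - w ⨯₃ v) ⬝ᵥ D.a) • D.a)
      - ((w - D.ω • D.a + ((b - w ⨯₃ v) ⬝ᵥ D.a) • D.a) ⬝ᵥ D.a) • D.a = w := by
    have h1 : (w - D.ω • D.a + ((b - w ⨯₃ v) ⬝ᵥ D.a) • D.a) ⬝ᵥ D.a = (b - w ⨯₃ v) ⬝ᵥ D.a := by
      rw [add_dotProduct, sub_dotProduct, smul_dotProduct, smul_dotProduct, ha, hw]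
      simp
    rw [h1]
    abel
  rw [motc_G_mem_F D ha hM _ hu, hw']

theorem motc_aff_poly (A : Fin 3 → Fin 3 ⊕ Fin 3 → ℝ) (c : Fin 3 ⊕ Fin 3 → ℝ) :
    ∃ θ : Fin 3 ⊕ Fin 3 → MvPolynomial (Fin 3) ℝ,
    (∀ s, (θ s).totalDegree ≤ 1) ∧ ∀ u s, eval u (θ s) = ∑ j, A j s * u j + c s :=
  ⟨fun s => pkAff (fun j => A j s) (c s), fun _ => pk_aff_degree _ _, fun u _ => pk_aff_eval _ _ u⟩

/-- the motion flat as a tuple of polynomials of degree `≤ 1` (use `pkAff`, `pk_aff_eval`, `pk_aff_degree`) -/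
theorem motc_G_poly (D : MotRev) : ∃ θ : Fin 3 ⊕ Fin 3 → MvPolynomial (Fin 3) ℝ,
    (∀ s, (θ s).totalDegree ≤ 1) ∧ ∀ u s, eval u (θ s) = motG D u s := by
  obtain ⟨θ, h1, h2⟩ := motc_aff_poly (fun j => motG D (Pi.single j 1) - motG D 0) (motG D 0)
  refine ⟨θ, h1, fun u s => ?_⟩
  rw [h2]
  obtain ⟨a, ω, v0, d⟩ := D
  rcases s with i | i <;> fin_cases i <;>
  simp [motG, dotProduct, Fin.sum_univ_three, cross_apply, Pi.single_apply, vecHead, vecTail] <;> ring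

/-- the pair flat as a tuple of polynomials of degree `≤ 1` -/
theorem motc_F_poly (v b : Fin 3 → ℝ) : ∃ θ : Fin 3 ⊕ Fin 3 → MvPolynomial (Fin 3) ℝ,
    (∀ s, (θ s).totalDegree ≤ 1) ∧ ∀ w s, eval w (θ s) = motF v b w s := by
  obtain ⟨θ, h1, h2⟩ := motc_aff_poly (fun j => motF v b (Pi.single j 1) - motF v b 0) (motF v b 0)
  refine ⟨θ, h1, fun u s => ?_⟩
  rw [h2]
  rcases s with i | i <;> fin_cases i <;>
  simp [motF, dotProduct, Fin.sum_univ_three, cross_apply, Pi.single_apply, vecHead, vecTail] <;> ring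

/-- the transformed point determines the label.  Proof: `pt e = pt e'`; cross with `a` and (K1): `v = v'`; dot with `a`: `b·a = b'·a`; (K2): `b = b'`. -/
theorem motc_pt_inj (D : MotRev) (ha : D.a ⬝ᵥ D.a = 1) {e e' : (Fin 3 → ℝ) × (Fin 3 → ℝ)}
    (h : D.Match e.1 e.2) (h' : D.Match e'.1 e'.2) (hq : D.pt e = D.pt e') : e = e' := by
  obtain ⟨v, b⟩ := e
  obtain ⟨v', b'⟩ := e'
  obtain ⟨h1, h2⟩ := h
  obtain ⟨h1', h2'⟩ := h'
  simp only [MotRev.pt] at hq h1 h2 h1' h2'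
  have hs : b ⬝ᵥ D.a - v ⬝ᵥ D.a = b' ⬝ᵥ D.a - v' ⬝ᵥ D.a := by
    have := congrArg (fun z => z ⬝ᵥ D.a) hq
    simp only [add_dotProduct, smul_dotProduct, ha, smul_eq_mul, mul_one] at this
    linarith
  have hv : v = v' := by
    rw [hs] at hq
    exact add_right_cancel hq
  subst hv
  have hb : b ⬝ᵥ D.a = b' ⬝ᵥ D.a := by linarith
  have e1 : b = (b ⬝ᵥ D.a) • D.a + (D.ω • (D.a ⨯₃ v) + D.d) := by rw [← h2]; abel
  have e2 : b' = (b' ⬝ᵥ D.a) • D.a + (D.ω • (D.a ⨯₃ v) + D.d) := by rw [← h2']; abel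
  rw [e1, e2, hb]

/-- `pt e' - pt e = (v' - v) + s a`, so `((pt e' - pt e) × (pt e'' - pt e))·a = ((v' - v) × (v'' - v))·a`. -/
theorem motc_nonvert (D : MotRev) (e e' e'' : (Fin 3 → ℝ) × (Fin 3 → ℝ))
    (h : ((D.pt e' - D.pt e) ⨯₃ (D.pt e'' - D.pt e)) ⬝ᵥ D.a ≠ 0) :
    (e'.1 - e.1) ⨯₃ (e''.1 - e.1) ≠ 0 := by
  intro h0
  apply h
  have h1 : ((D.pt e' - D.pt e) ⨯₃ (D.pt e'' - D.pt e)) ⬝ᵥ D.a
      = ((e'.1 - e.1) ⨯₃ (e''.1 - e.1)) ⬝ᵥ D.a := by
    simp only [MotRev.pt, dotProduct, Fin.sum_univ_three, cross_apply, Pi.add_apply, Pi.sub_apply, Pi.smul_apply,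
      smul_eq_mul, Matrix.cons_val_zero, Matrix.cons_val_one, Matrix.cons_val_two, Matrix.head_cons,
      Matrix.tail_cons]
    ring
  rw [h1, h0, zero_dotProduct]

/-! ## B. The gradient lemma  (leaf ML-CORE-B) -/

/-- one pair flat: `p = v × r` -/
theorem motc_grad_one (f : MvPolynomial (Fin 3 ⊕ Fin 3) ℝ) (w v b : Fin 3 → ℝ)
    (h : ∀ w', eval (motF v b w') f = 0) :
    (fun i => eval (motF v b w) (pderiv (Sum.inl i) f))
      = v ⨯₃ (fun i => eval (motF v b w) (pderiv (Sum.inr i) f)) := by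
  have key : ∀ δ : Fin 3 → ℝ, ∑ s, (Sum.elim δ (-(δ ⨯₃ v)) : Fin 3 ⊕ Fin 3 → ℝ) s
      * eval (motF v b w) (pderiv s f) = 0 := by
    intro δ
    refine pk_line_deriv f (motF v b w) _ fun t => ?_
    have : motF v b w + t • (Sum.elim δ (-(δ ⨯₃ v)) : Fin 3 ⊕ Fin 3 → ℝ) = motF v b (w + t • δ) := by
      funext s
      rcases s with i | i
      · simp [motF]
      · simp only [motF, Pi.add_apply, Pi.smul_apply, Sum.elim_inr, Pi.neg_apply, Pi.sub_apply, smul_eq_mul,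
          LinearMap.map_add, LinearMap.add_apply, LinearMap.map_smul, LinearMap.smul_apply]
        ring
    rw [this]
    exact h _
  have k0 := key (Pi.single 0 1)
  have k1 := key (Pi.single 1 1)
  have k2 := key (Pi.single 2 1)
  simp only [Fintype.sum_sum_type, Sum.elim_inl, Sum.elim_inr, Fin.sum_univ_three, cross_apply, Pi.neg_apply,
    Pi.single_apply, Matrix.cons_val_zero, Matrix.cons_val_one, Matrix.cons_val_two, Matrix.head_cons,
    Matrix.tail_cons] at k0 k1 k2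
  funext i
  fin_cases i
  · simp [cross_apply] at k0 k1 k2 ⊢
    linarith
  · simp [cross_apply] at k0 k1 k2 ⊢
    linarith
  · simp [cross_apply] at k0 k1 k2 ⊢
    linarith

theorem motc_cross_zero {x y r : Fin 3 → ℝ} (hx : x ⨯₃ r = 0) (hy : y ⨯₃ r = 0) (hxy : x ⨯₃ y ≠ 0) :
    r = 0 := by
  by_contra hr
  apply hxy
  have hrr : r ⬝ᵥ r ≠ 0 := by
    intro h0
    exact hr (dotProduct_self_eq_zero.1 h0)
  have h1 : (r ⬝ᵥ r) • x = (x ⬝ᵥ r) • r := by
    have := cross_cross_eq_smul_sub_smul' r x r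
    rw [hx, LinearMap.map_zero] at this
    exact (sub_eq_zero.1 this.symm)
  have h2 : (r ⬝ᵥ r) • (x ⨯₃ y) = 0 := by
    rw [← LinearMap.smul_apply, ← LinearMap.map_smul, h1, LinearMap.map_smul, LinearMap.smul_apply,
      ← cross_anticomm, hy, neg_zero, smul_zero]
  exact (smul_eq_zero.1 h2).resolve_left hrr

/-- If `f` vanishes on three pair flats through the point `z = motF vᵢ bᵢ w` and `v₁, v₂, v₃` are not collinear then all first partial
derivatives of `f` vanish at `z`.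
Proof.  `motF v b (w + t δ) = motF v b w + t • Sum.elim δ (-(δ × v))`.  `pk_line_deriv` gives, with `p i = eval z (pderiv (inl i) f)`,
`r i = eval z (pderiv (inr i) f)` (`Fintype.sum_sum_type`):  `δ·p - (δ × vᵢ)·r = 0` for all `δ`, i.e. `p = vᵢ × r` (take `δ = Pi.single j 1`).
Hence `(v₂ - v₁) × r = 0 = (v₃ - v₁) × r`.  If `r ≠ 0` both differences are multiples of `r` and their cross product is `0`
(e.g. `(x × y) (r·r) = ...`: from `x × r = 0`, `y × r = 0`: `(r·r) • (x × y) = 0` by BAC-CAB, or coordinates + `linear_combination`).  So `r = 0`, `p = 0`. -/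
theorem motc_grad (f : MvPolynomial (Fin 3 ⊕ Fin 3) ℝ) (w v₁ v₂ v₃ b₁ b₂ b₃ : Fin 3 → ℝ)
    (h₁ : ∀ w', eval (motF v₁ b₁ w') f = 0) (h₂ : ∀ w', eval (motF v₂ b₂ w') f = 0)
    (h₃ : ∀ w', eval (motF v₃ b₃ w') f = 0)
    (e₂ : motF v₂ b₂ w = motF v₁ b₁ w) (e₃ : motF v₃ b₃ w = motF v₁ b₁ w)
    (hnc : (v₂ - v₁) ⨯₃ (v₃ - v₁) ≠ 0) (s : Fin 3 ⊕ Fin 3) :
    eval (motF v₁ b₁ w) (pderiv s f) = 0 := by
  have g1 := motc_grad_one f w v₁ b₁ h₁
  have g2 := motc_grad_one f w v₂ b₂ h₂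
  have g3 := motc_grad_one f w v₃ b₃ h₃
  rw [e₂] at g2
  rw [e₃] at g3
  obtain ⟨r, hr⟩ : ∃ r : Fin 3 → ℝ, r = fun i => eval (motF v₁ b₁ w) (pderiv (Sum.inr i) f) := ⟨_, rfl⟩
  rw [← hr] at g1 g2 g3
  have hr0 : r = 0 := by
    refine motc_cross_zero (x := v₂ - v₁) (y := v₃ - v₁) ?_ ?_ hnc
    · rw [LinearMap.map_sub, LinearMap.sub_apply, ← g2, ← g1, sub_self]
    · rw [LinearMap.map_sub, LinearMap.sub_apply, ← g3, ← g1, sub_self]
  rcases s with i | i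
  · have := congrFun g1 i
    rw [hr0, LinearMap.map_zero] at this
    exact this
  · have := congrFun hr i
    rw [hr0] at this
    exact this.symm

/-! ## C. Separation and propagation  (leaf ML-CORE-C) -/

/-- Two data with a common label whose planes `w·a = ω` in the pair flat are nested have the same labels.
Proof.  `w = ω a + z`, `z ⊥ a`: `z·a' = 0` for all `z ⊥ a` and `ω (a·a') = ω'`.  With `t = a·a'`: `z = a' - t a ⊥ a` gives `1 - t² = 0` and
`|a' - t a|² = 1 - t² = 0`: `a' = t a`, `t² = 1`, `ω' = t ω`.  So `ω' a' × v = ω a × v`, `(b·a') a' = (b·a) a`; the common label gives `v0' = t v0`, `d' = d`. -/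
theorem motc_sep (D D' : MotRev) (ha : D.a ⬝ᵥ D.a = 1) (ha' : D'.a ⬝ᵥ D'.a = 1) {v b : Fin 3 → ℝ}
    (h : D.Match v b) (h' : D'.Match v b)
    (hsub : ∀ w : Fin 3 → ℝ, w ⬝ᵥ D.a = D.ω → w ⬝ᵥ D'.a = D'.ω) :
    ∀ v b, D.Match v b ↔ D'.Match v b := by
  obtain ⟨a, ω, v0, d⟩ := D
  obtain ⟨a', ω', v0', d'⟩ := D'
  simp only [MotRev.Match] at *
  obtain ⟨t, ht⟩ : ∃ t, t = a ⬝ᵥ a' := ⟨_, rfl⟩
  have h1 : ω * t = ω' := by
    have := hsub (ω • a) (by rw [smul_dotProduct, ha, smul_eq_mul, mul_one])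
    rwa [smul_dotProduct, smul_eq_mul, ← ht] at this
  have h2 : (a' - t • a) ⬝ᵥ a' = 0 := by
    have := hsub (ω • a + (a' - t • a)) (by
      rw [add_dotProduct, smul_dotProduct, sub_dotProduct, smul_dotProduct, ha, dotProduct_comm a' a, ← ht]
      simp)
    rw [add_dotProduct, smul_dotProduct, smul_eq_mul, ← ht] at this
    linarith
  have htt : t * t = 1 := by
    rw [sub_dotProduct, smul_dotProduct, ha', smul_eq_mul, ← ht] at h2
    linarith
  have hz : a' - t • a = 0 := by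
    apply dotProduct_self_eq_zero.1
    rw [dotProduct_sub, h2, dotProduct_smul, sub_dotProduct, smul_dotProduct, ha, dotProduct_comm a' a, ← ht]
    simp
  have hae : a' = t • a := sub_eq_zero.1 hz
  have ht0 : t ≠ 0 := by
    intro h0
    rw [h0] at htt
    norm_num at htt
  -- rewrite the primed relations
  have key : ∀ v b : Fin 3 → ℝ, (v ⬝ᵥ a' = t * (v ⬝ᵥ a)) ∧
      (b - (b ⬝ᵥ a') • a' = b - (b ⬝ᵥ a) • a) ∧ (ω' • (a' ⨯₃ v) = ω • (a ⨯₃ v)) := by
    intro v b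
    refine ⟨by rw [hae, dotProduct_smul, smul_eq_mul], ?_, ?_⟩
    · rw [hae, dotProduct_smul, smul_eq_mul, smul_smul]
      congr 2
      linear_combination (b ⬝ᵥ a) * htt
    · rw [hae, ← h1, LinearMap.map_smul, LinearMap.smul_apply, smul_smul]
      congr 1
      linear_combination ω * htt
  obtain ⟨k1, k2, k3⟩ := key v b
  have hv0 : v0' = t * v0 := by rw [← h'.1, k1, h.1]
  have hd : d' = d := by
    have e1 := h.2
    have e2 := h'.2
    rw [k2, k3, e1] at e2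
    exact (add_left_cancel e2).symm
  intro v b
  obtain ⟨k1, k2, k3⟩ := key v b
  rw [k1, k2, k3, hv0, hd]
  constructor
  · rintro ⟨e1, e2⟩
    exact ⟨by rw [e1], e2⟩
  · rintro ⟨e1, e2⟩
    exact ⟨mul_left_cancel₀ ht0 e1, e2⟩

/-- If `f` vanishes on more than `deg f` motion flats through the label `(v,b)` then it vanishes on the pair flat.
Proof.  `p = bind₁ θ f`, `θ` from `motc_F_poly` (`pk_subst`: degree `≤ deg f`, `eval w p = eval (motF v b w) f`).  If `p ≠ 0`, apply `pk_hyperplanes` to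
`H = 𝒟'.image (fun D => (D.a, D.ω))`: `a ≠ 0`; `p` vanishes on `a·w = ω` by `motc_F_mem_G`; distinct elements of `H` are not nested by `motc_sep` + `hsep`
(this also shows that the image has `𝒟'.card` elements). -/
theorem motc_prop (f : MvPolynomial (Fin 3 ⊕ Fin 3) ℝ) (𝒟' : Finset MotRev) (v b : Fin 3 → ℝ)
    (hunit : ∀ D ∈ 𝒟', D.a ⬝ᵥ D.a = 1)
    (hsep : ∀ D ∈ 𝒟', ∀ D' ∈ 𝒟', (∀ v b, D.Match v b ↔ D'.Match v b) → D = D')
    (hM : ∀ D ∈ 𝒟', D.Match v b) (hvan : ∀ D ∈ 𝒟', ∀ u, eval (motG D u) f = 0)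
    (hdeg : f.totalDegree < 𝒟'.card) : ∀ w, eval (motF v b w) f = 0 := by
  obtain ⟨θ, hθ1, hθ2⟩ := motc_F_poly v b
  obtain ⟨hpd, hpe⟩ := pk_subst θ hθ1 f
  have hpe' : ∀ w, eval w (bind₁ θ f) = eval (motF v b w) f := by
    intro w
    rw [hpe w]
    have h2 : (fun i => eval w (θ i)) = motF v b w := funext fun i => hθ2 w i
    rw [h2]
  by_cases hp : bind₁ θ f = 0
  · intro w
    rw [← hpe' w, hp, map_zero]
  · exfalso
    have hinj : Set.InjOn (fun D : MotRev => (D.a, D.ω)) (𝒟' : Set MotRev) := by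
      intro D hD D' hD' he
      have he1 : D.a = D'.a := congrArg Prod.fst he
      have he2 : D.ω = D'.ω := congrArg Prod.snd he
      refine hsep D hD D' hD' (motc_sep D D' (hunit D hD) (hunit D' hD') (hM D hD) (hM D' hD') ?_)
      intro w hw
      rw [← he1, ← he2]
      exact hw
    have hcard := pk_hyperplanes (bind₁ θ f) hp (𝒟'.image (fun D => (D.a, D.ω))) ?_ ?_ ?_
    · rw [Finset.card_image_of_injOn hinj] at hcard
      omega
    · intro h hh h0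
      obtain ⟨D, hD, rfl⟩ := Finset.mem_image.1 hh
      have := hunit D hD
      simp only at h0
      rw [h0, zero_dotProduct] at this
      norm_num at this
    · intro h hh h' hh' hne
      obtain ⟨D, hD, rfl⟩ := Finset.mem_image.1 hh
      obtain ⟨D', hD', rfl⟩ := Finset.mem_image.1 hh'
      by_contra hcon
      push Not at hcon
      have := hsep D hD D' hD' (motc_sep D D' (hunit D hD) (hunit D' hD') (hM D hD) (hM D' hD')
        (fun w hw => by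
          rw [dotProduct_comm]
          exact hcon w (by rw [dotProduct_comm]; exact hw)))
      exact hne (by rw [this])
    · intro h hh x hx
      obtain ⟨D, hD, rfl⟩ := Finset.mem_image.1 hh
      obtain ⟨u, hu⟩ := motc_F_mem_G D (hunit D hD) (hM D hD) x (by rw [dotProduct_comm]; exact hx)
      rw [hpe', ← hu]
      exact hvan D hD u

/-! ## D. Pruning  (leaf ML-CORE-D) -/

/-- A bipartite graph with more than `x |A| + y |B|` edges contains a nonempty subgraph with minimum degrees `≥ x` (on the `A` side), `≥ y` (on the `B` side).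
Proof (extremal).  Among all pairs `(A', B') ∈ A.powerset ×ˢ B.powerset` take one maximising `Φ(A',B') = e(A',B') - x |A'| - y |B'|`
(`Finset.exists_max_image`).  `Φ(A' \ {a}, B') = Φ(A',B') - deg_{B'} a + x ≤ Φ(A',B')` gives `deg_{B'} a ≥ x`; same for `b`.  `Φ(A',B') ≥ Φ(A,B) > 0` forces `e(A',B') > 0`, so `A' ≠ ∅`. -/
theorem motc_prune {α β : Type} (A : Finset α) (B : Finset β) (R : α → β → Prop) (x y : ℝ)
    (hx : 0 ≤ x) (hy : 0 ≤ y)
    (h : x * A.card + y * B.card < ∑ a ∈ A, ((B.filter (fun b => R a b)).card : ℝ)) :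
    ∃ A' ⊆ A, ∃ B' ⊆ B, A'.Nonempty ∧
      (∀ a ∈ A', x ≤ ((B'.filter (fun b => R a b)).card : ℝ)) ∧
      (∀ b ∈ B', y ≤ ((A'.filter (fun a => R a b)).card : ℝ)) := by
  obtain ⟨Φ, hΦ⟩ : ∃ Φ : Finset α × Finset β → ℝ, Φ = fun p =>
      (∑ a ∈ p.1, ∑ b ∈ p.2, (if R a b then (1 : ℝ) else 0)) - x * p.1.card - y * p.2.card :=
    ⟨_, rfl⟩
  have hdegA : ∀ (a : α) (B' : Finset β), ∑ b ∈ B', (if R a b then (1 : ℝ) else 0)
      = ((B'.filter (fun b => R a b)).card : ℝ) := fun a B' => Finset.sum_boole _ _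
  have hdegB : ∀ (b : β) (A' : Finset α), ∑ a ∈ A', (if R a b then (1 : ℝ) else 0)
      = ((A'.filter (fun a => R a b)).card : ℝ) := fun b A' => Finset.sum_boole _ _
  obtain ⟨p, hp, hmax⟩ := Finset.exists_max_image (A.powerset ×ˢ B.powerset) Φ
    ⟨(A, B), Finset.mem_product.2 ⟨Finset.mem_powerset_self _, Finset.mem_powerset_self _⟩⟩
  obtain ⟨hpA, hpB⟩ := Finset.mem_product.1 hp
  rw [Finset.mem_powerset] at hpA hpB
  refine ⟨p.1, hpA, p.2, hpB, ?_, ?_, ?_⟩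
  · by_contra hne
    rw [Finset.not_nonempty_iff_eq_empty] at hne
    have h1 := hmax (A, B) (Finset.mem_product.2 ⟨Finset.mem_powerset_self _, Finset.mem_powerset_self _⟩)
    rw [hΦ] at h1
    simp only [hne, Finset.sum_empty, Finset.card_empty, Nat.cast_zero, mul_zero, sub_zero, hdegA] at h1
    have h2 : 0 ≤ y * (p.2.card : ℝ) := by positivity
    linarith
  · intro a ha
    have h1 := hmax (p.1.erase a, p.2) (Finset.mem_product.2
      ⟨Finset.mem_powerset.2 ((Finset.erase_subset _ _).trans hpA), Finset.mem_powerset.2 hpB⟩)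
    rw [hΦ] at h1
    simp only [Finset.sum_erase_eq_sub ha, Finset.cast_card_erase_of_mem ha, hdegA] at h1
    linarith
  · intro b hb
    have h1 := hmax (p.1, p.2.erase b) (Finset.mem_product.2
      ⟨Finset.mem_powerset.2 hpA, Finset.mem_powerset.2 ((Finset.erase_subset _ _).trans hpB)⟩)
    rw [hΦ] at h1
    simp only [Finset.sum_erase_eq_sub hb, Finset.cast_card_erase_of_mem hb, Finset.sum_sub_distrib,
      hdegB] at h1
    linarith

/-! ## N. Numerics  (leaf ML-CORE-N) -/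

theorem motc_choose_id (D : ℕ) :
    120 * (D + 6).choose 6 = (D + 4) * (D + 5) * (D + 6) * (D + 3).choose 3 := by
  have h1 := Nat.add_one_mul_choose_eq (D + 3) 3
  have h2 := Nat.add_one_mul_choose_eq (D + 4) 4
  have h3 := Nat.add_one_mul_choose_eq (D + 5) 5
  have e1 : D + 3 + 1 = D + 4 := rfl
  have e2 : D + 4 + 1 = D + 5 := rfl
  have e3 : D + 5 + 1 = D + 6 := rfl
  rw [e1] at h1
  rw [e2] at h2
  rw [e3] at h3
  norm_num at h1 h2 h3
  calc 120 * (D + 6).choose 6 = 20 * ((D + 6).choose 6 * 6) := by ring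
    _ = 20 * ((D + 6) * (D + 5).choose 5) := by rw [h3]
    _ = 4 * (D + 6) * ((D + 5).choose 5 * 5) := by ring
    _ = 4 * (D + 6) * ((D + 5) * (D + 4).choose 4) := by rw [h2]
    _ = (D + 6) * (D + 5) * ((D + 4).choose 4 * 4) := by ring
    _ = (D + 6) * (D + 5) * ((D + 4) * (D + 3).choose 3) := by rw [h1]
    _ = _ := by ring

theorem motc_choose_lt (T D : ℕ) (h : 120 * T ≤ D ^ 3) :
    T * (D + 3).choose 3 < (D + 6).choose 6 := by
  have h0 : 0 < (D + 3).choose 3 := Nat.choose_pos (by omega)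
  have h1 := motc_choose_id D
  have h2 : D ^ 3 < (D + 4) * (D + 5) * (D + 6) := by nlinarith [Nat.zero_le D]
  have h3 : 120 * (T * (D + 3).choose 3) < 120 * (D + 6).choose 6 := by
    calc 120 * (T * (D + 3).choose 3) = (120 * T) * (D + 3).choose 3 := by ring
      _ ≤ D ^ 3 * (D + 3).choose 3 := Nat.mul_le_mul_right _ h
      _ < (D + 4) * (D + 5) * (D + 6) * (D + 3).choose 3 := Nat.mul_lt_mul_of_pos_right h2 h0
      _ = _ := h1.symm
  omega

/-- Choice of the degree.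
Proof.  `120 * choose (D+6) 6 = (D+4)(D+5)(D+6) * choose (D+3) 3` (`Nat.succ_mul_choose_eq` three times, or `Nat.choose` via `descFactorial`).  Let `D` be the least natural number with
`120 T ≤ D³`; then `T * choose (D+3) 3 < choose (D+6) 6` and `(D-1)³ < 120 T`, so `D < B` as soon as `1 ≤ B` and `120 T ≤ (B-1)³`.  Put `M = m³/ℓ^(3/2) ≥ 1`
(`ℓ ≤ m`), `K M < T ≤ K M + 1 ≤ 2 K M`.  `B₁ = T ℓ/(4 m²)`: `T^(2/3) ≥ (K M)^(2/3) = K^(2/3) m²/ℓ`, so `B₁ ≥ K^(2/3) T^(1/3)/4`; `K = 30000` is more than enough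
(`B₁ ≥ 240 T^(1/3)`, `B₁ - 1 ≥ 5 T^(1/3)`).  `B₂ = ε ℓ/4`: `120 T ≤ 240 K m³/ℓ^(3/2) ≤ (ε ℓ/4 - 1)³` if `ℓ ≥ C m^(2/3)`, `C` large (`ℓ^(9/2) ≥ C^(9/2) m³`, `ε ℓ/4 - 1 ≥ ε ℓ/8` for `ℓ ≥ 8/ε`). -/
theorem motc_num (ε : ℝ) (hε : 0 < ε) : ∃ K C : ℝ, 1 ≤ K ∧ 0 < C ∧
    ∀ (m ℓ : ℝ) (T : ℕ), 1 ≤ m → ℓ ≤ m → C * m ^ ((2 : ℝ) / 3) ≤ ℓ →
      K * m ^ 3 / ℓ ^ ((3 : ℝ) / 2) < T → (T : ℝ) ≤ K * m ^ 3 / ℓ ^ ((3 : ℝ) / 2) + 1 →
      ∃ Dg : ℕ, T * (Dg + 3).choose 3 < (Dg + 6).choose 6 ∧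
        (Dg : ℝ) < T * ℓ / (4 * m ^ 2) ∧ (Dg : ℝ) < ε * (ℓ / 4) := by
  obtain ⟨c₀, hc₀⟩ : ∃ c₀ : ℝ, c₀ = 200 / ε + 1 := ⟨_, rfl⟩
  have hc1 : 1 ≤ c₀ := by rw [hc₀]; have : 0 < 200 / ε := by positivity
                          linarith
  have hcε : 200 < ε * c₀ := by
    rw [hc₀, mul_add, mul_div_assoc', mul_comm ε 200, mul_div_assoc, div_self hε.ne']
    linarith
  refine ⟨216, c₀ ^ 2, by norm_num, by positivity, ?_⟩
  intro m ℓ T hm hℓm hℓ hT1 hT2
  have hm0 : 0 < m := by linarith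
  have hℓ0 : 0 < ℓ := lt_of_lt_of_le (by positivity) hℓ
  -- `s = √ℓ`, `μ = m^(1/3)`
  obtain ⟨s, hs⟩ : ∃ s, s = Real.sqrt ℓ := ⟨_, rfl⟩
  have hs0 : 0 < s := by rw [hs]; exact Real.sqrt_pos.2 hℓ0
  have hs2 : s ^ 2 = ℓ := by rw [hs]; exact Real.sq_sqrt hℓ0.le
  have hs3 : ℓ ^ ((3 : ℝ) / 2) = s ^ 3 := by
    rw [hs, Real.sqrt_eq_rpow, ← Real.rpow_natCast, ← Real.rpow_mul hℓ0.le]
    norm_num
  obtain ⟨μ, hμ⟩ : ∃ μ, μ = m ^ ((1 : ℝ) / 3) := ⟨_, rfl⟩
  have hμ0 : 0 < μ := by rw [hμ]; positivity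
  have hμ3 : μ ^ 3 = m := by
    rw [hμ, ← Real.rpow_natCast, ← Real.rpow_mul hm0.le]
    norm_num
  have hμ2 : m ^ ((2 : ℝ) / 3) = μ ^ 2 := by
    rw [hμ, ← Real.rpow_natCast, ← Real.rpow_mul hm0.le]
    norm_num
  rw [hs3] at hT1 hT2
  rw [hμ2, ← hs2, ← mul_pow] at hℓ
  have h3 : c₀ * μ ≤ s := by
    exact (pow_le_pow_iff_left₀ (by positivity) hs0.le (by norm_num)).1 hℓ
  have hs3m : c₀ * m ≤ s ^ 3 := by
    calc c₀ * m ≤ c₀ ^ 3 * μ ^ 3 := by
          rw [hμ3]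
          refine mul_le_mul_of_nonneg_right ?_ hm0.le
          nlinarith [mul_self_nonneg (c₀ - 1)]
      _ = (c₀ * μ) ^ 3 := by ring
      _ ≤ s ^ 3 := pow_le_pow_left₀ (by positivity) h3 3
  have hsm : s ≤ m := by
    have : s ^ 2 ≤ m ^ 2 := by rw [hs2]; nlinarith
    exact (pow_le_pow_iff_left₀ hs0.le hm0.le (by norm_num)).1 this
  obtain ⟨ρ, hρ⟩ : ∃ ρ, ρ = m / s := ⟨_, rfl⟩
  have hρ1 : 1 ≤ ρ := by rw [hρ, le_div_iff₀ hs0]; linarith
  have hρs : ρ * s = m := by rw [hρ]; field_simp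
  have hM : 216 * m ^ 3 / s ^ 3 = 216 * ρ ^ 3 := by rw [hρ]; field_simp
  rw [hM] at hT1 hT2
  have hρ3 : 1 ≤ ρ ^ 3 := one_le_pow₀ hρ1
  refine ⟨⌈42 * ρ⌉₊, ?_, ?_, ?_⟩
  · apply motc_choose_lt
    have h1 : (42 * ρ) ^ 3 ≤ ((⌈42 * ρ⌉₊ : ℕ) : ℝ) ^ 3 :=
      pow_le_pow_left₀ (by positivity) (Nat.le_ceil _) 3
    have h2 : (120 : ℝ) * T ≤ ((⌈42 * ρ⌉₊ : ℕ) : ℝ) ^ 3 := by nlinarith
    exact_mod_cast h2
  · have h1 : ((⌈42 * ρ⌉₊ : ℕ) : ℝ) < 42 * ρ + 1 := Nat.ceil_lt_add_one (by positivity)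
    have h2 : 54 * ρ < T * ℓ / (4 * m ^ 2) := by
      rw [lt_div_iff₀ (by positivity), ← hs2, ← hρs]
      have : 0 < ρ ^ 2 * s ^ 2 := by positivity
      nlinarith
    linarith
  · have h1 : ((⌈42 * ρ⌉₊ : ℕ) : ℝ) < 42 * ρ + 1 := Nat.ceil_lt_add_one (by positivity)
    have h2 : 43 * ρ < ε * (ℓ / 4) := by
      rw [hρ, ← hs2, mul_div_assoc', div_lt_iff₀ hs0]
      have : ε * (c₀ * m) ≤ ε * s ^ 3 := mul_le_mul_of_nonneg_left hs3m hε.le
      nlinarith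
    linarith

/-! ## Glue -/

/-- the retained configuration -/
structure MotCfg (δ1 δ2 ε : ℝ) (Dg : ℕ) (𝒟' : Finset MotRev)
    (E' : Finset ((Fin 3 → ℝ) × (Fin 3 → ℝ))) : Prop where
  unit : ∀ D ∈ 𝒟', D.a ⬝ᵥ D.a = 1
  sep : ∀ D ∈ 𝒟', ∀ D' ∈ 𝒟', (∀ v b, D.Match v b ↔ D'.Match v b) → D = D'
  ne : 𝒟'.Nonempty
  ldeg : ∀ e ∈ E', Dg < (𝒟'.filter (fun D => D.Match e.1 e.2)).card
  big : ∀ D ∈ 𝒟', (Dg : ℝ) < ε * (D.labels E').card
  line : ∀ D ∈ 𝒟', ∀ T ⊆ D.labels E',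
    Collinear ℝ (D.pt '' (T : Set ((Fin 3 → ℝ) × (Fin 3 → ℝ)))) →
    (T.card : ℝ) ≤ δ1 * (D.labels E').card
  plane : ∀ D ∈ 𝒟', ∀ T ⊆ D.labels E', ∀ (ν : Fin 3 → ℝ) (β : ℝ), ν ≠ 0 →
    (∀ e ∈ T, ν ⬝ᵥ D.pt e = β) → (T.card : ℝ) ≤ δ2 * (D.labels E').card

/-- the property asserted by `MotDualStmt` for given constants -/
def MotDualFor (δ1 δ2 ε : ℝ) : Prop :=
  ∀ (a : Fin 3 → ℝ) (Q : Finset (Fin 3 → ℝ)), a ⬝ᵥ a = 1 →
    (∀ T ⊆ Q, Collinear ℝ (T : Set (Fin 3 → ℝ)) → (T.card : ℝ) ≤ δ1 * Q.card) →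
    (∀ T ⊆ Q, ∀ (ν : Fin 3 → ℝ) (β : ℝ), ν ≠ 0 → (∀ q ∈ T, ν ⬝ᵥ q = β) → (T.card : ℝ) ≤ δ2 * Q.card) →
    ∀ p : MvPolynomial (Fin 3) ℝ, (p.totalDegree : ℝ) < ε * Q.card →
      (∀ u : Fin 3 → ℝ, ∀ q ∈ Q, ∀ q' ∈ Q, ∀ q'' ∈ Q, ((q' - q) ⨯₃ (q'' - q)) ⬝ᵥ a ≠ 0 →
        motDual a q u → motDual a q' u → motDual a q'' u → eval u p = 0) →
      p = 0

theorem motc_defs_cite : True := by
  have := @MotDualFor.eq_1
  trivial

/-- pull back a subset of the transformed cloud to labels -/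
theorem motc_pull (D : MotRev) (L : Finset ((Fin 3 → ℝ) × (Fin 3 → ℝ)))
    (hinj : Set.InjOn D.pt (L : Set ((Fin 3 → ℝ) × (Fin 3 → ℝ)))) (T : Finset (Fin 3 → ℝ))
    (hT : T ⊆ L.image D.pt) :
    ∃ T' ⊆ L, T'.image D.pt = T ∧ T'.card = T.card := by
  refine ⟨L.filter (fun e => D.pt e ∈ T), Finset.filter_subset _ _, ?_, ?_⟩
  · ext q
    simp only [Finset.mem_image, Finset.mem_filter]
    constructor
    · rintro ⟨e, ⟨_, he⟩, rfl⟩
      exact he
    · intro hq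
      obtain ⟨e, he, rfl⟩ := Finset.mem_image.1 (hT hq)
      exact ⟨e, ⟨he, hq⟩, rfl⟩
  · have h1 : (L.filter (fun e => D.pt e ∈ T)).image D.pt = T := by
      ext q
      simp only [Finset.mem_image, Finset.mem_filter]
      constructor
      · rintro ⟨e, ⟨_, he⟩, rfl⟩
        exact he
      · intro hq
        obtain ⟨e, he, rfl⟩ := Finset.mem_image.1 (hT hq)
        exact ⟨e, ⟨he, hq⟩, rfl⟩
    have h2 : ((L.filter (fun e => D.pt e ∈ T)).image D.pt).card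
        = (L.filter (fun e => D.pt e ∈ T)).card :=
      Finset.card_image_of_injOn (hinj.mono (by
        intro e he
        exact (Finset.mem_filter.1 (Finset.mem_coe.1 he)).1))
    rw [← h2, h1]

/-- **derivative closure**: the polynomials of degree `≤ Dg` vanishing on all retained motion flats are closed under `pderiv`. -/
theorem motc_closure {δ1 δ2 ε : ℝ} (hdual : MotDualFor δ1 δ2 ε) {Dg : ℕ} {𝒟' : Finset MotRev}
    {E' : Finset ((Fin 3 → ℝ) × (Fin 3 → ℝ))} (cfg : MotCfg δ1 δ2 ε Dg 𝒟' E')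
    (f : MvPolynomial (Fin 3 ⊕ Fin 3) ℝ) (hdeg : f.totalDegree ≤ Dg)
    (hvan : ∀ D ∈ 𝒟', ∀ u, eval (motG D u) f = 0) (s : Fin 3 ⊕ Fin 3) :
    ∀ D ∈ 𝒟', ∀ u, eval (motG D u) (pderiv s f) = 0 := by
  have hF : ∀ e ∈ E', ∀ w, eval (motF e.1 e.2 w) f = 0 := by
    intro e he
    refine motc_prop f (𝒟'.filter (fun D => D.Match e.1 e.2)) e.1 e.2 ?_ ?_ ?_ ?_ ?_
    · exact fun D hD => cfg.unit D (Finset.mem_filter.1 hD).1
    · exact fun D hD D' hD' => cfg.sep D (Finset.mem_filter.1 hD).1 D' (Finset.mem_filter.1 hD').1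
    · exact fun D hD => (Finset.mem_filter.1 hD).2
    · exact fun D hD => hvan D (Finset.mem_filter.1 hD).1
    · exact lt_of_le_of_lt hdeg (cfg.ldeg e he)
  intro D hD
  obtain ⟨θ, hθ1, hθ2⟩ := motc_G_poly D
  obtain ⟨hpd, hpe⟩ := pk_subst θ hθ1 (pderiv s f)
  have hpe' : ∀ u, eval u (bind₁ θ (pderiv s f)) = eval (motG D u) (pderiv s f) := by
    intro u
    rw [hpe u]
    have h2 : (fun i => eval u (θ i)) = motG D u := funext fun i => hθ2 u i
    rw [h2]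
  have ha := cfg.unit D hD
  have hinj : Set.InjOn D.pt (D.labels E' : Set ((Fin 3 → ℝ) × (Fin 3 → ℝ))) := by
    intro e he e' he' h
    exact motc_pt_inj D ha (Finset.mem_filter.1 (Finset.mem_coe.1 he)).2
      (Finset.mem_filter.1 (Finset.mem_coe.1 he')).2 h
  have hcard : ((D.labels E').image D.pt).card = (D.labels E').card :=
    Finset.card_image_of_injOn hinj
  have key : bind₁ θ (pderiv s f) = 0 := by
    refine hdual D.a ((D.labels E').image D.pt) ha ?_ ?_ _ ?_ ?_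
    · intro T hT hc
      obtain ⟨T', hT', himg, hcT⟩ := motc_pull D _ hinj T hT
      rw [hcard, ← hcT]
      refine cfg.line D hD T' hT' ?_
      rw [← Finset.coe_image, himg]
      exact hc
    · intro T hT ν β hν hq
      obtain ⟨T', hT', himg, hcT⟩ := motc_pull D _ hinj T hT
      rw [hcard, ← hcT]
      refine cfg.plane D hD T' hT' ν β hν fun e he => hq _ ?_
      rw [← himg]
      exact Finset.mem_image_of_mem _ he
    · rw [hcard]
      refine lt_of_le_of_lt ?_ (cfg.big D hD)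
      have h1 : (pderiv s f).totalDegree ≤ f.totalDegree :=
        (pk_pderiv_degree f s).trans (Nat.sub_le _ _)
      exact_mod_cast hpd.trans (h1.trans hdeg)
    · intro u q hq q' hq' q'' hq'' hnv hu hu' hu''
      obtain ⟨e, he, rfl⟩ := Finset.mem_image.1 hq
      obtain ⟨e', he', rfl⟩ := Finset.mem_image.1 hq'
      obtain ⟨e'', he'', rfl⟩ := Finset.mem_image.1 hq''
      obtain ⟨heE, heM⟩ := Finset.mem_filter.1 he
      obtain ⟨heE', heM'⟩ := Finset.mem_filter.1 he'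
      obtain ⟨heE'', heM''⟩ := Finset.mem_filter.1 he''
      have g1 := motc_G_mem_F D ha heM u hu
      have g2 := motc_G_mem_F D ha heM' u hu'
      have g3 := motc_G_mem_F D ha heM'' u hu''
      rw [hpe' u, g1]
      exact motc_grad f _ e.1 e'.1 e''.1 e.2 e'.2 e''.2 (hF e heE) (hF e' heE') (hF e'' heE'')
        (g2.symm.trans g1) (g3.symm.trans g1) (motc_nonvert D e e' e'' hnv) s
  intro u
  rw [← hpe' u, key, map_zero]

/-- **descent** -/
theorem motc_zero {δ1 δ2 ε : ℝ} (hdual : MotDualFor δ1 δ2 ε) {Dg : ℕ} {𝒟' : Finset MotRev}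
    {E' : Finset ((Fin 3 → ℝ) × (Fin 3 → ℝ))} (cfg : MotCfg δ1 δ2 ε Dg 𝒟' E') :
    ∀ (k : ℕ) (f : MvPolynomial (Fin 3 ⊕ Fin 3) ℝ), f.totalDegree ≤ k → f.totalDegree ≤ Dg →
      (∀ D ∈ 𝒟', ∀ u, eval (motG D u) f = 0) → f = 0 := by
  intro k
  induction k with
  | zero =>
    intro f hk _ hvan
    obtain ⟨D, hD⟩ := cfg.ne
    have h0 : f.totalDegree = 0 := Nat.le_zero.1 hk
    rw [totalDegree_eq_zero_iff_eq_C] at h0
    have h1 := hvan D hD 0
    rw [h0, eval_C] at h1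
    rw [h0, h1, C_0]
  | succ k ih =>
    intro f hk hdeg hvan
    have hder : ∀ s, pderiv s f = 0 := by
      intro s
      have h1 : (pderiv s f).totalDegree ≤ f.totalDegree - 1 := pk_pderiv_degree f s
      exact ih _ (by omega) (by omega) (motc_closure hdual cfg f hdeg hvan s)
    obtain ⟨c, hc⟩ := pk_const_of_pderiv f hder
    obtain ⟨D, hD⟩ := cfg.ne
    have h1 := hvan D hD 0
    rw [hc, eval_C] at h1
    rw [hc, h1, C_0]

/-- **CORE** -/
theorem motc_core (h : MotDualStmt) : MotCoreStmt := by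
  obtain ⟨δ1, δ2, ε, hδ1, hδ2, hε, hdual⟩ := h
  obtain ⟨K, C, hK, hC, hnum⟩ := motc_num ε hε
  refine ⟨δ1 / 4, δ2 / 4, C, K, by positivity, by positivity, hC, by positivity, ?_⟩
  intro m ℓ E 𝒟 hm hE hℓm hℓ hunit hsep hcnt hline hplane
  by_contra hcon
  rw [not_le] at hcon
  have hm0 : 0 < m := by linarith
  have hℓ0 : 0 < ℓ := lt_of_lt_of_le (by positivity) hℓ
  obtain ⟨M, hM⟩ : ∃ M, M = K * m ^ 3 / ℓ ^ ((3 : ℝ) / 2) := ⟨_, rfl⟩
  rw [← hM] at hcon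
  have hM0 : 0 ≤ M := by rw [hM]; positivity
  obtain ⟨T, hT1, hT2⟩ : ∃ T : ℕ, M < T ∧ (T : ℝ) ≤ M + 1 :=
    ⟨⌊M⌋₊ + 1, by push_cast; exact Nat.lt_floor_add_one M, by
      push_cast; linarith [Nat.floor_le hM0]⟩
  have hTle : T ≤ 𝒟.card := by
    have h1 : (T : ℝ) < (𝒟.card : ℝ) + 1 := by linarith
    have h2 : T < 𝒟.card + 1 := by exact_mod_cast h1
    omega
  obtain ⟨𝒟₀, h𝒟₀, hcard₀⟩ := Finset.exists_subset_card_eq hTle
  obtain ⟨Dg, hD1, hD2, hD3⟩ := hnum m ℓ T hm hℓm hℓ (hM ▸ hT1) (hM ▸ hT2)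
  have hTpos : (0 : ℝ) < T := lt_of_le_of_lt hM0 hT1
  obtain ⟨𝒟', h𝒟', E', hE', hne, hdegD, hdegE⟩ := motc_prune 𝒟₀ E
    (fun D e => D.Match e.1 e.2) (ℓ / 4) (T * ℓ / (4 * m ^ 2)) (by positivity) (by positivity) (by
      have h1 : (T : ℝ) * ℓ ≤ ∑ D ∈ 𝒟₀, ((E.filter (fun e => D.Match e.1 e.2)).card : ℝ) := by
        calc (T : ℝ) * ℓ = ∑ _D ∈ 𝒟₀, ℓ := by rw [Finset.sum_const, hcard₀, nsmul_eq_mul]
          _ ≤ _ := Finset.sum_le_sum fun D hD => (hcnt D (h𝒟₀ hD)).1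
      have h2 : T * ℓ / (4 * m ^ 2) * (E.card : ℝ) ≤ T * ℓ / 4 := by
        calc T * ℓ / (4 * m ^ 2) * (E.card : ℝ) ≤ T * ℓ / (4 * m ^ 2) * m ^ 2 :=
              mul_le_mul_of_nonneg_left hE (by positivity)
          _ = T * ℓ / 4 := by field_simp
      have h3 : 0 < (T : ℝ) * ℓ := by positivity
      rw [hcard₀]
      refine lt_of_lt_of_le ?_ h1
      nlinarith)
  have hsub : ∀ D : MotRev, D.labels E' ⊆ D.labels E := fun D => Finset.filter_subset_filter _ hE'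
  have hbig : ∀ D ∈ 𝒟', ℓ / 4 ≤ ((D.labels E').card : ℝ) := fun D hD => hdegD D hD
  have cfg : MotCfg δ1 δ2 ε Dg 𝒟' E' :=
    { unit := fun D hD => hunit D (h𝒟₀ (h𝒟' hD))
      sep := fun D hD D' hD' => hsep D (h𝒟₀ (h𝒟' hD)) D' (h𝒟₀ (h𝒟' hD'))
      ne := hne
      ldeg := fun e he => by
        have h1 := hdegE e he
        have h2 : (Dg : ℝ) < ((𝒟'.filter (fun D => D.Match e.1 e.2)).card : ℝ) :=
          lt_of_lt_of_le hD2 h1
        exact_mod_cast h2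
      big := fun D hD => lt_of_lt_of_le hD3 (mul_le_mul_of_nonneg_left (hbig D hD) hε.le)
      line := fun D hD T hT hc => by
        have h1 := hline D (h𝒟₀ (h𝒟' hD)) T (hT.trans (hsub D)) hc
        have h2 := mul_le_mul_of_nonneg_left (hbig D hD) hδ1.le
        linarith
      plane := fun D hD T hT ν β hν hq => by
        have h1 := hplane D (h𝒟₀ (h𝒟' hD)) T (hT.trans (hsub D)) ν β hν hq
        have h2 := mul_le_mul_of_nonneg_left (hbig D hD) hδ2.le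
        linarith }
  choose θ hθ1 hθ2 using motc_G_poly
  obtain ⟨f, hf0, hfd, hfv⟩ := pk_exists_vanishing Dg 𝒟' θ (fun D s => hθ1 D s) (by
    have h1 : 𝒟'.card ≤ T := hcard₀ ▸ Finset.card_le_card h𝒟'
    simp only [Fintype.card_sum, Fintype.card_fin]
    exact lt_of_le_of_lt (Nat.mul_le_mul_right _ h1) hD1)
  apply hf0
  refine motc_zero hdual cfg f.totalDegree f le_rfl hfd ?_
  intro D hD u
  have h1 := (pk_subst (θ D) (hθ1 D) f).2 u
  rw [hfv D hD, map_zero] at h1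
  have h2 : (fun i => eval u (θ D i)) = motG D u := funext fun i => hθ2 D u i
  rw [h2] at h1
  exact h1.symm

end Claimed.Agent.R273
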