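/-
LIB-ST (row273): Beck's dichotomy in the form of motions.tex, Lemma mot:beck.
-/
import Claimed.Agent.R273.StRich

set_option autoImplicit false

namespace Claimed.Agent.R273

open scoped Classical

/-- dyadic summation of the rich-line bound -/
theorem stb_dyadic {ι : Type} (A : Finset ι) (occ : ι → ℕ) (C n M : ℝ) (hC : 0 ≤ C) (hn : 0 ≤ n)
    (hM : ∀ l ∈ A, (occ l : ℝ) ≤ M)
    (hrich : ∀ k : ℕ, 2 ≤ k →
      ((A.filter (fun l => k ≤ occ l)).card : ℝ) ≤ C * (n ^ 2 / (k : ℝ) ^ 3 + n / k))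
    (j : ℕ) : ∀ u : ℕ, 2 ≤ u → M < 2 ^ j * (u : ℝ) →
    ∑ l ∈ A.filter (fun l => u ≤ occ l), (occ l : ℝ) ^ 2
      ≤ 8 * C * n ^ 2 / u + 4 * C * n * max 0 (2 * M - u) := by
  have base : ∀ u : ℕ, 2 ≤ u → M < (u : ℝ) →
      ∑ l ∈ A.filter (fun l => u ≤ occ l), (occ l : ℝ) ^ 2
        ≤ 8 * C * n ^ 2 / u + 4 * C * n * max 0 (2 * M - u) := by
    intro u _ hMu
    have he : A.filter (fun l => u ≤ occ l) = ∅ := by
      apply Finset.filter_eq_empty_iff.2
      intro l hl hul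
      have h1 := hM l hl
      have h2 : (u : ℝ) ≤ occ l := by exact_mod_cast hul
      linarith
    rw [he, Finset.sum_empty]
    have : 0 ≤ max 0 (2 * M - u) := le_max_left _ _
    positivity
  induction j with
  | zero =>
    intro u hu hMu
    exact base u hu (by simpa using hMu)
  | succ j ih =>
    intro u hu hMu
    by_cases hc : M < (u : ℝ)
    · exact base u hu hc
    · push Not at hc
      have hu0 : (0 : ℝ) < u := by
        have : 0 < u := by omega
        exact_mod_cast this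
      have ih2 := ih (2 * u) (by omega) (by
        push_cast
        rw [pow_succ] at hMu
        linarith)
      rw [← Finset.sum_filter_add_sum_filter_not (A.filter (fun l => u ≤ occ l))
        (fun l => 2 * u ≤ occ l)]
      have e1 : (A.filter (fun l => u ≤ occ l)).filter (fun l => 2 * u ≤ occ l)
          = A.filter (fun l => 2 * u ≤ occ l) := by
        rw [Finset.filter_filter]
        apply Finset.filter_congr
        intro l _
        constructor
        · exact fun h => h.2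
        · exact fun h => ⟨by omega, h⟩
      rw [e1]
      have h2 : ∑ l ∈ (A.filter (fun l => u ≤ occ l)).filter (fun l => ¬ 2 * u ≤ occ l),
          (occ l : ℝ) ^ 2 ≤ 4 * C * (n ^ 2 / u + n * u) := by
        calc ∑ l ∈ (A.filter (fun l => u ≤ occ l)).filter (fun l => ¬ 2 * u ≤ occ l),
              (occ l : ℝ) ^ 2
            ≤ ∑ _l ∈ (A.filter (fun l => u ≤ occ l)).filter (fun l => ¬ 2 * u ≤ occ l),
              (2 * (u : ℝ)) ^ 2 := by
              refine Finset.sum_le_sum fun l hl => ?_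
              have h3 : occ l ≤ 2 * u := by
                have := (Finset.mem_filter.1 hl).2
                omega
              have h4 : (occ l : ℝ) ≤ 2 * u := by exact_mod_cast h3
              exact pow_le_pow_left₀ (Nat.cast_nonneg _) h4 2
          _ = (((A.filter (fun l => u ≤ occ l)).filter (fun l => ¬ 2 * u ≤ occ l)).card : ℝ)
              * (2 * (u : ℝ)) ^ 2 := by
              rw [Finset.sum_const, nsmul_eq_mul]
          _ ≤ ((A.filter (fun l => u ≤ occ l)).card : ℝ) * (2 * (u : ℝ)) ^ 2 := by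
              apply mul_le_mul_of_nonneg_right _ (by positivity)
              exact_mod_cast Finset.card_le_card (Finset.filter_subset _ _)
          _ ≤ (C * (n ^ 2 / (u : ℝ) ^ 3 + n / u)) * (2 * (u : ℝ)) ^ 2 :=
              mul_le_mul_of_nonneg_right (hrich u hu) (by positivity)
          _ = 4 * C * (n ^ 2 / u + n * u) := by
              field_simp
              ring
      have m1 : max 0 (2 * M - ((2 * u : ℕ) : ℝ)) = 2 * M - 2 * u := by
        push_cast
        apply max_eq_right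
        linarith
      have m2 : max 0 (2 * M - (u : ℝ)) = 2 * M - u := by
        apply max_eq_right
        linarith
      rw [m1] at ih2
      rw [m2]
      have e3 : 8 * C * n ^ 2 / ((2 * u : ℕ) : ℝ) = 4 * C * (n ^ 2 / u) := by
        push_cast
        field_simp
        ring
      rw [e3] at ih2
      have e4 : 8 * C * n ^ 2 / (u : ℝ) = 8 * C * (n ^ 2 / u) := by ring
      rw [e4]
      nlinarith [ih2, h2]

/-- **ST-6** (mot:beck) If no line contains more than `δ₀ n` of the `n` points of `X`, then `X` spans at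
least `γ₀ n²` lines, and at least `γ₀ n` points of `X` lie on at least `γ₀ n` of these lines.

Proof (motions.tex l.86-125).  `𝓛` := the set of lines `line[ℝ, x, y]`, `x ≠ y ∈ X`, containing fewer than
`u₀` points of `X`.  By `st_rich_lines`, the number of ordered pairs of distinct points on lines with
occupancy in `[2^j u₀, 2^{j+1} u₀)` is `≤ C (n²/u³ + n/u) (2u)²`; sum over `j` with `2^j u₀ ≤ δ₀ n`:
`≤ C' (n²/u₀ + δ₀ n²) < n (n-1) / 2` for `u₀` large, `δ₀` small (the hypothesis forces `2 ≤ δ₀ n`).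
So at least half of the ordered pairs lie on lines of `𝓛`, each of which carries `< u₀²` ordered pairs:
`|𝓛| ≥ n (n-1) / (2 u₀²) ≥ c₀ n²`.  Each line of `𝓛` has two points: `∑_x #{l ∈ 𝓛 : x ∈ l} ≥ 2 c₀ n²`, every
summand is `≤ n`; hence at least `c₀ n` points have `≥ c₀ n` lines. -/
theorem st_beck : ∃ δ₀ γ₀ : ℝ, 0 < δ₀ ∧ δ₀ ≤ 1 ∧ 0 < γ₀ ∧ γ₀ ≤ 1 ∧
    ∀ (E : Type) [AddCommGroup E] [Module ℝ E] (X : Finset E),
    (∀ T ⊆ X, Collinear ℝ (T : Set E) → (T.card : ℝ) ≤ δ₀ * X.card) →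
    ∃ L : Finset (AffineSubspace ℝ E),
      (∀ l ∈ L, stIsLine l ∧ 2 ≤ (X.filter (fun x => x ∈ l)).card) ∧
      γ₀ * (X.card : ℝ) ^ 2 ≤ L.card ∧
      γ₀ * (X.card : ℝ) ≤
        ((X.filter (fun x => γ₀ * (X.card : ℝ) ≤ ((L.filter (fun l => x ∈ l)).card : ℝ))).card : ℝ) := by
  obtain ⟨C, hC, hr⟩ := st_rich_lines
  obtain ⟨u₀, hu2, huC⟩ : ∃ u₀ : ℕ, 2 ≤ u₀ ∧ 64 * C ≤ (u₀ : ℝ) :=
    ⟨max 2 ⌈64 * C⌉₊, le_max_left _ _, (Nat.le_ceil _).trans (by exact_mod_cast le_max_right _ _)⟩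
  have hu0 : (0 : ℝ) < u₀ := by
    have : 0 < u₀ := by omega
    exact_mod_cast this
  have hu2' : (2 : ℝ) ≤ u₀ := by exact_mod_cast hu2
  obtain ⟨δ₀, hδ0, hδ2, hδC⟩ : ∃ δ₀ : ℝ, 0 < δ₀ ∧ δ₀ ≤ 1 / 2 ∧ 64 * C * δ₀ ≤ 1 := by
    refine ⟨min (1 / 2) (1 / (64 * C)), lt_min (by norm_num) (by positivity), min_le_left _ _, ?_⟩
    calc 64 * C * min (1 / 2) (1 / (64 * C)) ≤ 64 * C * (1 / (64 * C)) :=
          mul_le_mul_of_nonneg_left (min_le_right _ _) (by positivity)
      _ = 1 := by field_simp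
  obtain ⟨γ₀, hγ, hγe⟩ : ∃ γ₀ : ℝ, 0 < γ₀ ∧ γ₀ * (4 * (u₀ : ℝ) ^ 2) = 1 :=
    ⟨1 / (4 * (u₀ : ℝ) ^ 2), by positivity, by field_simp⟩
  have hγ1 : γ₀ ≤ 1 := by nlinarith
  refine ⟨δ₀, γ₀, hδ0, by linarith, hγ, hγ1, ?_⟩
  intro E _ _ X hX
  rcases X.eq_empty_or_nonempty with rfl | hne
  · exact ⟨∅, by simp, by simp, by simp⟩
  obtain ⟨a, ha⟩ := hne
  have hn2 : (2 : ℝ) ≤ X.card := by
    have h1 := hX {a} (Finset.singleton_subset_iff.2 ha) (by
      rw [Finset.coe_singleton]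
      exact collinear_singleton ℝ a)
    rw [Finset.card_singleton] at h1
    push_cast at h1
    have : (0 : ℝ) ≤ X.card := Nat.cast_nonneg _
    nlinarith
  have hn0 : (0 : ℝ) < X.card := by linarith
  -- all spanned lines
  obtain ⟨AL, hAL⟩ : ∃ AL : Finset (AffineSubspace ℝ E),
      AL = X.offDiag.image (fun p : E × E => line[ℝ, p.1, p.2]) := ⟨_, rfl⟩
  obtain ⟨occ, hocc⟩ : ∃ occ : AffineSubspace ℝ E → ℕ,
      ∀ l, occ l = (X.filter (fun x => x ∈ l)).card := ⟨_, fun _ => rfl⟩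
  have hAL1 : ∀ l ∈ AL, stIsLine l ∧ 2 ≤ occ l := by
    intro l hl
    rw [hAL] at hl
    obtain ⟨⟨x, y⟩, hp, rfl⟩ := Finset.mem_image.1 hl
    obtain ⟨hx, hy, hxy⟩ := Finset.mem_offDiag.1 hp
    obtain ⟨h1, h2, h3⟩ := st_line_through x y hxy
    refine ⟨h1, ?_⟩
    rw [hocc]
    have : ({x, y} : Finset E) ⊆ X.filter (fun z => z ∈ line[ℝ, x, y]) := by
      intro z hz
      rcases Finset.mem_insert.1 hz with rfl | hz
      · exact Finset.mem_filter.2 ⟨hx, h2⟩
      · rw [Finset.mem_singleton] at hz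
        subst hz
        exact Finset.mem_filter.2 ⟨hy, h3⟩
    calc 2 = ({x, y} : Finset E).card := (Finset.card_pair hxy).symm
      _ ≤ _ := Finset.card_le_card this
  have hAL2 : ∀ l ∈ AL, (occ l : ℝ) ≤ δ₀ * X.card := by
    intro l hl
    rw [hocc]
    refine hX _ (Finset.filter_subset _ _) (st_collinear_of_line l (hAL1 l hl).1 _ ?_)
    intro x hx
    exact (Finset.mem_filter.1 (Finset.mem_coe.1 hx)).2
  have hrich : ∀ k : ℕ, 2 ≤ k → ((AL.filter (fun l => k ≤ occ l)).card : ℝ)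
      ≤ C * ((X.card : ℝ) ^ 2 / (k : ℝ) ^ 3 + (X.card : ℝ) / k) := by
    intro k hk
    refine hr E X k _ hk fun l hl => ?_
    obtain ⟨h1, h2⟩ := Finset.mem_filter.1 hl
    exact ⟨(hAL1 l h1).1, by rw [← hocc]; exact h2⟩
  -- counting pairs
  have hpairs : (X.card : ℝ) ^ 2 - X.card ≤ ∑ l ∈ AL, (occ l : ℝ) ^ 2 := by
    have h1 : X.offDiag.card = ∑ l ∈ AL,
        (X.offDiag.filter (fun p : E × E => line[ℝ, p.1, p.2] = l)).card := by
      rw [hAL]
      exact Finset.card_eq_sum_card_image _ _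
    have h2 : ∀ l ∈ AL, (X.offDiag.filter (fun p : E × E => line[ℝ, p.1, p.2] = l)).card
        ≤ occ l ^ 2 := by
      intro l _
      rw [hocc, sq, ← Finset.card_product]
      apply Finset.card_le_card
      intro p hp
      obtain ⟨hp1, rfl⟩ := Finset.mem_filter.1 hp
      obtain ⟨hx, hy, -⟩ := Finset.mem_offDiag.1 hp1
      exact Finset.mem_product.2 ⟨Finset.mem_filter.2 ⟨hx, left_mem_affineSpan_pair ℝ _ _⟩,
        Finset.mem_filter.2 ⟨hy, right_mem_affineSpan_pair ℝ _ _⟩⟩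
    have h3 : X.offDiag.card ≤ ∑ l ∈ AL, occ l ^ 2 := h1.le.trans (Finset.sum_le_sum h2)
    have h4 : X.card * X.card ≤ ∑ l ∈ AL, occ l ^ 2 + X.card := by
      rw [Finset.offDiag_card] at h3
      omega
    have h5 : (X.card : ℝ) * X.card ≤ ∑ l ∈ AL, (occ l : ℝ) ^ 2 + X.card := by exact_mod_cast h4
    nlinarith
  -- the heavy part
  obtain ⟨j, hj⟩ : ∃ j : ℕ, δ₀ * (X.card : ℝ) < 2 ^ j * (u₀ : ℝ) := by
    refine ⟨X.card, ?_⟩
    have h1 : (X.card : ℝ) < 2 ^ X.card := by exact_mod_cast Nat.lt_two_pow_self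
    nlinarith
  have hheavy := stb_dyadic AL occ C X.card (δ₀ * X.card) hC.le hn0.le hAL2 hrich j u₀ hu2 hj
  have hmax : max 0 (2 * (δ₀ * (X.card : ℝ)) - u₀) ≤ 2 * (δ₀ * (X.card : ℝ)) :=
    max_le (by positivity) (by linarith)
  have hheavy2 : ∑ l ∈ AL.filter (fun l => u₀ ≤ occ l), (occ l : ℝ) ^ 2
      ≤ (X.card : ℝ) ^ 2 / 4 := by
    have h1 : 8 * C * (X.card : ℝ) ^ 2 / u₀ ≤ (X.card : ℝ) ^ 2 / 8 := by
      rw [div_le_iff₀ hu0]
      nlinarith [sq_nonneg (X.card : ℝ)]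
    have h2 : 4 * C * (X.card : ℝ) * max 0 (2 * (δ₀ * (X.card : ℝ)) - u₀)
        ≤ (X.card : ℝ) ^ 2 / 8 := by
      calc 4 * C * (X.card : ℝ) * max 0 (2 * (δ₀ * (X.card : ℝ)) - u₀)
          ≤ 4 * C * (X.card : ℝ) * (2 * (δ₀ * (X.card : ℝ))) :=
            mul_le_mul_of_nonneg_left hmax (by positivity)
        _ = (64 * C * δ₀) * ((X.card : ℝ) ^ 2 / 8) := by ring
        _ ≤ 1 * ((X.card : ℝ) ^ 2 / 8) := mul_le_mul_of_nonneg_right hδC (by positivity)
        _ = _ := one_mul _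
    linarith
  -- the light lines
  obtain ⟨L, hL⟩ : ∃ L : Finset (AffineSubspace ℝ E),
      L = AL.filter (fun l => ¬ u₀ ≤ occ l) := ⟨_, rfl⟩
  have hlight : ∑ l ∈ L, (occ l : ℝ) ^ 2 ≤ (L.card : ℝ) * (u₀ : ℝ) ^ 2 := by
    rw [← nsmul_eq_mul, ← Finset.sum_const]
    refine Finset.sum_le_sum fun l hl => ?_
    rw [hL] at hl
    have h3 : occ l ≤ u₀ := by
      have := (Finset.mem_filter.1 hl).2
      omega
    have h4 : (occ l : ℝ) ≤ u₀ := by exact_mod_cast h3
    exact pow_le_pow_left₀ (Nat.cast_nonneg _) h4 2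
  have hLcard : γ₀ * (X.card : ℝ) ^ 2 ≤ L.card := by
    have h1 := Finset.sum_filter_add_sum_filter_not AL (fun l => u₀ ≤ occ l)
      (fun l => (occ l : ℝ) ^ 2)
    rw [← hL] at h1
    have h2 : (X.card : ℝ) ^ 2 / 4 ≤ (L.card : ℝ) * (u₀ : ℝ) ^ 2 := by nlinarith
    have h3 : γ₀ * (X.card : ℝ) ^ 2 = γ₀ * (4 * (u₀ : ℝ) ^ 2) * ((X.card : ℝ) ^ 2 / 4) / (u₀ : ℝ) ^ 2 := by
      field_simp
    rw [h3, hγe, one_mul, div_le_iff₀ (by positivity)]
    exact h2
  have hL1 : ∀ l ∈ L, stIsLine l ∧ 2 ≤ (X.filter (fun x => x ∈ l)).card := by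
    intro l hl
    rw [hL] at hl
    have := hAL1 l (Finset.mem_filter.1 hl).1
    rw [hocc] at this
    exact this
  refine ⟨L, hL1, hLcard, ?_⟩
  -- degrees
  have hdeg : ∀ x ∈ X, (L.filter (fun l => x ∈ l)).card ≤ X.card := by
    intro x _
    calc (L.filter (fun l => x ∈ l)).card ≤ (X.image (fun y => line[ℝ, x, y])).card := by
          apply Finset.card_le_card
          intro l hl
          obtain ⟨hl1, hxl⟩ := Finset.mem_filter.1 hl
          obtain ⟨hline, h2⟩ := hL1 l hl1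
          obtain ⟨y, hy, hyx⟩ := Finset.exists_mem_ne (lt_of_lt_of_le one_lt_two h2) x
          obtain ⟨hyX, hyl⟩ := Finset.mem_filter.1 hy
          obtain ⟨g1, g2, g3⟩ := st_line_through x y hyx.symm
          exact Finset.mem_image.2 ⟨y, hyX, st_line_unique _ _ g1 hline x y hyx.symm g2 g3 hxl hyl⟩
      _ ≤ X.card := Finset.card_image_le
  have hsum : 2 * L.card ≤ ∑ x ∈ X, (L.filter (fun l => x ∈ l)).card := by
    rw [← st_inc_comm]
    unfold stInc
    rw [mul_comm, ← smul_eq_mul, ← Finset.sum_const]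
    exact Finset.sum_le_sum fun l hl => (hL1 l hl).2
  have hsum' : 2 * (L.card : ℝ) ≤ ∑ x ∈ X, ((L.filter (fun l => x ∈ l)).card : ℝ) := by
    exact_mod_cast hsum
  rw [← Finset.sum_filter_add_sum_filter_not X
    (fun x => γ₀ * (X.card : ℝ) ≤ ((L.filter (fun l => x ∈ l)).card : ℝ))] at hsum'
  have hA : ∑ x ∈ X.filter (fun x => γ₀ * (X.card : ℝ) ≤ ((L.filter (fun l => x ∈ l)).card : ℝ)),
      ((L.filter (fun l => x ∈ l)).card : ℝ)
      ≤ ((X.filter (fun x => γ₀ * (X.card : ℝ)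
        ≤ ((L.filter (fun l => x ∈ l)).card : ℝ))).card : ℝ) * X.card := by
    rw [← nsmul_eq_mul, ← Finset.sum_const]
    refine Finset.sum_le_sum fun x hx => ?_
    exact_mod_cast hdeg x (Finset.mem_filter.1 hx).1
  have hB : ∑ x ∈ X.filter (fun x => ¬ γ₀ * (X.card : ℝ)
      ≤ ((L.filter (fun l => x ∈ l)).card : ℝ)), ((L.filter (fun l => x ∈ l)).card : ℝ)
      ≤ (X.card : ℝ) * (γ₀ * X.card) := by
    calc _ ≤ ∑ _x ∈ X.filter (fun x => ¬ γ₀ * (X.card : ℝ)
          ≤ ((L.filter (fun l => x ∈ l)).card : ℝ)), γ₀ * (X.card : ℝ) := by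
          refine Finset.sum_le_sum fun x hx => ?_
          exact (not_le.1 (Finset.mem_filter.1 hx).2).le
      _ = ((X.filter (fun x => ¬ γ₀ * (X.card : ℝ)
          ≤ ((L.filter (fun l => x ∈ l)).card : ℝ))).card : ℝ) * (γ₀ * X.card) := by
          rw [Finset.sum_const, nsmul_eq_mul]
      _ ≤ _ := by
          apply mul_le_mul_of_nonneg_right _ (by positivity)
          exact_mod_cast Finset.card_le_card (Finset.filter_subset _ _)
  have hfin : γ₀ * (X.card : ℝ) * X.card ≤ ((X.filter (fun x => γ₀ * (X.card : ℝ)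
        ≤ ((L.filter (fun l => x ∈ l)).card : ℝ))).card : ℝ) * X.card := by
    nlinarith
  exact le_of_mul_le_mul_right hfin hn0

end Claimed.Agent.R273
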