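-- KEEP
import Claimed.Agent.R273.GkMotions
import Claimed.Agent.R273.StBeck

/-!
# Row 273, unit S7 (motions.tex): definitions, CONTRACTS of the numbered lemmas, and the top glue for `RichStmt`.
Chief of the unit: helper62.

Language: `Motion = Pt 3 ≃ᵃⁱ[ℝ] Pt 3` (both orientations), finite clouds `X Y : Finset (Pt 3)`, FINITE families `𝒢 : Finset Motion`
(so no finiteness statement is ever needed), lines = `AffineSubspace ℝ (Pt 3)` with `stIsLine`, "points on a line / plane" = `Collinear` / `Coplanar`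
subsets `T` of a `Finset`.

## Contracts (each one is a `Prop`; owner = one package)
* `MotEffStmt`                (mot:effective-planes)         package MOT-EFF
* `MotGenStmt η₁ η₂`          (mot:local, general type)      package MOT-GEN
* `MotPlanarStmt η₁ η₂`       (mot:local, planar type)       package MOT-PLA   (uses `MotEffStmt`, `gk_spatial_planar_motions`)
* `MotLocStmt η₁`             (mot:local)                    glue below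
* `MotPartStmt`               (mot:partition)                package MOT-PART
* `MotLineAStmt`, `MotLineBStmt` (mot:line-images), `MotParStmt` (mot:parallel-pairs)      package MOT-LINE
* `MotMassStmt η`             (dyadic sum of `MotLocStmt`)   package MOT-SUM
* `MotLineMassStmt`           (motions whose mass is of line type)                         package MOT-SUM
* `MotBucketStmt`             (one global bucket)            package MOT-SUM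
* `RichStmt`                  (Top.lean)
-/

set_option autoImplicit false

namespace Claimed.Agent.R273

open scoped Classical

/-- rigid motions of `ℝ³`, both orientations -/
abbrev Motion : Type := Pt 3 ≃ᵃⁱ[ℝ] Pt 3

/-- the matched source points `X_g` -/
noncomputable def motSet (X Y : Finset (Pt 3)) (g : Motion) : Finset (Pt 3) :=
  X.filter (fun x => g x ∈ Y)

/-- a plane -/
def motIsPlane (Pl : AffineSubspace ℝ (Pt 3)) : Prop := Module.finrank ℝ Pl.direction = 2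

/-- the image of an affine subspace under a motion -/
noncomputable def motImg (g : Motion) (L : AffineSubspace ℝ (Pt 3)) : AffineSubspace ℝ (Pt 3) :=
  L.map g.toAffineEquiv.toAffineMap

/-- full line-match weight `w_{g,L} = #{x ∈ X ∩ L : g x ∈ Y}` -/
noncomputable def motWt (X Y : Finset (Pt 3)) (g : Motion) (L : AffineSubspace ℝ (Pt 3)) : ℕ :=
  ((motSet X Y g).filter (fun x => x ∈ L)).card

/-- the `q`-rich lines of a cloud (`q > 1`) -/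
noncomputable def motRich (X : Finset (Pt 3)) (q : ℝ) : Finset (AffineSubspace ℝ (Pt 3)) :=
  ((X ×ˢ X).image (fun p => line[ℝ, p.1, p.2])).filter
    (fun L => stIsLine L ∧ q ≤ ((X.filter (fun x => x ∈ L)).card : ℝ))

/-- every line contains at most `H` points of `X` -/
def motCap (X : Finset (Pt 3)) (H : ℝ) : Prop :=
  ∀ T ⊆ X, Collinear ℝ (T : Set (Pt 3)) → (T.card : ℝ) ≤ H

/-- parallel lines at separation `ρ` -/
def motSep (L L' : AffineSubspace ℝ (Pt 3)) (ρ : ℝ) : Prop :=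
  L.direction = L'.direction ∧ ∃ p ∈ L, ∃ p' ∈ L', dist p p' = ρ ∧
    ∀ v ∈ L.direction, inner ℝ v (p' - p) = 0

/-- class `i` of a colouring -/
noncomputable def motCls (X : Finset (Pt 3)) (c : Pt 3 → ℕ) (i : ℕ) : Finset (Pt 3) :=
  X.filter (fun x => c x = i)

/-- the pairs of classes that contain matches of `g` -/
noncomputable def motIdx (X Y : Finset (Pt 3)) (cX cY : Pt 3 → ℕ) (g : Motion) : Finset (ℕ × ℕ) :=
  (motSet X Y g).image (fun x => (cX x, cY (g x)))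

/-- local count `n_{R,R'}(g)` -/
noncomputable def motLoc (X Y : Finset (Pt 3)) (cX cY : Pt 3 → ℕ) (g : Motion) (p : ℕ × ℕ) : ℕ :=
  matchCount (motCls X cX p.1) (motCls Y cY p.2) g

/-- `g` is NOT of line type for `(X, Y)`: no line contains a fraction `η` of its matches. -/
def motNonline (η : ℝ) (X Y : Finset (Pt 3)) (g : Motion) : Prop :=
  ∀ T ⊆ motSet X Y g, Collinear ℝ (T : Set (Pt 3)) → (T.card : ℝ) < η * matchCount X Y g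

/-! ## The contracts -/

/-- (mot:effective-planes) `e_X(Pl) ≥ H` is expressed by: every collinear `T ⊆ X ∩ Pl` misses at least `H` points of `X ∩ Pl`. -/
def MotEffStmt : Prop :=
  ∃ C₂ K₂ : ℝ, 0 < C₂ ∧ 0 < K₂ ∧ ∀ (m H : ℝ) (X : Finset (Pt 3)), 1 ≤ m → (X.card : ℝ) ≤ m →
    C₂ * m ^ ((2 : ℝ) / 3) ≤ H →
    ∀ 𝓟 : Finset (AffineSubspace ℝ (Pt 3)),
      (∀ Pl ∈ 𝓟, motIsPlane Pl ∧ ∀ T ⊆ X.filter (fun x => x ∈ Pl), Collinear ℝ (T : Set (Pt 3)) →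
        H + (T.card : ℝ) ≤ ((X.filter (fun x => x ∈ Pl)).card : ℝ)) →
      (𝓟.card : ℝ) ≤ K₂ * m ^ 2 / H ^ 2

/-- (mot:local, general type) -/
def MotGenStmt (η₁ η₂ : ℝ) : Prop :=
  ∃ Cg Kg : ℝ, 0 < Cg ∧ 0 < Kg ∧ ∀ (m ℓ : ℝ) (X Y : Finset (Pt 3)), 1 ≤ m → (X.card : ℝ) ≤ m →
    (Y.card : ℝ) ≤ m → Cg * m ^ ((2 : ℝ) / 3) ≤ ℓ →
    ∀ 𝒢 : Finset Motion,
      (∀ g ∈ 𝒢, ℓ ≤ (matchCount X Y g : ℝ) ∧ (matchCount X Y g : ℝ) < 2 * ℓ ∧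
        (∀ T ⊆ motSet X Y g, Collinear ℝ (T : Set (Pt 3)) → (T.card : ℝ) < η₁ * ℓ) ∧
        (∀ T ⊆ motSet X Y g, Coplanar ℝ (T : Set (Pt 3)) → (T.card : ℝ) < η₂ * ℓ)) →
      (𝒢.card : ℝ) ≤ Kg * m ^ 3 / ℓ ^ ((3 : ℝ) / 2)

/-- (mot:local, planar type) -/
def MotPlanarStmt (η₁ η₂ : ℝ) : Prop :=
  ∃ Cp Kp : ℝ, 0 < Cp ∧ 0 < Kp ∧ ∀ (m ℓ : ℝ) (X Y : Finset (Pt 3)), 1 ≤ m → (X.card : ℝ) ≤ m →
    (Y.card : ℝ) ≤ m → Cp * m ^ ((2 : ℝ) / 3) ≤ ℓ →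
    ∀ 𝒢 : Finset Motion,
      (∀ g ∈ 𝒢, ℓ ≤ (matchCount X Y g : ℝ) ∧ (matchCount X Y g : ℝ) < 2 * ℓ ∧
        (∀ T ⊆ motSet X Y g, Collinear ℝ (T : Set (Pt 3)) → (T.card : ℝ) < η₁ * ℓ) ∧
        (∃ T ⊆ motSet X Y g, Coplanar ℝ (T : Set (Pt 3)) ∧ η₂ * ℓ ≤ (T.card : ℝ))) →
      (𝒢.card : ℝ) ≤ Kp * m ^ 3 / ℓ ^ ((3 : ℝ) / 2)

/-- (mot:local) -/
def MotLocStmt (η₁ : ℝ) : Prop :=
  ∃ Cl Kl : ℝ, 0 < Cl ∧ 0 < Kl ∧ ∀ (m ℓ : ℝ) (X Y : Finset (Pt 3)), 1 ≤ m → (X.card : ℝ) ≤ m →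
    (Y.card : ℝ) ≤ m → Cl * m ^ ((2 : ℝ) / 3) ≤ ℓ →
    ∀ 𝒢 : Finset Motion,
      (∀ g ∈ 𝒢, ℓ ≤ (matchCount X Y g : ℝ) ∧ (matchCount X Y g : ℝ) < 2 * ℓ ∧
        (∀ T ⊆ motSet X Y g, Collinear ℝ (T : Set (Pt 3)) → (T.card : ℝ) < η₁ * ℓ)) →
      (𝒢.card : ℝ) ≤ Kl * m ^ 3 / ℓ ^ ((3 : ℝ) / 2)

/-- (mot:partition) only the colourings are exported. -/
def MotPartStmt : Prop :=
  ∃ Kp : ℝ, 1 ≤ Kp ∧ ∀ (N : ℕ) (r : ℝ) (X Y : Finset (Pt 3)), 1 ≤ r → r ≤ N → X.card ≤ N →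
    Y.card ≤ N →
    ∃ cX cY : Pt 3 → ℕ,
      ((X.image cX).card : ℝ) ≤ 19 * r ∧ ((Y.image cY).card : ℝ) ≤ 19 * r ∧
      (∀ i, ((motCls X cX i).card : ℝ) ≤ 8 * N / r) ∧ (∀ j, ((motCls Y cY j).card : ℝ) ≤ 8 * N / r) ∧
      ∀ g : Motion, ((motIdx X Y cX cY g).card : ℝ) ≤ Kp * r

/-- (mot:line-images (1)) -/
def MotLineAStmt : Prop :=
  ∀ L₁ L₂ L₁' L₂' : AffineSubspace ℝ (Pt 3), stIsLine L₁ → stIsLine L₂ →
    L₁.direction ≠ L₂.direction →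
    ∀ 𝒢 : Finset Motion, (∀ g ∈ 𝒢, motImg g L₁ = L₁' ∧ motImg g L₂ = L₂') → 𝒢.card ≤ 8

/-- (mot:line-images (2)) -/
def MotLineBStmt : Prop :=
  ∀ (X Y : Finset (Pt 3)) (H : ℝ) (L₁ L₂ L₁' L₂' : AffineSubspace ℝ (Pt 3)), stIsLine L₁ →
    stIsLine L₂ → L₁ ≠ L₂ → L₁.direction = L₂.direction → motCap X H → motCap Y H →
    ∀ 𝒢 : Finset Motion, (∀ g ∈ 𝒢, motImg g L₁ = L₁' ∧ motImg g L₂ = L₂') →
      ∑ g ∈ 𝒢, (motWt X Y g L₁ : ℝ) * (motWt X Y g L₂ : ℝ) ≤ 4 * H ^ 3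

/-- (mot:parallel-pairs) -/
def MotParStmt : Prop :=
  ∃ C : ℝ, 0 < C ∧ ∀ (𝓛 : Finset (AffineSubspace ℝ (Pt 3))) (ρ : ℝ), 0 < ρ →
    (∀ L ∈ 𝓛, stIsLine L) →
    (((𝓛 ×ˢ 𝓛).filter (fun p => motSep p.1 p.2 ρ)).card : ℝ) ≤ C * (𝓛.card : ℝ) ^ ((3 : ℝ) / 2)

/-- local match mass of the motions which are not of line type (dyadic sum of `MotLocStmt`) -/
def MotMassStmt (η : ℝ) : Prop :=
  ∃ Cm Km : ℝ, 0 < Cm ∧ 0 < Km ∧ ∀ (m b : ℝ) (X Y : Finset (Pt 3)), 1 ≤ m → (X.card : ℝ) ≤ m →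
    (Y.card : ℝ) ≤ m → Cm * m ^ ((2 : ℝ) / 3) ≤ b →
    ∀ 𝒢 : Finset Motion, (∀ g ∈ 𝒢, b ≤ (matchCount X Y g : ℝ) ∧ motNonline η X Y g) →
      ∑ g ∈ 𝒢, (matchCount X Y g : ℝ) ≤ Km * m ^ 3 / Real.sqrt b

/-- motions with line-match mass `≥ s` on the `q`-rich lines -/
def MotLineMassStmt : Prop :=
  ∃ K : ℝ, 0 < K ∧ ∀ (N H q s : ℝ) (X Y : Finset (Pt 3)), (X.card : ℝ) ≤ N → (Y.card : ℝ) ≤ N →
    motCap X H → motCap Y H → N ≤ q ^ 2 → 1 < q → 2 * H ≤ s →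
    ∀ 𝒢 : Finset Motion,
      (∀ g ∈ 𝒢, s ≤ ∑ L ∈ (motRich X q).filter (fun L => motImg g L ∈ motRich Y q),
        (motWt X Y g L : ℝ)) →
      (𝒢.card : ℝ) * s ^ 2 ≤ K * (H ^ 2 * (N / q) ^ 4 + H ^ 3 * (N / q) ^ ((7 : ℝ) / 2))

/-- one global bucket: the number of motions with at least `k = t A` matches -/
def MotBucketStmt : Prop :=
  ∃ C₀ Kb : ℝ, 1 ≤ C₀ ∧ 0 < Kb ∧ ∀ (N : ℕ) (t : ℝ) (X Y : Finset (Pt 3)), 2 ≤ N → X.card ≤ N →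
    Y.card ≤ N → motCap X (2 * (N : ℝ) ^ ((2 : ℝ) / 3)) → motCap Y (2 * (N : ℝ) ^ ((2 : ℝ) / 3)) →
    C₀ ≤ t → t ≤ (N : ℝ) ^ ((1 : ℝ) / 3) →
    ∀ 𝒢 : Finset Motion, (∀ g ∈ 𝒢, t * (N : ℝ) ^ ((2 : ℝ) / 3) ≤ (matchCount X Y g : ℝ)) →
      (𝒢.card : ℝ) * (t * (N : ℝ) ^ ((2 : ℝ) / 3)) ^ 2
        ≤ Kb * ((N : ℝ) ^ 4 / (N : ℝ) ^ ((2 : ℝ) / 3)) * t ^ (-(1 : ℝ) / 28)

end Claimed.Agent.R273
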