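/-
LIB-PK (row273), part 3: dimension of the space of polynomials of degree `≤ D`; parameter counting.
-/
import Claimed.Agent.R273.PkBasic
import Claimed.Agent.R273.RkDim

set_option autoImplicit false

namespace Claimed.Agent.R273

open MvPolynomial

/-- **PK-3a** `dim K[x_σ]_{≤ D} = binom (D + |σ|) |σ|` (any field `K`).

Proof: `restrictTotalDegree σ K D = restrictSupport K {s | degree s ≤ D}` has the monomial basis
(`MvPolynomial.basisRestrictSupport`); count `{s : σ →₀ ℕ | ∑ s ≤ D}` by stars and bars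
(add a slack variable: `Finset.Nat.card_...`/`Sym.card_sym_eq_choose`/induction on `|σ|` and `D`). -/
theorem pk_finrank (K : Type) [Field K] (σ : Type) [Fintype σ] (D : ℕ) :
    Module.finrank K (restrictTotalDegree σ K D) =
      (D + Fintype.card σ).choose (Fintype.card σ) := by
  rw [rk_finrank_restrict_field, add_comm, Nat.choose_symm_add]

/-- **PK-3b** parameter counting: given `|T|` affine maps `θ i : ℝ^τ → ℝ^σ` (coordinates of degree
`≤ 1`), if `|T| binom(D+|τ|,|τ|) < binom(D+|σ|,|σ|)` there is a nonzero polynomial of degree `≤ D`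
on `ℝ^σ` vanishing identically on all the flats `θ i (ℝ^τ)`.

Proof: the linear map `f ↦ (bind₁ (θ i) f)_{i ∈ T}` from `restrictTotalDegree σ ℝ D` to
`T → restrictTotalDegree τ ℝ D` (`pk_subst`) has a nontrivial kernel by `pk_finrank`. -/
theorem pk_exists_vanishing {σ τ ι : Type} [Fintype σ] [Fintype τ] (D : ℕ) (T : Finset ι)
    (θ : ι → σ → MvPolynomial τ ℝ) (hθ : ∀ i s, (θ i s).totalDegree ≤ 1)
    (hcount : T.card * (D + Fintype.card τ).choose (Fintype.card τ) <
      (D + Fintype.card σ).choose (Fintype.card σ)) :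
    ∃ f : MvPolynomial σ ℝ, f ≠ 0 ∧ f.totalDegree ≤ D ∧ ∀ i ∈ T, bind₁ (θ i) f = 0 := by
  classical
  let Φ : restrictTotalDegree σ ℝ D →ₗ[ℝ] (T → restrictTotalDegree τ ℝ D) :=
    LinearMap.pi fun i => LinearMap.codRestrict (restrictTotalDegree τ ℝ D)
      ((bind₁ (θ i.1)).toLinearMap.comp (restrictTotalDegree σ ℝ D).subtype) (by
        intro f
        rw [mem_restrictTotalDegree]
        exact ((pk_subst (θ i.1) (hθ i.1) f.1).1).trans ((mem_restrictTotalDegree _ _ _).mp f.2))
  have hlt : Module.finrank ℝ (T → restrictTotalDegree τ ℝ D) <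
      Module.finrank ℝ (restrictTotalDegree σ ℝ D) := by
    rw [Module.finrank_pi_fintype, pk_finrank]
    simp only [pk_finrank, Finset.sum_const, Finset.card_univ, Fintype.card_coe, smul_eq_mul]
    exact hcount
  have hker := LinearMap.ker_ne_bot_of_finrank_lt (f := Φ) hlt
  obtain ⟨f, hf, hf0⟩ := Submodule.exists_mem_ne_zero_of_ne_bot hker
  refine ⟨f.1, fun h => hf0 (Subtype.ext h), (mem_restrictTotalDegree _ _ _).mp f.2, fun i hi => ?_⟩
  have h1 := congrFun (LinearMap.mem_ker.mp hf) ⟨i, hi⟩
  exact congrArg Subtype.val h1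

end Claimed.Agent.R273
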