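-- KEEP
import Claimed.Agent.R273.MotTop
import Claimed.Agent.R273.PkHyper
import Claimed.Agent.R273.PkDim

/-!
# Row 273, unit GK+LOC: CONTRACTS for `mot:local` (motions.tex l.215-544).   Chief: helper231.   Prefix `motl_` / `Mot`.

`MotLoc` (exported to S7, helper62)  ⟸  `MotGen` (general type) + `MotPla` (planar type)          [glue: this file]
`MotGen`  ⟸  `MotCoreStmt` + adapter (isometries of `ℝ³` -> data `MotRev`)                         [MotAd*.lean]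
`MotCoreStmt`  ⟸  `MotDualStmt` + flats algebra + pruning + parameter counting                     [MotCore*.lean]
`MotDualStmt`  (Beck twice + vanishing lemmas; no motions, no six-space)                            [MotDual*.lean]
`MotPla`  ⟸  `MotEff` (mot:effective-planes) + `gk_spatial_planar_motions` + dyadic sums            [MotPla*.lean]

## The geometry (coordinate free version of motions.tex l.275-375; NO generic rotation, NO adapted frame)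
Six-space `(w,c) ∈ ℝ³ × ℝ³` = `Fin 3 ⊕ Fin 3 → ℝ`.  A LABEL is a pair `(v,b)`, `v = (x+y)/2`, `b = (x-y)/2`.
* pair flat  `F_(v,b) = {(w, b - w × v)}`, parametrised by `w`                                      (`motF`)
* a reversing motion `y = S x + h` (`det S = -1`, `S ≠ -1`) has a unit axis `a` (`S a = -a`) and numbers `ω, v0`, a vector `d ⊥ a` with
    (K1) `v·a = v0`,   (K2) `b - (b·a) a = ω a × v + d`      for all its labels, and conversely            (`MotRev.Match`)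
* motion flat `G = {(ω a + u - (u·a) a, (u·a) a + d + v0 a × u)}`, parametrised by `u ∈ ℝ³`           (`motG`)
* if `(v,b)` is a label of the motion:  `G(u) ∈ F_(v,b)  ⟺  u·(a + v × a) = b·a`; with `q = v + (b·a - v·a) a` (`MotRev.pt`) this is the
  plane `u·(a + q × a) = q·a` (`motDual a q u`), "the dual plane of the transformed point `q`"; `u` ↔ the non-vertical plane
  `{z : z·(a - a × u) = u·a}` of `q`-space (vertical = parallel to `a`).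
* in `F_(v,b)` the points of `G` are the plane `w·a = ω`.
-/

set_option autoImplicit false

namespace Claimed.Agent.R273

open MvPolynomial Matrix
open scoped Classical

/-! ## The exported statement -/

/-- **mot:local** -/
def MotLoc : Prop :=
  ∃ η1 Cl Kl : ℝ, 0 < η1 ∧ η1 ≤ 1 ∧ 0 < Cl ∧ 0 < Kl ∧
    ∀ (m ℓ : ℝ) (X Y : Finset (Pt 3)), 1 ≤ m → (X.card : ℝ) ≤ m → (Y.card : ℝ) ≤ m →
      Cl * m ^ ((2 : ℝ) / 3) ≤ ℓ →
      ∀ 𝒢 : Finset (Pt 3 ≃ᵃⁱ[ℝ] Pt 3),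
        (∀ g ∈ 𝒢, ℓ ≤ (matchCount X Y g : ℝ) ∧ (matchCount X Y g : ℝ) < 2 * ℓ ∧
          ∀ T ⊆ X.filter (fun x => g x ∈ Y), Collinear ℝ (T : Set (Pt 3)) → (T.card : ℝ) < η1 * ℓ) →
        (𝒢.card : ℝ) ≤ Kl * m ^ 3 / ℓ ^ ((3 : ℝ) / 2)

/-- general type -/
def MotGen : Prop :=
  ∃ η1 η2 Cg Kg : ℝ, 0 < η1 ∧ 0 < η2 ∧ 0 < Cg ∧ 0 < Kg ∧
    ∀ (m ℓ : ℝ) (X Y : Finset (Pt 3)), 1 ≤ m → (X.card : ℝ) ≤ m → (Y.card : ℝ) ≤ m →
      Cg * m ^ ((2 : ℝ) / 3) ≤ ℓ →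
      ∀ 𝒢 : Finset (Pt 3 ≃ᵃⁱ[ℝ] Pt 3),
        (∀ g ∈ 𝒢, ℓ ≤ (matchCount X Y g : ℝ) ∧ (matchCount X Y g : ℝ) < 2 * ℓ ∧
          (∀ T ⊆ X.filter (fun x => g x ∈ Y), Collinear ℝ (T : Set (Pt 3)) → (T.card : ℝ) < η1 * ℓ) ∧
          (∀ T ⊆ X.filter (fun x => g x ∈ Y), Coplanar ℝ (T : Set (Pt 3)) → (T.card : ℝ) < η2 * ℓ)) →
        (𝒢.card : ℝ) ≤ Kg * m ^ 3 / ℓ ^ ((3 : ℝ) / 2)

/-- planar type -/
def MotPla : Prop :=
  ∀ η1 η2 : ℝ, 0 < η1 → 4 * η1 ≤ η2 → ∃ Cp Kp : ℝ, 0 < Cp ∧ 0 < Kp ∧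
    ∀ (m ℓ : ℝ) (X Y : Finset (Pt 3)), 1 ≤ m → (X.card : ℝ) ≤ m → (Y.card : ℝ) ≤ m →
      Cp * m ^ ((2 : ℝ) / 3) ≤ ℓ →
      ∀ 𝒢 : Finset (Pt 3 ≃ᵃⁱ[ℝ] Pt 3),
        (∀ g ∈ 𝒢,
          (∀ T ⊆ X.filter (fun x => g x ∈ Y), Collinear ℝ (T : Set (Pt 3)) → (T.card : ℝ) < η1 * ℓ) ∧
          (∃ T ⊆ X.filter (fun x => g x ∈ Y), Coplanar ℝ (T : Set (Pt 3)) ∧ η2 * ℓ ≤ (T.card : ℝ))) →
        (𝒢.card : ℝ) ≤ Kp * m ^ 3 / ℓ ^ ((3 : ℝ) / 2)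

/-- **mot:effective-planes** (input of the planar type; proved in unit S7).  `e_X(Π) ≥ H` is phrased as: after removing any
collinear subset of `X ∩ Π` at least `H` points remain. -/
def MotEff : Prop :=
  ∃ C2 K2 : ℝ, 0 < C2 ∧ 0 < K2 ∧
    ∀ (m H : ℝ) (X : Finset (Pt 3)), 1 ≤ m → (X.card : ℝ) ≤ m → C2 * m ^ ((2 : ℝ) / 3) ≤ H →
      ∀ 𝓟 : Finset (AffineSubspace ℝ (Pt 3)),
        (∀ W ∈ 𝓟, Module.finrank ℝ W.direction = 2 ∧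
          ∀ T ⊆ X.filter (fun x => x ∈ W), Collinear ℝ (T : Set (Pt 3)) →
            H ≤ ((X.filter (fun x => x ∈ W)).card : ℝ) - T.card) →
        (𝓟.card : ℝ) ≤ K2 * m ^ 2 / H ^ 2

/-! ## The data of a reversing motion -/

/-- axis `a`, Cayley parameter `ω`, height `v0`, shift `d` -/
structure MotRev where
  a : Fin 3 → ℝ
  ω : ℝ
  v0 : ℝ
  d : Fin 3 → ℝ

/-- (K1), (K2): `(v,b)` is a label of the motion -/
def MotRev.Match (D : MotRev) (v b : Fin 3 → ℝ) : Prop :=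
  v ⬝ᵥ D.a = D.v0 ∧ b - (b ⬝ᵥ D.a) • D.a = D.ω • (D.a ⨯₃ v) + D.d

/-- the transformed point of a label -/
def MotRev.pt (D : MotRev) (e : (Fin 3 → ℝ) × (Fin 3 → ℝ)) : Fin 3 → ℝ :=
  e.1 + (e.2 ⬝ᵥ D.a - e.1 ⬝ᵥ D.a) • D.a

/-- the labels of `E` matched by the motion -/
noncomputable def MotRev.labels (D : MotRev) (E : Finset ((Fin 3 → ℝ) × (Fin 3 → ℝ))) :
    Finset ((Fin 3 → ℝ) × (Fin 3 → ℝ)) :=
  E.filter (fun e => D.Match e.1 e.2)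

/-- the pair flat, parametrised by `w` -/
def motF (v b w : Fin 3 → ℝ) : Fin 3 ⊕ Fin 3 → ℝ := Sum.elim w (b - w ⨯₃ v)

/-- the motion flat, parametrised by `u` -/
def motG (D : MotRev) (u : Fin 3 → ℝ) : Fin 3 ⊕ Fin 3 → ℝ :=
  Sum.elim (D.ω • D.a + u - (u ⬝ᵥ D.a) • D.a) ((u ⬝ᵥ D.a) • D.a + D.d + D.v0 • (D.a ⨯₃ u))

/-- `u` lies in the dual plane of the point `q` (vertical direction `a`) -/
def motDual (a q u : Fin 3 → ℝ) : Prop := u ⬝ᵥ (a + q ⨯₃ a) = q ⬝ᵥ a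

theorem motl_defs_cite : True := by
  have := @MotLoc.eq_1
  have := @MotGen.eq_1
  have := @MotPla.eq_1
  have := @MotEff.eq_1
  have := @MotRev.Match.eq_1
  have := @MotRev.pt.eq_1
  have := @MotRev.labels.eq_1
  have := @motF.eq_1
  have := @motG.eq_1
  have := @motDual.eq_1
  trivial

/-! ## The two inner contracts -/

/-- **DUAL** (motions.tex l.430-475).  `Q` a finite cloud with few points on every line and every plane; a polynomial of degree `< ε |Q|`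
in the dual space which vanishes at every point `u` lying on the dual planes of three points of `Q` spanning a non-vertical plane is `0`. -/
def MotDualStmt : Prop :=
  ∃ δ1 δ2 ε : ℝ, 0 < δ1 ∧ 0 < δ2 ∧ 0 < ε ∧
    ∀ (a : Fin 3 → ℝ) (Q : Finset (Fin 3 → ℝ)), a ⬝ᵥ a = 1 →
      (∀ T ⊆ Q, Collinear ℝ (T : Set (Fin 3 → ℝ)) → (T.card : ℝ) ≤ δ1 * Q.card) →
      (∀ T ⊆ Q, ∀ (ν : Fin 3 → ℝ) (β : ℝ), ν ≠ 0 → (∀ q ∈ T, ν ⬝ᵥ q = β) → (T.card : ℝ) ≤ δ2 * Q.card) →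
      ∀ p : MvPolynomial (Fin 3) ℝ, (p.totalDegree : ℝ) < ε * Q.card →
        (∀ u : Fin 3 → ℝ, ∀ q ∈ Q, ∀ q' ∈ Q, ∀ q'' ∈ Q, ((q' - q) ⨯₃ (q'' - q)) ⬝ᵥ a ≠ 0 →
          motDual a q u → motDual a q' u → motDual a q'' u → eval u p = 0) →
        p = 0

/-- **CORE** (motions.tex l.376-480): the polynomial argument, for abstract data. -/
def MotCoreStmt : Prop :=
  ∃ η1 η2 C K : ℝ, 0 < η1 ∧ 0 < η2 ∧ 0 < C ∧ 0 < K ∧
    ∀ (m ℓ : ℝ) (E : Finset ((Fin 3 → ℝ) × (Fin 3 → ℝ))) (𝒟 : Finset MotRev),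
      1 ≤ m → (E.card : ℝ) ≤ m ^ 2 → ℓ ≤ m → C * m ^ ((2 : ℝ) / 3) ≤ ℓ →
      (∀ D ∈ 𝒟, D.a ⬝ᵥ D.a = 1) →
      (∀ D ∈ 𝒟, ∀ D' ∈ 𝒟, (∀ v b, D.Match v b ↔ D'.Match v b) → D = D') →
      (∀ D ∈ 𝒟, ℓ ≤ ((D.labels E).card : ℝ) ∧ ((D.labels E).card : ℝ) < 2 * ℓ) →
      (∀ D ∈ 𝒟, ∀ T ⊆ D.labels E, Collinear ℝ (D.pt '' (T : Set ((Fin 3 → ℝ) × (Fin 3 → ℝ)))) →
        (T.card : ℝ) < η1 * ℓ) →
      (∀ D ∈ 𝒟, ∀ T ⊆ D.labels E, ∀ (ν : Fin 3 → ℝ) (β : ℝ), ν ≠ 0 → (∀ e ∈ T, ν ⬝ᵥ D.pt e = β) →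
        (T.card : ℝ) < η2 * ℓ) →
      (𝒟.card : ℝ) ≤ K * m ^ 3 / ℓ ^ ((3 : ℝ) / 2)

theorem motl_stmts_cite : True := by
  have := @MotDualStmt.eq_1
  have := @MotCoreStmt.eq_1
  trivial

/-! ## Glue -/

/-- `mot:local` from the two types -/
theorem motl_loc_of_parts (hg : MotGen) (hp : MotPla) : MotLoc := by
  obtain ⟨η1g, η2, Cg, Kg, h1g, h2, hCg, hKg, Hg⟩ := hg
  obtain ⟨η1, hη1, hη1g, hη12, hη11⟩ : ∃ η1 : ℝ, 0 < η1 ∧ η1 ≤ η1g ∧ 4 * η1 ≤ η2 ∧ η1 ≤ 1 := by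
    refine ⟨min (min η1g (η2 / 4)) 1, by positivity, ?_, ?_, min_le_right _ _⟩
    · exact (min_le_left _ _).trans (min_le_left _ _)
    · have := (min_le_left (min η1g (η2 / 4)) 1).trans (min_le_right _ _)
      linarith
  obtain ⟨Cp, Kp, hCp, hKp, Hp⟩ := hp η1 η2 hη1 hη12
  refine ⟨η1, max Cg Cp, Kg + Kp, hη1, hη11, lt_max_of_lt_left hCg, by positivity, ?_⟩
  intro m ℓ X Y hm hX hY hℓ 𝒢 h𝒢
  have hm0 : (0 : ℝ) ≤ m ^ ((2 : ℝ) / 3) := by positivity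
  have hℓg : Cg * m ^ ((2 : ℝ) / 3) ≤ ℓ :=
    (mul_le_mul_of_nonneg_right (le_max_left _ _) hm0).trans hℓ
  have hℓp : Cp * m ^ ((2 : ℝ) / 3) ≤ ℓ :=
    (mul_le_mul_of_nonneg_right (le_max_right _ _) hm0).trans hℓ
  have hℓ0 : 0 < ℓ := lt_of_lt_of_le (by positivity) hℓg
  set P : (Pt 3 ≃ᵃⁱ[ℝ] Pt 3) → Prop := fun g =>
    ∃ T ⊆ X.filter (fun x => g x ∈ Y), Coplanar ℝ (T : Set (Pt 3)) ∧ η2 * ℓ ≤ (T.card : ℝ) with hP
  have h1 := Hp m ℓ X Y hm hX hY hℓp (𝒢.filter P) (by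
    intro g hg
    obtain ⟨hg1, hg2⟩ := Finset.mem_filter.1 hg
    exact ⟨(h𝒢 g hg1).2.2, hg2⟩)
  have h2 := Hg m ℓ X Y hm hX hY hℓg (𝒢.filter (fun g => ¬ P g)) (by
    intro g hg
    obtain ⟨hg1, hg2⟩ := Finset.mem_filter.1 hg
    refine ⟨(h𝒢 g hg1).1, (h𝒢 g hg1).2.1, fun T hT hc => ?_, fun T hT hc => ?_⟩
    · exact ((h𝒢 g hg1).2.2 T hT hc).trans_le (mul_le_mul_of_nonneg_right hη1g hℓ0.le)
    · by_contra hlt
      exact hg2 ⟨T, hT, hc, not_lt.1 hlt⟩)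
  have h3 : (𝒢.card : ℝ) = ((𝒢.filter P).card : ℝ) + ((𝒢.filter (fun g => ¬ P g)).card : ℝ) := by
    rw [← Nat.cast_add, Finset.card_filter_add_card_filter_not]
  rw [h3, add_mul, add_div]
  linarith

/-! ## Bridges to the contracts of unit S7 (`MotTop.lean`, helper62) -/

theorem motl_eff_of_stmt (h : MotEffStmt) : MotEff := by
  obtain ⟨C2, K2, hC, hK, H⟩ := h
  refine ⟨C2, K2, hC, hK, fun m H' X hm hX hH 𝓟 h𝓟 => H m H' X hm hX hH 𝓟 fun W hW => ?_⟩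
  refine ⟨(h𝓟 W hW).1, fun T hT hc => ?_⟩
  have := (h𝓟 W hW).2 T hT hc
  linarith

/-- the contract LOC of `MotTop.lean` -/
theorem motl_locStmt_of_loc (h : MotLoc) : ∃ η1 : ℝ, 0 < η1 ∧ η1 ≤ 1 ∧ MotLocStmt η1 := by
  obtain ⟨η1, Cl, Kl, h0, h1, hC, hK, H⟩ := h
  exact ⟨η1, h0, h1, Cl, Kl, hC, hK, fun m ℓ X Y hm hX hY hℓ 𝒢 h𝒢 => H m ℓ X Y hm hX hY hℓ 𝒢 h𝒢⟩

end Claimed.Agent.R273
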