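-- KEEP
import Claimed.Agent.R273.MotLocTop

/-!
# Row 273, unit GK+LOC, block DUAL: `MotDualStmt` (contract of `MotLocTop.lean`).   Architect helper71.   Prefix `motd_`.

Everything is vector algebra in `Fin 3 → ℝ` (`⬝ᵥ`, `⨯₃`), Beck in STAR form (twice), and the vanishing lemmas `pk_line_zeros`, `pk_hyperplanes`,
`pk_subst`, `pk_generic_vector`.

## Dictionary (`a·a = 1`)
`motDual a q u ⟺ u·(a + q × a) = q·a ⟺ q·(a - a × u) = u·a`.   For `n·a = 1` put `U(n) = motdU a q0 n = (q0·n) a + a × n`.  Then `a - a × U(n) = n`,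
`U(n)·a = q0·n`, so `motDual a q (U n) ⟺ q·n = q0·n` (`motd_dual_U`); `U` is injective on `{n·a = 1}`.
If `motDual a q0 u` then `motDual a (q0 + d) u ⟺ u·(d × a) = d·a` (`motd_dual_shift`): homogeneous in `d`.

## Proof of `MotDualStmt`   (`δ1 = min δ0 (γ0²/2)`, `δ2 = δ0 γ0`, `ε = γ0²/2`, `n = |Q| ≥ 1/δ1` because singletons are collinear)
* STAR(Q): `≥ γ0 n` anchors `q0`, each with a star `S ⊆ Q`, `|S| ≥ γ0 n`, the directions `q - q0` pairwise non-parallel.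
* `motd_reduce`: `lam` generic, `Z = {(q - q0)/(lam·(q - q0))}`, `|Z| = |S|`; collinear `T ⊆ Z` lies in a plane through `0`: `|T| ≤ δ2 n ≤ δ0 |Z|`.
* `motd_anchor`: STAR(Z): `≥ γ0 |Z|` anchors `z0`, stars `S'`; `(z - z0) × (z' - z0) = det(z0,z,z') lam` (`motd_det_identity`).
  - level 1: on the line `H_q0 ∩ {u·(z0 × a) = z0·a}` the points `U((z0 × z)/((z0 × z)·a))`, `z ∈ S'`, `(z0 × z)·a ≠ 0`, are distinct zeros of `p`; at most one
    `z ∈ S'` is lost (`det(z0,z,z') (a × z0) = (a·(z0 × z')) (z0 × z) - (a·(z0 × z)) (z0 × z')`).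
  - level 2: `> deg p` such lines in the plane `H_q0`: compose `p` with the projection `w ↦ w + (q0·a - w·N) a`, `N = a + q0 × a`, along `a` onto `H_q0`; the lines
    become the planes `w·(z0 × a) = z0·a`; `pk_hyperplanes` with `n = 3`.  (At most one `z0 ∈ Z` is parallel to `a`.)
* level 3: `> deg p` distinct planes `H_q0`: `pk_hyperplanes`.
-/

set_option autoImplicit false
set_option linter.unusedSimpArgs false

namespace Claimed.Agent.R273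

open MvPolynomial Matrix
open scoped Classical

/-- the point of the dual plane of `q0` whose primal plane has normal `n` (`n·a = 1`). -/
def motdU (a q0 n : Fin 3 → ℝ) : Fin 3 → ℝ := (q0 ⬝ᵥ n) • a + a ⨯₃ n

/-- Beck's theorem in star form, with constants `δ0, γ0`. -/
def MotdStar (δ0 γ0 : ℝ) : Prop :=
  ∀ X : Finset (Fin 3 → ℝ),
    (∀ T ⊆ X, Collinear ℝ (T : Set (Fin 3 → ℝ)) → (T.card : ℝ) ≤ δ0 * X.card) →
    ∃ A ⊆ X, γ0 * (X.card : ℝ) ≤ A.card ∧ ∀ x ∈ A, ∃ S ⊆ X, γ0 * (X.card : ℝ) ≤ S.card ∧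
      (∀ y ∈ S, y ≠ x) ∧ ∀ y ∈ S, ∀ y' ∈ S, y ≠ y' → (y - x) ⨯₃ (y' - x) ≠ 0

/-! ## 0. Vector algebra -/

/-- **MOTD-0a** -/
theorem motd_dual_U (a q0 n q : Fin 3 → ℝ) (ha : a ⬝ᵥ a = 1) (hn : n ⬝ᵥ a = 1) :
    motDual a q (motdU a q0 n) ↔ q ⬝ᵥ n = q0 ⬝ᵥ n := by
  simp only [motDual, motdU, dotProduct, Fin.sum_univ_three, cross_apply, Pi.add_apply, Pi.sub_apply,
    Pi.smul_apply, smul_eq_mul, Matrix.cons_val_zero, Matrix.cons_val_one, Matrix.cons_val_two,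
    Matrix.head_cons, Matrix.tail_cons] at *
  constructor
  · intro h
    linear_combination (-1) * h + ((q0 0 * n 0 + q0 1 * n 1 + q0 2 * n 2) - (q 0 * n 0 + q 1 * n 1 + q 2 * n 2)) * ha
      + (a 0 * q 0 + a 1 * q 1 + a 2 * q 2) * hn
  · intro h
    linear_combination (-1) * h + ((q0 0 * n 0 + q0 1 * n 1 + q0 2 * n 2) - (q 0 * n 0 + q 1 * n 1 + q 2 * n 2)) * ha
      + (a 0 * q 0 + a 1 * q 1 + a 2 * q 2) * hn

theorem motd_cross_dot_aux (a w : Fin 3 → ℝ) (ha : a ⬝ᵥ a = 1) (h1 : w ⨯₃ a = 0) (h2 : w ⬝ᵥ a = 0) :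
    w = 0 := by
  have := cross_cross_eq_smul_sub_smul' a w a
  rw [h1, LinearMap.map_zero, ha, h2, one_smul, zero_smul, sub_zero] at this
  exact this.symm

/-- **MOTD-0b** -/
theorem motd_U_inj (a q0 n n' : Fin 3 → ℝ) (ha : a ⬝ᵥ a = 1) (hn : n ⬝ᵥ a = 1) (hn' : n' ⬝ᵥ a = 1)
    (h : motdU a q0 n = motdU a q0 n') : n = n' := by
  -- dot with `a`: `q0·n = q0·n'`; then `a × (n - n') = 0`
  have h1 : q0 ⬝ᵥ n = q0 ⬝ᵥ n' := by
    have := congrArg (fun z => z ⬝ᵥ a) h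
    simp only [motdU, add_dotProduct, smul_dotProduct, ha, smul_eq_mul, mul_one] at this
    rw [dotProduct_comm (a ⨯₃ n) a, dotProduct_comm (a ⨯₃ n') a, dot_self_cross, dot_self_cross] at this
    linarith
  have h2 : a ⨯₃ n = a ⨯₃ n' := by
    simp only [motdU, h1] at h
    exact add_left_cancel h
  have h3 : (n - n') ⨯₃ a = 0 := by
    rw [← cross_anticomm, LinearMap.map_sub, h2, sub_self, neg_zero]
  have h4 : (n - n') ⬝ᵥ a = 0 := by rw [sub_dotProduct, hn, hn', sub_self]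
  exact sub_eq_zero.1 (motd_cross_dot_aux a _ ha h3 h4)

/-- **MOTD-0c** -/
theorem motd_dual_shift (a q0 d u : Fin 3 → ℝ) (h0 : motDual a q0 u) :
    motDual a (q0 + d) u ↔ u ⬝ᵥ (d ⨯₃ a) = d ⬝ᵥ a := by
  simp only [motDual, dotProduct, Fin.sum_univ_three, cross_apply, Pi.add_apply, Pi.sub_apply,
    Pi.smul_apply, smul_eq_mul, Matrix.cons_val_zero, Matrix.cons_val_one, Matrix.cons_val_two,
    Matrix.head_cons, Matrix.tail_cons] at *
  constructor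
  · intro h
    linear_combination h - h0
  · intro h
    linear_combination h + h0

/-- **MOTD-0d** -/
theorem motd_det_identity (lam x y z : Fin 3 → ℝ) (hx : lam ⬝ᵥ x = 1) (hy : lam ⬝ᵥ y = 1)
    (hz : lam ⬝ᵥ z = 1) : (y - x) ⨯₃ (z - x) = (x ⬝ᵥ (y ⨯₃ z)) • lam := by
  simp only [dotProduct, Fin.sum_univ_three, cross_apply, Pi.add_apply, Pi.sub_apply,
    Pi.smul_apply, smul_eq_mul, Matrix.cons_val_zero, Matrix.cons_val_one, Matrix.cons_val_two,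
    Matrix.head_cons, Matrix.tail_cons] at *
  ext i
  fin_cases i
  · simp only [Fin.zero_eta, Fin.isValue, Matrix.cons_val_zero, Pi.smul_apply, smul_eq_mul]
    linear_combination (-(y 1 * z 2 - y 2 * z 1)) * hx - (z 1 * x 2 - z 2 * x 1) * hy
      - (x 1 * y 2 - x 2 * y 1) * hz
  · simp only [Fin.mk_one, Fin.isValue, Matrix.cons_val_one, Matrix.cons_val_zero, Pi.smul_apply, smul_eq_mul]
    linear_combination (-(y 2 * z 0 - y 0 * z 2)) * hx - (z 2 * x 0 - z 0 * x 2) * hy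
      - (x 2 * y 0 - x 0 * y 2) * hz
  · simp only [Fin.reduceFinMk, Fin.isValue, Matrix.cons_val_two, Matrix.cons_val_one, Matrix.cons_val_zero,
      Matrix.tail_cons, Matrix.head_cons, Pi.smul_apply, smul_eq_mul]
    linear_combination (-(y 0 * z 1 - y 1 * z 0)) * hx - (z 0 * x 1 - z 1 * x 0) * hy
      - (x 0 * y 1 - x 1 * y 0) * hz

/-- **MOTD-0e** -/
theorem motd_det_identity2 (a z0 z z' : Fin 3 → ℝ) :
    (z0 ⬝ᵥ (z ⨯₃ z')) • (a ⨯₃ z0)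
      = (a ⬝ᵥ (z0 ⨯₃ z')) • (z0 ⨯₃ z) - (a ⬝ᵥ (z0 ⨯₃ z)) • (z0 ⨯₃ z') := by
  ext i
  fin_cases i <;>
  simp [dotProduct, Fin.sum_univ_three, cross_apply] <;> ring

/-- **MOTD-0f** a vector is determined by its cross and dot products with the unit vector `a`. -/
theorem motd_cross_dot_inj (a w : Fin 3 → ℝ) (ha : a ⬝ᵥ a = 1) (h1 : w ⨯₃ a = 0) (h2 : w ⬝ᵥ a = 0) :
    w = 0 := by
  have := cross_cross_eq_smul_sub_smul' a w a
  rw [h1, LinearMap.map_zero, ha, h2, one_smul, zero_smul, sub_zero] at this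
  exact this.symm

/-- **MOTD-0g** vanishing cross product: parallel. -/
theorem motd_cross_zero (v w : Fin 3 → ℝ) (hv : v ≠ 0) (h : v ⨯₃ w = 0) : ∃ c : ℝ, w = c • v := by
  have hvv : v ⬝ᵥ v ≠ 0 := fun h0 => hv (dotProduct_self_eq_zero.1 h0)
  have := cross_cross_eq_smul_sub_smul' v v w
  rw [h, LinearMap.map_zero] at this
  -- `0 = (v·w) v - (v·v) w`
  refine ⟨(v ⬝ᵥ w) / (v ⬝ᵥ v), ?_⟩
  have h1 : (v ⬝ᵥ v) • w = (v ⬝ᵥ w) • v := (sub_eq_zero.1 this.symm).symm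
  rw [div_eq_inv_mul, ← smul_smul, ← h1, smul_smul, inv_mul_cancel₀ hvv, one_smul]

/-- **MOTD-0h** the intersection of two planes with independent normals is a line. -/
theorem motd_two_planes (ν₁ ν₂ w : Fin 3 → ℝ) (h : ν₁ ⨯₃ ν₂ ≠ 0) (h1 : ν₁ ⬝ᵥ w = 0)
    (h2 : ν₂ ⬝ᵥ w = 0) : ∃ t : ℝ, w = t • (ν₁ ⨯₃ ν₂) := by
  apply motd_cross_zero _ _ h
  rw [cross_cross_eq_smul_sub_smul, h1, h2, zero_smul, zero_smul, sub_zero]

/-- **MOTD-0i** a plane contained in a plane: proportional equations. -/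
theorem motd_plane_sep (ν ν' : Fin 3 → ℝ) (β β' : ℝ) (hν : ν ≠ 0)
    (h : ∀ x : Fin 3 → ℝ, ν ⬝ᵥ x = β → ν' ⬝ᵥ x = β') : ∃ c : ℝ, ν' = c • ν ∧ β' = c * β := by
  have hνν : ν ⬝ᵥ ν ≠ 0 := fun h0 => hν (dotProduct_self_eq_zero.1 h0)
  obtain ⟨x0, hx0⟩ : ∃ x0 : Fin 3 → ℝ, x0 = (β / (ν ⬝ᵥ ν)) • ν := ⟨_, rfl⟩
  have h0 : ν ⬝ᵥ x0 = β := by
    rw [hx0, dotProduct_smul, smul_eq_mul, div_mul_cancel₀ _ hνν]
  obtain ⟨c, hc⟩ : ∃ c : ℝ, c = (ν' ⬝ᵥ ν) / (ν ⬝ᵥ ν) := ⟨_, rfl⟩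
  have hcν : c * (ν ⬝ᵥ ν) = ν' ⬝ᵥ ν := by rw [hc, div_mul_cancel₀ _ hνν]
  have hz1 : ν ⬝ᵥ (ν' - c • ν) = 0 := by
    rw [dotProduct_sub, dotProduct_smul, smul_eq_mul, hcν, dotProduct_comm, sub_self]
  have hz2 : ν' ⬝ᵥ (ν' - c • ν) = 0 := by
    have h1 := h (x0 + (ν' - c • ν)) (by rw [dotProduct_add, h0, hz1, add_zero])
    have h2 := h x0 h0
    rw [dotProduct_add, h2] at h1
    linarith
  have hz : ν' - c • ν = 0 := by
    apply dotProduct_self_eq_zero.1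
    rw [sub_dotProduct, hz2, smul_dotProduct, hz1, smul_zero, sub_zero]
  have hν' : ν' = c • ν := sub_eq_zero.1 hz
  refine ⟨c, hν', ?_⟩
  rw [← h x0 h0, hν', smul_dotProduct, h0, smul_eq_mul]

theorem motd_exists_perp (e : Fin 3 → ℝ) : ∃ ν : Fin 3 → ℝ, ν ≠ 0 ∧ ν ⬝ᵥ e = 0 := by
  by_cases h : e 0 = 0 ∧ e 1 = 0
  · refine ⟨![1, 0, 0], ?_, ?_⟩
    · intro h0
      have := congrFun h0 0
      simp at this
    · simp [dotProduct, Fin.sum_univ_three, h.1]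
  · refine ⟨![-e 1, e 0, 0], ?_, ?_⟩
    · intro h0
      apply h
      have h1 := congrFun h0 0
      have h2 := congrFun h0 1
      simp at h1 h2
      exact ⟨h2, h1⟩
    · simp [dotProduct, Fin.sum_univ_three]
      ring

/-- **MOTD-0j** a collinear set lies in a plane through the origin. -/
theorem motd_collinear_plane (T : Set (Fin 3 → ℝ)) (h : Collinear ℝ T) :
    ∃ ν : Fin 3 → ℝ, ν ≠ 0 ∧ ∀ z ∈ T, ν ⬝ᵥ z = 0 := by
  obtain ⟨p₀, v, hT⟩ := (collinear_iff_exists_forall_eq_smul_vadd T).1 h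
  by_cases hc : p₀ ⨯₃ v = 0
  · by_cases hp : p₀ = 0
    · obtain ⟨ν, hν, hνe⟩ := motd_exists_perp v
      refine ⟨ν, hν, fun z hz => ?_⟩
      obtain ⟨r, rfl⟩ := hT z hz
      rw [hp, vadd_eq_add, add_zero, dotProduct_smul, hνe, smul_zero]
    · obtain ⟨c, hcv⟩ := motd_cross_zero p₀ v hp hc
      obtain ⟨ν, hν, hνe⟩ := motd_exists_perp p₀
      refine ⟨ν, hν, fun z hz => ?_⟩
      obtain ⟨r, rfl⟩ := hT z hz
      rw [hcv, vadd_eq_add, dotProduct_add, dotProduct_smul, dotProduct_smul, hνe]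
      simp
  · refine ⟨p₀ ⨯₃ v, hc, fun z hz => ?_⟩
    obtain ⟨r, rfl⟩ := hT z hz
    rw [vadd_eq_add, dotProduct_comm, add_dotProduct, smul_dotProduct, dot_cross_self, dot_self_cross]
    simp

/-! ## 1. Beck in star form -/

/-- **MOTD-1** from `st_beck`: on every line of `L` through the anchor `x` choose a point of `X` different from `x`. -/
theorem motd_beck_star : ∃ δ0 γ0 : ℝ, 0 < δ0 ∧ δ0 ≤ 1 ∧ 0 < γ0 ∧ γ0 ≤ 1 ∧ MotdStar δ0 γ0 := by
  obtain ⟨δ0, γ0, h1, h2, h3, h4, H⟩ := st_beck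
  refine ⟨δ0, γ0, h1, h2, h3, h4, ?_⟩
  intro X hX
  obtain ⟨L, hL, _, hanch⟩ := H (Fin 3 → ℝ) X hX
  refine ⟨X.filter (fun x => γ0 * (X.card : ℝ) ≤ ((L.filter (fun l => x ∈ l)).card : ℝ)),
    Finset.filter_subset _ _, hanch, ?_⟩
  intro x hx
  obtain ⟨hxX, hxL⟩ := Finset.mem_filter.1 hx
  -- choose a second point on every line through `x`
  have hch : ∀ l ∈ L.filter (fun l => x ∈ l), ∃ y ∈ X, y ∈ l ∧ y ≠ x := by
    intro l hl
    have h2 := (hL l (Finset.mem_filter.1 hl).1).2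
    obtain ⟨y, hy, hyx⟩ := Finset.exists_mem_ne (by omega : 1 < (X.filter (fun x => x ∈ l)).card) x
    exact ⟨y, (Finset.mem_filter.1 hy).1, (Finset.mem_filter.1 hy).2, hyx⟩
  choose! f hfX hfl hfx using hch
  have hline : ∀ l ∈ L.filter (fun l => x ∈ l), stIsLine l ∧ x ∈ l := fun l hl =>
    ⟨(hL l (Finset.mem_filter.1 hl).1).1, (Finset.mem_filter.1 hl).2⟩
  have hinj : Set.InjOn f (L.filter (fun l => x ∈ l) : Set (AffineSubspace ℝ (Fin 3 → ℝ))) := by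
    intro l hl l' hl' he
    exact st_line_unique l l' (hline l hl).1 (hline l' hl').1 x (f l) (hfx l hl).symm (hline l hl).2
      (hfl l hl) (hline l' hl').2 (he ▸ hfl l' hl')
  refine ⟨(L.filter (fun l => x ∈ l)).image f, ?_, ?_, ?_, ?_⟩
  · intro y hy
    obtain ⟨l, hl, rfl⟩ := Finset.mem_image.1 hy
    exact hfX l hl
  · rw [Finset.card_image_of_injOn hinj]
    exact hxL
  · intro y hy
    obtain ⟨l, hl, rfl⟩ := Finset.mem_image.1 hy
    exact hfx l hl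
  · intro y hy y' hy' hne h0
    obtain ⟨l, hl, rfl⟩ := Finset.mem_image.1 hy
    obtain ⟨l', hl', rfl⟩ := Finset.mem_image.1 hy'
    obtain ⟨c, hc⟩ := motd_cross_zero _ _ (sub_ne_zero.2 (hfx l hl)) h0
    have hmem : f l' ∈ l := by
      have h5 := AffineMap.lineMap_mem c (hline l hl).2 (hfl l hl)
      rw [AffineMap.lineMap_apply, vsub_eq_sub, vadd_eq_add, ← hc, sub_add_cancel] at h5
      exact h5
    have hll : l = l' := st_line_unique l l' (hline l hl).1 (hline l' hl').1 x (f l') (hfx l' hl').symm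
      (hline l hl).2 hmem (hline l' hl').2 (hfl l' hl')
    exact hne (by rw [hll])

/-! ## 2. The three levels -/

theorem motd_normal_dot (a q : Fin 3 → ℝ) (ha : a ⬝ᵥ a = 1) : (a + q ⨯₃ a) ⬝ᵥ a = 1 := by
  rw [add_dotProduct, ha, dotProduct_comm, dot_cross_self, add_zero]

/-- nested dual planes: equal points -/
theorem motd_dual_sep (a q q' : Fin 3 → ℝ) (ha : a ⬝ᵥ a = 1)
    (h : ∀ x : Fin 3 → ℝ, (a + q ⨯₃ a) ⬝ᵥ x = q ⬝ᵥ a → (a + q' ⨯₃ a) ⬝ᵥ x = q' ⬝ᵥ a) : q = q' := by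
  have hν : a + q ⨯₃ a ≠ 0 := by
    intro h0
    have := motd_normal_dot a q ha
    rw [h0, zero_dotProduct] at this
    norm_num at this
  obtain ⟨c, hc1, hc2⟩ := motd_plane_sep _ _ _ _ hν h
  have hc : c = 1 := by
    have := congrArg (fun z => z ⬝ᵥ a) hc1
    simp only [smul_dotProduct, motd_normal_dot a _ ha, smul_eq_mul, mul_one] at this
    exact this.symm
  rw [hc, one_smul] at hc1
  rw [hc, one_mul] at hc2
  have h1 : (q - q') ⨯₃ a = 0 := by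
    rw [LinearMap.map_sub, LinearMap.sub_apply, sub_eq_zero]
    exact (add_left_cancel hc1).symm
  have h2 : (q - q') ⬝ᵥ a = 0 := by rw [sub_dotProduct, hc2, sub_self]
  exact sub_eq_zero.1 (motd_cross_dot_inj a _ ha h1 h2)

theorem motd_cross_cross_id (A B C : Fin 3 → ℝ) :
    (A ⨯₃ B) ⨯₃ (A ⨯₃ C) = (A ⬝ᵥ (B ⨯₃ C)) • A := by
  ext i
  fin_cases i <;> simp [dotProduct, Fin.sum_univ_three, cross_apply] <;> ring

/-- **MOTD-2** level 1: many zeros on the line `H_q0 ∩ H_(q0 + z0)`. -/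
theorem motd_level1 (a q0 z0 : Fin 3 → ℝ) (ha : a ⬝ᵥ a = 1) (hz0 : z0 ⨯₃ a ≠ 0)
    (S : Finset (Fin 3 → ℝ)) (hS : ∀ z ∈ S, ∀ z' ∈ S, z ≠ z' → z0 ⬝ᵥ (z ⨯₃ z') ≠ 0)
    (p : MvPolynomial (Fin 3) ℝ) (hdeg : p.totalDegree + 1 < S.card)
    (hvan : ∀ z ∈ S, (z0 ⨯₃ z) ⬝ᵥ a ≠ 0 →
      eval (motdU a q0 (((z0 ⨯₃ z) ⬝ᵥ a)⁻¹ • (z0 ⨯₃ z))) p = 0) :
    ∀ u : Fin 3 → ℝ, motDual a q0 u → u ⬝ᵥ (z0 ⨯₃ a) = z0 ⬝ᵥ a → eval u p = 0 := by
  intro u hu1 hu2
  by_contra hpu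
  have hNa := motd_normal_dot a q0 ha
  have hz00 : z0 ≠ 0 := by
    intro h0
    apply hz0
    rw [h0, LinearMap.map_zero, LinearMap.zero_apply]
  have hN0 : a + q0 ⨯₃ a ≠ 0 := by
    intro h0
    rw [h0, zero_dotProduct] at hNa
    norm_num at hNa
  have hcross : (a + q0 ⨯₃ a) ⨯₃ (z0 ⨯₃ a) ≠ 0 := by
    intro h0
    obtain ⟨c, hc⟩ := motd_cross_zero _ _ hN0 h0
    have h1 := congrArg (fun z => z ⬝ᵥ a) hc
    simp only [smul_dotProduct, hNa, smul_eq_mul, mul_one] at h1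
    rw [dotProduct_comm, dot_cross_self] at h1
    rw [← h1, zero_smul] at hc
    exact hz0 hc
  -- at most one point is lost
  have hlost : (S.filter (fun z => ¬ (z0 ⨯₃ z) ⬝ᵥ a ≠ 0)).card ≤ 1 := by
    rw [Finset.card_le_one]
    intro z hz z' hz'
    obtain ⟨hzS, hz1⟩ := Finset.mem_filter.1 hz
    obtain ⟨hzS', hz1'⟩ := Finset.mem_filter.1 hz'
    rw [not_not] at hz1 hz1'
    by_contra hne
    have h1 := motd_det_identity2 a z0 z z'
    rw [dotProduct_comm a, dotProduct_comm a, hz1, hz1', zero_smul, zero_smul, sub_zero] at h1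
    rcases smul_eq_zero.1 h1 with h2 | h2
    · exact hS z hzS z' hzS' hne h2
    · apply hz0
      rw [← cross_anticomm, h2, neg_zero]
  have hcard : S.card ≤ (S.filter (fun z => (z0 ⨯₃ z) ⬝ᵥ a ≠ 0)).card + 1 := by
    have := Finset.card_filter_add_card_filter_not (s := S) (fun z => (z0 ⨯₃ z) ⬝ᵥ a ≠ 0)
    omega
  obtain ⟨Uz, hUz⟩ : ∃ Uz : (Fin 3 → ℝ) → (Fin 3 → ℝ), Uz = fun z =>
    motdU a q0 (((z0 ⨯₃ z) ⬝ᵥ a)⁻¹ • (z0 ⨯₃ z)) := ⟨_, rfl⟩
  have hn : ∀ z ∈ S.filter (fun z => (z0 ⨯₃ z) ⬝ᵥ a ≠ 0),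
      (((z0 ⨯₃ z) ⬝ᵥ a)⁻¹ • (z0 ⨯₃ z)) ⬝ᵥ a = 1 := by
    intro z hz
    rw [smul_dotProduct, smul_eq_mul, inv_mul_cancel₀ (Finset.mem_filter.1 hz).2]
  have hU1 : ∀ z ∈ S.filter (fun z => (z0 ⨯₃ z) ⬝ᵥ a ≠ 0), motDual a q0 (Uz z) := by
    intro z hz
    rw [hUz]
    exact (motd_dual_U a q0 _ q0 ha (hn z hz)).2 rfl
  have hU2 : ∀ z ∈ S.filter (fun z => (z0 ⨯₃ z) ⬝ᵥ a ≠ 0), Uz z ⬝ᵥ (z0 ⨯₃ a) = z0 ⬝ᵥ a := by
    intro z hz
    refine (motd_dual_shift a q0 z0 _ (hU1 z hz)).1 ?_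
    rw [hUz]
    refine (motd_dual_U a q0 _ _ ha (hn z hz)).2 ?_
    have h0 : z0 ⬝ᵥ (((z0 ⨯₃ z) ⬝ᵥ a)⁻¹ • (z0 ⨯₃ z)) = 0 := by
      rw [dotProduct_smul, dot_self_cross, smul_zero]
    rw [add_dotProduct, h0, add_zero]
  have hUinj : Set.InjOn Uz (S.filter (fun z => (z0 ⨯₃ z) ⬝ᵥ a ≠ 0) : Set (Fin 3 → ℝ)) := by
    intro z hz z' hz' he
    rw [hUz] at he
    have h1 := motd_U_inj a q0 _ _ ha (hn z hz) (hn z' hz') he
    by_contra hne
    apply hS z (Finset.mem_filter.1 hz).1 z' (Finset.mem_filter.1 hz').1 hne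
    have h2 : (z0 ⨯₃ z) ⨯₃ (z0 ⨯₃ z') = 0 := by
      have h3 : z0 ⨯₃ z = ((z0 ⨯₃ z) ⬝ᵥ a) • (((z0 ⨯₃ z') ⬝ᵥ a)⁻¹ • (z0 ⨯₃ z')) := by
        rw [← h1, smul_smul, mul_inv_cancel₀ (Finset.mem_filter.1 hz).2, one_smul]
      rw [h3, LinearMap.map_smul₂, LinearMap.map_smul₂, cross_self, smul_zero, smul_zero]
    rw [motd_cross_cross_id] at h2
    exact (smul_eq_zero.1 h2).resolve_right hz00
  -- parametrise
  have hpar : ∀ z ∈ S.filter (fun z => (z0 ⨯₃ z) ⬝ᵥ a ≠ 0), ∃ t : ℝ,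
      Uz z = u + t • ((a + q0 ⨯₃ a) ⨯₃ (z0 ⨯₃ a)) := by
    intro z hz
    obtain ⟨t, ht⟩ := motd_two_planes _ _ (Uz z - u) hcross
      (by
        have h1 := hU1 z hz
        rw [motDual] at h1 hu1
        rw [dotProduct_comm, sub_dotProduct, h1, hu1, sub_self])
      (by rw [dotProduct_comm, sub_dotProduct, hU2 z hz, hu2, sub_self])
    exact ⟨t, by rw [← ht]; abel⟩
  choose! τ hτ using hpar
  have hτinj : Set.InjOn τ (S.filter (fun z => (z0 ⨯₃ z) ⬝ᵥ a ≠ 0) : Set (Fin 3 → ℝ)) := by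
    intro z hz z' hz' he
    apply hUinj hz hz'
    rw [hτ z hz, hτ z' hz', he]
  have hfin := pk_line_zeros p u ((a + q0 ⨯₃ a) ⨯₃ (z0 ⨯₃ a)) ⟨0, by simpa using hpu⟩
    ((S.filter (fun z => (z0 ⨯₃ z) ⬝ᵥ a ≠ 0)).image τ) (by
      intro t ht
      obtain ⟨z, hz, rfl⟩ := Finset.mem_image.1 ht
      rw [← hτ z hz, hUz]
      exact hvan z (Finset.mem_filter.1 hz).1 (Finset.mem_filter.1 hz).2)
  rw [Finset.card_image_of_injOn hτinj] at hfin
  omega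

/-- the projection along `a` onto the plane `w·N = β`, as a tuple of polynomials -/
theorem motd_proj_poly (a N : Fin 3 → ℝ) (β : ℝ) : ∃ θ : Fin 3 → MvPolynomial (Fin 3) ℝ,
    (∀ s, (θ s).totalDegree ≤ 1) ∧ ∀ w, (fun s => eval w (θ s)) = w + (β - w ⬝ᵥ N) • a := by
  refine ⟨fun s => pkAff (fun j => (if j = s then 1 else 0) - N j * a s) (β * a s),
    fun _ => pk_aff_degree _ _, fun w => ?_⟩
  funext s
  rw [pk_aff_eval]
  fin_cases s <;> simp [dotProduct, Fin.sum_univ_three] <;> ring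

/-- **MOTD-3** level 2: many lines in the plane `H_q0`. -/
theorem motd_level2 (a q0 : Fin 3 → ℝ) (ha : a ⬝ᵥ a = 1) (Z : Finset (Fin 3 → ℝ))
    (hZa : ∀ z ∈ Z, z ⨯₃ a ≠ 0) (hZ : ∀ z ∈ Z, ∀ z' ∈ Z, z ≠ z' → z ⨯₃ z' ≠ 0)
    (p : MvPolynomial (Fin 3) ℝ) (hdeg : p.totalDegree < Z.card)
    (hvan : ∀ z ∈ Z, ∀ u : Fin 3 → ℝ, motDual a q0 u → u ⬝ᵥ (z ⨯₃ a) = z ⬝ᵥ a → eval u p = 0) :
    ∀ u : Fin 3 → ℝ, motDual a q0 u → eval u p = 0 := by
  obtain ⟨θ, hθ1, hθ2⟩ := motd_proj_poly a (a + q0 ⨯₃ a) (q0 ⬝ᵥ a)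
  obtain ⟨hpd, hpe⟩ := pk_subst θ hθ1 p
  have hpe' : ∀ w, eval w (bind₁ θ p)
      = eval (w + (q0 ⬝ᵥ a - w ⬝ᵥ (a + q0 ⨯₃ a)) • a) p := by
    intro w
    rw [hpe w, hθ2 w]
  have hNa := motd_normal_dot a q0 ha
  -- nested planes
  have hsep : ∀ z ∈ Z, ∀ z' ∈ Z,
      (∀ x : Fin 3 → ℝ, (z ⨯₃ a) ⬝ᵥ x = z ⬝ᵥ a → (z' ⨯₃ a) ⬝ᵥ x = z' ⬝ᵥ a) → z = z' := by
    intro z hz z' hz' h
    obtain ⟨c, hc1, hc2⟩ := motd_plane_sep _ _ _ _ (hZa z hz) h
    have h1 : (z' - c • z) ⨯₃ a = 0 := by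
      rw [LinearMap.map_sub, LinearMap.sub_apply, LinearMap.map_smul, LinearMap.smul_apply, hc1, sub_self]
    have h2 : (z' - c • z) ⬝ᵥ a = 0 := by
      rw [sub_dotProduct, smul_dotProduct, hc2, smul_eq_mul, sub_self]
    have h3 : z' = c • z := sub_eq_zero.1 (motd_cross_dot_inj a _ ha h1 h2)
    by_contra hne
    apply hZ z hz z' hz' hne
    rw [h3, LinearMap.map_smul, cross_self, smul_zero]
  have key : bind₁ θ p = 0 := by
    by_contra hp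
    have hinj : Set.InjOn (fun z : Fin 3 → ℝ => (z ⨯₃ a, z ⬝ᵥ a)) (Z : Set (Fin 3 → ℝ)) := by
      intro z hz z' hz' he
      have he1 : z ⨯₃ a = z' ⨯₃ a := congrArg Prod.fst he
      have he2 : z ⬝ᵥ a = z' ⬝ᵥ a := congrArg Prod.snd he
      refine hsep z hz z' hz' fun x hx => ?_
      rw [← he1, ← he2]
      exact hx
    have hcard := pk_hyperplanes (bind₁ θ p) hp (Z.image (fun z => (z ⨯₃ a, z ⬝ᵥ a))) ?_ ?_ ?_
    · rw [Finset.card_image_of_injOn hinj] at hcard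
      omega
    · intro h hh
      obtain ⟨z, hz, rfl⟩ := Finset.mem_image.1 hh
      exact hZa z hz
    · intro h hh h' hh' hne
      obtain ⟨z, hz, rfl⟩ := Finset.mem_image.1 hh
      obtain ⟨z', hz', rfl⟩ := Finset.mem_image.1 hh'
      by_contra hcon
      push Not at hcon
      exact hne (by rw [hsep z hz z' hz' hcon])
    · intro h hh x hx
      obtain ⟨z, hz, rfl⟩ := Finset.mem_image.1 hh
      rw [hpe']
      refine hvan z hz _ ?_ ?_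
      · rw [motDual, add_dotProduct, smul_dotProduct, dotProduct_comm a, hNa]
        simp
      · rw [add_dotProduct, smul_dotProduct, dot_cross_self, dotProduct_comm]
        simpa using hx
  intro u hu
  have h1 := hpe' u
  rw [motDual] at hu
  rw [key, map_zero, hu, sub_self, zero_smul, add_zero] at h1
  exact h1.symm

/-- **MOTD-4** level 3: many planes. -/
theorem motd_level3 (a : Fin 3 → ℝ) (ha : a ⬝ᵥ a = 1) (A : Finset (Fin 3 → ℝ))
    (p : MvPolynomial (Fin 3) ℝ) (hdeg : p.totalDegree < A.card)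
    (hvan : ∀ q ∈ A, ∀ u : Fin 3 → ℝ, motDual a q u → eval u p = 0) : p = 0 := by
  by_contra hp
  have hinj : Set.InjOn (fun q : Fin 3 → ℝ => (a + q ⨯₃ a, q ⬝ᵥ a)) (A : Set (Fin 3 → ℝ)) := by
    intro q _ q' _ he
    have he1 : a + q ⨯₃ a = a + q' ⨯₃ a := congrArg Prod.fst he
    have he2 : q ⬝ᵥ a = q' ⬝ᵥ a := congrArg Prod.snd he
    refine motd_dual_sep a q q' ha fun x hx => ?_
    rw [← he1, ← he2]
    exact hx
  have hcard := pk_hyperplanes p hp (A.image (fun q => (a + q ⨯₃ a, q ⬝ᵥ a))) ?_ ?_ ?_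
  · rw [Finset.card_image_of_injOn hinj] at hcard
    omega
  · intro h hh h0
    obtain ⟨q, _, rfl⟩ := Finset.mem_image.1 hh
    have := motd_normal_dot a q ha
    simp only at h0
    rw [h0, zero_dotProduct] at this
    norm_num at this
  · intro h hh h' hh' hne
    obtain ⟨q, _, rfl⟩ := Finset.mem_image.1 hh
    obtain ⟨q', _, rfl⟩ := Finset.mem_image.1 hh'
    by_contra hcon
    push Not at hcon
    exact hne (by rw [motd_dual_sep a q q' ha hcon])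
  · intro h hh x hx
    obtain ⟨q, hq, rfl⟩ := Finset.mem_image.1 hh
    refine hvan q hq x ?_
    rw [motDual, dotProduct_comm]
    exact hx

/-! ## 3. The anchor plane -/

/-- **MOTD-5** `p` vanishes on the dual plane of an anchor (STAR(Z), levels 1 and 2). -/
theorem motd_anchor {δ0 γ0 : ℝ} (h : MotdStar δ0 γ0) (a q0 lam : Fin 3 → ℝ)
    (ha : a ⬝ᵥ a = 1) (Z : Finset (Fin 3 → ℝ)) (hlam : ∀ z ∈ Z, lam ⬝ᵥ z = 1)
    (hcol : ∀ T ⊆ Z, Collinear ℝ (T : Set (Fin 3 → ℝ)) → (T.card : ℝ) ≤ δ0 * Z.card)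
    (p : MvPolynomial (Fin 3) ℝ) (hdeg : (p.totalDegree : ℝ) + 1 < γ0 * Z.card)
    (hvan : ∀ z ∈ Z, ∀ z' ∈ Z, (z ⨯₃ z') ⬝ᵥ a ≠ 0 →
      eval (motdU a q0 (((z ⨯₃ z') ⬝ᵥ a)⁻¹ • (z ⨯₃ z'))) p = 0) :
    ∀ u : Fin 3 → ℝ, motDual a q0 u → eval u p = 0 := by
  obtain ⟨A, hAZ, hAcard, hA⟩ := h Z hcol
  have hZ0 : ∀ z ∈ Z, z ≠ 0 := by
    intro z hz h0
    have := hlam z hz
    rw [h0, dotProduct_zero] at this
    norm_num at this
  have ha0 : a ≠ 0 := by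
    intro h0
    rw [h0, dotProduct_zero] at ha
    norm_num at ha
  have hpair : ∀ z ∈ Z, ∀ z' ∈ Z, z ≠ z' → z ⨯₃ z' ≠ 0 := by
    intro z hz z' hz' hne h0
    obtain ⟨c, hc⟩ := motd_cross_zero z z' (hZ0 z hz) h0
    have h1 := hlam z' hz'
    rw [hc, dotProduct_smul, hlam z hz, smul_eq_mul, mul_one] at h1
    rw [h1, one_smul] at hc
    exact hne hc.symm
  have hlost : (A.filter (fun z => ¬ z ⨯₃ a ≠ 0)).card ≤ 1 := by
    rw [Finset.card_le_one]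
    intro z hz z' hz'
    obtain ⟨hzA, hz1⟩ := Finset.mem_filter.1 hz
    obtain ⟨hzA', hz1'⟩ := Finset.mem_filter.1 hz'
    rw [not_not] at hz1 hz1'
    obtain ⟨c, hc⟩ := motd_cross_zero z a (hZ0 z (hAZ hzA)) hz1
    obtain ⟨c', hc'⟩ := motd_cross_zero z' a (hZ0 z' (hAZ hzA')) hz1'
    have e1 : lam ⬝ᵥ a = c := by rw [hc, dotProduct_smul, hlam z (hAZ hzA), smul_eq_mul, mul_one]
    have e2 : lam ⬝ᵥ a = c' := by rw [hc', dotProduct_smul, hlam z' (hAZ hzA'), smul_eq_mul, mul_one]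
    have hcc : c = c' := e1.symm.trans e2
    have hc0 : c ≠ 0 := by
      intro h0
      rw [h0, zero_smul] at hc
      exact ha0 hc
    rw [← hcc] at hc'
    have h3 : c • z = c • z' := hc.symm.trans hc'
    exact smul_right_injective _ hc0 h3
  have hcard : A.card ≤ (A.filter (fun z => z ⨯₃ a ≠ 0)).card + 1 := by
    have := Finset.card_filter_add_card_filter_not (s := A) (fun z => z ⨯₃ a ≠ 0)
    omega
  refine motd_level2 a q0 ha (A.filter (fun z => z ⨯₃ a ≠ 0)) (fun z hz => (Finset.mem_filter.1 hz).2)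
    (fun z hz z' hz' => hpair z (hAZ (Finset.mem_filter.1 hz).1) z' (hAZ (Finset.mem_filter.1 hz').1))
    p ?_ ?_
  · have h1 : (p.totalDegree : ℝ) + 1 < (A.card : ℝ) := lt_of_lt_of_le hdeg hAcard
    have h2 : p.totalDegree + 1 < A.card := by exact_mod_cast h1
    omega
  · intro z0 hz0
    obtain ⟨hz0A, hz0a⟩ := Finset.mem_filter.1 hz0
    obtain ⟨S, hSZ, hScard, _, hSpar⟩ := hA z0 hz0A
    refine motd_level1 a q0 z0 ha hz0a S ?_ p ?_ ?_
    · intro z hz z' hz' hne h0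
      apply hSpar z hz z' hz' hne
      rw [motd_det_identity lam z0 z z' (hlam z0 (hAZ hz0A)) (hlam z (hSZ hz)) (hlam z' (hSZ hz')), h0,
        zero_smul]
    · have h1 : (p.totalDegree : ℝ) + 1 < (S.card : ℝ) := lt_of_lt_of_le hdeg hScard
      exact_mod_cast h1
    · intro z hz hne
      exact hvan z0 (hAZ hz0A) z (hSZ hz) hne

/-- **MOTD-6** central projection of a star. -/
theorem motd_reduce (q0 : Fin 3 → ℝ) (S : Finset (Fin 3 → ℝ)) (hne : ∀ q ∈ S, q ≠ q0)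
    (hS : ∀ q ∈ S, ∀ q' ∈ S, q ≠ q' → (q - q0) ⨯₃ (q' - q0) ≠ 0) :
    ∃ (lam : Fin 3 → ℝ) (φ : (Fin 3 → ℝ) → (Fin 3 → ℝ)), Set.InjOn φ (S : Set (Fin 3 → ℝ)) ∧
      ∀ q ∈ S, lam ⬝ᵥ φ q = 1 ∧ ∃ c : ℝ, c ≠ 0 ∧ q - q0 = c • φ q := by
  obtain ⟨lam, hlam⟩ := pk_generic_vector (S.image (fun q => q - q0)) (by
    intro c hc
    obtain ⟨q, hq, rfl⟩ := Finset.mem_image.1 hc
    exact sub_ne_zero.2 (hne q hq))
  have hl : ∀ q ∈ S, lam ⬝ᵥ (q - q0) ≠ 0 := by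
    intro q hq
    rw [dotProduct_comm]
    exact hlam _ (Finset.mem_image_of_mem _ hq)
  have hφ : ∀ q ∈ S, q - q0 = (lam ⬝ᵥ (q - q0)) • ((lam ⬝ᵥ (q - q0))⁻¹ • (q - q0)) := by
    intro q hq
    rw [smul_smul, mul_inv_cancel₀ (hl q hq), one_smul]
  refine ⟨lam, fun q => (lam ⬝ᵥ (q - q0))⁻¹ • (q - q0), ?_, ?_⟩
  · intro q hq q' hq' he
    by_contra hqq
    apply hS q hq q' hq' hqq
    simp only at he
    rw [hφ q hq, hφ q' hq', he, LinearMap.map_smul, LinearMap.map_smul₂, cross_self]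
    simp
  · intro q hq
    refine ⟨?_, lam ⬝ᵥ (q - q0), hl q hq, hφ q hq⟩
    rw [dotProduct_smul, smul_eq_mul, inv_mul_cancel₀ (hl q hq)]

/-- **MOTD-7** the contract. -/
theorem motd_dual : MotDualStmt := by
  obtain ⟨δ0, γ0, hδ0, hδ01, hγ0, hγ01, hstar⟩ := motd_beck_star
  refine ⟨min δ0 (γ0 ^ 2 / 2), δ0 * γ0, γ0 ^ 2 / 2, by positivity, by positivity, by positivity, ?_⟩
  intro a Q ha hcol hpl p hdeg hvan
  have hn0 : (0 : ℝ) ≤ (Q.card : ℝ) := Nat.cast_nonneg _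
  have hQne : Q.Nonempty := by
    by_contra h
    rw [Finset.not_nonempty_iff_eq_empty] at h
    rw [h] at hdeg
    simp only [Finset.card_empty, Nat.cast_zero, mul_zero] at hdeg
    exact absurd hdeg (not_lt.2 (Nat.cast_nonneg _))
  obtain ⟨x0, hx0⟩ := hQne
  have hn1 : 1 ≤ min δ0 (γ0 ^ 2 / 2) * (Q.card : ℝ) := by
    have := hcol {x0} (by simpa using hx0) (by simp [collinear_singleton])
    simpa using this
  have hn2 : 2 ≤ γ0 ^ 2 * (Q.card : ℝ) := by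
    have : min δ0 (γ0 ^ 2 / 2) * (Q.card : ℝ) ≤ γ0 ^ 2 / 2 * (Q.card : ℝ) :=
      mul_le_mul_of_nonneg_right (min_le_right _ _) hn0
    linarith
  obtain ⟨A, hAQ, hAcard, hA⟩ := hstar Q (fun T hT hc =>
    (hcol T hT hc).trans (mul_le_mul_of_nonneg_right (min_le_left _ _) hn0))
  apply motd_level3 a ha A p
  · have : (p.totalDegree : ℝ) < A.card := by
      calc (p.totalDegree : ℝ) < γ0 ^ 2 / 2 * (Q.card : ℝ) := hdeg
        _ ≤ γ0 * (Q.card : ℝ) := by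
          apply mul_le_mul_of_nonneg_right _ hn0
          nlinarith
        _ ≤ _ := hAcard
    exact_mod_cast this
  · intro q0 hq0
    obtain ⟨S, hSQ, hScard, hSne, hSpar⟩ := hA q0 hq0
    obtain ⟨lam, φ, hφinj, hφ⟩ := motd_reduce q0 S hSne hSpar
    have hZcard : (S.image φ).card = S.card := Finset.card_image_of_injOn hφinj
    apply motd_anchor hstar a q0 lam ha (S.image φ)
    · intro z hz
      obtain ⟨q, hq, rfl⟩ := Finset.mem_image.1 hz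
      exact (hφ q hq).1
    · intro T hT hc
      obtain ⟨ν, hν, hνT⟩ := motd_collinear_plane _ hc
      have hT' : T = (S.filter (fun q => φ q ∈ T)).image φ := by
        ext z
        simp only [Finset.mem_image, Finset.mem_filter]
        constructor
        · intro hz
          obtain ⟨q, hq, rfl⟩ := Finset.mem_image.1 (hT hz)
          exact ⟨q, ⟨hq, hz⟩, rfl⟩
        · rintro ⟨q, ⟨_, hq⟩, rfl⟩
          exact hq
      have hcard : T.card = (S.filter (fun q => φ q ∈ T)).card := by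
        conv_lhs => rw [hT']
        exact Finset.card_image_of_injOn (hφinj.mono (by
          intro q hq
          exact (Finset.mem_filter.1 hq).1))
      have h1 := hpl (S.filter (fun q => φ q ∈ T)) ((Finset.filter_subset _ _).trans hSQ) ν
        (ν ⬝ᵥ q0) hν (by
          intro q hq
          obtain ⟨hqS, hqT⟩ := Finset.mem_filter.1 hq
          obtain ⟨_, c, _, hc⟩ := hφ q hqS
          have h2 : q = q0 + c • φ q := by rw [← hc]; abel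
          have h3 : ν ⬝ᵥ φ q = 0 := hνT _ hqT
          rw [h2, dotProduct_add, dotProduct_smul, h3]
          simp)
      rw [hcard, hZcard]
      refine h1.trans ?_
      rw [mul_assoc]
      exact mul_le_mul_of_nonneg_left hScard hδ0.le
    · rw [hZcard]
      have : γ0 * (γ0 * (Q.card : ℝ)) ≤ γ0 * (S.card : ℝ) := mul_le_mul_of_nonneg_left hScard hγ0.le
      nlinarith
    · intro z hz z' hz' hne
      obtain ⟨q, hq, rfl⟩ := Finset.mem_image.1 hz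
      obtain ⟨q', hq', rfl⟩ := Finset.mem_image.1 hz'
      obtain ⟨_, c, hc0, hc⟩ := hφ q hq
      obtain ⟨_, c', hc0', hc'⟩ := hφ q' hq'
      set k := (φ q ⨯₃ φ q') ⬝ᵥ a with hk
      have hnn : (k⁻¹ • (φ q ⨯₃ φ q')) ⬝ᵥ a = 1 := by
        rw [smul_dotProduct, ← hk, smul_eq_mul, inv_mul_cancel₀ hne]
      have e1 : q = q0 + c • φ q := by rw [← hc]; abel
      have e2 : q' = q0 + c' • φ q' := by rw [← hc']; abel
      apply hvan _ q0 (hAQ hq0) q (hSQ hq) q' (hSQ hq')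
      · rw [hc, hc']
        have : (c • φ q) ⨯₃ (c' • φ q') = (c * c') • (φ q ⨯₃ φ q') := by
          rw [LinearMap.map_smul₂, LinearMap.map_smul, smul_smul]
        rw [this, smul_dotProduct, ← hk, smul_eq_mul]
        exact mul_ne_zero (mul_ne_zero hc0 hc0') hne
      · exact (motd_dual_U a q0 _ q0 ha hnn).2 rfl
      · refine (motd_dual_U a q0 _ q ha hnn).2 ?_
        have h5 : φ q ⬝ᵥ (k⁻¹ • (φ q ⨯₃ φ q')) = 0 := by
          rw [dotProduct_smul, dot_self_cross, smul_zero]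
        have h6 : q ⬝ᵥ (k⁻¹ • (φ q ⨯₃ φ q'))
            = (q0 + c • φ q) ⬝ᵥ (k⁻¹ • (φ q ⨯₃ φ q')) := congrArg (· ⬝ᵥ _) e1
        rw [h6, add_dotProduct, smul_dotProduct, h5]
        simp
      · refine (motd_dual_U a q0 _ q' ha hnn).2 ?_
        have h5 : φ q' ⬝ᵥ (k⁻¹ • (φ q ⨯₃ φ q')) = 0 := by
          rw [dotProduct_smul, dot_cross_self, smul_zero]
        have h6 : q' ⬝ᵥ (k⁻¹ • (φ q ⨯₃ φ q'))
            = (q0 + c' • φ q') ⬝ᵥ (k⁻¹ • (φ q ⨯₃ φ q')) := congrArg (· ⬝ᵥ _) e2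
        rw [h6, add_dotProduct, smul_dotProduct, h5]
        simp

end Claimed.Agent.R273
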