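import Claimed.Agent.R273.MotSum

/-!
# Row 273, unit S7, package MOT-EFF: planes of large effective size (mot:effective-planes, motions.tex l.120-213).      Architect: helper62.

RESULT: `mot_eff : MotEffStmt`.

Notation: `n Pl = |X ∩ Pl| = (X.filter (· ∈ Pl)).card`.  All geometry is reduced to two facts on planes (`mote_collinear_of_ne`, `mote_mem_line`).

## Chain
  LEAF MOT-EFF-A : `mote_collinear_of_ne`, `mote_mem_line`, `mote_through_line`, `mote_occupancy`      (geometry API + two counting lemmas)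
  LEAF MOT-EFF-B : `mote_half`      (planes in which some line carries half of the points)
  LEAF MOT-EFF-C : `mote_cs`        (Cauchy-Schwarz lower bound for the pair count `J`)
  LEAF MOT-EFF-D : `mote_fixed`     (upper bound of the pair count for one fixed plane)
  `mote_bucket`  (one dyadic occupancy bucket; glue + numerics)        PROVED
  `mot_eff`      (glue: `mote_half` + `mote_bucket` + `mot_dyadic_gen`) PROVED
-/

set_option autoImplicit false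

namespace Claimed.Agent.R273

open scoped Classical

/-! ## LEAF MOT-EFF-A -/

/-- two distinct planes meet in a collinear set.
PLAN: if `T` is not collinear, `2 ≤ finrank (vectorSpan ℝ T)` (`collinear_iff_finrank_le_one`), `vectorSpan ℝ T ≤ Pl.direction` and `≤ Pl'.direction` (`vectorSpan_mono`, `direction_affineSpan`,
`affineSpan_le`), so both directions are equal to it (`Submodule.eq_of_le_of_finrank_le`); the planes share a point: `AffineSubspace.ext_of_direction_eq`. -/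
theorem mote_collinear_of_ne (Pl Pl' : AffineSubspace ℝ (Pt 3)) (h : motIsPlane Pl)
    (h' : motIsPlane Pl') (hne : Pl ≠ Pl') (T : Set (Pt 3)) (hT : ∀ x ∈ T, x ∈ Pl ∧ x ∈ Pl') :
    Collinear ℝ T := by
  by_contra hcon
  rw [collinear_iff_finrank_le_one, not_le] at hcon
  have hle : ∀ Q : AffineSubspace ℝ (Pt 3), (∀ x ∈ T, x ∈ Q) → vectorSpan ℝ T ≤ Q.direction := by
    intro Q hQ
    rw [← direction_affineSpan]
    exact AffineSubspace.direction_le (affineSpan_le.2 hQ)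
  have e1 : vectorSpan ℝ T = Pl.direction :=
    Submodule.eq_of_le_of_finrank_le (hle Pl fun x hx => (hT x hx).1) (by
      have : Module.finrank ℝ Pl.direction = 2 := h
      omega)
  have e2 : vectorSpan ℝ T = Pl'.direction :=
    Submodule.eq_of_le_of_finrank_le (hle Pl' fun x hx => (hT x hx).2) (by
      have : Module.finrank ℝ Pl'.direction = 2 := h'
      omega)
  have hTne : T.Nonempty := by
    by_contra hemp
    rw [Set.not_nonempty_iff_eq_empty] at hemp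
    rw [hemp, vectorSpan_empty] at hcon
    simp at hcon
  obtain ⟨x, hx⟩ := hTne
  exact hne (AffineSubspace.ext_of_direction_eq (e1.symm.trans e2) ⟨x, (hT x hx).1, (hT x hx).2⟩)

/-- two distinct planes through a line meet exactly in the line.
PLAN: `st_line_param`: `L = {p + t v}`; `{p, p + v, z}` is collinear by `mote_collinear_of_ne`; `Collinear.mem_affineSpan_of_mem_of_ne` and `st_line_unique`/`st_line_two`. -/
theorem mote_mem_line (L Pl Pl' : AffineSubspace ℝ (Pt 3)) (hL : stIsLine L) (h : motIsPlane Pl)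
    (h' : motIsPlane Pl') (hne : Pl ≠ Pl') (hLP : L ≤ Pl) (hLP' : L ≤ Pl') (z : Pt 3) (hz : z ∈ Pl)
    (hz' : z ∈ Pl') : z ∈ L := by
  obtain ⟨p, v, hv, hpar⟩ := (st_line_param L).1 hL
  have hx : p ∈ L := (hpar p).2 ⟨0, by simp⟩
  have hy : p + v ∈ L := (hpar (p + v)).2 ⟨1, by simp⟩
  have hxy : p ≠ p + v := fun e => hv (by simpa using e.symm)
  have hcol : Collinear ℝ ({p, p + v, z} : Set (Pt 3)) := by
    refine mote_collinear_of_ne Pl Pl' h h' hne _ ?_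
    intro w hw
    rcases hw with rfl | rfl | rfl
    · exact ⟨hLP hx, hLP' hx⟩
    · exact ⟨hLP hy, hLP' hy⟩
    · exact ⟨hz, hz'⟩
  have hzl := st_line_of_collinear _ hcol p (p + v) (by simp) (by simp) hxy z (by simp)
  exact affineSpan_pair_le_of_mem_of_mem hx hy hzl

/-- planes through a fixed line have disjoint off-line parts (`mote_mem_line`, `Finset.card_biUnion`, the union is `⊆ X`). -/
theorem mote_through_line (X : Finset (Pt 3)) (L : AffineSubspace ℝ (Pt 3)) (hL : stIsLine L)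
    (𝓠 : Finset (AffineSubspace ℝ (Pt 3))) (c : ℝ)
    (h𝓠 : ∀ Pl ∈ 𝓠, motIsPlane Pl ∧ L ≤ Pl ∧
      c ≤ ((X.filter (fun x => x ∈ Pl ∧ x ∉ L)).card : ℝ)) :
    (𝓠.card : ℝ) * c ≤ X.card := by
  have hdisj : ∀ Pl ∈ 𝓠, ∀ Pl' ∈ 𝓠, Pl ≠ Pl' →
      Disjoint (X.filter (fun x => x ∈ Pl ∧ x ∉ L)) (X.filter (fun x => x ∈ Pl' ∧ x ∉ L)) := by
    intro Pl hPl Pl' hPl' hne
    rw [Finset.disjoint_left]
    intro x hx hx'
    have h1 := (Finset.mem_filter.1 hx).2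
    have h2 := (Finset.mem_filter.1 hx').2
    exact h1.2 (mote_mem_line L Pl Pl' hL (h𝓠 Pl hPl).1 (h𝓠 Pl' hPl').1 hne (h𝓠 Pl hPl).2.1
      (h𝓠 Pl' hPl').2.1 x h1.1 h2.1)
  have h1 : (𝓠.biUnion fun Pl => X.filter (fun x => x ∈ Pl ∧ x ∉ L)).card
      = ∑ Pl ∈ 𝓠, (X.filter (fun x => x ∈ Pl ∧ x ∉ L)).card := Finset.card_biUnion hdisj
  have h2 : (𝓠.biUnion fun Pl => X.filter (fun x => x ∈ Pl ∧ x ∉ L)).card ≤ X.card :=
    Finset.card_le_card (Finset.biUnion_subset.2 fun Pl _ => Finset.filter_subset _ _)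
  have h3 : (𝓠.card : ℝ) * c ≤ ∑ Pl ∈ 𝓠, ((X.filter (fun x => x ∈ Pl ∧ x ∉ L)).card : ℝ) := by
    rw [← nsmul_eq_mul]
    exact Finset.card_nsmul_le_sum _ _ _ fun Pl hPl => (h𝓠 Pl hPl).2.2
  refine h3.trans ?_
  rw [h1] at h2
  exact_mod_cast h2

/-- total occupancy of a family of lines.
PLAN: `∑_L |P ∩ L| = ∑_{x ∈ P} s_x`, `s_x = #{L ∈ 𝓛 : x ∈ L}` (`Finset.sum_comm`, `Finset.card_filter`/`Finset.sum_boole`); `s ≤ 1 + s (s - 1)` in `ℕ`;
`∑_x s_x (s_x - 1) = ∑_{(L, L') ∈ offDiag} |P ∩ L ∩ L'| ≤ |offDiag| ≤ |𝓛|²` since two distinct lines share at most one point (`st_line_unique`, `Finset.card_le_one`). -/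
theorem mote_occupancy (P : Finset (Pt 3)) (𝓛 : Finset (AffineSubspace ℝ (Pt 3)))
    (h𝓛 : ∀ L ∈ 𝓛, stIsLine L) :
    ∑ L ∈ 𝓛, (P.filter (fun x => x ∈ L)).card ≤ P.card + 𝓛.card ^ 2 := by
  have hI : ∑ L ∈ 𝓛, (P.filter (fun x => x ∈ L)).card
      = ∑ x ∈ P, ∑ L ∈ 𝓛, (if x ∈ L then 1 else 0) := by
    simp_rw [Finset.card_filter]
    rw [Finset.sum_comm]
  have hsq : ∑ x ∈ P, (∑ L ∈ 𝓛, (if x ∈ L then 1 else 0 : ℕ)) ^ 2
      = ∑ L ∈ 𝓛, ∑ L' ∈ 𝓛, (P.filter (fun x => x ∈ L ∧ x ∈ L')).card := by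
    simp_rw [sq, Finset.sum_mul_sum, Finset.card_filter]
    rw [Finset.sum_comm]
    refine Finset.sum_congr rfl fun L _ => ?_
    rw [Finset.sum_comm]
    refine Finset.sum_congr rfl fun L' _ => Finset.sum_congr rfl fun x _ => ?_
    by_cases h1 : x ∈ L <;> by_cases h2 : x ∈ L' <;> simp [h1, h2]
  have hb : ∀ L ∈ 𝓛, ∑ L' ∈ 𝓛, (P.filter (fun x => x ∈ L ∧ x ∈ L')).card
      ≤ 𝓛.card + (P.filter (fun x => x ∈ L)).card := by
    intro L hL
    calc _ ≤ ∑ L' ∈ 𝓛, (1 + if L' = L then (P.filter (fun x => x ∈ L)).card else 0) :=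
          Finset.sum_le_sum fun L' hL' => ?_
      _ = 𝓛.card + (P.filter (fun x => x ∈ L)).card := by
          rw [Finset.sum_add_distrib, Finset.sum_ite_eq' 𝓛 L, if_pos hL, Finset.sum_const,
            smul_eq_mul, mul_one]
    by_cases e : L' = L
    · rw [if_pos e]
      refine le_trans (Finset.card_le_card ?_) (Nat.le_add_left _ _)
      intro x hx
      obtain ⟨h1, h2⟩ := Finset.mem_filter.1 hx
      exact Finset.mem_filter.2 ⟨h1, h2.1⟩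
    · rw [if_neg e, add_zero, Finset.card_le_one]
      intro x hx y hy
      by_contra hxy
      obtain ⟨-, h1, h2⟩ := Finset.mem_filter.1 hx
      obtain ⟨-, h3, h4⟩ := Finset.mem_filter.1 hy
      exact e (st_line_unique L' L (h𝓛 L' hL') (h𝓛 L hL) x y hxy h2 h4 h1 h3)
  have hsum : ∑ x ∈ P, (∑ L ∈ 𝓛, (if x ∈ L then 1 else 0 : ℕ)) ^ 2
      ≤ 𝓛.card ^ 2 + ∑ L ∈ 𝓛, (P.filter (fun x => x ∈ L)).card := by
    rw [hsq]
    calc _ ≤ ∑ L ∈ 𝓛, (𝓛.card + (P.filter (fun x => x ∈ L)).card) := Finset.sum_le_sum hb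
      _ = _ := by rw [Finset.sum_add_distrib, Finset.sum_const, smul_eq_mul, sq]
  have h2 : 2 * ∑ x ∈ P, ∑ L ∈ 𝓛, (if x ∈ L then 1 else 0 : ℕ)
      ≤ P.card + ∑ x ∈ P, (∑ L ∈ 𝓛, (if x ∈ L then 1 else 0 : ℕ)) ^ 2 := by
    rw [Finset.mul_sum, Finset.card_eq_sum_ones, ← Finset.sum_add_distrib]
    refine Finset.sum_le_sum fun x _ => ?_
    generalize (∑ L ∈ 𝓛, (if x ∈ L then 1 else 0 : ℕ)) = s
    rcases Nat.eq_zero_or_pos s with rfl | hs
    · simp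
    · nlinarith [Nat.zero_le (s - 1), Nat.sub_add_cancel hs, sq_nonneg ((s : ℤ) - 1)]
  rw [← hI] at h2
  omega

theorem mote_split (X : Finset (Pt 3)) (Pl L : AffineSubspace ℝ (Pt 3)) :
    (X.filter (fun x => x ∈ Pl)).card = ((X.filter (fun x => x ∈ Pl)).filter (fun x => x ∈ L)).card
      + (X.filter (fun x => x ∈ Pl ∧ x ∉ L)).card := by
  rw [← Finset.card_filter_add_card_filter_not (s := X.filter (fun x => x ∈ Pl)) (fun z => z ∈ L),
    Finset.filter_filter (fun x => x ∈ Pl) (fun z => ¬ z ∈ L) X]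

/-! ## LEAF MOT-EFF-B

PLAN.  `C` from `motRich_card`; `Ka = C`.  For `Pl ∈ 𝓟` take the collinear `T` with `n Pl ≤ 2 |T|`; from `H + |T| ≤ n Pl` we get `H ≤ |T|`, so `|T| ≥ 2`; pick `x ≠ y` in `T`, `L(Pl) = line[ℝ, x, y]`:
`T ⊆ L(Pl)` (`st_line_of_collinear`), so `L(Pl) ∈ motRich X H` (`mem_motRich`), `L(Pl) ≤ Pl` (`affineSpan_pair_le_of_mem_of_mem`).  The hypothesis for `T' = X ∩ Pl ∩ L(Pl)` (collinear: `st_collinear_of_line`)
gives `H ≤ |{x ∈ X : x ∈ Pl, x ∉ L(Pl)}|`.  `mote_through_line` with `c = H`: every fibre of `Pl ↦ L(Pl)` has `≤ m / H` elements; `|motRich X H| ≤ C m / H`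
(`Finset.card_le_mul_card_image` or `Finset.card_eq_sum_card_fiberwise`). -/
theorem mote_half : ∃ Ka : ℝ, 0 < Ka ∧ ∀ (m H : ℝ) (X : Finset (Pt 3)), (X.card : ℝ) ≤ m → 1 < H →
    m ≤ H ^ 2 →
    ∀ 𝓟 : Finset (AffineSubspace ℝ (Pt 3)),
      (∀ Pl ∈ 𝓟, motIsPlane Pl ∧
        (∀ T ⊆ X.filter (fun x => x ∈ Pl), Collinear ℝ (T : Set (Pt 3)) →
          H + (T.card : ℝ) ≤ ((X.filter (fun x => x ∈ Pl)).card : ℝ)) ∧
        ∃ T ⊆ X.filter (fun x => x ∈ Pl), Collinear ℝ (T : Set (Pt 3)) ∧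
          ((X.filter (fun x => x ∈ Pl)).card : ℝ) ≤ 2 * (T.card : ℝ)) →
      (𝓟.card : ℝ) ≤ Ka * m ^ 2 / H ^ 2 := by
  obtain ⟨C, hC, hrich⟩ := motRich_card
  refine ⟨C, hC, ?_⟩
  intro m H X hX hH hmH 𝓟 h𝓟
  have hH0 : 0 < H := by linarith
  have hm0 : 0 ≤ m := le_trans (Nat.cast_nonneg _) hX
  have hex : ∀ Pl, ∃ L : AffineSubspace ℝ (Pt 3), Pl ∈ 𝓟 → (L ∈ motRich X H ∧ L ≤ Pl ∧
      H ≤ ((X.filter (fun x => x ∈ Pl ∧ x ∉ L)).card : ℝ)) := by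
    intro Pl
    by_cases hPl : Pl ∈ 𝓟
    · obtain ⟨hplane, ha, T, hTsub, hTcol, hT2⟩ := h𝓟 Pl hPl
      have h1 := ha T hTsub hTcol
      have hHT : H ≤ T.card := by linarith
      have hT1 : 1 < T.card := by
        have : (1 : ℝ) < T.card := by linarith
        exact_mod_cast this
      obtain ⟨x, hx, y, hy, hxy⟩ := Finset.one_lt_card.1 hT1
      obtain ⟨hline, hxl, hyl⟩ := st_line_through x y hxy
      have hTL : ∀ z ∈ T, z ∈ line[ℝ, x, y] := fun z hz =>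
        st_line_of_collinear (T : Set (Pt 3)) hTcol x y (Finset.mem_coe.2 hx) (Finset.mem_coe.2 hy)
          hxy z (Finset.mem_coe.2 hz)
      have hxP : x ∈ Pl := (Finset.mem_filter.1 (hTsub hx)).2
      have hyP : y ∈ Pl := (Finset.mem_filter.1 (hTsub hy)).2
      refine ⟨line[ℝ, x, y], fun _ => ⟨?_, affineSpan_pair_le_of_mem_of_mem hxP hyP, ?_⟩⟩
      · rw [mem_motRich X H hH]
        refine ⟨hline, hHT.trans ?_⟩
        exact_mod_cast Finset.card_le_card (fun z hz =>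
          Finset.mem_filter.2 ⟨(Finset.mem_filter.1 (hTsub hz)).1, hTL z hz⟩)
      · have h2 := ha ((X.filter (fun x => x ∈ Pl)).filter (fun z => z ∈ line[ℝ, x, y]))
          (Finset.filter_subset _ _) (st_collinear_of_line _ hline _
            (fun z hz => (Finset.mem_filter.1 (Finset.mem_coe.1 hz)).2))
        have h3 : ((X.filter (fun x => x ∈ Pl)).card : ℝ)
            = (((X.filter (fun x => x ∈ Pl)).filter (fun z => z ∈ line[ℝ, x, y])).card : ℝ)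
              + ((X.filter (fun z => z ∈ Pl ∧ z ∉ line[ℝ, x, y])).card : ℝ) := by
          exact_mod_cast mote_split X Pl line[ℝ, x, y]
        linarith
    · exact ⟨⊥, fun h => absurd h hPl⟩
  choose Lf hLf using hex
  have hcount : 𝓟.card = ∑ L ∈ motRich X H, (𝓟.filter (fun Pl => Lf Pl = L)).card :=
    Finset.card_eq_sum_card_fiberwise (fun Pl hPl => (hLf Pl hPl).1)
  have hfib : ∀ L ∈ motRich X H, ((𝓟.filter (fun Pl => Lf Pl = L)).card : ℝ) ≤ m / H := by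
    intro L hL
    have hline := ((mem_motRich X H hH L).1 hL).1
    have := mote_through_line X L hline (𝓟.filter (fun Pl => Lf Pl = L)) H (by
      intro Pl hPl
      obtain ⟨h1, rfl⟩ := Finset.mem_filter.1 hPl
      exact ⟨(h𝓟 Pl h1).1, (hLf Pl h1).2.1, (hLf Pl h1).2.2⟩)
    rw [le_div_iff₀ hH0]
    linarith
  have hr := hrich X m H hX hH hmH
  calc (𝓟.card : ℝ) = ∑ L ∈ motRich X H, ((𝓟.filter (fun Pl => Lf Pl = L)).card : ℝ) := by
        rw [hcount]; push_cast; rfl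
    _ ≤ ∑ _L ∈ motRich X H, m / H := Finset.sum_le_sum hfib
    _ = ((motRich X H).card : ℝ) * (m / H) := by rw [Finset.sum_const, nsmul_eq_mul]
    _ ≤ C * (m / H) * (m / H) := mul_le_mul_of_nonneg_right hr (by positivity)
    _ = C * m ^ 2 / H ^ 2 := by field_simp

/-! ## LEAF MOT-EFF-C

PLAN.  `r x = #{i ∈ 𝓟 : x ∈ S i}`.  `∑_i |S i| = ∑_{x ∈ X} r x =: I`, `∑_i ∑_{j ∈ erase i} |S i ∩ S j| = ∑_x r x (r x - 1)` (exchange of sums), `I² ≤ |X| ∑ (r x)²` (`sq_sum_le_card_mul_sum_sq`). -/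
theorem mote_cs {ι : Type} (X : Finset (Pt 3)) (𝓟 : Finset ι) (S : ι → Finset (Pt 3))
    (hS : ∀ i ∈ 𝓟, S i ⊆ X) :
    (∑ i ∈ 𝓟, ((S i).card : ℝ)) ^ 2 / X.card - ∑ i ∈ 𝓟, ((S i).card : ℝ)
      ≤ ∑ i ∈ 𝓟, ∑ j ∈ 𝓟.erase i, ((S i ∩ S j).card : ℝ) := by
  have hc1 : ∀ i ∈ 𝓟, ((S i).card : ℝ) = ∑ x ∈ X, (if x ∈ S i then 1 else 0 : ℝ) := by
    intro i hi
    rw [Finset.sum_boole, Finset.filter_mem_eq_inter, Finset.inter_eq_right.2 (hS i hi)]
  have hc2 : ∀ i ∈ 𝓟, ∀ j, ((S i ∩ S j).card : ℝ)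
      = ∑ x ∈ X, (if x ∈ S i then 1 else 0 : ℝ) * (if x ∈ S j then 1 else 0 : ℝ) := by
    intro i hi j
    have : ∀ x, (if x ∈ S i then 1 else 0 : ℝ) * (if x ∈ S j then 1 else 0 : ℝ)
        = if x ∈ S i ∩ S j then 1 else 0 := by
      intro x
      by_cases h1 : x ∈ S i <;> by_cases h2 : x ∈ S j <;> simp [h1, h2]
    simp_rw [this]
    rw [Finset.sum_boole, Finset.filter_mem_eq_inter,
      Finset.inter_eq_right.2 (Finset.inter_subset_left.trans (hS i hi))]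
  have hI : ∑ i ∈ 𝓟, ((S i).card : ℝ) = ∑ x ∈ X, ∑ i ∈ 𝓟, (if x ∈ S i then 1 else 0 : ℝ) := by
    rw [Finset.sum_comm]
    exact Finset.sum_congr rfl hc1
  have hJ : ∑ i ∈ 𝓟, ∑ j ∈ 𝓟.erase i, ((S i ∩ S j).card : ℝ)
      = ∑ x ∈ X, (∑ i ∈ 𝓟, (if x ∈ S i then 1 else 0 : ℝ)) ^ 2 - ∑ i ∈ 𝓟, ((S i).card : ℝ) := by
    have e1 : ∀ i ∈ 𝓟, ∑ j ∈ 𝓟.erase i, ((S i ∩ S j).card : ℝ)
        = ∑ j ∈ 𝓟, ((S i ∩ S j).card : ℝ) - ((S i).card : ℝ) := by
      intro i hi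
      rw [Finset.sum_erase_eq_sub hi, Finset.inter_self]
    rw [Finset.sum_congr rfl e1, Finset.sum_sub_distrib]
    congr 1
    have e2 : ∑ x ∈ X, (∑ i ∈ 𝓟, (if x ∈ S i then 1 else 0 : ℝ)) ^ 2
        = ∑ i ∈ 𝓟, ∑ j ∈ 𝓟, ∑ x ∈ X,
          (if x ∈ S i then 1 else 0 : ℝ) * (if x ∈ S j then 1 else 0 : ℝ) := by
      simp_rw [sq, Finset.sum_mul_sum]
      rw [Finset.sum_comm]
      refine Finset.sum_congr rfl fun i _ => ?_
      rw [Finset.sum_comm]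
    rw [e2]
    exact Finset.sum_congr rfl fun i hi => Finset.sum_congr rfl fun j _ => hc2 i hi j
  have hcs := sq_sum_le_card_mul_sum_sq (s := X) (f := fun x => ∑ i ∈ 𝓟, (if x ∈ S i then 1 else 0 : ℝ))
  rw [hJ]
  refine sub_le_sub_right ?_ _
  rw [hI]
  rcases Nat.eq_zero_or_pos X.card with h0 | hpos
  · rw [h0]
    simp only [Nat.cast_zero, div_zero]
    exact Finset.sum_nonneg fun x _ => sq_nonneg _
  · rw [div_le_iff₀ (by exact_mod_cast hpos), mul_comm]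
    exact hcs

/-- a plane of the occupancy bucket `[K, 2K)` in which no line carries half of the points -/
def moteBkt (X : Finset (Pt 3)) (K : ℝ) (Pl : AffineSubspace ℝ (Pt 3)) : Prop :=
  motIsPlane Pl ∧ K ≤ ((X.filter (fun x => x ∈ Pl)).card : ℝ) ∧
    ((X.filter (fun x => x ∈ Pl)).card : ℝ) < 2 * K ∧
    ∀ T ⊆ X.filter (fun x => x ∈ Pl), Collinear ℝ (T : Set (Pt 3)) →
      2 * (T.card : ℝ) < ((X.filter (fun x => x ∈ Pl)).card : ℝ)

/-! ## LEAF MOT-EFF-D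

PLAN.  `C` from `motRich_card`, `C₅ = 2 (2 + C²)`, `q = 2 sqrt K > 1`, `P = X ∩ Pl` (`|P| < 2K ≤ q²`).  For `Pl' ∈ 𝓟.erase Pl` put `o Pl' = |X ∩ Pl ∩ Pl'|`.
 * class 1, `o < q`: total `≤ q |𝓟|`.
 * class 2, `q ≤ o`: `X ∩ Pl ∩ Pl'` is collinear (`mote_collinear_of_ne`) with two distinct points `x, y`; `L(Pl') = line[ℝ, x, y] ≤ Pl, Pl'`; `X ∩ Pl ∩ Pl' = P ∩ L(Pl')` (`⊆` collinearity, `⊇` `L ≤ Pl'`),
   so `L(Pl') ∈ motRich P q` and `o Pl' = |P ∩ L(Pl')|`.  A fibre of `Pl' ↦ L(Pl')` has `≤ 2 m / K` elements: `mote_through_line` with `c = K/2` (off-line part of `Pl'`: `n Pl' - |X ∩ Pl' ∩ L| > n Pl'/2 ≥ K/2` by `moteBkt`).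
   Hence the total of class 2 is `≤ (2m/K) ∑_{L ∈ motRich P q} |P ∩ L| ≤ (2m/K) (|P| + a²)` (`mote_occupancy`), `a = |motRich P q| ≤ C (2K)/q = C sqrt K`:  `≤ (2m/K)(2K + C² K) = C₅ m`. -/
theorem mote_fixed : ∃ C₅ : ℝ, 0 < C₅ ∧ ∀ (m K : ℝ) (X : Finset (Pt 3)), 1 ≤ K → (X.card : ℝ) ≤ m →
    ∀ 𝓟 : Finset (AffineSubspace ℝ (Pt 3)), (∀ Pl ∈ 𝓟, moteBkt X K Pl) →
    ∀ Pl ∈ 𝓟, ∑ Pl' ∈ 𝓟.erase Pl,
      (((X.filter (fun x => x ∈ Pl)) ∩ (X.filter (fun x => x ∈ Pl'))).card : ℝ)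
        ≤ 2 * Real.sqrt K * (𝓟.card : ℝ) + C₅ * m := by
  obtain ⟨C, hC, hrich⟩ := motRich_card
  refine ⟨2 * (2 + C ^ 2), by positivity, ?_⟩
  intro m K X hK hX 𝓟 h𝓟 Pl hPl
  have hK0 : 0 < K := by linarith
  have hm0 : 0 ≤ m := le_trans (Nat.cast_nonneg _) hX
  obtain ⟨q, hq⟩ : ∃ q : ℝ, q = 2 * Real.sqrt K := ⟨_, rfl⟩
  have hsK : 1 ≤ Real.sqrt K := by
    rw [Real.le_sqrt' (by norm_num)]; linarith
  have hq2 : 2 ≤ q := by linarith
  have hq1 : 1 < q := by linarith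
  have hqq : q ^ 2 = 4 * K := by rw [hq, mul_pow, Real.sq_sqrt hK0.le]; ring
  obtain ⟨P, hP⟩ : ∃ P : Finset (Pt 3), P = X.filter (fun x => x ∈ Pl) := ⟨_, rfl⟩
  have hPcard : (P.card : ℝ) ≤ 2 * K := by rw [hP]; exact (h𝓟 Pl hPl).2.2.1.le
  rw [← hP, ← hq, ← Finset.sum_filter_add_sum_filter_not (𝓟.erase Pl)
    (fun Pl' => ((P ∩ (X.filter (fun x => x ∈ Pl'))).card : ℝ) < q)]
  have hcl1 : ∑ Pl' ∈ (𝓟.erase Pl).filter
      (fun Pl' => ((P ∩ (X.filter (fun x => x ∈ Pl'))).card : ℝ) < q),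
      ((P ∩ (X.filter (fun x => x ∈ Pl'))).card : ℝ) ≤ q * 𝓟.card := by
    calc _ ≤ ∑ _Pl' ∈ (𝓟.erase Pl).filter
          (fun Pl' => ((P ∩ (X.filter (fun x => x ∈ Pl'))).card : ℝ) < q), q :=
          Finset.sum_le_sum fun Pl' h => (Finset.mem_filter.1 h).2.le
      _ = (((𝓟.erase Pl).filter
          (fun Pl' => ((P ∩ (X.filter (fun x => x ∈ Pl'))).card : ℝ) < q)).card : ℝ) * q := by
          rw [Finset.sum_const, nsmul_eq_mul]
      _ ≤ (𝓟.card : ℝ) * q := by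
          refine mul_le_mul_of_nonneg_right ?_ (by linarith)
          exact_mod_cast (Finset.card_filter_le _ _).trans (Finset.card_le_card (Finset.erase_subset _ _))
      _ = q * 𝓟.card := mul_comm _ _
  obtain ⟨𝓠, h𝓠⟩ : ∃ 𝓠 : Finset (AffineSubspace ℝ (Pt 3)), 𝓠 = (𝓟.erase Pl).filter
      (fun Pl' => ¬ ((P ∩ (X.filter (fun x => x ∈ Pl'))).card : ℝ) < q) := ⟨_, rfl⟩
  rw [← h𝓠]
  have hex : ∀ Pl', ∃ L : AffineSubspace ℝ (Pt 3), Pl' ∈ 𝓠 → (L ∈ motRich P q ∧ L ≤ Pl' ∧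
      ((P ∩ (X.filter (fun x => x ∈ Pl'))).card : ℝ) = ((P.filter (fun x => x ∈ L)).card : ℝ)) := by
    intro Pl'
    by_cases hPl' : Pl' ∈ 𝓠
    · rw [h𝓠] at hPl'
      obtain ⟨h1, h2⟩ := Finset.mem_filter.1 hPl'
      obtain ⟨hne, hPl'𝓟⟩ := Finset.mem_erase.1 h1
      have h2' := not_lt.1 h2
      have hW1 : 1 < (P ∩ (X.filter (fun x => x ∈ Pl'))).card := by
        have : (1 : ℝ) < ((P ∩ (X.filter (fun x => x ∈ Pl'))).card : ℝ) := by linarith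
        exact_mod_cast this
      obtain ⟨x, hx, y, hy, hxy⟩ := Finset.one_lt_card.1 hW1
      obtain ⟨hline, hxl, hyl⟩ := st_line_through x y hxy
      have hmemW : ∀ z ∈ P ∩ (X.filter (fun x => x ∈ Pl')), z ∈ Pl ∧ z ∈ Pl' := by
        intro z hz
        obtain ⟨hz1, hz2⟩ := Finset.mem_inter.1 hz
        rw [hP] at hz1
        exact ⟨(Finset.mem_filter.1 hz1).2, (Finset.mem_filter.1 hz2).2⟩
      have hcol : Collinear ℝ ((P ∩ (X.filter (fun x => x ∈ Pl')) : Finset (Pt 3)) : Set (Pt 3)) :=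
        mote_collinear_of_ne Pl Pl' (h𝓟 Pl hPl).1 (h𝓟 Pl' hPl'𝓟).1 hne.symm _
          (fun z hz => hmemW z (Finset.mem_coe.1 hz))
      have hLPl' : line[ℝ, x, y] ≤ Pl' :=
        affineSpan_pair_le_of_mem_of_mem (hmemW x hx).2 (hmemW y hy).2
      have hWeq : P ∩ (X.filter (fun x => x ∈ Pl')) = P.filter (fun z => z ∈ line[ℝ, x, y]) := by
        ext z
        constructor
        · intro hz
          exact Finset.mem_filter.2 ⟨(Finset.mem_inter.1 hz).1,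
            st_line_of_collinear _ hcol x y (Finset.mem_coe.2 hx) (Finset.mem_coe.2 hy) hxy z
              (Finset.mem_coe.2 hz)⟩
        · intro hz
          obtain ⟨hz1, hz2⟩ := Finset.mem_filter.1 hz
          refine Finset.mem_inter.2 ⟨hz1, Finset.mem_filter.2 ⟨?_, hLPl' hz2⟩⟩
          rw [hP] at hz1
          exact (Finset.mem_filter.1 hz1).1
      refine ⟨line[ℝ, x, y], fun _ => ⟨?_, hLPl', by rw [hWeq]⟩⟩
      rw [mem_motRich P q hq1]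
      refine ⟨hline, ?_⟩
      rw [← hWeq]
      exact h2'
    · exact ⟨⊥, fun h => absurd h hPl'⟩
  choose Lf hLf using hex
  have hfib : ∀ L ∈ motRich P q, ((𝓠.filter (fun Pl' => Lf Pl' = L)).card : ℝ) ≤ 2 * m / K := by
    intro L hL
    have hline := ((mem_motRich P q hq1 L).1 hL).1
    have := mote_through_line X L hline (𝓠.filter (fun Pl' => Lf Pl' = L)) (K / 2) (by
      intro Pl' hPl'
      obtain ⟨h1, rfl⟩ := Finset.mem_filter.1 hPl'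
      have hPl'𝓟 : Pl' ∈ 𝓟 := by
        rw [h𝓠] at h1
        exact Finset.mem_of_mem_erase (Finset.mem_filter.1 h1).1
      obtain ⟨hpl, hK1, hK2, hhalf⟩ := h𝓟 Pl' hPl'𝓟
      refine ⟨hpl, (hLf Pl' h1).2.1, ?_⟩
      have h2 := hhalf ((X.filter (fun x => x ∈ Pl')).filter (fun z => z ∈ Lf Pl'))
        (Finset.filter_subset _ _) (st_collinear_of_line _ hline _
          (fun z hz => (Finset.mem_filter.1 (Finset.mem_coe.1 hz)).2))
      have h3 : ((X.filter (fun x => x ∈ Pl')).card : ℝ)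
          = (((X.filter (fun x => x ∈ Pl')).filter (fun z => z ∈ Lf Pl')).card : ℝ)
            + ((X.filter (fun z => z ∈ Pl' ∧ z ∉ Lf Pl')).card : ℝ) := by
        exact_mod_cast mote_split X Pl' (Lf Pl')
      linarith)
    rw [le_div_iff₀ hK0]
    linarith
  have ha : ((motRich P q).card : ℝ) ^ 2 ≤ C ^ 2 * K := by
    have h1 := hrich P (2 * K) q hPcard hq1 (by rw [hqq]; linarith)
    have h2 : ((motRich P q).card : ℝ) ^ 2 ≤ (C * (2 * K / q)) ^ 2 :=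
      pow_le_pow_left₀ (Nat.cast_nonneg _) h1 2
    refine h2.trans (le_of_eq ?_)
    rw [mul_pow, div_pow, hqq]
    field_simp
    ring
  have hocc : (∑ L ∈ motRich P q, ((P.filter (fun x => x ∈ L)).card : ℝ))
      ≤ (P.card : ℝ) + ((motRich P q).card : ℝ) ^ 2 := by
    exact_mod_cast mote_occupancy P (motRich P q) (fun L hL => ((mem_motRich P q hq1 L).1 hL).1)
  have hcl2 : ∑ Pl' ∈ 𝓠, ((P ∩ (X.filter (fun x => x ∈ Pl'))).card : ℝ) ≤ 2 * (2 + C ^ 2) * m := by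
    rw [← Finset.sum_fiberwise_of_maps_to (t := motRich P q) (g := Lf) (fun Pl' h => (hLf Pl' h).1)]
    calc _ = ∑ L ∈ motRich P q, ∑ _Pl' ∈ 𝓠.filter (fun Pl' => Lf Pl' = L),
            ((P.filter (fun x => x ∈ L)).card : ℝ) := by
          refine Finset.sum_congr rfl fun L _ => Finset.sum_congr rfl fun Pl' h => ?_
          obtain ⟨h1, rfl⟩ := Finset.mem_filter.1 h
          exact (hLf Pl' h1).2.2
      _ = ∑ L ∈ motRich P q, ((𝓠.filter (fun Pl' => Lf Pl' = L)).card : ℝ)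
            * ((P.filter (fun x => x ∈ L)).card : ℝ) := by
          refine Finset.sum_congr rfl fun L _ => ?_
          rw [Finset.sum_const, nsmul_eq_mul]
      _ ≤ ∑ L ∈ motRich P q, (2 * m / K) * ((P.filter (fun x => x ∈ L)).card : ℝ) :=
          Finset.sum_le_sum fun L hL => mul_le_mul_of_nonneg_right (hfib L hL) (Nat.cast_nonneg _)
      _ = (2 * m / K) * ∑ L ∈ motRich P q, ((P.filter (fun x => x ∈ L)).card : ℝ) := by
          rw [Finset.mul_sum]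
      _ ≤ (2 * m / K) * (2 * K + C ^ 2 * K) :=
          mul_le_mul_of_nonneg_left (by linarith) (by positivity)
      _ = 2 * (2 + C ^ 2) * m := by field_simp
  linarith

/-! ## LEAF MOT-EFF-E: one bucket

PLAN.  `C₅` from `mote_fixed`; `Kb = 2 (C₅ + 2)`.  `f = |𝓟|`; if `f = 0` trivial.  `I = ∑ n Pl ∈ [K f, 2 K f]`, `0 < |X| ≤ m`, `K ≤ n Pl ≤ |X| ≤ m`.
`mote_cs` and `mote_fixed`: `K² f²/m - 2 K f ≤ I²/|X| - I ≤ f (2 sqrt K f + C₅ m)`.  Divide by `f`.  `4 m ≤ K^(3/2)`, i.e. `4 sqrt K ≤ K²/m` (from `4 m^(2/3) ≤ K`: `K^(3/2) ≥ 8 m`), so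
`K² f/(2m) ≤ C₅ m + 2 K ≤ (C₅ + 2) m`. -/
theorem mote_num_aux (m K : ℝ) (hm : 1 ≤ m) (hK : 4 * m ^ ((2 : ℝ) / 3) ≤ K) :
    4 * Real.sqrt K * m ≤ K ^ 2 := by
  have hm0 : 0 ≤ m := by linarith
  obtain ⟨μ, hμ⟩ : ∃ μ : ℝ, μ = m ^ ((1 : ℝ) / 3) := ⟨_, rfl⟩
  have hμ0 : 0 ≤ μ := by rw [hμ]; exact Real.rpow_nonneg hm0 _
  have h2 : m ^ ((2 : ℝ) / 3) = μ ^ 2 := by
    rw [hμ, ← Real.rpow_natCast, ← Real.rpow_mul hm0]
    norm_num
  have h3 : m = μ ^ 3 := by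
    rw [hμ, ← Real.rpow_natCast, ← Real.rpow_mul hm0]
    norm_num
  rw [h2] at hK
  have hK0 : 0 ≤ K := by nlinarith [sq_nonneg μ]
  obtain ⟨s, hs⟩ : ∃ s : ℝ, s = Real.sqrt K := ⟨_, rfl⟩
  have hs0 : 0 ≤ s := by rw [hs]; exact Real.sqrt_nonneg _
  have hsK : s ^ 2 = K := by rw [hs]; exact Real.sq_sqrt hK0
  rw [← hs, ← hsK, h3]
  rw [← hsK] at hK
  have h4 : 2 * μ ≤ s := by
    by_contra hcon
    push Not at hcon
    nlinarith
  have h5 : (2 * μ) ^ 3 ≤ s ^ 3 := pow_le_pow_left₀ (by positivity) h4 3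
  nlinarith [mul_nonneg hs0 (sub_nonneg.2 h5)]

theorem mote_bucket : ∃ Kb : ℝ, 0 < Kb ∧ ∀ (m K : ℝ) (X : Finset (Pt 3)), 1 ≤ m → (X.card : ℝ) ≤ m →
    4 * m ^ ((2 : ℝ) / 3) ≤ K →
    ∀ 𝓟 : Finset (AffineSubspace ℝ (Pt 3)), (∀ Pl ∈ 𝓟, moteBkt X K Pl) →
      (𝓟.card : ℝ) ≤ Kb * m ^ 2 / K ^ 2 := by
  obtain ⟨C₅, hC₅, hfix⟩ := mote_fixed
  refine ⟨2 * (C₅ + 2), by positivity, ?_⟩
  intro m K X hm hX hK 𝓟 h𝓟
  have hm23 : 1 ≤ m ^ ((2 : ℝ) / 3) := Real.one_le_rpow hm (by norm_num)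
  have hK4 : 4 ≤ K := by linarith
  have hK0 : 0 < K := by linarith
  have hm0 : 0 < m := by linarith
  rcases 𝓟.eq_empty_or_nonempty with rfl | hne
  · simp only [Finset.card_empty, Nat.cast_zero]
    positivity
  obtain ⟨f, hf⟩ : ∃ f : ℝ, f = (𝓟.card : ℝ) := ⟨_, rfl⟩
  have hf0 : 0 < f := by
    rw [hf]
    exact_mod_cast hne.card_pos
  obtain ⟨I, hI⟩ : ∃ I : ℝ, I = ∑ Pl ∈ 𝓟, ((X.filter (fun x => x ∈ Pl)).card : ℝ) := ⟨_, rfl⟩
  have hI1 : K * f ≤ I := by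
    rw [hI, hf, mul_comm, ← nsmul_eq_mul]
    exact Finset.card_nsmul_le_sum _ _ _ (fun Pl hPl => (h𝓟 Pl hPl).2.1)
  have hI2 : I ≤ 2 * K * f := by
    rw [hI, hf, mul_comm, ← nsmul_eq_mul]
    exact Finset.sum_le_card_nsmul _ _ _ (fun Pl hPl => (h𝓟 Pl hPl).2.2.1.le)
  obtain ⟨Pl0, hPl0⟩ := hne
  have hKX : K ≤ X.card :=
    (h𝓟 Pl0 hPl0).2.1.trans (by exact_mod_cast Finset.card_filter_le _ _)
  have hXpos : (0 : ℝ) < X.card := by linarith
  have hKm : K ≤ m := hKX.trans hX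
  have hcs := mote_cs X 𝓟 (fun Pl => X.filter (fun x => x ∈ Pl)) (fun _ _ => Finset.filter_subset _ _)
  simp only [← hI] at hcs
  have hub : ∑ i ∈ 𝓟, ∑ j ∈ 𝓟.erase i,
      (((X.filter (fun x => x ∈ i)) ∩ (X.filter (fun x => x ∈ j))).card : ℝ)
      ≤ f * (2 * Real.sqrt K * f + C₅ * m) := by
    calc _ ≤ ∑ i ∈ 𝓟, (2 * Real.sqrt K * f + C₅ * m) :=
          Finset.sum_le_sum (fun Pl hPl => by
            rw [hf]
            exact hfix m K X (by linarith) hX 𝓟 h𝓟 Pl hPl)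
      _ = f * (2 * Real.sqrt K * f + C₅ * m) := by rw [Finset.sum_const, nsmul_eq_mul, hf]
  have hI0 : 0 ≤ I := le_trans (by positivity) hI1
  have h1 : (K * f) ^ 2 / m ≤ I ^ 2 / X.card := by
    calc (K * f) ^ 2 / m ≤ I ^ 2 / m := by
          apply div_le_div_of_nonneg_right _ hm0.le
          exact pow_le_pow_left₀ (by positivity) hI1 2
      _ ≤ I ^ 2 / X.card := div_le_div_of_nonneg_left (by positivity) hXpos hX
  have main : (K * f) ^ 2 / m - 2 * K * f ≤ f * (2 * Real.sqrt K * f + C₅ * m) := by linarith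
  have hs := mote_num_aux m K hm hK
  have hsq : 0 ≤ Real.sqrt K := Real.sqrt_nonneg _
  -- multiply by m / f
  have main2 : K ^ 2 * f - 2 * K * m ≤ 2 * Real.sqrt K * f * m + C₅ * m ^ 2 := by
    have e1 : (K * f) ^ 2 / m = f * (K ^ 2 * f / m) := by ring
    rw [e1] at main
    have e2 : f * (K ^ 2 * f / m - 2 * K) ≤ f * (2 * Real.sqrt K * f + C₅ * m) := by linarith
    have e3 := le_of_mul_le_mul_left e2 hf0
    have e4 := mul_le_mul_of_nonneg_right e3 hm0.le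
    have e5 : (K ^ 2 * f / m - 2 * K) * m = K ^ 2 * f - 2 * K * m := by
      field_simp
    rw [e5] at e4
    linarith
  have main3 : K ^ 2 * f ≤ 2 * (C₅ + 2) * m ^ 2 := by
    have a1 : 2 * Real.sqrt K * f * m ≤ K ^ 2 * f / 2 := by nlinarith
    have a2 : 2 * K * m ≤ 2 * m ^ 2 := by nlinarith
    linarith
  rw [← hf, le_div_iff₀ (by positivity)]
  linarith

/-! ## LEAF MOT-EFF-F: the lemma

PLAN.  `C₂ = 4`, `K₂ = Ka + (4/3) Kb`.  `H ≥ 4 m^(2/3) ≥ 4`, `H² ≥ 16 m^(4/3) ≥ m`.  Split `𝓟` by the predicate `∃ T ⊆ X ∩ Pl collinear, n Pl ≤ 2 |T|`: the first part is bounded by `mote_half`.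
For the second part use `mot_dyadic_gen` (MotSum.lean) with `f Pl = n Pl`, `wt = 1`, `b = H`, `ρ = 1/4`, `B = Kb m²/H²`: the class `i` consists of planes with `moteBkt X (2^i H)`, so it has
`≤ Kb m²/(2^i H)² = B (1/4)^i` elements (`mote_bucket`); `f Pl ≥ H` is the hypothesis for `T = ∅`. -/
theorem mote_num_aux2 (m H : ℝ) (hm : 1 ≤ m) (hH : 4 * m ^ ((2 : ℝ) / 3) ≤ H) : m ≤ H ^ 2 := by
  have hm0 : 0 ≤ m := by linarith
  obtain ⟨μ, hμ⟩ : ∃ μ : ℝ, μ = m ^ ((1 : ℝ) / 3) := ⟨_, rfl⟩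
  have hμ1 : 1 ≤ μ := by rw [hμ]; exact Real.one_le_rpow hm (by norm_num)
  have h2 : m ^ ((2 : ℝ) / 3) = μ ^ 2 := by
    rw [hμ, ← Real.rpow_natCast, ← Real.rpow_mul hm0]
    norm_num
  have h3 : m = μ ^ 3 := by
    rw [hμ, ← Real.rpow_natCast, ← Real.rpow_mul hm0]
    norm_num
  rw [h2] at hH
  rw [h3]
  have h4 : (4 * μ ^ 2) ^ 2 ≤ H ^ 2 := pow_le_pow_left₀ (by positivity) hH 2
  have h5 : μ ^ 3 ≤ μ ^ 4 := pow_le_pow_right₀ hμ1 (by norm_num)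
  nlinarith [pow_pos (lt_of_lt_of_le one_pos hμ1) 4]

theorem mot_eff : MotEffStmt := by
  obtain ⟨Ka, hKa, hhalf⟩ := mote_half
  obtain ⟨Kb, hKb, hbkt⟩ := mote_bucket
  refine ⟨4, Ka + 4 / 3 * Kb, by norm_num, by positivity, ?_⟩
  intro m H X hm hX hH 𝓟 h𝓟
  have hm23 : 1 ≤ m ^ ((2 : ℝ) / 3) := Real.one_le_rpow hm (by norm_num)
  have hH4 : 4 ≤ H := by linarith
  have hH0 : 0 < H := by linarith
  have hmH : m ≤ H ^ 2 := mote_num_aux2 m H hm hH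
  set Q : AffineSubspace ℝ (Pt 3) → Prop := fun Pl =>
    ∃ T ⊆ X.filter (fun x => x ∈ Pl), Collinear ℝ (T : Set (Pt 3)) ∧
      ((X.filter (fun x => x ∈ Pl)).card : ℝ) ≤ 2 * (T.card : ℝ) with hQ
  have e1 : ((𝓟.filter Q).card : ℝ) ≤ Ka * m ^ 2 / H ^ 2 :=
    hhalf m H X hX (by linarith) hmH _ (fun Pl hPl => by
      obtain ⟨h1, h2⟩ := Finset.mem_filter.1 hPl
      exact ⟨(h𝓟 Pl h1).1, (h𝓟 Pl h1).2, h2⟩)
  have e2 : ∑ Pl ∈ 𝓟.filter (fun Pl => ¬ Q Pl), (1 : ℝ) ≤ Kb * m ^ 2 / H ^ 2 / (1 - 1 / 4) := by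
    refine mot_dyadic_gen (𝓟.filter (fun Pl => ¬ Q Pl))
      (fun Pl => ((X.filter (fun x => x ∈ Pl)).card : ℝ)) (fun _ => 1) H (Kb * m ^ 2 / H ^ 2) (1 / 4)
      hH0 (by positivity) (by norm_num) (by norm_num) ?_ ?_
    · intro Pl hPl
      have := (h𝓟 Pl (Finset.mem_filter.1 hPl).1).2 ∅ (Finset.empty_subset _) (by simp [collinear_empty])
      simpa using this
    · intro i
      have h2i : (1 : ℝ) ≤ 2 ^ i := one_le_pow₀ (by norm_num)
      have := hbkt m (2 ^ i * H) X hm hX (by nlinarith)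
        ((𝓟.filter (fun Pl => ¬ Q Pl)).filter (fun Pl =>
          2 ^ i * H ≤ ((X.filter (fun x => x ∈ Pl)).card : ℝ) ∧
          ((X.filter (fun x => x ∈ Pl)).card : ℝ) < 2 ^ (i + 1) * H)) (by
          intro Pl hPl
          obtain ⟨h1, h2, h3⟩ := Finset.mem_filter.1 hPl
          obtain ⟨h4, h5⟩ := Finset.mem_filter.1 h1
          refine ⟨(h𝓟 Pl h4).1, h2, by rw [pow_succ] at h3; linarith, ?_⟩
          intro T hT hTc
          by_contra hcon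
          exact h5 ⟨T, hT, hTc, not_lt.1 hcon⟩)
      rw [Finset.sum_const, nsmul_eq_mul, mul_one]
      refine this.trans (le_of_eq ?_)
      rw [mul_pow, one_div, inv_pow, ← pow_mul, mul_comm i 2, pow_mul]
      norm_num
      field_simp
  have e3 : (𝓟.card : ℝ) = ((𝓟.filter Q).card : ℝ) + ((𝓟.filter (fun g => ¬ Q g)).card : ℝ) := by
    rw [← Nat.cast_add, Finset.card_filter_add_card_filter_not]
  rw [Finset.sum_const, nsmul_eq_mul, mul_one] at e2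
  rw [e3, add_mul, add_div]
  refine add_le_add e1 (e2.trans (le_of_eq ?_))
  ring

end Claimed.Agent.R273
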