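-- KEEP
import Claimed.Agent.R273.MotTop
import Claimed.Agent.R273.StRich

/-!
# Row 273, S7, MOT-LINE, file 1: API of `motImg`, `motSep`, `motRich`, `motWt` (for MOT-SUM), and `MotParStmt`.
Architect helper71.  Paper: motions.tex l.699-800.  File 2 = `MotLineB.lean` (`MotLineAStmt`, `MotLineBStmt`).

`MotParStmt` WITHOUT parallelism classes: the relation `motSep · · ρ` on the whole family has at most two common neighbours for two
distinct lines (`motn_sep_common`: a common neighbour forces all three lines to be parallel; cut with the plane `Dᗮ`; two circles of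
radius `ρ` with distinct centres, `EuclideanGeometry.eq_of_dist_eq_of_dist_eq_of_mem_of_finrank_eq_two`), and then the abstract
Kővári-Sós-Turán count `motn_kst` gives `E² ≤ 3 q³`.
-/

set_option autoImplicit false

namespace Claimed.Agent.R273

open scoped Classical

/-! ## 1. API -/

theorem motn_mem_img (g : Motion) (L : AffineSubspace ℝ (Pt 3)) (y : Pt 3) :
    y ∈ motImg g L ↔ ∃ x ∈ L, g x = y := by
  unfold motImg
  rw [AffineSubspace.mem_map]
  rfl

theorem motn_apply_mem_img (g : Motion) (L : AffineSubspace ℝ (Pt 3)) (x : Pt 3) :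
    g x ∈ motImg g L ↔ x ∈ L := by
  rw [motn_mem_img]
  constructor
  · rintro ⟨x', hx', h⟩
    rwa [← g.injective h]
  · intro h
    exact ⟨x, h, rfl⟩

theorem motn_img_dir (g : Motion) (L : AffineSubspace ℝ (Pt 3)) :
    (motImg g L).direction
      = L.direction.map (g.linearIsometryEquiv.toLinearEquiv : Pt 3 →ₗ[ℝ] Pt 3) := by
  unfold motImg
  rw [AffineSubspace.map_direction]
  rfl

theorem motn_img_line (g : Motion) (L : AffineSubspace ℝ (Pt 3)) (h : stIsLine L) :
    stIsLine (motImg g L) := by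
  unfold stIsLine at *
  rw [motn_img_dir, LinearEquiv.finrank_map_eq]
  exact h

theorem motn_img_inj (g : Motion) : Function.Injective (motImg g) := by
  intro L L' h
  ext x
  rw [← motn_apply_mem_img g L, ← motn_apply_mem_img g L', h]

/-- same direction of the images iff same direction. -/
theorem motn_img_dir_eq (g : Motion) (L L' : AffineSubspace ℝ (Pt 3)) :
    (motImg g L).direction = (motImg g L').direction ↔ L.direction = L'.direction := by
  rw [motn_img_dir, motn_img_dir]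
  constructor
  · intro h
    exact Submodule.map_injective_of_injective
      (f := (g.linearIsometryEquiv.toLinearEquiv : Pt 3 →ₗ[ℝ] Pt 3))
      g.linearIsometryEquiv.toLinearEquiv.injective h
  · intro h
    rw [h]

/-- **MOTN-1a** two distinct parallel lines have a positive separation
(`p ∈ L`, `p' =` orthogonal projection of `p` on `L'`: `EuclideanGeometry.orthogonalProjection`). -/
theorem motn_sep_exists (L L' : AffineSubspace ℝ (Pt 3)) (hL : stIsLine L) (hL' : stIsLine L')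
    (hne : L ≠ L') (hd : L.direction = L'.direction) : ∃ ρ : ℝ, 0 < ρ ∧ motSep L L' ρ := by
  obtain ⟨p, w, hw, hLp⟩ := (st_line_param L).1 hL
  obtain ⟨p', v, hv, hLp'⟩ := (st_line_param L').1 hL'
  have hp : p ∈ L := (hLp p).2 ⟨0, by simp⟩
  have hp' : p' ∈ L' := (hLp' p').2 ⟨0, by simp⟩
  have hvv : inner ℝ v v ≠ 0 := by
    rw [real_inner_self_eq_norm_sq]
    exact pow_ne_zero _ (norm_ne_zero_iff.2 hv)
  set t0 : ℝ := inner ℝ v (p - p') / inner ℝ v v with ht0
  set p'' : Pt 3 := p' + t0 • v with hp''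
  have hp''L : p'' ∈ L' := (hLp' p'').2 ⟨t0, rfl⟩
  have horth : inner ℝ v (p'' - p) = 0 := by
    have e : p'' - p = t0 • v - (p - p') := by rw [hp'']; abel
    rw [e, inner_sub_right, inner_smul_right, ht0, div_mul_cancel₀ _ hvv, sub_self]
  have hdir : ∀ u ∈ L'.direction, ∃ c : ℝ, u = c • v := by
    intro u hu
    have h1 : u +ᵥ p' ∈ L' := AffineSubspace.vadd_mem_of_mem_direction hu hp'
    obtain ⟨c, hc⟩ := (hLp' _).1 h1
    refine ⟨c, ?_⟩
    rw [vadd_eq_add, add_comm] at hc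
    exact add_left_cancel hc
  have hpne : p ≠ p'' := by
    intro h
    apply hne
    exact AffineSubspace.ext_of_direction_eq hd ⟨p, hp, h ▸ hp''L⟩
  refine ⟨dist p p'', dist_pos.2 hpne, hd, p, hp, p'', hp''L, rfl, ?_⟩
  intro u hu
  obtain ⟨c, rfl⟩ := hdir u (hd ▸ hu)
  rw [inner_smul_left, horth, mul_zero]

/-- **MOTN-1b** the separation is invariant under motions. -/
theorem motn_sep_img (g : Motion) (L L' : AffineSubspace ℝ (Pt 3)) (ρ : ℝ) (h : motSep L L' ρ) :
    motSep (motImg g L) (motImg g L') ρ := by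
  obtain ⟨hd, p, hp, p', hp', hdist, horth⟩ := h
  refine ⟨(motn_img_dir_eq g L L').2 hd, g p, (motn_apply_mem_img g L p).2 hp, g p',
    (motn_apply_mem_img g L' p').2 hp', by rw [g.dist_map, hdist], ?_⟩
  intro u hu
  rw [motn_img_dir, Submodule.mem_map] at hu
  obtain ⟨u0, hu0, rfl⟩ := hu
  have e : g p' - g p = g.linearIsometryEquiv (p' - p) := by
    have := g.map_vsub p' p
    simpa [vsub_eq_sub] using this.symm
  rw [e]
  show inner ℝ (g.linearIsometryEquiv u0) (g.linearIsometryEquiv (p' - p)) = 0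
  rw [LinearIsometryEquiv.inner_map_map]
  exact horth u0 hu0

/-- **MOTN-1c** membership in `motRich` (a line with more than one point of `X` is spanned by two points of `X`). -/
theorem motn_mem_rich (X : Finset (Pt 3)) (q : ℝ) (hq : 1 < q) (L : AffineSubspace ℝ (Pt 3)) :
    L ∈ motRich X q ↔ stIsLine L ∧ q ≤ ((X.filter (fun x => x ∈ L)).card : ℝ) := by
  unfold motRich
  rw [Finset.mem_filter]
  constructor
  · exact fun h => h.2
  · intro h
    refine ⟨?_, h⟩
    have h1 : 1 < (X.filter (fun x => x ∈ L)).card := by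
      have : (1 : ℝ) < ((X.filter (fun x => x ∈ L)).card : ℝ) := lt_of_lt_of_le hq h.2
      exact_mod_cast this
    obtain ⟨x, hx, y, hy, hxy⟩ := Finset.one_lt_card.1 h1
    rw [Finset.mem_filter] at hx hy
    rw [Finset.mem_image]
    refine ⟨(x, y), Finset.mem_product.2 ⟨hx.1, hy.1⟩, ?_⟩
    obtain ⟨l1, l2, l3⟩ := st_line_through x y hxy
    exact st_line_unique _ _ l1 h.1 x y hxy l2 l3 hx.2 hy.2

/-- **MOTN-1d** number of rich lines (`st_rich_lines` with `k = ⌈q⌉₊ ≥ 2`). -/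
theorem motn_rich_card : ∃ C : ℝ, 0 < C ∧ ∀ (X : Finset (Pt 3)) (q : ℝ), 1 < q →
    ((motRich X q).card : ℝ) ≤ C * ((X.card : ℝ) ^ 2 / q ^ 3 + (X.card : ℝ) / q) := by
  obtain ⟨C, hC, h⟩ := st_rich_lines
  refine ⟨C, hC, fun X q hq => ?_⟩
  have hq0 : 0 < q := by linarith
  have hk : 2 ≤ ⌈q⌉₊ := by
    have : 1 < ⌈q⌉₊ := Nat.lt_ceil.2 (by exact_mod_cast hq)
    omega
  have h1 := h (Pt 3) X ⌈q⌉₊ (motRich X q) hk (fun l hl => by
    obtain ⟨a, b⟩ := (motn_mem_rich X q hq l).1 hl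
    exact ⟨a, Nat.ceil_le.2 b⟩)
  refine h1.trans ?_
  have hqk : q ≤ (⌈q⌉₊ : ℝ) := Nat.le_ceil q
  apply mul_le_mul_of_nonneg_left _ hC.le
  gcongr

/-- **MOTN-1e** the points of `X` on a line are collinear: caps for lines and for the weights. -/
theorem motn_cap_line (X Y : Finset (Pt 3)) (H : ℝ) (hX : motCap X H) (L : AffineSubspace ℝ (Pt 3))
    (hL : stIsLine L) :
    ((X.filter (fun x => x ∈ L)).card : ℝ) ≤ H ∧ ∀ g : Motion, (motWt X Y g L : ℝ) ≤ H := by
  have h1 : ((X.filter (fun x => x ∈ L)).card : ℝ) ≤ H :=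
    hX _ (Finset.filter_subset _ _) (st_collinear_of_line L hL _ (fun x hx => by
      have := Finset.mem_coe.1 hx
      exact (Finset.mem_filter.1 this).2))
  refine ⟨h1, fun g => le_trans ?_ h1⟩
  unfold motWt motSet
  have : ((X.filter (fun x => g x ∈ Y)).filter (fun x => x ∈ L)).card
      ≤ (X.filter (fun x => x ∈ L)).card := by
    apply Finset.card_le_card
    intro x hx
    rw [Finset.mem_filter, Finset.mem_filter] at hx
    exact Finset.mem_filter.2 ⟨hx.1.1, hx.2⟩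
  exact_mod_cast this

/-! ## 2. `MotParStmt` -/

/-- **MOTN-2a** Kővári-Sós-Turán for `K_{2,3}`: `E = ∑_v d(v)`, `∑_v d(v)² = ∑_{u,u'} codeg ≤ 2 q² + E ≤ 3 q²`, Cauchy-Schwarz
(`inner_mul_le_norm_mul_norm` or `Finset.sum_mul_sq_le_sq_mul_sq` / `sq_sum_le_card_mul_sum_sq`). -/
theorem motn_kst {V : Type} (A : Finset V) (r : V → V → Prop)
    (h : ∀ u ∈ A, ∀ u' ∈ A, u ≠ u' → (A.filter (fun v => r u v ∧ r u' v)).card ≤ 2) :
    ((A ×ˢ A).filter (fun p => r p.1 p.2)).card ^ 2 ≤ 3 * A.card ^ 3 := by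
  have hE : ((A ×ˢ A).filter (fun p => r p.1 p.2)).card
      = ∑ v ∈ A, ∑ u ∈ A, (if r u v then 1 else 0) := by
    rw [Finset.card_filter, Finset.sum_product, Finset.sum_comm]
  have hcs := sq_sum_le_card_mul_sum_sq (s := A) (f := fun v => ∑ u ∈ A, (if r u v then 1 else 0 : ℕ))
  have hsq : ∑ v ∈ A, (∑ u ∈ A, (if r u v then 1 else 0 : ℕ)) ^ 2
      = ∑ u ∈ A, ∑ u' ∈ A, (A.filter (fun v => r u v ∧ r u' v)).card := by
    simp_rw [sq, Finset.sum_mul_sum, Finset.card_filter]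
    rw [Finset.sum_comm]
    refine Finset.sum_congr rfl fun u _ => ?_
    rw [Finset.sum_comm]
    refine Finset.sum_congr rfl fun u' _ => Finset.sum_congr rfl fun v _ => ?_
    by_cases h1 : r u v <;> by_cases h2 : r u' v <;> simp [h1, h2]
  have hb : ∀ u ∈ A, ∑ u' ∈ A, (A.filter (fun v => r u v ∧ r u' v)).card ≤ 3 * A.card := by
    intro u hu
    calc _ ≤ ∑ u' ∈ A, (2 + if u' = u then A.card else 0) := Finset.sum_le_sum fun u' hu' => ?_
      _ = 3 * A.card := by
          rw [Finset.sum_add_distrib, Finset.sum_ite_eq' A u, if_pos hu, Finset.sum_const,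
            smul_eq_mul]
          ring
    by_cases e : u' = u
    · rw [if_pos e]; exact (Finset.card_filter_le _ _).trans (Nat.le_add_left _ _)
    · rw [if_neg e]; exact h u hu u' hu' (Ne.symm e)
  rw [hE]
  calc _ ≤ A.card * ∑ v ∈ A, (∑ u ∈ A, (if r u v then 1 else 0 : ℕ)) ^ 2 := hcs
    _ = A.card * ∑ u ∈ A, ∑ u' ∈ A, (A.filter (fun v => r u v ∧ r u' v)).card := by rw [hsq]
    _ ≤ A.card * ∑ _u ∈ A, 3 * A.card := Nat.mul_le_mul_left _ (Finset.sum_le_sum hb)
    _ = 3 * A.card ^ 3 := by rw [Finset.sum_const, smul_eq_mul]; ring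

/-- two affine subspaces with direction `D` whose points have the same projection to `Dᗮ` coincide -/
theorem motn_eq_of_proj {D : Submodule ℝ (Pt 3)} {M M' : AffineSubspace ℝ (Pt 3)} (hM : M.direction = D)
    (hM' : M'.direction = D) {x x' : Pt 3} (hx : x ∈ M) (hx' : x' ∈ M')
    (h : Dᗮ.starProjection x = Dᗮ.starProjection x') : M = M' := by
  have h1 : Dᗮ.starProjection (x - x') = 0 := by rw [map_sub, h, sub_self]
  rw [Submodule.starProjection_apply_eq_zero_iff, Submodule.orthogonal_orthogonal] at h1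
  refine AffineSubspace.ext_of_direction_eq (hM.trans hM'.symm) ⟨x, hx, ?_⟩
  have h2 : x = (x - x') +ᵥ x' := by simp
  rw [h2]
  exact AffineSubspace.vadd_mem_of_mem_direction (hM'.symm ▸ h1) hx'

/-- projections of points of the same affine subspace with direction `D` -/
theorem motn_proj_const {D : Submodule ℝ (Pt 3)} {M : AffineSubspace ℝ (Pt 3)} (hM : M.direction = D)
    {x x' : Pt 3} (hx : x ∈ M) (hx' : x' ∈ M) : Dᗮ.starProjection x = Dᗮ.starProjection x' := by
  have h1 : x - x' ∈ D := hM ▸ AffineSubspace.vsub_mem_direction hx hx'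
  have h2 : Dᗮ.starProjection (x - x') = 0 := by
    rw [Submodule.starProjection_apply_eq_zero_iff, Submodule.orthogonal_orthogonal]
    exact h1
  rw [map_sub, sub_eq_zero] at h2
  exact h2

/-- the separation is the distance of the projections -/
theorem motn_sep_proj {L M : AffineSubspace ℝ (Pt 3)} {ρ : ℝ} (h : motSep L M ρ) {x y : Pt 3}
    (hx : x ∈ L) (hy : y ∈ M) :
    dist (L.directionᗮ.starProjection y) (L.directionᗮ.starProjection x) = ρ := by
  obtain ⟨hd, p, hp, p', hp', hdist, hperp⟩ := h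
  rw [motn_proj_const rfl hx hp, motn_proj_const hd.symm hy hp', dist_eq_norm, ← map_sub]
  have h1 : p' - p ∈ L.directionᗮ := by
    rw [Submodule.mem_orthogonal]
    exact hperp
  rw [Submodule.starProjection_eq_self_iff.2 h1, ← dist_eq_norm, dist_comm]
  exact hdist

/-- **MOTN-2b** two distinct lines have at most two common neighbours at separation `ρ`. -/
theorem motn_sep_common (L L' : AffineSubspace ℝ (Pt 3)) (hL : stIsLine L) (hL' : stIsLine L')
    (hne : L ≠ L') (ρ : ℝ) (𝒩 : Finset (AffineSubspace ℝ (Pt 3)))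
    (h𝒩 : ∀ M ∈ 𝒩, stIsLine M ∧ motSep L M ρ ∧ motSep L' M ρ) : 𝒩.card ≤ 2 := by
  by_contra hcon
  obtain ⟨M₁, h₁, M₂, h₂, M₃, h₃, n12, n13, n23⟩ := Finset.two_lt_card.1 (not_le.1 hcon)
  have hdd : L'.direction = L.direction := (h𝒩 M₁ h₁).2.2.1.trans (h𝒩 M₁ h₁).2.1.1.symm
  have hpt : ∀ {K : AffineSubspace ℝ (Pt 3)}, stIsLine K → ∃ p, p ∈ K := by
    intro K hK
    by_contra hc
    push Not at hc
    have : K = ⊥ := by
      rw [← AffineSubspace.coe_eq_bot_iff]
      exact Set.eq_empty_of_forall_notMem hc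
    unfold stIsLine at hK
    rw [this, AffineSubspace.direction_bot] at hK
    simp at hK
  obtain ⟨x, hx⟩ := hpt hL
  obtain ⟨x', hx'⟩ := hpt hL'
  obtain ⟨y₁, hy₁⟩ := hpt (h𝒩 M₁ h₁).1
  obtain ⟨y₂, hy₂⟩ := hpt (h𝒩 M₂ h₂).1
  obtain ⟨y₃, hy₃⟩ := hpt (h𝒩 M₃ h₃).1
  set D := L.direction with hD
  have hfin : Module.finrank ℝ Dᗮ = 2 := by
    have := Submodule.finrank_add_finrank_orthogonal D
    rw [finrank_euclideanSpace_fin] at this
    have h1 : Module.finrank ℝ D = 1 := hL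
    omega
  have hdist : ∀ M ∈ 𝒩, ∀ y ∈ M, dist (Dᗮ.starProjection y) (Dᗮ.starProjection x) = ρ ∧
      dist (Dᗮ.starProjection y) (Dᗮ.starProjection x') = ρ := by
    intro M hM y hy
    refine ⟨motn_sep_proj (h𝒩 M hM).2.1 hx hy, ?_⟩
    have := motn_sep_proj (h𝒩 M hM).2.2 hx' hy
    rwa [hdd] at this
  have hdir : ∀ M ∈ 𝒩, M.direction = D := fun M hM => (h𝒩 M hM).2.1.1.symm
  have hmem : ∀ z : Pt 3, Dᗮ.starProjection z ∈ Dᗮ.toAffineSubspace := fun z =>
    Submodule.starProjection_apply_mem _ z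
  have key := EuclideanGeometry.eq_of_dist_eq_of_dist_eq_of_mem_of_finrank_eq_two
    (s := Dᗮ.toAffineSubspace) (by rw [Submodule.toAffineSubspace_direction]; exact hfin)
    (hmem x) (hmem x') (hmem y₁) (hmem y₂) (hmem y₃)
    (fun h => hne (motn_eq_of_proj rfl hdd hx hx' h))
    (fun h => n12 (motn_eq_of_proj (hdir M₁ h₁) (hdir M₂ h₂) hy₁ hy₂ h))
    (hdist M₁ h₁ y₁ hy₁).1 (hdist M₂ h₂ y₂ hy₂).1 (hdist M₃ h₃ y₃ hy₃).1
    (hdist M₁ h₁ y₁ hy₁).2 (hdist M₂ h₂ y₂ hy₂).2 (hdist M₃ h₃ y₃ hy₃).2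
  rcases key with h | h
  · exact n13 (motn_eq_of_proj (hdir M₃ h₃) (hdir M₁ h₁) hy₃ hy₁ h).symm
  · exact n23 (motn_eq_of_proj (hdir M₃ h₃) (hdir M₂ h₂) hy₃ hy₂ h).symm

/-- the contract `MotParStmt`. -/
theorem motn_par : MotParStmt := by
  refine ⟨2, by norm_num, fun 𝓛 ρ _ h𝓛 => ?_⟩
  have h1 := motn_kst 𝓛 (fun L L' => motSep L L' ρ) (fun u hu u' hu' hne =>
    motn_sep_common u u' (h𝓛 u hu) (h𝓛 u' hu') hne ρ _ (fun M hM => by
      rw [Finset.mem_filter] at hM
      exact ⟨h𝓛 M hM.1, hM.2.1, hM.2.2⟩))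
  set E := ((𝓛 ×ˢ 𝓛).filter (fun p => motSep p.1 p.2 ρ)).card with hE
  have h2 : (E : ℝ) ^ 2 ≤ 3 * (𝓛.card : ℝ) ^ 3 := by exact_mod_cast h1
  have hq : (0 : ℝ) ≤ (𝓛.card : ℝ) := Nat.cast_nonneg _
  have h3 : ((𝓛.card : ℝ) ^ ((3 : ℝ) / 2)) ^ 2 = (𝓛.card : ℝ) ^ 3 := by
    rw [← Real.rpow_natCast, ← Real.rpow_mul hq]
    norm_num
  have h4 : (0 : ℝ) ≤ (𝓛.card : ℝ) ^ ((3 : ℝ) / 2) := Real.rpow_nonneg hq _
  refine abs_le_of_sq_le_sq' ?_ (by positivity) |>.2
  rw [mul_pow, h3]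
  nlinarith [pow_nonneg hq 3]

end Claimed.Agent.R273
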