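-- KEEP
import Claimed.Agent.R273.MotLine

/-!
# Row 273, S7, MOT-LINE, file 2: `MotLineAStmt`, `MotLineBStmt` (mot:line-images, motions.tex l.699-770).  Architect helper71.

Linear part of a motion: `g.linearIsometryEquiv : Pt 3 ≃ₗᵢ[ℝ] Pt 3`; `g x = g p + S (x - p)` (`AffineIsometryEquiv.map_vsub`, `map_vadd`).

* A: `𝒢 ≠ ∅`, `g₀ ∈ 𝒢`, `0 ≠ aᵢ ∈ dir Lᵢ`, `bᵢ = S₀ aᵢ`.  `g ↦ (S a₁ = b₁, S a₂ = b₂) : Bool × Bool` has fibres of size `≤ 2`
  (`motn_dir_sign`, `motn_lin_two`, `motn_trans_unique`); `Finset.card_le_mul_card_image`.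
* B: at most four linear parts (`motn_par_linparts`: `S a = ± b`, and `S d` does not depend on `g`, `d` the perpendicular separation vector given
  by `motn_sep_exists`: `S d - S' d ∈ dir L₁'` and `⊥ dir L₁'`); for a fixed linear part a pair `(x, y)` determines the motion
  (`motn_fixed_lin`), `w₂ ≤ H`.
-/

set_option autoImplicit false

namespace Claimed.Agent.R273

open scoped Classical

/-! ### small linear algebra -/

theorem motn_rank_one {D : Submodule ℝ (Pt 3)} (hD : Module.finrank ℝ D = 1) {b w : Pt 3}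
    (hb : b ∈ D) (hb0 : b ≠ 0) (hw : w ∈ D) : ∃ c : ℝ, w = c • b := by
  have hne : (⟨b, hb⟩ : D) ≠ 0 := fun h => hb0 (congrArg Subtype.val h)
  obtain ⟨c, hc⟩ := (finrank_eq_one_iff_of_nonzero' (⟨b, hb⟩ : D) hne).1 hD ⟨w, hw⟩
  exact ⟨c, (congrArg Subtype.val hc).symm⟩

theorem motn_rank_one_exists {D : Submodule ℝ (Pt 3)} (hD : Module.finrank ℝ D = 1) :
    ∃ a ∈ D, a ≠ 0 := by
  have hne : D ≠ ⊥ := by
    rintro rfl
    simp at hD
  exact Submodule.exists_mem_ne_zero_of_ne_bot hne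

theorem motn_norm_sign {b w : Pt 3} {c : ℝ} (hw : w = c • b) (hn : ‖w‖ = ‖b‖) (hb0 : b ≠ 0) :
    w = b ∨ w = -b := by
  have hb : 0 < ‖b‖ := norm_pos_iff.2 hb0
  rw [hw, norm_smul, Real.norm_eq_abs] at hn
  have hc : |c| = 1 := by
    have : |c| * ‖b‖ = 1 * ‖b‖ := by rw [hn, one_mul]
    exact mul_right_cancel₀ hb.ne' this
  rcases (abs_eq (zero_le_one)).1 hc with h | h
  · left; rw [hw, h, one_smul]
  · right; rw [hw, h, neg_one_smul]

theorem motn_inf_zero {D₁ D₂ : Submodule ℝ (Pt 3)} (h1 : Module.finrank ℝ D₁ = 1)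
    (h2 : Module.finrank ℝ D₂ = 1) (hne : D₁ ≠ D₂) {v : Pt 3} (hv1 : v ∈ D₁) (hv2 : v ∈ D₂) : v = 0 := by
  by_contra hv
  apply hne
  have e : ∀ {D : Submodule ℝ (Pt 3)}, Module.finrank ℝ D = 1 → v ∈ D → D = Submodule.span ℝ {v} := by
    intro D hD hvD
    apply le_antisymm
    · intro w hw
      obtain ⟨c, rfl⟩ := motn_rank_one hD hvD hv hw
      exact Submodule.smul_mem _ _ (Submodule.mem_span_singleton_self v)
    · rw [Submodule.span_singleton_le_iff_mem]
      exact hvD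
  rw [e h1 hv1, e h2 hv2]

theorem motn_line_nonempty {L : AffineSubspace ℝ (Pt 3)} (h : stIsLine L) : ∃ p, p ∈ L := by
  by_contra hcon
  push Not at hcon
  have : L = ⊥ := by
    rw [← AffineSubspace.coe_eq_bot_iff]
    exact Set.eq_empty_of_forall_notMem hcon
  unfold stIsLine at h
  rw [this, AffineSubspace.direction_bot] at h
  simp at h

/-- difference of the images of two points -/
theorem motn_map_sub (g : Motion) (p q : Pt 3) : g.linearIsometryEquiv (p - q) = g p - g q :=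
  g.map_vsub p q

/-- **MOTN-3a** linear isometries which agree on two independent vectors: at most two
(`(span {a₁, a₂})ᗮ` has dimension one; `S⁻¹ S'` maps a generator `n` to `± n`; `a₁, a₂, n` span). -/
theorem motn_lin_two (a₁ a₂ : Pt 3) (hind : LinearIndependent ℝ ![a₁, a₂])
    (𝒮 : Finset (Pt 3 ≃ₗᵢ[ℝ] Pt 3))
    (h : ∀ S ∈ 𝒮, ∀ S' ∈ 𝒮, S a₁ = S' a₁ ∧ S a₂ = S' a₂) : 𝒮.card ≤ 2 := by
  rcases 𝒮.eq_empty_or_nonempty with rfl | ⟨S₀, hS₀⟩
  · simp
  set W := Submodule.span ℝ (Set.range ![a₁, a₂]) with hW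
  have hW2 : Module.finrank ℝ W = 2 := by
    rw [hW, finrank_span_eq_card hind]; simp
  have hW1 : Module.finrank ℝ Wᗮ = 1 := by
    have := Submodule.finrank_add_finrank_orthogonal W
    rw [hW2, finrank_euclideanSpace_fin] at this
    omega
  obtain ⟨n, hn, hn0⟩ := motn_rank_one_exists hW1
  -- agreement on `W`
  have hagree : ∀ S ∈ 𝒮, ∀ S' ∈ 𝒮, ∀ w ∈ W, S w = S' w := by
    intro S hS S' hS' w hw
    have : Set.EqOn (S.toLinearEquiv : Pt 3 →ₗ[ℝ] Pt 3) (S'.toLinearEquiv : Pt 3 →ₗ[ℝ] Pt 3)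
        (Set.range ![a₁, a₂]) := by
      rintro _ ⟨i, rfl⟩
      fin_cases i
      · exact (h S hS S' hS').1
      · exact (h S hS S' hS').2
    exact LinearMap.eqOn_span this hw
  -- sign
  have hsign : ∀ S ∈ 𝒮, S n = S₀ n ∨ S n = -S₀ n := by
    intro S hS
    have hmem : S₀.symm (S n) ∈ Wᗮ := by
      rw [Submodule.mem_orthogonal]
      intro w hw
      rw [real_inner_comm, LinearIsometryEquiv.inner_map_eq_flip, LinearIsometryEquiv.symm_symm,
        hagree S₀ hS₀ S hS w hw, LinearIsometryEquiv.inner_map_map, real_inner_comm]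
      exact (Submodule.mem_orthogonal _ _).1 hn w hw
    obtain ⟨c, hc⟩ := motn_rank_one hW1 hn hn0 hmem
    have hnorm : ‖S₀.symm (S n)‖ = ‖n‖ := by
      rw [LinearIsometryEquiv.norm_map, LinearIsometryEquiv.norm_map]
    rcases motn_norm_sign hc hnorm hn0 with e | e
    · left
      have := congrArg S₀ e
      rwa [LinearIsometryEquiv.apply_symm_apply] at this
    · right
      have := congrArg S₀ e
      rwa [LinearIsometryEquiv.apply_symm_apply, map_neg] at this
  -- injectivity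
  have hinj : Set.InjOn (fun S : Pt 3 ≃ₗᵢ[ℝ] Pt 3 => S n) (𝒮 : Set (Pt 3 ≃ₗᵢ[ℝ] Pt 3)) := by
    intro S hS S' hS' hSS
    ext1 x
    obtain ⟨y, hy, z, hz, rfl⟩ := W.exists_add_mem_mem_orthogonal x
    obtain ⟨c, rfl⟩ := motn_rank_one hW1 hn hn0 hz
    rw [map_add, map_add, map_smul, map_smul, hagree S hS S' hS' y hy]
    have : S n = S' n := hSS
    rw [this]
  rw [← Finset.card_image_of_injOn hinj]
  refine (Finset.card_le_card (t := {S₀ n, -S₀ n}) ?_).trans Finset.card_le_two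
  intro v hv
  obtain ⟨S, hS, rfl⟩ := Finset.mem_image.1 hv
  rw [Finset.mem_insert, Finset.mem_singleton]
  exact hsign S hS

/-- **MOTN-3b** the linear part maps a direction vector of `L` to `±` a given direction vector of the image with the same norm. -/
theorem motn_dir_sign (g : Motion) (L L' : AffineSubspace ℝ (Pt 3)) (hL' : stIsLine L')
    (h : motImg g L = L') (a b : Pt 3) (ha : a ∈ L.direction) (hb : b ∈ L'.direction)
    (hab : ‖a‖ = ‖b‖) (hb0 : b ≠ 0) :
    g.linearIsometryEquiv a = b ∨ g.linearIsometryEquiv a = -b := by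
  have hmem : g.linearIsometryEquiv a ∈ L'.direction := by
    rw [← h, motn_img_dir]
    exact Submodule.mem_map_of_mem ha
  obtain ⟨c, hc⟩ := motn_rank_one hL' hb hb0 hmem
  exact motn_norm_sign hc (by rw [LinearIsometryEquiv.norm_map, hab]) hb0

/-- the translation vector between two motions with the same linear part -/
theorem motn_trans_const (g g' : Motion) (hlin : g.linearIsometryEquiv = g'.linearIsometryEquiv)
    (p q : Pt 3) : g' q - g q = g' p - g p := by
  have h1 := motn_map_sub g q p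
  have h2 := motn_map_sub g' q p
  rw [hlin] at h1
  have h3 : g q - g p = g' q - g' p := h1.symm.trans h2
  have : g' q - g q = g' p - g p + ((g' q - g' p) - (g q - g p)) := by abel
  rw [this, h3, sub_self, add_zero]

/-- two motions with the same linear part and the same value at one point coincide -/
theorem motn_eq_of_lin_of_apply (g g' : Motion) (hlin : g.linearIsometryEquiv = g'.linearIsometryEquiv)
    (p : Pt 3) (hp : g p = g' p) : g = g' := by
  ext1 x
  have := motn_trans_const g g' hlin p x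
  rw [hp, sub_self, sub_eq_zero] at this
  exact this.symm

/-- **MOTN-3c** the translation part is determined by the images of two nonparallel lines. -/
theorem motn_trans_unique (g g' : Motion) (hlin : g.linearIsometryEquiv = g'.linearIsometryEquiv)
    (L₁ L₂ : AffineSubspace ℝ (Pt 3)) (h1 : stIsLine L₁) (h2 : stIsLine L₂)
    (hd : L₁.direction ≠ L₂.direction) (e1 : motImg g L₁ = motImg g' L₁)
    (e2 : motImg g L₂ = motImg g' L₂) : g = g' := by
  obtain ⟨p, hp⟩ := motn_line_nonempty h1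
  obtain ⟨q, hq⟩ := motn_line_nonempty h2
  have key : ∀ (L : AffineSubspace ℝ (Pt 3)) (x : Pt 3), x ∈ L → motImg g L = motImg g' L →
      ∃ d ∈ L.direction, g.linearIsometryEquiv d = g' x - g x := by
    intro L x hx e
    have m1 : g x ∈ motImg g L := (motn_apply_mem_img g L x).2 hx
    have m2 : g' x ∈ motImg g L := by rw [e]; exact (motn_apply_mem_img g' L x).2 hx
    have m3 : g' x - g x ∈ (motImg g L).direction := AffineSubspace.vsub_mem_direction m2 m1
    rw [motn_img_dir] at m3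
    obtain ⟨d, hd, hd2⟩ := Submodule.mem_map.1 m3
    exact ⟨d, hd, hd2⟩
  obtain ⟨d₁, hd₁, f₁⟩ := key L₁ p hp e1
  obtain ⟨d₂, hd₂, f₂⟩ := key L₂ q hq e2
  have hdd : d₁ = d₂ := by
    apply g.linearIsometryEquiv.injective
    rw [f₁, f₂]
    exact (motn_trans_const g g' hlin p q).symm
  have h0 : d₁ = 0 := motn_inf_zero h1 h2 hd hd₁ (hdd ▸ hd₂)
  rw [h0, map_zero] at f₁
  exact motn_eq_of_lin_of_apply g g' hlin p (sub_eq_zero.1 f₁.symm).symm

theorem motn_indep_of_dir {D₁ D₂ : Submodule ℝ (Pt 3)} (h1 : Module.finrank ℝ D₁ = 1)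
    (h2 : Module.finrank ℝ D₂ = 1) (hne : D₁ ≠ D₂) {a₁ a₂ : Pt 3} (ha₁ : a₁ ∈ D₁) (ha₂ : a₂ ∈ D₂)
    (h10 : a₁ ≠ 0) (h20 : a₂ ≠ 0) : LinearIndependent ℝ ![a₁, a₂] := by
  rw [LinearIndependent.pair_iff]
  intro s t hst
  have ht : t = 0 := by
    by_contra ht
    have e1 : t • a₂ = -(s • a₁) := by rw [eq_neg_iff_add_eq_zero, add_comm]; exact hst
    have e2 : a₂ = t⁻¹ • (-(s • a₁)) := by rw [← e1, smul_smul, inv_mul_cancel₀ ht, one_smul]
    have e3 : a₂ ∈ D₁ := by
      rw [e2]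
      exact D₁.smul_mem _ (D₁.neg_mem (D₁.smul_mem _ ha₁))
    exact h20 (motn_inf_zero h1 h2 hne e3 ha₂)
  subst ht
  rw [zero_smul, add_zero] at hst
  exact ⟨(smul_eq_zero.1 hst).resolve_right h10, rfl⟩

theorem motn_sign_agree {u u' b : Pt 3} (s : u = b ∨ u = -b) (s' : u' = b ∨ u' = -b)
    (h : (u = b) ↔ (u' = b)) : u = u' := by
  rcases s with s | s
  · rw [s, h.1 s]
  · rcases s' with s' | s'
    · rw [h.2 s', s']
    · rw [s, s']

/-- **MOTN-3d** contract A (glue: file header). -/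
theorem motn_lineA : MotLineAStmt := by
  intro L₁ L₂ L₁' L₂' h1 h2 hd 𝒢 h𝒢
  rcases 𝒢.eq_empty_or_nonempty with rfl | ⟨g₀, hg₀⟩
  · simp
  obtain ⟨a₁, ha₁, h10⟩ := motn_rank_one_exists h1
  obtain ⟨a₂, ha₂, h20⟩ := motn_rank_one_exists h2
  have hind := motn_indep_of_dir h1 h2 hd ha₁ ha₂ h10 h20
  have hL₁' : stIsLine L₁' := (h𝒢 g₀ hg₀).1 ▸ motn_img_line g₀ L₁ h1
  have hL₂' : stIsLine L₂' := (h𝒢 g₀ hg₀).2 ▸ motn_img_line g₀ L₂ h2
  have hb₁ : g₀.linearIsometryEquiv a₁ ∈ L₁'.direction := by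
    rw [← (h𝒢 g₀ hg₀).1, motn_img_dir]; exact Submodule.mem_map_of_mem ha₁
  have hb₂ : g₀.linearIsometryEquiv a₂ ∈ L₂'.direction := by
    rw [← (h𝒢 g₀ hg₀).2, motn_img_dir]; exact Submodule.mem_map_of_mem ha₂
  have hb10 : g₀.linearIsometryEquiv a₁ ≠ 0 := fun h => h10 (by simpa using h)
  have hb20 : g₀.linearIsometryEquiv a₂ ≠ 0 := fun h => h20 (by simpa using h)
  have hcard := Finset.card_le_mul_card_image (f := fun g : Motion =>
    (decide (g.linearIsometryEquiv a₁ = g₀.linearIsometryEquiv a₁),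
      decide (g.linearIsometryEquiv a₂ = g₀.linearIsometryEquiv a₂))) 𝒢 2 ?_
  · calc 𝒢.card ≤ 2 * _ := hcard
      _ ≤ 2 * 4 := Nat.mul_le_mul_left 2 ((Finset.card_le_univ _).trans (by simp))
  · intro β _
    have hinj : Set.InjOn (fun g : Motion => g.linearIsometryEquiv)
        ((𝒢.filter (fun g : Motion =>
          (decide (g.linearIsometryEquiv a₁ = g₀.linearIsometryEquiv a₁),
            decide (g.linearIsometryEquiv a₂ = g₀.linearIsometryEquiv a₂)) = β) : Finset Motion)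
          : Set Motion) := by
      intro g hg g' hg' hgg
      have m := (Finset.mem_filter.1 (Finset.mem_coe.1 hg)).1
      have m' := (Finset.mem_filter.1 (Finset.mem_coe.1 hg')).1
      exact motn_trans_unique g g' hgg L₁ L₂ h1 h2 hd ((h𝒢 g m).1.trans (h𝒢 g' m').1.symm)
        ((h𝒢 g m).2.trans (h𝒢 g' m').2.symm)
    rw [← Finset.card_image_of_injOn hinj]
    refine motn_lin_two a₁ a₂ hind _ ?_
    intro S hS S' hS'
    obtain ⟨g, hg, rfl⟩ := Finset.mem_image.1 hS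
    obtain ⟨g', hg', rfl⟩ := Finset.mem_image.1 hS'
    obtain ⟨m, e⟩ := Finset.mem_filter.1 hg
    obtain ⟨m', e'⟩ := Finset.mem_filter.1 hg'
    obtain ⟨ee1, ee2⟩ := Prod.mk.inj (e.trans e'.symm)
    exact ⟨motn_sign_agree
        (motn_dir_sign g L₁ L₁' hL₁' (h𝒢 g m).1 a₁ _ ha₁ hb₁ (by simp) hb10)
        (motn_dir_sign g' L₁ L₁' hL₁' (h𝒢 g' m').1 a₁ _ ha₁ hb₁ (by simp) hb10)
        (by simpa using ee1),
      motn_sign_agree
        (motn_dir_sign g L₂ L₂' hL₂' (h𝒢 g m).2 a₂ _ ha₂ hb₂ (by simp) hb20)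
        (motn_dir_sign g' L₂ L₂' hL₂' (h𝒢 g' m').2 a₂ _ ha₂ hb₂ (by simp) hb20)
        (by simpa using ee2)⟩

/-- **MOTN-4a** at most four linear parts in the parallel case. -/
theorem motn_par_linparts (L₁ L₂ L₁' L₂' : AffineSubspace ℝ (Pt 3)) (h1 : stIsLine L₁)
    (h2 : stIsLine L₂) (hne : L₁ ≠ L₂) (hd : L₁.direction = L₂.direction) (𝒢 : Finset Motion)
    (h : ∀ g ∈ 𝒢, motImg g L₁ = L₁' ∧ motImg g L₂ = L₂') :
    (𝒢.image (fun g => g.linearIsometryEquiv)).card ≤ 4 := by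
  rcases 𝒢.eq_empty_or_nonempty with rfl | ⟨g₀, hg₀⟩
  · simp
  obtain ⟨a, ha, ha0⟩ := motn_rank_one_exists h1
  obtain ⟨ρ, hρ, -, p, hp, p', hp', hdist, hperp⟩ := motn_sep_exists L₁ L₂ h1 h2 hne hd
  have hd0 : p' - p ≠ 0 := by
    intro h0
    rw [dist_comm, dist_eq_norm, h0, norm_zero] at hdist
    linarith
  have hind : LinearIndependent ℝ ![a, p' - p] := by
    rw [LinearIndependent.pair_iff]
    intro s t hst
    have e1 : inner ℝ a (p' - p) = 0 := hperp a ha
    have e2 : t * ‖p' - p‖ ^ 2 = 0 := by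
      have := congrArg (fun v => inner ℝ v (p' - p)) hst
      simp only [inner_add_left, real_inner_smul_left, inner_zero_left, e1,
        real_inner_self_eq_norm_sq, mul_zero, zero_add] at this
      exact this
    have ht : t = 0 := by
      rcases mul_eq_zero.1 e2 with h | h
      · exact h
      · exact absurd (norm_eq_zero.1 ((pow_eq_zero_iff two_ne_zero).1 h)) hd0
    subst ht
    rw [zero_smul, add_zero] at hst
    exact ⟨(smul_eq_zero.1 hst).resolve_right ha0, rfl⟩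
  have hL₁' : stIsLine L₁' := (h g₀ hg₀).1 ▸ motn_img_line g₀ L₁ h1
  have hb : g₀.linearIsometryEquiv a ∈ L₁'.direction := by
    rw [← (h g₀ hg₀).1, motn_img_dir]; exact Submodule.mem_map_of_mem ha
  have hb0 : g₀.linearIsometryEquiv a ≠ 0 := fun h => ha0 (by simpa using h)
  have orth : ∀ g ∈ 𝒢, ∀ v ∈ L₁'.direction, inner ℝ v (g.linearIsometryEquiv (p' - p)) = 0 := by
    intro g hg v hv
    rw [← (h g hg).1, motn_img_dir] at hv
    obtain ⟨w, hw, rfl⟩ := Submodule.mem_map.1 hv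
    show inner ℝ (g.linearIsometryEquiv w) (g.linearIsometryEquiv (p' - p)) = 0
    rw [LinearIsometryEquiv.inner_map_map]
    exact hperp w hw
  have hSd : ∀ g ∈ 𝒢, ∀ g' ∈ 𝒢,
      g.linearIsometryEquiv (p' - p) = g'.linearIsometryEquiv (p' - p) := by
    intro g hg g' hg'
    have hD' : L₂'.direction = L₁'.direction := by
      rw [← (h g hg).1, ← (h g hg).2, motn_img_dir_eq]; exact hd.symm
    have m1 : g p' - g' p' ∈ L₁'.direction := by
      rw [← hD']
      exact AffineSubspace.vsub_mem_direction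
        (by rw [← (h g hg).2]; exact (motn_apply_mem_img g L₂ p').2 hp')
        (by rw [← (h g' hg').2]; exact (motn_apply_mem_img g' L₂ p').2 hp')
    have m2 : g p - g' p ∈ L₁'.direction :=
      AffineSubspace.vsub_mem_direction
        (by rw [← (h g hg).1]; exact (motn_apply_mem_img g L₁ p).2 hp)
        (by rw [← (h g' hg').1]; exact (motn_apply_mem_img g' L₁ p).2 hp)
    have m3 : g.linearIsometryEquiv (p' - p) - g'.linearIsometryEquiv (p' - p) ∈ L₁'.direction := by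
      rw [motn_map_sub, motn_map_sub]
      have : g p' - g p - (g' p' - g' p) = (g p' - g' p') - (g p - g' p) := by abel
      rw [this]
      exact Submodule.sub_mem _ m1 m2
    have m4 : inner ℝ (g.linearIsometryEquiv (p' - p) - g'.linearIsometryEquiv (p' - p))
        (g.linearIsometryEquiv (p' - p) - g'.linearIsometryEquiv (p' - p)) = 0 := by
      rw [inner_sub_right, orth g hg _ m3, orth g' hg' _ m3, sub_zero]
    exact sub_eq_zero.1 (inner_self_eq_zero.1 m4)
  have hcard := Finset.card_le_mul_card_image (f := fun S : Pt 3 ≃ₗᵢ[ℝ] Pt 3 =>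
    decide (S a = g₀.linearIsometryEquiv a)) (𝒢.image (fun g => g.linearIsometryEquiv)) 2 ?_
  · calc _ ≤ 2 * _ := hcard
      _ ≤ 2 * 2 := Nat.mul_le_mul_left 2 ((Finset.card_le_univ _).trans (by simp))
  · intro β _
    refine motn_lin_two a (p' - p) hind _ ?_
    intro S hS S' hS'
    obtain ⟨hS1, e⟩ := Finset.mem_filter.1 hS
    obtain ⟨hS1', e'⟩ := Finset.mem_filter.1 hS'
    obtain ⟨g, hg, rfl⟩ := Finset.mem_image.1 hS1
    obtain ⟨g', hg', rfl⟩ := Finset.mem_image.1 hS1'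
    exact ⟨motn_sign_agree
        (motn_dir_sign g L₁ L₁' hL₁' (h g hg).1 a _ ha hb (by simp) hb0)
        (motn_dir_sign g' L₁ L₁' hL₁' (h g' hg').1 a _ ha hb (by simp) hb0)
        (by simpa using e.trans e'.symm), hSd g hg g' hg'⟩

/-- **MOTN-4b** fixed linear part: `(g, x) ↦ (x, g x)` is injective. -/
theorem motn_fixed_lin (X Y : Finset (Pt 3)) (L L' : AffineSubspace ℝ (Pt 3))
    (S : Pt 3 ≃ₗᵢ[ℝ] Pt 3) (𝒢 : Finset Motion)
    (h : ∀ g ∈ 𝒢, g.linearIsometryEquiv = S ∧ motImg g L = L') :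
    ∑ g ∈ 𝒢, motWt X Y g L
      ≤ (X.filter (fun x => x ∈ L)).card * (Y.filter (fun y => y ∈ L')).card := by
  unfold motWt
  rw [← Finset.card_sigma, ← Finset.card_product]
  refine Finset.card_le_card_of_injOn (fun q => (q.2, q.1 q.2)) ?_ ?_
  · rintro ⟨g, x⟩ hq
    rw [Finset.mem_coe, Finset.mem_sigma] at hq
    obtain ⟨hg, hx⟩ := hq
    obtain ⟨hx1, hxL⟩ := Finset.mem_filter.1 hx
    obtain ⟨hxX, hgY⟩ := Finset.mem_filter.1 hx1
    rw [Finset.mem_coe, Finset.mem_product]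
    exact ⟨Finset.mem_filter.2 ⟨hxX, hxL⟩, Finset.mem_filter.2 ⟨hgY, by
      rw [← (h g hg).2]; exact (motn_apply_mem_img g L x).2 hxL⟩⟩
  · rintro ⟨g, x⟩ hq ⟨g', x'⟩ hq' he
    obtain ⟨he1, he2⟩ := Prod.mk.inj he
    have he1' : x = x' := he1
    subst he1'
    have hg := (Finset.mem_sigma.1 (Finset.mem_coe.1 hq)).1
    have hg' := (Finset.mem_sigma.1 (Finset.mem_coe.1 hq')).1
    have : g = g' := motn_eq_of_lin_of_apply g g' ((h g hg).1.trans (h g' hg').1.symm) x he2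
    subst this
    rfl

/-- **MOTN-4c** contract B (glue: file header). -/
theorem motn_lineB : MotLineBStmt := by
  intro X Y H L₁ L₂ L₁' L₂' h1 h2 hne hd hX hY 𝒢 h𝒢
  have hH : 0 ≤ H := by
    simpa using hX ∅ (Finset.empty_subset _) (by simpa using collinear_empty ℝ (Pt 3))
  rcases 𝒢.eq_empty_or_nonempty with rfl | ⟨g₀, hg₀⟩
  · simp only [Finset.sum_empty]; positivity
  have hL₁' : stIsLine L₁' := (h𝒢 g₀ hg₀).1 ▸ motn_img_line g₀ L₁ h1
  have c1 : ((X.filter (fun x => x ∈ L₁)).card : ℝ) ≤ H := (motn_cap_line X Y H hX L₁ h1).1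
  have c2 : ((Y.filter (fun x => x ∈ L₁')).card : ℝ) ≤ H := (motn_cap_line Y X H hY L₁' hL₁').1
  have w2 : ∀ g : Motion, (motWt X Y g L₂ : ℝ) ≤ H := (motn_cap_line X Y H hX L₂ h2).2
  have s1 : ∑ g ∈ 𝒢, (motWt X Y g L₁ : ℝ) * (motWt X Y g L₂ : ℝ)
      ≤ (∑ g ∈ 𝒢, (motWt X Y g L₁ : ℝ)) * H := by
    rw [Finset.sum_mul]
    exact Finset.sum_le_sum fun g _ => mul_le_mul_of_nonneg_left (w2 g) (Nat.cast_nonneg _)
  have s2 : ∑ g ∈ 𝒢, (motWt X Y g L₁ : ℝ) ≤ 4 * (H * H) := by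
    rw [← Finset.sum_fiberwise_of_maps_to (t := 𝒢.image (fun g => g.linearIsometryEquiv))
      (g := fun g : Motion => g.linearIsometryEquiv) (fun g hg => Finset.mem_image_of_mem _ hg)]
    calc _ ≤ ∑ _S ∈ 𝒢.image (fun g => g.linearIsometryEquiv), H * H :=
          Finset.sum_le_sum fun S _ => ?_
      _ = ((𝒢.image (fun g => g.linearIsometryEquiv)).card : ℝ) * (H * H) := by
          rw [Finset.sum_const, nsmul_eq_mul]
      _ ≤ 4 * (H * H) := by
          refine mul_le_mul_of_nonneg_right ?_ (mul_nonneg hH hH)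
          exact_mod_cast motn_par_linparts L₁ L₂ L₁' L₂' h1 h2 hne hd 𝒢 h𝒢
    have := motn_fixed_lin X Y L₁ L₁' S (𝒢.filter (fun g => g.linearIsometryEquiv = S))
      (fun g hg => ⟨(Finset.mem_filter.1 hg).2, (h𝒢 g (Finset.mem_filter.1 hg).1).1⟩)
    have h3 : (∑ g ∈ 𝒢.filter (fun g => g.linearIsometryEquiv = S), (motWt X Y g L₁ : ℝ))
        ≤ ((X.filter (fun x => x ∈ L₁)).card : ℝ) * ((Y.filter (fun x => x ∈ L₁')).card : ℝ) := by
      exact_mod_cast this
    exact h3.trans (mul_le_mul c1 c2 (Nat.cast_nonneg _) hH)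
  calc _ ≤ _ := s1
    _ ≤ 4 * (H * H) * H := mul_le_mul_of_nonneg_right s2 hH
    _ = 4 * H ^ 3 := by ring

end Claimed.Agent.R273
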