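-- KEEP
import Claimed.Agent.R273.MotTop

/-!
# Row 273, S7, MOT-PART (motions.tex l.545-698, `mot:partition`).  Architect helper71.

Export: theorem `motp_partition : MotPartStmt` (contract of `MotTop.lean`; file `MotPartB.lean`).

## Route (simpler than the paper: no chains, no runs; constants 16 r regions, N / r points)
* abstract `≤ 8`-ary tree of sets `MotpTree`; regions = `Q v` or `Q v \ Q w`, `w` a strict descendant of `v`.
  Recursion `motp_rec` on the remaining depth `k`, with a pair (top, cur): `cur` heavy (more than `μ` points),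
  `top \ cur` has at most `μ` points.  Look at the heavy children of `cur`:
  - exactly one, `C`, and `top \ C` still has `≤ μ` points: recurse with (top, C);
  - otherwise output `top \ cur` (if `top ≠ cur`), the light children of `cur`, and recurse with (C, C) for the heavy children.
  Count `T ≤ 16 n(top)/μ - 7`:  h = 0: `9 ≤ 16 - 7`;  h = 1: `n(C) < n(top) - μ`, `8 + 16 n(C)/μ - 7`;
  h ≥ 2: `1 + (8 - h) + 16 n/μ - 7 h`.
* concrete tree `motpDy o S0` of half-open dyadic cubes `o + [a, a+1) S0 / 2^j`.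
* thickness `MotpThick R S` (paper (mot:thickness), constants 2 instead of √3) by REAL boxes, no dyadic subcube:
  hole of side `S' ≤ s/4`: (box of side `s/2` around `x`) minus the hole; `S' > s/4`: a box of side `s/4` on one side
  of the hole in a coordinate which separates `x` from the hole (alignment: the gap is a positive multiple of `S'`).
* packing `motp_pack_one` (volume of `closedBall x0 (4 s)`), `motp_pack` (charge to the smaller side; no measure is moved
  by `g`: use `g` for one half and `g.symm` for the other).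
-/

set_option autoImplicit false

namespace Claimed.Agent.R273

open scoped Classical
open MeasureTheory

/-! ## 1. The abstract tree recursion -/

/-- number of points of `X` in `R`. -/
noncomputable def motpCnt {α : Type} (X : Finset α) (R : Set α) : ℕ := (X.filter (fun x => x ∈ R)).card

/-- an abstract `≤ 8`-ary tree of sets: every `Q v` is the disjoint union of the `Q w`, `w` a child of `v`. -/
structure MotpTree (α ν : Type) where
  Q : ν → Set α
  ch : ν → Finset ν
  card_ch : ∀ v, (ch v).card ≤ 8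
  union : ∀ v, Q v = ⋃ w ∈ ch v, Q w
  disj : ∀ v, ∀ w ∈ ch v, ∀ w' ∈ ch v, w ≠ w' → Disjoint (Q w) (Q w')

namespace MotpTree

variable {α ν : Type} (T : MotpTree α ν)

/-- `w` is a strict descendant of `v`. -/
def Strict : ν → ν → Prop := Relation.TransGen (fun v w => w ∈ T.ch v)

/-- the region of a code: a cube, or a cube minus a cube. -/
def reg : ν × Option ν → Set α
  | (v, none) => T.Q v
  | (v, some w) => T.Q v \ T.Q w

/-- all descendants of `v` at depth `k` are light. -/
def LightAt (X : Finset α) (μ : ℝ) : ℕ → ν → Prop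
  | 0, v => (motpCnt X (T.Q v) : ℝ) ≤ μ
  | k + 1, v => ∀ w ∈ T.ch v, LightAt X μ k w

/-- `𝓡` is a partition of `Q top` into regions with at most `μ` points. -/
structure Good (X : Finset α) (μ : ℝ) (top : ν) (𝓡 : Finset (ν × Option ν)) : Prop where
  strict : ∀ v w, (v, some w) ∈ 𝓡 → T.Strict v w
  cover : (⋃ c ∈ 𝓡, T.reg c) = T.Q top
  disj : ∀ c ∈ 𝓡, ∀ c' ∈ 𝓡, c ≠ c' → Disjoint (T.reg c) (T.reg c')
  mass : ∀ c ∈ 𝓡, (motpCnt X (T.reg c) : ℝ) ≤ μ

end MotpTree

/-- **MOTP-1a** descendants are subsets; the count is additive over the children. -/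
theorem motp_tree_basic {α ν : Type} (T : MotpTree α ν) (X : Finset α) :
    (∀ v w, T.Strict v w → T.Q w ⊆ T.Q v) ∧
    (∀ v, motpCnt X (T.Q v) = ∑ w ∈ T.ch v, motpCnt X (T.Q w)) ∧
    (∀ A B : Set α, B ⊆ A → motpCnt X A = motpCnt X (A \ B) + motpCnt X B) := by
  have hch : ∀ v w, w ∈ T.ch v → T.Q w ⊆ T.Q v := by
    intro v w hw
    rw [T.union v]
    exact Set.subset_biUnion_of_mem (u := fun w => T.Q w) hw
  refine ⟨?_, ?_, ?_⟩
  · intro v w h
    induction h with
    | single h => exact hch _ _ h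
    | tail _ h ih => exact (hch _ _ h).trans ih
  · intro v
    unfold motpCnt
    rw [← Finset.card_biUnion]
    · congr 1
      ext x
      simp only [Finset.mem_filter, Finset.mem_biUnion]
      rw [T.union v]
      simp only [Set.mem_iUnion, exists_prop]
      constructor
      · rintro ⟨hx, w, hw, hxw⟩; exact ⟨w, hw, hx, hxw⟩
      · rintro ⟨w, hw, hx, hxw⟩; exact ⟨hx, w, hw, hxw⟩
    · intro w hw w' hw' hne
      show Disjoint (X.filter fun x => x ∈ T.Q w) (X.filter fun x => x ∈ T.Q w')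
      rw [Finset.disjoint_left]
      intro x hx hx'
      exact Set.disjoint_left.1 (T.disj v w hw w' hw' hne) (Finset.mem_filter.1 hx).2
        (Finset.mem_filter.1 hx').2
  · intro A B hBA
    unfold motpCnt
    rw [← Finset.card_union_of_disjoint]
    · congr 1
      ext x
      simp only [Finset.mem_filter, Finset.mem_union, Set.mem_sdiff]
      constructor
      · rintro ⟨hx, hA⟩
        by_cases hB : x ∈ B
        · exact Or.inr ⟨hx, hB⟩
        · exact Or.inl ⟨hx, hA, hB⟩
      · rintro (⟨hx, hA, -⟩ | ⟨hx, hB⟩)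
        · exact ⟨hx, hA⟩
        · exact ⟨hx, hBA hB⟩
    · rw [Finset.disjoint_left]
      intro x hx hx'
      simp only [Finset.mem_filter, Set.mem_sdiff] at hx hx'
      exact hx.2.2 hx'.2

/-- a member of a good partition lies in the top set -/
theorem MotpTree.Good.reg_subset {α ν : Type} {T : MotpTree α ν} {X : Finset α} {μ : ℝ} {top : ν}
    {𝓡 : Finset (ν × Option ν)} (h : T.Good X μ top 𝓡) {c : ν × Option ν} (hc : c ∈ 𝓡) :
    T.reg c ⊆ T.Q top := by
  rw [← h.cover]
  exact Set.subset_biUnion_of_mem (u := fun c => T.reg c) hc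

/-- good partitions of all the children give a good partition -/
theorem motp_assemble_children {α ν : Type} (T : MotpTree α ν) (X : Finset α) (μ : ℝ) (cur : ν)
    (𝓡 : ν → Finset (ν × Option ν)) (h𝓡 : ∀ w ∈ T.ch cur, T.Good X μ w (𝓡 w)) :
    T.Good X μ cur ((T.ch cur).biUnion 𝓡) := by
  refine ⟨?_, ?_, ?_, ?_⟩
  · intro v w h
    obtain ⟨a, ha, hc⟩ := Finset.mem_biUnion.1 h
    exact (h𝓡 a ha).strict v w hc
  · rw [T.union cur]
    ext x
    simp only [Set.mem_iUnion, Finset.mem_biUnion, exists_prop]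
    constructor
    · rintro ⟨c, ⟨a, ha, hc⟩, hx⟩
      exact ⟨a, ha, (h𝓡 a ha).reg_subset hc hx⟩
    · rintro ⟨a, ha, hx⟩
      rw [← (h𝓡 a ha).cover] at hx
      simp only [Set.mem_iUnion, exists_prop] at hx
      obtain ⟨c, hc, hx⟩ := hx
      exact ⟨c, ⟨a, ha, hc⟩, hx⟩
  · intro c hc c' hc' hne
    obtain ⟨a, ha, hca⟩ := Finset.mem_biUnion.1 hc
    obtain ⟨a', ha', hca'⟩ := Finset.mem_biUnion.1 hc'
    by_cases haa : a = a'
    · subst haa
      exact (h𝓡 a ha).disj c hca c' hca' hne
    · exact (T.disj cur a ha a' ha' haa).mono ((h𝓡 a ha).reg_subset hca)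
        ((h𝓡 a' ha').reg_subset hca')
  · intro c hc
    obtain ⟨a, ha, hca⟩ := Finset.mem_biUnion.1 hc
    exact (h𝓡 a ha).mass c hca

/-- **MOTP-1b** assembling: good partitions of all the children of `cur`, together with `top \ cur`. -/
theorem motp_assemble {α ν : Type} (T : MotpTree α ν) (X : Finset α) (μ : ℝ) (top cur : ν)
    (hd : top = cur ∨ T.Strict top cur) (hloss : (motpCnt X (T.Q top \ T.Q cur) : ℝ) ≤ μ)
    (𝓡 : ν → Finset (ν × Option ν)) (h𝓡 : ∀ w ∈ T.ch cur, T.Good X μ w (𝓡 w)) :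
    ∃ 𝓢, T.Good X μ top 𝓢 ∧ 𝓢.card ≤ 1 + ∑ w ∈ T.ch cur, (𝓡 w).card := by
  have hU := motp_assemble_children T X μ cur 𝓡 h𝓡
  have hcard : ((T.ch cur).biUnion 𝓡).card ≤ ∑ w ∈ T.ch cur, (𝓡 w).card := Finset.card_biUnion_le
  rcases hd with rfl | hd
  · exact ⟨_, hU, hcard.trans (Nat.le_add_left _ _)⟩
  · have hsub : T.Q cur ⊆ T.Q top := (motp_tree_basic T X).1 _ _ hd
    refine ⟨insert (top, some cur) ((T.ch cur).biUnion 𝓡), ⟨?_, ?_, ?_, ?_⟩, ?_⟩
    · intro v w h
      rcases Finset.mem_insert.1 h with h | h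
      · obtain ⟨rfl, h2⟩ := Prod.mk.inj h
        obtain rfl := Option.some.inj h2
        exact hd
      · exact hU.strict v w h
    · rw [Finset.set_biUnion_insert, hU.cover]
      show T.Q top \ T.Q cur ∪ T.Q cur = T.Q top
      rw [Set.sdiff_union_self, Set.union_eq_left.2 hsub]
    · have key : ∀ c ∈ (T.ch cur).biUnion 𝓡, Disjoint (T.reg (top, some cur)) (T.reg c) := by
        intro c hc
        exact (Set.disjoint_sdiff_left (s := T.Q cur) (t := T.Q top)).mono_right (hU.reg_subset hc)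
      intro c hc c' hc' hne
      rcases Finset.mem_insert.1 hc with rfl | hc
      · rcases Finset.mem_insert.1 hc' with rfl | hc'
        · exact absurd rfl hne
        · exact key c' hc'
      · rcases Finset.mem_insert.1 hc' with rfl | hc'
        · exact (key c hc).symm
        · exact hU.disj c hc c' hc' hne
    · intro c hc
      rcases Finset.mem_insert.1 hc with rfl | hc
      · exact hloss
      · exact hU.mass c hc
    · refine (Finset.card_insert_le _ _).trans ?_
      omega

/-- **MOTP-1c** the recursion (see the file header for the case distinction and the count). -/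
theorem motp_rec {α ν : Type} (T : MotpTree α ν) (X : Finset α) (μ : ℝ) (hμ : 0 < μ) (k : ℕ) :
    ∀ top cur : ν, (top = cur ∨ T.Strict top cur) → μ < (motpCnt X (T.Q cur) : ℝ) →
      (motpCnt X (T.Q top \ T.Q cur) : ℝ) ≤ μ → T.LightAt X μ k cur →
      ∃ 𝓡, T.Good X μ top 𝓡 ∧ (𝓡.card : ℝ) ≤ 16 * (motpCnt X (T.Q top) : ℝ) / μ - 7 := by
  obtain ⟨hsub, hsum, hdiff⟩ := motp_tree_basic T X
  induction k with
  | zero =>
    intro top cur _ hheavy _ hl
    exact absurd hl (not_le.2 hheavy)
  | succ k ih =>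
    intro top cur hd hheavy hloss hl
    have hl' : ∀ w ∈ T.ch cur, T.LightAt X μ k w := hl
    have hct : T.Q cur ⊆ T.Q top := by
      rcases hd with rfl | hd
      · exact le_rfl
      · exact hsub _ _ hd
    have hstr : ∀ C ∈ T.ch cur, T.Strict top C := by
      intro C hC
      rcases hd with rfl | hd
      · exact Relation.TransGen.single hC
      · exact Relation.TransGen.tail hd hC
    set Hv := (T.ch cur).filter (fun w => μ < (motpCnt X (T.Q w) : ℝ)) with hHv
    by_cases hA : ∃ C, Hv = {C} ∧ (motpCnt X (T.Q top \ T.Q C) : ℝ) ≤ μ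
    · obtain ⟨C, hC, hCl⟩ := hA
      have hCm : C ∈ Hv := by rw [hC]; exact Finset.mem_singleton_self C
      rw [hHv, Finset.mem_filter] at hCm
      exact ih top C (Or.inr (hstr C hCm.1)) hCm.2 hCl (hl' C hCm.1)
    · have hex : ∀ w, ∃ 𝓡w : Finset (ν × Option ν), w ∈ T.ch cur → (T.Good X μ w 𝓡w ∧
          (𝓡w.card : ℝ) ≤ if μ < (motpCnt X (T.Q w) : ℝ)
            then 16 * (motpCnt X (T.Q w) : ℝ) / μ - 7 else 1) := by
        intro w
        by_cases hw : w ∈ T.ch cur
        · by_cases hh : μ < (motpCnt X (T.Q w) : ℝ)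
          · obtain ⟨𝓡w, h1, h2⟩ := ih w w (Or.inl rfl) hh (by simp [motpCnt]; exact hμ.le)
              (hl' w hw)
            exact ⟨𝓡w, fun _ => ⟨h1, by rw [if_pos hh]; exact h2⟩⟩
          · refine ⟨{(w, none)}, fun _ => ⟨⟨?_, ?_, ?_, ?_⟩, ?_⟩⟩
            · intro v w' h
              simp at h
            · simp [MotpTree.reg]
            · intro c hc c' hc' hne
              rw [Finset.mem_singleton] at hc hc'
              exact absurd (hc.trans hc'.symm) hne
            · intro c hc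
              rw [Finset.mem_singleton] at hc
              subst hc
              exact not_lt.1 hh
            · rw [if_neg hh]; simp
        · exact ⟨∅, fun h => absurd h hw⟩
      choose 𝓡 h𝓡 using hex
      obtain ⟨𝓢, hS, hcard⟩ := motp_assemble T X μ top cur hd hloss 𝓡 (fun w hw => (h𝓡 w hw).1)
      refine ⟨𝓢, hS, ?_⟩
      have h1 : (𝓢.card : ℝ) ≤ 1 + ∑ w ∈ T.ch cur, ((𝓡 w).card : ℝ) := by exact_mod_cast hcard
      have h2 : ∑ w ∈ T.ch cur, ((𝓡 w).card : ℝ) ≤ ∑ w ∈ T.ch cur,
          (if μ < (motpCnt X (T.Q w) : ℝ) then 16 * (motpCnt X (T.Q w) : ℝ) / μ - 7 else 1) :=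
        Finset.sum_le_sum fun w hw => (h𝓡 w hw).2
      have h3 : ∑ w ∈ T.ch cur,
          (if μ < (motpCnt X (T.Q w) : ℝ) then 16 * (motpCnt X (T.Q w) : ℝ) / μ - 7 else (1 : ℝ))
          = ∑ w ∈ Hv, (16 * (motpCnt X (T.Q w) : ℝ) / μ - 7)
            + (((T.ch cur).filter (fun w => ¬ μ < (motpCnt X (T.Q w) : ℝ))).card : ℝ) := by
        rw [Finset.sum_ite, Finset.sum_const, nsmul_eq_mul, mul_one]
      have h4 : (Hv.card : ℝ)
          + (((T.ch cur).filter (fun w => ¬ μ < (motpCnt X (T.Q w) : ℝ))).card : ℝ)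
          = ((T.ch cur).card : ℝ) := by
        exact_mod_cast Finset.card_filter_add_card_filter_not (s := T.ch cur)
          (fun w => μ < (motpCnt X (T.Q w) : ℝ))
      have h5 : ((T.ch cur).card : ℝ) ≤ 8 := by exact_mod_cast T.card_ch cur
      have h6 : ∑ w ∈ Hv, (16 * (motpCnt X (T.Q w) : ℝ) / μ - 7)
          = 16 * (∑ w ∈ Hv, (motpCnt X (T.Q w) : ℝ)) / μ - 7 * Hv.card := by
        rw [Finset.sum_sub_distrib, Finset.mul_sum, Finset.sum_div]
        simp
        ring
      have h7 : ∑ w ∈ Hv, (motpCnt X (T.Q w) : ℝ) ≤ (motpCnt X (T.Q cur) : ℝ) := by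
        rw [hsum cur]
        push_cast
        exact Finset.sum_le_sum_of_subset_of_nonneg (Finset.filter_subset _ _)
          (fun _ _ _ => Nat.cast_nonneg _)
      have h8 : (motpCnt X (T.Q cur) : ℝ) ≤ (motpCnt X (T.Q top) : ℝ) := by
        have := hdiff _ _ hct
        exact_mod_cast (by omega : motpCnt X (T.Q cur) ≤ motpCnt X (T.Q top))
      have h9 : 16 * (∑ w ∈ Hv, (motpCnt X (T.Q w) : ℝ)) / μ
          ≤ 16 * (motpCnt X (T.Q top) : ℝ) / μ :=
        div_le_div_of_nonneg_right (by linarith) hμ.le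
      have h10 : 16 ≤ 16 * (motpCnt X (T.Q top) : ℝ) / μ := by
        rw [le_div_iff₀ hμ]; linarith
      rcases Nat.lt_or_ge Hv.card 2 with hlt | hge
      · rcases Nat.lt_or_ge Hv.card 1 with hlt0 | hge1
        · have h0 : Hv = ∅ := Finset.card_eq_zero.1 (by omega)
          rw [h0] at h6 h4
          simp only [Finset.sum_empty, Finset.card_empty, Nat.cast_zero] at h6 h4
          rw [h0, Finset.sum_empty] at h3
          linarith
        · obtain ⟨C, hC⟩ := Finset.card_eq_one.1 (by omega : Hv.card = 1)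
          have hCm : C ∈ Hv := by rw [hC]; exact Finset.mem_singleton_self C
          rw [hHv, Finset.mem_filter] at hCm
          have hCl : μ < (motpCnt X (T.Q top \ T.Q C) : ℝ) := by
            by_contra hcon
            exact hA ⟨C, hC, not_lt.1 hcon⟩
          have hCt : T.Q C ⊆ T.Q top := hsub _ _ (hstr C hCm.1)
          have e1 : (motpCnt X (T.Q top) : ℝ)
              = (motpCnt X (T.Q top \ T.Q C) : ℝ) + (motpCnt X (T.Q C) : ℝ) := by
            exact_mod_cast hdiff _ _ hCt
          have e2 : 16 * (motpCnt X (T.Q C) : ℝ) / μ + 16 ≤ 16 * (motpCnt X (T.Q top) : ℝ) / μ := by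
            rw [e1, mul_add, add_div]
            have : 16 ≤ 16 * (motpCnt X (T.Q top \ T.Q C) : ℝ) / μ := by
              rw [le_div_iff₀ hμ]; linarith
            linarith
          rw [hC] at h6 h4
          simp only [Finset.sum_singleton, Finset.card_singleton, Nat.cast_one] at h6 h4
          rw [hC, Finset.sum_singleton] at h3
          linarith
      · have hge' : (2 : ℝ) ≤ Hv.card := by exact_mod_cast hge
        linarith

/-- the partition of the root. -/
theorem motp_tree_partition {α ν : Type} (T : MotpTree α ν) (X : Finset α) (μ : ℝ) (hμ : 0 < μ) (k : ℕ)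
    (v0 : ν) (hl : T.LightAt X μ k v0) :
    ∃ 𝓡, T.Good X μ v0 𝓡 ∧ (𝓡.card : ℝ) ≤ max 1 (16 * (motpCnt X (T.Q v0) : ℝ) / μ) := by
  by_cases hh : (motpCnt X (T.Q v0) : ℝ) ≤ μ
  · refine ⟨{(v0, none)}, ⟨?_, ?_, ?_, ?_⟩, ?_⟩
    · intro v w h
      simp at h
    · simp [MotpTree.reg]
    · intro c hc c' hc' hne
      rw [Finset.mem_singleton] at hc hc'
      exact absurd (hc.trans hc'.symm) hne
    · intro c hc
      rw [Finset.mem_singleton] at hc
      subst hc
      exact hh
    · simp
  · obtain ⟨𝓡, h1, h2⟩ := motp_rec T X μ hμ k v0 v0 (Or.inl rfl) (not_le.1 hh)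
      (by simp [motpCnt]; exact hμ.le) hl
    exact ⟨𝓡, h1, le_max_of_le_right (by linarith)⟩

/-! ## 2. Boxes, thickness, packing -/

/-- half-open box `∏ [l i, l i + S)`. -/
def motpBox (l : Fin 3 → ℝ) (S : ℝ) : Set (Pt 3) := {x | ∀ i, l i ≤ x i ∧ x i < l i + S}

/-- thickness at all scales `≤ S` (paper: (mot:thickness)), and diameter `≤ 2 S`. -/
def MotpThick (R : Set (Pt 3)) (S : ℝ) : Prop :=
  0 < S ∧ (∀ x ∈ R, ∀ y ∈ R, dist x y ≤ 2 * S) ∧
  ∀ x ∈ R, ∀ s : ℝ, 0 < s → s ≤ S → ∃ E : Set (Pt 3), MeasurableSet E ∧ E ⊆ R ∧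
    E ⊆ Metric.closedBall x (2 * s) ∧ ENNReal.ofReal ((s / 4) ^ 3) ≤ volume E

theorem motp_box_eq_preimage (c : Fin 3 → ℝ) (τ : ℝ) :
    motpBox c τ = (WithLp.ofLp : Pt 3 → (Fin 3 → ℝ)) ⁻¹'
      (Set.univ.pi fun i => Set.Ico (c i) (c i + τ)) := by
  ext x
  simp [motpBox, Set.mem_pi]

/-- **MOTP-2a** boxes: measurable, volume `τ³`, diameter `≤ 2 τ`
(`EuclideanSpace.volume_preserving_measurableEquiv`, `Real.volume_pi_Ico`; `EuclideanSpace.dist_eq`, `Fin.sum_univ_three`). -/
theorem motp_box_basic (c : Fin 3 → ℝ) (τ : ℝ) (hτ : 0 < τ) :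
    MeasurableSet (motpBox c τ) ∧ volume (motpBox c τ) = ENNReal.ofReal (τ ^ 3) ∧
    ∀ x ∈ motpBox c τ, ∀ y ∈ motpBox c τ, dist x y ≤ 2 * τ := by
  have hm : MeasurableSet (Set.univ.pi fun i : Fin 3 => Set.Ico (c i) (c i + τ)) :=
    MeasurableSet.univ_pi fun i => measurableSet_Ico
  refine ⟨?_, ?_, ?_⟩
  · rw [motp_box_eq_preimage]
    exact (PiLp.volume_preserving_ofLp (Fin 3)).measurable hm
  · rw [motp_box_eq_preimage, (PiLp.volume_preserving_ofLp (Fin 3)).measure_preimage hm.nullMeasurableSet,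
      Real.volume_pi_Ico]
    simp only [add_sub_cancel_left, Finset.prod_const, Finset.card_univ, Fintype.card_fin]
    rw [ENNReal.ofReal_pow hτ.le]
  · intro x hx y hy
    rw [EuclideanSpace.dist_eq, Fin.sum_univ_three]
    have h : ∀ i, dist (x i) (y i) ^ 2 ≤ τ ^ 2 := by
      intro i
      rw [Real.dist_eq, sq_abs]
      have h1 := hx i
      have h2 := hy i
      nlinarith
    refine Real.sqrt_le_iff.2 ⟨by positivity, ?_⟩
    nlinarith [h 0, h 1, h 2, sq_nonneg τ]

/-- **MOTP-2b** a sub-box of side `τ` containing `x` inside `∏ [α k, β k)`: `c k = min (x k) (β k - τ)`. -/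
theorem motp_subbox (α β : Fin 3 → ℝ) (x : Pt 3) (τ : ℝ) (hτ : 0 < τ)
    (hx : ∀ k, α k ≤ x k ∧ x k < β k) (hlen : ∀ k, τ ≤ β k - α k) :
    ∃ c : Fin 3 → ℝ, x ∈ motpBox c τ ∧ ∀ y ∈ motpBox c τ, ∀ k, α k ≤ y k ∧ y k < β k := by
  refine ⟨fun k => min (x k) (β k - τ), fun k => ⟨min_le_left _ _, ?_⟩, fun y hy k => ⟨?_, ?_⟩⟩
  · rcases min_choice (x k) (β k - τ) with h | h
    · show x k < min (x k) (β k - τ) + τ
      rw [h]; linarith
    · show x k < min (x k) (β k - τ) + τ
      rw [h]; linarith [(hx k).2]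
  · refine le_trans (le_min (hx k).1 ?_) (hy k).1
    linarith [hlen k]
  · have := (hy k).2
    have h2 : min (x k) (β k - τ) ≤ β k - τ := min_le_right _ _
    linarith

/-- a box of side `τ ≤ s` through `x` lies in the ball -/
theorem motp_box_subset_ball {c : Fin 3 → ℝ} {τ s : ℝ} (hτ : 0 < τ) (hs : τ ≤ s) {x : Pt 3}
    (hx : x ∈ motpBox c τ) : motpBox c τ ⊆ Metric.closedBall x (2 * s) := by
  intro y hy
  rw [Metric.mem_closedBall]
  exact ((motp_box_basic c τ hτ).2.2 y hy x hx).trans (by linarith)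

/-- **MOTP-2c** a cube is thick. -/
theorem motp_thick_box (l : Fin 3 → ℝ) (S : ℝ) (hS : 0 < S) : MotpThick (motpBox l S) S := by
  refine ⟨hS, (motp_box_basic l S hS).2.2, ?_⟩
  intro x hx s hs hsS
  obtain ⟨c, hxc, hc⟩ := motp_subbox l (fun k => l k + S) x s hs hx (fun k => by linarith)
  refine ⟨motpBox c s, (motp_box_basic c s hs).1, fun y hy => hc y hy,
    motp_box_subset_ball hs le_rfl hxc, ?_⟩
  rw [(motp_box_basic c s hs).2.1]
  refine ENNReal.ofReal_le_ofReal ?_
  exact pow_le_pow_left₀ (by positivity) (by linarith) 3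

/-- **MOTP-2d** a cube minus an aligned smaller cube is thick (two cases `S' ≤ s/4`, `s/4 < S'`: file header). -/
theorem motp_thick_hole (l l' : Fin 3 → ℝ) (S S' : ℝ) (hS : 0 < S) (hS' : 0 < S')
    (hal : ∀ i, (l' i = l i ∨ l i + S' ≤ l' i) ∧ (l' i + S' = l i + S ∨ l' i + 2 * S' ≤ l i + S)) :
    MotpThick (motpBox l S \ motpBox l' S') S := by
  refine ⟨hS, fun x hx y hy => (motp_box_basic l S hS).2.2 x hx.1 y hy.1, ?_⟩
  intro x hx s hs hsS
  rcases le_or_gt S' (s / 4) with hc | hc
  · -- small hole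
    obtain ⟨c, hxc, hcb⟩ := motp_subbox l (fun k => l k + S) x (s / 2) (by positivity) hx.1
      (fun k => by linarith)
    have hb := motp_box_basic c (s / 2) (by positivity)
    have hh := motp_box_basic l' S' hS'
    refine ⟨motpBox c (s / 2) \ motpBox l' S', hb.1.diff hh.1,
      fun y hy => ⟨fun k => hcb y hy.1 k, hy.2⟩,
      fun y hy => motp_box_subset_ball (by positivity) (by linarith) hxc hy.1, ?_⟩
    refine le_trans ?_ (le_measure_sdiff (μ := volume))
    rw [hb.2.1, hh.2.1, ← ENNReal.ofReal_sub _ (by positivity)]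
    refine ENNReal.ofReal_le_ofReal ?_
    have h1 : S' ^ 3 ≤ (s / 4) ^ 3 := pow_le_pow_left₀ hS'.le hc 3
    have h2 : 0 < s ^ 3 := by positivity
    nlinarith
  · -- large hole: a separating coordinate
    have hx2 : ¬ ∀ i, l' i ≤ x i ∧ x i < l' i + S' := hx.2
    push Not at hx2
    obtain ⟨k, hk⟩ := hx2
    have hτ : 0 < s / 4 := by positivity
    rcases lt_or_ge (x k) (l' k) with hlt | hge
    · -- below the hole
      have hgap : l k + S' ≤ l' k := by
        rcases (hal k).1 with h | h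
        · have := (hx.1 k).1
          linarith
        · exact h
      have htop : l' k ≤ l k + S := by
        rcases (hal k).2 with h | h <;> linarith
      obtain ⟨c, hxc, hcb⟩ := motp_subbox l (Function.update (fun j => l j + S) k (l' k)) x (s / 4) hτ
        (fun j => by
          by_cases hj : j = k
          · subst hj; rw [Function.update_self]; exact ⟨(hx.1 j).1, hlt⟩
          · rw [Function.update_of_ne hj]; exact hx.1 j)
        (fun j => by
          by_cases hj : j = k
          · subst hj; rw [Function.update_self]; linarith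
          · rw [Function.update_of_ne hj]; linarith)
      have hb := motp_box_basic c (s / 4) hτ
      refine ⟨motpBox c (s / 4), hb.1, fun y hy => ⟨fun j => ?_, fun hyh => ?_⟩,
        motp_box_subset_ball hτ (by linarith) hxc, hb.2.1.ge⟩
      · have := hcb y hy j
        by_cases hj : j = k
        · subst hj; rw [Function.update_self] at this; exact ⟨this.1, by linarith⟩
        · rw [Function.update_of_ne hj] at this; exact this
      · have := hcb y hy k
        rw [Function.update_self] at this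
        have h2 := (hyh k).1
        linarith
    · -- above the hole
      have hge2 : l' k + S' ≤ x k := hk hge
      have hgap : l' k + 2 * S' ≤ l k + S := by
        rcases (hal k).2 with h | h
        · have := (hx.1 k).2
          linarith
        · exact h
      have hbot : l k ≤ l' k := by
        rcases (hal k).1 with h | h <;> linarith
      obtain ⟨c, hxc, hcb⟩ := motp_subbox (Function.update l k (l' k + S')) (fun j => l j + S) x (s / 4) hτ
        (fun j => by
          by_cases hj : j = k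
          · subst hj; rw [Function.update_self]; exact ⟨hge2, (hx.1 j).2⟩
          · rw [Function.update_of_ne hj]; exact hx.1 j)
        (fun j => by
          by_cases hj : j = k
          · subst hj; rw [Function.update_self]; linarith
          · rw [Function.update_of_ne hj]; linarith)
      have hb := motp_box_basic c (s / 4) hτ
      refine ⟨motpBox c (s / 4), hb.1, fun y hy => ⟨fun j => ?_, fun hyh => ?_⟩,
        motp_box_subset_ball hτ (by linarith) hxc, hb.2.1.ge⟩
      · have := hcb y hy j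
        by_cases hj : j = k
        · subst hj; rw [Function.update_self] at this; exact ⟨by linarith, this.2⟩
        · rw [Function.update_of_ne hj] at this; exact this
      · have := hcb y hy k
        rw [Function.update_self] at this
        have h2 := (hyh k).2
        linarith

/-- **MOTP-3a** packing, one side: a set `A` of diameter `≤ 2 s` meets at most `K0` members of a disjoint family of sets
which are thick at scales `≥ s` (`EuclideanSpace.volume_closedBall_fin_three`, `measure_biUnion_finset`). -/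
theorem motp_pack_one : ∃ K0 : ℕ, ∀ {ι : Type} (J : Finset ι) (R : ι → Set (Pt 3)) (S : ι → ℝ)
    (A : Set (Pt 3)) (s : ℝ), 0 < s → (∀ x ∈ A, ∀ y ∈ A, dist x y ≤ 2 * s) →
    (∀ j ∈ J, MotpThick (R j) (S j) ∧ s ≤ S j ∧ (A ∩ R j).Nonempty) →
    (∀ j ∈ J, ∀ j' ∈ J, j ≠ j' → Disjoint (R j) (R j')) → J.card ≤ K0 := by
  refine ⟨21846, ?_⟩
  intro ι J R S A s hs hA hJ hdisj
  rcases J.eq_empty_or_nonempty with rfl | ⟨j0, hj0⟩
  · simp
  obtain ⟨x0, hx0A, -⟩ := (hJ j0 hj0).2.2
  have hex : ∀ j, ∃ E : Set (Pt 3), j ∈ J → (MeasurableSet E ∧ E ⊆ R j ∧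
      E ⊆ Metric.closedBall x0 (4 * s) ∧ ENNReal.ofReal ((s / 4) ^ 3) ≤ volume E) := by
    intro j
    by_cases hj : j ∈ J
    · obtain ⟨hth, hsS, x, hxA, hxR⟩ := hJ j hj
      obtain ⟨E, hE1, hE2, hE3, hE4⟩ := hth.2.2 x hxR s hs hsS
      refine ⟨E, fun _ => ⟨hE1, hE2, fun y hy => ?_, hE4⟩⟩
      have h1 := hE3 hy
      rw [Metric.mem_closedBall] at h1 ⊢
      have h2 := hA x hxA x0 hx0A
      linarith [dist_triangle y x x0]
    · exact ⟨∅, fun h => absurd h hj⟩
  choose E hE using hex
  have h1 : volume (⋃ j ∈ J, E j) = ∑ j ∈ J, volume (E j) :=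
    measure_biUnion_finset
      (fun j hj j' hj' hne => (hdisj j hj j' hj' hne).mono (hE j hj).2.1 (hE j' hj').2.1)
      (fun j hj => (hE j hj).1)
  have h2 : volume (⋃ j ∈ J, E j) ≤ volume (Metric.closedBall x0 (4 * s)) :=
    measure_mono (Set.iUnion₂_subset fun j hj => (hE j hj).2.2.1)
  have h3 : (J.card : ENNReal) * ENNReal.ofReal ((s / 4) ^ 3) ≤ ∑ j ∈ J, volume (E j) := by
    rw [← nsmul_eq_mul, ← Finset.sum_const]
    exact Finset.sum_le_sum fun j hj => (hE j hj).2.2.2
  rw [EuclideanSpace.volume_closedBall_fin_three, h1] at h2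
  have h5 : ENNReal.ofReal ((J.card : ℝ) * (s / 4) ^ 3)
      ≤ ENNReal.ofReal ((4 * s) ^ 3 * (Real.pi * 4 / 3)) := by
    rw [ENNReal.ofReal_mul (Nat.cast_nonneg _), ENNReal.ofReal_natCast,
      ENNReal.ofReal_mul (by positivity), ENNReal.ofReal_pow (by positivity : 0 ≤ 4 * s)]
    exact h3.trans h2
  have h6 := (ENNReal.ofReal_le_ofReal_iff (by positivity)).1 h5
  have h7 : (J.card : ℝ) ≤ 21846 := by
    have hπ := Real.pi_le_four
    have hs3 : 0 < s ^ 3 := by positivity
    have h8 : (J.card : ℝ) * s ^ 3 ≤ 21846 * s ^ 3 := by nlinarith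
    exact le_of_mul_le_mul_right h8 hs3
  exact_mod_cast h7

/-- **MOTP-3b** packing: intersecting pairs of two thick disjoint families under a motion. -/
theorem motp_pack : ∃ K0 : ℕ, ∀ (n n' : ℕ) (R : Fin n → Set (Pt 3)) (S : Fin n → ℝ)
    (R' : Fin n' → Set (Pt 3)) (S' : Fin n' → ℝ),
    (∀ i, MotpThick (R i) (S i)) → (∀ j, MotpThick (R' j) (S' j)) →
    (∀ i i', i ≠ i' → Disjoint (R i) (R i')) → (∀ j j', j ≠ j' → Disjoint (R' j) (R' j')) →
    ∀ g : Pt 3 ≃ᵃⁱ[ℝ] Pt 3,
      ((Finset.univ : Finset (Fin n × Fin n')).filter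
        (fun p => ((g '' R p.1) ∩ R' p.2).Nonempty)).card ≤ K0 * (n + n') := by
  obtain ⟨K0, hK⟩ := motp_pack_one
  refine ⟨K0, ?_⟩
  intro n n' R S R' S' hR hR' hd hd' g
  set P := (Finset.univ : Finset (Fin n × Fin n')).filter
        (fun p => ((g '' R p.1) ∩ R' p.2).Nonempty) with hPdef
  have hP : (P.filter (fun p => S p.1 ≤ S' p.2)).card + (P.filter (fun p => ¬ S p.1 ≤ S' p.2)).card
      = P.card := Finset.card_filter_add_card_filter_not _
  have h1 : (P.filter (fun p => S p.1 ≤ S' p.2)).card ≤ K0 * n := by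
    rw [Finset.card_eq_sum_card_fiberwise (f := Prod.fst) (t := Finset.univ)
      (fun p _ => Finset.mem_coe.2 (Finset.mem_univ _))]
    calc _ ≤ ∑ _i : Fin n, K0 := Finset.sum_le_sum fun i _ => ?_
      _ = K0 * n := by simp [mul_comm]
    have hinj : Set.InjOn Prod.snd
        (((P.filter (fun p => S p.1 ≤ S' p.2)).filter (fun p => p.1 = i) : Finset _) : Set (Fin n × Fin n')) := by
      intro p hp q hq hpq
      have hp1 : p.1 = i := (Finset.mem_filter.1 (Finset.mem_coe.1 hp)).2
      have hq1 : q.1 = i := (Finset.mem_filter.1 (Finset.mem_coe.1 hq)).2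
      exact Prod.ext (hp1.trans hq1.symm) hpq
    rw [← Finset.card_image_of_injOn hinj]
    refine hK _ R' S' (g '' R i) (S i) (hR i).1 ?_ ?_ (fun j _ j' _ hne => hd' j j' hne)
    · rintro _ ⟨x, hx, rfl⟩ _ ⟨y, hy, rfl⟩
      rw [g.dist_map]
      exact (hR i).2.1 x hx y hy
    · intro j hj
      obtain ⟨p, hp, rfl⟩ := Finset.mem_image.1 hj
      obtain ⟨hp2, rfl⟩ := Finset.mem_filter.1 hp
      obtain ⟨hp3, hp4⟩ := Finset.mem_filter.1 hp2
      exact ⟨hR' _, hp4, (Finset.mem_filter.1 hp3).2⟩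
  have h2 : (P.filter (fun p => ¬ S p.1 ≤ S' p.2)).card ≤ K0 * n' := by
    rw [Finset.card_eq_sum_card_fiberwise (f := Prod.snd) (t := Finset.univ)
      (fun p _ => Finset.mem_coe.2 (Finset.mem_univ _))]
    calc _ ≤ ∑ _j : Fin n', K0 := Finset.sum_le_sum fun j _ => ?_
      _ = K0 * n' := by simp [mul_comm]
    have hinj : Set.InjOn Prod.fst
        (((P.filter (fun p => ¬ S p.1 ≤ S' p.2)).filter (fun p => p.2 = j) : Finset _) : Set (Fin n × Fin n')) := by
      intro p hp q hq hpq
      have hp1 : p.2 = j := (Finset.mem_filter.1 (Finset.mem_coe.1 hp)).2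
      have hq1 : q.2 = j := (Finset.mem_filter.1 (Finset.mem_coe.1 hq)).2
      exact Prod.ext hpq (hp1.trans hq1.symm)
    rw [← Finset.card_image_of_injOn hinj]
    refine hK _ R S (g.symm '' R' j) (S' j) (hR' j).1 ?_ ?_ (fun i _ i' _ hne => hd i i' hne)
    · rintro _ ⟨x, hx, rfl⟩ _ ⟨y, hy, rfl⟩
      rw [g.symm.dist_map]
      exact (hR' j).2.1 x hx y hy
    · intro i hi
      obtain ⟨p, hp, rfl⟩ := Finset.mem_image.1 hi
      obtain ⟨hp2, rfl⟩ := Finset.mem_filter.1 hp
      obtain ⟨hp3, hp4⟩ := Finset.mem_filter.1 hp2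
      obtain ⟨_, ⟨x, hx, rfl⟩, hgx⟩ := (Finset.mem_filter.1 hp3).2
      exact ⟨hR _, (not_le.1 hp4).le, x, ⟨g x, hgx, g.symm_apply_apply x⟩, hx⟩
  calc P.card = _ := hP.symm
    _ ≤ K0 * n + K0 * n' := add_le_add h1 h2
    _ = K0 * (n + n') := by ring

end Claimed.Agent.R273
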