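-- KEEP
import Claimed.Agent.R273.MotPart

/-!
# Row 273, S7, MOT-PART, second file: the dyadic tree and the glue (plan: header of `MotPart.lean`).
-/

set_option autoImplicit false

namespace Claimed.Agent.R273

open scoped Classical
open MeasureTheory

/-! ## 3. The dyadic tree -/

/-- the dyadic cube of level `v.1` and index `v.2` (origin `o`, root side `S0`). -/
noncomputable def motpCube (o : Fin 3 → ℝ) (S0 : ℝ) (v : ℕ × (Fin 3 → ℕ)) : Set (Pt 3) :=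
  motpBox (fun i => o i + (v.2 i : ℝ) * (S0 / 2 ^ v.1)) (S0 / 2 ^ v.1)

/-- the eight children. -/
noncomputable def motpCh (v : ℕ × (Fin 3 → ℕ)) : Finset (ℕ × (Fin 3 → ℕ)) :=
  (Finset.univ : Finset (Fin 3 → Fin 2)).image (fun e => (v.1 + 1, fun i => 2 * v.2 i + (e i : ℕ)))

theorem motp_mem_ch {v w : ℕ × (Fin 3 → ℕ)} :
    w ∈ motpCh v ↔ ∃ e : Fin 3 → Fin 2, w = (v.1 + 1, fun i => 2 * v.2 i + (e i : ℕ)) := by
  simp only [motpCh, Finset.mem_image, Finset.mem_univ, true_and]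
  exact ⟨fun ⟨e, h⟩ => ⟨e, h.symm⟩, fun ⟨e, h⟩ => ⟨e, h.symm⟩⟩

/-- membership in a child cube -/
theorem motp_mem_child (o : Fin 3 → ℝ) (S0 : ℝ) (j : ℕ) (a : Fin 3 → ℕ) (e : Fin 3 → Fin 2) (x : Pt 3) :
    x ∈ motpCube o S0 (j + 1, fun i => 2 * a i + (e i : ℕ)) ↔
      ∀ i, o i + (a i : ℝ) * (S0 / 2 ^ j) + ((e i : ℕ) : ℝ) * (S0 / 2 ^ j / 2) ≤ x i ∧
        x i < o i + (a i : ℝ) * (S0 / 2 ^ j) + ((e i : ℕ) : ℝ) * (S0 / 2 ^ j / 2) + S0 / 2 ^ j / 2 := by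
  have hσ' : S0 / 2 ^ (j + 1) = S0 / 2 ^ j / 2 := by rw [pow_succ]; field_simp
  show (∀ i, o i + ((2 * a i + (e i : ℕ) : ℕ) : ℝ) * (S0 / 2 ^ (j + 1)) ≤ x i ∧
    x i < o i + ((2 * a i + (e i : ℕ) : ℕ) : ℝ) * (S0 / 2 ^ (j + 1)) + S0 / 2 ^ (j + 1)) ↔ _
  refine forall_congr' fun i => ?_
  rw [hσ']
  push_cast
  have : o i + (2 * (a i : ℝ) + ((e i : ℕ) : ℝ)) * (S0 / 2 ^ j / 2)
      = o i + (a i : ℝ) * (S0 / 2 ^ j) + ((e i : ℕ) : ℝ) * (S0 / 2 ^ j / 2) := by ring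
  rw [this]

/-- **MOTP-4a** a cube is the disjoint union of its eight children. -/
theorem motp_cube_children (o : Fin 3 → ℝ) (S0 : ℝ) (hS0 : 0 < S0) (v : ℕ × (Fin 3 → ℕ)) :
    (motpCube o S0 v = ⋃ w ∈ motpCh v, motpCube o S0 w) ∧
    ∀ w ∈ motpCh v, ∀ w' ∈ motpCh v, w ≠ w' → Disjoint (motpCube o S0 w) (motpCube o S0 w') := by
  obtain ⟨j, a⟩ := v
  have hσ0 : 0 < S0 / 2 ^ j := by positivity
  have hmem0 : ∀ x : Pt 3, x ∈ motpCube o S0 (j, a) ↔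
      ∀ i, o i + (a i : ℝ) * (S0 / 2 ^ j) ≤ x i ∧ x i < o i + (a i : ℝ) * (S0 / 2 ^ j) + S0 / 2 ^ j :=
    fun _ => Iff.rfl
  constructor
  · ext x
    simp only [Set.mem_iUnion, exists_prop]
    constructor
    · intro hx
      rw [hmem0] at hx
      refine ⟨_, motp_mem_ch.2
        ⟨fun i => if x i < o i + (a i : ℝ) * (S0 / 2 ^ j) + S0 / 2 ^ j / 2 then 0 else 1, rfl⟩, ?_⟩
      rw [motp_mem_child]
      intro i
      by_cases h : x i < o i + (a i : ℝ) * (S0 / 2 ^ j) + S0 / 2 ^ j / 2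
      · simp only [if_pos h]
        simp only [Fin.val_zero, Nat.cast_zero, zero_mul, add_zero]
        exact ⟨(hx i).1, h⟩
      · simp only [if_neg h]
        simp only [Fin.val_one, Nat.cast_one, one_mul]
        push Not at h
        exact ⟨h, by linarith [(hx i).2]⟩
    · rintro ⟨w, hw, hx⟩
      obtain ⟨e, rfl⟩ := motp_mem_ch.1 hw
      rw [motp_mem_child] at hx
      rw [hmem0]
      intro i
      have h01 : ((e i : ℕ) : ℝ) = 0 ∨ ((e i : ℕ) : ℝ) = 1 := by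
        have h2 : (e i : ℕ) < 2 := (e i).2
        rcases (by omega : (e i : ℕ) = 0 ∨ (e i : ℕ) = 1) with h | h <;> rw [h] <;> simp
      have := hx i
      rcases h01 with h | h <;> rw [h] at this <;> constructor <;> linarith
  · intro w hw w' hw' hne
    obtain ⟨e, rfl⟩ := motp_mem_ch.1 hw
    obtain ⟨e', rfl⟩ := motp_mem_ch.1 hw'
    have hee : e ≠ e' := fun h => hne (by rw [h])
    obtain ⟨i, hi⟩ := Function.ne_iff.1 hee
    rw [Set.disjoint_left]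
    intro x hx hx'
    rw [motp_mem_child] at hx hx'
    have h1 := hx i
    have h2 := hx' i
    have hcase : ((e i : ℕ) = 0 ∧ (e' i : ℕ) = 1) ∨ ((e i : ℕ) = 1 ∧ (e' i : ℕ) = 0) := by
      have a1 := (e i).2
      have a2 := (e' i).2
      have a3 : (e i : ℕ) ≠ (e' i : ℕ) := fun h => hi (Fin.ext h)
      omega
    rcases hcase with ⟨p, q⟩ | ⟨p, q⟩
    · rw [p] at h1; rw [q] at h2
      simp only [Nat.cast_zero, Nat.cast_one, zero_mul, one_mul, add_zero] at h1 h2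
      linarith
    · rw [p] at h1; rw [q] at h2
      simp only [Nat.cast_zero, Nat.cast_one, zero_mul, one_mul, add_zero] at h1 h2
      linarith

/-- the dyadic tree. -/
noncomputable def motpDy (o : Fin 3 → ℝ) (S0 : ℝ) (hS0 : 0 < S0) : MotpTree (Pt 3) (ℕ × (Fin 3 → ℕ)) where
  Q := motpCube o S0
  ch := motpCh
  card_ch v := by
    refine Finset.card_image_le.trans ?_
    simp
  union v := (motp_cube_children o S0 hS0 v).1
  disj v := (motp_cube_children o S0 hS0 v).2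

/-- **MOTP-4b** index form of strict descent: `w.1 = v.1 + t`, `t ≥ 1`, `2^t v.2 i ≤ w.2 i < 2^t (v.2 i + 1)`. -/
theorem motp_dy_strict (o : Fin 3 → ℝ) (S0 : ℝ) (hS0 : 0 < S0) (v w : ℕ × (Fin 3 → ℕ))
    (h : (motpDy o S0 hS0).Strict v w) :
    ∃ t : ℕ, 1 ≤ t ∧ w.1 = v.1 + t ∧ ∀ i, 2 ^ t * v.2 i ≤ w.2 i ∧ w.2 i + 1 ≤ 2 ^ t * (v.2 i + 1) := by
  have hstep : ∀ b c : ℕ × (Fin 3 → ℕ), c ∈ motpCh b →
      c.1 = b.1 + 1 ∧ ∀ i, 2 * b.2 i ≤ c.2 i ∧ c.2 i + 1 ≤ 2 * (b.2 i + 1) := by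
    intro b c hc
    obtain ⟨e, rfl⟩ := motp_mem_ch.1 hc
    refine ⟨rfl, fun i => ?_⟩
    have := (e i).2
    show 2 * b.2 i ≤ 2 * b.2 i + (e i : ℕ) ∧ 2 * b.2 i + (e i : ℕ) + 1 ≤ 2 * (b.2 i + 1)
    constructor <;> omega
  induction h with
  | single h =>
    obtain ⟨h1, h2⟩ := hstep _ _ h
    exact ⟨1, le_rfl, h1, fun i => by simpa using h2 i⟩
  | tail _ h ih =>
    obtain ⟨t, ht, h1, h2⟩ := ih
    obtain ⟨g1, g2⟩ := hstep _ _ h
    refine ⟨t + 1, by omega, by omega, fun i => ?_⟩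
    have a1 := h2 i
    have a2 := g2 i
    have e1 : 2 ^ (t + 1) * v.2 i = 2 * (2 ^ t * v.2 i) := by ring
    have e2 : 2 ^ (t + 1) * (v.2 i + 1) = 2 * (2 ^ t * (v.2 i + 1)) := by ring
    rw [e1, e2]
    constructor <;> omega

/-- **MOTP-4c** the regions of the dyadic tree are thick at the scale of their outer cube
(`motp_thick_box`, `motp_thick_hole`, alignment from `motp_dy_strict`). -/
theorem motp_dy_thick (o : Fin 3 → ℝ) (S0 : ℝ) (hS0 : 0 < S0) (c : (ℕ × (Fin 3 → ℕ)) × Option (ℕ × (Fin 3 → ℕ)))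
    (hc : ∀ w, c.2 = some w → (motpDy o S0 hS0).Strict c.1 w) :
    MotpThick ((motpDy o S0 hS0).reg c) (S0 / 2 ^ c.1.1) := by
  obtain ⟨v, ow⟩ := c
  cases ow with
  | none => exact motp_thick_box _ _ (by positivity)
  | some w =>
    obtain ⟨t, ht, h1, h2⟩ := motp_dy_strict o S0 hS0 v w (hc w rfl)
    show MotpThick (motpCube o S0 v \ motpCube o S0 w) (S0 / 2 ^ v.1)
    unfold motpCube
    refine motp_thick_hole _ _ _ _ (by positivity) (by positivity) fun i => ?_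
    have hσ : S0 / 2 ^ v.1 = 2 ^ t * (S0 / 2 ^ w.1) := by rw [h1, pow_add]; field_simp
    have hσ0 : 0 < S0 / 2 ^ w.1 := by positivity
    obtain ⟨a1, a2⟩ := h2 i
    show (o i + (w.2 i : ℝ) * (S0 / 2 ^ w.1) = o i + (v.2 i : ℝ) * (S0 / 2 ^ v.1) ∨
        o i + (v.2 i : ℝ) * (S0 / 2 ^ v.1) + S0 / 2 ^ w.1 ≤ o i + (w.2 i : ℝ) * (S0 / 2 ^ w.1)) ∧
      (o i + (w.2 i : ℝ) * (S0 / 2 ^ w.1) + S0 / 2 ^ w.1
          = o i + (v.2 i : ℝ) * (S0 / 2 ^ v.1) + S0 / 2 ^ v.1 ∨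
        o i + (w.2 i : ℝ) * (S0 / 2 ^ w.1) + 2 * (S0 / 2 ^ w.1)
          ≤ o i + (v.2 i : ℝ) * (S0 / 2 ^ v.1) + S0 / 2 ^ v.1)
    rw [hσ]
    generalize S0 / 2 ^ w.1 = σ at hσ0
    constructor
    · rcases Nat.eq_or_lt_of_le a1 with h | h
      · left
        have : (w.2 i : ℝ) = (2 : ℝ) ^ t * (v.2 i : ℝ) := by exact_mod_cast h.symm
        rw [this]; ring
      · right
        have : (2 : ℝ) ^ t * (v.2 i : ℝ) + 1 ≤ (w.2 i : ℝ) := by exact_mod_cast h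
        nlinarith
    · rcases Nat.eq_or_lt_of_le a2 with h | h
      · left
        have : (w.2 i : ℝ) + 1 = (2 : ℝ) ^ t * ((v.2 i : ℝ) + 1) := by exact_mod_cast h
        linear_combination σ * this
      · right
        have : (w.2 i : ℝ) + 1 + 1 ≤ (2 : ℝ) ^ t * ((v.2 i : ℝ) + 1) := by exact_mod_cast h
        nlinarith

theorem motp_dy_light_aux (o : Fin 3 → ℝ) (S0 : ℝ) (hS0 : 0 < S0) (X : Finset (Pt 3)) (μ : ℝ) (hμ : 1 ≤ μ)
    (k : ℕ) : ∀ v : ℕ × (Fin 3 → ℕ),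
    (∀ x ∈ X, ∀ y ∈ X, x ≠ y → 2 * (S0 / 2 ^ (v.1 + k)) < dist x y) →
    (motpDy o S0 hS0).LightAt X μ k v := by
  induction k with
  | zero =>
    intro v h
    show (motpCnt X (motpCube o S0 v) : ℝ) ≤ μ
    have h1 : motpCnt X (motpCube o S0 v) ≤ 1 := by
      unfold motpCnt
      rw [Finset.card_le_one]
      intro x hx y hy
      by_contra hne
      rw [Finset.mem_filter] at hx hy
      have h1 := h x hx.1 y hy.1 hne
      have h2 := (motp_box_basic _ _ (by positivity)).2.2 x hx.2 y hy.2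
      rw [add_zero] at h1
      linarith
    calc (motpCnt X (motpCube o S0 v) : ℝ) ≤ (1 : ℝ) := by exact_mod_cast h1
      _ ≤ μ := hμ
  | succ k ih =>
    intro v h w hw
    apply ih
    obtain ⟨e, rfl⟩ := motp_mem_ch.1 hw
    have : v.1 + 1 + k = v.1 + (k + 1) := by omega
    show ∀ x ∈ X, ∀ y ∈ X, x ≠ y → 2 * (S0 / 2 ^ (v.1 + 1 + k)) < dist x y
    rw [this]
    exact h

/-- **MOTP-4d** termination: deep cubes contain at most one point of `X`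
(induction on `k`, `v` general: if `2 S0 / 2^(v.1 + k) < dist x y` for all `x ≠ y` in `X` then `LightAt k v`). -/
theorem motp_dy_light (o : Fin 3 → ℝ) (S0 : ℝ) (hS0 : 0 < S0) (X : Finset (Pt 3)) (μ : ℝ) (hμ : 1 ≤ μ) :
    ∃ k, (motpDy o S0 hS0).LightAt X μ k (0, 0) := by
  obtain ⟨δ, hδ, hX⟩ : ∃ δ > 0, ∀ x ∈ X, ∀ y ∈ X, x ≠ y → δ ≤ dist x y := by
    rcases X.offDiag.eq_empty_or_nonempty with h | h
    · refine ⟨1, one_pos, fun x hx y hy hne => ?_⟩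
      have : (x, y) ∈ X.offDiag := Finset.mem_offDiag.2 ⟨hx, hy, hne⟩
      rw [h] at this
      exact absurd this (Finset.notMem_empty _)
    · obtain ⟨p, hp, hmin⟩ := Finset.exists_min_image X.offDiag (fun p => dist p.1 p.2) h
      exact ⟨dist p.1 p.2, dist_pos.2 (Finset.mem_offDiag.1 hp).2.2, fun x hx y hy hne =>
        hmin (x, y) (Finset.mem_offDiag.2 ⟨hx, hy, hne⟩)⟩
  obtain ⟨k, hk⟩ := exists_pow_lt_of_lt_one (show 0 < δ / (2 * S0) by positivity)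
    (show (1 / 2 : ℝ) < 1 by norm_num)
  refine ⟨k, motp_dy_light_aux o S0 hS0 X μ hμ k (0, 0) fun x hx y hy hne =>
    lt_of_lt_of_le ?_ (hX x hx y hy hne)⟩
  rw [lt_div_iff₀ (by positivity)] at hk
  have e : (1 / 2 : ℝ) ^ k = 1 / 2 ^ k := by rw [one_div, inv_pow, one_div]
  rw [e] at hk
  show 2 * (S0 / 2 ^ (0 + k)) < δ
  rw [zero_add]
  calc 2 * (S0 / 2 ^ k) = 1 / 2 ^ k * (2 * S0) := by ring
    _ < δ := hk

/-- **MOTP-4e** a root cube containing `X`. -/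
theorem motp_root (X : Finset (Pt 3)) : ∃ (o : Fin 3 → ℝ) (S0 : ℝ), 0 < S0 ∧ ∀ x ∈ X, x ∈ motpCube o S0 (0, 0) := by
  have hM0 : 0 ≤ ∑ x ∈ X, ‖x‖ := Finset.sum_nonneg fun _ _ => norm_nonneg _
  refine ⟨fun _ => -∑ x ∈ X, ‖x‖, 2 * (∑ x ∈ X, ‖x‖) + 1, by linarith, fun x hx i => ?_⟩
  have h1 : ‖x‖ ≤ ∑ x ∈ X, ‖x‖ :=
    Finset.single_le_sum (f := fun x : Pt 3 => ‖x‖) (fun _ _ => norm_nonneg _) hx
  have h2 : |x i| ≤ ‖x‖ := by simpa using PiLp.norm_apply_le x i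
  have h3 := abs_le.1 (h2.trans h1)
  simp only [Pi.zero_apply, Nat.cast_zero, zero_mul, add_zero, pow_zero, div_one]
  constructor <;> linarith [h3.1, h3.2]

/-! ## 4. Glue -/

/-- **MOTP-5a** one cloud: a thick disjoint family covering `X`, `≤ 16 r` members, `≤ N / r` points each
(`motp_root`, `motp_dy_light`, `motp_tree_partition` with `μ = N / r`, `motp_dy_thick`; index by `Finset.equivFin`). -/
theorem motp_cloud (N : ℕ) (r : ℝ) (X : Finset (Pt 3)) (h1 : 1 ≤ r) (hr : r ≤ N) (hX : X.card ≤ N) :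
    ∃ (n : ℕ) (R : Fin n → Set (Pt 3)) (S : Fin n → ℝ), 1 ≤ n ∧ (n : ℝ) ≤ 16 * r ∧
      (∀ i, MotpThick (R i) (S i)) ∧ (∀ i i', i ≠ i' → Disjoint (R i) (R i')) ∧
      (∀ x ∈ X, ∃ i, x ∈ R i) ∧ ∀ i, (motpCnt X (R i) : ℝ) ≤ N / r := by
  obtain ⟨o, S0, hS0, hroot⟩ := motp_root X
  have hr0 : 0 < r := by linarith
  have hN0 : (0 : ℝ) < N := by linarith
  have hμ1 : 1 ≤ (N : ℝ) / r := by rw [le_div_iff₀ hr0]; linarith
  obtain ⟨k, hk⟩ := motp_dy_light o S0 hS0 X (N / r) hμ1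
  obtain ⟨𝓡, hG, hcard⟩ := motp_tree_partition (motpDy o S0 hS0) X (N / r) (by linarith) k (0, 0) hk
  have hne : 𝓡.Nonempty := by
    by_contra hcon
    rw [Finset.not_nonempty_iff_eq_empty] at hcon
    have hc := hG.cover
    rw [hcon] at hc
    have hmem : (WithLp.toLp 2 o : Pt 3) ∈ (motpDy o S0 hS0).Q (0, 0) := by
      intro i
      simp only [Pi.zero_apply, Nat.cast_zero, zero_mul, add_zero, pow_zero, div_one]
      exact ⟨le_rfl, by linarith⟩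
    rw [← hc] at hmem
    simp at hmem
  refine ⟨𝓡.card, fun i => (motpDy o S0 hS0).reg (𝓡.equivFin.symm i).1,
    fun i => S0 / 2 ^ (𝓡.equivFin.symm i).1.1.1, Finset.card_pos.2 hne, ?_, ?_, ?_, ?_, ?_⟩
  · refine hcard.trans (max_le (by linarith) ?_)
    have hc : (motpCnt X ((motpDy o S0 hS0).Q (0, 0)) : ℝ) ≤ N := by
      have : motpCnt X ((motpDy o S0 hS0).Q (0, 0)) ≤ X.card := Finset.card_filter_le _ _
      exact_mod_cast this.trans hX
    rw [div_le_iff₀ (by positivity)]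
    have : 16 * r * ((N : ℝ) / r) = 16 * N := by field_simp
    rw [this]; linarith
  · intro i
    refine motp_dy_thick o S0 hS0 _ (fun w hw => hG.strict _ _ ?_)
    have := (𝓡.equivFin.symm i).2
    rw [← hw]
    exact this
  · intro i i' hne
    exact hG.disj _ (𝓡.equivFin.symm i).2 _ (𝓡.equivFin.symm i').2
      (fun h => hne (𝓡.equivFin.symm.injective (Subtype.ext h)))
  · intro x hx
    have : x ∈ (motpDy o S0 hS0).Q (0, 0) := hroot x hx
    rw [← hG.cover] at this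
    simp only [Set.mem_iUnion, exists_prop] at this
    obtain ⟨c, hc, hxc⟩ := this
    exact ⟨𝓡.equivFin ⟨c, hc⟩, by simpa using hxc⟩
  · intro i
    exact hG.mass _ (𝓡.equivFin.symm i).2

/-- a colouring by the index of the region -/
theorem motp_colour (X : Finset (Pt 3)) (n : ℕ) (R : Fin n → Set (Pt 3)) (hcov : ∀ x ∈ X, ∃ i, x ∈ R i) :
    ∃ c : Pt 3 → ℕ, ∀ x ∈ X, ∃ h : c x < n, x ∈ R ⟨c x, h⟩ := by
  refine ⟨fun x => if h : ∃ i, x ∈ R i then (h.choose : ℕ) else 0, fun x hx => ?_⟩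
  have h := hcov x hx
  simp only [dif_pos h]
  exact ⟨h.choose.2, h.choose_spec⟩

/-- number of colours and size of the classes -/
theorem motp_colour_facts (X : Finset (Pt 3)) (n : ℕ) (R : Fin n → Set (Pt 3)) (c : Pt 3 → ℕ)
    (hc : ∀ x ∈ X, ∃ h : c x < n, x ∈ R ⟨c x, h⟩) (B : ℝ) (hB : 0 ≤ B)
    (hms : ∀ i, (motpCnt X (R i) : ℝ) ≤ B) :
    (X.image c).card ≤ n ∧ ∀ i, ((motCls X c i).card : ℝ) ≤ B := by
  constructor
  · have : X.image c ⊆ Finset.range n := by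
      intro i hi
      obtain ⟨x, hx, rfl⟩ := Finset.mem_image.1 hi
      exact Finset.mem_range.2 (hc x hx).1
    simpa using Finset.card_le_card this
  · intro i
    rcases (motCls X c i).eq_empty_or_nonempty with h | ⟨x0, hx0⟩
    · rw [h]; simpa using hB
    · obtain ⟨hx0X, rfl⟩ := Finset.mem_filter.1 hx0
      obtain ⟨hlt, -⟩ := hc x0 hx0X
      refine le_trans ?_ (hms ⟨c x0, hlt⟩)
      have : motCls X c (c x0) ⊆ X.filter (fun x => x ∈ R ⟨c x0, hlt⟩) := by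
        intro x hx
        obtain ⟨hxX, hxc⟩ := Finset.mem_filter.1 hx
        obtain ⟨h1, h2⟩ := hc x hxX
        refine Finset.mem_filter.2 ⟨hxX, ?_⟩
        have e : (⟨c x, h1⟩ : Fin n) = ⟨c x0, hlt⟩ := Fin.ext hxc
        rwa [e] at h2
      exact_mod_cast Finset.card_le_card this

/-- **MOTP-5b** the exported statement. -/
theorem motp_partition : MotPartStmt := by
  obtain ⟨K0, hK⟩ := motp_pack
  have hK0 : (0 : ℝ) ≤ K0 := Nat.cast_nonneg _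
  refine ⟨32 * K0 + 1, by linarith, ?_⟩
  intro N r X Y h1 hr hX hY
  obtain ⟨n, R, S, hn, hnr, hth, hdj, hcov, hms⟩ := motp_cloud N r X h1 hr hX
  obtain ⟨n', R', S', hn', hnr', hth', hdj', hcov', hms'⟩ := motp_cloud N r Y h1 hr hY
  obtain ⟨cX, hcX⟩ := motp_colour X n R hcov
  obtain ⟨cY, hcY⟩ := motp_colour Y n' R' hcov'
  have hr0 : 0 < r := by linarith
  have hB : (0 : ℝ) ≤ N / r := by positivity
  obtain ⟨a1, a2⟩ := motp_colour_facts X n R cX hcX _ hB hms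
  obtain ⟨b1, b2⟩ := motp_colour_facts Y n' R' cY hcY _ hB hms'
  have h8 : (N : ℝ) / r ≤ 8 * N / r := by
    rw [mul_div_assoc]; linarith
  refine ⟨cX, cY, ?_, ?_, fun i => (a2 i).trans h8, fun j => (b2 j).trans h8, fun g => ?_⟩
  · have : ((X.image cX).card : ℝ) ≤ n := by exact_mod_cast a1
    linarith
  · have : ((Y.image cY).card : ℝ) ≤ n' := by exact_mod_cast b1
    linarith
  · have hsub : motIdx X Y cX cY g ⊆ ((Finset.univ : Finset (Fin n × Fin n')).filter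
        (fun p => ((g '' R p.1) ∩ R' p.2).Nonempty)).image (fun p => ((p.1 : ℕ), (p.2 : ℕ))) := by
      intro q hq
      obtain ⟨x, hx, rfl⟩ := Finset.mem_image.1 hq
      obtain ⟨hxX, hgY⟩ := Finset.mem_filter.1 hx
      obtain ⟨i1, i2⟩ := hcX x hxX
      obtain ⟨j1, j2⟩ := hcY (g x) hgY
      refine Finset.mem_image.2 ⟨(⟨cX x, i1⟩, ⟨cY (g x), j1⟩), Finset.mem_filter.2
        ⟨Finset.mem_univ _, g x, ⟨x, i2, rfl⟩, j2⟩, rfl⟩
    have hc1 := (Finset.card_le_card hsub).trans Finset.card_image_le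
    have hc2 := hc1.trans (hK n n' R S R' S' hth hth' hdj hdj' g)
    have hc3 : ((motIdx X Y cX cY g).card : ℝ) ≤ K0 * ((n : ℝ) + n') := by exact_mod_cast hc2
    have hc4 : (K0 : ℝ) * ((n : ℝ) + n') ≤ K0 * (32 * r) :=
      mul_le_mul_of_nonneg_left (by linarith) hK0
    nlinarith

end Claimed.Agent.R273
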