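-- KEEP
import Claimed.Agent.R273.MotLocTop
import Claimed.Agent.R273.MotLine

/-!
# Row 273, unit GK+LOC, block PLA: `MotEff → MotPla` (planar type of mot:local, motions.tex l.481-544).   Architect helper71.   Prefix `motq_`.

For a plane `W`: `motqIn X W = X ∩ W`, `motqLine X W` = a collinear subset of `X ∩ W` of maximal size (chosen once, depends on `X, W` only),
`motqU X W = X ∩ W \ motqLine X W`, so `|motqU X W| = e_X(W)`.

* `motq_step1` (one motion): `T` coplanar, `≥ η2 ℓ` matches, not collinear, `W = affineSpan T`, `W' = motImg g W`.  Removing the matches in `motqLine X W` and those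
  mapped into `motqLine Y W'` (two collinear subsets of the match set, `< η1 ℓ` each) leaves `≥ (η2 - 2 η1) ℓ ≥ (η2/2) ℓ` matches `motqU X W → motqU Y W'`; they are not
  collinear since `η1 ℓ < (η2/2) ℓ`.
* `motq_pair` (fixed pair of planes): `gk_spatial_planar_motions` with `k = ⌈H0⌉₊`.
* `motq_layer` (layer cake): `e i ≥ H0`, `#{e ≥ H} ≤ K / H²` for `H ≥ H0`  ⟹  `∑ e^(3/2) ≤ 10 K / √H0`.
  Induction on `j` for: all `e i < 2^j H`, `H ≥ H0` ⟹ `∑_{e ≥ H} e^(3/2) ≤ 10 K/√H`  (`2^(3/2) + 10/√2 ≤ 10`).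
* `motq_eff_sum`: `MotEff` + layer cake.
* `motq_pla`: fibres of `g ↦ (W_g, motImg g W_g)`; `H0 = (η2/2) ℓ`, `Cp = max 1 (max (2 C2/η2) (2 C/η2))`, `Kp = 800 C K2²/η2³`;
  `|𝒢| ≤ (C/H0²) (10 K2 m²/√H0)² = 100 C K2² m⁴/H0³` and `m ≤ ℓ^(3/2)`.
-/

set_option autoImplicit false

namespace Claimed.Agent.R273

open scoped Classical

/-- the points of `X` in `W` -/
noncomputable def motqIn (X : Finset (Pt 3)) (W : AffineSubspace ℝ (Pt 3)) : Finset (Pt 3) :=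
  X.filter (fun x => x ∈ W)

theorem motq_exists_max (X : Finset (Pt 3)) (W : AffineSubspace ℝ (Pt 3)) :
    ∃ T ⊆ motqIn X W, Collinear ℝ (T : Set (Pt 3)) ∧
      ∀ T' ⊆ motqIn X W, Collinear ℝ (T' : Set (Pt 3)) → T'.card ≤ T.card := by
  have hne : ((motqIn X W).powerset.filter
      (fun T : Finset (Pt 3) => Collinear ℝ (T : Set (Pt 3)))).Nonempty :=
    ⟨∅, by simp [collinear_empty]⟩
  obtain ⟨T, hT, hmax⟩ := Finset.exists_max_image _ Finset.card hne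
  rw [Finset.mem_filter, Finset.mem_powerset] at hT
  exact ⟨T, hT.1, hT.2, fun T' h1 h2 =>
    hmax T' (Finset.mem_filter.2 ⟨Finset.mem_powerset.2 h1, h2⟩)⟩

/-- a richest collinear subset of `X ∩ W` -/
noncomputable def motqLine (X : Finset (Pt 3)) (W : AffineSubspace ℝ (Pt 3)) : Finset (Pt 3) :=
  (motq_exists_max X W).choose

/-- the reduced planar cloud; its cardinality is the effective size `e_X(W)` -/
noncomputable def motqU (X : Finset (Pt 3)) (W : AffineSubspace ℝ (Pt 3)) : Finset (Pt 3) :=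
  motqIn X W \ motqLine X W

theorem motq_line_spec (X : Finset (Pt 3)) (W : AffineSubspace ℝ (Pt 3)) :
    motqLine X W ⊆ motqIn X W ∧ Collinear ℝ (motqLine X W : Set (Pt 3)) ∧
      ∀ T' ⊆ motqIn X W, Collinear ℝ (T' : Set (Pt 3)) → T'.card ≤ (motqLine X W).card :=
  (motq_exists_max X W).choose_spec

theorem motq_collinear_of_image (g : Motion) {s : Set (Pt 3)} (h : Collinear ℝ (g '' s)) :
    Collinear ℝ s := by
  rw [collinear_iff_exists_forall_eq_smul_vadd] at h ⊢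
  obtain ⟨p₀, v, hv⟩ := h
  refine ⟨g.symm p₀, g.symm.linearIsometryEquiv v, fun p hp => ?_⟩
  obtain ⟨r, hr⟩ := hv (g p) ⟨p, hp, rfl⟩
  refine ⟨r, ?_⟩
  have : p = g.symm (g p) := (g.symm_apply_apply p).symm
  rw [this, hr, AffineIsometryEquiv.map_vadd, map_smul]

theorem motq_coplanar_of_subset {W : AffineSubspace ℝ (Pt 3)} (hW : Module.finrank ℝ W.direction = 2)
    {s : Set (Pt 3)} (hs : s ⊆ W) : Coplanar ℝ s := by
  rw [coplanar_iff_finrank_le_two]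
  have h1 : vectorSpan ℝ s ≤ W.direction := by
    rw [AffineSubspace.direction_eq_vectorSpan]
    exact vectorSpan_mono ℝ hs
  exact (Submodule.finrank_mono h1).trans hW.le

theorem motq_U_subset (X : Finset (Pt 3)) (W : AffineSubspace ℝ (Pt 3)) :
    ((motqU X W : Finset (Pt 3)) : Set (Pt 3)) ⊆ W := by
  intro x hx
  have hx' : x ∈ motqU X W := hx
  unfold motqU motqIn at hx'
  exact (Finset.mem_filter.1 (Finset.mem_sdiff.1 hx').1).2

/-- **MOTQ-1** one motion of planar type. -/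
theorem motq_step1 (η1 η2 ℓ : ℝ) (h1 : 0 < η1) (h2 : 4 * η1 ≤ η2) (hℓ : 0 < ℓ)
    (X Y : Finset (Pt 3)) (g : Motion)
    (hline : ∀ T ⊆ X.filter (fun x => g x ∈ Y), Collinear ℝ (T : Set (Pt 3)) →
      (T.card : ℝ) < η1 * ℓ)
    (hpl : ∃ T ⊆ X.filter (fun x => g x ∈ Y), Coplanar ℝ (T : Set (Pt 3)) ∧
      η2 * ℓ ≤ (T.card : ℝ)) :
    ∃ W : AffineSubspace ℝ (Pt 3), Module.finrank ℝ W.direction = 2 ∧
      η2 / 2 * ℓ ≤ (matchCount (motqU X W) (motqU Y (motImg g W)) g : ℝ) ∧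
      ¬ Collinear ℝ (((motqU X W).filter (fun x => g x ∈ motqU Y (motImg g W)) : Finset (Pt 3)) :
        Set (Pt 3)) := by
  obtain ⟨T, hTS, hcop, hcard⟩ := hpl
  have h4 : 4 * η1 * ℓ ≤ η2 * ℓ := mul_le_mul_of_nonneg_right h2 hℓ.le
  have hpos : 0 < η1 * ℓ := mul_pos h1 hℓ
  have hncol : ¬ Collinear ℝ (T : Set (Pt 3)) := fun hc => by
    have := hline T hTS hc
    linarith
  set W := affineSpan ℝ (T : Set (Pt 3)) with hW
  have hdir : W.direction = vectorSpan ℝ (T : Set (Pt 3)) := direction_affineSpan ℝ _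
  have hfin : Module.finrank ℝ W.direction = 2 := by
    rw [hdir]
    have a := (coplanar_iff_finrank_le_two).1 hcop
    have b : ¬ Module.finrank ℝ (vectorSpan ℝ (T : Set (Pt 3))) ≤ 1 := fun h =>
      hncol (collinear_iff_finrank_le_one.2 h)
    omega
  set W' := motImg g W with hW'
  set R := (motqU X W).filter (fun x => g x ∈ motqU Y W') with hR
  set T1 := T.filter (fun x => x ∈ motqLine X W) with hT1
  set T2 := T.filter (fun x => g x ∈ motqLine Y W') with hT2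
  have hT1c : Collinear ℝ (T1 : Set (Pt 3)) :=
    (motq_line_spec X W).2.1.subset (fun x hx => (Finset.mem_filter.1 hx).2)
  have hT2c : Collinear ℝ (T2 : Set (Pt 3)) :=
    motq_collinear_of_image g ((motq_line_spec Y W').2.1.subset (by
      rintro _ ⟨x, hx, rfl⟩
      exact (Finset.mem_filter.1 hx).2))
  have c1 := hline T1 ((Finset.filter_subset _ _).trans hTS) hT1c
  have c2 := hline T2 ((Finset.filter_subset _ _).trans hTS) hT2c
  have hsub : T \ (T1 ∪ T2) ⊆ R := by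
    intro x hx
    rw [Finset.mem_sdiff, Finset.mem_union, not_or] at hx
    obtain ⟨hxT, n1, n2⟩ := hx
    have hxS := Finset.mem_filter.1 (hTS hxT)
    have hxW : x ∈ W := subset_affineSpan ℝ _ hxT
    have m1 : x ∉ motqLine X W := fun h => n1 (Finset.mem_filter.2 ⟨hxT, h⟩)
    have m2 : g x ∉ motqLine Y W' := fun h => n2 (Finset.mem_filter.2 ⟨hxT, h⟩)
    refine Finset.mem_filter.2 ⟨?_, ?_⟩
    · unfold motqU motqIn
      exact Finset.mem_sdiff.2 ⟨Finset.mem_filter.2 ⟨hxS.1, hxW⟩, m1⟩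
    · unfold motqU motqIn
      exact Finset.mem_sdiff.2 ⟨Finset.mem_filter.2 ⟨hxS.2, (motn_apply_mem_img g W x).2 hxW⟩, m2⟩
  have hcardR : (T.card : ℝ) ≤ R.card + T1.card + T2.card := by
    have a : T.card ≤ (T \ (T1 ∪ T2)).card + (T1 ∪ T2).card := Finset.card_le_card_sdiff_add_card
    have b : (T1 ∪ T2).card ≤ T1.card + T2.card := Finset.card_union_le _ _
    have c : (T \ (T1 ∪ T2)).card ≤ R.card := Finset.card_le_card hsub
    exact_mod_cast (by omega : T.card ≤ R.card + T1.card + T2.card)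
  have hRc : η2 / 2 * ℓ ≤ (R.card : ℝ) := by linarith
  refine ⟨W, hfin, hRc, fun hc => ?_⟩
  have hRS : R ⊆ X.filter (fun x => g x ∈ Y) := by
    intro x hx
    obtain ⟨a, b⟩ := Finset.mem_filter.1 hx
    unfold motqU motqIn at a b
    exact Finset.mem_filter.2 ⟨(Finset.mem_filter.1 (Finset.mem_sdiff.1 a).1).1,
      (Finset.mem_filter.1 (Finset.mem_sdiff.1 b).1).1⟩
  have := hline R hRS hc
  linarith

/-- **MOTQ-2** a fixed pair of planes. -/
theorem motq_pair : ∃ C : ℝ, 0 < C ∧ ∀ (X Y : Finset (Pt 3)) (W W' : AffineSubspace ℝ (Pt 3))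
    (H0 : ℝ), Module.finrank ℝ W.direction = 2 → Module.finrank ℝ W'.direction = 2 → 0 < H0 →
    C * (((motqU X W).card : ℝ) * (motqU Y W').card) ^ ((1 : ℝ) / 4) ≤ H0 →
    ∀ 𝒢 : Finset Motion,
      (∀ g ∈ 𝒢, H0 ≤ (matchCount (motqU X W) (motqU Y W') g : ℝ) ∧
        ¬ Collinear ℝ (((motqU X W).filter (fun x => g x ∈ motqU Y W') : Finset (Pt 3)) :
          Set (Pt 3))) →
      (𝒢.card : ℝ) ≤ C * (((motqU X W).card : ℝ) * (motqU Y W').card) ^ ((3 : ℝ) / 2) / H0 ^ 2 := by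
  obtain ⟨C, hC, hgk⟩ := gk_spatial_planar_motions
  refine ⟨C, hC, ?_⟩
  intro X Y W W' H0 hW hW' hH0 hsmall 𝒢 h𝒢
  have hk : H0 ≤ (⌈H0⌉₊ : ℝ) := Nat.le_ceil H0
  have := hgk (motqU X W) (motqU Y W') ⌈H0⌉₊ (motq_coplanar_of_subset hW (motq_U_subset X W))
    (motq_coplanar_of_subset hW' (motq_U_subset Y W')) (hsmall.trans hk) 𝒢
    (fun g hg => ⟨Nat.ceil_le.2 (h𝒢 g hg).1, by
      convert (h𝒢 g hg).2⟩)
  refine this.trans ?_
  gcongr

theorem motq_rpow_three_half {x : ℝ} (hx : 0 ≤ x) : x ^ ((3 : ℝ) / 2) = x * Real.sqrt x := by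
  rcases hx.eq_or_lt with rfl | hx
  · simp [Real.zero_rpow]
  · rw [Real.sqrt_eq_rpow, show (3 : ℝ) / 2 = 1 + 1 / 2 by norm_num, Real.rpow_add hx, Real.rpow_one]

theorem motq_layer_aux {ι : Type} (A : Finset ι) (e : ι → ℝ) (H0 K : ℝ) (hH0 : 0 < H0) (hK : 0 ≤ K)
    (hcount : ∀ H : ℝ, H0 ≤ H → ((A.filter (fun i => H ≤ e i)).card : ℝ) ≤ K / H ^ 2) (j : ℕ) :
    ∀ H : ℝ, H0 ≤ H → (∀ i ∈ A, e i < 2 ^ j * H) →
      ∑ i ∈ A.filter (fun i => H ≤ e i), e i ^ ((3 : ℝ) / 2) ≤ 10 * K / Real.sqrt H := by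
  induction j with
  | zero =>
    intro H hH hlt
    have : A.filter (fun i => H ≤ e i) = ∅ := by
      refine Finset.filter_eq_empty_iff.2 fun i hi => ?_
      have := hlt i hi
      simp only [pow_zero, one_mul] at this
      exact not_le.2 this
    rw [this, Finset.sum_empty]
    positivity
  | succ j ih =>
    intro H hH hlt
    have hHpos : 0 < H := hH0.trans_le hH
    have h2 := ih (2 * H) (by linarith) (fun i hi => by
      have := hlt i hi
      rw [pow_succ] at this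
      linarith)
    have hsplit := (Finset.sum_filter_add_sum_filter_not (A.filter (fun i => H ≤ e i))
      (fun i => 2 * H ≤ e i) (fun i => e i ^ ((3 : ℝ) / 2))).symm
    have hf1 : (A.filter (fun i => H ≤ e i)).filter (fun i => 2 * H ≤ e i)
        = A.filter (fun i => 2 * H ≤ e i) := by
      ext i
      simp only [Finset.mem_filter]
      constructor
      · rintro ⟨⟨a, _⟩, c⟩
        exact ⟨a, c⟩
      · rintro ⟨a, c⟩
        exact ⟨⟨a, by linarith⟩, c⟩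
    rw [hf1] at hsplit
    have hsecond : ∑ i ∈ (A.filter (fun i => H ≤ e i)).filter (fun i => ¬ 2 * H ≤ e i),
        e i ^ ((3 : ℝ) / 2) ≤ K / H ^ 2 * (2 * H) ^ ((3 : ℝ) / 2) := by
      have hp : 0 ≤ (2 * H) ^ ((3 : ℝ) / 2) := by positivity
      calc ∑ i ∈ (A.filter (fun i => H ≤ e i)).filter (fun i => ¬ 2 * H ≤ e i), e i ^ ((3 : ℝ) / 2)
          ≤ ((A.filter (fun i => H ≤ e i)).filter (fun i => ¬ 2 * H ≤ e i)).card
              • (2 * H) ^ ((3 : ℝ) / 2) := by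
            refine Finset.sum_le_card_nsmul _ _ _ fun i hi => ?_
            simp only [Finset.mem_filter, not_le] at hi
            exact Real.rpow_le_rpow (by linarith [hi.1.2]) hi.2.le (by norm_num)
        _ = (((A.filter (fun i => H ≤ e i)).filter (fun i => ¬ 2 * H ≤ e i)).card : ℝ)
              * (2 * H) ^ ((3 : ℝ) / 2) := by rw [nsmul_eq_mul]
        _ ≤ ((A.filter (fun i => H ≤ e i)).card : ℝ) * (2 * H) ^ ((3 : ℝ) / 2) := by
            gcongr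
            exact Finset.filter_subset _ _
        _ ≤ K / H ^ 2 * (2 * H) ^ ((3 : ℝ) / 2) := by
            gcongr
            exact hcount H hH
    rw [hsplit]
    set s : ℝ := Real.sqrt H with hs
    set σ : ℝ := Real.sqrt 2 with hσ
    have hs0 : 0 < s := Real.sqrt_pos.2 hHpos
    have hσ0 : 0 < σ := Real.sqrt_pos.2 (by norm_num)
    have hs2 : s ^ 2 = H := Real.sq_sqrt hHpos.le
    have hσ2 : σ ^ 2 = 2 := Real.sq_sqrt (by norm_num)
    have e1 : Real.sqrt (2 * H) = σ * s := Real.sqrt_mul (by norm_num) H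
    have e2 : (2 * H) ^ ((3 : ℝ) / 2) = 2 * H * (σ * s) := by
      rw [motq_rpow_three_half (by positivity), e1]
    rw [e1] at h2
    rw [e2] at hsecond
    have hσle : 7 * σ ≤ 10 := by nlinarith
    have t1 : 10 * K / (σ * s) = 5 * σ * (K / s) := by
      field_simp
      nlinarith
    have t2 : K / H ^ 2 * (2 * H * (σ * s)) = 2 * σ * (K / s) := by
      rw [← hs2]
      field_simp
    have t3 : 10 * K / s = 10 * (K / s) := by ring
    rw [t1] at h2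
    rw [t2] at hsecond
    rw [t3]
    have hKs : 0 ≤ K / s := by positivity
    nlinarith

/-- **MOTQ-3** layer cake. -/
theorem motq_layer {ι : Type} (A : Finset ι) (e : ι → ℝ) (H0 K : ℝ) (hH0 : 0 < H0) (hK : 0 ≤ K)
    (he : ∀ i ∈ A, H0 ≤ e i)
    (hcount : ∀ H : ℝ, H0 ≤ H → ((A.filter (fun i => H ≤ e i)).card : ℝ) ≤ K / H ^ 2) :
    ∑ i ∈ A, e i ^ ((3 : ℝ) / 2) ≤ 10 * K / Real.sqrt H0 := by
  have hfil : A.filter (fun i => H0 ≤ e i) = A := Finset.filter_true_of_mem he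
  obtain ⟨B, hB⟩ : ∃ B : ℝ, ∀ i ∈ A, e i < B := by
    rcases A.eq_empty_or_nonempty with rfl | hne
    · exact ⟨0, by simp⟩
    · obtain ⟨i0, _, hmax⟩ := Finset.exists_max_image A e hne
      exact ⟨e i0 + 1, fun i hi => by linarith [hmax i hi]⟩
  obtain ⟨j, hj⟩ := pow_unbounded_of_one_lt (B / H0) one_lt_two
  have := motq_layer_aux A e H0 K hH0 hK hcount j H0 le_rfl (fun i hi => by
    rw [div_lt_iff₀ hH0] at hj
    linarith [hB i hi])
  rwa [hfil] at this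

/-- **MOTQ-4** `MotEff` + layer cake. -/
theorem motq_eff_sum (C2 K2 : ℝ) (hC2 : 0 < C2) (hK2 : 0 < K2)
    (heff : ∀ (m H : ℝ) (X : Finset (Pt 3)), 1 ≤ m → (X.card : ℝ) ≤ m → C2 * m ^ ((2 : ℝ) / 3) ≤ H →
      ∀ 𝓟 : Finset (AffineSubspace ℝ (Pt 3)),
        (∀ W ∈ 𝓟, Module.finrank ℝ W.direction = 2 ∧
          ∀ T ⊆ X.filter (fun x => x ∈ W), Collinear ℝ (T : Set (Pt 3)) →
            H ≤ ((X.filter (fun x => x ∈ W)).card : ℝ) - T.card) →
        (𝓟.card : ℝ) ≤ K2 * m ^ 2 / H ^ 2)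
    (m H0 : ℝ) (X : Finset (Pt 3)) (hm : 1 ≤ m) (hX : (X.card : ℝ) ≤ m)
    (hH0 : C2 * m ^ ((2 : ℝ) / 3) ≤ H0) (𝓟 : Finset (AffineSubspace ℝ (Pt 3)))
    (h𝓟 : ∀ W ∈ 𝓟, Module.finrank ℝ W.direction = 2 ∧ H0 ≤ ((motqU X W).card : ℝ)) :
    ∑ W ∈ 𝓟, ((motqU X W).card : ℝ) ^ ((3 : ℝ) / 2) ≤ 10 * (K2 * m ^ 2) / Real.sqrt H0 := by
  have hm0 : 0 < m := by linarith
  have hH0pos : 0 < H0 := lt_of_lt_of_le (by positivity) hH0
  refine motq_layer 𝓟 (fun W => ((motqU X W).card : ℝ)) H0 (K2 * m ^ 2) hH0pos (by positivity)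
    (fun W hW => (h𝓟 W hW).2) ?_
  intro H hH
  refine heff m H X hm hX (hH0.trans hH) _ ?_
  intro W hW
  rw [Finset.mem_filter] at hW
  refine ⟨(h𝓟 W hW.1).1, fun T hT hcol => ?_⟩
  obtain ⟨h1, -, h3⟩ := motq_line_spec X W
  have h4 : ((motqU X W).card : ℝ) = ((motqIn X W).card : ℝ) - (motqLine X W).card := by
    unfold motqU
    exact Finset.cast_card_sdiff h1
  have h5 : (T.card : ℝ) ≤ (motqLine X W).card := by exact_mod_cast h3 T hT hcol
  have h6 : H ≤ ((motqU X W).card : ℝ) := hW.2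
  have h7 : ((X.filter (fun x => x ∈ W)).card : ℝ) = ((motqIn X W).card : ℝ) := rfl
  rw [h7]
  linarith

/-- **MOTQ-5** numerics of the last step. -/
theorem motq_num (C K2 η2 Cp m ℓ : ℝ) (hC : 0 < C) (hK2 : 0 < K2) (hη2 : 0 < η2) (hCp : 1 ≤ Cp)
    (hm : 1 ≤ m) (hℓ : Cp * m ^ ((2 : ℝ) / 3) ≤ ℓ) :
    C / (η2 / 2 * ℓ) ^ 2 * (10 * (K2 * m ^ 2) / Real.sqrt (η2 / 2 * ℓ)) ^ 2
      ≤ 800 * C * K2 ^ 2 / η2 ^ 3 * m ^ 3 / ℓ ^ ((3 : ℝ) / 2) := by
  have hm0 : 0 < m := by linarith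
  have hm23 : 0 < m ^ ((2 : ℝ) / 3) := Real.rpow_pos_of_pos hm0 _
  have hℓ1 : m ^ ((2 : ℝ) / 3) ≤ ℓ := le_trans (by nlinarith) hℓ
  have hℓ0 : 0 < ℓ := hm23.trans_le hℓ1
  set L : ℝ := ℓ ^ ((3 : ℝ) / 2) with hL
  have hL0 : 0 < L := Real.rpow_pos_of_pos hℓ0 _
  have hL2 : L ^ 2 = ℓ ^ 3 := by
    rw [hL, ← Real.rpow_natCast, ← Real.rpow_mul hℓ0.le, ← Real.rpow_natCast]
    norm_num
  have hmL : m ≤ L := by
    have h1 : (m ^ ((2 : ℝ) / 3)) ^ ((3 : ℝ) / 2) ≤ ℓ ^ ((3 : ℝ) / 2) :=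
      Real.rpow_le_rpow hm23.le hℓ1 (by norm_num)
    rw [← Real.rpow_mul hm0.le] at h1
    norm_num at h1
    exact h1
  have hH0 : 0 < η2 / 2 * ℓ := by positivity
  have hsq : Real.sqrt (η2 / 2 * ℓ) ^ 2 = η2 / 2 * ℓ := Real.sq_sqrt hH0.le
  have e1 : C / (η2 / 2 * ℓ) ^ 2 * (10 * (K2 * m ^ 2) / Real.sqrt (η2 / 2 * ℓ)) ^ 2
      = 800 * C * K2 ^ 2 / η2 ^ 3 * (m ^ 4 / L ^ 2) := by
    rw [div_pow, hsq, hL2]
    field_simp
    ring
  have e2 : 800 * C * K2 ^ 2 / η2 ^ 3 * m ^ 3 / L = 800 * C * K2 ^ 2 / η2 ^ 3 * (m ^ 3 / L) := by ring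
  rw [e1, e2]
  have h3 : m ^ 4 / L ^ 2 ≤ m ^ 3 / L := by
    rw [div_le_div_iff₀ (by positivity) hL0]
    have : 0 < m ^ 3 * L := by positivity
    nlinarith
  gcongr

/-- **MOTQ-6** the contract. -/
theorem motq_pla (heff : MotEff) : MotPla := by
  obtain ⟨C2, K2, hC2, hK2, heff⟩ := heff
  obtain ⟨C, hC, hpair⟩ := motq_pair
  intro η1 η2 h1 h2
  have hη2 : 0 < η2 := by linarith
  refine ⟨max 1 (max (2 * C2 / η2) (2 * C / η2)), 800 * C * K2 ^ 2 / η2 ^ 3,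
    lt_of_lt_of_le one_pos (le_max_left _ _), by positivity, ?_⟩
  intro m ℓ X Y hm hX hY hℓ 𝒢 h𝒢
  set Cp := max 1 (max (2 * C2 / η2) (2 * C / η2)) with hCp
  have hCp1 : 1 ≤ Cp := le_max_left _ _
  have hCp2 : 2 * C2 / η2 ≤ Cp := (le_max_left _ _).trans (le_max_right _ _)
  have hCp3 : 2 * C / η2 ≤ Cp := (le_max_right _ _).trans (le_max_right _ _)
  have hm0 : 0 < m := by linarith
  have hm23 : 0 < m ^ ((2 : ℝ) / 3) := Real.rpow_pos_of_pos hm0 _
  have hℓ0 : 0 < ℓ := lt_of_lt_of_le (by positivity) hℓ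
  set H0 := η2 / 2 * ℓ with hH0
  have hH0pos : 0 < H0 := by positivity
  have key : ∀ c : ℝ, 2 * c / η2 ≤ Cp → c * m ^ ((2 : ℝ) / 3) ≤ H0 := by
    intro c hc
    have e : c = η2 / 2 * (2 * c / η2) := by field_simp
    calc c * m ^ ((2 : ℝ) / 3) = η2 / 2 * ((2 * c / η2) * m ^ ((2 : ℝ) / 3)) := by
          conv_lhs => rw [e]
          ring
      _ ≤ η2 / 2 * (Cp * m ^ ((2 : ℝ) / 3)) := by gcongr
      _ ≤ η2 / 2 * ℓ := by gcongr
  have hH0C2 := key C2 hCp2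
  have hH0C := key C hCp3
  choose! Wf hWf using fun g (hg : g ∈ 𝒢) =>
    motq_step1 η1 η2 ℓ h1 h2 hℓ0 X Y g (h𝒢 g hg).1 (h𝒢 g hg).2
  set 𝓟X := 𝒢.image Wf with h𝓟X
  set 𝓟Y := 𝒢.image (fun g => motImg g (Wf g)) with h𝓟Y
  have hrkX : ∀ W ∈ 𝓟X, Module.finrank ℝ W.direction = 2 ∧ H0 ≤ ((motqU X W).card : ℝ) := by
    intro W hW
    obtain ⟨g, hg, rfl⟩ := Finset.mem_image.1 hW
    refine ⟨(hWf g hg).1, (hWf g hg).2.1.trans ?_⟩
    unfold matchCount
    exact_mod_cast Finset.card_filter_le _ _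
  have hrkY : ∀ W ∈ 𝓟Y, Module.finrank ℝ W.direction = 2 ∧ H0 ≤ ((motqU Y W).card : ℝ) := by
    intro W hW
    obtain ⟨g, hg, rfl⟩ := Finset.mem_image.1 hW
    refine ⟨?_, (hWf g hg).2.1.trans ?_⟩
    · rw [motn_img_dir, LinearEquiv.finrank_map_eq]
      exact (hWf g hg).1
    · unfold matchCount
      have : ((motqU X (Wf g)).filter (fun x => g x ∈ motqU Y (motImg g (Wf g)))).card
          ≤ (motqU Y (motImg g (Wf g))).card :=
        Finset.card_le_card_of_injOn g (fun x hx => (Finset.mem_filter.1 hx).2)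
          (g.injective.injOn)
      exact_mod_cast this
  have hUX : ∀ W, ((motqU X W).card : ℝ) ≤ m := fun W => by
    refine le_trans ?_ hX
    exact_mod_cast Finset.card_le_card
      ((Finset.sdiff_subset).trans (Finset.filter_subset _ _))
  have hUY : ∀ W, ((motqU Y W).card : ℝ) ≤ m := fun W => by
    refine le_trans ?_ hY
    exact_mod_cast Finset.card_le_card
      ((Finset.sdiff_subset).trans (Finset.filter_subset _ _))
  have hcard : (𝒢.card : ℝ) = ∑ p ∈ 𝓟X ×ˢ 𝓟Y,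
      ((𝒢.filter (fun g => (Wf g, motImg g (Wf g)) = p)).card : ℝ) := by
    rw [← Nat.cast_sum]
    congr 1
    exact Finset.card_eq_sum_card_fiberwise (fun g hg => by
      simp only [Finset.coe_product, Set.mem_prod, Finset.mem_coe]
      exact ⟨Finset.mem_image_of_mem _ hg,
        Finset.mem_image_of_mem (fun g => motImg g (Wf g)) hg⟩)
  have hfib : ∀ p ∈ 𝓟X ×ˢ 𝓟Y,
      ((𝒢.filter (fun g => (Wf g, motImg g (Wf g)) = p)).card : ℝ)
        ≤ C / H0 ^ 2 * (((motqU X p.1).card : ℝ) ^ ((3 : ℝ) / 2)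
            * ((motqU Y p.2).card : ℝ) ^ ((3 : ℝ) / 2)) := by
    rintro ⟨W, W'⟩ hp
    obtain ⟨hW, hW'⟩ := Finset.mem_product.1 hp
    have hq : C * (((motqU X W).card : ℝ) * (motqU Y W').card) ^ ((1 : ℝ) / 4) ≤ H0 := by
      refine le_trans ?_ hH0C
      apply mul_le_mul_of_nonneg_left _ hC.le
      calc (((motqU X W).card : ℝ) * (motqU Y W').card) ^ ((1 : ℝ) / 4)
          ≤ (m * m) ^ ((1 : ℝ) / 4) := by
            apply Real.rpow_le_rpow (by positivity) _ (by norm_num)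
            exact mul_le_mul (hUX W) (hUY W') (Nat.cast_nonneg _) hm0.le
        _ = m ^ ((1 : ℝ) / 2) := by
            rw [← sq, ← Real.rpow_natCast, ← Real.rpow_mul hm0.le]
            norm_num
        _ ≤ m ^ ((2 : ℝ) / 3) := Real.rpow_le_rpow_of_exponent_le hm (by norm_num)
    have := hpair X Y W W' H0 (hrkX W hW).1 (hrkY W' hW').1 hH0pos hq
      (𝒢.filter (fun g => (Wf g, motImg g (Wf g)) = (W, W'))) (by
        intro g hg
        obtain ⟨hg1, hg2⟩ := Finset.mem_filter.1 hg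
        obtain ⟨e1, e2⟩ := Prod.mk.inj hg2
        have h3 := (hWf g hg1).2
        rw [e2, e1] at h3
        exact h3)
    refine this.trans (le_of_eq ?_)
    rw [Real.mul_rpow (Nat.cast_nonneg _) (Nat.cast_nonneg _)]
    ring
  have hsX := motq_eff_sum C2 K2 hC2 hK2 heff m H0 X hm hX hH0C2 𝓟X hrkX
  have hsY := motq_eff_sum C2 K2 hC2 hK2 heff m H0 Y hm hY hH0C2 𝓟Y hrkY
  have hsX0 : 0 ≤ ∑ W ∈ 𝓟X, ((motqU X W).card : ℝ) ^ ((3 : ℝ) / 2) :=
    Finset.sum_nonneg fun _ _ => by positivity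
  have hsY0 : 0 ≤ ∑ W ∈ 𝓟Y, ((motqU Y W).card : ℝ) ^ ((3 : ℝ) / 2) :=
    Finset.sum_nonneg fun _ _ => by positivity
  calc (𝒢.card : ℝ) ≤ ∑ p ∈ 𝓟X ×ˢ 𝓟Y, C / H0 ^ 2 * (((motqU X p.1).card : ℝ) ^ ((3 : ℝ) / 2)
            * ((motqU Y p.2).card : ℝ) ^ ((3 : ℝ) / 2)) := by
        rw [hcard]
        exact Finset.sum_le_sum hfib
    _ = C / H0 ^ 2 * ((∑ W ∈ 𝓟X, ((motqU X W).card : ℝ) ^ ((3 : ℝ) / 2))
          * ∑ W ∈ 𝓟Y, ((motqU Y W).card : ℝ) ^ ((3 : ℝ) / 2)) := by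
        rw [← Finset.mul_sum, Finset.sum_mul_sum, Finset.sum_product]
    _ ≤ C / H0 ^ 2 * (10 * (K2 * m ^ 2) / Real.sqrt H0) ^ 2 := by
        rw [sq (10 * (K2 * m ^ 2) / Real.sqrt H0)]
        apply mul_le_mul_of_nonneg_left _ (by positivity)
        exact mul_le_mul hsX hsY hsY0 (hsX0.trans hsX)
    _ ≤ _ := motq_num C K2 η2 Cp m ℓ hC hK2 hη2 hCp1 hm hℓ

end Claimed.Agent.R273
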