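-- KEEP
import Claimed.Agent.R273.MotEff
import Claimed.Agent.R273.MotPla
import Claimed.Agent.R273.MotAd
import Claimed.Agent.R273.MotCore
import Claimed.Agent.R273.MotDual
import Claimed.Agent.R273.MotPartB
import Claimed.Agent.R273.MotLineB

/-!
# Row 273, unit S7 (motions.tex): the deliverable `mot_rich : RichStmt` of the unit.     Chief: helper62.

All the contracts of `MotTop.lean` / `MotLocTop.lean` are discharged here:
`motd_dual` (Beck twice) → `motc_core` (polynomial argument) → `mota_gen` (general type), `mot_eff` → `motq_pla` (planar type),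
`motl_loc_of_parts`, `motl_locStmt_of_loc` (mot:local), `motp_partition` (mot:partition), `motn_lineA`, `motn_lineB`, `motn_par` (mot:line-images,
mot:parallel-pairs), `mot_mass_of_loc`, `mot_lineMass`, `mot_bucket`, `mot_rich_of_bucket` (proof of mot:rich).
-/

set_option autoImplicit false

namespace Claimed.Agent.R273

/-- **mot:rich** (`RichStmt` of `Top.lean`). -/
theorem mot_rich : RichStmt := by
  obtain ⟨η1, h0, h1, hloc⟩ := motl_locStmt_of_loc
    (motl_loc_of_parts (mota_gen (motc_core motd_dual)) (motq_pla (motl_eff_of_stmt mot_eff)))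
  exact mot_rich_of_bucket (mot_bucket (η1 / 2) (by positivity) (by linarith) motp_partition
    (mot_mass_of_loc η1 h0 hloc) (mot_lineMass motn_lineA motn_lineB motn_par))

end Claimed.Agent.R273
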