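import Claimed.Agent.R273.MotLine

/-!
# Row 273, unit S7, package MOT-SUM: `RichStmt` from the contracts of `MotTop.lean`.      Architect: helper62.

Paper: motions.tex l.801-1046 (proof of mot:rich), l.545-580 (region discard).

## Chain
  `mot_loc_of_parts`    : MotGenStmt η₁ η₂ → MotPlanarStmt η₁ η₂ → MotLocStmt η₁                     (glue, proved)
  `mot_mass_of_loc`     : MotLocStmt η₁ → MotMassStmt (η₁/2)                                        LEAF MOT-SUM-A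
  `mot_split`           : every motion has non-line mass ≥ k/4 or line mass ≥ η k/2                 LEAF MOT-SUM-B
  `mot_nonline_bound`   : double counting over the pairs of classes                                 LEAF MOT-SUM-C
  `mot_offdiag`, `mot_line_pair_np`, `mot_line_pair_par`, `mot_line_swap`, `mot_lineMass`            LEAVES MOT-SUM-D1, D2, D3
  `mot_num`             : all the numerics of one bucket                                            LEAF MOT-SUM-E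
  `mot_bucket`          : MotBucketStmt                                                             (glue, proved)
  `mot_dyadic`, `mot_rich_of_bucket` : MotBucketStmt → RichStmt                                     LEAF MOT-SUM-F
  `mot_rich_of_parts`   : RichStmt from the contracts                                               (glue, proved)
API of the definitions (`motImg`, `motSep`, `motRich`, `motWt`): section API below                  LEAF MOT-API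
-/

set_option autoImplicit false

namespace Claimed.Agent.R273

open scoped Classical

/-! ## API  (LEAF MOT-API: all easy, Mathlib only; `st_line_param`, `st_line_unique`, `st_line_through`, `st_collinear_of_line`, `st_rich_lines` of St*.lean are proved) -/

theorem matchCount_eq_card (X Y : Finset (Pt 3)) (g : Motion) :
    matchCount X Y g = (motSet X Y g).card := rfl

theorem mem_motSet {X Y : Finset (Pt 3)} {g : Motion} {x : Pt 3} :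
    x ∈ motSet X Y g ↔ x ∈ X ∧ g x ∈ Y := by
  unfold motSet
  rw [Finset.mem_filter]

theorem mem_motImg (g : Motion) (L : AffineSubspace ℝ (Pt 3)) (y : Pt 3) :
    y ∈ motImg g L ↔ ∃ x ∈ L, g x = y := motn_mem_img g L y

theorem apply_mem_motImg (g : Motion) (L : AffineSubspace ℝ (Pt 3)) (x : Pt 3) :
    g x ∈ motImg g L ↔ x ∈ L := motn_apply_mem_img g L x

theorem motImg_isLine (g : Motion) (L : AffineSubspace ℝ (Pt 3)) (h : stIsLine L) :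
    stIsLine (motImg g L) := motn_img_line g L h

theorem motImg_injective (g : Motion) : Function.Injective (motImg g) := motn_img_inj g

theorem motImg_line (g : Motion) (x y : Pt 3) : motImg g line[ℝ, x, y] = line[ℝ, g x, g y] := by
  unfold motImg
  rw [AffineSubspace.map_span, Set.image_pair]
  rfl

theorem motImg_direction_eq_iff (g : Motion) (L L' : AffineSubspace ℝ (Pt 3)) :
    (motImg g L).direction = (motImg g L').direction ↔ L.direction = L'.direction :=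
  motn_img_dir_eq g L L'

/-- two distinct parallel lines have a positive separation (foot of the perpendicular) -/
theorem motSep_exists (L L' : AffineSubspace ℝ (Pt 3)) (hL : stIsLine L) (hL' : stIsLine L')
    (hne : L ≠ L') (hd : L.direction = L'.direction) : ∃ ρ : ℝ, 0 < ρ ∧ motSep L L' ρ :=
  motn_sep_exists L L' hL hL' hne hd

theorem motSep_img (g : Motion) (L L' : AffineSubspace ℝ (Pt 3)) (ρ : ℝ) (h : motSep L L' ρ) :
    motSep (motImg g L) (motImg g L') ρ := motn_sep_img g L L' ρ h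

theorem mem_motRich (X : Finset (Pt 3)) (q : ℝ) (hq : 1 < q) (L : AffineSubspace ℝ (Pt 3)) :
    L ∈ motRich X q ↔ stIsLine L ∧ q ≤ ((X.filter (fun x => x ∈ L)).card : ℝ) :=
  motn_mem_rich X q hq L

/-- `st_rich_lines` with `k = ⌈q⌉₊ ≥ 2`; `N²/q³ ≤ N/q` because `N ≤ q²`. -/
theorem motRich_card : ∃ C : ℝ, 0 < C ∧ ∀ (X : Finset (Pt 3)) (N q : ℝ), (X.card : ℝ) ≤ N → 1 < q →
    N ≤ q ^ 2 → ((motRich X q).card : ℝ) ≤ C * (N / q) := by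
  obtain ⟨C, hC, h⟩ := motn_rich_card
  refine ⟨2 * C, by positivity, fun X N q hX hq hN => (h X q hq).trans ?_⟩
  have hq0 : 0 < q := by linarith
  have hX0 : (0 : ℝ) ≤ (X.card : ℝ) := Nat.cast_nonneg _
  have hN0 : 0 ≤ N := hX0.trans hX
  have h1 : (X.card : ℝ) / q ≤ N / q := by gcongr
  have h2 : (X.card : ℝ) ^ 2 / q ^ 3 ≤ N / q := by
    rw [div_le_div_iff₀ (by positivity) hq0]
    have h3 : (X.card : ℝ) ^ 2 ≤ N * q ^ 2 := by
      calc (X.card : ℝ) ^ 2 ≤ N ^ 2 := by gcongr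
        _ = N * N := sq N
        _ ≤ N * q ^ 2 := by gcongr
    calc (X.card : ℝ) ^ 2 * q ≤ N * q ^ 2 * q := by gcongr
      _ = N * q ^ 3 := by ring
  calc C * ((X.card : ℝ) ^ 2 / q ^ 3 + (X.card : ℝ) / q) ≤ C * (N / q + N / q) := by gcongr
    _ = 2 * C * (N / q) := by ring

theorem motWt_le_cap (X Y : Finset (Pt 3)) (g : Motion) (L : AffineSubspace ℝ (Pt 3)) (H : ℝ)
    (hL : stIsLine L) (hcap : motCap X H) : (motWt X Y g L : ℝ) ≤ H :=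
  (motn_cap_line X Y H hcap L hL).2 g

/-! ## mot:local from its two types -/

theorem mot_loc_of_parts (η₁ η₂ : ℝ) (hgen : MotGenStmt η₁ η₂) (hpl : MotPlanarStmt η₁ η₂) :
    MotLocStmt η₁ := by
  obtain ⟨Cg, Kg, hCg, hKg, hG⟩ := hgen
  obtain ⟨Cp, Kp, hCp, hKp, hP⟩ := hpl
  refine ⟨max Cg Cp, Kg + Kp, lt_max_of_lt_left hCg, by positivity, ?_⟩
  intro m ℓ X Y hm hX hY hℓ 𝒢 h𝒢
  have hm0 : 0 ≤ m ^ ((2 : ℝ) / 3) := Real.rpow_nonneg (by linarith) _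
  have h1 : Cg * m ^ ((2 : ℝ) / 3) ≤ ℓ :=
    (mul_le_mul_of_nonneg_right (le_max_left _ _) hm0).trans hℓ
  have h2 : Cp * m ^ ((2 : ℝ) / 3) ≤ ℓ :=
    (mul_le_mul_of_nonneg_right (le_max_right _ _) hm0).trans hℓ
  set Q : Motion → Prop := fun g =>
    ∀ T ⊆ motSet X Y g, Coplanar ℝ (T : Set (Pt 3)) → (T.card : ℝ) < η₂ * ℓ with hQ
  have e1 := hG m ℓ X Y hm hX hY h1 (𝒢.filter Q) (by
    intro g hg
    obtain ⟨hg1, hg2⟩ := Finset.mem_filter.1 hg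
    obtain ⟨a, b, c⟩ := h𝒢 g hg1
    exact ⟨a, b, c, hg2⟩)
  have e2 := hP m ℓ X Y hm hX hY h2 (𝒢.filter (fun g => ¬ Q g)) (by
    intro g hg
    obtain ⟨hg1, hg2⟩ := Finset.mem_filter.1 hg
    obtain ⟨a, b, c⟩ := h𝒢 g hg1
    refine ⟨a, b, c, ?_⟩
    simp only [hQ, not_forall, not_lt] at hg2
    obtain ⟨T, hT, hT2, hT3⟩ := hg2
    exact ⟨T, hT, hT2, hT3⟩)
  have e3 : (𝒢.card : ℝ) = ((𝒢.filter Q).card : ℝ) + ((𝒢.filter (fun g => ¬ Q g)).card : ℝ) := by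
    rw [← Nat.cast_add, Finset.card_filter_add_card_filter_not]
  rw [e3, add_mul, add_div]
  exact add_le_add e1 e2

/-! ## LEAF MOT-SUM-A: the local match mass

PLAN.  `(Cl, Kl)` from `MotLocStmt η₁`; take `Cm = Cl`, `Km = 2 Kl / (1 - 2^(-1/2))` (any bound of the series, e.g. `Km = 8 Kl`).
For `g ∈ 𝒢` put `i(g) = ⌊log₂ (k_g / b)⌋₊`, `ℓ_i = 2^i b`; then `ℓ_i ≤ k_g < 2 ℓ_i`.  A collinear `T ⊆ X_g` has `|T| < (η₁/2) k_g < η₁ ℓ_i`.
So `#{g : i(g) = i} ≤ Kl m³ / ℓ_i^(3/2)` and the mass of this class is `≤ 2 ℓ_i Kl m³/ℓ_i^(3/2) = 2 Kl m³ / sqrt (2^i b)`.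
`∑_i 2^(-i/2) ≤ 4`.  (`Finset.sum_fiberwise_of_maps_to` over `i ∈ range I`, `I` = a bound of the `i(g)`; or use `mot_dyadic_gen` below.) -/

/-- abstract dyadic summation: `f ≥ b > 0` on `𝒢`, and for every `i` the class `{2^i b ≤ f < 2^(i+1) b}` has total weight `≤ B ρ^i`. -/
theorem mot_dyadic_gen {ι : Type} (𝒢 : Finset ι) (f wt : ι → ℝ) (b B ρ : ℝ) (hb : 0 < b) (hB : 0 ≤ B)
    (hρ0 : 0 ≤ ρ) (hρ : ρ < 1) (hf : ∀ g ∈ 𝒢, b ≤ f g)
    (hcls : ∀ i : ℕ, ∑ g ∈ 𝒢.filter (fun g => 2 ^ i * b ≤ f g ∧ f g < 2 ^ (i + 1) * b), wt g ≤ B * ρ ^ i) :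
    ∑ g ∈ 𝒢, wt g ≤ B / (1 - ρ) := by
  have hex : ∀ g ∈ 𝒢, ∃ i : ℕ, 2 ^ i * b ≤ f g ∧ f g < 2 ^ (i + 1) * b := by
    intro g hg
    have h1 : 1 ≤ f g / b := by rw [le_div_iff₀ hb, one_mul]; exact hf g hg
    obtain ⟨n, hn1, hn2⟩ := exists_nat_pow_near h1 (by norm_num : (1 : ℝ) < 2)
    exact ⟨n, by rwa [le_div_iff₀ hb] at hn1, by rwa [div_lt_iff₀ hb] at hn2⟩
  choose! idx hidx using hex
  have huniq : ∀ g ∈ 𝒢, ∀ i : ℕ, (2 ^ i * b ≤ f g ∧ f g < 2 ^ (i + 1) * b) → idx g = i := by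
    intro g hg i hi
    obtain ⟨h1, h2⟩ := hidx g hg
    have e1 : (2 : ℝ) ^ i < 2 ^ (idx g + 1) :=
      lt_of_mul_lt_mul_right (lt_of_le_of_lt hi.1 h2) hb.le
    have e2 : (2 : ℝ) ^ (idx g) < 2 ^ (i + 1) :=
      lt_of_mul_lt_mul_right (lt_of_le_of_lt h1 hi.2) hb.le
    have e3 := (pow_lt_pow_iff_right₀ (by norm_num : (1 : ℝ) < 2)).1 e1
    have e4 := (pow_lt_pow_iff_right₀ (by norm_num : (1 : ℝ) < 2)).1 e2
    omega
  have hfib : ∀ i : ℕ, 𝒢.filter (fun g => idx g = i) =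
      𝒢.filter (fun g => 2 ^ i * b ≤ f g ∧ f g < 2 ^ (i + 1) * b) := by
    intro i
    refine Finset.filter_congr fun g hg => ⟨fun h => h ▸ hidx g hg, fun h => huniq g hg i h⟩
  have hsum : ∑ g ∈ 𝒢, wt g = ∑ i ∈ 𝒢.image idx, ∑ g ∈ 𝒢.filter (fun g => idx g = i), wt g :=
    (Finset.sum_fiberwise_of_maps_to (fun g hg => Finset.mem_image_of_mem idx hg) wt).symm
  have hgeo : ∑ i ∈ 𝒢.image idx, ρ ^ i ≤ (1 - ρ)⁻¹ := by
    rw [← tsum_geometric_of_lt_one hρ0 hρ]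
    exact (summable_geometric_of_lt_one hρ0 hρ).sum_le_tsum _ (fun i _ => pow_nonneg hρ0 i)
  calc ∑ g ∈ 𝒢, wt g = ∑ i ∈ 𝒢.image idx, ∑ g ∈ 𝒢.filter (fun g => idx g = i), wt g := hsum
    _ ≤ ∑ i ∈ 𝒢.image idx, B * ρ ^ i := Finset.sum_le_sum fun i _ => by rw [hfib i]; exact hcls i
    _ = B * ∑ i ∈ 𝒢.image idx, ρ ^ i := by rw [Finset.mul_sum]
    _ ≤ B * (1 - ρ)⁻¹ := mul_le_mul_of_nonneg_left hgeo hB
    _ = B / (1 - ρ) := by rw [div_eq_mul_inv]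

theorem mot_sqrt_dy (i : ℕ) (b : ℝ) (hb : 0 ≤ b) :
    Real.sqrt (2 ^ i * b) = (Real.sqrt 2) ^ i * Real.sqrt b := by
  have h2 : (Real.sqrt 2) ^ i * (Real.sqrt 2) ^ i = 2 ^ i := by
    rw [← mul_pow, Real.mul_self_sqrt (by norm_num)]
  have hb' : Real.sqrt b * Real.sqrt b = b := Real.mul_self_sqrt hb
  have key : 2 ^ i * b = ((Real.sqrt 2) ^ i * Real.sqrt b) * ((Real.sqrt 2) ^ i * Real.sqrt b) := by
    linear_combination (-(Real.sqrt b * Real.sqrt b)) * h2 - 2 ^ i * hb'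
  rw [key, Real.sqrt_mul_self (by positivity)]

theorem mot_rpow_three_half (x : ℝ) (hx : 0 < x) : x ^ ((3 : ℝ) / 2) = x * Real.sqrt x := by
  rw [show (3 : ℝ) / 2 = 1 + 1 / 2 by norm_num, Real.rpow_add hx, Real.rpow_one, Real.sqrt_eq_rpow]

theorem mot_mass_of_loc (η₁ : ℝ) (hη : 0 < η₁) (h : MotLocStmt η₁) : MotMassStmt (η₁ / 2) := by
  obtain ⟨Cl, Kl, hCl, hKl, H⟩ := h
  have hs2 : 1 < Real.sqrt 2 := by
    rw [show (1 : ℝ) = Real.sqrt 1 by simp]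
    exact Real.sqrt_lt_sqrt (by norm_num) (by norm_num)
  have hρ1 : (Real.sqrt 2)⁻¹ < 1 := inv_lt_one_of_one_lt₀ hs2
  have hρ0 : 0 ≤ (Real.sqrt 2)⁻¹ := by positivity
  have h1ρ : 0 < 1 - (Real.sqrt 2)⁻¹ := by linarith
  refine ⟨Cl, 2 * Kl / (1 - (Real.sqrt 2)⁻¹), hCl, by positivity, ?_⟩
  intro m b X Y hm hX hY hb 𝒢 h𝒢
  have hm0 : 0 < m := by linarith
  have hb0 : 0 < b := lt_of_lt_of_le (by positivity) hb
  have hsb : 0 < Real.sqrt b := Real.sqrt_pos.2 hb0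
  have hmain := mot_dyadic_gen 𝒢 (fun g => (matchCount X Y g : ℝ)) (fun g => (matchCount X Y g : ℝ)) b
    (2 * Kl * m ^ 3 / Real.sqrt b) (Real.sqrt 2)⁻¹ hb0 (by positivity) hρ0 hρ1
    (fun g hg => (h𝒢 g hg).1) (by
      intro i
      set ℓ : ℝ := 2 ^ i * b with hℓ
      have hℓ0 : 0 < ℓ := by positivity
      have hbℓ : b ≤ ℓ := by
        rw [hℓ]
        have : (1 : ℝ) ≤ 2 ^ i := one_le_pow₀ (by norm_num)
        nlinarith
      set 𝒞 := 𝒢.filter (fun g => ℓ ≤ (matchCount X Y g : ℝ) ∧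
        (matchCount X Y g : ℝ) < 2 ^ (i + 1) * b) with h𝒞
      have h2ℓ : (2 : ℝ) ^ (i + 1) * b = 2 * ℓ := by rw [hℓ]; ring
      have hcard := H m ℓ X Y hm hX hY (hb.trans hbℓ) 𝒞 (by
        intro g hg
        obtain ⟨hg1, hg2, hg3⟩ := Finset.mem_filter.1 hg
        rw [h2ℓ] at hg3
        refine ⟨hg2, hg3, fun T hT hc => ?_⟩
        have := (h𝒢 g hg1).2 T hT hc
        nlinarith)
      have hsum : ∑ g ∈ 𝒞, (matchCount X Y g : ℝ) ≤ (𝒞.card : ℝ) * (2 * ℓ) := by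
        rw [← nsmul_eq_mul, ← Finset.sum_const]
        refine Finset.sum_le_sum fun g hg => ?_
        have := (Finset.mem_filter.1 hg).2.2
        rw [h2ℓ] at this
        exact this.le
      have hsℓ : Real.sqrt ℓ = (Real.sqrt 2) ^ i * Real.sqrt b := mot_sqrt_dy i b hb0.le
      have hsℓ0 : 0 < Real.sqrt ℓ := Real.sqrt_pos.2 hℓ0
      calc ∑ g ∈ 𝒞, (matchCount X Y g : ℝ) ≤ (𝒞.card : ℝ) * (2 * ℓ) := hsum
        _ ≤ (Kl * m ^ 3 / ℓ ^ ((3 : ℝ) / 2)) * (2 * ℓ) :=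
            mul_le_mul_of_nonneg_right hcard (by positivity)
        _ = 2 * Kl * m ^ 3 / Real.sqrt b * (Real.sqrt 2)⁻¹ ^ i := by
            rw [mot_rpow_three_half ℓ hℓ0, hsℓ, inv_pow]
            field_simp)
  calc ∑ g ∈ 𝒢, (matchCount X Y g : ℝ) ≤ 2 * Kl * m ^ 3 / Real.sqrt b / (1 - (Real.sqrt 2)⁻¹) := hmain
    _ = 2 * Kl / (1 - (Real.sqrt 2)⁻¹) * m ^ 3 / Real.sqrt b := by
        field_simp

/-! ## LEAF MOT-SUM-B: the dichotomy for one motion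

PLAN.  `I = motIdx ..`, `n p = motLoc .. p`.  (1) `∑_{p ∈ I} n p = k_g` (`Finset.card_eq_sum_card_image`: the fibre of `x ↦ (cX x, cY (g x))` over `p` is
`motSet (motCls X cX p.1) (motCls Y cY p.2) g`).  (2) `∑_{p ∈ I, n p < b} n p ≤ |I| b ≤ k/4`.  (3) So the sum over `{b ≤ n p, nonline}` is `≥ k/4` or the sum over
`I_l = {p ∈ I : b ≤ n p, ¬ nonline}` is `≥ k/2`.  (4) For `p ∈ I_l` choose a collinear `T_p ⊆` fibre with `η n p ≤ |T_p|`; `|T_p| ≥ η b > 1`, so `T_p` has two distinct points `x, x'`;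
`L_p = line[ℝ, x, x']` contains `T_p` (`st_line_of_collinear`), so `L_p ∈ motRich X (η b)`, and `motImg g L_p = line[ℝ, g x, g x']` contains the `|T_p|` points `g T_p` of `Y`.
(5) the `T_p` are pairwise disjoint (different fibres) and `⋃ T_p ⊆ ⋃_{L ∈ 𝓛_g} (motSet X Y g).filter (· ∈ L)`, so `η k/2 ≤ ∑ |T_p| = |⋃ T_p| ≤ ∑_{L ∈ 𝓛_g} motWt X Y g L`
(`Finset.card_biUnion`, `Finset.card_biUnion_le`). -/
theorem mot_split (η b k : ℝ) (X Y : Finset (Pt 3)) (cX cY : Pt 3 → ℕ) (g : Motion) (hη : 0 < η)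
    (hq : 1 < η * b) (hidx : ((motIdx X Y cX cY g).card : ℝ) * b ≤ k / 4)
    (hk : k ≤ (matchCount X Y g : ℝ)) :
    k / 4 ≤ ∑ p ∈ (motIdx X Y cX cY g).filter (fun p => b ≤ (motLoc X Y cX cY g p : ℝ) ∧
        motNonline η (motCls X cX p.1) (motCls Y cY p.2) g), (motLoc X Y cX cY g p : ℝ)
    ∨ η * (k / 2) ≤ ∑ L ∈ (motRich X (η * b)).filter (fun L => motImg g L ∈ motRich Y (η * b)),
        (motWt X Y g L : ℝ) := by
  have hb : 0 < b := by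
    by_contra h
    push Not at h
    nlinarith
  obtain ⟨I, hI⟩ : ∃ I, I = motIdx X Y cX cY g := ⟨_, rfl⟩
  rw [← hI] at hidx ⊢
  -- the fibres
  have hfib : ∀ p : ℕ × ℕ, motSet (motCls X cX p.1) (motCls Y cY p.2) g =
      (motSet X Y g).filter (fun x => (cX x, cY (g x)) = p) := by
    intro p
    ext x
    simp only [mem_motSet, motCls, Finset.mem_filter, Prod.ext_iff]
    tauto
  have hn : ∀ p : ℕ × ℕ, motLoc X Y cX cY g p =
      ((motSet X Y g).filter (fun x => (cX x, cY (g x)) = p)).card := by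
    intro p
    unfold motLoc
    rw [matchCount_eq_card, hfib]
  have hsum : (matchCount X Y g : ℝ) = ∑ p ∈ I, (motLoc X Y cX cY g p : ℝ) := by
    rw [matchCount_eq_card, Finset.card_eq_sum_card_image (fun x => (cX x, cY (g x))), hI]
    unfold motIdx
    rw [Nat.cast_sum]
    exact Finset.sum_congr rfl fun p _ => by rw [hn]
  by_cases hcase : k / 4 ≤ ∑ p ∈ I.filter (fun p => b ≤ (motLoc X Y cX cY g p : ℝ) ∧
        motNonline η (motCls X cX p.1) (motCls Y cY p.2) g), (motLoc X Y cX cY g p : ℝ)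
  · exact Or.inl hcase
  right
  push Not at hcase
  obtain ⟨I3, hI3⟩ : ∃ I3, I3 = I.filter (fun p => b ≤ (motLoc X Y cX cY g p : ℝ) ∧
        ¬ motNonline η (motCls X cX p.1) (motCls Y cY p.2) g) := ⟨_, rfl⟩
  have hsmall : ∑ p ∈ I.filter (fun p => ¬ b ≤ (motLoc X Y cX cY g p : ℝ)),
      (motLoc X Y cX cY g p : ℝ) ≤ k / 4 := by
    refine le_trans ?_ hidx
    calc _ ≤ ∑ _p ∈ I.filter (fun p => ¬ b ≤ (motLoc X Y cX cY g p : ℝ)), b := by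
          apply Finset.sum_le_sum
          intro p hp
          exact (not_le.1 (Finset.mem_filter.1 hp).2).le
      _ = ((I.filter (fun p => ¬ b ≤ (motLoc X Y cX cY g p : ℝ))).card : ℝ) * b := by
          rw [Finset.sum_const, nsmul_eq_mul]
      _ ≤ (I.card : ℝ) * b := by
          apply mul_le_mul_of_nonneg_right _ hb.le
          exact_mod_cast Finset.card_le_card (Finset.filter_subset _ _)
  have hdecomp : ∑ p ∈ I, (motLoc X Y cX cY g p : ℝ) =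
      (∑ p ∈ I.filter (fun p => b ≤ (motLoc X Y cX cY g p : ℝ) ∧
        motNonline η (motCls X cX p.1) (motCls Y cY p.2) g), (motLoc X Y cX cY g p : ℝ) +
      ∑ p ∈ I3, (motLoc X Y cX cY g p : ℝ)) +
      ∑ p ∈ I.filter (fun p => ¬ b ≤ (motLoc X Y cX cY g p : ℝ)), (motLoc X Y cX cY g p : ℝ) := by
    rw [hI3, ← Finset.filter_filter, ← Finset.filter_filter, Finset.sum_filter_add_sum_filter_not,
      Finset.sum_filter_add_sum_filter_not]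
  have hI3sum : k / 2 ≤ ∑ p ∈ I3, (motLoc X Y cX cY g p : ℝ) := by
    rw [hsum, hdecomp] at hk
    linarith
  -- the collinear sets
  have hch : ∀ p : ℕ × ℕ, ∃ T : Finset (Pt 3), p ∈ I3 →
      (T ⊆ (motSet X Y g).filter (fun x => (cX x, cY (g x)) = p) ∧
        Collinear ℝ (T : Set (Pt 3)) ∧ η * (motLoc X Y cX cY g p : ℝ) ≤ (T.card : ℝ)) := by
    intro p
    by_cases hp : p ∈ I3
    · rw [hI3] at hp
      have h2 := (Finset.mem_filter.1 hp).2.2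
      unfold motNonline at h2
      push Not at h2
      obtain ⟨T, hT1, hT2, hT3⟩ := h2
      rw [hfib] at hT1
      exact ⟨T, fun _ => ⟨hT1, hT2, hT3⟩⟩
    · exact ⟨∅, fun h => absurd h hp⟩
  choose T hT using hch
  have hTb : ∀ p ∈ I3, η * b ≤ ((T p).card : ℝ) := by
    intro p hp
    refine le_trans ?_ (hT p hp).2.2
    apply mul_le_mul_of_nonneg_left _ hη.le
    rw [hI3] at hp
    exact (Finset.mem_filter.1 hp).2.1
  -- every `T p` lies on a line of the family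
  have hline : ∀ p ∈ I3, ∃ L ∈ (motRich X (η * b)).filter (fun L => motImg g L ∈ motRich Y (η * b)),
      ∀ x ∈ T p, x ∈ L := by
    intro p hp
    have h1 : 1 < (T p).card := by
      have : (1 : ℝ) < ((T p).card : ℝ) := lt_of_lt_of_le hq (hTb p hp)
      exact_mod_cast this
    obtain ⟨x, hx, x', hx', hne⟩ := Finset.one_lt_card.1 h1
    have hsubL : ∀ z ∈ T p, z ∈ line[ℝ, x, x'] := fun z hz =>
      st_line_of_collinear _ (hT p hp).2.1 x x' (Finset.mem_coe.2 hx) (Finset.mem_coe.2 hx') hne z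
        (Finset.mem_coe.2 hz)
    have hTset : ∀ z ∈ T p, z ∈ X ∧ g z ∈ Y := fun z hz =>
      mem_motSet.1 (Finset.mem_filter.1 ((hT p hp).1 hz)).1
    have hl := (st_line_through x x' hne).1
    refine ⟨line[ℝ, x, x'], Finset.mem_filter.2 ⟨?_, ?_⟩, hsubL⟩
    · rw [mem_motRich X _ hq]
      refine ⟨hl, (hTb p hp).trans ?_⟩
      exact_mod_cast Finset.card_le_card (fun z hz =>
        Finset.mem_filter.2 ⟨(hTset z hz).1, hsubL z hz⟩)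
    · rw [mem_motRich Y _ hq]
      refine ⟨motImg_isLine g _ hl, (hTb p hp).trans ?_⟩
      have : (T p).card ≤ (Y.filter (fun y => y ∈ motImg g line[ℝ, x, x'])).card := by
        apply Finset.card_le_card_of_injOn (fun z => g z)
        · intro z hz
          exact Finset.mem_coe.2 (Finset.mem_filter.2 ⟨(hTset z hz).2,
            (apply_mem_motImg g _ z).2 (hsubL z hz)⟩)
        · intro z _ z' _ h
          exact g.injective h
      exact_mod_cast this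
  have hdisj : ∀ p ∈ I3, ∀ p' ∈ I3, p ≠ p' → Disjoint (T p) (T p') := by
    intro p hp p' hp' hne
    rw [Finset.disjoint_left]
    intro z hz hz'
    apply hne
    rw [← (Finset.mem_filter.1 ((hT p hp).1 hz)).2, ← (Finset.mem_filter.1 ((hT p' hp').1 hz')).2]
  have hunion : ((I3.biUnion T).card : ℝ) = ∑ p ∈ I3, ((T p).card : ℝ) := by
    rw [Finset.card_biUnion hdisj, Nat.cast_sum]
  have hcover : (I3.biUnion T).card ≤
      ∑ L ∈ (motRich X (η * b)).filter (fun L => motImg g L ∈ motRich Y (η * b)),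
        motWt X Y g L := by
    refine le_trans (Finset.card_le_card ?_) Finset.card_biUnion_le
    intro z hz
    obtain ⟨p, hp, hzp⟩ := Finset.mem_biUnion.1 hz
    obtain ⟨L, hL, hLT⟩ := hline p hp
    exact Finset.mem_biUnion.2 ⟨L, hL, Finset.mem_filter.2
      ⟨(Finset.mem_filter.1 ((hT p hp).1 hzp)).1, hLT z hzp⟩⟩
  calc η * (k / 2) ≤ η * ∑ p ∈ I3, (motLoc X Y cX cY g p : ℝ) :=
        mul_le_mul_of_nonneg_left hI3sum hη.le
    _ = ∑ p ∈ I3, η * (motLoc X Y cX cY g p : ℝ) := by rw [Finset.mul_sum]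
    _ ≤ ∑ p ∈ I3, ((T p).card : ℝ) := Finset.sum_le_sum fun p hp => (hT p hp).2.2
    _ = ((I3.biUnion T).card : ℝ) := hunion.symm
    _ ≤ _ := by exact_mod_cast hcover

/-! ## LEAF MOT-SUM-C: double counting over the pairs of classes

PLAN.  `motIdx .. g ⊆ X.image cX ×ˢ Y.image cY =: J`, `|J| ≤ R²`.  `|𝒢| k/4 ≤ ∑_g ∑_{p ∈ J} [p ∈ I_g, b ≤ n_p(g), nonline] n_p(g) = ∑_{p ∈ J} ∑_{g ∈ 𝒢_p} n_p(g) ≤ |J| B`
(`Finset.sum_comm`, `Finset.sum_filter`), `𝒢_p = 𝒢.filter (..)`, hypothesis `hmass` for `(i, j) = p`. -/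
theorem mot_nonline_bound (η b k R B : ℝ) (X Y : Finset (Pt 3)) (cX cY : Pt 3 → ℕ) (hB : 0 ≤ B)
    (hR : 0 ≤ R) (hRX : ((X.image cX).card : ℝ) ≤ R) (hRY : ((Y.image cY).card : ℝ) ≤ R)
    (hmass : ∀ (i j : ℕ) (𝒢 : Finset Motion),
      (∀ g ∈ 𝒢, b ≤ (matchCount (motCls X cX i) (motCls Y cY j) g : ℝ) ∧
        motNonline η (motCls X cX i) (motCls Y cY j) g) →
      ∑ g ∈ 𝒢, (matchCount (motCls X cX i) (motCls Y cY j) g : ℝ) ≤ B)
    (𝒢 : Finset Motion)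
    (h𝒢 : ∀ g ∈ 𝒢, k / 4 ≤ ∑ p ∈ (motIdx X Y cX cY g).filter
      (fun p => b ≤ (motLoc X Y cX cY g p : ℝ) ∧
        motNonline η (motCls X cX p.1) (motCls Y cY p.2) g), (motLoc X Y cX cY g p : ℝ)) :
    (𝒢.card : ℝ) * (k / 4) ≤ R ^ 2 * B := by
  obtain ⟨J, hJ⟩ : ∃ J, J = X.image cX ×ˢ Y.image cY := ⟨_, rfl⟩
  have hsub : ∀ g : Motion, motIdx X Y cX cY g ⊆ J := by
    intro g p hp
    unfold motIdx at hp
    obtain ⟨x, hx, rfl⟩ := Finset.mem_image.1 hp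
    obtain ⟨h1, h2⟩ := mem_motSet.1 hx
    rw [hJ]
    exact Finset.mem_product.2 ⟨Finset.mem_image_of_mem _ h1, Finset.mem_image_of_mem _ h2⟩
  have hJc : (J.card : ℝ) ≤ R ^ 2 := by
    rw [hJ, Finset.card_product, Nat.cast_mul, sq]
    exact mul_le_mul hRX hRY (Nat.cast_nonneg _) hR
  calc (𝒢.card : ℝ) * (k / 4) = ∑ _g ∈ 𝒢, k / 4 := by rw [Finset.sum_const, nsmul_eq_mul]
    _ ≤ ∑ g ∈ 𝒢, ∑ p ∈ J.filter (fun p => b ≤ (motLoc X Y cX cY g p : ℝ) ∧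
        motNonline η (motCls X cX p.1) (motCls Y cY p.2) g), (motLoc X Y cX cY g p : ℝ) := by
        apply Finset.sum_le_sum
        intro g hg
        refine (h𝒢 g hg).trans ?_
        apply Finset.sum_le_sum_of_subset_of_nonneg (Finset.filter_subset_filter _ (hsub g))
        intro _ _ _
        exact Nat.cast_nonneg _
    _ = ∑ p ∈ J, ∑ g ∈ 𝒢.filter (fun g => b ≤ (motLoc X Y cX cY g p : ℝ) ∧
        motNonline η (motCls X cX p.1) (motCls Y cY p.2) g), (motLoc X Y cX cY g p : ℝ) := by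
        simp only [Finset.sum_filter]
        rw [Finset.sum_comm]
    _ ≤ ∑ _p ∈ J, B := by
        apply Finset.sum_le_sum
        intro p _
        exact hmass p.1 p.2 _ (fun g hg => (Finset.mem_filter.1 hg).2)
    _ = (J.card : ℝ) * B := by rw [Finset.sum_const, nsmul_eq_mul]
    _ ≤ R ^ 2 * B := mul_le_mul_of_nonneg_right hJc hB

/-! ## LEAVES MOT-SUM-D1, D2, D3: motions whose mass is of line type -/

/-- **D1** `∑_{L₁ ≠ L₂} w w = S² - ∑ w² ≥ S² - H S = S (S - H) ≥ s²/2` for `S = ∑ w ≥ s ≥ 2H`, `0 ≤ w ≤ H`.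
(`Finset.sum_mul_sum`, `Finset.sum_product'`, `Finset.offDiag`/`Finset.diag`: `Finset.sum_diag`, `Finset.diag_union_offDiag`.) -/
theorem mot_offdiag {ι : Type} (𝓛 : Finset ι) (w : ι → ℝ) (H s : ℝ) (hH : 0 ≤ H)
    (hw0 : ∀ L ∈ 𝓛, 0 ≤ w L)
    (hwH : ∀ L ∈ 𝓛, w L ≤ H) (hs : 2 * H ≤ s) (hS : s ≤ ∑ L ∈ 𝓛, w L) :
    s ^ 2 / 2 ≤ ∑ p ∈ 𝓛.offDiag, w p.1 * w p.2 := by
  obtain ⟨S, hSd⟩ : ∃ S : ℝ, S = ∑ L ∈ 𝓛, w L := ⟨_, rfl⟩
  rw [← hSd] at hS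
  have h1 : S ^ 2 = ∑ p ∈ 𝓛.diag, w p.1 * w p.2 + ∑ p ∈ 𝓛.offDiag, w p.1 * w p.2 := by
    rw [← Finset.sum_union (Finset.disjoint_diag_offDiag 𝓛), Finset.diag_union_offDiag, sq, hSd,
      Finset.sum_mul_sum, Finset.sum_product]
  have h2 : ∑ p ∈ 𝓛.diag, w p.1 * w p.2 ≤ H * S := by
    rw [Finset.sum_diag, hSd, Finset.mul_sum]
    exact Finset.sum_le_sum fun L hL => mul_le_mul_of_nonneg_right (hwH L hL) (hw0 L hL)
  nlinarith

/-- **D2a** one nonparallel ordered source pair: for every target pair at most 8 motions, each product `≤ H²`. -/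
theorem mot_line_pair_np (hA : MotLineAStmt) (X Y : Finset (Pt 3)) (H : ℝ) (hX : motCap X H)
    (L₁ L₂ : AffineSubspace ℝ (Pt 3)) (h1 : stIsLine L₁) (h2 : stIsLine L₂)
    (hd : L₁.direction ≠ L₂.direction) (𝓛Y : Finset (AffineSubspace ℝ (Pt 3))) (𝒢 : Finset Motion) :
    ∑ g ∈ 𝒢.filter (fun g => motImg g L₁ ∈ 𝓛Y ∧ motImg g L₂ ∈ 𝓛Y),
      (motWt X Y g L₁ : ℝ) * (motWt X Y g L₂ : ℝ) ≤ 8 * H ^ 2 * (𝓛Y.card : ℝ) ^ 2 := by
  have hH : 0 ≤ H := by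
    have := hX ∅ (Finset.empty_subset _) (by simp [collinear_empty])
    simpa using this
  have hcard : (𝒢.filter (fun g => motImg g L₁ ∈ 𝓛Y ∧ motImg g L₂ ∈ 𝓛Y)).card ≤
      8 * (𝓛Y ×ˢ 𝓛Y).card := by
    apply Finset.card_le_mul_card_image_of_maps_to (f := fun g => (motImg g L₁, motImg g L₂))
    · intro g hg
      exact Finset.mem_product.2 (Finset.mem_filter.1 hg).2
    · intro t _
      apply hA L₁ L₂ t.1 t.2 h1 h2 hd
      intro g hg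
      have := (Finset.mem_filter.1 hg).2
      exact ⟨(Prod.ext_iff.1 this).1, (Prod.ext_iff.1 this).2⟩
  have hcard' : ((𝒢.filter (fun g => motImg g L₁ ∈ 𝓛Y ∧ motImg g L₂ ∈ 𝓛Y)).card : ℝ) ≤
      8 * (𝓛Y.card : ℝ) ^ 2 := by
    rw [Finset.card_product] at hcard
    rw [sq]
    exact_mod_cast hcard
  calc ∑ g ∈ 𝒢.filter (fun g => motImg g L₁ ∈ 𝓛Y ∧ motImg g L₂ ∈ 𝓛Y),
      (motWt X Y g L₁ : ℝ) * (motWt X Y g L₂ : ℝ)
      ≤ ∑ _g ∈ 𝒢.filter (fun g => motImg g L₁ ∈ 𝓛Y ∧ motImg g L₂ ∈ 𝓛Y), H ^ 2 := by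
        apply Finset.sum_le_sum
        intro g _
        rw [sq]
        exact mul_le_mul (motWt_le_cap X Y g L₁ H h1 hX) (motWt_le_cap X Y g L₂ H h2 hX)
          (Nat.cast_nonneg _) hH
    _ = ((𝒢.filter (fun g => motImg g L₁ ∈ 𝓛Y ∧ motImg g L₂ ∈ 𝓛Y)).card : ℝ) * H ^ 2 := by
        rw [Finset.sum_const, nsmul_eq_mul]
    _ ≤ 8 * (𝓛Y.card : ℝ) ^ 2 * H ^ 2 := mul_le_mul_of_nonneg_right hcard' (by positivity)
    _ = 8 * H ^ 2 * (𝓛Y.card : ℝ) ^ 2 := by ring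

/-- **D2b** one parallel ordered source pair: the target pairs are parallel at the same separation `ρ` (`motSep_exists`, `motSep_img`): at most `C |𝓛Y|^(3/2)` of them
(`MotParStmt`), each contributes `≤ 4 H³` (`MotLineBStmt`).  Fibre the sum over `g ↦ (motImg g L₁, motImg g L₂)`. -/
theorem mot_line_pair_par (hB : MotLineBStmt) (C : ℝ)
    (hP : ∀ (𝓛 : Finset (AffineSubspace ℝ (Pt 3))) (ρ : ℝ), 0 < ρ → (∀ L ∈ 𝓛, stIsLine L) →
      (((𝓛 ×ˢ 𝓛).filter (fun p => motSep p.1 p.2 ρ)).card : ℝ) ≤ C * (𝓛.card : ℝ) ^ ((3 : ℝ) / 2))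
    (X Y : Finset (Pt 3)) (H : ℝ) (hX : motCap X H) (hY : motCap Y H)
    (L₁ L₂ : AffineSubspace ℝ (Pt 3)) (h1 : stIsLine L₁) (h2 : stIsLine L₂) (hne : L₁ ≠ L₂)
    (hd : L₁.direction = L₂.direction) (𝓛Y : Finset (AffineSubspace ℝ (Pt 3)))
    (hLY : ∀ L ∈ 𝓛Y, stIsLine L) (𝒢 : Finset Motion) :
    ∑ g ∈ 𝒢.filter (fun g => motImg g L₁ ∈ 𝓛Y ∧ motImg g L₂ ∈ 𝓛Y),
      (motWt X Y g L₁ : ℝ) * (motWt X Y g L₂ : ℝ) ≤ 4 * H ^ 3 * (C * (𝓛Y.card : ℝ) ^ ((3 : ℝ) / 2)) := by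
  have hH : 0 ≤ H := by
    have := hX ∅ (Finset.empty_subset _) (by simp [collinear_empty])
    simpa using this
  obtain ⟨ρ, hρ, hsep⟩ := motSep_exists L₁ L₂ h1 h2 hne hd
  have hmaps : ∀ g ∈ 𝒢.filter (fun g => motImg g L₁ ∈ 𝓛Y ∧ motImg g L₂ ∈ 𝓛Y),
      (motImg g L₁, motImg g L₂) ∈ (𝓛Y ×ˢ 𝓛Y).filter (fun p => motSep p.1 p.2 ρ) := by
    intro g hg
    exact Finset.mem_filter.2 ⟨Finset.mem_product.2 (Finset.mem_filter.1 hg).2,
      motSep_img g L₁ L₂ ρ hsep⟩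
  rw [← Finset.sum_fiberwise_of_maps_to hmaps]
  calc _ ≤ ∑ _t ∈ (𝓛Y ×ˢ 𝓛Y).filter (fun p => motSep p.1 p.2 ρ), 4 * H ^ 3 := by
        apply Finset.sum_le_sum
        intro t _
        apply hB X Y H L₁ L₂ t.1 t.2 h1 h2 hne hd hX hY
        intro g hg
        have := (Finset.mem_filter.1 hg).2
        exact ⟨(Prod.ext_iff.1 this).1, (Prod.ext_iff.1 this).2⟩
    _ = (((𝓛Y ×ˢ 𝓛Y).filter (fun p => motSep p.1 p.2 ρ)).card : ℝ) * (4 * H ^ 3) := by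
        rw [Finset.sum_const, nsmul_eq_mul]
    _ ≤ C * (𝓛Y.card : ℝ) ^ ((3 : ℝ) / 2) * (4 * H ^ 3) :=
        mul_le_mul_of_nonneg_right (hP 𝓛Y ρ hρ hLY) (by positivity)
    _ = _ := by ring

/-- **D3a** exchange of the summations (`Finset.sum_comm'` / `Finset.sum_sigma'`): pure bookkeeping. -/
theorem mot_line_swap (𝓛X 𝓛Y : Finset (AffineSubspace ℝ (Pt 3))) (𝒢 : Finset Motion)
    (w : Motion → AffineSubspace ℝ (Pt 3) → ℝ) :
    ∑ g ∈ 𝒢, ∑ p ∈ (𝓛X.filter (fun L => motImg g L ∈ 𝓛Y)).offDiag, w g p.1 * w g p.2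
      = ∑ p ∈ 𝓛X.offDiag, ∑ g ∈ 𝒢.filter (fun g => motImg g p.1 ∈ 𝓛Y ∧ motImg g p.2 ∈ 𝓛Y),
          w g p.1 * w g p.2 := by
  have h1 : ∀ g : Motion, (𝓛X.filter (fun L => motImg g L ∈ 𝓛Y)).offDiag =
      𝓛X.offDiag.filter (fun p => motImg g p.1 ∈ 𝓛Y ∧ motImg g p.2 ∈ 𝓛Y) := by
    intro g
    ext p
    simp only [Finset.mem_offDiag, Finset.mem_filter]
    tauto
  simp only [h1, Finset.sum_filter]
  rw [Finset.sum_comm]

/-- **D3** PLAN.  `𝓛X = motRich X q`, `𝓛Y = motRich Y q`, `|𝓛X|, |𝓛Y| ≤ Ls = C₁ N/q` (`motRich_card`).  By `mot_offdiag` (weights `motWt`, `≤ H` by `motWt_le_cap`)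
`|𝒢| s²/2 ≤ ∑_g ∑_{offDiag} w w`; `mot_line_swap`; each of the `≤ Ls²` source pairs contributes `≤ 8 H² Ls²` or `≤ 4 H³ C Ls^(3/2)`;
`Ls² Ls^(3/2) = Ls^(7/2)` (`Real.rpow_add`, `Real.rpow_natCast`).  `K = 2 (8 C₁⁴ + 4 C C₁^(7/2))`. -/
theorem mot_lineMass (hA : MotLineAStmt) (hB : MotLineBStmt) (hP : MotParStmt) : MotLineMassStmt := by
  obtain ⟨C, hC, hP⟩ := hP
  obtain ⟨C₁, hC₁, hrich⟩ := motRich_card
  refine ⟨2 * (8 * C₁ ^ 4 + 4 * C * C₁ ^ ((7 : ℝ) / 2)), by positivity, ?_⟩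
  intro N H q s X Y hXN hYN hcX hcY hNq hq hHs 𝒢 h𝒢
  have hH : 0 ≤ H := by
    have := hcX ∅ (Finset.empty_subset _) (by simp [collinear_empty])
    simpa using this
  have hq0 : 0 < q := by linarith
  have hN0 : 0 ≤ N := le_trans (Nat.cast_nonneg _) hXN
  obtain ⟨x, hx⟩ : ∃ x : ℝ, x = N / q := ⟨_, rfl⟩
  have hx0 : 0 ≤ x := by rw [hx]; positivity
  rw [← hx]
  obtain ⟨LX, hLX⟩ : ∃ LX, LX = motRich X q := ⟨_, rfl⟩
  obtain ⟨LY, hLY⟩ : ∃ LY, LY = motRich Y q := ⟨_, rfl⟩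
  rw [← hLX, ← hLY] at h𝒢
  have hLXc : (LX.card : ℝ) ≤ C₁ * x := by rw [hLX, hx]; exact hrich X N q hXN hq hNq
  have hLYc : (LY.card : ℝ) ≤ C₁ * x := by rw [hLY, hx]; exact hrich Y N q hYN hq hNq
  have hLXl : ∀ L ∈ LX, stIsLine L := fun L hL => by
    rw [hLX] at hL
    exact ((mem_motRich X q hq L).1 hL).1
  have hLYl : ∀ L ∈ LY, stIsLine L := fun L hL => by
    rw [hLY] at hL
    exact ((mem_motRich Y q hq L).1 hL).1
  obtain ⟨Ls, hLs⟩ : ∃ Ls : ℝ, Ls = C₁ * x := ⟨_, rfl⟩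
  have hLs0 : 0 ≤ Ls := by rw [hLs]; positivity
  rw [← hLs] at hLXc hLYc
  have h1 : (𝒢.card : ℝ) * (s ^ 2 / 2) ≤
      ∑ g ∈ 𝒢, ∑ p ∈ (LX.filter (fun L => motImg g L ∈ LY)).offDiag,
        (motWt X Y g p.1 : ℝ) * (motWt X Y g p.2 : ℝ) := by
    rw [← nsmul_eq_mul, ← Finset.sum_const]
    apply Finset.sum_le_sum
    intro g hg
    exact mot_offdiag _ (fun L => (motWt X Y g L : ℝ)) H s hH (fun _ _ => Nat.cast_nonneg _)
      (fun L hL => motWt_le_cap X Y g L H (hLXl L (Finset.mem_filter.1 hL).1) hcX) hHs (h𝒢 g hg)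
  rw [mot_line_swap LX LY 𝒢 (fun g L => (motWt X Y g L : ℝ))] at h1
  have hY2 : (LY.card : ℝ) ^ 2 ≤ Ls ^ 2 := pow_le_pow_left₀ (Nat.cast_nonneg _) hLYc 2
  have hY32 : (LY.card : ℝ) ^ ((3 : ℝ) / 2) ≤ Ls ^ ((3 : ℝ) / 2) :=
    Real.rpow_le_rpow (Nat.cast_nonneg _) hLYc (by norm_num)
  have hLs32 : 0 ≤ Ls ^ ((3 : ℝ) / 2) := Real.rpow_nonneg hLs0 _
  have h2 : ∀ p ∈ LX.offDiag, ∑ g ∈ 𝒢.filter (fun g => motImg g p.1 ∈ LY ∧ motImg g p.2 ∈ LY),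
      (motWt X Y g p.1 : ℝ) * (motWt X Y g p.2 : ℝ) ≤
      8 * H ^ 2 * Ls ^ 2 + 4 * H ^ 3 * (C * Ls ^ ((3 : ℝ) / 2)) := by
    intro p hp
    obtain ⟨hp1, hp2, hne⟩ := Finset.mem_offDiag.1 hp
    by_cases hd : p.1.direction = p.2.direction
    · refine (mot_line_pair_par hB C hP X Y H hcX hcY p.1 p.2 (hLXl _ hp1) (hLXl _ hp2) hne hd LY
        hLYl 𝒢).trans ?_
      have a1 : 4 * H ^ 3 * (C * (LY.card : ℝ) ^ ((3 : ℝ) / 2)) ≤
          4 * H ^ 3 * (C * Ls ^ ((3 : ℝ) / 2)) := by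
        apply mul_le_mul_of_nonneg_left _ (by positivity)
        exact mul_le_mul_of_nonneg_left hY32 hC.le
      have a2 : 0 ≤ 8 * H ^ 2 * Ls ^ 2 := by positivity
      linarith
    · refine (mot_line_pair_np hA X Y H hcX p.1 p.2 (hLXl _ hp1) (hLXl _ hp2) hd LY 𝒢).trans ?_
      have a1 : 8 * H ^ 2 * (LY.card : ℝ) ^ 2 ≤ 8 * H ^ 2 * Ls ^ 2 :=
        mul_le_mul_of_nonneg_left hY2 (by positivity)
      have a2 : 0 ≤ 4 * H ^ 3 * (C * Ls ^ ((3 : ℝ) / 2)) := by positivity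
      linarith
  have h3 : (LX.offDiag.card : ℝ) ≤ Ls ^ 2 := by
    have : LX.offDiag.card ≤ LX.card * LX.card := by
      rw [Finset.offDiag_card]
      exact Nat.sub_le _ _
    calc (LX.offDiag.card : ℝ) ≤ (LX.card : ℝ) * LX.card := by exact_mod_cast this
      _ ≤ Ls * Ls := mul_le_mul hLXc hLXc (Nat.cast_nonneg _) hLs0
      _ = Ls ^ 2 := by ring
  have h4 : (𝒢.card : ℝ) * (s ^ 2 / 2) ≤
      Ls ^ 2 * (8 * H ^ 2 * Ls ^ 2 + 4 * H ^ 3 * (C * Ls ^ ((3 : ℝ) / 2))) := by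
    refine h1.trans ((Finset.sum_le_sum h2).trans ?_)
    rw [Finset.sum_const, nsmul_eq_mul]
    exact mul_le_mul_of_nonneg_right h3 (by positivity)
  have e72 : Ls ^ 2 * Ls ^ ((3 : ℝ) / 2) = C₁ ^ ((7 : ℝ) / 2) * x ^ ((7 : ℝ) / 2) := by
    rw [← Real.mul_rpow hC₁.le hx0, ← hLs, ← Real.rpow_natCast Ls 2]
    rcases hLs0.eq_or_lt with h0 | h0
    · rw [← h0]
      rw [Real.zero_rpow (by norm_num), Real.zero_rpow (by norm_num), Real.zero_rpow (by norm_num)]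
      ring
    · rw [← Real.rpow_add h0]
      norm_num
  have e4 : Ls ^ 2 * (8 * H ^ 2 * Ls ^ 2 + 4 * H ^ 3 * (C * Ls ^ ((3 : ℝ) / 2))) =
      8 * C₁ ^ 4 * (H ^ 2 * x ^ 4) + 4 * C * C₁ ^ ((7 : ℝ) / 2) * (H ^ 3 * x ^ ((7 : ℝ) / 2)) := by
    have : Ls ^ 2 * (8 * H ^ 2 * Ls ^ 2 + 4 * H ^ 3 * (C * Ls ^ ((3 : ℝ) / 2))) =
        8 * H ^ 2 * Ls ^ 4 + 4 * H ^ 3 * C * (Ls ^ 2 * Ls ^ ((3 : ℝ) / 2)) := by ring
    rw [this, e72, hLs]
    ring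
  rw [e4] at h4
  have p1 : 0 ≤ H ^ 2 * x ^ 4 := by positivity
  have p2 : 0 ≤ H ^ 3 * x ^ ((7 : ℝ) / 2) := by positivity
  have p3 : 0 ≤ C₁ ^ 4 * (H ^ 3 * x ^ ((7 : ℝ) / 2)) := by positivity
  have p4 : 0 ≤ C * C₁ ^ ((7 : ℝ) / 2) * (H ^ 2 * x ^ 4) := by positivity
  generalize H ^ 2 * x ^ 4 = T1 at *
  generalize H ^ 3 * x ^ ((7 : ℝ) / 2) = T2 at *
  generalize C₁ ^ ((7 : ℝ) / 2) = c72 at *
  nlinarith

/-! ## LEAF MOT-SUM-E: the numerics of one bucket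

PLAN.  Substitute `n = N^(1/6)`, `τ = t^(1/28)` (`N = n⁶`, `A = n⁴`, `N^(1/3) = n²`, `t = τ^28`, `r = τ^30`): then, with `β = 1/(4 Kp)`,
`k = τ^28 n⁴`, `m = 8 n⁶ τ^(-30)`, `m^(2/3) = 4 n⁴ τ^(-20)`, `b = β n⁴ τ^(-2)`, `sqrt b = sqrt β n² τ^(-1)`; hypothesis `τ^28 ≤ n²`, so `τ^14 ≤ n`.
 (1) `1 ≤ r ≤ N`: `τ ≥ 1`, `τ^30 ≤ n^(30/14) ≤ n⁶`.   (2) `m ≥ 8`.   (3) `b / m^(2/3) = (β/4) τ^18 ≥ Cm` for `τ^18 ≥ 4 Cm/β`.
 (4) `η b / n³ = η β n τ^(-2) ≥ η β τ^12 ≥ 1`; `n³ = sqrt N ≥ sqrt 2 > 1`.   (5) `4 A ≤ η t A/2` iff `t ≥ 8/η`.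
 (6) `4 (19 r)² Km m³ k / sqrt b = c n^20 τ^(60 - 90 + 28 + 1) = c n^20 τ^(-1)`, and `N⁴/A = n^20`, `t^(-1/28) = τ^(-1)`.
 (7) `N/(η b) = c n² τ²`; `A² (N/(ηb))⁴ = c n^16 τ^8 ≤ c n^20 τ^(-1)` as `τ^9 ≤ n⁴`; `A³ (N/(ηb))^(7/2) = c n^19 τ^7 ≤ c n^20 τ^(-1)` as `τ^8 ≤ n`. -/
theorem mot_num (η Cm Km Kp Kl : ℝ) (hη : 0 < η) (hη1 : η ≤ 1) (hCm : 0 < Cm) (hKm : 0 < Km)
    (hKp : 1 ≤ Kp) (hKl : 0 < Kl) :
    ∃ C₀ K : ℝ, 1 ≤ C₀ ∧ 0 < K ∧ ∀ N t A k r m b : ℝ, 2 ≤ N → C₀ ≤ t → t ≤ N ^ ((1 : ℝ) / 3) →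
      A = N ^ ((2 : ℝ) / 3) → k = t * A → r = t ^ ((15 : ℝ) / 14) → m = 8 * N / r →
      b = k / (4 * Kp * r) →
      1 ≤ r ∧ r ≤ N ∧ 1 ≤ m ∧ 0 < b ∧ Cm * m ^ ((2 : ℝ) / 3) ≤ b ∧ N ≤ (η * b) ^ 2 ∧ 1 < η * b ∧
      2 * (2 * A) ≤ η * (k / 2) ∧
      4 * ((19 * r) ^ 2 * (Km * m ^ 3 / Real.sqrt b)) * k ≤ K * (N ^ 4 / A) * t ^ (-(1 : ℝ) / 28) ∧
      Kl * ((2 * A) ^ 2 * (N / (η * b)) ^ 4 + (2 * A) ^ 3 * (N / (η * b)) ^ ((7 : ℝ) / 2)) * (2 / η) ^ 2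
        ≤ K * (N ^ 4 / A) * t ^ (-(1 : ℝ) / 28) := by
  have hKp0 : 0 < Kp := by linarith
  obtain ⟨σ, hσ⟩ : ∃ σ : ℝ, σ = Real.sqrt (1 / (4 * Kp)) := ⟨_, rfl⟩
  obtain ⟨γ, hγ⟩ : ∃ γ : ℝ, γ = Real.sqrt (η / (4 * Kp)) := ⟨_, rfl⟩
  have hσ0 : 0 < σ := by rw [hσ]; exact Real.sqrt_pos.2 (by positivity)
  have hγ0 : 0 < γ := by rw [hγ]; exact Real.sqrt_pos.2 (by positivity)
  have hσ2 : σ ^ 2 = 1 / (4 * Kp) := by rw [hσ]; exact Real.sq_sqrt (by positivity)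
  have hγ2 : γ ^ 2 = η / (4 * Kp) := by rw [hγ]; exact Real.sq_sqrt (by positivity)
  obtain ⟨c, hc⟩ : ∃ c : ℝ, c = 1 + 16 * Cm * Kp + 4 * Kp / η + 8 / η := ⟨_, rfl⟩
  have p1 : 0 < 16 * Cm * Kp := by positivity
  have p2 : 0 < 4 * Kp / η := by positivity
  have p3 : 0 < 8 / η := by positivity
  have hc1 : 1 ≤ c := by rw [hc]; linarith
  have hc2 : 16 * Cm * Kp ≤ c := by rw [hc]; linarith
  have hc3 : 4 * Kp / η ≤ c := by rw [hc]; linarith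
  have hc4 : 8 / η ≤ c := by rw [hc]; linarith
  obtain ⟨c9, hc9⟩ : ∃ c9 : ℝ, c9 = 4 * 361 * 512 * Km / σ := ⟨_, rfl⟩
  obtain ⟨c10, hc10⟩ : ∃ c10 : ℝ, c10 = Kl * (4 / γ ^ 8 + 8 / γ ^ 7) * (4 / η ^ 2) := ⟨_, rfl⟩
  have hc9p : 0 < c9 := by rw [hc9]; positivity
  have hc10p : 0 < c10 := by rw [hc10]; positivity
  refine ⟨c ^ 28, c9 + c10, one_le_pow₀ hc1, by positivity, ?_⟩
  intro N t A k r m b hN ht ht' hA hk hr hm hb
  have hN0 : 0 < N := by linarith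
  have ht0 : 0 < t := lt_of_lt_of_le (by positivity) ht
  obtain ⟨n, hn⟩ : ∃ n : ℝ, n = N ^ ((1 : ℝ) / 6) := ⟨_, rfl⟩
  obtain ⟨τ, hτ⟩ : ∃ τ : ℝ, τ = t ^ ((1 : ℝ) / 28) := ⟨_, rfl⟩
  have hn0 : 0 < n := by rw [hn]; exact Real.rpow_pos_of_pos hN0 _
  have hτ0 : 0 < τ := by rw [hτ]; exact Real.rpow_pos_of_pos ht0 _
  have eN : N = n ^ 6 := by
    rw [hn, ← Real.rpow_natCast, ← Real.rpow_mul hN0.le]; norm_num
  have et : t = τ ^ 28 := by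
    rw [hτ, ← Real.rpow_natCast, ← Real.rpow_mul ht0.le]; norm_num
  have eA : A = n ^ 4 := by
    rw [hA, hn, ← Real.rpow_natCast, ← Real.rpow_mul hN0.le]; norm_num
  have eN3 : N ^ ((1 : ℝ) / 3) = n ^ 2 := by
    rw [hn, ← Real.rpow_natCast, ← Real.rpow_mul hN0.le]; norm_num
  have er : r = τ ^ 30 := by
    rw [hr, hτ, ← Real.rpow_natCast, ← Real.rpow_mul ht0.le]; norm_num
  have eti : t ^ (-(1 : ℝ) / 28) = τ⁻¹ := by
    rw [hτ, ← Real.rpow_neg ht0.le]; congr 1; ring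
  have hτc : c ≤ τ := by
    rw [et] at ht
    exact (pow_le_pow_iff_left₀ (by linarith) hτ0.le (by norm_num)).1 ht
  have hτ1 : 1 ≤ τ := hc1.trans hτc
  have hτn : τ ^ 14 ≤ n := by
    rw [et, eN3] at ht'
    have : (τ ^ 14) ^ 2 ≤ n ^ 2 := by rw [← pow_mul]; exact ht'
    exact (pow_le_pow_iff_left₀ (by positivity) hn0.le (by norm_num)).1 this
  have hn1 : 1 < n := by
    have : (1 : ℝ) ^ 6 < n ^ 6 := by rw [← eN]; linarith
    exact lt_of_pow_lt_pow_left₀ 6 hn0.le this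
  have hpw : ∀ j : ℕ, j ≠ 0 → c ≤ τ ^ j := fun j hj => hτc.trans (le_self_pow₀ hτ1 hj)
  have hmono : ∀ i j : ℕ, i ≤ j → τ ^ i ≤ τ ^ j := fun i j h => pow_le_pow_right₀ hτ1 h
  have ek : k = τ ^ 28 * n ^ 4 := by rw [hk, et, eA]
  have em : m = (2 * n ^ 2 / τ ^ 10) ^ 3 := by
    rw [hm, eN, er]; field_simp; ring
  have eb : b = n ^ 4 / (4 * Kp * τ ^ 2) := by
    rw [hb, ek, er]; field_simp
  have hμ0 : 0 < 2 * n ^ 2 / τ ^ 10 := by positivity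
  have em23 : m ^ ((2 : ℝ) / 3) = (2 * n ^ 2 / τ ^ 10) ^ 2 := by
    rw [em, ← Real.rpow_natCast, ← Real.rpow_mul hμ0.le, ← Real.rpow_natCast]; norm_num
  have esb : Real.sqrt b = σ * n ^ 2 / τ := by
    have : b = (σ * n ^ 2 / τ) ^ 2 := by
      rw [eb, div_pow, mul_pow, hσ2]; field_simp
    rw [this, Real.sqrt_sq (by positivity)]
  have hb0 : 0 < b := by rw [eb]; positivity
  have eq2 : N / (η * b) = (n * τ / γ) ^ 2 := by
    rw [eN, eb, div_pow, hγ2]; field_simp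
  have hq0 : 0 < n * τ / γ := by positivity
  have eq72 : (N / (η * b)) ^ ((7 : ℝ) / 2) = (n * τ / γ) ^ 7 := by
    rw [eq2, ← Real.rpow_natCast, ← Real.rpow_mul hq0.le, ← Real.rpow_natCast]; norm_num
  -- the ratio `x = η n / (4 Kp τ²) ≥ 1`
  have hx : 1 ≤ η * n / (4 * Kp * τ ^ 2) := by
    rw [le_div_iff₀ (by positivity), one_mul]
    have h12 : 4 * Kp ≤ η * τ ^ 12 := by
      have := hc3.trans (hpw 12 (by norm_num))
      rw [div_le_iff₀ hη] at this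
      linarith
    calc 4 * Kp * τ ^ 2 ≤ η * τ ^ 12 * τ ^ 2 := by gcongr
      _ = η * τ ^ 14 := by ring
      _ ≤ η * n := by gcongr
  have eηb : η * b = η * n / (4 * Kp * τ ^ 2) * n ^ 3 := by
    rw [eb]; field_simp
  have hn3 : 1 < n ^ 3 := one_lt_pow₀ hn1 (by norm_num)
  have hηb : n ^ 3 ≤ η * b := by
    rw [eηb]
    calc n ^ 3 = 1 * n ^ 3 := by ring
      _ ≤ η * n / (4 * Kp * τ ^ 2) * n ^ 3 := by gcongr
  have hP : N ^ 4 / A = n ^ 20 := by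
    rw [eN, eA]; field_simp
  refine ⟨?_, ?_, ?_, hb0, ?_, ?_, ?_, ?_, ?_, ?_⟩
  · rw [er]; exact one_le_pow₀ hτ1
  · rw [er, eN]
    calc τ ^ 30 ≤ τ ^ 84 := hmono _ _ (by norm_num)
      _ = (τ ^ 14) ^ 6 := by ring
      _ ≤ n ^ 6 := by gcongr
  · rw [hm, le_div_iff₀ (by rw [er]; positivity), one_mul, er, eN]
    have : τ ^ 30 ≤ n ^ 6 := by
      calc τ ^ 30 ≤ τ ^ 84 := hmono _ _ (by norm_num)
        _ = (τ ^ 14) ^ 6 := by ring
        _ ≤ n ^ 6 := by gcongr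
    have h6 : 0 < n ^ 6 := by positivity
    linarith
  · rw [em23, eb, div_pow, ← mul_div_assoc, div_le_div_iff₀ (by positivity) (by positivity)]
    have h18 := hc2.trans (hpw 18 (by norm_num))
    calc Cm * (2 * n ^ 2) ^ 2 * (4 * Kp * τ ^ 2) = n ^ 4 * τ ^ 2 * (16 * Cm * Kp) := by ring
      _ ≤ n ^ 4 * τ ^ 2 * τ ^ 18 := by gcongr
      _ = n ^ 4 * (τ ^ 10) ^ 2 := by ring
  · rw [eN]
    calc n ^ 6 = (n ^ 3) ^ 2 := by ring
      _ ≤ (η * b) ^ 2 := by gcongr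
  · linarith
  · rw [eA, ek]
    have h28 := hc4.trans (hpw 28 (by norm_num))
    rw [div_le_iff₀ hη] at h28
    have h4 : 0 < n ^ 4 := by positivity
    have := mul_le_mul_of_nonneg_right h28 h4.le
    linarith
  · rw [hP, eti, esb, em, ek, er]
    have e1 : 4 * ((19 * τ ^ 30) ^ 2 * (Km * ((2 * n ^ 2 / τ ^ 10) ^ 3) ^ 3 / (σ * n ^ 2 / τ)))
        * (τ ^ 28 * n ^ 4) = c9 * n ^ 20 * τ⁻¹ := by
      rw [hc9]; field_simp; ring
    rw [e1]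
    gcongr
    linarith
  · rw [hP, eti, eq72, eq2, eA]
    have ha : n ^ 16 * τ ^ 8 ≤ n ^ 20 * τ⁻¹ := by
      rw [← div_eq_mul_inv, le_div_iff₀ hτ0]
      have h9 : τ ^ 9 ≤ n ^ 4 :=
        ((hmono 9 14 (by norm_num)).trans hτn).trans (le_self_pow₀ hn1.le (by norm_num))
      calc n ^ 16 * τ ^ 8 * τ = n ^ 16 * τ ^ 9 := by ring
        _ ≤ n ^ 16 * n ^ 4 := by gcongr
        _ = n ^ 20 := by ring
    have hb' : n ^ 19 * τ ^ 7 ≤ n ^ 20 * τ⁻¹ := by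
      rw [← div_eq_mul_inv, le_div_iff₀ hτ0]
      have h8 : τ ^ 8 ≤ n := (hmono 8 14 (by norm_num)).trans hτn
      calc n ^ 19 * τ ^ 7 * τ = n ^ 19 * τ ^ 8 := by ring
        _ ≤ n ^ 19 * n := by gcongr
        _ = n ^ 20 := by ring
    have e1 : Kl * ((2 * n ^ 4) ^ 2 * ((n * τ / γ) ^ 2) ^ 4 + (2 * n ^ 4) ^ 3 * (n * τ / γ) ^ 7)
        * (2 / η) ^ 2
        = Kl * (4 / γ ^ 8 * (n ^ 16 * τ ^ 8) + 8 / γ ^ 7 * (n ^ 19 * τ ^ 7)) * (4 / η ^ 2) := by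
      field_simp; ring
    rw [e1]
    have e2 : c10 * (n ^ 20 * τ⁻¹)
        = Kl * (4 / γ ^ 8 * (n ^ 20 * τ⁻¹) + 8 / γ ^ 7 * (n ^ 20 * τ⁻¹)) * (4 / η ^ 2) := by
      rw [hc10]; ring
    have h3 : Kl * (4 / γ ^ 8 * (n ^ 16 * τ ^ 8) + 8 / γ ^ 7 * (n ^ 19 * τ ^ 7)) * (4 / η ^ 2)
        ≤ c10 * (n ^ 20 * τ⁻¹) := by
      rw [e2]; gcongr
    refine h3.trans ?_
    calc c10 * (n ^ 20 * τ⁻¹) = c10 * n ^ 20 * τ⁻¹ := by ring
      _ ≤ (c9 + c10) * n ^ 20 * τ⁻¹ := by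
        gcongr
        linarith

/-! ## one global bucket (glue) -/

theorem mot_bucket (η : ℝ) (hη : 0 < η) (hη1 : η ≤ 1) (hpart : MotPartStmt) (hmass : MotMassStmt η)
    (hline : MotLineMassStmt) : MotBucketStmt := by
  obtain ⟨Kp, hKp, hPart⟩ := hpart
  obtain ⟨Cm, Km, hCm, hKm, hMass⟩ := hmass
  obtain ⟨Kl, hKl, hLine⟩ := hline
  obtain ⟨C₀, K, hC₀, hK, hnum⟩ := mot_num η Cm Km Kp Kl hη hη1 hCm hKm hKp hKl
  refine ⟨C₀, 2 * K, hC₀, by positivity, ?_⟩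
  intro N t X Y hN hX hY hcX hcY ht ht' 𝒢 h𝒢
  obtain ⟨A, hA⟩ : ∃ A : ℝ, A = (N : ℝ) ^ ((2 : ℝ) / 3) := ⟨_, rfl⟩
  obtain ⟨k, hk⟩ : ∃ k : ℝ, k = t * A := ⟨_, rfl⟩
  obtain ⟨r, hr⟩ : ∃ r : ℝ, r = t ^ ((15 : ℝ) / 14) := ⟨_, rfl⟩
  obtain ⟨m, hm⟩ : ∃ m : ℝ, m = 8 * (N : ℝ) / r := ⟨_, rfl⟩
  obtain ⟨b, hb⟩ : ∃ b : ℝ, b = k / (4 * Kp * r) := ⟨_, rfl⟩
  obtain ⟨n1, n2, n3, n4, n5, n6, n7, n8, n9, n10⟩ :=
    hnum N t A k r m b (by exact_mod_cast hN) ht ht' hA hk hr hm hb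
  rw [← hA] at hcX hcY h𝒢 ⊢
  rw [← hk] at h𝒢 ⊢
  have hN0 : (0 : ℝ) < N := by
    have : 0 < N := by omega
    exact_mod_cast this
  have hA0 : 0 < A := by rw [hA]; exact Real.rpow_pos_of_pos hN0 _
  have ht0 : 0 < t := by linarith
  have hk0 : 0 < k := by rw [hk]; positivity
  have hr0 : 0 < r := by linarith
  have hKp0 : 0 < Kp := by linarith
  obtain ⟨cX, cY, hRX, hRY, hclX, hclY, hidx⟩ := hPart N r X Y n1 n2 hX hY
  rw [← hm] at hclX hclY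
  set P0 : Motion → Prop := fun g =>
    k / 4 ≤ ∑ p ∈ (motIdx X Y cX cY g).filter (fun p => b ≤ (motLoc X Y cX cY g p : ℝ) ∧
        motNonline η (motCls X cX p.1) (motCls Y cY p.2) g), (motLoc X Y cX cY g p : ℝ) with hP0
  have hsplit : ∀ g ∈ 𝒢, P0 g ∨
      η * (k / 2) ≤ ∑ L ∈ (motRich X (η * b)).filter (fun L => motImg g L ∈ motRich Y (η * b)),
        (motWt X Y g L : ℝ) := by
    intro g hg
    refine mot_split η b k X Y cX cY g hη n7 ?_ (h𝒢 g hg)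
    calc ((motIdx X Y cX cY g).card : ℝ) * b ≤ Kp * r * b :=
          mul_le_mul_of_nonneg_right (hidx g) n4.le
      _ = k / 4 := by
          rw [hb]
          field_simp
  have e0 : ((𝒢.filter P0).card : ℝ) * (k / 4) ≤ (19 * r) ^ 2 * (Km * m ^ 3 / Real.sqrt b) :=
    mot_nonline_bound η b k (19 * r) _ X Y cX cY
      (by
        have : 0 < Real.sqrt b := Real.sqrt_pos.2 n4
        have hm0 : 0 < m := by linarith
        positivity)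
      (by positivity) hRX hRY
      (fun i j 𝒢' h => hMass m b _ _ n3 (hclX i) (hclY j) n5 𝒢' h) _
      (fun g hg => (Finset.mem_filter.1 hg).2)
  have e1 : ((𝒢.filter (fun g => ¬ P0 g)).card : ℝ) * (η * (k / 2)) ^ 2
      ≤ Kl * ((2 * A) ^ 2 * ((N : ℝ) / (η * b)) ^ 4 + (2 * A) ^ 3 * ((N : ℝ) / (η * b)) ^ ((7 : ℝ) / 2)) :=
    hLine N (2 * A) (η * b) (η * (k / 2)) X Y (by exact_mod_cast hX) (by exact_mod_cast hY) hcX hcY
      n6 n7 n8 _ (fun g hg => by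
        obtain ⟨hg1, hg2⟩ := Finset.mem_filter.1 hg
        exact (hsplit g hg1).resolve_left hg2)
  have e3 : (𝒢.card : ℝ) = ((𝒢.filter P0).card : ℝ) + ((𝒢.filter (fun g => ¬ P0 g)).card : ℝ) := by
    rw [← Nat.cast_add, Finset.card_filter_add_card_filter_not]
  have f0 : ((𝒢.filter P0).card : ℝ) * k ^ 2 ≤ K * ((N : ℝ) ^ 4 / A) * t ^ (-(1 : ℝ) / 28) := by
    refine le_trans ?_ n9
    have := mul_le_mul_of_nonneg_right e0 (by positivity : (0 : ℝ) ≤ 4 * k)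
    calc ((𝒢.filter P0).card : ℝ) * k ^ 2 = ((𝒢.filter P0).card : ℝ) * (k / 4) * (4 * k) := by ring
      _ ≤ (19 * r) ^ 2 * (Km * m ^ 3 / Real.sqrt b) * (4 * k) := this
      _ = 4 * ((19 * r) ^ 2 * (Km * m ^ 3 / Real.sqrt b)) * k := by ring
  have f1 : ((𝒢.filter (fun g => ¬ P0 g)).card : ℝ) * k ^ 2
      ≤ K * ((N : ℝ) ^ 4 / A) * t ^ (-(1 : ℝ) / 28) := by
    refine le_trans ?_ n10
    have := mul_le_mul_of_nonneg_right e1 (by positivity : (0 : ℝ) ≤ (2 / η) ^ 2)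
    refine le_trans (le_of_eq ?_) this
    field_simp
  rw [e3, add_mul]
  calc _ ≤ K * ((N : ℝ) ^ 4 / A) * t ^ (-(1 : ℝ) / 28) + K * ((N : ℝ) ^ 4 / A) * t ^ (-(1 : ℝ) / 28) :=
        add_le_add f0 f1
    _ = 2 * K * ((N : ℝ) ^ 4 / A) * t ^ (-(1 : ℝ) / 28) := by ring

/-! ## LEAF MOT-SUM-F: the sum over the global buckets

PLAN.  `(C₀, Kb)` from the bucket statement; `Cr = C₀`, `Kr = 4 Kb / (1 - 2^(-1/28))`.  `A = N^(2/3)`, `k₀ = C₀ A`.  Apply `mot_dyadic_gen` with `f g = k_g`, `wt g = k_g²`, `b = k₀`,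
`ρ = 2^(-1/28)`, `B = 4 Kb N⁴/A`: the class `i` consists of motions with `k_g ≥ t_i A`, `t_i = 2^i C₀`; if it is nonempty then `t_i A ≤ k_g ≤ |X| ≤ N = N^(1/3) A`, so `t_i ≤ N^(1/3)` and the bucket
statement gives `|class| (t_i A)² ≤ Kb (N⁴/A) t_i^(-1/28) ≤ Kb (N⁴/A) ρ^i` (`C₀ ≥ 1`); every member has `k_g² < 4 (t_i A)²`. -/
theorem mot_rich_of_bucket (h : MotBucketStmt) : RichStmt := by
  obtain ⟨C₀, Kb, hC₀, hKb, hbk⟩ := h
  obtain ⟨ρ, hρ⟩ : ∃ ρ : ℝ, ρ = (2 : ℝ) ^ (-(1 : ℝ) / 28) := ⟨_, rfl⟩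
  have hρ0 : 0 < ρ := by rw [hρ]; positivity
  have hρ1 : ρ < 1 := by
    rw [hρ]; exact Real.rpow_lt_one_of_one_lt_of_neg one_lt_two (by norm_num)
  have h1ρ : 0 < 1 - ρ := by linarith
  refine ⟨C₀, 4 * Kb / (1 - ρ), by linarith, by positivity, ?_⟩
  intro N X Y hN hX hY hcX hcY 𝒢 h𝒢
  have hN0 : (0 : ℝ) < N := by
    have : 0 < N := by omega
    exact_mod_cast this
  obtain ⟨A, hA⟩ : ∃ A : ℝ, A = (N : ℝ) ^ ((2 : ℝ) / 3) := ⟨_, rfl⟩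
  rw [← hA] at h𝒢 ⊢
  have hA0 : 0 < A := by rw [hA]; exact Real.rpow_pos_of_pos hN0 _
  have hNA : (N : ℝ) = (N : ℝ) ^ ((1 : ℝ) / 3) * A := by
    rw [hA, ← Real.rpow_add hN0]; norm_num
  have hC₀0 : 0 < C₀ := by linarith
  have key := mot_dyadic_gen 𝒢 (fun g => (matchCount X Y g : ℝ)) (fun g => (matchCount X Y g : ℝ) ^ 2)
    (C₀ * A) (4 * Kb * ((N : ℝ) ^ 4 / A)) ρ (by positivity) (by positivity) hρ0.le hρ1 h𝒢 ?_
  · refine key.trans (le_of_eq ?_)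
    field_simp
  intro i
  set cls := 𝒢.filter (fun g => 2 ^ i * (C₀ * A) ≤ (matchCount X Y g : ℝ) ∧
    (matchCount X Y g : ℝ) < 2 ^ (i + 1) * (C₀ * A)) with hcls
  rcases cls.eq_empty_or_nonempty with he | ⟨g₀, hg₀⟩
  · rw [he, Finset.sum_empty]; positivity
  set t : ℝ := 2 ^ i * C₀ with ht
  have h2i : (1 : ℝ) ≤ 2 ^ i := one_le_pow₀ one_le_two
  have h2i0 : (0 : ℝ) < 2 ^ i := by positivity
  have htA : ∀ g ∈ cls, t * A ≤ (matchCount X Y g : ℝ) := by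
    intro g hg
    have := (Finset.mem_filter.1 hg).2.1
    rw [ht]; linarith
  have htC : C₀ ≤ t := by rw [ht]; nlinarith
  have htN : t ≤ (N : ℝ) ^ ((1 : ℝ) / 3) := by
    have h1 := htA g₀ hg₀
    have h2 : (matchCount X Y g₀ : ℝ) ≤ N := by
      have : matchCount X Y g₀ ≤ N := (Finset.card_filter_le _ _).trans hX
      exact_mod_cast this
    have h3 : t * A ≤ (N : ℝ) ^ ((1 : ℝ) / 3) * A := by rw [← hNA]; linarith
    exact le_of_mul_le_mul_right h3 hA0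
  have hb := hbk N t X Y hN hX hY hcX hcY htC htN cls (by rw [← hA]; exact htA)
  rw [← hA] at hb
  have htρ : t ^ (-(1 : ℝ) / 28) ≤ ρ ^ i := by
    have h1 : t ^ (-(1 : ℝ) / 28) ≤ ((2 : ℝ) ^ i) ^ (-(1 : ℝ) / 28) :=
      (Real.rpow_le_rpow_iff_of_neg (by rw [ht]; positivity) h2i0 (by norm_num)).2
        (by rw [ht]; nlinarith)
    refine h1.trans (le_of_eq ?_)
    rw [hρ, ← Real.rpow_natCast 2 i, ← Real.rpow_mul (by norm_num), mul_comm,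
      Real.rpow_mul (by norm_num), Real.rpow_natCast]
  have hsum : ∑ g ∈ cls, (matchCount X Y g : ℝ) ^ 2 ≤ (cls.card : ℝ) * (4 * (t * A) ^ 2) := by
    rw [← nsmul_eq_mul]
    refine Finset.sum_le_card_nsmul _ _ _ fun g hg => ?_
    have h1 := (Finset.mem_filter.1 hg).2.2
    have h0 : (0 : ℝ) ≤ (matchCount X Y g : ℝ) := Nat.cast_nonneg _
    have h2 : (matchCount X Y g : ℝ) ≤ 2 * (t * A) := by
      rw [ht]; rw [pow_succ] at h1; linarith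
    calc (matchCount X Y g : ℝ) ^ 2 ≤ (2 * (t * A)) ^ 2 := by gcongr
      _ = 4 * (t * A) ^ 2 := by ring
  have hpos : 0 ≤ Kb * ((N : ℝ) ^ 4 / A) := by positivity
  calc ∑ g ∈ cls, (matchCount X Y g : ℝ) ^ 2 ≤ (cls.card : ℝ) * (4 * (t * A) ^ 2) := hsum
    _ = 4 * ((cls.card : ℝ) * (t * A) ^ 2) := by ring
    _ ≤ 4 * (Kb * ((N : ℝ) ^ 4 / A) * t ^ (-(1 : ℝ) / 28)) := by gcongr
    _ ≤ 4 * (Kb * ((N : ℝ) ^ 4 / A) * ρ ^ i) := by gcongr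
    _ = 4 * Kb * ((N : ℝ) ^ 4 / A) * ρ ^ i := by ring

/-- **RichStmt from the contracts of the unit.** -/
theorem mot_rich_of_parts (η₁ η₂ : ℝ) (hη : 0 < η₁) (hη1 : η₁ ≤ 1) (hgen : MotGenStmt η₁ η₂)
    (hpl : MotPlanarStmt η₁ η₂) (hpart : MotPartStmt) (hA : MotLineAStmt) (hB : MotLineBStmt)
    (hP : MotParStmt) : RichStmt :=
  mot_rich_of_bucket (mot_bucket (η₁ / 2) (by positivity) (by linarith) hpart
    (mot_mass_of_loc η₁ hη (mot_loc_of_parts η₁ η₂ hgen hpl)) (mot_lineMass hA hB hP))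

end Claimed.Agent.R273
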