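import Claimed.Agent.R273.PhOrd

/-!
# Row 273, S3b, poly:compression, part 2: specialisation to characteristic `p`, transfer lemmas, duality.
Architect helper5.  Prefix `pmc_`.

* S1 `pmc_exists_spec`.  `T = {t_1..t_N} ⊂ ℂ`.  Put `φ = aeval t' : MvPolynomial (Fin (N+1)) ℤ →+* ℂ`, `t' = (t_1..t_N, 1/M!)`, `R = φ.range`
  (a subring of `ℂ`, nontrivial).  Take a maximal ideal `𝔪` of `R` (`Ideal.exists_maximal`), `k = R ⧸ 𝔪` a field,
  of finite type over `ℤ` (`Algebra.FiniteType`: quotient of `MvPolynomial (Fin (N+1)) ℤ`), so `Module.Finite ℤ k`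
  (`finite_of_finite_type_of_isJacobsonRing ℤ k`).  A field which is integral over `ℤ` has positive characteristic:
  otherwise `ℤ → k` is injective and `isField_of_isIntegral_of_isField` makes `ℤ` a field.  Let `p = ringChar k` (prime, `CharP.char_is_prime_or_zero`).
  `M!` is a unit of `R`, hence of `k`, so `p ∤ M!`, so `M < p` (`Nat.Prime.dvd_factorial`).  `K = AlgebraicClosure k` (or `k` itself, which is finite):
  `PerfectRing K p` by `PerfectField.toPerfectRing` / `PerfectRing.ofSurjective`.  `ψ = algebraMap k K ∘ mk`.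
* S2 `pmc_dual`.  `V = restrictTotalDegree ι F q` is finite dimensional; `ev z : V →ₗ F`; `W = span (ev '' S) ⊂ Dual F V`;
  the hypothesis says `ev xs ∈ W.dualCoannihilator.dualAnnihilator = W` (`Subspace.dualCoannihilator_dualAnnihilator_eq`);
  `Finsupp.mem_span_image_iff_linearCombination` gives `l`.
* S3 `pmc_shift_map`: both sides are ring homomorphisms in `g` which agree on `C a` and `X i` (`MvPolynomial.induction_on`).
* S4 `pmc_ord_transfer`: `coeff m (shift of map φ g) = φ (coeff m (shift g))` by S3 and `coeff_map`; `φ` injective.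
* S5 `pmc_ident_transfer`: apply the hypothesis to `g = monomial α 1`, `|α| ≤ q`: `φ (∏ x^α - ∑ c_j ∏ z_j^α) = 0`; apply `ψ`;
  expand `h = ∑ coeff α h • monomial α 1` (`MvPolynomial.eval_eq`), every `α ∈ support h` has `|α| ≤ q` (`le_totalDegree`).
-/

set_option autoImplicit false

namespace Claimed.Agent.R273

open MvPolynomial

/-- `ℤ` is a Jacobson ring. -/
theorem pmc_isJacobsonRing_int : IsJacobsonRing ℤ := by
  rw [isJacobsonRing_iff_prime_eq]
  intro P hP
  by_cases hb : P = ⊥
  · subst hb
    rw [eq_bot_iff]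
    intro x hx
    rw [Ideal.mem_jacobson_bot] at hx
    have h1 := Int.isUnit_iff.mp (hx (3 * x))
    rw [Ideal.mem_bot]
    rcases h1 with h1 | h1 <;> nlinarith [sq_nonneg x]
  · have := IsPrime.to_maximal_ideal hb
    exact Ideal.jacobson_eq_self_of_isMaximal

/-- S1. A finitely generated subring of `ℂ` specialises to a perfect field of large positive characteristic. -/
theorem pmc_exists_spec (T : Finset ℂ) (M : ℕ) :
    ∃ (R : Subring ℂ) (K : Type) (_ : Field K) (p : ℕ) (_ : Fact p.Prime) (_ : CharP K p)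
      (_ : PerfectRing K p) (_ : R →+* K), (∀ t ∈ T, t ∈ R) ∧ M < p := by
  classical
  set T' : Finset ℂ := insert ((M.factorial : ℂ)⁻¹) T with hT'
  let Ra : Subalgebra ℤ ℂ := Algebra.adjoin ℤ (T' : Set ℂ)
  have hft : Algebra.FiniteType ℤ Ra := (Subalgebra.fg_iff_finiteType _).mp (Subalgebra.fg_adjoin_finset T')
  obtain ⟨m, hm⟩ := Ideal.exists_maximal Ra
  let := Ideal.Quotient.field m
  have : Algebra.FiniteType ℤ (Ra ⧸ m) :=
    Algebra.FiniteType.of_surjective (Ideal.Quotient.mkₐ ℤ m) (Ideal.Quotient.mkₐ_surjective ℤ m)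
  have := pmc_isJacobsonRing_int
  have hfin : Module.Finite ℤ (Ra ⧸ m) := finite_of_finite_type_of_isJacobsonRing ℤ (Ra ⧸ m)
  obtain ⟨p, hpc⟩ := CharP.exists (Ra ⧸ m)
  have hp0 : p ≠ 0 := by
    intro h0
    subst h0
    have : CharZero (Ra ⧸ m) := (CharP.charP_zero_iff_charZero _).mp hpc
    have hinj : Function.Injective (algebraMap ℤ (Ra ⧸ m)) := RingHom.injective_int _
    have : Algebra.IsIntegral ℤ (Ra ⧸ m) := Algebra.IsIntegral.of_finite ℤ _
    exact Int.not_isField ((Algebra.IsIntegral.isField_iff_isField hinj).mpr (Field.toIsField _))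
  have hpp : p.Prime := (CharP.char_is_prime_or_zero (Ra ⧸ m) p).resolve_right hp0
  have : Fact p.Prime := ⟨hpp⟩
  have hMp : M < p := by
    by_contra hle
    have hdvd : p ∣ M.factorial := (Nat.Prime.dvd_factorial hpp).mpr (not_lt.mp hle)
    have h1 : ((M.factorial : ℕ) : Ra ⧸ m) = 0 := (CharP.cast_eq_zero_iff _ p _).mpr hdvd
    let u : Ra := ⟨(M.factorial : ℂ)⁻¹, Algebra.subset_adjoin (by simp [hT'])⟩
    have h2 : (M.factorial : Ra) * u = 1 := by
      apply Subtype.ext
      simp only [u, MulMemClass.coe_mul, OneMemClass.coe_one]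
      have : ((M.factorial : Ra) : ℂ) = (M.factorial : ℂ) := by simp
      rw [this]
      exact mul_inv_cancel₀ (by exact_mod_cast M.factorial_ne_zero)
    have h3 := congrArg (Ideal.Quotient.mk m) h2
    rw [map_mul, map_natCast, h1, zero_mul, map_one] at h3
    exact zero_ne_one h3
  refine ⟨Ra.toSubring, AlgebraicClosure (Ra ⧸ m), inferInstance, p, inferInstance, inferInstance,
    inferInstance, (algebraMap (Ra ⧸ m) (AlgebraicClosure (Ra ⧸ m))).comp (Ideal.Quotient.mk m), ?_, hMp⟩
  intro t ht
  exact Algebra.subset_adjoin (by simp [hT', ht])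

/-- S2. Failure of separation in degree `≤ q` is a linear identity between evaluations. -/
theorem pmc_dual {F : Type*} [Field F] {ι : Type*} [Finite ι] (S : Set (ι → F)) (xs : ι → F) (q : ℕ)
    (h : ∀ g : MvPolynomial ι F, g.totalDegree ≤ q → (∀ z ∈ S, eval z g = 0) → eval xs g = 0) :
    ∃ l : (ι → F) →₀ F, (↑l.support ⊆ S) ∧
      ∀ g : MvPolynomial ι F, g.totalDegree ≤ q → eval xs g = ∑ z ∈ l.support, l z * eval z g := by
  classical
  let ev : (ι → F) → Module.Dual F (restrictTotalDegree ι F q) := fun z =>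
    (aeval z : MvPolynomial ι F →ₐ[F] F).toLinearMap.comp (restrictTotalDegree ι F q).subtype
  have hev : ∀ z (v : restrictTotalDegree ι F q), ev z v = eval z v.1 := by
    intro z v
    simp [ev, aeval_eq_eval]
  set W : Subspace F (Module.Dual F (restrictTotalDegree ι F q)) := Submodule.span F (ev '' S) with hW
  have hx : ev xs ∈ W := by
    rw [← Subspace.dualCoannihilator_dualAnnihilator_eq (W := W), Submodule.mem_dualAnnihilator]
    intro v hv
    rw [Submodule.mem_dualCoannihilator] at hv
    rw [hev]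
    apply h v.1 ((mem_restrictTotalDegree _ _ _).mp v.2)
    intro z hz
    rw [← hev]
    exact hv (ev z) (Submodule.subset_span ⟨z, hz, rfl⟩)
  rw [hW, Finsupp.mem_span_image_iff_linearCombination] at hx
  obtain ⟨l, hl, hlx⟩ := hx
  refine ⟨l, hl, fun g hg => ?_⟩
  have h1 := congrArg (fun φ => φ ⟨g, (mem_restrictTotalDegree _ _ _).mpr hg⟩) hlx
  simp only [Finsupp.linearCombination_apply, Finsupp.sum, LinearMap.sum_apply, LinearMap.smul_apply,
    hev, smul_eq_mul] at h1
  exact h1.symm

/-- S3. Translation commutes with base change. -/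
theorem pmc_shift_map {A B : Type*} [CommRing A] [CommRing B] {ι : Type*} (φ : A →+* B) (z : ι → A)
    (g : MvPolynomial ι A) :
    map φ (aeval (fun i => X i + C (z i) : ι → MvPolynomial ι A) g) =
      aeval (fun i => X i + C (φ (z i)) : ι → MvPolynomial ι B) (map φ g) := by
  induction g using MvPolynomial.induction_on with
  | C a => simp
  | add p q hp hq => simp only [map_add, hp, hq]
  | mul_X p i hp => simp only [map_mul, hp, aeval_X, map_X, map_add, map_C]

/-- S4. The order of vanishing does not drop under specialisation. -/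
theorem pmc_ord_transfer {A F K : Type*} [CommRing A] [Field F] [Field K] {ι : Type*} (φ : A →+* F)
    (hφ : Function.Injective φ) (ψ : A →+* K) (z : ι → A) (r : ℕ) (g : MvPolynomial ι A)
    (h : OrdGE (fun i => φ (z i)) r (map φ g)) : OrdGE (fun i => ψ (z i)) r (map ψ g) := by
  intro m hm
  by_contra hlt
  have h1 : coeff m (aeval (fun i => X i + C (z i) : ι → MvPolynomial ι A) g) = 0 := by
    apply hφ
    rw [map_zero, ← coeff_map, pmc_shift_map]
    by_contra hne
    exact hlt (h m (mem_support_iff.mpr hne))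
  rw [← pmc_shift_map, mem_support_iff, coeff_map, h1, map_zero] at hm
  exact hm rfl

/-- S5. The linear identity between evaluations specialises. -/
theorem pmc_ident_transfer {A F K : Type*} [CommRing A] [Field F] [Field K] {ι : Type*} [Fintype ι]
    (φ : A →+* F) (hφ : Function.Injective φ) (ψ : A →+* K) {J : Type*} (s : Finset J) (x : ι → A)
    (z : J → ι → A) (c : J → A) (q : ℕ)
    (h : ∀ g : MvPolynomial ι F, g.totalDegree ≤ q →
      eval (fun i => φ (x i)) g = ∑ j ∈ s, φ (c j) * eval (fun i => φ (z j i)) g) :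
    ∀ g : MvPolynomial ι K, g.totalDegree ≤ q →
      eval (fun i => ψ (x i)) g = ∑ j ∈ s, ψ (c j) * eval (fun i => ψ (z j i)) g := by
  intro g hg
  have key : ∀ α : ι →₀ ℕ, α.degree ≤ q →
      ∏ i, ψ (x i) ^ α i = ∑ j ∈ s, ψ (c j) * ∏ i, ψ (z j i) ^ α i := by
    intro α hα
    have h0 : (monomial α (1 : F)).totalDegree ≤ q := by
      refine (totalDegree_monomial_le _ _).trans ?_
      have h4 : (α.sum fun _ => id) = α.degree := by
        rw [Finsupp.degree_apply]; rfl
      rw [h4]; exact hα
    have h1 := h (monomial α 1) h0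
    simp only [eval_monomial, one_mul] at h1
    have hprod : ∀ (y : ι → F), (α.prod fun i e => y i ^ e) = ∏ i, y i ^ α i := by
      intro y
      exact Finsupp.prod_fintype _ _ (fun i => pow_zero _)
    simp only [hprod] at h1
    have h2 : ∏ i, x i ^ α i = ∑ j ∈ s, c j * ∏ i, z j i ^ α i := by
      apply hφ
      simpa only [map_prod, map_sum, map_mul, map_pow] using h1
    have h3 := congrArg ψ h2
    simpa only [map_prod, map_sum, map_mul, map_pow] using h3
  simp only [eval_eq']
  simp only [Finset.mul_sum]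
  rw [Finset.sum_comm]
  apply Finset.sum_congr rfl
  intro α hα
  rw [key α (le_trans (le_totalDegree hα) hg), Finset.mul_sum]
  apply Finset.sum_congr rfl
  intro j _
  ring

end Claimed.Agent.R273
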