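import Claimed.Agent.R273.PmcFrob
import Claimed.Agent.R273.PmcSpec

/-!
# Row 273, S3b: Lemma poly:compression (multiplicity compression).  Architect helper5.

GLUE (proved here) from `pmc_charp` (`PmcFrob.lean`) and `pmc_exists_spec`, `pmc_dual`, `pmc_ord_transfer`, `pmc_ident_transfer` (`PmcSpec.lean`).
Suppose no `g` exists, `q = ⌊(n+1)E/r⌋`.  By `pmc_dual`, `g(x_*) = ∑ l_z g(z)` for all `g` of degree `≤ q`, `l` finitely supported in `S`.
Let `R ⊂ ℂ` contain the coefficients of `f`, the coordinates of `x_*` and of the `z ∈ supp l`, the `l_z`, and `1 / f(x_*)`;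
specialise by `ψ : R → K`, `char K = p > r`.  `pmc_charp` gives a polynomial over `K` contradicting the specialised identity.
The set `S` is ARBITRARY (finiteness is not needed).
-/

set_option autoImplicit false

namespace Claimed.Agent.R273

open MvPolynomial

/-- **Lemma poly:compression.** -/
theorem pm_compression {ι : Type*} [Fintype ι] (S : Set (ι → ℂ)) (xs : ι → ℂ) (f : MvPolynomial ι ℂ)
    (E r : ℕ) (hr : 1 ≤ r) (hE : f.totalDegree ≤ E) (hS : ∀ z ∈ S, OrdGE z r f)
    (hx : eval xs f ≠ 0) :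
    ∃ g : MvPolynomial ι ℂ, r * g.totalDegree ≤ (Fintype.card ι + 1) * E ∧
      (∀ z ∈ S, eval z g = 0) ∧ eval xs g ≠ 0 := by
  classical
  by_contra hcon
  push Not at hcon
  set q := ((Fintype.card ι + 1) * E) / r with hq
  have hq' : ∀ d : ℕ, d ≤ q ↔ r * d ≤ (Fintype.card ι + 1) * E := fun d => by
    rw [hq, Nat.le_div_iff_mul_le hr, mul_comm]
  obtain ⟨l, hl, hid⟩ := pmc_dual S xs q (fun g hg hz => hcon g ((hq' _).mp hg) hz)
  set T : Finset ℂ := f.coeffs ∪ Finset.univ.image xs ∪
    (l.support.biUnion fun z => Finset.univ.image z) ∪ l.support.image l ∪ {(eval xs f)⁻¹} with hTdef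
  obtain ⟨R, K, _, p, _, _, _, ψ, hT, hp⟩ := pmc_exists_spec T r
  have hT1 : ∀ c ∈ f.coeffs, c ∈ R := fun c hc => hT c (by simp only [hTdef, Finset.mem_union]; tauto)
  have hT2 : ∀ i, xs i ∈ R := fun i => hT _ (by
    have : xs i ∈ Finset.univ.image xs := Finset.mem_image_of_mem _ (Finset.mem_univ i)
    simp only [hTdef, Finset.mem_union]; tauto)
  have hT3 : ∀ z ∈ l.support, ∀ i, z i ∈ R := fun z hz i => hT _ (by
    have : z i ∈ (l.support.biUnion fun z => Finset.univ.image z) :=
      Finset.mem_biUnion.mpr ⟨z, hz, Finset.mem_image_of_mem _ (Finset.mem_univ i)⟩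
    simp only [hTdef, Finset.mem_union]; tauto)
  have hT4 : ∀ z ∈ l.support, l z ∈ R := fun z hz => hT _ (by
    have : l z ∈ l.support.image l := Finset.mem_image_of_mem _ hz
    simp only [hTdef, Finset.mem_union]; tauto)
  have hT5 : (eval xs f)⁻¹ ∈ R := hT _ (by
    have : (eval xs f)⁻¹ ∈ ({(eval xs f)⁻¹} : Finset ℂ) := Finset.mem_singleton_self _
    simp only [hTdef, Finset.mem_union]; tauto)
  obtain ⟨fR, hfR⟩ : ∃ fR : MvPolynomial ι R, map R.subtype fR = f := by
    apply mem_range_map_iff_coeffs_subset.mpr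
    intro c hc
    exact ⟨⟨c, hT1 c hc⟩, rfl⟩
  let lift : ℂ → R := fun t => if h : t ∈ R then ⟨t, h⟩ else 0
  have hlift : ∀ t ∈ R, R.subtype (lift t) = t := by
    intro t ht
    simp only [lift, dif_pos ht, Subring.subtype_apply]
  set xR : ι → R := fun i => lift (xs i) with hxRdef
  set zR : (ι → ℂ) → ι → R := fun z i => lift (z i) with hzRdef
  set cR : (ι → ℂ) → R := fun z => lift (l z) with hcRdef
  set uR : R := lift (eval xs f)⁻¹ with huRdef
  have hxR : (fun i => R.subtype (xR i)) = xs := funext fun i => hlift _ (hT2 i)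
  have hzR : ∀ z ∈ l.support, (fun i => R.subtype (zR z i)) = z := fun z hz =>
    funext fun i => hlift _ (hT3 z hz i)
  have hcR : ∀ z ∈ l.support, R.subtype (cR z) = l z := fun z hz => hlift _ (hT4 z hz)
  have hinj : Function.Injective R.subtype := Subtype.coe_injective
  have hidK := pmc_ident_transfer R.subtype hinj ψ l.support xR zR cR q (by
    intro g hg
    rw [hxR, hid g hg]
    apply Finset.sum_congr rfl
    intro z hz
    rw [hzR z hz, hcR z hz])
  have hordK : ∀ z ∈ l.support, OrdGE (fun i => ψ (zR z i)) r (map ψ fR) := by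
    intro z hz
    apply pmc_ord_transfer R.subtype hinj ψ
    rw [hzR z hz, hfR]
    exact hS z (hl hz)
  have hev : ∀ (B : Type) [CommRing B] (θ : R →+* B),
      eval (fun i => θ (xR i)) (map θ fR) = θ (eval xR fR) := by
    intro B _ θ
    rw [eval_map, eval, coe_eval₂Hom, eval₂_comp_left θ, RingHom.comp_id]
    rfl
  have hxK : eval (fun i => ψ (xR i)) (map ψ fR) ≠ 0 := by
    rw [hev K ψ]
    have h2 : eval xR fR * uR = 1 := by
      apply hinj
      rw [map_mul, map_one, ← hev ℂ R.subtype, hxR, hfR, hlift _ hT5]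
      exact mul_inv_cancel₀ hx
    intro h0
    have h3 := congrArg ψ h2
    rw [map_mul, h0, zero_mul, map_one] at h3
    exact zero_ne_one h3
  have hdegK : (map ψ fR).totalDegree ≤ E := by
    have h1 : (map ψ fR).totalDegree ≤ fR.totalDegree :=
      Finset.sup_mono (support_map_subset ψ fR)
    have h2 : f.totalDegree = fR.totalDegree := by
      rw [← hfR, totalDegree, totalDegree, support_map_of_injective _ hinj]
    omega
  obtain ⟨g, hg1, hg2, hg3⟩ := pmc_charp p ((fun z i => ψ (zR z i)) '' (l.support : Set (ι → ℂ)))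
    (fun i => ψ (xR i)) (map ψ fR) E r hr hp.le hdegK
    (by rintro _ ⟨z, hz, rfl⟩; exact hordK z hz) hxK
  apply hg3
  rw [hidK g ((hq' _).mpr hg1)]
  apply Finset.sum_eq_zero
  intro z hz
  rw [hg2 _ ⟨z, hz, rfl⟩, mul_zero]

end Claimed.Agent.R273
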