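-- KEEP
import Claimed.Agent.R273.PhFib
import Claimed.Agent.R273.PmcMain

/-!
# Row 273, S3b: projection degrees WITHOUT multiplicities (poly:projection, poly:high-multiplicity, poly:tangent-projection).
Architect helper299.  Prefix `pj`.  Paper: polynomial.tex l.723-939.  Files `Pj*.lean`.

NO Hilbert-Samuel multiplicity, NO blow-up, NO intersection numbers.  Everything is a COUNT OF DISTINCT POINTS on a general line of a hypersurface model.

Vocabulary (any finite index type `ι`; for `ι = Fin d` these are DEFINITIONALLY helper177's `spCone`, `dcone`, `depRoots`, `DepRootLE`, see `PjTop.lean`):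
* `pjCone o X = {λ (y - o)}`, `pjK o X = zcl (pjCone o X)`: the cone of directions from the centre `o` (apex `0`), `e = vdeg (pjK o X)`;
* `pjRoots o y U`: the points of `U`, other than `o`, on the line `o y`;  `PjRayLE o X t`: the general ray from `o` to `X` carries at most `t` points of `X`;
* `PjModel X ρ μ b`: HYPERSURFACE MODEL.  `ρ : ℂ^ι → ℂ^κ` of degree `≤ 1`, `μ` irreducible, `ρ(X) ⊆ Z(μ)`, the general point of `Z(μ)` has at least `b` preimages in `X`, and `vdeg X ≤ b deg μ`.

MAIN INEQUALITY (`pj_main`, PjMain.lean).  `card κ = dim X + 1`, `μ` of order `≤ r` at `ρ(o)`, `PjRayLE o X t`  ⟹  `b (deg μ - r) ≤ t e`.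
 PROOF.  For a general direction `u ∈ ℂ^κ` the line `ρ(o) + λ u` meets `Z(μ)` in at least `deg μ - r` DISTINCT points with `λ ≠ 0` (`pj_line_roots`), all general in `Z(μ)` (`pj_avoid`), so there are `≥ b (deg μ - r)` points `x ∈ X` with `ρ(x) - ρ(o) ∈ ℂ^* u`.
 Each of them is general in `X` (`pj_avoid`), and `(x - o)/λ` lies in the fibre over `u` of the linear part of `ρ` on the cone `pjK o X`; that fibre has `≤ e` points (`pj_fibre_le`); the points `x` over one point of the fibre lie on one ray: `≤ t`.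
EXPORTS (PjHalf.lean, PjTan.lean, PjTop.lean):
* `pj_proj0`   : `o ∉ X` ⟹ `vdeg X ≤ t e`                                            (poly:projection (i), `p ∉ X`);
* `pj_half`    : ONE polynomial `g`, `deg g ≤ 2 (n + 1)`, `g(x_*) ≠ 0`, such that `vdeg X ≤ 2 t e` at every centre with `g ≠ 0`   (poly:high-multiplicity + (i));
* `pj_two`     : nonlinear irreducible curve, two distinct centres ⟹ `vdeg X ≤ t₁ e₁ + t₂ e₂`   (so at most one centre has `2 t e < vdeg X`);
* `pj_tangent` : poly:tangent-projection, `vdeg C ≤ 2 t e`.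
-/

set_option autoImplicit false

namespace Claimed.Agent.R273

open MvPolynomial Module

variable {ι κ : Type*}

/-- the cone of directions from `o` to `X` (apex `0`) -/
def pjCone (o : ι → ℂ) (X : Set (ι → ℂ)) : Set (ι → ℂ) :=
  {w | ∃ y ∈ X, ∃ lam : ℂ, w = lam • (y - o)}

/-- the closed cone of directions from `o` to `X` -/
def pjK [Fintype ι] (o : ι → ℂ) (X : Set (ι → ℂ)) : Set (ι → ℂ) := zcl (pjCone o X)

/-- the points of `U`, other than `o`, on the line through `o` and `y` -/
def pjRoots (o y : ι → ℂ) (U : Set (ι → ℂ)) : Set (ι → ℂ) :=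
  {z | z ∈ U ∧ z ≠ o ∧ ∃ c : ℂ, z - o = c • (y - o)}

/-- the general ray from `o` to `X` carries finitely many, at most `t`, points of `X` other than `o` -/
def PjRayLE (o : ι → ℂ) (X : Set (ι → ℂ)) (t : ℕ) : Prop :=
  ∃ h : MvPolynomial ι ℂ, (∃ y ∈ X, eval y h ≠ 0) ∧
    ∀ y ∈ X, eval y h ≠ 0 → (pjRoots o y X).Finite ∧ (pjRoots o y X).ncard ≤ t

/-- the linear part of a polynomial of degree `≤ 1` -/
noncomputable def pjL (f : MvPolynomial ι ℂ) : MvPolynomial ι ℂ := f - C (eval 0 f)

/-- HYPERSURFACE MODEL of `X`. -/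
structure PjModel (X : Set (ι → ℂ)) (ρ : κ → MvPolynomial ι ℂ) (μ : MvPolynomial κ ℂ) (b : ℕ) :
    Prop where
  lin : ∀ i, (ρ i).totalDegree ≤ 1
  irr : Irreducible μ
  img : ∀ x ∈ X, eval (pmap ρ x) μ = 0
  /-- the general point of `Z(μ)` has (finitely many and) at least `b` preimages -/
  cnt : ∃ h' : MvPolynomial κ ℂ, (∃ w, eval w μ = 0 ∧ eval w h' ≠ 0) ∧
    ∀ w, eval w μ = 0 → eval w h' ≠ 0 →
      {x ∈ X | pmap ρ x = w}.Finite ∧ b ≤ {x ∈ X | pmap ρ x = w}.ncard
  deg : vdeg X ≤ b * μ.totalDegree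

end Claimed.Agent.R273
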