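import Claimed.Agent.R273.PjDefs

/-!
# Row 273, S3b (helper299), layer 0: DIMENSION CALCULUS FOR ARBITRARY SETS and the avoidance lemma.  Prefix `pj_`.

`vdim` is defined for arbitrary subsets by the growth of `hA`; the three inequalities below need NO irreducibility, so all "general position" arguments become one-line dimension counts.

LEAF PJ-dim-a (`pj_vdim_spec`, `pj_vdim_image_le`, `pj_exists_vanish`).
 * `pj_vdim_spec`: `Nat.sInf_mem`; the set is nonempty: `hA T D ≤ binom(n + D, D)` (`rk_hA_le_choose`) `≤ (D+1)^n` (`ph_choose_le_pow`, `Nat.choose_symm_add`).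
 * `pj_vdim_image_le`: `e := max 1 (max_j deg ψ_j)`.  `hA (ψ '' T) D ≤ hA T (e D)` by `rk_rkOn_le_of_pull` (weight `1`, `f' := aeval ψ f`, `deg f' ≤ e deg f`: as `ph_totalDegree_aeval_le`), and `C (e D + 1)^k ≤ (C e^k) (D+1)^k`.
 * `pj_exists_vanish`: `hA T D ≤ C (D+1)^j`, `j < n`; `finrank (restrictTotalDegree κ ℂ D) = binom(n + D, D)` (`rk_finrank_restrict`) `≥ (D+1)^n / n!` (`ph_pow_le_choose`); take `D = n! C`; `rk_exists_vanishing`.
LEAF PJ-dim-b (`pj_vdim_prod_le`): `ph_prod_hA`: every factor `hA U (D - a) ≤ hA U D` (`rk_hA_mono_deg`), the first factors telescope to `hA T D` (`hA T` is monotone): `hA (prodSet T U) D ≤ hA T D * hA U D ≤ C C' (D+1)^(k+l)`.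
LEAF PJ-dim-c (`pj_avoid`): `B := V ∩ zset h`.  If `B = ∅` take `Ψ = 1`.  Otherwise `vdim B < vdim V` (`ph_vdim_lt_of_ssubset`).  `T := pmap ψ '' prodSet B (univ : Set (Fin 1 → ℂ))`, `ψ j := X (inr 0) * (rename inl (ρ j) - C (w₀ j))`;
   `vdim T ≤ vdim B + 1 < card κ` (`ph_univ`), `Ψ` from `pj_exists_vanish`.  If `x ∈ V`, `ρ x = w₀ + λ u`, `λ ≠ 0`, `h x = 0` then `u = λ⁻¹ (ρ x - w₀) ∈ T`.
-/

set_option autoImplicit false

namespace Claimed.Agent.R273

open MvPolynomial Module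

section basics

variable {ι κ : Type*}

theorem pj_mem_zeroLocus_iff (I : Ideal (MvPolynomial ι ℂ)) (x : ι → ℂ) :
    x ∈ zeroLocus ℂ I ↔ ∀ f ∈ I, eval x f = 0 := by
  rw [mem_zeroLocus_iff]
  simp only [aeval_eq_eval]

/-- Nullstellensatz for a prime ideal -/
theorem pj_mem_prime_iff [Finite ι] (p : Ideal (MvPolynomial ι ℂ)) (hp : p.IsPrime)
    (f : MvPolynomial ι ℂ) : f ∈ p ↔ ∀ x ∈ zeroLocus ℂ p, eval x f = 0 := by
  conv_lhs => rw [← MvPolynomial.IsPrime.vanishingIdeal_zeroLocus (K := ℂ) p]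
  rw [mem_vanishingIdeal_iff]
  simp only [aeval_eq_eval]

theorem pj_eval_aeval (ρ : κ → MvPolynomial ι ℂ) (μ : MvPolynomial κ ℂ) (x : ι → ℂ) :
    eval x (aeval ρ μ) = eval (pmap ρ x) μ := by
  have h : ((eval x : MvPolynomial ι ℂ →+* ℂ).comp (aeval ρ : MvPolynomial κ ℂ →ₐ[ℂ] _).toRingHom)
      = (eval (pmap ρ x) : MvPolynomial κ ℂ →+* ℂ) := by
    apply MvPolynomial.ringHom_ext
    · intro c; simp
    · intro i; simp [pmap]
  exact congrArg (fun φ : MvPolynomial κ ℂ →+* ℂ => φ μ) h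

theorem pj_homog_mem_pow (f : MvPolynomial ι ℂ) (n : ℕ) (hf : f.IsHomogeneous n) :
    f ∈ idealOfVars ι ℂ ^ n := by
  rw [mem_pow_idealOfVars_iff]
  intro x hx
  have := hf (mem_support_iff.mp hx)
  have h2 : Finsupp.degree x = Finsupp.weight 1 x := congrFun (congrArg _ Finsupp.degree_eq_weight_one) x
  rw [h2]
  exact this.ge

theorem pj_homog_eval_zero (f : MvPolynomial ι ℂ) (n : ℕ) (hn : n ≠ 0) (hf : f.IsHomogeneous n) :
    eval 0 f = 0 := by
  have h := pj_homog_mem_pow f n hf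
  have h1 : OrdGE (0 : ι → ℂ) n f := by
    rw [ph_ord_iff, ph_phSh_zero]; exact h
  exact (ph_ord_one_iff 0 f).mp (ph_ord_mono (Nat.one_le_iff_ne_zero.mpr hn) h1)

end basics

variable {ι κ : Type*} [Fintype ι] [Fintype κ]

theorem pj_vdim_spec (T : Set (ι → ℂ)) : ∃ C : ℕ, ∀ D, hA T D ≤ C * (D + 1) ^ vdim T := by
  have hne : {k | ∃ C : ℕ, ∀ D, hA T D ≤ C * (D + 1) ^ k}.Nonempty := by
    refine ⟨Fintype.card ι, 1, fun D => ?_⟩
    rw [one_mul]
    refine (rk_hA_le_choose T D).trans ?_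
    rw [← Nat.choose_symm_add, add_comm]
    exact ph_choose_le_pow D _
  exact Nat.sInf_mem hne

omit [Fintype ι] in
theorem pj_vdim_le_of_pow (T : Set (ι → ℂ)) (k C : ℕ) (h : ∀ D, hA T D ≤ C * (D + 1) ^ k) :
    vdim T ≤ k := Nat.sInf_le ⟨C, h⟩

omit [Fintype ι] [Fintype κ] in
/-- degree of a substitution -/
theorem pj_totalDegree_aeval_le (a : κ → MvPolynomial ι ℂ) (e : ℕ)
    (ha : ∀ j, (a j).totalDegree ≤ e) (f : MvPolynomial κ ℂ) :
    (aeval a f).totalDegree ≤ e * f.totalDegree := by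
  rw [aeval_def, eval₂_eq]
  apply totalDegree_finsetSum_le
  intro m hm
  refine (totalDegree_mul _ _).trans ?_
  have h1 : (algebraMap ℂ (MvPolynomial ι ℂ) (coeff m f)).totalDegree = 0 := totalDegree_C _
  rw [h1, zero_add]
  refine (totalDegree_finsetProd _ _).trans ?_
  have h2 : ∑ i ∈ m.support, m i ≤ f.totalDegree := le_totalDegree hm
  calc ∑ i ∈ m.support, (a i ^ m i).totalDegree ≤ ∑ i ∈ m.support, e * m i := by
        refine Finset.sum_le_sum fun i _ => ?_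
        refine (totalDegree_pow _ _).trans ?_
        rw [mul_comm]
        exact Nat.mul_le_mul_right _ (ha i)
    _ = e * ∑ i ∈ m.support, m i := by rw [Finset.mul_sum]
    _ ≤ e * f.totalDegree := Nat.mul_le_mul_left _ h2

omit [Fintype κ] in
/-- the pull-back inequality for the Hilbert function of an image -/
theorem pj_hA_image_le (T : Set (ι → ℂ)) (ψ : κ → MvPolynomial ι ℂ) (e : ℕ)
    (he : ∀ j, (ψ j).totalDegree ≤ e) (D : ℕ) : hA (pmap ψ '' T) D ≤ hA T (e * D) := by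
  unfold hA
  refine rk_rkOn_le_of_pull _ _ _ (pmap ψ) (fun _ => 1) (fun _ _ => one_ne_zero) ?_
  intro f hf
  refine ⟨aeval ψ f, ?_, fun x _ => ?_⟩
  · rw [mem_restrictTotalDegree] at hf ⊢
    exact (pj_totalDegree_aeval_le ψ e he f).trans (Nat.mul_le_mul_left _ hf)
  · rw [one_mul, pj_eval_aeval]

/-- polynomial maps do not raise the dimension (arbitrary sets) -/
theorem pj_vdim_image_le (T : Set (ι → ℂ)) (ψ : κ → MvPolynomial ι ℂ) :
    vdim (pmap ψ '' T) ≤ vdim T := by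
  obtain ⟨C, hC⟩ := pj_vdim_spec T
  set e : ℕ := (Finset.univ.sup fun j => (ψ j).totalDegree) + 1 with he
  have hψ : ∀ j, (ψ j).totalDegree ≤ e := fun j =>
    (Finset.le_sup (f := fun j => (ψ j).totalDegree) (Finset.mem_univ j)).trans (Nat.le_succ _)
  have he1 : 1 ≤ e := Nat.succ_le_succ (Nat.zero_le _)
  refine pj_vdim_le_of_pow _ _ (C * e ^ vdim T) fun D => ?_
  calc hA (pmap ψ '' T) D ≤ hA T (e * D) := pj_hA_image_le T ψ e hψ D
    _ ≤ C * (e * D + 1) ^ vdim T := hC _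
    _ ≤ C * (e * (D + 1)) ^ vdim T := by
        refine Nat.mul_le_mul_left _ (Nat.pow_le_pow_left ?_ _)
        rw [mul_add, mul_one]
        exact Nat.add_le_add_left he1 _
    _ = C * e ^ vdim T * (D + 1) ^ vdim T := by rw [mul_pow, mul_assoc]

/-- telescoping sum of the increments of a monotone function -/
theorem pj_telescope (F : ℕ → ℕ) (hF : Monotone F) (D : ℕ) :
    ∑ a ∈ Finset.range (D + 1), (F a - if a = 0 then 0 else F (a - 1)) = F D := by
  induction D with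
  | zero => simp
  | succ D ih =>
    rw [Finset.sum_range_succ, ih]
    have h1 : F D ≤ F (D + 1) := hF (Nat.le_succ D)
    simp only [Nat.add_eq_zero_iff, one_ne_zero, and_false, if_false, Nat.add_sub_cancel]
    omega

/-- the Hilbert function of a product is at most the product of the Hilbert functions -/
theorem pj_hA_prod_le (T : Set (ι → ℂ)) (U : Set (κ → ℂ)) (D : ℕ) :
    hA (prodSet T U) D ≤ hA T D * hA U D := by
  rw [ph_prod_hA]
  calc ∑ a ∈ Finset.range (D + 1), (hA T a - if a = 0 then 0 else hA T (a - 1)) * hA U (D - a)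
      ≤ ∑ a ∈ Finset.range (D + 1), (hA T a - if a = 0 then 0 else hA T (a - 1)) * hA U D :=
        Finset.sum_le_sum fun a _ => Nat.mul_le_mul_left _ (rk_hA_mono_deg U (Nat.sub_le D a))
    _ = hA T D * hA U D := by
        rw [← Finset.sum_mul, pj_telescope (hA T) (fun a b hab => rk_hA_mono_deg T hab)]

/-- products (arbitrary sets) -/
theorem pj_vdim_prod_le (T : Set (ι → ℂ)) (U : Set (κ → ℂ)) :
    vdim (prodSet T U) ≤ vdim T + vdim U := by
  obtain ⟨C, hC⟩ := pj_vdim_spec T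
  obtain ⟨C', hC'⟩ := pj_vdim_spec U
  refine pj_vdim_le_of_pow _ _ (C * C') fun D => ?_
  calc hA (prodSet T U) D ≤ hA T D * hA U D := pj_hA_prod_le T U D
    _ ≤ (C * (D + 1) ^ vdim T) * (C' * (D + 1) ^ vdim U) := Nat.mul_le_mul (hC D) (hC' D)
    _ = C * C' * (D + 1) ^ (vdim T + vdim U) := by rw [pow_add]; ring

/-- a set of dimension `< n` is not Zariski dense in `ℂ^n` -/
theorem pj_exists_vanish (T : Set (κ → ℂ)) (h : vdim T < Fintype.card κ) :
    ∃ g : MvPolynomial κ ℂ, g ≠ 0 ∧ ∀ x ∈ T, eval x g = 0 := by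
  obtain ⟨C, hC⟩ := pj_vdim_spec T
  set n := Fintype.card κ with hn
  set D : ℕ := n.factorial * C with hD
  have h1 : (D + 1) ^ n ≤ n.factorial * (D + n).choose n := ph_pow_le_choose D n
  have h2 : (D + 1) ^ (vdim T + 1) ≤ (D + 1) ^ n := Nat.pow_le_pow_right (Nat.succ_pos _) h
  have h3 : n.factorial * (C * (D + 1) ^ vdim T) < n.factorial * (D + n).choose n := by
    calc n.factorial * (C * (D + 1) ^ vdim T) = D * (D + 1) ^ vdim T := by rw [hD, mul_assoc]
      _ < (D + 1) * (D + 1) ^ vdim T :=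
          Nat.mul_lt_mul_of_pos_right (Nat.lt_succ_self D) (Nat.pow_pos (Nat.succ_pos D))
      _ = (D + 1) ^ (vdim T + 1) := by rw [pow_succ, mul_comm]
      _ ≤ n.factorial * (D + n).choose n := h2.trans h1
  have h4 : C * (D + 1) ^ vdim T < (D + n).choose n := lt_of_mul_lt_mul_left h3 (Nat.zero_le _)
  have h5 : rkOn (restrictTotalDegree κ ℂ D) T < finrank ℂ (restrictTotalDegree κ ℂ D) := by
    rw [rk_finrank_restrict, ← Nat.choose_symm_add, add_comm]
    exact lt_of_le_of_lt (hC D) h4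
  obtain ⟨f, _, hf0, hf⟩ := rk_exists_vanishing _ _ h5
  exact ⟨f, hf0, hf⟩

/-- **AVOIDANCE.**  `dim V < card κ`, `h` not identically zero on the irreducible `V`: the general line through `w₀` meets `ρ(V)`, outside `w₀`, only in images of points with `h ≠ 0`. -/
theorem pj_avoid {V : Set (ι → ℂ)} (hV : IsVar V) (ρ : κ → MvPolynomial ι ℂ)
    (hκ : vdim V < Fintype.card κ) (w₀ : κ → ℂ) (h : MvPolynomial ι ℂ)
    (hh : ∃ x ∈ V, eval x h ≠ 0) :
    ∃ Ψ : MvPolynomial κ ℂ, Ψ ≠ 0 ∧ ∀ u, eval u Ψ ≠ 0 → ∀ x ∈ V, ∀ lam : ℂ, lam ≠ 0 →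
      pmap ρ x = w₀ + lam • u → eval x h ≠ 0 := by
  classical
  set B : Set (ι → ℂ) := V ∩ zset h with hB
  by_cases hBe : B.Nonempty
  · have hlt : vdim B < vdim V :=
      ph_vdim_lt_of_ssubset hV Set.inter_subset_left h (fun x hx => hx.2) hh hBe
    set ψ : κ → MvPolynomial (ι ⊕ Fin 1) ℂ := fun j =>
      X (Sum.inr 0) * (rename Sum.inl (ρ j) - C (w₀ j)) with hψ
    set T : Set (κ → ℂ) := pmap ψ '' prodSet B (Set.univ : Set (Fin 1 → ℂ)) with hT
    have hdim : vdim T < Fintype.card κ := by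
      have h1 : vdim T ≤ vdim (prodSet B (Set.univ : Set (Fin 1 → ℂ))) := pj_vdim_image_le _ ψ
      have h2 := pj_vdim_prod_le B (Set.univ : Set (Fin 1 → ℂ))
      have h3 : vdim (Set.univ : Set (Fin 1 → ℂ)) = 1 := by
        rw [(ph_univ (ι := Fin 1)).2.1, Fintype.card_fin]
      omega
    obtain ⟨Ψ, hΨ0, hΨ⟩ := pj_exists_vanish T hdim
    refine ⟨Ψ, hΨ0, fun u hu x hx lam hlam hxu h0 => hu (hΨ u ?_)⟩
    refine ⟨Sum.elim x (fun _ => lam⁻¹), ⟨⟨hx, h0⟩, Set.mem_univ _⟩, ?_⟩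
    funext j
    have hj : eval x (ρ j) = w₀ j + lam * u j := by
      have := congrFun hxu j
      simpa [pmap] using this
    have hren : eval (Sum.elim x (fun _ : Fin 1 => lam⁻¹)) (rename Sum.inl (ρ j)) = eval x (ρ j) := by
      rw [eval_rename]
      rfl
    show eval (Sum.elim x (fun _ : Fin 1 => lam⁻¹)) (ψ j) = u j
    rw [hψ]
    simp only [map_mul, map_sub, eval_X, eval_C, hren, hj, Sum.elim_inr]
    field_simp
    ring
  · refine ⟨1, one_ne_zero, fun u _ x hx lam _ _ h0 => hBe ⟨x, hx, h0⟩⟩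

end Claimed.Agent.R273
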