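import Claimed.Agent.R273.ScoDefs
import Claimed.Agent.R273.DepAG

/-!
# Row 273, SPARSE, unit SCO: helper lemmas for the leaves SCO-LIFT and SCO-ROW of `ScoFin.lean` (prover helper231).  Prefix `scoa_`.

General: `scoa_var_eq` (irreducible closed subset of full dimension), `scoa_dense` (a dense part of an irreducible set inside a closed set), `scoa_line_tan` (a line inside a variety is tangent),
translations `scoa_tr_*`.  `scoa_lift`: THE LIFT from the output of `sco_preimage`.  `scoa_row`: one lift per cone from the statements of the other leaves.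
-/

set_option autoImplicit false

namespace Claimed.Agent.R273

open MvPolynomial Module

variable {d : ℕ}

section general

variable {ι : Type*} [Fintype ι]

/-- an irreducible closed subset of the same dimension is everything -/
theorem scoa_var_eq {V W : Set (ι → ℂ)} (hV : IsVar V) (hW : IsVar W) (hWV : W ⊆ V)
    (hdim : vdim V ≤ vdim W) : W = V := by
  by_contra hne
  obtain ⟨x, hxV, hxW⟩ : ∃ x ∈ V, x ∉ W := by
    by_contra hcon
    push Not at hcon
    exact hne (Set.Subset.antisymm hWV hcon)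
  rw [← ph_zcl_of_isVar hW, ph_mem_zcl] at hxW
  push Not at hxW
  obtain ⟨g, hg, hgx⟩ := hxW
  have := ph_vdim_lt_of_ssubset hV hWV g hg ⟨x, hxV, hgx⟩ (ph_isVar_nonempty _ hW)
  omega

/-- a nonempty principal open part of an irreducible set inside a closed set -/
theorem scoa_dense {V W : Set (ι → ℂ)} (hV : IsVar V) (hW : zcl W = W) (G : MvPolynomial ι ℂ)
    (hG : ∃ x ∈ V, eval x G ≠ 0) (h : ∀ x ∈ V, eval x G ≠ 0 → x ∈ W) : V ⊆ W := by
  intro x hx
  rw [← hW, ph_mem_zcl]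
  intro f hf
  rcases ph_isVar_mul hV G f (fun y hy => by
    rw [map_mul]
    by_cases hy0 : eval y G = 0
    · rw [hy0, zero_mul]
    · rw [hf y (h y hy hy0), mul_zero]) with h1 | h1
  · obtain ⟨y, hy, hy0⟩ := hG
    exact absurd (h1 y hy) hy0
  · exact h1 x hx

theorem scoa_zcl_zcl (T : Set (ι → ℂ)) : zcl (zcl T) = zcl T := by
  apply Set.Subset.antisymm _ (ph_subset_zcl _)
  intro x hx
  rw [ph_mem_zcl] at hx ⊢
  intro f hf
  exact hx f fun y hy => (ph_mem_zcl T y).mp hy f hf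

/-- product of two polynomials which do not vanish identically on an irreducible set -/
theorem scoa_mul_ne {V : Set (ι → ℂ)} (hV : IsVar V) (f g : MvPolynomial ι ℂ)
    (hf : ∃ x ∈ V, eval x f ≠ 0) (hg : ∃ x ∈ V, eval x g ≠ 0) : ∃ x ∈ V, eval x (f * g) ≠ 0 := by
  by_contra hcon
  push Not at hcon
  rcases ph_isVar_mul hV f g hcon with h | h
  · obtain ⟨x, hx, hx0⟩ := hf
    exact hx0 (h x hx)
  · obtain ⟨x, hx, hx0⟩ := hg
    exact hx0 (h x hx)

/-- the restriction of a polynomial to a line -/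
noncomputable def scoaLine (q v : ι → ℂ) : ι → MvPolynomial (Fin 1) ℂ := fun i => C (q i) + C (v i) * X 0

omit [Fintype ι] in
theorem scoa_eval_line (q v : ι → ℂ) (f : MvPolynomial ι ℂ) (a : Fin 1 → ℂ) :
    eval a (aeval (scoaLine q v) f) = eval (q + a 0 • v) f := by
  rw [← ph_eval_pmap]
  have : pmap (scoaLine q v) a = q + a 0 • v := by
    funext i
    simp [pmap, scoaLine, mul_comm]
  rw [this]

/-- a polynomial which vanishes on a line has zero derivative along it -/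
theorem scoa_dAt_line (q v : ι → ℂ) (f : MvPolynomial ι ℂ) (h : ∀ a : ℂ, eval (q + a • v) f = 0) :
    dAt f q v = 0 := by
  have h0 : aeval (scoaLine q v) f = 0 := by
    apply MvPolynomial.funext
    intro a
    rw [scoa_eval_line, h, map_zero]
  have h1 := ph_dAt_aeval (Ω := ℂ) (scoaLine q v) f (fun _ => 0) (fun _ => 1)
  rw [h0] at h1
  have h2 : (fun j => aeval (fun _ : Fin 1 => (0 : ℂ)) (scoaLine q v j)) = q := by
    funext j
    simp [scoaLine]
  have h3 : (fun j => dAt (scoaLine q v j) (fun _ : Fin 1 => (0 : ℂ)) (fun _ => 1)) = v := by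
    funext j
    simp [scoaLine, ph_dAt_add, ph_dAt_C, ph_dAt_mul, ph_dAt_X]
  rw [h2, h3] at h1
  rw [← h1]
  simp [dAt]

/-- a line inside a variety is tangent to it -/
theorem scoa_line_tan (I : Ideal (MvPolynomial ι ℂ)) (q v : ι → ℂ)
    (h : ∀ a : ℂ, q + a • v ∈ zeroLocus ℂ I) : v ∈ tanSp I q := by
  intro f hf
  exact scoa_dAt_line q v f fun a => (ph_mem_zeroLocus I _).mp (h a) f hf

omit [Fintype ι] in
/-- a polynomial which does not vanish identically on the line `ℂ v` is nonzero at some `a v`, `a ≠ 0` -/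
theorem scoa_line_ne (h : MvPolynomial ι ℂ) (v : ι → ℂ) (a₀ : ℂ) (h0 : eval (a₀ • v) h ≠ 0) :
    ∃ a : ℂ, a ≠ 0 ∧ eval (a • v) h ≠ 0 := by
  by_contra hcon
  push Not at hcon
  have h1 : (X 0 : MvPolynomial (Fin 1) ℂ) * aeval (scoaLine 0 v) h = 0 := by
    apply MvPolynomial.funext
    intro a
    rw [map_mul, eval_X, scoa_eval_line, zero_add, map_zero]
    by_cases ha : a 0 = 0
    · rw [ha, zero_mul]
    · rw [hcon _ ha, mul_zero]
  rcases mul_eq_zero.mp h1 with h2 | h2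
  · exact absurd h2 (X_ne_zero 0)
  · apply h0
    have := scoa_eval_line 0 v h (fun _ => a₀)
    rw [h2, map_zero, zero_add] at this
    exact this.symm

/-- the translation `y ↦ y - p` as a polynomial map -/
noncomputable def scoaTr (p : ι → ℂ) : ι → MvPolynomial ι ℂ := fun i => X i - C (p i)

omit [Fintype ι] in
theorem scoa_pmap_tr (p y : ι → ℂ) : pmap (scoaTr p) y = y - p := by
  funext i
  simp [pmap, scoaTr]

/-- the translate of a closed set is closed -/
theorem scoa_tr_closed (p : ι → ℂ) {V : Set (ι → ℂ)} (hV : zcl V = V) {w : ι → ℂ}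
    (hw : w ∈ zcl (pmap (scoaTr p) '' V)) : w + p ∈ V := by
  rw [← hV, ph_mem_zcl]
  intro f hf
  rw [ph_mem_zcl] at hw
  have := hw (aeval (scoaTr (-p)) f) (by
    rintro _ ⟨y, hy, rfl⟩
    rw [← ph_eval_pmap, scoa_pmap_tr, scoa_pmap_tr]
    simpa using hf y hy)
  rw [← ph_eval_pmap, scoa_pmap_tr] at this
  simpa using this

theorem scoa_tr_vdim (p : ι → ℂ) {V : Set (ι → ℂ)} (hV : IsVar V) :
    vdim (zcl (pmap (scoaTr p) '' V)) = vdim V := by
  apply le_antisymm (ph_vdim_zcl_image_le hV _)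
  have h1 : IsVar (zcl (pmap (scoaTr p) '' V)) := ph_isVar_zcl_image hV _
  refine le_trans (ph_vdim_mono ?_) (ph_vdim_zcl_image_le h1 (scoaTr (-p)))
  intro y hy
  apply ph_subset_zcl
  refine ⟨y - p, ph_subset_zcl _ ⟨y, hy, scoa_pmap_tr p y⟩, ?_⟩
  rw [scoa_pmap_tr]
  simp

end general

/-! ### THE LIFT -/

/-- the projection `(x, y, t) ↦ y` -/
noncomputable def scoaPrY (d : ℕ) : Fin d → MvPolynomial ((Fin d ⊕ Fin d) ⊕ Unit) ℂ :=
  fun i => X (Sum.inl (Sum.inr i))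

theorem scoa_pmap_prY (m : (Fin d ⊕ Fin d) ⊕ Unit → ℂ) :
    pmap (scoaPrY d) m = fun i => m (Sum.inl (Sum.inr i)) := by
  funext i
  simp [pmap, scoaPrY]

theorem scoa_pmap_psi (m : (Fin d ⊕ Fin d) ⊕ Unit → ℂ) :
    pmap (spPsi d) m = Sum.elim (fun i => m (Sum.inl (Sum.inl i)))
      (m (Sum.inr ()) • ((fun i => m (Sum.inl (Sum.inr i))) - fun i => m (Sum.inl (Sum.inl i)))) := by
  funext i
  rcases i with i | i <;> simp [pmap, spPsi]

/-- a cone with apex `p` through `q` contains the line `p q`; if the closed cone over an irreducible `C ∋ q` inside `Z(𝔶)` has the dimension of `C`, the direction `q - p` is tangent to `Z(𝔶)` at `q` -/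
theorem scoa_cone_dim (𝔶 : Ideal (PrfPol d)) (p q : SpC d) (htq : q - p ∉ tanSp 𝔶 q)
    {Cv : Set (SpC d)} (hC : IsVar Cv) (hCY : Cv ⊆ spZ 𝔶) (hq : q ∈ Cv) :
    vdim Cv < vdim (dcone p Cv) := by
  by_contra hcon
  push Not at hcon
  have h1 : IsVar (zcl (pmap (scoaTr p) '' Cv)) := ph_isVar_zcl_image hC _
  have h2 : zcl (pmap (scoaTr p) '' Cv) ⊆ dcone p Cv := by
    apply ph_zcl_mono
    rintro _ ⟨y, hy, rfl⟩
    exact ⟨y, hy, 1, by rw [scoa_pmap_tr, one_smul]⟩
  have h3 : zcl (pmap (scoaTr p) '' Cv) = dcone p Cv :=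
    scoa_var_eq (dep_dcone_isVar p hC) h1 h2 (by rw [scoa_tr_vdim p hC]; exact hcon)
  apply htq
  apply scoa_line_tan
  intro a
  apply hCY
  have h4 : (1 + a) • (q - p) ∈ zcl (pmap (scoaTr p) '' Cv) := by
    rw [h3]; exact dep_sub_dcone p Cv hq _
  have h5 := scoa_tr_closed p (ph_zcl_of_isVar hC) h4
  have h6 : (1 + a) • (q - p) + p = q + a • (q - p) := by
    funext i
    simp only [Pi.add_apply, Pi.smul_apply, Pi.sub_apply, smul_eq_mul]
    ring
  rwa [h6] at h5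

/-- **THE LIFT**, from the output `Pi` of `sco_preimage` -/
theorem scoa_lift (𝔶 : Ideal (PrfPol d)) (h𝔶 : 𝔶.IsPrime) (p q : SpC d) (lam : ℂ) (hlam : lam ≠ 0)
    (htq : q - p ∉ tanSp 𝔶 q)
    (γ : Set (SpC d)) (hγ : IsVar γ) (hγ2 : vdim γ = 2) (hcone : ∀ w ∈ γ, ∀ a : ℂ, a • w ∈ γ)
    (Pi : Set ((Fin d ⊕ Fin d) ⊕ Unit → ℂ)) (hPi : IsVar Pi)
    (hY : ∀ m ∈ Pi, (fun i => m (Sum.inl (Sum.inr i))) ∈ spZ 𝔶)
    (hm₀ : Sum.elim (Sum.elim p q) (fun _ => lam) ∈ Pi)
    (hK : ∀ m ∈ Pi, pmap (spPsi d) m ∈ prodSet {p} γ) (hdim : 2 ≤ vdim Pi) :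
    ∃ 𝔠 : Ideal (PrfPol d), 𝔠.IsPrime ∧ 𝔶 ≤ 𝔠 ∧ vdim (spZ 𝔠) = 1 ∧ q ∈ spZ 𝔠 ∧
      dcone p (spZ 𝔠) = γ := by
  classical
  obtain ⟨𝔠, h𝔠, hC0⟩ := ph_isVar_zcl_image hPi (scoaPrY d)
  have hC : zcl (pmap (scoaPrY d) '' Pi) = spZ 𝔠 := hC0
  have hCvar : IsVar (spZ 𝔠) := ⟨𝔠, h𝔠, rfl⟩
  have hγcl : zcl γ = γ := ph_zcl_of_isVar hγ
  have himg : ∀ m ∈ Pi, (fun i => m (Sum.inl (Sum.inr i))) ∈ spZ 𝔠 := by
    intro m hm
    rw [← hC]
    exact ph_subset_zcl _ ⟨m, hm, scoa_pmap_prY m⟩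
  have hx : ∀ m ∈ Pi, (fun i => m (Sum.inl (Sum.inl i))) = p := by
    intro m hm
    have := (hK m hm).1
    rw [scoa_pmap_psi] at this
    simpa using this
  have hray : ∀ m ∈ Pi, m (Sum.inr ()) • ((fun i => m (Sum.inl (Sum.inr i))) - p) ∈ γ := by
    intro m hm
    have h2 := (hK m hm).2
    rw [scoa_pmap_psi, hx m hm] at h2
    exact h2
  have hsubY : spZ 𝔠 ⊆ spZ 𝔶 := by
    rw [← hC, ← ph_zcl_of_isVar (⟨𝔶, h𝔶, rfl⟩ : IsVar (spZ 𝔶))]
    apply ph_zcl_mono
    rintro _ ⟨m, hm, rfl⟩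
    rw [scoa_pmap_prY]
    exact hY m hm
  have hq : q ∈ spZ 𝔠 := by
    have := himg _ hm₀
    simpa using this
  -- the points of `Pi` project into `p + γ`
  have hPγ : ∀ m ∈ Pi, (fun i => m (Sum.inl (Sum.inr i))) - p ∈ γ := by
    intro m hm
    rw [← hγcl, ph_mem_zcl]
    intro f hf
    rcases ph_isVar_mul hPi (X (Sum.inr ())) (aeval (fun i => X (Sum.inl (Sum.inr i)) - C (p i)) f)
      (fun m' hm' => by
        rw [map_mul, eval_X]
        by_cases ht : m' (Sum.inr ()) = 0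
        · rw [ht, zero_mul]
        · have h1 := hcone _ (hray m' hm') (m' (Sum.inr ()))⁻¹
          rw [smul_smul, inv_mul_cancel₀ ht, one_smul] at h1
          have h2 := hf _ h1
          rw [← ph_eval_pmap]
          have h3 : pmap (fun i => (X (Sum.inl (Sum.inr i)) - C (p i) :
              MvPolynomial ((Fin d ⊕ Fin d) ⊕ Unit) ℂ)) m'
              = (fun i => m' (Sum.inl (Sum.inr i))) - p := by
            funext i
            simp [pmap]
          rw [h3, h2, mul_zero]) with h | h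
    · have := h _ hm₀
      rw [eval_X] at this
      exact absurd this hlam
    · have := h m hm
      rw [← ph_eval_pmap] at this
      have h3 : pmap (fun i => (X (Sum.inl (Sum.inr i)) - C (p i) :
          MvPolynomial ((Fin d ⊕ Fin d) ⊕ Unit) ℂ)) m
          = (fun i => m (Sum.inl (Sum.inr i))) - p := by
        funext i
        simp [pmap]
      rwa [h3] at this
  have hCγ : ∀ y ∈ spZ 𝔠, y - p ∈ γ := by
    intro y hy
    rw [← hC, ph_mem_zcl] at hy
    rw [← hγcl, ph_mem_zcl]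
    intro f hf
    have := hy (aeval (scoaTr p) f) (by
      rintro _ ⟨m, hm, rfl⟩
      rw [← ph_eval_pmap, scoa_pmap_tr, scoa_pmap_prY]
      exact hf _ (hPγ m hm))
    rwa [← ph_eval_pmap, scoa_pmap_tr] at this
  have hdγ : dcone p (spZ 𝔠) ⊆ γ := by
    rw [← hγcl]
    apply ph_zcl_mono
    rintro _ ⟨y, hy, a, rfl⟩
    exact hcone _ (hCγ y hy) a
  -- dimension of the curve from below
  have hge : 2 ≤ vdim (spZ 𝔠) + 1 := by
    have hsub : Pi ⊆ prodSet (prodSet ({p} : Set (SpC d)) (spZ 𝔠)) (Set.univ : Set (Unit → ℂ)) := by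
      intro m hm
      refine ⟨⟨?_, ?_⟩, Set.mem_univ _⟩
      · exact hx m hm
      · exact himg m hm
    have h1 := ph_vdim_mono hsub
    rw [ph_prod_vdim (ph_prod_isVar (ph_point p).1 hCvar) ph_univ.1,
      ph_prod_vdim (ph_point p).1 hCvar, (ph_point p).2.1, ph_univ.2.1] at h1
    simp only [Fintype.card_unit, zero_add] at h1
    omega
  have hlt := scoa_cone_dim 𝔶 p q htq hCvar hsubY hq
  have hle : vdim (dcone p (spZ 𝔠)) ≤ 2 := hγ2 ▸ ph_vdim_mono hdγ
  refine ⟨𝔠, h𝔠, (ph_zeroLocus_subset_iff 𝔶 𝔠 h𝔠).mp hsubY, by omega, hq, ?_⟩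
  exact scoa_var_eq hγ (dep_dcone_isVar p hCvar) hdγ (by omega)

end Claimed.Agent.R273
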