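import Claimed.Agent.R273.ScoDefs

/-!
# Row 273, SPARSE, unit SCO: proofs of the leaves SCO-TAN, SCO-SEC, SCO-OPEN of `ScoFin.lean`   (helper137).  Prefix `scot`.

* `sco_tan_eq_aux`     : tangent identification;
* `sco_no_second_aux`  : particular-pair secant lemma (linear algebra + chain rule; `scot_push`, `scot_push_aff`, `scot_push_line`, `scotPhi`);
* `sco_good_open_aux`  : goodness is detected by the non-vanishing of one polynomial in the target (`scot_usc` = semicontinuity of the tangent dimension by a minor).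
-/

set_option autoImplicit false

namespace Claimed.Agent.R273

open MvPolynomial Module

variable {d : ℕ}

theorem scot_tan_anti {ι : Type*} [Fintype ι] {I J : Ideal (MvPolynomial ι ℂ)} (h : I ≤ J) (x : ι → ℂ) :
    tanSp J x ≤ tanSp I x := fun _ hv f hf => hv f (h hf)

theorem sco_tan_eq_aux (𝔭 : Ideal (PrfPol d)) (h𝔭 : 𝔭.IsPrime) (F : Set (PrfPol d))
    (hF : ∀ f ∈ F, f ∈ 𝔭) (x : SpC d) (hx : x ∈ spZ 𝔭) (hrk : finrank ℂ (scoT F x) ≤ vdim (spZ 𝔭)) :
    scoT F x = tanSp 𝔭 x ∧ finrank ℂ (scoT F x) = vdim (spZ 𝔭) := by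
  have h1 : tanSp 𝔭 x ≤ scoT F x := scot_tan_anti (Ideal.span_le.2 hF) x
  have h2 := ph_tan_ge 𝔭 h𝔭 x hx
  have h3 : tanSp 𝔭 x = scoT F x := Submodule.eq_of_le_of_finrank_le h1 (hrk.trans h2)
  refine ⟨h3.symm, le_antisymm hrk ?_⟩
  rw [← h3]
  exact h2

/-- push-forward of tangent vectors under a polynomial map into the zero set of a system -/
theorem scot_push {ι κ : Type*} [Fintype ι] [Fintype κ] (𝔞 : Ideal (MvPolynomial ι ℂ))
    (h𝔞 : 𝔞.IsPrime) (ℱ : Set (MvPolynomial κ ℂ)) (s : κ → MvPolynomial ι ℂ)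
    (hs : ∀ x ∈ zeroLocus ℂ 𝔞, (fun j => eval x (s j)) ∈ Zl ℱ)
    (x₀ : ι → ℂ) (hx₀ : x₀ ∈ zeroLocus ℂ 𝔞) (ξ : ι → ℂ) (hξ : ξ ∈ tanSp 𝔞 x₀) :
    (fun j => dAt (s j) x₀ ξ) ∈ scoT ℱ (fun j => eval x₀ (s j)) := by
  rw [ph_mem_tanSp_span ℱ _ (fun g hg => by rw [aeval_eq_eval]; exact hs x₀ hx₀ g hg)]
  intro H hH
  have hmem : aeval s H ∈ 𝔞 := by
    rw [← ph_vanishing_prime 𝔞 h𝔞, ph_mem_vanishingIdeal]
    intro x hx
    have h1 := hs x hx H hH
    have h2 := comp_aeval_apply (f := s) (aeval x : MvPolynomial ι ℂ →ₐ[ℂ] ℂ) H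
    simp only [aeval_eq_eval] at h2
    rw [h2]
    exact h1
  have h3 := hξ _ hmem
  rw [ph_dAt_aeval] at h3
  simpa only [aeval_eq_eval] using h3


theorem scot_dAt_aff {ι : Type*} [Fintype ι] (a b : ℂ) (i : ι) (z v : ι → ℂ) :
    dAt (C a * X i + C b : MvPolynomial ι ℂ) z v = a * v i := by
  rw [ph_dAt_add, ph_dAt_mul, ph_dAt_C, ph_dAt_C, ph_dAt_X, aeval_C]
  simp

/-- affine maps `x ↦ (a₁ x + b₁, a₂ x + b₂)` -/
theorem scot_push_aff (𝔞 : Ideal (PrfPol d)) (h𝔞 : 𝔞.IsPrime) (ℱ : Set (SpLPol d)) (a₁ a₂ : ℂ)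
    (b₁ b₂ : SpC d) (hs : ∀ x ∈ spZ 𝔞, Sum.elim (a₁ • x + b₁) (a₂ • x + b₂) ∈ Zl ℱ)
    (x₀ : SpC d) (hx₀ : x₀ ∈ spZ 𝔞) (ξ : SpC d) (hξ : ξ ∈ tanSp 𝔞 x₀) :
    Sum.elim (a₁ • ξ) (a₂ • ξ) ∈ scoT ℱ (Sum.elim (a₁ • x₀ + b₁) (a₂ • x₀ + b₂)) := by
  have e1 : ∀ x : SpC d, (fun j => eval x ((Sum.elim (fun i => C a₁ * X i + C (b₁ i))
      (fun i => C a₂ * X i + C (b₂ i)) : Fin d ⊕ Fin d → PrfPol d) j))
      = Sum.elim (a₁ • x + b₁) (a₂ • x + b₂) := by
    intro x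
    funext j
    rcases j with i | i <;> simp
  have e2 : (fun j => dAt ((Sum.elim (fun i => C a₁ * X i + C (b₁ i))
      (fun i => C a₂ * X i + C (b₂ i)) : Fin d ⊕ Fin d → PrfPol d) j) x₀ ξ)
      = Sum.elim (a₁ • ξ) (a₂ • ξ) := by
    funext j
    rcases j with i | i <;> simp [scot_dAt_aff]
  have := scot_push 𝔞 h𝔞 ℱ (Sum.elim (fun i => C a₁ * X i + C (b₁ i))
      (fun i => C a₂ * X i + C (b₂ i))) (fun x hx => by rw [e1]; exact hs x hx) x₀ hx₀ ξ hξ
  rwa [e1, e2] at this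

/-- the direction of a line `t ↦ (p, t v)` inside the zero set -/
theorem scot_push_line (ℱ : Set (SpLPol d)) (p v : SpC d)
    (hs : ∀ t : ℂ, Sum.elim p (t • v) ∈ Zl ℱ) (t₀ : ℂ) :
    Sum.elim (0 : SpC d) v ∈ scoT ℱ (Sum.elim p (t₀ • v)) := by
  have e1 : ∀ x : Unit → ℂ, (fun j => eval x ((Sum.elim (fun i => C 0 * X () + C (p i))
      (fun i => C (v i) * X () + C 0) : Fin d ⊕ Fin d → MvPolynomial Unit ℂ) j))
      = Sum.elim p (x () • v) := by
    intro x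
    funext j
    rcases j with i | i <;> simp [mul_comm]
  have e2 : (fun j => dAt ((Sum.elim (fun i => C 0 * X () + C (p i))
      (fun i => C (v i) * X () + C 0) : Fin d ⊕ Fin d → MvPolynomial Unit ℂ) j)
      (fun _ => t₀) (fun _ => 1)) = Sum.elim (0 : SpC d) v := by
    funext j
    rcases j with i | i <;> simp only [Sum.elim_inl, Sum.elim_inr, scot_dAt_aff] <;> simp
  have hbot : (⊥ : Ideal (MvPolynomial Unit ℂ)).IsPrime := Ideal.isPrime_bot
  have := scot_push (⊥ : Ideal (MvPolynomial Unit ℂ)) hbot ℱ (Sum.elim (fun i => C 0 * X () + C (p i))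
      (fun i => C (v i) * X () + C 0)) (fun x _ => by rw [e1]; exact hs _) (fun _ => t₀)
      (by rw [ph_mem_zeroLocus]; intro f hf; rw [(Submodule.mem_bot _).1 hf, map_zero])
      (fun _ => 1) (by intro f hf; rw [(Submodule.mem_bot _).1 hf]; simp [dAt])
  rwa [e1, e2] at this

theorem scot_mem_img {V W : Set (SpC d)} {x y : SpC d} (hx : x ∈ V) (hy : y ∈ W) (lam : ℂ) :
    Sum.elim x (lam • (y - x)) ∈ spImg V W :=
  ph_subset_zcl _ ⟨(x, y), ⟨hx, hy⟩, lam, rfl⟩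

theorem scot_finrank_sup {V : Type*} [AddCommGroup V] [Module ℂ V] [FiniteDimensional ℂ V]
    (A : Submodule ℂ V) {v : V} (hv : v ∉ A) :
    finrank ℂ (A ⊔ Submodule.span ℂ {v} : Submodule ℂ V) = finrank ℂ A + 1 := by
  have hv0 : v ≠ 0 := fun h => hv (h ▸ A.zero_mem)
  have h1 := Submodule.finrank_sup_add_finrank_inf_eq A (Submodule.span ℂ {v})
  have h2 : A ⊓ Submodule.span ℂ {v} = ⊥ := ((Submodule.disjoint_span_singleton' hv0).2 hv).eq_bot
  rw [h2, finrank_bot, finrank_span_singleton hv0] at h1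
  omega


/-- the parametrisation of the tangent space of the label system -/
noncomputable def scotPhi (A B : Submodule ℂ (SpC d)) (lam : ℂ) (v : SpC d) :
    (A × B × ℂ) →ₗ[ℂ] (Fin d ⊕ Fin d → ℂ) where
  toFun t := Sum.elim (t.1 : SpC d) ((-lam) • (t.1 : SpC d) + lam • (t.2.1 : SpC d) + t.2.2 • v)
  map_add' s t := by
    funext i
    rcases i with i | i
    · simp
    · simp
      ring
  map_smul' c t := by
    funext i
    rcases i with i | i
    · simp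
    · simp
      ring

theorem scot_phi_inj (A B : Submodule ℂ (SpC d)) {lam : ℂ} (hlam : lam ≠ 0) {v : SpC d}
    (hv : v ∉ B) : Function.Injective (scotPhi A B lam v) := by
  rw [injective_iff_map_eq_zero]
  rintro ⟨ξ, υ, μ⟩ h
  have h1 : (ξ : SpC d) = 0 := by
    funext i
    exact congrFun h (Sum.inl i)
  have h2 : (-lam) • (ξ : SpC d) + lam • (υ : SpC d) + μ • v = 0 := by
    funext i
    exact congrFun h (Sum.inr i)
  rw [h1, smul_zero, zero_add] at h2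
  have hμ : μ = 0 := by
    by_contra hμ
    apply hv
    have : v = (-(μ⁻¹ * lam)) • (υ : SpC d) := by
      have h3 : μ • v = -(lam • (υ : SpC d)) := by
        rw [eq_neg_iff_add_eq_zero, add_comm]
        exact h2
      calc v = μ⁻¹ • (μ • v) := by rw [smul_smul, inv_mul_cancel₀ hμ, one_smul]
        _ = _ := by rw [h3, smul_neg, smul_smul, neg_smul]
    rw [this]
    exact B.smul_mem _ υ.2
  rw [hμ, zero_smul, add_zero] at h2
  have h4 : (υ : SpC d) = 0 := (smul_eq_zero.1 h2).resolve_left hlam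
  have h5 : ξ = 0 := Subtype.ext h1
  have h6 : υ = 0 := Subtype.ext h4
  rw [h5, h6, hμ]
  rfl

/-- **particular-pair version of geo:secants** (cone form) -/
theorem sco_no_second_aux (𝔵 𝔶 𝔶' : Ideal (PrfPol d)) (h𝔵 : 𝔵.IsPrime) (h𝔶 : 𝔶.IsPrime) (k : ℕ)
    (ℱ : Set (SpLPol d)) (h1 : spImg (spZ 𝔵) (spZ 𝔶) ⊆ Zl ℱ) (h2 : spImg (spZ 𝔵) (spZ 𝔶') ⊆ Zl ℱ)
    (p q z : SpC d) (hp : p ∈ spZ 𝔵) (hq : q ∈ spZ 𝔶) (hz : z ∈ spZ 𝔶')
    (hkx : finrank ℂ (tanSp 𝔵 p) = k) (hky : finrank ℂ (tanSp 𝔶 q) = k)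
    (lam : ℂ) (hlam : lam ≠ 0)
    (hlab : finrank ℂ (scoT ℱ (Sum.elim p (lam • (q - p)))) ≤ 2 * k + 1)
    (htp : q - p ∉ tanSp 𝔵 p) (htq : q - p ∉ tanSp 𝔶 q)
    (c : ℂ) (hc0 : c ≠ 0) (hc1 : c ≠ 1) (hzc : z - p = c • (q - p)) :
    tanSp 𝔵 p ⊔ Submodule.span ℂ {q - p} = tanSp 𝔶 q ⊔ Submodule.span ℂ {q - p} := by
  obtain ⟨v, hv⟩ : ∃ v : SpC d, v = q - p := ⟨_, rfl⟩
  rw [← hv] at hlab htp htq hzc ⊢
  obtain ⟨𝒯, h𝒯⟩ : ∃ 𝒯 : Submodule ℂ (Fin d ⊕ Fin d → ℂ), 𝒯 = scoT ℱ (Sum.elim p (lam • v)) :=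
    ⟨_, rfl⟩
  rw [← h𝒯] at hlab
  -- (a)
  have ha : ∀ ξ ∈ tanSp 𝔵 p, Sum.elim ξ ((-lam) • ξ) ∈ 𝒯 := by
    intro ξ hξ
    have := scot_push_aff 𝔵 h𝔵 ℱ 1 (-lam) 0 (lam • q) (fun x hx => by
      have e : Sum.elim ((1 : ℂ) • x + 0) ((-lam) • x + lam • q) = Sum.elim x (lam • (q - x)) := by
        rw [one_smul, add_zero, smul_sub, neg_smul]
        congr 1
        abel
      rw [e]
      exact h1 (scot_mem_img hx hq lam)) p hp ξ hξ
    have e : Sum.elim ((1 : ℂ) • p + 0) ((-lam) • p + lam • q) = Sum.elim p (lam • v) := by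
      rw [one_smul, add_zero, hv, smul_sub, neg_smul]
      congr 1
      abel
    rw [e, one_smul, ← h𝒯] at this
    exact this
  -- (b)
  have hb : ∀ υ ∈ tanSp 𝔶 q, Sum.elim (0 : SpC d) (lam • υ) ∈ 𝒯 := by
    intro υ hυ
    have := scot_push_aff 𝔶 h𝔶 ℱ 0 lam p (-(lam • p)) (fun y hy => by
      have e : Sum.elim ((0 : ℂ) • y + p) (lam • y + -(lam • p)) = Sum.elim p (lam • (y - p)) := by
        rw [zero_smul, zero_add, smul_sub, sub_eq_add_neg]
      rw [e]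
      exact h1 (scot_mem_img hp hy lam)) q hq υ hυ
    have e : Sum.elim ((0 : ℂ) • q + p) (lam • q + -(lam • p)) = Sum.elim p (lam • v) := by
      rw [zero_smul, zero_add, hv, smul_sub, sub_eq_add_neg]
    rw [e, zero_smul, ← h𝒯] at this
    exact this
  -- (c)
  have hc : Sum.elim (0 : SpC d) v ∈ 𝒯 := by
    rw [h𝒯]
    exact scot_push_line ℱ p v (fun t => by rw [hv]; exact h1 (scot_mem_img hp hq t)) lam
  -- (d)
  have hd : ∀ ξ ∈ tanSp 𝔵 p, Sum.elim ξ ((-(lam / c)) • ξ) ∈ 𝒯 := by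
    intro ξ hξ
    have := scot_push_aff 𝔵 h𝔵 ℱ 1 (-(lam / c)) 0 ((lam / c) • z) (fun x hx => by
      have e : Sum.elim ((1 : ℂ) • x + 0) ((-(lam / c)) • x + (lam / c) • z)
          = Sum.elim x ((lam / c) • (z - x)) := by
        rw [one_smul, add_zero, smul_sub, neg_smul]
        congr 1
        abel
      rw [e]
      exact h2 (scot_mem_img hx hz _)) p hp ξ hξ
    have e : Sum.elim ((1 : ℂ) • p + 0) ((-(lam / c)) • p + (lam / c) • z)
        = Sum.elim p (lam • v) := by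
      have e' : (-(lam / c)) • p + (lam / c) • z = (lam / c) • (z - p) := by
        rw [smul_sub, neg_smul]
        abel
      rw [one_smul, add_zero, e', hzc, smul_smul, div_mul_cancel₀ _ hc0]
    rw [e, one_smul, ← h𝒯] at this
    exact this
  -- the range of the parametrisation is the whole tangent space
  have hrange : LinearMap.range (scotPhi (tanSp 𝔵 p) (tanSp 𝔶 q) lam v) ≤ 𝒯 := by
    rintro _ ⟨⟨ξ, υ, μ⟩, rfl⟩
    have e : scotPhi (tanSp 𝔵 p) (tanSp 𝔶 q) lam v (ξ, υ, μ)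
        = Sum.elim (ξ : SpC d) ((-lam) • (ξ : SpC d)) + Sum.elim (0 : SpC d) (lam • (υ : SpC d))
          + μ • Sum.elim (0 : SpC d) v := by
      funext i
      rcases i with i | i <;> simp [scotPhi]
    rw [e]
    exact 𝒯.add_mem (𝒯.add_mem (ha ξ ξ.2) (hb υ υ.2)) (𝒯.smul_mem μ hc)
  have hfr : finrank ℂ (LinearMap.range (scotPhi (tanSp 𝔵 p) (tanSp 𝔶 q) lam v)) = 2 * k + 1 := by
    rw [LinearMap.finrank_range_of_inj (scot_phi_inj _ _ hlam htq), Module.finrank_prod,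
      Module.finrank_prod, hkx, hky, Module.finrank_self]
    ring
  have hrange' : LinearMap.range (scotPhi (tanSp 𝔵 p) (tanSp 𝔶 q) lam v) = 𝒯 :=
    Submodule.eq_of_le_of_finrank_le hrange (by rw [hfr]; exact hlab)
  -- conclusion
  have hne : lam - lam / c ≠ 0 := by
    intro h
    apply hc1
    have : lam * c = lam := by
      field_simp at h
      linear_combination h
    exact mul_left_cancel₀ hlam (by rw [this, mul_one])
  have hsub : tanSp 𝔵 p ≤ tanSp 𝔶 q ⊔ Submodule.span ℂ {v} := by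
    intro ξ hξ
    have hw : Sum.elim (0 : SpC d) ((lam - lam / c) • ξ) ∈ 𝒯 := by
      have e : Sum.elim (0 : SpC d) ((lam - lam / c) • ξ)
          = Sum.elim ξ ((-(lam / c)) • ξ) - Sum.elim ξ ((-lam) • ξ) := by
        funext i
        rcases i with i | i
        · simp
        · simp
          ring
      rw [e]
      exact 𝒯.sub_mem (hd ξ hξ) (ha ξ hξ)
    rw [← hrange'] at hw
    obtain ⟨⟨ξ', υ, μ⟩, ht⟩ := hw
    have g1 : (ξ' : SpC d) = 0 := by
      funext i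
      exact congrFun ht (Sum.inl i)
    have g2 : (-lam) • (ξ' : SpC d) + lam • (υ : SpC d) + μ • v = (lam - lam / c) • ξ := by
      funext i
      exact congrFun ht (Sum.inr i)
    rw [g1, smul_zero, zero_add] at g2
    have g3 : ξ = (lam - lam / c)⁻¹ • (lam • (υ : SpC d) + μ • v) := by
      rw [g2, smul_smul, inv_mul_cancel₀ hne, one_smul]
    rw [g3]
    refine Submodule.smul_mem _ _ (Submodule.add_mem _ ?_ ?_)
    · exact Submodule.mem_sup_left ((tanSp 𝔶 q).smul_mem _ υ.2)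
    · exact Submodule.mem_sup_right (Submodule.smul_mem _ _ (Submodule.mem_span_singleton_self v))
  refine Submodule.eq_of_le_of_finrank_le (sup_le hsub le_sup_right) ?_
  rw [scot_finrank_sup _ htp, scot_finrank_sup _ htq, hkx, hky]


/-- upper semicontinuity of the dimension of the Zariski tangent space -/
theorem scot_usc {ι : Type*} [Fintype ι] (I : Ideal (MvPolynomial ι ℂ)) (x₀ : ι → ℂ) :
    ∃ h : MvPolynomial ι ℂ, eval x₀ h ≠ 0 ∧
      ∀ x, eval x h ≠ 0 → finrank ℂ (tanSp I x) ≤ finrank ℂ (tanSp I x₀) := by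
  classical
  obtain ⟨r, g, hg, hli, hr⟩ := ph_grad_choose I x₀
  obtain ⟨e, he⟩ := (ph_li_iff_minor _).mp hli
  have hdet : ∀ x : ι → ℂ,
      eval x (Matrix.det (fun i j => pderiv (e j) (g i) : Matrix (Fin r) (Fin r) _))
      = Matrix.det (fun i j => aeval x (pderiv (e j) (g i)) : Matrix (Fin r) (Fin r) ℂ) := by
    intro x
    exact RingHom.map_det (eval x) _
  refine ⟨Matrix.det (fun i j => pderiv (e j) (g i) : Matrix (Fin r) (Fin r) _), ?_, ?_⟩
  · rw [hdet]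
    exact he
  · intro x hx
    have hli' : LinearIndependent ℂ (fun j => fun i => aeval x (pderiv i (g j))) := by
      rw [ph_li_iff_minor]
      refine ⟨e, ?_⟩
      rw [hdet] at hx
      exact hx
    have := ph_grad_le I x g hg hli'
    omega

/-- `q' ↦ ∇f(q')·(q' - p)` -/
noncomputable def scotDv (f : PrfPol d) (p : SpC d) : PrfPol d := ∑ i, pderiv i f * (X i - C (p i))

/-- `q' ↦ ∇f(q')·ξ` -/
noncomputable def scotDc (f : PrfPol d) (ξ : SpC d) : PrfPol d := ∑ i, pderiv i f * C (ξ i)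

theorem scot_eval_Dv (f : PrfPol d) (p x : SpC d) : eval x (scotDv f p) = dAt f x (x - p) := by
  simp [scotDv, dAt, aeval_eq_eval]

theorem scot_eval_Dc (f : PrfPol d) (ξ x : SpC d) : eval x (scotDc f ξ) = dAt f x ξ := by
  simp [scotDc, dAt, aeval_eq_eval]

theorem scot_dAt_add (f : PrfPol d) (z v w : SpC d) : dAt f z (v + w) = dAt f z v + dAt f z w :=
  (dAtL f z).map_add v w

theorem scot_dAt_smul (f : PrfPol d) (z : SpC d) (c : ℂ) (v : SpC d) :
    dAt f z (c • v) = c * dAt f z v := (dAtL f z).map_smul c v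

theorem scot_dAt_sub (f : PrfPol d) (z v w : SpC d) : dAt f z (v - w) = dAt f z v - dAt f z w :=
  (dAtL f z).map_sub v w

theorem scot_not_mem {F : Set (PrfPol d)} {x v : SpC d} (hx : ∀ f ∈ F, eval x f = 0)
    (hv : v ∉ scoT F x) : ∃ f ∈ F, dAt f x v ≠ 0 := by
  by_contra hcon
  push Not at hcon
  exact hv ((ph_mem_tanSp_span F x (fun g hg => by rw [aeval_eq_eval]; exact hx g hg) v).2 hcon)

theorem scot_not_mem_of {F : Set (PrfPol d)} {x v : SpC d} {f : PrfPol d} (hf : f ∈ F)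
    (h : dAt f x v ≠ 0) : v ∉ scoT F x := fun hv => h (hv f (Ideal.subset_span hf))

theorem scot_neq_poly {F : Set (PrfPol d)} {x v ξ : SpC d} (hx : ∀ f ∈ F, eval x f = 0)
    (hv : v ∉ scoT F x) (hξ : ξ ∉ scoT F x ⊔ Submodule.span ℂ {v}) :
    ∃ f ∈ F, ∃ f' ∈ F, dAt f x v * dAt f' x ξ - dAt f' x v * dAt f x ξ ≠ 0 := by
  by_contra hcon
  push Not at hcon
  obtain ⟨f₀, hf₀, h0⟩ := scot_not_mem hx hv
  apply hξ
  have h1 : ξ - (dAt f₀ x ξ / dAt f₀ x v) • v ∈ scoT F x := by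
    rw [ph_mem_tanSp_span F x (fun g hg => by rw [aeval_eq_eval]; exact hx g hg)]
    intro f' hf'
    rw [scot_dAt_sub, scot_dAt_smul]
    have := hcon f₀ hf₀ f' hf'
    field_simp
    linear_combination this
  have h2 : ξ = (ξ - (dAt f₀ x ξ / dAt f₀ x v) • v) + (dAt f₀ x ξ / dAt f₀ x v) • v := by abel
  rw [h2]
  exact Submodule.add_mem _ (Submodule.mem_sup_left h1)
    (Submodule.mem_sup_right (Submodule.smul_mem _ _ (Submodule.mem_span_singleton_self v)))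

theorem scot_neq_conv {F : Set (PrfPol d)} {x v ξ : SpC d} {f f' : PrfPol d} (hf : f ∈ F)
    (hf' : f' ∈ F) (h : dAt f x v * dAt f' x ξ - dAt f' x v * dAt f x ξ ≠ 0) :
    ξ ∉ scoT F x ⊔ Submodule.span ℂ {v} := by
  intro hmem
  obtain ⟨w, hw, u, hu, rfl⟩ := Submodule.mem_sup.1 hmem
  obtain ⟨μ, rfl⟩ := Submodule.mem_span_singleton.1 hu
  apply h
  rw [scot_dAt_add, scot_dAt_add, scot_dAt_smul, scot_dAt_smul, hw f (Ideal.subset_span hf),
    hw f' (Ideal.subset_span hf')]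
  ring

/-- goodness is Zariski-dense-open in the target -/
theorem sco_good_open_aux (F : Set (PrfPol d)) (ℱ : Set (SpLPol d)) (j : ℕ) (p q : SpC d)
    (h : ScoGood F ℱ j p q) (hFp : ∀ f ∈ F, eval p f = 0) (hFq : ∀ f ∈ F, eval q f = 0)
    (hdp : finrank ℂ (scoT F p) = d - j) (hdq : finrank ℂ (scoT F q) = d - j) :
    ∃ h' : PrfPol d, eval q h' ≠ 0 ∧ ∀ q' : SpC d, eval q' h' ≠ 0 → (∀ f ∈ F, eval q' f = 0) →
      ScoGood F ℱ j p q' := by
  -- rank at the target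
  obtain ⟨h₂, h₂q, H₂⟩ := scot_usc (Ideal.span F) q
  -- rank of the label equations
  obtain ⟨lam, hlam, hlab⟩ := h.lab
  obtain ⟨G₃, G₃q, H₃⟩ := scot_usc (Ideal.span ℱ) (Sum.elim p (lam • (q - p)))
  obtain ⟨s, hs⟩ : ∃ s : Fin d ⊕ Fin d → PrfPol d, s = Sum.elim (fun i => C (p i))
      (fun i => C lam * (X i - C (p i))) := ⟨_, rfl⟩
  have es : ∀ x : SpC d, eval x (aeval s G₃) = eval (Sum.elim p (lam • (x - p))) G₃ := by
    intro x
    have h2 := comp_aeval_apply (f := s) (aeval x : PrfPol d →ₐ[ℂ] ℂ) G₃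
    simp only [aeval_eq_eval] at h2
    rw [h2]
    congr 2
    funext i
    rcases i with i | i <;> simp [hs]
  -- transversality
  obtain ⟨f₄, hf₄, h₄q⟩ := scot_not_mem hFp h.tr_p
  obtain ⟨f₅, hf₅, h₅q⟩ := scot_not_mem hFq h.tr_q
  have e₄ : ∀ x : SpC d, eval x (∑ i, C (eval p (pderiv i f₄)) * (X i - C (p i)) : PrfPol d)
      = dAt f₄ p (x - p) := by
    intro x
    simp [dAt, aeval_eq_eval]
  -- the projected tangent spaces
  obtain ⟨h₆, h₆q, H₆⟩ : ∃ h₆ : PrfPol d, eval q h₆ ≠ 0 ∧ ∀ q' : SpC d, eval q' h₆ ≠ 0 →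
      2 ≤ d - j → scoT F p ⊔ Submodule.span ℂ {q' - p} ≠ scoT F q' ⊔ Submodule.span ℂ {q' - p} := by
    by_cases h2 : 2 ≤ d - j
    · obtain ⟨ξ, hξp, hξq⟩ : ∃ ξ ∈ scoT F p, ξ ∉ scoT F q ⊔ Submodule.span ℂ {q - p} := by
        by_contra hcon
        push Not at hcon
        apply h.neq h2
        refine Submodule.eq_of_le_of_finrank_le (sup_le hcon le_sup_right) ?_
        rw [scot_finrank_sup _ h.tr_p, scot_finrank_sup _ h.tr_q, hdp, hdq]
      obtain ⟨f, hf, f', hf', hne⟩ := scot_neq_poly hFq h.tr_q hξq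
      refine ⟨scotDv f p * scotDc f' ξ - scotDv f' p * scotDc f ξ, ?_, ?_⟩
      · rw [map_sub, map_mul, map_mul, scot_eval_Dv, scot_eval_Dv, scot_eval_Dc, scot_eval_Dc]
        exact hne
      · intro q' hq' _ heq
        rw [map_sub, map_mul, map_mul, scot_eval_Dv, scot_eval_Dv, scot_eval_Dc, scot_eval_Dc] at hq'
        apply scot_neq_conv hf hf' hq'
        rw [← heq]
        exact Submodule.mem_sup_left hξp
    · exact ⟨1, by simp, fun _ _ h2' => absurd h2' h2⟩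
  refine ⟨h₂ * aeval s G₃ * (∑ i, C (eval p (pderiv i f₄)) * (X i - C (p i))) * scotDv f₅ p * h₆,
    ?_, ?_⟩
  · rw [map_mul, map_mul, map_mul, map_mul, es, e₄, scot_eval_Dv]
    exact mul_ne_zero (mul_ne_zero (mul_ne_zero (mul_ne_zero h₂q G₃q) h₄q) h₅q) h₆q
  · intro q' hq' _
    rw [map_mul, map_mul, map_mul, map_mul, es, e₄, scot_eval_Dv] at hq'
    have g₆ := right_ne_zero_of_mul hq'
    have hq1 := left_ne_zero_of_mul hq'
    have g₅ := right_ne_zero_of_mul hq1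
    have hq2 := left_ne_zero_of_mul hq1
    have g₄ := right_ne_zero_of_mul hq2
    have hq3 := left_ne_zero_of_mul hq2
    have g₃ := right_ne_zero_of_mul hq3
    have g₂ := left_ne_zero_of_mul hq3
    exact
      { tan_p := h.tan_p
        tan_q := (H₂ q' g₂).trans h.tan_q
        lab := ⟨lam, hlam, (H₃ _ g₃).trans hlab⟩
        tr_p := scot_not_mem_of hf₄ g₄
        tr_q := scot_not_mem_of hf₅ g₅
        neq := H₆ q' g₆ }

end Claimed.Agent.R273
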