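import Claimed.Agent.R273.ScsLastA

/-!
# Row 273, S6b, BP-SCS-LAST, part B: THE ROW LEMMA (finite form, no `θ`).  Architect helper161.

`scsl_row`: one centre `p`, covering cones `𝒦`, a set `Row` of covered, non-terminal targets whose assigned curves project with dimension `2` (cone form).
Hypotheses = the four "negligible" statements, each as a bound for EVERY subset of the row with the stated property:
 `hlarge` (L1: targets on components of dimension `m ≥ 3` of the envelope), `hind0` (individual cuts of degree `≤ T₀`), `hind1` (individual cuts of degree `≤ Cn T₁`), `hmass` (mass of a family of small degree).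
Conclusion: `|Row| ≤ d M' + 3 M`.
-/

set_option autoImplicit false

namespace Claimed.Agent.R273

open MvPolynomial Module

variable {d : ℕ}

/-- `Cn` is a constant of poly:regularity in `ℂ^d` -/
def ScslRegC (d Cn : ℕ) : Prop :=
  ∀ (G : Set (PrfPol d)) (L : ℕ), 1 ≤ L → (∀ g ∈ G, g.totalDegree ≤ L) →
    ∀ (m : ℕ) (𝒱 : Finset (Set (SpC d))), (∀ V ∈ 𝒱, IsCompOf V G ∧ vdim V = m) →
    ∀ D : ℕ, Cn * L ≤ D →
      ∃ (ℱ : Finset (PrfPol d)) (g : PrfPol d) (ℰ : Finset (Set (SpC d))), ℰ ⊆ 𝒱 ∧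
        (∀ f ∈ ℱ, f.totalDegree ≤ D ∧ ∀ V ∈ 𝒱, ∀ x ∈ V, eval x f = 0) ∧ g.totalDegree ≤ Cn * D ∧
        (∑ V ∈ ℰ, vdeg V) * D ≤ Cn * (∑ V ∈ 𝒱, vdeg V) * L ∧
        (∀ V ∈ 𝒱, V ∉ ℰ → ∃ x ∈ V, eval x g ≠ 0) ∧
        ∀ x, eval x g ≠ 0 → d - m ≤ prfrRk (ℱ : Set (PrfPol d)) x

theorem scsl_regC (d : ℕ) : ∃ Cn : ℕ, 0 < Cn ∧ ScslRegC d Cn := by
  obtain ⟨Cn, h0, H⟩ := prfr_reg_var (Fin d)
  refine ⟨Cn, h0, ?_⟩
  intro G L hL hG m 𝒱 h𝒱 D hD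
  have := H G L hL hG m 𝒱 h𝒱 D hD
  rwa [Fintype.card_fin] at this

theorem scsl_row (hd : 3 ≤ d) (𝒦 : Finset (Set (SpC d)))
    (h𝒦 : ∀ γ ∈ 𝒦, IsVar γ ∧ vdim γ = 2 ∧ ∀ w ∈ γ, ∀ a : ℂ, a • w ∈ γ)
    (p : SpC d) (cho : SpC d → Ideal (PrfPol d)) (Row : Finset (SpC d))
    (hcho : ∀ q ∈ Row, (cho q).IsPrime ∧ q ∈ zeroLocus ℂ (cho q))
    (hcov : ∀ q ∈ Row, ∃ γ ∈ 𝒦, q - p ∈ γ)
    (hterm : ∀ q ∈ Row, dcone p (zeroLocus ℂ (cho q)) ∉ 𝒦)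
    (hdim : ∀ q ∈ Row, vdim (dcone p (zeroLocus ℂ (cho q))) = 2)
    (T₀ T₁ Cn : ℕ) (hT₀ : 1 ≤ T₀) (hT₁ : Cn * T₀ ≤ T₁) (hCn : ScslRegC d Cn) (M M' : ℝ)
    (hlarge : ∀ m, 3 ≤ m → m ≤ d → ∀ S ⊆ Row,
      (∀ q ∈ S, ∃ W ∈ scslFam (⋃ γ ∈ 𝒦, γ) T₀ m, q - p ∈ W) → (S.card : ℝ) ≤ M')
    (hind0 : ∀ h : Ideal (PrfPol d) → PrfPol d,
      (∀ 𝔶 : Ideal (PrfPol d), 𝔶.IsPrime → h 𝔶 ∉ 𝔶 ∧ (h 𝔶).totalDegree ≤ T₀) →
      ∀ S ⊆ Row, (∀ q ∈ S, eval q (h (cho q)) = 0) → (S.card : ℝ) ≤ M)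
    (hind1 : ∀ h : Ideal (PrfPol d) → PrfPol d,
      (∀ 𝔶 : Ideal (PrfPol d), 𝔶.IsPrime → h 𝔶 ∉ 𝔶 ∧ (h 𝔶).totalDegree ≤ Cn * T₁) →
      ∀ S ⊆ Row, (∀ q ∈ S, eval q (h (cho q)) = 0) → (S.card : ℝ) ≤ M)
    (hmass : ∀ 𝒢 : Finset (Set (SpC d)), (∀ W ∈ 𝒢, IsVar W ∧ vdim W = 2) →
      (∑ W ∈ 𝒢, vdeg W) * T₁ ≤ Cn * ((d + 1) ^ d * ∑ γ ∈ 𝒦, vdeg γ) * T₀ →
      ∀ S ⊆ Row, (∀ q ∈ S, dcone p (zeroLocus ℂ (cho q)) ∈ 𝒢) → (S.card : ℝ) ≤ M) :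
    (Row.card : ℝ) ≤ d * M' + 3 * M := by
  classical
  set K : Set (SpC d) := ⋃ γ ∈ 𝒦, γ with hKdef
  have hK : ScslCone K := scsl_cone_biUnion 𝒦 fun γ hγ => (h𝒦 γ hγ).2.2
  have hKE : hA K T₀ ≤ (∑ γ ∈ 𝒦, vdeg γ) * (T₀ + 2).choose 2 :=
    scsl_hA_K 𝒦 (fun γ hγ => ⟨(h𝒦 γ hγ).1, (h𝒦 γ hγ).2.1⟩) T₀
  obtain ⟨h₃, h₃a, h₃b⟩ := scsl_env_cut hK T₀ p
  obtain ⟨ℱ, g, ℰ, hℰ, hℱ, hg, hdeg, hgne, hrk⟩ := hCn (scslSys K T₀) T₀ hT₀ (scsl_sys_deg K T₀) 2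
    (scslFam K T₀ 2) (fun V hV => scsl_mem_fam.mp hV) T₁ hT₁
  obtain ⟨h₇, h₇a, h₇b⟩ := scsl_test_cut g p
  set Lg : ℕ → Finset (SpC d) := fun m => Row.filter fun q => ∃ W ∈ scslFam K T₀ m, q - p ∈ W
    with hLg
  set B3 : Finset (SpC d) := Row.filter fun q => eval q (h₃ (cho q)) = 0 with hB3
  set Ex : Finset (SpC d) := Row.filter fun q => dcone p (zeroLocus ℂ (cho q)) ∈ ℰ with hEx
  set B7 : Finset (SpC d) := Row.filter fun q => eval q (h₇ (cho q)) = 0 with hB7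
  have hcover : Row ⊆ (Finset.Icc 3 d).biUnion Lg ∪ (B3 ∪ (Ex ∪ B7)) := by
    intro q hq
    by_contra hcon
    simp only [Finset.mem_union, Finset.mem_biUnion, not_or, not_exists, not_and] at hcon
    obtain ⟨c1, c2, c3, c4⟩ := hcon
    obtain ⟨hpr, hqZ⟩ := hcho q hq
    set Z := dcone p (zeroLocus ℂ (cho q)) with hZdef
    have hZ : IsVar Z := dep_dcone_isVar p ⟨cho q, hpr, rfl⟩
    have huZ : q - p ∈ Z := by
      have := dep_sub_dcone p (zeroLocus ℂ (cho q)) hqZ 1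
      rwa [one_smul] at this
    obtain ⟨γ, hγ, huγ⟩ := hcov q hq
    have huK : q - p ∈ K := by
      simp only [hKdef, Set.mem_iUnion, exists_prop]
      exact ⟨γ, hγ, huγ⟩
    have hsmall : ∀ m, 3 ≤ m → ∀ W ∈ scslFam K T₀ m, q - p ∉ W := by
      intro m hm W hW huW
      by_cases hmd : m ≤ d
      · exact c1 m (Finset.mem_Icc.mpr ⟨hm, hmd⟩) (Finset.mem_filter.mpr ⟨hq, W, hW, huW⟩)
      · have h1 := ph_vdim_le W
        rw [(scsl_mem_fam.mp hW).2, Fintype.card_fin] at h1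
        exact hmd h1
    have hZE : Z ⊆ Env K T₀ := by
      by_contra hne
      exact c2 (Finset.mem_filter.mpr ⟨hq, h₃b (cho q) hne q huK⟩)
    have hZF : Z ∈ scslFam K T₀ 2 := scsl_in_fam hZ (hdim q hq) hZE huZ hsmall
    have hZnE : Z ∉ ℰ := fun h => c3 (Finset.mem_filter.mpr ⟨hq, h⟩)
    have hq7 : eval q (h₇ (cho q)) ≠ 0 := fun h => c4 (Finset.mem_filter.mpr ⟨hq, h⟩)
    obtain ⟨lam, hlam⟩ := h₇b (cho q) (hgne Z hZF hZnE) q hq7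
    have hγE : γ ⊆ Env K T₀ := by
      refine Set.Subset.trans ?_ (ph_subset_env K T₀)
      intro x hx
      simp only [hKdef, Set.mem_iUnion, exists_prop]
      exact ⟨γ, hγ, hx⟩
    have hγF : γ ∈ scslFam K T₀ 2 := scsl_in_fam (h𝒦 γ hγ).1 (h𝒦 γ hγ).2.1 hγE huγ hsmall
    have heq : Z = γ := scsl_unique (ℱ : Set (PrfPol d)) hZ (h𝒦 γ hγ).1 (hdim q hq) (h𝒦 γ hγ).2.1
      (fun f hf => (hℱ f hf).2 Z hZF) (fun f hf => (hℱ f hf).2 γ hγF)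
      (scsl_dcone_cone p _ _ huZ lam) ((h𝒦 γ hγ).2.2 _ huγ lam) (hrk _ hlam)
    exact hterm q hq (by rw [← hZdef, heq]; exact hγ)
  have hM' : 0 ≤ M' := by
    have := hlarge 3 le_rfl hd ∅ (Finset.empty_subset _) (by simp)
    simpa using this
  have e1 : (((Finset.Icc 3 d).biUnion Lg).card : ℝ) ≤ d * M' := by
    have h1 : (((Finset.Icc 3 d).biUnion Lg).card : ℝ) ≤ ∑ m ∈ Finset.Icc 3 d, ((Lg m).card : ℝ) := by
      exact_mod_cast Finset.card_biUnion_le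
    have h2 : ∑ m ∈ Finset.Icc 3 d, ((Lg m).card : ℝ) ≤ ∑ _m ∈ Finset.Icc 3 d, M' :=
      Finset.sum_le_sum fun m hm => hlarge m (Finset.mem_Icc.mp hm).1 (Finset.mem_Icc.mp hm).2 _
        (Finset.filter_subset _ _) fun q hq => (Finset.mem_filter.mp hq).2
    rw [Finset.sum_const, nsmul_eq_mul] at h2
    have h3 : ((Finset.Icc 3 d).card : ℝ) ≤ d := by
      rw [Nat.card_Icc]
      exact_mod_cast (by omega : d + 1 - 3 ≤ d)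
    exact h1.trans (h2.trans (mul_le_mul_of_nonneg_right h3 hM'))
  have e2 : (B3.card : ℝ) ≤ M :=
    hind0 h₃ h₃a _ (Finset.filter_subset _ _) fun q hq => (Finset.mem_filter.mp hq).2
  have e3 : (Ex.card : ℝ) ≤ M := by
    refine hmass ℰ (fun W hW => ?_) ?_ _ (Finset.filter_subset _ _)
      fun q hq => (Finset.mem_filter.mp hq).2
    · have := scsl_mem_fam.mp (hℰ hW)
      exact ⟨ph_isCompOf_isVar this.1, this.2⟩
    · refine hdeg.trans (Nat.mul_le_mul_right _ (Nat.mul_le_mul_left _ ?_))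
      exact scsl_family_deg K T₀ _ hKE
  have e4 : (B7.card : ℝ) ≤ M :=
    hind1 h₇ (fun 𝔶 hp => ⟨(h₇a 𝔶 hp).1, (h₇a 𝔶 hp).2.trans hg⟩) _ (Finset.filter_subset _ _)
      fun q hq => (Finset.mem_filter.mp hq).2
  have hcard : Row.card ≤ ((Finset.Icc 3 d).biUnion Lg).card + (B3.card + (Ex.card + B7.card)) :=
    (Finset.card_le_card hcover).trans ((Finset.card_union_le _ _).trans
      (Nat.add_le_add_left ((Finset.card_union_le _ _).trans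
        (Nat.add_le_add_left (Finset.card_union_le _ _) _)) _))
  have hcard' : (Row.card : ℝ) ≤ (((Finset.Icc 3 d).biUnion Lg).card : ℝ) +
      ((B3.card : ℝ) + ((Ex.card : ℝ) + (B7.card : ℝ))) := by exact_mod_cast hcard
  linarith

end Claimed.Agent.R273
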