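import Claimed.Agent.R273.SpNum
import Claimed.Agent.R273.SplBasic

/-! # S6A-NC: the contradiction in a common window (no sorry) -/

set_option autoImplicit false

namespace Claimed.Agent.R273

open MvPolynomial Module

variable {d : ℕ}

theorem spn_sigma_ge (hd : 1 ≤ d) (b : ℕ → ℝ) (hb : SpAdm d b) (B s t : ℝ) (hB : 0 < B)
    (hs : 0 ≤ s) (ht : t ≤ b (d - 1)) :
    B ^ d * Real.exp (-(d * (b (d - 1) - t) * s)) ≤ spSigma d B s b t := by
  set c := Real.exp (-((b (d - 1) - t) * s)) with hc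
  have hc1 : c ≤ 1 := Real.exp_le_one_iff.mpr (by nlinarith)
  have hc0 : 0 < c := Real.exp_pos _
  have key : ∀ i ∈ Finset.range d, spD B s b i * c ≤ min (prfT B s t) (spD B s b i) := by
    intro i hi
    have hid := Finset.mem_range.mp hi
    have hDi := spn_D_pos hB s b i
    refine le_min ?_ ?_
    · have h1 : spD B s b i ≤ prfT B s (b (d - 1)) :=
        spn_T_mono hB hs (hb.mono i (d - 1) (by omega) (by omega))
      have h2 : prfT B s (b (d - 1)) * c = prfT B s t := by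
        unfold prfT
        rw [hc, mul_assoc, ← Real.exp_add]
        congr 2
        ring
      rw [← h2]
      exact mul_le_mul_of_nonneg_right h1 hc0.le
    · nlinarith
  calc B ^ d * Real.exp (-(d * (b (d - 1) - t) * s))
      = ∏ i ∈ Finset.range d, (spD B s b i * c) := by
        rw [Finset.prod_mul_distrib, Finset.prod_const, Finset.card_range, hc, ← Real.exp_nat_mul]
        have := spn_E_top b hb B s
        unfold spE at this
        rw [this]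
        congr 2
        ring
    _ ≤ spSigma d B s b t :=
        Finset.prod_le_prod (fun i _ => (mul_pos (spn_D_pos hB s b i) hc0).le) key

theorem spn_dA (D : SpData d) : dA D.P = D.B ^ 2 := by
  have hN : 0 ≤ D.N := Nat.cast_nonneg _
  unfold SpData.B dA
  rw [← Real.rpow_natCast, ← Real.rpow_mul hN]
  congr 1
  push_cast
  ring

theorem spn_choose_two {T : ℝ} (hT : 1 ≤ T) : (((⌊T⌋₊ + 2).choose 2 : ℕ) : ℝ) ≤ 3 * T ^ 2 := by
  have h1 : (⌊T⌋₊ : ℝ) ≤ T := Nat.floor_le (by linarith)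
  have h0 : (0 : ℝ) ≤ (⌊T⌋₊ : ℝ) := Nat.cast_nonneg _
  rw [Nat.cast_choose_two]
  push_cast
  nlinarith

/-- `T / B² ≤ e^{-μ s} min(1, T/(D_0 D_1))` -/
theorem spn_nc_TB (b : ℕ → ℝ) (B s t μ μ₂ : ℝ) (hB : 0 < B) (hs : 0 < s)
    (h2 : (t + μ₂) * s ≤ Real.log B) (hμ₂ : μ ≤ μ₂) (hμ₁ : μ ≤ -(b 0 + b 1)) :
    prfT B s t / B ^ 2 ≤
      Real.exp (-(μ * s)) * min 1 (prfT B s t / (spD B s b 0 * spD B s b 1)) := by
  set T := prfT B s t with hT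
  set μ₁ := -(b 0 + b 1) with hμ₁def
  have hTpos : 0 < T := spn_T_pos hB s t
  have hQpos : 0 < spD B s b 0 * spD B s b 1 :=
    mul_pos (spn_D_pos hB s b 0) (spn_D_pos hB s b 1)
  have h1 : T / B ^ 2 ≤ Real.exp (-(μ₂ * s)) := by
    have h4 : T / B ^ 2 = Real.exp (t * s) / B := by
      rw [hT]; unfold prfT; field_simp
    rw [h4, div_le_iff₀ hB]
    calc Real.exp (t * s) = Real.exp (-(μ₂ * s)) * Real.exp ((t + μ₂) * s) := by
          rw [← Real.exp_add]; congr 1; ring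
      _ ≤ Real.exp (-(μ₂ * s)) * B := by
          refine mul_le_mul_of_nonneg_left ?_ (Real.exp_pos _).le
          calc Real.exp ((t + μ₂) * s) ≤ Real.exp (Real.log B) := Real.exp_le_exp.mpr h2
            _ = B := Real.exp_log hB
  have h5 : T / B ^ 2 = Real.exp (-(μ₁ * s)) * (T / (spD B s b 0 * spD B s b 1)) := by
    have h6 : spD B s b 0 * spD B s b 1 = B ^ 2 * Real.exp (-(μ₁ * s)) := by
      unfold spD prfT
      rw [hμ₁def, show -(-(b 0 + b 1) * s) = b 0 * s + b 1 * s by ring, Real.exp_add]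
      ring
    rw [h6]
    have := Real.exp_pos (-(μ₁ * s))
    field_simp
  have h7 : Real.exp (-(μ₂ * s)) ≤ Real.exp (-(μ * s)) := Real.exp_le_exp.mpr (by
    have : μ * s ≤ μ₂ * s := mul_le_mul_of_nonneg_right hμ₂ hs.le
    linarith)
  have h8 : Real.exp (-(μ₁ * s)) ≤ Real.exp (-(μ * s)) := Real.exp_le_exp.mpr (by
    have : μ * s ≤ μ₁ * s := mul_le_mul_of_nonneg_right hμ₁ hs.le
    linarith)
  rcases le_total 1 (T / (spD B s b 0 * spD B s b 1)) with h | h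
  · rw [min_eq_left h, mul_one]; exact h1.trans h7
  · rw [min_eq_right h, h5]
    exact mul_le_mul_of_nonneg_right h8 (div_pos hTpos hQpos).le

/-- the final numerical contradiction -/
theorem spn_nc_fin (d : ℕ) (B s T m δ μ ξ : ℝ) (hB : 0 < B) (hs : 0 < s) (hT : 0 < T) (hm : 0 < m)
    (hδ0 : 0 < δ) (hδ : δ ≤ 1 / 4) (hμ : 0 < μ) (hξ2 : 2 * d * ξ ≤ μ / 4)
    (hTB : T / B ^ 2 ≤ Real.exp (-(μ * s)) * m)
    (hL : (B ^ d * Real.exp (-(d * ξ * s))) ^ 2 * T * m * Real.exp (-(μ / 4 * s)) ≤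
      B ^ d * (δ * B ^ d / B ^ 2) * (3 * T ^ 2)) : False := by
  have h9 : Real.exp (-(2 * d * ξ * s)) * Real.exp (-(μ / 4 * s)) * m ≤ 3 * δ * (T / B ^ 2) := by
    have h10 : (B ^ d * Real.exp (-(d * ξ * s))) ^ 2 * T * m * Real.exp (-(μ / 4 * s)) =
        (B ^ d) ^ 2 * T * (Real.exp (-(2 * d * ξ * s)) * Real.exp (-(μ / 4 * s)) * m) := by
      rw [mul_pow, ← Real.exp_nat_mul]
      rw [show ((2 : ℕ) : ℝ) * -(d * ξ * s) = -(2 * d * ξ * s) by push_cast; ring]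
      ring
    have h11 : B ^ d * (δ * B ^ d / B ^ 2) * (3 * T ^ 2) =
        (B ^ d) ^ 2 * T * (3 * δ * (T / B ^ 2)) := by
      field_simp
    rw [h10, h11] at hL
    exact le_of_mul_le_mul_left hL (by positivity)
  have hfin : Real.exp (-(2 * d * ξ * s)) * Real.exp (-(μ / 4 * s)) * m ≤
      3 * δ * (Real.exp (-(μ * s)) * m) := by
    refine h9.trans ?_
    gcongr
  have hfin2 : Real.exp (-(2 * d * ξ * s)) * Real.exp (-(μ / 4 * s)) ≤
      3 * δ * Real.exp (-(μ * s)) := by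
    have : Real.exp (-(2 * d * ξ * s)) * Real.exp (-(μ / 4 * s)) * m ≤
      3 * δ * Real.exp (-(μ * s)) * m := by linarith
    exact le_of_mul_le_mul_right this hm
  have hfin3 : Real.exp (-(μ * s)) ≤ Real.exp (-(2 * d * ξ * s)) * Real.exp (-(μ / 4 * s)) := by
    rw [← Real.exp_add]
    apply Real.exp_le_exp.mpr
    have : 2 * d * ξ * s ≤ μ / 4 * s := mul_le_mul_of_nonneg_right hξ2 hs.le
    nlinarith
  have hpos := Real.exp_pos (-(μ * s))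
  nlinarith

/-- one datum: lower bound (CR) against upper bound (UP) -/
theorem spn_nc_one (hd : 3 ≤ d) (b : ℕ → ℝ) (hb : SpAdm d b) (D : SpData d) (X : SpPool d)
    (s θ t μ μ₂ ξ : ℝ) (hθ : 0 < θ) (hX : X.Ok D s θ b) (hδ0 : 0 < D.δ) (hδ : D.δ ≤ 1 / 4)
    (ht1 : -1 ≤ t) (ht2 : t ≤ b (d - 1)) (ht3 : b (d - 1) - t ≤ ξ) (hμ : 0 < μ)
    (hξ2 : 2 * d * ξ ≤ μ / 4) (h2 : (t + μ₂) * s ≤ Real.log D.B) (hμ₂ : μ ≤ μ₂)
    (hμ₁ : μ ≤ -(b 0 + b 1)) (Γ : Finset (SpC d × SpC d)) (hΓ : ∀ z ∈ Γ, z.1 ∈ X.pts)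
    (hlow : spRk d D.B s b t * Real.exp (-(μ / 4 * s)) ≤
      (hA (spLab (Γ : Set (SpC d × SpC d))) ⌊prfT D.B s t⌋₊ : ℝ))
    (hup : (hA (spLab (Γ : Set (SpC d × SpC d))) ⌊prfT D.B s t⌋₊ : ℝ) ≤
      ((Γ.image Prod.fst).card : ℝ) * D.E * ((⌊prfT D.B s t⌋₊ + 2).choose 2 : ℝ)) : False := by
  have hs : 0 < s := spl_s_pos hθ hX
  have hB : 0 < D.B := spl_B_pos hθ hX
  have hT1 : 1 ≤ prfT D.B s t := spl_one_le_T hθ hX ht1
  have hTpos : 0 < prfT D.B s t := by linarith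
  have hN : D.N = D.B ^ d := spl_N_eq (by omega) D
  have hcent : ((Γ.image Prod.fst).card : ℝ) ≤ D.B ^ d := by
    rw [← hN]
    refine le_trans ?_ (spl_pts_le hX)
    have : Γ.image Prod.fst ⊆ X.pts := by
      intro x hx
      obtain ⟨z, hz, rfl⟩ := Finset.mem_image.mp hx
      exact hΓ z hz
    exact_mod_cast Finset.card_le_card this
  have hE : D.E = D.δ * D.B ^ d / D.B ^ 2 := by
    unfold SpData.E
    rw [spn_dA D, hN]
  have hU : (hA (spLab (Γ : Set (SpC d × SpC d))) ⌊prfT D.B s t⌋₊ : ℝ) ≤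
      D.B ^ d * (D.δ * D.B ^ d / D.B ^ 2) * (3 * prfT D.B s t ^ 2) := by
    refine hup.trans ?_
    rw [hE]
    have := spn_choose_two hT1
    gcongr
  have hQpos : 0 < spD D.B s b 0 * spD D.B s b 1 :=
    mul_pos (spn_D_pos hB s b 0) (spn_D_pos hB s b 1)
  have hmpos : 0 < min 1 (prfT D.B s t / (spD D.B s b 0 * spD D.B s b 1)) :=
    lt_min one_pos (div_pos hTpos hQpos)
  have hσ : D.B ^ d * Real.exp (-(d * ξ * s)) ≤ spSigma d D.B s b t := by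
    refine le_trans ?_ (spn_sigma_ge (by omega) b hb D.B s t hB hs.le ht2)
    refine mul_le_mul_of_nonneg_left (Real.exp_le_exp.mpr ?_) (by positivity)
    have : d * (b (d - 1) - t) * s ≤ d * ξ * s := by gcongr
    linarith
  have hL : (D.B ^ d * Real.exp (-(d * ξ * s))) ^ 2 * prfT D.B s t *
      min 1 (prfT D.B s t / (spD D.B s b 0 * spD D.B s b 1)) * Real.exp (-(μ / 4 * s)) ≤
      D.B ^ d * (D.δ * D.B ^ d / D.B ^ 2) * (3 * prfT D.B s t ^ 2) := by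
    refine le_trans ?_ (hlow.trans hU)
    unfold spRk
    gcongr
  exact spn_nc_fin d D.B s _ _ D.δ μ ξ hB hs hTpos hmpos hδ0 hδ hμ hξ2
    (spn_nc_TB b D.B s t μ μ₂ hB hs h2 hμ₂ hμ₁) hL

theorem spn_noCommon (hd : 3 ≤ d) (adm : SpAdmStmt d) (cr : SpCRStmt d) (up : SpUpperStmt d) :
    SpNoCommon d := by
  intro b α hα
  by_cases hb : SpAdm d b
  swap
  · obtain ⟨θ, hθ, h⟩ := adm b hb
    exact ⟨θ, hθ, fun 𝔠 hok _ => h 𝔠.D 𝔠.X 𝔠.v hok.reg hok.okX⟩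
  obtain ⟨hm1, hm0, hmd⟩ := spn_adm_margins hd b hb
  have hβ1 : b (d - 1) ≤ 1 := hb.hi
  obtain ⟨μ₂, hμ₂pos, hμ₂le, hμ₂eq⟩ : ∃ μ₂ : ℝ, 0 < μ₂ ∧ μ₂ ≤ 1 ∧
      (b (d - 1) < 1 → μ₂ = 1 - b (d - 1)) := by
    by_cases h : b (d - 1) < 1
    · exact ⟨1 - b (d - 1), by linarith, by linarith, fun _ => rfl⟩
    · exact ⟨1, one_pos, le_rfl, fun h' => absurd h' h⟩
  obtain ⟨μ, hμpos, hμ1, hμ2⟩ : ∃ μ : ℝ, 0 < μ ∧ μ ≤ -(b 0 + b 1) ∧ μ ≤ μ₂ :=
    ⟨min (-(b 0 + b 1)) μ₂, lt_min (by linarith) hμ₂pos, min_le_left _ _, min_le_right _ _⟩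
  have hdpos : (0 : ℝ) < d := by
    have : 0 < d := by omega
    positivity
  obtain ⟨ξ, hξpos, hξ1, hξ2⟩ : ∃ ξ : ℝ, 0 < ξ ∧ ξ ≤ 1 / 2 ∧ 2 * d * ξ ≤ μ / 4 := by
    refine ⟨min (1 / 2) (μ / (8 * d)), lt_min (by norm_num) (by positivity), min_le_left _ _, ?_⟩
    have : min (1 / 2) (μ / (8 * d)) ≤ μ / (8 * d) := min_le_right _ _
    rw [le_div_iff₀ (by positivity)] at this
    linarith
  obtain ⟨t, ht1, ht2, ht3, htP⟩ := spn_borrow b hb d (by omega) le_rfl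
    (fun u => u = -1 ∨ ∃ j' < d, SpPlat d b j' u) (Or.inl rfl)
    (fun j' hj' u hu _ => Or.inr ⟨j', hj', hu⟩) ξ hξpos
  have htne : t ≠ -1 := by
    intro h
    rw [h] at ht3
    linarith
  obtain ⟨j, hj, hplat⟩ := htP.resolve_left htne
  obtain ⟨θ₀, hθ₀, hcr⟩ := cr b hb α (μ / 4) hα (by positivity) j t hj hplat ht1
  have hθpos : 0 < min θ₀ (1 / 4) := lt_min hθ₀ (by norm_num)
  refine ⟨min θ₀ (1 / 4), hθpos, ?_⟩
  intro 𝔠 hok hcom
  obtain ⟨hvs, hgrid, htop, hcase⟩ := hcom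
  have hokX : 𝔠.X.Ok 𝔠.D 𝔠.s (min θ₀ (1 / 4)) b := hvs ▸ hok.okX
  have htwo : SpTwo 𝔠.D 𝔠.X 𝔠.Y 𝔠.s θ₀ b :=
    (SpTwo.mk hok.reg hokX hok.okY hgrid htop).mono hθpos (min_le_left _ _)
  have hlow := hcr 𝔠.D 𝔠.X 𝔠.Y 𝔠.s htwo 𝔠.Γ hok.sub hok.off hok.dense
  have hXsub : 𝔠.X.pts ⊆ 𝔠.D.pts := Finset.biUnion_subset.mpr hokX.sub
  have hup := up 𝔠.D 𝔠.Γ ⌊prfT 𝔠.D.B 𝔠.s t⌋₊ hok.reg.deg (fun z hz =>
    ⟨hXsub (Finset.mem_product.mp (hok.sub hz)).1, hok.cov z hz⟩)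
  have hs : 0 < 𝔠.s := spl_s_pos hθpos hokX
  have h2 : (t + μ₂) * 𝔠.s ≤ Real.log 𝔠.D.B := by
    rcases hcase with h | h
    · have : (t + μ₂) * 𝔠.s ≤ 2 * 𝔠.s := by
        apply mul_le_mul_of_nonneg_right _ hs.le
        linarith
      linarith
    · have h3 : μ₂ = 1 - b (d - 1) := hμ₂eq h
      have : (t + μ₂) * 𝔠.s ≤ 1 * 𝔠.s := by
        apply mul_le_mul_of_nonneg_right _ hs.le
        rw [h3]; linarith
      linarith [hokX.s_le]
  exact spn_nc_one hd b hb 𝔠.D 𝔠.X 𝔠.s _ t μ μ₂ ξ hθpos hokX hok.reg.pos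
    (hok.reg.le.trans (min_le_right _ _)) ht1 ht2 ht3 hμpos hξ2 h2 hμ2 hμ1 𝔠.Γ
    (fun z hz => (Finset.mem_product.mp (hok.sub hz)).1) hlow hup

end Claimed.Agent.R273
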