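import Claimed.Agent.R273.ScsDefs
import Claimed.Agent.R273.SpNC

/-!
# Row 273, S6b, BP-SCS-LAST, part C: THE THREE NUMERICAL LEMMAS (real exponent arithmetic only; no geometry).  Architect helper161.  ALL PROVED.

Notation: `τ(u) = prfT B s u = B e^{u s}`, `D_i = τ(b_i)`, `spE B s b j = ∏_{i<j} D_i`, `spSigma d B s b t = ∏_{i<d} min(τ(t), D_i)`, `∏_{i<d} D_i = B^d` (`spn_E_top`, uses `SpAdm.bal`).
From `1/θ ≤ s ≤ log B`: `0 < s`, `e^s ≤ B`, `τ(u) ≥ 1` for `u ≥ -1`.  Useful: `spl_absorb` (constants are absorbed by `e^{η s}`), `spl_floor` (`x/2 ≤ ⌊x⌋₊`), `spl_T_add`, `spn_T_mono`, `spn_T_pos`, `spn_choose_two` (`binom(⌊T⌋+2,2) ≤ 3T²`), `spl_spE_mul`.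

* LEAF SCSL-NUM-DEG (`scsl_num_deg`).  `θ` from `spl_absorb Cn (beq - b₀)` and `spl_absorb Cn (btest - beq)`.  `1 ≤ ⌊τ(b₀)⌋₊`: `Nat.le_floor`, `τ(b₀) ≥ B e^{-s} ≥ 1`.  `Cn ⌊τ(b₀)⌋₊ ≤ ⌊τ(beq)⌋₊`: `Nat.le_floor`, cast, `⌊τ(b₀)⌋₊ ≤ τ(b₀)`, `τ(beq) = τ(b₀) e^{(beq - b₀) s}`.  Third: the same.
* LEAF SCSL-NUM-EXC (`scsl_num_exc`).  `∑_{Ico (d-1) d} b i = b (d-1)` (`Finset.sum_Ico_succ_top`/`Nat.Ico_succ_singleton`, `d - 1 + 1 = d`).  `spE B s b (d-1) * D_{d-1} = B^d` (`Finset.prod_range_succ`, `spn_E_top`).  So `K := τ(-b_{d-1}) / spE · e^{ε s} = B² / B^d · e^{ε s}`.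
   `aE ⌊τ(beq)⌋₊ ≤ Cn (d+1)^d E₀ ⌊τ(b₀)⌋₊`, `⌊τ(beq)⌋₊ ≥ τ(beq)/2`, `⌊τ(b₀)⌋₊ ≤ τ(b₀)`: `aE ≤ 2 Cn (d+1)^d E₀ e^{-(beq - b₀) s}`.  `K aE ≤ 2 Cn (d+1)^d δ e^{-(beq - b₀ - ε) s} ≤ ρ` as soon as `2 Cn (d+1)^d / ρ ≤ e^{(beq - b₀ - ε) s}` (`spl_absorb`).
* LEAF SCSL-NUM-LARGE (`scsl_num_large`).  `τ₀ = τ(b₀)`, `τ' = τ(t')`, both `≥ 1`, `τ' ≤ τ₀`.
   `binom(⌊τ₀⌋+m, m) ≥ τ₀^m / m!` (`Nat.choose` product formula: `m! binom(n+m,m) = ∏_{i=1}^m (n+i) ≥ (n+1)^m`, e.g. `Nat.pow_le_...`/`Nat.succ_pow_le..`: `Nat.pow_succ_le_ascFactorial`, `Nat.ascFactorial_eq_factorial_mul_choose`), `⌊τ₀⌋ + 1 ≥ τ₀`;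
   `binom(⌊τ'⌋+m, m) ≤ (⌊τ'⌋+m)^m / m! ≤ ((d+1) τ')^m / m!` (`Nat.choose_le_pow_div`/`Nat.ascFactorial_le_pow_add`);   `binom(⌊τ₀⌋+2,2) ≤ 3 τ₀²`.
   Hence `H τ₀^{m-2} ≤ 3 (d+1)^{2d} E₀ τ'^m`, and with the lower bound of `H` and `E₀ ≤ δ B^d / B²`, `δ ≤ 1`:   `σ(t') e^{c s} (τ₀/τ')^{m-2} ≤ 3 (d+1)^{2d} B^d`;   `(τ₀/τ')^{m-2} ≥ τ₀/τ'`.
   `σ(t') ≥ (∏_{i<d-1} D_i e^{-(c/(8d)) s}) τ'`: for `i ≤ d-2`: `min(τ', D_i) ≥ D_i e^{-(c/(8d)) s}` because `b_i - t' ≤ b_{d-2} - t' ≤ c/(8d)`; for `i = d-1`: `min = τ'`.   So `σ(t') τ₀/τ' ≥ (B^d / D_{d-1}) e^{-(c/8) s} τ₀ = B^d e^{-(c/8) s} e^{-(b_{d-1} - b₀) s} ≥ B^d e^{-(c/4) s}`.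
   Contradiction as soon as `e^{(3c/4) s} > 3 (d+1)^{2d}` (`spl_absorb` with `C = 3 (d+1)^{2d} + 1`).
-/

set_option autoImplicit false

namespace Claimed.Agent.R273

open MvPolynomial Module

variable {d : ℕ}

/-- basic consequences of `1/θ ≤ s ≤ log B` -/
theorem scsl_basic {θ B s : ℝ} (hθ : 0 < θ) (hB : 0 < B) (h1 : 1 / θ ≤ s) (h2 : s ≤ Real.log B) :
    0 < s ∧ ∀ u : ℝ, -1 ≤ u → 1 ≤ prfT B s u := by
  have hs : 0 < s := lt_of_lt_of_le (by positivity) h1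
  refine ⟨hs, fun u hu => ?_⟩
  have hB' : Real.exp s ≤ B := by
    calc Real.exp s ≤ Real.exp (Real.log B) := Real.exp_le_exp.mpr h2
      _ = B := Real.exp_log hB
  unfold prfT
  have h3 : Real.exp (-s) ≤ Real.exp (u * s) := Real.exp_le_exp.mpr (by nlinarith)
  calc (1 : ℝ) = Real.exp s * Real.exp (-s) := by rw [← Real.exp_add]; simp
    _ ≤ B * Real.exp (u * s) := mul_le_mul hB' h3 (Real.exp_pos _).le hB.le

theorem scsl_T_shift (B s u v : ℝ) : prfT B s v = prfT B s u * Real.exp ((v - u) * s) := by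
  rw [← spl_T_add]
  congr 1
  ring

theorem scsl_num_deg (Cn : ℕ) (b₀ beq btest : ℝ) (h0 : -1 ≤ b₀) (h1 : b₀ < beq)
    (h2 : beq < btest) :
    ∃ θ : ℝ, 0 < θ ∧ ∀ B s : ℝ, 0 < B → 1 / θ ≤ s → s ≤ Real.log B →
      1 ≤ ⌊prfT B s b₀⌋₊ ∧ Cn * ⌊prfT B s b₀⌋₊ ≤ ⌊prfT B s beq⌋₊ ∧
      ((Cn * ⌊prfT B s beq⌋₊ : ℕ) : ℝ) ≤ prfT B s btest := by
  obtain ⟨θ₁, hθ₁, H₁⟩ := spl_absorb Cn (beq - b₀) (by linarith)
  obtain ⟨θ₂, hθ₂, H₂⟩ := spl_absorb Cn (btest - beq) (by linarith)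
  refine ⟨min θ₁ θ₂, lt_min hθ₁ hθ₂, fun B s hB hs1 hs2 => ?_⟩
  have hθ : 0 < min θ₁ θ₂ := lt_min hθ₁ hθ₂
  obtain ⟨hs, hT⟩ := scsl_basic hθ hB hs1 hs2
  have a1 := H₁ _ s hθ (min_le_left _ _) hs1
  have a2 := H₂ _ s hθ (min_le_right _ _) hs1
  have p0 := spn_T_pos hB s b₀
  have p1 := spn_T_pos hB s beq
  have f0 : (⌊prfT B s b₀⌋₊ : ℝ) ≤ prfT B s b₀ := Nat.floor_le p0.le
  have f1 : (⌊prfT B s beq⌋₊ : ℝ) ≤ prfT B s beq := Nat.floor_le p1.le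
  refine ⟨Nat.le_floor (by simpa using hT b₀ h0), Nat.le_floor ?_, ?_⟩
  · push_cast
    rw [scsl_T_shift B s b₀ beq, mul_comm]
    exact mul_le_mul f0 a1 (Nat.cast_nonneg _) p0.le
  · push_cast
    rw [scsl_T_shift B s beq btest, mul_comm]
    exact mul_le_mul f1 a2 (Nat.cast_nonneg _) p1.le

theorem scsl_E_pred (hd : 1 ≤ d) (b : ℕ → ℝ) (hb : SpAdm d b) (B s : ℝ) :
    spE B s b (d - 1) * prfT B s (b (d - 1)) = B ^ d := by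
  rw [← spn_E_top b hb B s]
  obtain ⟨k, rfl⟩ : ∃ k, d = k + 1 := ⟨d - 1, by omega⟩
  unfold spE
  rw [Finset.prod_range_succ]
  rfl

theorem scsl_num_exc (hd : 3 ≤ d) (b : ℕ → ℝ) (hb : SpAdm d b) (Cn : ℕ) (b₀ beq ε ρ : ℝ)
    (h0 : -1 ≤ b₀) (hη : b₀ + ε < beq) (hε : 0 < ε) (hρ : 0 < ρ) :
    ∃ θ : ℝ, 0 < θ ∧ ∀ (B s δ : ℝ) (aE E₀ : ℕ), 0 < B → 1 / θ ≤ s → s ≤ Real.log B → 0 < δ →
      δ ≤ 1 →
      (E₀ : ℝ) ≤ δ * B ^ d / B ^ 2 →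
      aE * ⌊prfT B s beq⌋₊ ≤ Cn * ((d + 1) ^ d * E₀) * ⌊prfT B s b₀⌋₊ →
      prfT B s (-∑ i ∈ Finset.Ico (d - 1) d, b i) / spE B s b (d - 1) * Real.exp (ε * s) *
        (aE : ℝ) ≤ ρ := by
  set C₀ : ℝ := 2 * Cn * ((d : ℝ) + 1) ^ d with hC₀
  have hC₀0 : 0 ≤ C₀ := by positivity
  obtain ⟨θ₁, hθ₁, H₁⟩ := spl_absorb (C₀ / ρ) (beq - b₀ - ε) (by linarith)
  refine ⟨θ₁, hθ₁, fun B s δ aE E₀ hB hs1 hs2 hδ0 hδ1 hE₀ hdeg => ?_⟩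
  obtain ⟨hs, hT⟩ := scsl_basic hθ₁ hB hs1 hs2
  have a1 := H₁ _ s hθ₁ le_rfl hs1
  have hsum : ∑ i ∈ Finset.Ico (d - 1) d, b i = b (d - 1) := by
    have : Finset.Ico (d - 1) d = {d - 1} := by
      ext i
      simp only [Finset.mem_Ico, Finset.mem_singleton]
      omega
    rw [this, Finset.sum_singleton]
  rw [hsum]
  have p0 := spn_T_pos hB s b₀
  have p1 := spn_T_pos hB s beq
  have pE := spn_E_pos hB s b (d - 1)
  have hBd : 0 < B ^ d := pow_pos hB d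
  -- the factor K
  have hK : prfT B s (-b (d - 1)) / spE B s b (d - 1) = B ^ 2 / B ^ d := by
    rw [div_eq_div_iff pE.ne' hBd.ne', ← scsl_E_pred (by omega) b hb B s]
    unfold prfT
    have : Real.exp (-b (d - 1) * s) * Real.exp (b (d - 1) * s) = 1 := by
      rw [← Real.exp_add]
      simp
    calc B * Real.exp (-b (d - 1) * s) * (spE B s b (d - 1) * (B * Real.exp (b (d - 1) * s)))
        = B ^ 2 * spE B s b (d - 1) *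
          (Real.exp (-b (d - 1) * s) * Real.exp (b (d - 1) * s)) := by ring
      _ = B ^ 2 * spE B s b (d - 1) := by rw [this, mul_one]
  rw [hK]
  -- the bound for aE
  have f0 : (⌊prfT B s b₀⌋₊ : ℝ) ≤ prfT B s b₀ := Nat.floor_le p0.le
  have f1 : prfT B s beq / 2 ≤ (⌊prfT B s beq⌋₊ : ℝ) := spl_floor (hT beq (by linarith))
  have hdeg' : (aE : ℝ) * (⌊prfT B s beq⌋₊ : ℝ) ≤
      Cn * (((d : ℝ) + 1) ^ d * E₀) * (⌊prfT B s b₀⌋₊ : ℝ) := by exact_mod_cast hdeg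
  have h3 : (aE : ℝ) * (prfT B s beq / 2) ≤ Cn * (((d : ℝ) + 1) ^ d * E₀) * prfT B s b₀ :=
    (mul_le_mul_of_nonneg_left f1 (Nat.cast_nonneg _)).trans
      (hdeg'.trans (mul_le_mul_of_nonneg_left f0 (by positivity)))
  rw [scsl_T_shift B s b₀ beq] at h3
  have h4 : (aE : ℝ) * Real.exp ((beq - b₀) * s) ≤ C₀ * E₀ := by
    have : (aE : ℝ) * Real.exp ((beq - b₀) * s) * (prfT B s b₀ / 2) ≤ C₀ * E₀ * (prfT B s b₀ / 2) := by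
      rw [hC₀]
      nlinarith
    exact le_of_mul_le_mul_right this (by positivity)
  have h5 : C₀ * E₀ ≤ C₀ * (B ^ d / B ^ 2) := by
    refine mul_le_mul_of_nonneg_left (hE₀.trans ?_) hC₀0
    rw [mul_div_assoc]
    exact mul_le_of_le_one_left (by positivity) hδ1
  have h6 : Real.exp ((beq - b₀) * s) = Real.exp ((beq - b₀ - ε) * s) * Real.exp (ε * s) := by
    rw [← Real.exp_add]
    congr 1
    ring
  have h7 : C₀ ≤ ρ * Real.exp ((beq - b₀ - ε) * s) := by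
    rw [div_le_iff₀ hρ] at a1
    linarith
  have pe := Real.exp_pos (ε * s)
  have pe' := Real.exp_pos ((beq - b₀ - ε) * s)
  have hB2 : 0 < B ^ 2 := by positivity
  -- combine
  have h8 : (aE : ℝ) * Real.exp (ε * s) * Real.exp ((beq - b₀ - ε) * s) ≤
      ρ * (B ^ d / B ^ 2) * Real.exp ((beq - b₀ - ε) * s) := by
    calc (aE : ℝ) * Real.exp (ε * s) * Real.exp ((beq - b₀ - ε) * s)
        = (aE : ℝ) * Real.exp ((beq - b₀) * s) := by rw [h6]; ring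
      _ ≤ C₀ * (B ^ d / B ^ 2) := h4.trans h5
      _ ≤ ρ * Real.exp ((beq - b₀ - ε) * s) * (B ^ d / B ^ 2) :=
          mul_le_mul_of_nonneg_right h7 (by positivity)
      _ = ρ * (B ^ d / B ^ 2) * Real.exp ((beq - b₀ - ε) * s) := by ring
  have h9 : (aE : ℝ) * Real.exp (ε * s) ≤ ρ * (B ^ d / B ^ 2) := le_of_mul_le_mul_right h8 pe'
  calc B ^ 2 / B ^ d * Real.exp (ε * s) * (aE : ℝ)
      = B ^ 2 / B ^ d * ((aE : ℝ) * Real.exp (ε * s)) := by ring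
    _ ≤ B ^ 2 / B ^ d * (ρ * (B ^ d / B ^ 2)) := mul_le_mul_of_nonneg_left h9 (by positivity)
    _ = ρ := by field_simp

/-- `x^m ≤ m! binom(⌊x⌋ + m, m)` -/
theorem scsl_choose_ge {x : ℝ} (hx : 0 ≤ x) (m : ℕ) :
    x ^ m ≤ (m.factorial : ℝ) * ((⌊x⌋₊ + m).choose m : ℝ) := by
  have h1 : (⌊x⌋₊ + 1) ^ m ≤ m.factorial * (⌊x⌋₊ + m).choose m := by
    rw [← Nat.ascFactorial_eq_factorial_mul_choose]
    exact Nat.pow_succ_le_ascFactorial _ _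
  have h2 : x ≤ ((⌊x⌋₊ + 1 : ℕ) : ℝ) := by
    push_cast
    exact (Nat.lt_floor_add_one x).le
  calc x ^ m ≤ ((⌊x⌋₊ + 1 : ℕ) : ℝ) ^ m := pow_le_pow_left₀ hx h2 m
    _ ≤ (m.factorial : ℝ) * ((⌊x⌋₊ + m).choose m : ℝ) := by exact_mod_cast h1

/-- `m! binom(⌊x⌋ + m, m) ≤ ((m+1) x)^m` for `x ≥ 1` -/
theorem scsl_choose_le {x : ℝ} (hx : 1 ≤ x) (m : ℕ) :
    (m.factorial : ℝ) * ((⌊x⌋₊ + m).choose m : ℝ) ≤ (((m : ℝ) + 1) * x) ^ m := by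
  have h1 : m.factorial * (⌊x⌋₊ + m).choose m ≤ (⌊x⌋₊ + m) ^ m := by
    rw [← Nat.ascFactorial_eq_factorial_mul_choose]
    exact Nat.ascFactorial_le_pow_add _ _
  have h2 : ((⌊x⌋₊ + m : ℕ) : ℝ) ≤ ((m : ℝ) + 1) * x := by
    push_cast
    have := Nat.floor_le (by linarith : (0 : ℝ) ≤ x)
    have hm : (0 : ℝ) ≤ m := Nat.cast_nonneg _
    nlinarith
  calc (m.factorial : ℝ) * ((⌊x⌋₊ + m).choose m : ℝ) ≤ ((⌊x⌋₊ + m : ℕ) : ℝ) ^ m := by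
        exact_mod_cast h1
    _ ≤ (((m : ℝ) + 1) * x) ^ m := pow_le_pow_left₀ (Nat.cast_nonneg _) h2 m

/-- lower bound of `σ(t')` just before the last plateau -/
theorem scsl_sigma_ge (hd : 3 ≤ d) (b : ℕ → ℝ) (hb : SpAdm d b) (c t' B s : ℝ) (hc : 0 < c)
    (hB : 0 < B) (hs : 0 < s) (ht2 : t' ≤ b (d - 2)) (ht3 : b (d - 2) - t' ≤ c / (8 * d)) :
    spE B s b (d - 1) * Real.exp (-(c / 8 * s)) * prfT B s t' ≤ spSigma d B s b t' := by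
  obtain ⟨k, rfl⟩ : ∃ k, d = k + 1 := ⟨d - 1, by omega⟩
  simp only [Nat.add_sub_cancel] at *
  have e1 : k + 1 - 2 = k - 1 := by omega
  rw [e1] at ht2 ht3
  unfold spSigma
  rw [Finset.prod_range_succ]
  have hlast : min (prfT B s t') (spD B s b k) = prfT B s t' :=
    min_eq_left (spn_T_mono hB hs.le (ht2.trans (hb.mono (k - 1) k (by omega) (by omega))))
  rw [hlast]
  refine mul_le_mul_of_nonneg_right ?_ (spn_T_pos hB s t').le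
  set x : ℝ := c / (8 * ((k + 1 : ℕ) : ℝ)) with hx
  have hx0 : 0 < x := by positivity
  have key : ∀ i ∈ Finset.range k, spD B s b i * Real.exp (-(x * s)) ≤
      min (prfT B s t') (spD B s b i) := by
    intro i hi
    have hik := Finset.mem_range.mp hi
    have hDi := spn_D_pos hB s b i
    refine le_min ?_ ?_
    · have h1 : spD B s b i * Real.exp (-(x * s)) = prfT B s (b i + -x) := by
        rw [spl_T_add]
        unfold spD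
        congr 2
        ring
      rw [h1]
      refine spn_T_mono hB hs.le ?_
      have := hb.mono i (k - 1) (by omega) (by omega)
      linarith
    · refine mul_le_of_le_one_right hDi.le (Real.exp_le_one_iff.mpr ?_)
      have := mul_pos hx0 hs
      linarith
  refine le_trans ?_ (Finset.prod_le_prod
    (fun i _ => (mul_pos (spn_D_pos hB s b i) (Real.exp_pos _)).le) key)
  rw [Finset.prod_mul_distrib, Finset.prod_const, Finset.card_range, ← Real.exp_nat_mul]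
  unfold spE
  refine mul_le_mul_of_nonneg_left (Real.exp_le_exp.mpr ?_)
    (Finset.prod_pos fun i _ => spn_D_pos hB s b i).le
  have h2 : (k : ℝ) * x ≤ c / 8 := by
    rw [hx]
    push_cast
    have hk : (0 : ℝ) ≤ k := Nat.cast_nonneg _
    rw [mul_div_assoc', div_le_div_iff₀ (by positivity) (by norm_num)]
    nlinarith
  nlinarith


theorem scsl_num_large (hd : 3 ≤ d) (b : ℕ → ℝ) (hb : SpAdm d b) (c t' b₀ : ℝ) (hc : 0 < c)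
    (ht1 : -1 ≤ t') (ht2 : t' ≤ b (d - 2)) (ht3 : b (d - 2) - t' ≤ c / (8 * d))
    (h01 : b (d - 2) ≤ b₀) (h02 : b₀ ≤ b (d - 1)) (h03 : b (d - 1) - b₀ ≤ c / 8) :
    ∃ θ : ℝ, 0 < θ ∧ ∀ (B s δ : ℝ) (m E₀ H : ℕ), 0 < B → 1 / θ ≤ s → s ≤ Real.log B → 0 < δ →
      δ ≤ 1 →
      3 ≤ m → m ≤ d → (E₀ : ℝ) ≤ δ * B ^ d / B ^ 2 →
      spSigma d B s b t' * prfT B s t' ^ 2 / B ^ 2 * Real.exp (c * s) ≤ (H : ℝ) →
      H * (⌊prfT B s b₀⌋₊ + m).choose m ≤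
        (d + 1) ^ d * E₀ * (⌊prfT B s b₀⌋₊ + 2).choose 2 * (⌊prfT B s t'⌋₊ + m).choose m →
      False := by
  set C₁ : ℝ := 3 * (((d : ℝ) + 1) ^ d * ((d : ℝ) + 1) ^ d) with hC₁
  have hC₁0 : 0 < C₁ := by positivity
  obtain ⟨θ₁, hθ₁, H₁⟩ := spl_absorb (C₁ + 1) (3 * c / 4) (by positivity)
  refine ⟨θ₁, hθ₁, fun B s δ m E₀ H hB hs1 hs2 hδ0 hδ1 hm hmd hE₀ hlow hup => ?_⟩
  obtain ⟨hs, hT⟩ := scsl_basic hθ₁ hB hs1 hs2
  have a1 := H₁ _ s hθ₁ le_rfl hs1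
  set τ₀ : ℝ := prfT B s b₀ with hτ₀
  set τ' : ℝ := prfT B s t' with hτ'
  have q0 : 1 ≤ τ₀ := hT b₀ (by linarith)
  have q1 : 1 ≤ τ' := hT t' ht1
  have q01 : τ' ≤ τ₀ := spn_T_mono hB hs.le (by linarith)
  have hH0 : (0 : ℝ) ≤ H := Nat.cast_nonneg _
  have hE0 : (0 : ℝ) ≤ E₀ := Nat.cast_nonneg _
  have hd1 : (1 : ℝ) ≤ (d : ℝ) + 1 := by
    have : (0 : ℝ) ≤ d := Nat.cast_nonneg _
    linarith
  -- the hypothesis over the reals, multiplied by m!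
  have hup' : (H : ℝ) * ((⌊τ₀⌋₊ + m).choose m : ℝ) ≤
      ((d : ℝ) + 1) ^ d * E₀ * ((⌊τ₀⌋₊ + 2).choose 2 : ℝ) * ((⌊τ'⌋₊ + m).choose m : ℝ) := by
    exact_mod_cast hup
  have s1 : (H : ℝ) * τ₀ ^ m ≤ (H : ℝ) * ((m.factorial : ℝ) * ((⌊τ₀⌋₊ + m).choose m : ℝ)) :=
    mul_le_mul_of_nonneg_left (scsl_choose_ge (by linarith) m) hH0
  have s2 : (m.factorial : ℝ) * ((⌊τ'⌋₊ + m).choose m : ℝ) ≤ ((d : ℝ) + 1) ^ d * τ' ^ m := by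
    refine (scsl_choose_le q1 m).trans ?_
    rw [mul_pow]
    refine mul_le_mul_of_nonneg_right ?_ (by positivity)
    have hmd' : (m : ℝ) + 1 ≤ (d : ℝ) + 1 := by
      have : (m : ℝ) ≤ d := by exact_mod_cast hmd
      linarith
    calc ((m : ℝ) + 1) ^ m ≤ ((d : ℝ) + 1) ^ m := pow_le_pow_left₀ (by positivity) hmd' m
      _ ≤ ((d : ℝ) + 1) ^ d := pow_le_pow_right₀ hd1 hmd
  have s3 : ((⌊τ₀⌋₊ + 2).choose 2 : ℝ) ≤ 3 * τ₀ ^ 2 := spn_choose_two q0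
  have s4 : (H : ℝ) * τ₀ ^ m ≤ C₁ * E₀ * τ₀ ^ 2 * τ' ^ m := by
    calc (H : ℝ) * τ₀ ^ m ≤ (H : ℝ) * ((m.factorial : ℝ) * ((⌊τ₀⌋₊ + m).choose m : ℝ)) := s1
      _ = (m.factorial : ℝ) * ((H : ℝ) * ((⌊τ₀⌋₊ + m).choose m : ℝ)) := by ring
      _ ≤ (m.factorial : ℝ) * (((d : ℝ) + 1) ^ d * E₀ * ((⌊τ₀⌋₊ + 2).choose 2 : ℝ) *
            ((⌊τ'⌋₊ + m).choose m : ℝ)) := mul_le_mul_of_nonneg_left hup' (Nat.cast_nonneg _)
      _ = ((d : ℝ) + 1) ^ d * E₀ * ((⌊τ₀⌋₊ + 2).choose 2 : ℝ) *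
            ((m.factorial : ℝ) * ((⌊τ'⌋₊ + m).choose m : ℝ)) := by ring
      _ ≤ ((d : ℝ) + 1) ^ d * E₀ * (3 * τ₀ ^ 2) * (((d : ℝ) + 1) ^ d * τ' ^ m) := by
          refine mul_le_mul (mul_le_mul_of_nonneg_left s3 (by positivity)) s2 (by positivity)
            (by positivity)
      _ = C₁ * E₀ * τ₀ ^ 2 * τ' ^ m := by rw [hC₁]; ring
  -- reduce the exponents
  obtain ⟨k, rfl⟩ : ∃ k, m = k + 3 := ⟨m - 3, by omega⟩
  have p0 : 0 < τ₀ := by linarith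
  have p1 : 0 < τ' := by linarith
  have s5 : (H : ℝ) * τ₀ ≤ C₁ * E₀ * τ' ^ 3 := by
    have h1 : (H : ℝ) * τ₀ * (τ₀ ^ 2 * τ' ^ k) ≤ C₁ * E₀ * τ' ^ 3 * (τ₀ ^ 2 * τ' ^ k) := by
      calc (H : ℝ) * τ₀ * (τ₀ ^ 2 * τ' ^ k) = (H : ℝ) * τ₀ ^ 3 * τ' ^ k := by ring
        _ ≤ (H : ℝ) * τ₀ ^ 3 * τ₀ ^ k :=
            mul_le_mul_of_nonneg_left (pow_le_pow_left₀ p1.le q01 k) (by positivity)
        _ = (H : ℝ) * τ₀ ^ (k + 3) := by ring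
        _ ≤ C₁ * E₀ * τ₀ ^ 2 * τ' ^ (k + 3) := s4
        _ = C₁ * E₀ * τ' ^ 3 * (τ₀ ^ 2 * τ' ^ k) := by ring
    exact le_of_mul_le_mul_right h1 (by positivity)
  have hB2 : 0 < B ^ 2 := by positivity
  have hBd : 0 < B ^ d := pow_pos hB d
  have s6 : (E₀ : ℝ) ≤ B ^ d / B ^ 2 := by
    refine hE₀.trans ?_
    rw [mul_div_assoc]
    exact mul_le_of_le_one_left (by positivity) hδ1
  have s7 : spSigma d B s b t' * Real.exp (c * s) * τ₀ ≤ C₁ * B ^ d * τ' := by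
    have h1 : spSigma d B s b t' * τ' ^ 2 / B ^ 2 * Real.exp (c * s) * τ₀ ≤
        C₁ * (B ^ d / B ^ 2) * τ' ^ 3 :=
      (mul_le_mul_of_nonneg_right hlow p0.le).trans (s5.trans
        (mul_le_mul_of_nonneg_right (mul_le_mul_of_nonneg_left s6 hC₁0.le) (by positivity)))
    have h2 : spSigma d B s b t' * Real.exp (c * s) * τ₀ * (τ' ^ 2 / B ^ 2) ≤
        C₁ * B ^ d * τ' * (τ' ^ 2 / B ^ 2) := by
      calc spSigma d B s b t' * Real.exp (c * s) * τ₀ * (τ' ^ 2 / B ^ 2)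
          = spSigma d B s b t' * τ' ^ 2 / B ^ 2 * Real.exp (c * s) * τ₀ := by ring
        _ ≤ C₁ * (B ^ d / B ^ 2) * τ' ^ 3 := h1
        _ = C₁ * B ^ d * τ' * (τ' ^ 2 / B ^ 2) := by ring
    exact le_of_mul_le_mul_right h2 (by positivity)
  have s8 := scsl_sigma_ge hd b hb c t' B s hc hB hs ht2 ht3
  have pE := spn_E_pos hB s b (d - 1)
  have s9 : Real.exp (-(c / 8 * s)) * Real.exp (c * s) * τ₀ ≤ C₁ * prfT B s (b (d - 1)) := by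
    have h1 : spE B s b (d - 1) * Real.exp (-(c / 8 * s)) * τ' * Real.exp (c * s) * τ₀ ≤
        C₁ * (spE B s b (d - 1) * prfT B s (b (d - 1))) * τ' := by
      rw [scsl_E_pred (by omega) b hb B s]
      refine le_trans ?_ s7
      exact mul_le_mul_of_nonneg_right (mul_le_mul_of_nonneg_right s8 (Real.exp_pos _).le) p0.le
    have h2 : Real.exp (-(c / 8 * s)) * Real.exp (c * s) * τ₀ * (spE B s b (d - 1) * τ') ≤
        C₁ * prfT B s (b (d - 1)) * (spE B s b (d - 1) * τ') := by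
      calc Real.exp (-(c / 8 * s)) * Real.exp (c * s) * τ₀ * (spE B s b (d - 1) * τ')
          = spE B s b (d - 1) * Real.exp (-(c / 8 * s)) * τ' * Real.exp (c * s) * τ₀ := by ring
        _ ≤ C₁ * (spE B s b (d - 1) * prfT B s (b (d - 1))) * τ' := h1
        _ = C₁ * prfT B s (b (d - 1)) * (spE B s b (d - 1) * τ') := by ring
    exact le_of_mul_le_mul_right h2 (by positivity)
  rw [scsl_T_shift B s b₀ (b (d - 1)), ← hτ₀] at s9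
  have s10 : Real.exp ((b (d - 1) - b₀) * s) ≤ Real.exp (c / 8 * s) :=
    Real.exp_le_exp.mpr (mul_le_mul_of_nonneg_right h03 hs.le)
  have s11 : Real.exp (-(c / 8 * s)) * Real.exp (c * s) ≤ C₁ * Real.exp (c / 8 * s) := by
    have h1 : Real.exp (-(c / 8 * s)) * Real.exp (c * s) * τ₀ ≤ C₁ * Real.exp (c / 8 * s) * τ₀ := by
      calc Real.exp (-(c / 8 * s)) * Real.exp (c * s) * τ₀
          ≤ C₁ * (τ₀ * Real.exp ((b (d - 1) - b₀) * s)) := s9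
        _ ≤ C₁ * (τ₀ * Real.exp (c / 8 * s)) :=
            mul_le_mul_of_nonneg_left (mul_le_mul_of_nonneg_left s10 p0.le) hC₁0.le
        _ = C₁ * Real.exp (c / 8 * s) * τ₀ := by ring
    exact le_of_mul_le_mul_right h1 p0
  have s12 : Real.exp (3 * c / 4 * s) ≤ C₁ := by
    have h1 : Real.exp (-(c / 8 * s)) * Real.exp (c * s) =
        Real.exp (3 * c / 4 * s) * Real.exp (c / 8 * s) := by
      rw [← Real.exp_add, ← Real.exp_add]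
      congr 1
      ring
    rw [h1] at s11
    exact le_of_mul_le_mul_right s11 (Real.exp_pos _)
  linarith

end Claimed.Agent.R273
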