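-- KEEP
import Claimed.Agent.R273.ScsLastB
import Claimed.Agent.R273.ScsLastC
import Claimed.Agent.R273.SplMain

/-!
# Row 273, S6b = sparse-cones.tex l.795-925: THE FINAL CURVE PLATEAU FOR NARROWER CENTRES.  Architect helper177.  PACKAGE BP-SCS-LAST: **CUT AND GLUE PROVED by helper161**.

STRUCTURE: `ScsLastA.lean` (finite AG of one row: cones, envelope components, individual cuts, Hilbert bounds, uniqueness; SORRY-FREE), `ScsLastB.lean` (`scsl_row`, the row lemma, PROVED), `ScsLastC.lean` (three numerical leaves SCSL-NUM-DEG / -EXC / -LARGE), this file (`scs_last`, theta-glue, PROVED).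
Black boxes: `scs_cone_decomp` (ScsCones.lean), `prfr_reg_var`, `prf_jac`, `sp_lim` (`SpIndivStmt`), `ph_hilbert_at`, `ph_hilbert_up_family`, `ph_hA_env`.  The original plan of helper177 follows (the proof follows it; `λ ≠ 0` in (L7) is not needed).

Situation: `v ≤ θ s`, `b_{d-2} < b_{d-1}` (final plateau after `j = d - 1` cuts, carriers = curves, `l = 1`, cones of dimension `2`).  Inputs: `ScsBorrow d false b (d-1)` (margin `c'`), `DepStmt d false b (d-1) (-b_{d-1})`, i.e. `R = B e^{-b_{d-1} s}`, `R / e_{d-1} = B² / N`.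
The assignment is the GLOBAL TERMINAL ASSIGNMENT `asg = 𝔠.cho` (`SpCfg.Ok.cho_mem` = `ScAsg 𝔠.Y (d-1) 𝔠.cho`).

PACKAGE BP-SCS-CONES (`scs_cone_decomp`): the directional family `{w | ∃ c ∈ D.C (spRe x), c.Mem w}` is the union of finitely many irreducible `2`-dimensional closed cones of total degree `≤ ∑ deg`.
  For `c` with `deg ≥ 1`: `c.F = ∏ F_i` (irreducible factors, UFD `MvPolynomial (Fin 3) ℂ`), `Z(F_i) ⊆ ℂ³` is `IsVar` (`span {F_i}` prime), `vdim = 2`, `vdeg = deg F_i` (hypersurface: `hA (zset F) D = binom(D+3,3) - binom(D-e+3,3)`, `rk_hA_residual`-type exact formula; Nullstellensatz for the radical ideal `(F_i)`);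
  transport by the injective linear map `c.φ` (`rk_hA_map_eq`: `hA`, hence `vdim`, `vdeg`, are preserved; the image is closed and irreducible: `ph_isVar_zcl_image` + image of a linear injective map is `Zl` of linear equations and pulled back equations).  `deg = 0`: `F` is a nonzero constant, no member.

PLAN of `scs_last` (all steps are PER ROW `p`; every "negligible" is `≤ ρ₁ |Y|` with `ρ₁ := α/40`, uniformly in `p`).
 TIMES.  `β := b_{d-2}`, `b_d := b_{d-1}`.  `b₀ := b_d - κ₀` with `κ₀ := min (c'/8) ((b_d - β)/2)`; `b₀ < b_eq < b_test < b_d` (e.g. `b_eq = b₀ + κ₀/3`, `b_test = b₀ + 2κ₀/3`), `η := b_eq - b₀`, `ε := η/2`.  `T₀ = ⌊T_s(b₀)⌋`, `T₁ = ⌊T_s(b_eq)⌋`.  `t'` from `ScsBorrow` with `β - t' ≤ c'/(8d)`.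
 `Del := Del_rank(ρ₁/(d+1)) ∪ Del_dep(ε, ρ₁)`.  `K_p := ⋃ 𝒦_p` (`scs_cone_decomp`), `E₀ := ∑_{𝒦_p} vdeg ≤ E`.  `𝒮_p := {F | deg F ≤ T₀, F = 0 on K_p}`, `V_p = Zl 𝒮_p = Env K_p T₀`, `hA V_p T₀ = hA K_p T₀ ≤ E₀ binom(T₀+2,2)` (`ph_hA_env`, `ph_hilbert_up_family`).
 (L1) LARGE COMPONENTS.  For `m ≥ 3` let `𝒢_m` be the components of `𝒮_p` of dimension `m`, `a_m` their degree: `a_m binom(T₀+m,m) ≤ (d+1)^d E₀ binom(T₀+2,2)` (`ph_hilbert_at`).  `S_m := {q retained, q - p ∈ ⋃ 𝒢_m}`.  If `|S_m| ≥ (ρ₁/(d+1)) |Y|`: `ScsRank c' t'` gives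
   `σ(t') T'²/B² e^{c's} ≤ hA (spCone p S_m) T' ≤ a_m binom(T'+m,m)` (the members of `𝒢_m` need not be cones: use `spCone p S_m ⊆ ⋃ 𝒢_m`, true because `V_p` and its components are cones -- `𝒮_p` is spanned by forms, `λ · W` is again a component, connectedness of `ℂ^*`; OR AVOID THIS: replace `S_m` by `{q | spCone p {q} ⊆ ⋃ 𝒢_m}` and note
   that the line `ℂ (q-p) ⊆ V_p` is irreducible, so it lies in ONE component: define "q is large" := the line lies in a component of dimension `≥ 3`).  Combine: `σ(t') (T₀/T')^{m-2} e^{c's} ≤ C δ N`, while `σ(t') T₀/T' ≥ N e^{-(b_d - b₀)s - (c'/8)s} ≥ N e^{-(c'/4) s}`: contradiction.  So `|S_m| < (ρ₁/(d+1))|Y|`; delete the large `q`.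
 (L2) `𝓕_p` := ALL components of `𝒮_p` of dimension `2`: `deg 𝓕_p ≤ (d+1)^d E₀` (`ph_hilbert_at` with `k = 2`).
 (L3) individual cuts (as in `scs_env_step`, with `𝒮_p`): all but `ρ₁|Y|` covered targets have `dcone p Z(cho q) ⊆ V_p`.   [`prf_indiv` at a grid time in `(b₀, b_eq)`.]
 (L4) `vdim (dcone p Z(cho q)) = 2` (DepMass); it lies in a component `W` of `𝒮_p`, which contains the line `ℂ(q - p)`; `q` is not large, so... CARE: "not large" must be: NO component of dimension `≥ 3` contains `q - p`.  Use this definition of large in (L1) (then `spCone p S_m ⊆ ⋃ 𝒢_m` needs the cone property of components; prove it: `W` component, `λ ≠ 0` ⇒ `λ W` component; the map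
   `ℂ^* × W → V_p` has irreducible source, so its image lies in one component, which contains `W`).  Hence `vdim W = 2`, `dcone p Z(cho q) = W ∈ 𝓕_p`.
 (L5) `prf_reg` (poly:regularity) for the primes of `𝓕_p` (components of ONE system of degree `≤ T₀`) at degree `T₁` (`Cn T₀ ≤ T₁`): `F_p`, `g_p`, `ℰ_p`, `deg ℰ_p · T₁ ≤ Cn deg 𝓕_p T₀`.
 (L6) DepMass with `𝒢 = ℰ_p`: the targets with `dcone p Z(cho q) ∈ ℰ_p` number `≤ (B²/N) e^{ε s} · Cn (d+1)^d δ (N/B²) (T₀/T₁) |Y| ≤ C δ e^{-(η - ε) s}|Y| ≤ ρ₁|Y|`.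
 (L7) for a curve `𝔶` with `dcone p Z(𝔶) ∈ 𝓕_p \ ℰ_p`: `g_p` does not vanish on the cone, so some homogeneous component `g_p^{(k)}` does not, `h 𝔶 := g_p^{(k)}(· - p) ∉ 𝔶`, degree `≤ Cn T₁`; individual cuts at a grid time in `(b_test, b_d)`: all but `ρ₁|Y|` targets have `h (cho q)(q) ≠ 0`; then `λ ↦ g_p(λ (q-p))` is not the zero polynomial: there is `λ ≠ 0` with `g_p(λ(q-p)) ≠ 0`.
 (L8) a surviving covered `q`: `q - p ∈ γ ∈ 𝒦_p`, `γ ⊆ K_p ⊆ V_p` lies in a component, of dimension `2` (not large), so `γ ∈ 𝓕_p`.  `w := λ (q - p)` lies on `γ` and on `W = dcone p Z(cho q)` (cones), the Jacobian of `F_p` has rank `≥ d - 2` at `w`: `prf_jac` ⇒ `γ = W`.  So every `y ∈ Z(cho q)` has `y - p ∈ γ`, i.e. `D.Cov p y`: `SpTerm`, contradicting `SpCfg.Ok.term`.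
 COUNT: every `(p,q) ∈ Γ` is in `Del` or deleted in (L1), (L3), (L6), (L7): `|Γ| ≤ (2ρ₁ + 4ρ₁)|X||Y| < α |X||Y|`.
-/

set_option autoImplicit false

namespace Claimed.Agent.R273

open MvPolynomial Module

variable {d : ℕ}

/-- counting by rows -/
theorem scsl_count {α β : Type*} [DecidableEq α] [DecidableEq β] (Γ : Finset (α × β))
    (X : Finset α) (Y : Finset β) (hsub : Γ ⊆ X ×ˢ Y) (c : ℝ)
    (h : ∀ p ∈ X, ((Y.filter fun q => (p, q) ∈ Γ).card : ℝ) ≤ c) :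
    (Γ.card : ℝ) ≤ X.card * c := by
  have h1 : Γ ⊆ X.biUnion fun p => (Y.filter fun q => (p, q) ∈ Γ).image fun q => (p, q) := by
    intro z hz
    obtain ⟨hx, hy⟩ := Finset.mem_product.mp (hsub hz)
    exact Finset.mem_biUnion.mpr ⟨z.1, hx, Finset.mem_image.mpr
      ⟨z.2, Finset.mem_filter.mpr ⟨hy, hz⟩, rfl⟩⟩
  have h2 : (Γ.card : ℝ) ≤ ∑ p ∈ X, ((Y.filter fun q => (p, q) ∈ Γ).card : ℝ) := by
    have : Γ.card ≤ ∑ p ∈ X, (Y.filter fun q => (p, q) ∈ Γ).card :=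
      (Finset.card_le_card h1).trans (Finset.card_biUnion_le.trans
        (Finset.sum_le_sum fun p _ => Finset.card_image_le))
    exact_mod_cast this
  refine h2.trans ((Finset.sum_le_sum h).trans ?_)
  rw [Finset.sum_const, nsmul_eq_mul]

theorem ScOr.mono_false {𝔠 : SpCfg d} {θ θ' : ℝ} (h : ScOr false 𝔠 θ) (hs : 0 ≤ 𝔠.s)
    (hθ : θ ≤ θ') : ScOr false 𝔠 θ' :=
  ⟨fun h' => by simp at h', fun _ => (h.2 rfl).trans (mul_le_mul_of_nonneg_right hθ hs)⟩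

theorem scsl_pts_pos (hd : 1 ≤ d) {D : SpData d} {X : SpPool d} {s θ : ℝ} {b : ℕ → ℝ} (hθ : 0 < θ)
    (hX : X.Ok D s θ b) : 0 < (X.pts.card : ℝ) := by
  obtain ⟨a, ha⟩ := hX.ne
  rw [spl_pts_card hX]
  exact lt_of_lt_of_le (spl_member_pos hd hθ hX ha)
    (Finset.single_le_sum (f := fun a => ((X.π a).S.card : ℝ)) (fun _ _ => Nat.cast_nonneg _) ha)

/-- the assigned curve of a target point -/
theorem scsl_cho {𝔠 : SpCfg d} {b : ℕ → ℝ} {α θ : ℝ} (hok : 𝔠.Ok b α θ) {q : SpC d}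
    (hq : q ∈ 𝔠.Y.pts) :
    𝔠.cho q ∈ spCarr2 𝔠.Y 𝔠.Y (d - 1) ∧ (𝔠.cho q).IsPrime ∧ q ∈ zeroLocus ℂ (𝔠.cho q) := by
  obtain ⟨a, ha, hqa⟩ := Finset.mem_biUnion.mp hq
  have h := hok.cho_mem a ha q hqa
  exact ⟨Or.inl ⟨a, ha, q, hqa, h⟩, h.1.1.1, h.2⟩

theorem scsl_carr_prime {Y : SpPool d} {j : ℕ} {𝔶 : Ideal (PrfPol d)} (h : 𝔶 ∈ spCarr2 Y Y j) :
    𝔶.IsPrime := by
  rcases h with h | h <;> obtain ⟨a, _, x, _, hx⟩ := h <;> exact hx.1.1.1

/-- the degree of the covering cones -/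
theorem scsl_E₀ (hd : 1 ≤ d) {D : SpData d} {θ : ℝ} (hD : D.Reg θ) {p : SpC d} (hp : p ∈ D.pts)
    {E₀ : ℕ} (h : E₀ ≤ ((D.C (spRe p)).map PCurve.deg).sum) :
    (E₀ : ℝ) ≤ D.δ * D.B ^ d / D.B ^ 2 := by
  obtain ⟨p', hp', rfl⟩ := Finset.mem_image.mp hp
  rw [sp_re_pt] at h
  have h1 := hD.deg p' hp'
  unfold SpData.E at h1
  rw [spn_dA, spl_N_eq hd] at h1
  exact le_trans (by exact_mod_cast h) h1


theorem scs_last (hd : 3 ≤ d) (b : ℕ → ℝ) (hb : SpAdm d b) (hpl : b (d - 2) < b (d - 1))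
    (hbor : ScsBorrow d false b (d - 1))
    (hdep : DepStmt d false b (d - 1) (-∑ i ∈ Finset.Ico (d - 1) d, b i)) (α : ℝ) (hα : 0 < α) :
    ScsNone d false b α := by
  classical
  obtain ⟨c, hc, hbor'⟩ := hbor
  have e12 : d - 1 - 1 = d - 2 := by omega
  rw [e12] at hbor'
  have hd0 : (0 : ℝ) < d := by
    have : 0 < d := by omega
    exact_mod_cast this
  -- the times
  set κ : ℝ := min (c / 8) ((b (d - 1) - b (d - 2)) / 2) with hκdef
  have hκ : 0 < κ := lt_min (by positivity) (by linarith)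
  have hκ1 : κ ≤ c / 8 := min_le_left _ _
  have hκ2 : κ ≤ (b (d - 1) - b (d - 2)) / 2 := min_le_right _ _
  set b₀ : ℝ := b (d - 1) - κ with hb₀
  set beq : ℝ := b (d - 1) - 2 * κ / 3 with hbeq
  set btest : ℝ := b (d - 1) - κ / 3 with hbtest
  set ε : ℝ := κ / 6 with hε
  set ρ : ℝ := α / 40 with hρdef
  have hρ : 0 < ρ := by positivity
  have hlo : -1 ≤ b (d - 2) := hb.lo.trans (hb.mono 0 (d - 2) (by omega) (by omega))
  have hplat : ∀ t : ℝ, b (d - 2) < t → t < b (d - 1) → SpPlat d b (d - 1) t := by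
    intro t h1 h2
    refine ⟨by omega, fun i hi => ?_, fun i hi hid => ?_⟩
    · exact lt_of_le_of_lt (hb.mono i (d - 2) (by omega) (by omega)) h1
    · have : i = d - 1 := by omega
      rw [this]
      exact h2
  -- the constants
  obtain ⟨t', ht1, ht2, ht3, hrank⟩ := hbor' (c / (8 * d)) (by positivity)
  obtain ⟨Cn, -, hCn⟩ := scsl_regC d
  obtain ⟨θr, hθr, Hr⟩ := hrank (ρ / d) (by positivity)
  obtain ⟨θd, hθd, Hd⟩ := hdep ε ρ (by positivity) hρ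
  obtain ⟨θ0, hθ0, H0⟩ := (sp_lim (d := d) (by omega)).indiv b hb ρ hρ (d - 1) b₀
    (hplat b₀ (by linarith) (by linarith))
  obtain ⟨θ1, hθ1, H1⟩ := (sp_lim (d := d) (by omega)).indiv b hb ρ hρ (d - 1) btest
    (hplat btest (by linarith) (by linarith))
  obtain ⟨θa, hθa, Ha⟩ := scsl_num_large hd b hb c t' b₀ hc ht1 ht2 ht3 (by linarith)
    (by linarith) (by linarith)
  obtain ⟨θb, hθb, Hb⟩ := scsl_num_exc hd b hb Cn b₀ beq ε ρ (by linarith) (by linarith)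
    (by positivity) hρ
  obtain ⟨θc, hθc, Hc⟩ := scsl_num_deg Cn b₀ beq btest (by linarith) (by linarith) (by linarith)
  set θ : ℝ := min (min (min θr θd) (min θ0 θ1)) (min (min θa θb) (min θc 1)) with hθdef
  have hθ : 0 < θ := lt_min (lt_min (lt_min hθr hθd) (lt_min hθ0 hθ1))
    (lt_min (lt_min hθa hθb) (lt_min hθc one_pos))
  have lr : θ ≤ θr := (min_le_left _ _).trans ((min_le_left _ _).trans (min_le_left _ _))
  have ld : θ ≤ θd := (min_le_left _ _).trans ((min_le_left _ _).trans (min_le_right _ _))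
  have l0 : θ ≤ θ0 := (min_le_left _ _).trans ((min_le_right _ _).trans (min_le_left _ _))
  have l1 : θ ≤ θ1 := (min_le_left _ _).trans ((min_le_right _ _).trans (min_le_right _ _))
  have la : θ ≤ θa := (min_le_right _ _).trans ((min_le_left _ _).trans (min_le_left _ _))
  have lb : θ ≤ θb := (min_le_right _ _).trans ((min_le_left _ _).trans (min_le_right _ _))
  have lc : θ ≤ θc := (min_le_right _ _).trans ((min_le_right _ _).trans (min_le_left _ _))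
  have l11 : θ ≤ 1 := (min_le_right _ _).trans ((min_le_right _ _).trans (min_le_right _ _))
  refine ⟨θ, hθ, fun 𝔠 hok hsep hor => ?_⟩
  have hs0 : 0 < 𝔠.s := spl_s_pos hθ hok.okY
  have hsge : ∀ θ' : ℝ, θ ≤ θ' → 1 / θ' ≤ 𝔠.s := fun θ' h =>
    (one_div_le_one_div_of_le hθ h).trans hok.okY.s_ge
  have hsle := hok.okY.s_le
  have hδ0 := hok.reg.pos
  have hδ1 : 𝔠.D.δ ≤ 1 := hok.reg.le.trans l11
  set nX : ℝ := (𝔠.X.pts.card : ℝ) with hnX
  set nY : ℝ := (𝔠.Y.pts.card : ℝ) with hnY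
  have hnX0 : 0 < nX := scsl_pts_pos (by omega) hθ hok.okX
  have hnY0 : 0 < nY := scsl_pts_pos (by omega) hθ hok.okY
  obtain ⟨Delr, hDelr, Hrank⟩ := Hr 𝔠 α (hok.mono hθ lr l11) (hsep.mono hok hθ lr)
    (hor.mono_false hs0.le lr)
  obtain ⟨Deld, hDeld, Hmass⟩ := Hd 𝔠 α (hok.mono hθ ld l11) (hsep.mono hok hθ ld)
    (hor.mono_false hs0.le ld) 𝔠.cho hok.cho_mem
  have hB0 : 0 < 𝔠.D.B := spl_B_pos hθ hok.okY
  obtain ⟨hT₀, hT₁, hT₂⟩ := Hc 𝔠.D.B 𝔠.s hB0 (hsge _ lc) hsle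
  have htwo0 : SpTwo 𝔠.D 𝔠.Y 𝔠.Y 𝔠.s θ0 b :=
    SpTwo.self (hok.reg.mono l0) (hok.okY.mono hθ l0)
  have htwo1 : SpTwo 𝔠.D 𝔠.Y 𝔠.Y 𝔠.s θ1 b :=
    SpTwo.self (hok.reg.mono l1) (hok.okY.mono hθ l1)
  have e2 : d - (d - 1) + 1 = 2 := by omega
  set T₀ : ℕ := ⌊prfT 𝔠.D.B 𝔠.s b₀⌋₊ with hT₀def
  set T₁ : ℕ := ⌊prfT 𝔠.D.B 𝔠.s beq⌋₊ with hT₁def
  -- the retained graph
  set Γ' : Finset (SpC d × SpC d) := 𝔠.Γ.filter fun z => z ∉ Delr ∧ z ∉ Deld with hΓ'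
  have hrow : ∀ p ∈ 𝔠.X.pts, ((𝔠.Y.pts.filter fun q => (p, q) ∈ Γ').card : ℝ) ≤ 4 * ρ * nY := by
    intro p hp
    set Row : Finset (SpC d) := 𝔠.Y.pts.filter fun q => (p, q) ∈ Γ' with hRow
    have hRowY : Row ⊆ 𝔠.Y.pts := Finset.filter_subset _ _
    have hRowΓ : ∀ q ∈ Row, (p, q) ∈ 𝔠.Γ ∧ (p, q) ∉ Delr ∧ (p, q) ∉ Deld := fun q hq =>
      Finset.mem_filter.mp (Finset.mem_filter.mp hq).2
    obtain ⟨𝒦, h𝒦, h𝒦cov, h𝒦deg⟩ := scs_cone_decomp 𝔠.D p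
    have hpD : p ∈ 𝔠.D.pts := (Finset.biUnion_subset.mpr hok.okX.sub) hp
    have hE₀ : ((∑ γ ∈ 𝒦, vdeg γ : ℕ) : ℝ) ≤ 𝔠.D.δ * 𝔠.D.B ^ d / 𝔠.D.B ^ 2 :=
      scsl_E₀ (by omega) hok.reg hpD h𝒦deg
    have hK : ScslCone (⋃ γ ∈ 𝒦, γ) := scsl_cone_biUnion 𝒦 fun γ hγ => (h𝒦 γ hγ).2.2
    have hKE : hA (⋃ γ ∈ 𝒦, γ) T₀ ≤ (∑ γ ∈ 𝒦, vdeg γ) * (T₀ + 2).choose 2 :=
      scsl_hA_K 𝒦 (fun γ hγ => ⟨(h𝒦 γ hγ).1, (h𝒦 γ hγ).2.1⟩) T₀
    have main := scsl_row hd 𝒦 h𝒦 p 𝔠.cho Row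
      (fun q hq => (scsl_cho hok (hRowY hq)).2)
      (fun q hq => (h𝒦cov (q - p)).mp (hok.cov (p, q) (hRowΓ q hq).1))
      (fun q hq hmem => hok.term (p, q) (hRowΓ q hq).1 (fun y hy _ =>
        (h𝒦cov (y - p)).mpr ⟨_, hmem, by
          have := dep_sub_dcone p (zeroLocus ℂ (𝔠.cho q)) hy 1
          rwa [one_smul] at this⟩))
      (fun q hq => by
        have := (Hmass p hp).1 q (hRowY hq) (hRowΓ q hq).2.2
        rwa [e2] at this)
      T₀ T₁ Cn hT₀ hT₁ hCn (ρ * nY) (ρ / d * nY)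
      (by
        intro m hm hmd S hS hSW
        by_contra hcon
        push Not at hcon
        have h1 := Hrank p hp S (hS.trans hRowY) hcon.le (fun q hq => (hRowΓ q (hS hq)).2.1)
        have h2 := scsl_large_hA hK T₀ ⌊prfT 𝔠.D.B 𝔠.s t'⌋₊ m _ hKE p (S : Set (SpC d))
          (fun q hq => hSW q hq)
        exact Ha 𝔠.D.B 𝔠.s 𝔠.D.δ m _ _ hB0 (hsge _ la) hsle hδ0 hδ1 hm hmd hE₀ h1 h2)
      (by
        intro h hh S hS hSz
        refine H0 𝔠.D 𝔠.Y 𝔠.Y 𝔠.s htwo0 h (fun 𝔶 h𝔶 => ?_) S (hS.trans hRowY) (fun q hq => ?_)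
        · have := hh 𝔶 (scsl_carr_prime h𝔶)
          refine ⟨this.1, le_trans (by exact_mod_cast this.2) (Nat.floor_le ?_)⟩
          exact (spn_T_pos hB0 _ _).le
        · have := scsl_cho hok (hRowY (hS hq))
          exact ⟨_, this.1, this.2.2, hSz q hq⟩)
      (by
        intro h hh S hS hSz
        refine H1 𝔠.D 𝔠.Y 𝔠.Y 𝔠.s htwo1 h (fun 𝔶 h𝔶 => ?_) S (hS.trans hRowY) (fun q hq => ?_)
        · have := hh 𝔶 (scsl_carr_prime h𝔶)
          exact ⟨this.1, le_trans (by exact_mod_cast this.2) hT₂⟩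
        · have := scsl_cho hok (hRowY (hS hq))
          exact ⟨_, this.1, this.2.2, hSz q hq⟩)
      (by
        intro 𝒢 h𝒢 hdeg S hS hS𝒢
        have h1 := (Hmass p hp).2 𝒢 (by rw [e2]; exact h𝒢) S (hS.trans hRowY)
          (fun q hq => ⟨(hRowΓ q (hS hq)).2.2, hS𝒢 q hq⟩)
        have h2 := Hb 𝔠.D.B 𝔠.s 𝔠.D.δ _ _ hB0 (hsge _ lb) hsle hδ0 hδ1 hE₀ hdeg
        exact h1.trans (mul_le_mul_of_nonneg_right h2 hnY0.le))
    have e : (d : ℝ) * (ρ / d * nY) + 3 * (ρ * nY) = 4 * ρ * nY := by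
      field_simp
      ring
    rw [e] at main
    exact main
  have hΓ'sub : Γ' ⊆ 𝔠.X.pts ×ˢ 𝔠.Y.pts := (Finset.filter_subset _ _).trans hok.sub
  have hc1 := scsl_count Γ' 𝔠.X.pts 𝔠.Y.pts hΓ'sub _ hrow
  have hc2 : 𝔠.Γ ⊆ Γ' ∪ (Delr ∪ Deld) := by
    intro z hz
    by_cases h1 : z ∈ Delr
    · exact Finset.mem_union_right _ (Finset.mem_union_left _ h1)
    · by_cases h2 : z ∈ Deld
      · exact Finset.mem_union_right _ (Finset.mem_union_right _ h2)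
      · exact Finset.mem_union_left _ (Finset.mem_filter.mpr ⟨hz, h1, h2⟩)
  have hc3 : (𝔠.Γ.card : ℝ) ≤ (Γ'.card : ℝ) + ((Delr.card : ℝ) + (Deld.card : ℝ)) := by
    have : 𝔠.Γ.card ≤ Γ'.card + (Delr.card + Deld.card) :=
      (Finset.card_le_card hc2).trans ((Finset.card_union_le _ _).trans
        (Nat.add_le_add_left (Finset.card_union_le _ _) _))
    exact_mod_cast this
  have hdense := hok.dense
  have hρd : ρ / d ≤ ρ := div_le_self hρ.le (by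
    have : 1 ≤ d := by omega
    exact_mod_cast this)
  have hXY : 0 < nX * nY := mul_pos hnX0 hnY0
  have h5 : (Delr.card : ℝ) ≤ ρ * (nX * nY) := by
    calc (Delr.card : ℝ) ≤ ρ / d * nX * nY := hDelr
      _ = ρ / d * (nX * nY) := by ring
      _ ≤ ρ * (nX * nY) := mul_le_mul_of_nonneg_right hρd hXY.le
  have h6 : (Deld.card : ℝ) ≤ ρ * (nX * nY) := by
    calc (Deld.card : ℝ) ≤ ρ * nX * nY := hDeld
      _ = ρ * (nX * nY) := by ring
  have h7 : α * (nX * nY) ≤ 6 * ρ * (nX * nY) := by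
    calc α * (nX * nY) = α * nX * nY := by ring
      _ ≤ (𝔠.Γ.card : ℝ) := hdense
      _ ≤ nX * (4 * ρ * nY) + (ρ * (nX * nY) + ρ * (nX * nY)) := by linarith
      _ = 6 * ρ * (nX * nY) := by ring
  have h8 : α ≤ 6 * ρ := le_of_mul_le_mul_right h7 hXY
  rw [hρdef] at h8
  linarith

end Claimed.Agent.R273
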