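import Claimed.Agent.R273.ScoDefs
import Claimed.Agent.R273.DepAG
import Claimed.Agent.R273.ScsLast
import Claimed.Agent.R273.ScoAux
import Claimed.Agent.R273.ScoFinT

/-!
# Row 273, SPARSE, unit SCO, second half (sparse-cones.tex l.561-657): Bezout outside the label equations, THE LIFT (purely algebraic), one root, degree, count.  Architect helper37.

All statements except `sco_fin` are FINITE.  `v = q - p`, `k = d - j`, `γ` = an irreducible closed `2`-dimensional cone of the directional family of the centre `p` (`scs_cone_decomp`), label point `ℓ = (p, lam v)`.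

LEAF SCO-TAN (`sco_tan_eq`): `span F ≤ 𝔭` gives `tanSp 𝔭 x ≤ scoT F x`; `k ≤ finrank (tanSp 𝔭 x)` (`ph_tan_ge`); `Submodule.eq_of_le_of_finrank_le`.
LEAF SCO-SEC (`sco_no_second`) = particular-pair version of geo:secants; LINEAR ALGEBRA.  `𝒯 := scoT ℱ ℓ` = kernel of the Jacobian of `ℱ` at `ℓ` (`ph_mem_tanSp_span`; `ℓ ∈ Zl ℱ` since it is a label of `(p,q)`).
  For `H ∈ ℱ`: (a) `x ↦ H(x, lam (q - x))` vanishes on `Z(𝔵)`, so it lies in `𝔵` (Nullstellensatz for primes), so its differential at `p` kills `ξ ∈ tanSp 𝔵 p`: `(ξ, -lam ξ) ∈ 𝒯` (chain rule `ph_dAt_aeval`);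
  (b) `y ↦ H(p, lam (y - p)) ∈ 𝔶`: `(0, lam υ) ∈ 𝒯` for `υ ∈ tanSp 𝔶 q`; (c) `t ↦ H(p, t v) = 0`: `(0, v) ∈ 𝒯`; (d) `x ↦ H(x, (lam/c)(z - x)) ∈ 𝔵`, value of the argument at `x = p` is `ℓ`: `(ξ, -(lam/c) ξ) ∈ 𝒯`.
  The map `(ξ, υ, μ) ↦ (ξ, -lam ξ + lam υ + μ v)` is injective on `tanSp 𝔵 p × tanSp 𝔶 q × ℂ` (`v ∉ tanSp 𝔶 q`), so its range has dimension `2k+1 ≥ finrank 𝒯`: range `= 𝒯`.  (d) - (a): `(0, (lam - lam/c) ξ) ∈ 𝒯`, `c ≠ 1`: `ξ ∈ tanSp 𝔶 q + ℂ v`.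
  So `tanSp 𝔵 p ⊔ ℂv ≤ tanSp 𝔶 q ⊔ ℂv`, both of dimension `k + 1` (`v` in neither).
LEAF SCO-PRE (`sco_preimage`) = "the preimage of a subvariety through a point where the target SYSTEM is smooth has the expected dimension".  `𝒯 = scoT ℱ ℓ`, `r₀ = finrank 𝒯 ≤ r`, `n = card κ`.
  Choose `c = n - r₀` members `f_1..f_c` of `ℱ` (or of its span) with independent differentials at `ℓ` and linear forms `u_1..u_{r₀}` on `ℂ^κ` which are injective on `𝒯`.  On the irreducible `M × K` (`ph_prod_isVar`, `ph_prod_vdim`) impose the `r₀` equations `u_i(ψ(m)) = u_i(z)`: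
  a component `Ξ` through `(m₀, ℓ)` has `vdim Ξ + r₀ ≥ vdim M + vdim K` (`ph_krull_rel`).  The system `𝒮 = {f_a(w), f_a(w'), u_i(w) - u_i(w')}` on `ℂ^{κ ⊕ κ}` has `2c + r₀ = 2n - r₀` equations with independent differentials at `(ℓ,ℓ)` (kernel = diagonal of `𝒯`):
  `ph_jac`: ONE component through `(ℓ,ℓ)`, of dimension `r₀`.  Let `W₁` be the component of `Zl {f_a}` through `ℓ` (dimension `r₀`, `ph_jac`); its diagonal is irreducible of dimension `r₀`, lies in `Zl 𝒮`, contains `(ℓ,ℓ)`: it IS that component.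
  `zcl` of the image of `Ξ` under `(m,z) ↦ (ψ m, z)` is irreducible, in `Zl 𝒮`, through `(ℓ,ℓ)`: inside the diagonal.  So `ψ m = z` on `Ξ`.  `Π := {m | (m, ψ m) ∈ Ξ}`: closed; `Ξ` is its image under the graph map and `Π` is the image of `Ξ` under the projection: irreducible, same dimension (`ph_vdim_zcl_image_le` both ways).
LEAF SCO-LIFT (`sco_lift`).  `sco_preimage` with `M = (Z(𝔵) × Z(𝔶)) × ℂ` (dimension `2k+1`), `ψ = spPsi d`, `m₀ = (p,q,lam)`, `K = {p} × γ` (dimension `2`), `r = 2k+1`: `Π ∋ m₀` irreducible, `vdim Π ≥ 2`, on `Π`: `x = p`, `t (y - p) ∈ γ`.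
  `C₀ := zcl (pr_y Π)`: irreducible, `⊆ Z(𝔶)`, `∋ q`; `Π ⊆ {p} × C₀ × ℂ`: `vdim C₀ ≥ 1`.  `{t ≠ 0}` is dense in `Π` and `γ` is a cone: `C₀ - p ⊆ γ`.  If `vdim C₀ ≥ 2` then `C₀ = p + γ ∋ q + ℂ v`, so the line lies in `Z(𝔶)` and `v ∈ tanSp 𝔶 q`: excluded.
  `dcone p C₀ ⊆ γ` irreducible (`dep_dcone_isVar`); if its dimension is `≤ 1` it equals the line `ℂ v`, `C₀` = the line `p + ℂ v ⊆ Z(𝔶)`: excluded.  So `dcone p C₀ = γ` (`ph_vdim_lt_of_ssubset`).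
LEAF SCO-OPEN (`sco_good_open`): each condition is the non-vanishing of a polynomial in `q'`: minors for the two rank conditions; `∇f(p)·(q'-p)`, `∇f(q')·(q'-p)`; for `neq`: `ξ ∈ scoT F p`, `ξ ∉ scoT F q + ℂ v` (equal dimensions), the annihilator of `scoT F q + ℂ v` is spanned by the rows
  `(∇f·v)∇f' - (∇f'·v)∇f` (gradients at `q`), so one of the polynomials `q' ↦ (∇f(q')·v')(∇f'(q')·ξ) - (∇f'(q')·v')(∇f(q')·ξ)` is nonzero at `q`; where it is nonzero, `ξ ∉ scoT F q' + ℂ v'`.  Take the product of the five polynomials.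
LEAF SCO-ROW (`sco_row`, `k ≥ 2`).  `Q = ∅`: any curve.. (state: `Q.Nonempty`).  Fix `q₀ ∈ Q`, `𝔠₀` its lift (`sco_lift`).  General `q' ∈ C₀ := Z(𝔠₀)` is good (`sco_good_open` at `q₀`; `C₀ ⊆ Z(asg q₀) ⊆ Z(F)`, labels in `spImg ⊆ Zl ℱ`), so by `sco_no_second` + `ScoGood.neq` (`sco_tan_eq`):
  (*) no `z ∈ ⋃_{q ∈ Q} Z(asg q)`, `z ≠ p, q'`, lies on the line `p q'`.   Hence `DepRootLE p C₀ C₀ 1`.  For `q ∈ Q` with lift `C_q`: `dcone p C_q = γ = dcone p C₀`; the image of `C_q × ℂ → γ` contains a dense open subset (`ph_image_dense`), whose saturation under scaling is open, dense;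
  so for general `q' ∈ C₀` there is `z ∈ C_q`, `z ≠ p`, on the line `p q'`; by (*) `z = q'`: infinitely many points of `C₀` lie in `C_q`: `C₀ = C_q ∋ q`.   Degree: `ScoProjStmt`; if `p ∈ C₀ ⊆ Z(asg q₀)` then `asg q₀ = 𝔵` (`huniq`);
  `l` := an affine form vanishing on `p + tanSp 𝔵 p`, `l(q₀) ≠ 0` (`tr_p`); `dl ∈ span ∇F(p)`: `l - ∑ c_f f` has order `≥ 2` at `p`, `∑ c_f f ∈ 𝔵 ≤ 𝔠₀`.
LEAF SCO-ROW1 (`sco_row_one`, `k = 1`): the lift is an irreducible curve inside the irreducible curve `Z(asg q)`: equal.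
LEAF SCO-BEZ (`sco_bez_row`): some `w`-homogeneous component `H_m(p,·)` does not vanish on `γ` and vanishes on the lines `ℂ w`, `w ∈ Q` (`t ↦ H(p, t w) = 0`); the lines are distinct irreducible curves of degree one in `γ ∩ Z(H_m(p,·))`: `dep_cone_bezout` (centre `0`) or `ph_bezout_section`.
LEAF SCO-CNT (`sco_curve_count`) = (poly:physical-count), `u = 1`: `x₀ ∈ T`; `s(x) = ∏_{ρ ∈ Δ(P)} (∑ (x_i - x₀_i)² - ρ²)` has degree `2 (M-1)`, `s(x₀) ≠ 0`, `s = 0` on `T \ {x₀}`; `ph_bezout_cut`: the components of `Z(𝔠) ∩ Z(s)` are points, at most `2(M-1) vdeg` of them.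
LEAF SCO-RB (`sco_row_bound`), LEAF SCO-FIN (`sco_fin`): see the docstrings.
-/

set_option autoImplicit false

namespace Claimed.Agent.R273

open MvPolynomial Module

variable {d : ℕ}

theorem sco_tan_eq (𝔭 : Ideal (PrfPol d)) (h𝔭 : 𝔭.IsPrime) (F : Set (PrfPol d))
    (hF : ∀ f ∈ F, f ∈ 𝔭) (x : SpC d) (hx : x ∈ spZ 𝔭) (hrk : finrank ℂ (scoT F x) ≤ vdim (spZ 𝔭)) :
    scoT F x = tanSp 𝔭 x ∧ finrank ℂ (scoT F x) = vdim (spZ 𝔭) :=
  sco_tan_eq_aux 𝔭 h𝔭 F hF x hx hrk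

/-- **particular-pair version of geo:secants** (cone form) -/
theorem sco_no_second (𝔵 𝔶 𝔶' : Ideal (PrfPol d)) (h𝔵 : 𝔵.IsPrime) (h𝔶 : 𝔶.IsPrime) (k : ℕ)
    (ℱ : Set (SpLPol d)) (h1 : spImg (spZ 𝔵) (spZ 𝔶) ⊆ Zl ℱ) (h2 : spImg (spZ 𝔵) (spZ 𝔶') ⊆ Zl ℱ)
    (p q z : SpC d) (hp : p ∈ spZ 𝔵) (hq : q ∈ spZ 𝔶) (hz : z ∈ spZ 𝔶')
    (hkx : finrank ℂ (tanSp 𝔵 p) = k) (hky : finrank ℂ (tanSp 𝔶 q) = k)
    (lam : ℂ) (hlam : lam ≠ 0)
    (hlab : finrank ℂ (scoT ℱ (Sum.elim p (lam • (q - p)))) ≤ 2 * k + 1)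
    (htp : q - p ∉ tanSp 𝔵 p) (htq : q - p ∉ tanSp 𝔶 q)
    (c : ℂ) (hc0 : c ≠ 0) (hc1 : c ≠ 1) (hzc : z - p = c • (q - p)) :
    tanSp 𝔵 p ⊔ Submodule.span ℂ {q - p} = tanSp 𝔶 q ⊔ Submodule.span ℂ {q - p} :=
  sco_no_second_aux 𝔵 𝔶 𝔶' h𝔵 h𝔶 k ℱ h1 h2 p q z hp hq hz hkx hky lam hlam hlab htp htq c hc0 hc1 hzc

theorem sco_pre_eq_of_vdim {ι : Type*} [Fintype ι] {V W : Set (ι → ℂ)} (hV : IsVar V) (hW : IsVar W)
    (hWV : W ⊆ V) (hd : vdim V ≤ vdim W) : V ⊆ W := by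
  intro x hx
  by_contra hxW
  rw [← ph_zcl_of_isVar hW, ph_mem_zcl] at hxW
  push Not at hxW
  obtain ⟨f, hf, hfx⟩ := hxW
  have := ph_vdim_lt_of_ssubset hV hWV f hf ⟨x, hx, hfx⟩ (ph_isVar_nonempty W hW)
  omega

theorem sco_pre_forms {κ : Type*} [Fintype κ] (T : Submodule ℂ (κ → ℂ)) :
    ∃ U : Fin (finrank ℂ T) → κ → ℂ, ∀ a ∈ T, (∀ i, ∑ k, U i k * a k = 0) → a = 0 := by
  classical
  obtain ⟨π, hπ⟩ := LinearMap.exists_leftInverse_of_injective T.subtype (Submodule.ker_subtype T)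
  obtain ⟨φ, hφ⟩ : ∃ φ : (κ → ℂ) →ₗ[ℂ] (Fin (finrank ℂ T) → ℂ),
    φ = (finBasis ℂ T).equivFun.toLinearMap ∘ₗ π := ⟨_, rfl⟩
  refine ⟨LinearMap.toMatrix' φ, fun a ha h => ?_⟩
  have h1 : φ a = 0 := by
    rw [← LinearMap.toMatrix'_mulVec]
    funext i
    exact h i
  have h2 : π a = ⟨a, ha⟩ := by
    have := LinearMap.congr_fun hπ ⟨a, ha⟩
    simpa using this
  rw [hφ, LinearMap.comp_apply, h2] at h1
  have h3 : (⟨a, ha⟩ : T) = 0 := by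
    simpa using h1
  exact congrArg Subtype.val h3

/-- the doubled system `g(w) = 0`, `g(w') = 0`, `U (w - w') = 0` -/
noncomputable def scoPreSys {κ : Type*} [Fintype κ] {c r₁ : ℕ} (g : Fin c → MvPolynomial κ ℂ)
    (U : Fin r₁ → κ → ℂ) : Set (MvPolynomial (κ ⊕ κ) ℂ) :=
  ((Set.range fun j => rename Sum.inl (g j)) ∪ (Set.range fun j => rename Sum.inr (g j))) ∪
    Set.range fun i => ∑ k, C (U i k) * (X (Sum.inl k) - X (Sum.inr k))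

theorem sco_pre_mem_Zl {κ : Type*} [Fintype κ] {c r₁ : ℕ} (g : Fin c → MvPolynomial κ ℂ)
    (U : Fin r₁ → κ → ℂ) (z : κ ⊕ κ → ℂ) :
    z ∈ Zl (scoPreSys g U) ↔ (∀ j, eval (fun k => z (Sum.inl k)) (g j) = 0) ∧
      (∀ j, eval (fun k => z (Sum.inr k)) (g j) = 0) ∧
      ∀ i, ∑ k, U i k * (z (Sum.inl k) - z (Sum.inr k)) = 0 := by
  constructor
  · intro h
    refine ⟨fun j => ?_, fun j => ?_, fun i => ?_⟩
    · have := h _ (Or.inl (Or.inl ⟨j, rfl⟩))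
      rwa [eval_rename] at this
    · have := h _ (Or.inl (Or.inr ⟨j, rfl⟩))
      rwa [eval_rename] at this
    · have := h _ (Or.inr ⟨i, rfl⟩)
      simpa only [map_sum, map_mul, map_sub, eval_X, eval_C] using this
  · rintro ⟨h1, h2, h3⟩ s ((⟨j, rfl⟩ | ⟨j, rfl⟩) | ⟨i, rfl⟩)
    · rw [eval_rename]
      exact h1 j
    · rw [eval_rename]
      exact h2 j
    · simpa only [map_sum, map_mul, map_sub, eval_X, eval_C] using h3 i

theorem sco_pre_dAt_rename {κ σ : Type*} [Fintype κ] [Fintype σ] (e : κ → σ) (f : MvPolynomial κ ℂ)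
    (z v : σ → ℂ) : dAt (rename e f) z v = dAt f (fun k => z (e k)) (fun k => v (e k)) := by
  have h : rename e f = aeval (fun k => (X (e k) : MvPolynomial σ ℂ)) f := by
    rw [rename_eq_aeval]
    rfl
  rw [h, ph_dAt_aeval]
  simp only [aeval_X, ph_dAt_X]

theorem sco_pre_dAt_lin {κ : Type*} [Fintype κ] (u : κ → ℂ) (z v : κ ⊕ κ → ℂ) :
    dAt (∑ k, C (u k) * (X (Sum.inl k) - X (Sum.inr k)) : MvPolynomial (κ ⊕ κ) ℂ) z v =
      ∑ k, u k * (v (Sum.inl k) - v (Sum.inr k)) := by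
  rw [ph_dAt_sum]
  refine Finset.sum_congr rfl fun k _ => ?_
  rw [ph_dAt_mul, ph_dAt_C, sub_eq_add_neg, ph_dAt_add, ph_dAt_X]
  have h : (-X (Sum.inr k) : MvPolynomial (κ ⊕ κ) ℂ) = C (-1) * X (Sum.inr k) := by
    simp
  rw [h, ph_dAt_mul, ph_dAt_C, ph_dAt_X]
  simp only [aeval_C, Algebra.algebraMap_self, RingHom.id_apply, mul_zero, add_zero]
  ring

theorem sco_pre_tan_le {κ : Type*} [Fintype κ] {c r₁ : ℕ} (g : Fin c → MvPolynomial κ ℂ)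
    (U : Fin r₁ → κ → ℂ) (l : κ → ℂ) (hl : ∀ j, eval l (g j) = 0)
    (hU : ∀ a ∈ tanSp (Ideal.span (Set.range g)) l, (∀ i, ∑ k, U i k * a k = 0) → a = 0) :
    finrank ℂ (tanSp (Ideal.span (scoPreSys g U)) (Sum.elim l l : κ ⊕ κ → ℂ)) ≤
      finrank ℂ (tanSp (Ideal.span (Set.range g)) l) := by
  have hL : ∀ s ∈ scoPreSys g U, aeval (Sum.elim l l : κ ⊕ κ → ℂ) s = 0 := by
    intro s hs
    rw [aeval_eq_eval]
    have : (Sum.elim l l : κ ⊕ κ → ℂ) ∈ Zl (scoPreSys g U) := by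
      rw [sco_pre_mem_Zl]
      exact ⟨hl, hl, fun i => by simp⟩
    exact this s hs
  have hl' : ∀ s ∈ Set.range g, aeval l s = 0 := by
    rintro _ ⟨j, rfl⟩
    rw [aeval_eq_eval]
    exact hl j
  have hmem : ∀ v ∈ tanSp (Ideal.span (scoPreSys g U)) (Sum.elim l l : κ ⊕ κ → ℂ),
      (fun k => v (Sum.inl k)) ∈ tanSp (Ideal.span (Set.range g)) l ∧
      (fun k => v (Sum.inr k)) ∈ tanSp (Ideal.span (Set.range g)) l ∧
      ∀ i, ∑ k, U i k * (v (Sum.inl k) - v (Sum.inr k)) = 0 := by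
    intro v hv
    rw [ph_mem_tanSp_span _ _ hL] at hv
    refine ⟨?_, ?_, fun i => ?_⟩
    · rw [ph_mem_tanSp_span _ _ hl']
      rintro _ ⟨j, rfl⟩
      have := hv _ (Or.inl (Or.inl ⟨j, rfl⟩))
      rw [sco_pre_dAt_rename] at this
      exact this
    · rw [ph_mem_tanSp_span _ _ hl']
      rintro _ ⟨j, rfl⟩
      have := hv _ (Or.inl (Or.inr ⟨j, rfl⟩))
      rw [sco_pre_dAt_rename] at this
      exact this
    · have := hv _ (Or.inr ⟨i, rfl⟩)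
      rw [sco_pre_dAt_lin] at this
      exact this
  apply LinearMap.finrank_le_finrank_of_injective
    (f := (LinearMap.funLeft ℂ ℂ (Sum.inl : κ → κ ⊕ κ)).restrict (fun v hv => (hmem v hv).1))
  intro v w hvw
  have h0 : ∀ k, (v : κ ⊕ κ → ℂ) (Sum.inl k) = (w : κ ⊕ κ → ℂ) (Sum.inl k) := by
    intro k
    have := congrArg Subtype.val hvw
    exact congrFun this k
  obtain ⟨-, h2, h3⟩ := hmem _ (Submodule.sub_mem _ v.2 w.2)
  have h4 := hU _ h2 (by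
    intro i
    have := h3 i
    simp only [Pi.sub_apply, h0, sub_self, zero_sub, mul_neg, Finset.sum_neg_distrib,
      neg_eq_zero] at this
    exact this)
  apply Subtype.ext
  funext s
  rcases s with k | k
  · exact h0 k
  · have := congrFun h4 k
    simp only [Pi.sub_apply, Pi.zero_apply] at this
    exact sub_eq_zero.mp this

theorem sco_pre_diag {κ : Type*} [Fintype κ] {c r₁ : ℕ} (g : Fin c → MvPolynomial κ ℂ)
    (U : Fin r₁ → κ → ℂ) (l : κ → ℂ) (hl : ∀ j, eval l (g j) = 0)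
    (hJ : LinearIndependent ℂ (fun j => fun i => eval l (pderiv i (g j))))
    (hU : ∀ a ∈ tanSp (Ideal.span (Set.range g)) l, (∀ i, ∑ k, U i k * a k = 0) → a = 0)
    (E : Set (κ ⊕ κ → ℂ)) (hE : IsVar E) (hES : E ⊆ Zl (scoPreSys g U))
    (hLE : (Sum.elim l l : κ ⊕ κ → ℂ) ∈ E) :
    ∀ z ∈ E, ∀ k, z (Sum.inl k) = z (Sum.inr k) := by
  obtain ⟨p, hp, hlp, -, -, hdim, -⟩ := ph_jac g l hl hJ
  have hW : IsVar (zeroLocus ℂ p) := ⟨p, hp.1.1, rfl⟩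
  have hT : finrank ℂ (tanSp (Ideal.span (Set.range g)) l) + c ≤ Fintype.card κ :=
    ph_grad_le _ l g (fun j => Ideal.subset_span ⟨j, rfl⟩) (by simpa only [aeval_eq_eval] using hJ)
  obtain ⟨δ, hδd⟩ : ∃ δ : κ ⊕ κ → MvPolynomial κ ℂ, δ = Sum.elim X X := ⟨_, rfl⟩
  have hδ : ∀ w, pmap δ w = Sum.elim w w := by
    intro w
    funext s
    rcases s with k | k <;> simp [pmap, hδd]
  have hΔV : IsVar (zcl (pmap δ '' zeroLocus ℂ p)) := ph_isVar_zcl_image hW δ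
  have hΔS : zcl (pmap δ '' zeroLocus ℂ p) ⊆ Zl (scoPreSys g U) := by
    rw [ph_zcl_subset_iff]
    rintro _ ⟨w, hw, rfl⟩
    have hgw : ∀ j, eval w (g j) = 0 := fun j =>
      (ph_mem_zeroLocus p w).mp hw _ (hp.1.2 (Ideal.subset_span ⟨j, rfl⟩))
    rw [hδ, sco_pre_mem_Zl]
    exact ⟨hgw, hgw, fun i => by simp⟩
  have hLΔ : (Sum.elim l l : κ ⊕ κ → ℂ) ∈ zcl (pmap δ '' zeroLocus ℂ p) :=
    ph_subset_zcl _ ⟨l, hlp, hδ l⟩
  have hΔd : vdim (zeroLocus ℂ p) ≤ vdim (zcl (pmap δ '' zeroLocus ℂ p)) := by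
    rw [ph_vdim_zcl]
    refine le_trans (ph_vdim_mono ?_)
      (ph_vdim_pmap_image_le (fun k => (X (Sum.inl k) : MvPolynomial (κ ⊕ κ) ℂ)) _)
    intro w hw
    refine ⟨pmap δ w, ⟨w, hw, rfl⟩, ?_⟩
    rw [hδ]
    funext k
    simp [pmap]
  have hΔeq : ∀ z ∈ zcl (pmap δ '' zeroLocus ℂ p), ∀ k, z (Sum.inl k) = z (Sum.inr k) := by
    intro z hz k
    rw [ph_mem_zcl] at hz
    have := hz (X (Sum.inl k) - X (Sum.inr k)) (by
      rintro _ ⟨w, -, rfl⟩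
      rw [hδ]
      simp)
    rw [map_sub, eval_X, eval_X] at this
    exact sub_eq_zero.mp this
  obtain ⟨P, hP, hΔP⟩ := ph_isVar_subset_comp hΔV hΔS
  obtain ⟨P', hP', hEP'⟩ := ph_isVar_subset_comp hE hES
  obtain ⟨q, hq, rfl⟩ := hP
  obtain ⟨q', hq', rfl⟩ := hP'
  have htl := sco_pre_tan_le g U l hl hU
  have hd : finrank ℂ (tanSp (Ideal.span (scoPreSys g U)) (Sum.elim l l : κ ⊕ κ → ℂ)) ≤
      vdim (zeroLocus ℂ q) := by
    have := ph_vdim_mono hΔP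
    omega
  obtain ⟨huniq, htq, -⟩ := ph_smooth_unique _ _ q hq (hΔP hLΔ) hd
  have hqq : q' = q := huniq q' hq' (hEP' hLE)
  have hge := ph_tan_ge q hq.1.1 _ (hΔP hLΔ)
  rw [htq] at hge
  have hsub := sco_pre_eq_of_vdim ⟨q, hq.1.1, rfl⟩ hΔV hΔP (by omega)
  intro z hz k
  have hz' := hEP' hz
  rw [hqq] at hz'
  exact hΔeq z (hsub hz') k

/-- **preimages at a smooth point of the target system** -/
theorem sco_preimage {ι κ : Type*} [Fintype ι] [Fintype κ] (ℱ : Set (MvPolynomial κ ℂ))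
    (l : κ → ℂ) (r : ℕ) (hr : finrank ℂ (scoT ℱ l) ≤ r) (M : Set (ι → ℂ)) (hM : IsVar M)
    (ψ : κ → MvPolynomial ι ℂ) (hψ : ∀ m ∈ M, pmap ψ m ∈ Zl ℱ) (m₀ : ι → ℂ) (hm₀ : m₀ ∈ M)
    (hl : pmap ψ m₀ = l) (K : Set (κ → ℂ)) (hK : IsVar K) (hKℱ : K ⊆ Zl ℱ) (hlK : l ∈ K) :
    ∃ Pi : Set (ι → ℂ), IsVar Pi ∧ Pi ⊆ M ∧ m₀ ∈ Pi ∧ (∀ m ∈ Pi, pmap ψ m ∈ K) ∧
      vdim M + vdim K ≤ vdim Pi + r := by
  have hr' : finrank ℂ (tanSp (Ideal.span ℱ) l) ≤ r := hr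
  obtain ⟨c, g, hgI, hli, hc⟩ := ph_grad_choose (Ideal.span ℱ) l
  have hJ : LinearIndependent ℂ (fun j => fun i => eval l (pderiv i (g j))) := by
    simpa only [aeval_eq_eval] using hli
  have hgZ : ∀ w ∈ Zl ℱ, ∀ j, eval w (g j) = 0 := by
    intro w hw j
    rw [ph_Zl_eq_zeroLocus] at hw
    exact (ph_mem_zeroLocus _ w).mp hw _ (hgI j)
  have hT := ph_grad_le (Ideal.span (Set.range g)) l g (fun j => Ideal.subset_span ⟨j, rfl⟩) hli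
  obtain ⟨U, hU⟩ := sco_pre_forms (tanSp (Ideal.span (Set.range g)) l)
  have hX : IsVar (prodSet M K) := ph_prod_isVar hM hK
  have hXd : vdim (prodSet M K) = vdim M + vdim K := ph_prod_vdim hM hK
  obtain ⟨P, hP, hPe⟩ := id hX
  have hG₀ : Zl (P : Set (MvPolynomial (ι ⊕ κ) ℂ)) = prodSet M K := by
    rw [ph_Zl_coe_ideal, hPe]
  obtain ⟨e, hed⟩ : ∃ e : Fin (finrank ℂ (tanSp (Ideal.span (Set.range g)) l)) →
      MvPolynomial (ι ⊕ κ) ℂ,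
      e = fun i => ∑ k, C (U i k) * (rename Sum.inl (ψ k) - X (Sum.inr k)) := ⟨_, rfl⟩
  have hee : ∀ (z : ι ⊕ κ → ℂ) i, eval z (e i) =
      ∑ k, U i k * (pmap ψ (fun i => z (Sum.inl i)) k - z (Sum.inr k)) := by
    intro z i
    rw [hed]
    simp only [map_sum, map_mul, map_sub, eval_X, eval_C, eval_rename, pmap]
    rfl
  have hz₀ : (Sum.elim m₀ l : ι ⊕ κ → ℂ) ∈ Zl ((P : Set (MvPolynomial (ι ⊕ κ) ℂ)) ∪ Set.range e) := by
    intro s hs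
    rcases hs with hs | ⟨i, rfl⟩
    · have : (Sum.elim m₀ l : ι ⊕ κ → ℂ) ∈ Zl (P : Set (MvPolynomial (ι ⊕ κ) ℂ)) := by
        rw [hG₀]
        exact (ph_mem_prodSet _ _ _ _).2 ⟨hm₀, hlK⟩
      exact this s hs
    · rw [hee]
      simp only [Sum.elim_inl, Sum.elim_inr, hl, sub_self, mul_zero, Finset.sum_const_zero]
  rw [ph_Zl_eq_iUnion_comps] at hz₀
  simp only [Set.mem_iUnion] at hz₀
  obtain ⟨Ξ, hΞ, hzΞ⟩ := hz₀
  have hΞ' : IsCompOf Ξ ((P : Set (MvPolynomial (ι ⊕ κ) ℂ)) ∪ Set.range e) := hΞ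
  have hkr := ph_krull_rel hX _ hG₀ e Ξ hΞ'
  have hΞV := ph_isCompOf_isVar hΞ'
  have hΞs := ph_isCompOf_subset hΞ'
  have hΞX : ∀ z ∈ Ξ, (fun i => z (Sum.inl i)) ∈ M ∧ (fun k => z (Sum.inr k)) ∈ K := by
    intro z hz
    have : z ∈ Zl (P : Set (MvPolynomial (ι ⊕ κ) ℂ)) := fun s hs => hΞs hz s (Or.inl hs)
    rw [hG₀] at this
    exact this
  obtain ⟨Θ, hΘd⟩ : ∃ Θ : κ ⊕ κ → MvPolynomial (ι ⊕ κ) ℂ,
      Θ = Sum.elim (fun k => rename Sum.inl (ψ k)) (fun k => X (Sum.inr k)) := ⟨_, rfl⟩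
  have hΘ : ∀ z, pmap Θ z = Sum.elim (pmap ψ (fun i => z (Sum.inl i))) (fun k => z (Sum.inr k)) := by
    intro z
    funext s
    rcases s with k | k
    · simp only [pmap, hΘd, Sum.elim_inl, eval_rename]
      rfl
    · simp only [pmap, hΘd, Sum.elim_inr, eval_X]
  have hgraph : ∀ z ∈ Ξ, pmap ψ (fun i => z (Sum.inl i)) = fun k => z (Sum.inr k) := by
    intro z hz
    have h1 := sco_pre_diag g U l (hgZ l (hKℱ hlK)) hJ hU (zcl (pmap Θ '' Ξ))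
      (ph_isVar_zcl_image hΞV Θ) (by
        rw [ph_zcl_subset_iff]
        rintro _ ⟨y, hy, rfl⟩
        rw [hΘ, sco_pre_mem_Zl]
        refine ⟨hgZ _ (hψ _ (hΞX y hy).1), hgZ _ (hKℱ (hΞX y hy).2), fun i => ?_⟩
        have := hΞs hy (e i) (Or.inr ⟨i, rfl⟩)
        rw [hee] at this
        exact this) (ph_subset_zcl _ ⟨_, hzΞ, by
        rw [hΘ]
        simp only [Sum.elim_inl, Sum.elim_inr, hl]⟩)
      (pmap Θ z) (ph_subset_zcl _ ⟨z, hz, rfl⟩)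
    funext k
    have := h1 k
    rw [hΘ] at this
    exact this
  obtain ⟨pr, hprd⟩ : ∃ pr : ι → MvPolynomial (ι ⊕ κ) ℂ, pr = fun i => X (Sum.inl i) := ⟨_, rfl⟩
  have hpr : ∀ z, pmap pr z = fun i => z (Sum.inl i) := by
    intro z
    funext i
    simp [pmap, hprd]
  obtain ⟨Γ, hΓd⟩ : ∃ Γ : ι ⊕ κ → MvPolynomial ι ℂ, Γ = Sum.elim X ψ := ⟨_, rfl⟩
  have hΓ : ∀ m, pmap Γ m = Sum.elim m (pmap ψ m) := by
    intro m
    funext s
    rcases s with i | k <;> simp [pmap, hΓd]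
  have hΓz : ∀ z ∈ Ξ, pmap Γ (pmap pr z) = z := by
    intro z hz
    rw [hΓ, hpr, hgraph z hz]
    funext s
    rcases s with i | k <;> rfl
  have hPi : ∀ m ∈ zcl (pmap pr '' Ξ), pmap Γ m ∈ Ξ := by
    intro m hm
    rw [← ph_zcl_of_isVar hΞV, ph_mem_zcl]
    intro f hf
    rw [ph_eval_pmap]
    rw [ph_mem_zcl] at hm
    apply hm
    rintro _ ⟨z, hz, rfl⟩
    rw [← ph_eval_pmap, hΓz z hz]
    exact hf z hz
  refine ⟨zcl (pmap pr '' Ξ), ph_isVar_zcl_image hΞV pr, ?_, ?_, ?_, ?_⟩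
  · intro m hm
    have := (hΞX _ (hPi m hm)).1
    rw [hΓ] at this
    exact this
  · refine ph_subset_zcl _ ⟨_, hzΞ, ?_⟩
    rw [hpr]
    rfl
  · intro m hm
    have := (hΞX _ (hPi m hm)).2
    rw [hΓ] at this
    exact this
  · have h1 : vdim Ξ ≤ vdim (zcl (pmap pr '' Ξ)) := by
      refine le_trans (ph_vdim_mono ?_) (ph_vdim_pmap_image_le Γ _)
      intro z hz
      exact ⟨pmap pr z, ph_subset_zcl _ ⟨z, hz, rfl⟩, hΓz z hz⟩
    omega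

/-- **THE LIFT** of a directional cone contained in the specialised label equations to a physical curve in the target carrier -/
theorem sco_lift (𝔵 𝔶 : Ideal (PrfPol d)) (h𝔵 : 𝔵.IsPrime) (h𝔶 : 𝔶.IsPrime) (k : ℕ) (hk : 1 ≤ k)
    (hkx : vdim (spZ 𝔵) = k) (hky : vdim (spZ 𝔶) = k)
    (ℱ : Set (SpLPol d)) (h1 : spImg (spZ 𝔵) (spZ 𝔶) ⊆ Zl ℱ)
    (p q : SpC d) (hp : p ∈ spZ 𝔵) (hq : q ∈ spZ 𝔶) (lam : ℂ) (hlam : lam ≠ 0)
    (hlab : finrank ℂ (scoT ℱ (Sum.elim p (lam • (q - p)))) ≤ 2 * k + 1)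
    (htq : q - p ∉ tanSp 𝔶 q)
    (γ : Set (SpC d)) (hγ : IsVar γ) (hγ2 : vdim γ = 2) (hcone : ∀ w ∈ γ, ∀ a : ℂ, a • w ∈ γ)
    (hγℱ : ∀ w ∈ γ, Sum.elim p w ∈ Zl ℱ) (hqγ : q - p ∈ γ) :
    ∃ 𝔠 : Ideal (PrfPol d), 𝔠.IsPrime ∧ 𝔶 ≤ 𝔠 ∧ vdim (spZ 𝔠) = 1 ∧ q ∈ spZ 𝔠 ∧
      dcone p (spZ 𝔠) = γ := by
  have hX : IsVar (spZ 𝔵) := ⟨𝔵, h𝔵, rfl⟩
  have hY : IsVar (spZ 𝔶) := ⟨𝔶, h𝔶, rfl⟩
  have hM : IsVar (prodSet (prodSet (spZ 𝔵) (spZ 𝔶)) (Set.univ : Set (Unit → ℂ))) :=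
    ph_prod_isVar (ph_prod_isVar hX hY) ph_univ.1
  have hK : IsVar (prodSet ({p} : Set (SpC d)) γ) := ph_prod_isVar (ph_point p).1 hγ
  obtain ⟨Pi, hPi, hPiM, hm₀, hPiK, hdim⟩ := sco_preimage ℱ (Sum.elim p (lam • (q - p))) (2 * k + 1)
    hlab _ hM (spPsi d)
    (fun m hm => h1 (ph_subset_zcl _ ⟨(_, _), ⟨hm.1.1, hm.1.2⟩, m (Sum.inr ()), scoa_pmap_psi m⟩))
    (Sum.elim (Sum.elim p q) (fun _ => lam)) ⟨⟨hp, hq⟩, Set.mem_univ _⟩
    (by rw [scoa_pmap_psi]; rfl) _ hK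
    (fun z hz => by
      obtain ⟨x, hx, w, hw, rfl⟩ := ph_prodSet_elim hz
      rw [Set.mem_singleton_iff.mp hx]
      exact hγℱ w hw)
    ⟨rfl, hcone _ hqγ lam⟩
  rw [ph_prod_vdim (ph_prod_isVar hX hY) ph_univ.1, ph_prod_vdim hX hY, ph_univ.2.1,
    ph_prod_vdim (ph_point p).1 hγ, (ph_point p).2.1, hkx, hky, hγ2, Fintype.card_unit] at hdim
  exact scoa_lift 𝔶 h𝔶 p q lam hlam htq γ hγ hγ2 hcone Pi hPi (fun m hm => (hPiM hm).1.2) hm₀ hPiK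
    (by omega)

/-- goodness is open in the target -/
theorem sco_good_open (F : Set (PrfPol d)) (ℱ : Set (SpLPol d)) (j : ℕ) (p q : SpC d)
    (h : ScoGood F ℱ j p q) (hFp : ∀ f ∈ F, eval p f = 0) (hFq : ∀ f ∈ F, eval q f = 0)
    (hlq : ∀ lam : ℂ, Sum.elim p (lam • (q - p)) ∈ Zl ℱ)
    (hdp : finrank ℂ (scoT F p) = d - j) (hdq : finrank ℂ (scoT F q) = d - j) :
    ∃ h' : PrfPol d, eval q h' ≠ 0 ∧ ∀ q' : SpC d, eval q' h' ≠ 0 → (∀ f ∈ F, eval q' f = 0) →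
      (∀ lam : ℂ, Sum.elim p (lam • (q' - p)) ∈ Zl ℱ) → ScoGood F ℱ j p q' := by
  obtain ⟨h', h1, h2⟩ := sco_good_open_aux F ℱ j p q h hFp hFq hdp hdq
  exact ⟨h', h1, fun q' a b _ => h2 q' a b⟩

/-- **(PROJ+)** consumed from S3 (poly:projection (i) + poly:tangent-projection; helper26 / helper299): a curve which projects generically injectively from `p`, and is "doubly tangent to a hyperplane" at `p` if `p` lies on it,
loses at most half of its degree. -/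
def ScoProjStmt (d : ℕ) : Prop :=
  ∀ (𝔠 : Ideal (PrfPol d)) (p : SpC d), 𝔠.IsPrime → vdim (spZ 𝔠) = 1 → vdim (dcone p (spZ 𝔠)) = 2 →
    DepRootLE p (spZ 𝔠) (spZ 𝔠) 1 →
    (p ∈ spZ 𝔠 → ∃ l f : PrfPol d, l.totalDegree ≤ 1 ∧ l ∉ 𝔠 ∧ f ∈ 𝔠 ∧ OrdGE p 2 (l - f)) →
    vdeg (spZ 𝔠) ≤ 2 * vdeg (dcone p (spZ 𝔠))

/-- **one lift per cone** (`k ≥ 2`): all the good targets of the row of `p` over `γ` lie on ONE irreducible curve of degree `≤ 2 deg γ` -/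
theorem sco_row (proj : ScoProjStmt d) (F : Set (PrfPol d)) (ℱ : Set (SpLPol d)) (j : ℕ) (hj : j + 2 ≤ d)
    (𝔵 : Ideal (PrfPol d)) (h𝔵 : 𝔵.IsPrime) (hkx : vdim (spZ 𝔵) = d - j) (hF𝔵 : ∀ f ∈ F, f ∈ 𝔵)
    (p : SpC d) (hp : p ∈ spZ 𝔵)
    (γ : Set (SpC d)) (hγ : IsVar γ) (hγ2 : vdim γ = 2) (hcone : ∀ w ∈ γ, ∀ a : ℂ, a • w ∈ γ)
    (hγℱ : ∀ w ∈ γ, Sum.elim p w ∈ Zl ℱ)
    (Q : Finset (SpC d)) (hQ : Q.Nonempty) (asg : SpC d → Ideal (PrfPol d))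
    (h1 : ∀ q ∈ Q, (asg q).IsPrime ∧ vdim (spZ (asg q)) = d - j ∧ q ∈ spZ (asg q) ∧
      (∀ f ∈ F, f ∈ asg q) ∧ spImg (spZ 𝔵) (spZ (asg q)) ⊆ Zl ℱ ∧ ScoGood F ℱ j p q ∧ q - p ∈ γ)
    (huniq : ∀ q ∈ Q, p ∈ spZ (asg q) → asg q = 𝔵) :
    ∃ 𝔠 : Ideal (PrfPol d), 𝔠.IsPrime ∧ vdim (spZ 𝔠) = 1 ∧ (∀ q ∈ Q, q ∈ spZ 𝔠) ∧
      vdeg (spZ 𝔠) ≤ 2 * vdeg γ := by
  classical
  have hk2 : 2 ≤ d - j := by omega
  have hFp : ∀ f ∈ F, eval p f = 0 := fun f hf => (ph_mem_zeroLocus 𝔵 p).mp hp f (hF𝔵 f hf)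
  -- the lifts
  have hlift : ∀ q ∈ Q, ∃ 𝔠 : Ideal (PrfPol d), 𝔠.IsPrime ∧ asg q ≤ 𝔠 ∧ vdim (spZ 𝔠) = 1 ∧
      q ∈ spZ 𝔠 ∧ dcone p (spZ 𝔠) = γ := by
    intro q hq
    obtain ⟨hpr, hdim, hqz, hFq, himg, hgood, hqγ⟩ := h1 q hq
    obtain ⟨lam, hlam, hlab⟩ := hgood.lab
    have htq : q - p ∉ tanSp (asg q) q := fun h => hgood.tr_q fun f hf =>
      h f (Ideal.span_le.mpr (fun g hg' => hFq g hg') hf)
    exact sco_lift 𝔵 (asg q) h𝔵 hpr (d - j) (by omega) hkx hdim ℱ himg p q hp hqz lam hlam hlab htq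
      γ hγ hγ2 hcone hγℱ hqγ
  obtain ⟨q₀, hq₀⟩ := hQ
  obtain ⟨hpr₀, hdim₀, hqz₀, hFq₀, himg₀, hgood₀, hqγ₀⟩ := h1 q₀ hq₀
  obtain ⟨𝔠₀, h𝔠₀, hle₀, hd₀, hq𝔠₀, hcn₀⟩ := hlift q₀ hq₀
  have hC₀ : IsVar (spZ 𝔠₀) := ⟨𝔠₀, h𝔠₀, rfl⟩
  have hsub₀ : spZ 𝔠₀ ⊆ spZ (asg q₀) := zeroLocus_anti_mono hle₀
  have htanp := sco_tan_eq 𝔵 h𝔵 F hF𝔵 p hp (by rw [hkx]; exact hgood₀.tan_p)
  have htanq₀ := sco_tan_eq (asg q₀) hpr₀ F hFq₀ q₀ hqz₀ (by rw [hdim₀]; exact hgood₀.tan_q)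
  have hlabel : ∀ y ∈ spZ (asg q₀), ∀ lam : ℂ, Sum.elim p (lam • (y - p)) ∈ Zl ℱ := fun y hy lam =>
    himg₀ (ph_subset_zcl _ ⟨(p, y), ⟨hp, hy⟩, lam, rfl⟩)
  obtain ⟨h', hh'q₀, hopen⟩ := sco_good_open F ℱ j p q₀ hgood₀ hFp
    (fun f hf => (ph_mem_zeroLocus _ q₀).mp hqz₀ f (hFq₀ f hf)) (hlabel q₀ hqz₀)
    (by rw [htanp.2, hkx]) (by rw [htanq₀.2, hdim₀])
  have hgen : ∀ y ∈ spZ 𝔠₀, eval y h' ≠ 0 → ScoGood F ℱ j p y := fun y hy hy' =>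
    hopen y hy' (fun f hf => (ph_mem_zeroLocus _ y).mp (hsub₀ hy) f (hFq₀ f hf)) (hlabel y (hsub₀ hy))
  -- (*) no second point on the line from `p` to a general point of the lift
  have hstar : ∀ y ∈ spZ 𝔠₀, eval y h' ≠ 0 → ∀ q ∈ Q, ∀ z ∈ spZ (asg q), z ≠ p → ∀ c : ℂ,
      z - p = c • (y - p) → z = y := by
    intro y hy hy' q hq z hz hzp c hzc
    by_contra hne
    have hg := hgen y hy hy'
    obtain ⟨lam, hlam, hlab⟩ := hg.lab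
    have hty := sco_tan_eq (asg q₀) hpr₀ F hFq₀ y (hsub₀ hy) (by rw [hdim₀]; exact hg.tan_q)
    have hc0 : c ≠ 0 := by
      rintro rfl
      rw [zero_smul, sub_eq_zero] at hzc
      exact hzp hzc
    have hc1 : c ≠ 1 := by
      rintro rfl
      rw [one_smul] at hzc
      exact hne (sub_left_injective hzc)
    have := sco_no_second 𝔵 (asg q₀) (asg q) h𝔵 hpr₀ (d - j) ℱ himg₀ (h1 q hq).2.2.2.2.1 p y z hp
      (hsub₀ hy) hz (by rw [← htanp.1, htanp.2, hkx]) (by rw [← hty.1, hty.2, hdim₀]) lam hlam hlab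
      (by rw [← htanp.1]; exact hg.tr_p) (by rw [← hty.1]; exact hg.tr_q) c hc0 hc1 hzc
    exact hg.neq hk2 (by rw [htanp.1, hty.1]; exact this)
  -- depth one
  have hroot : DepRootLE p (spZ 𝔠₀) (spZ 𝔠₀) 1 := by
    refine ⟨h', ⟨q₀, hq𝔠₀, hh'q₀⟩, fun y hy hy' => ?_⟩
    have hsub : depRoots p y (spZ 𝔠₀) ⊆ {y} := by
      rintro z ⟨hz, hzp, c, hzc⟩
      exact hstar y hy hy' q₀ hq₀ z (hsub₀ hz) hzp c hzc
    refine ⟨(Set.finite_singleton y).subset hsub, ?_⟩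
    calc (depRoots p y (spZ 𝔠₀)).ncard ≤ ({y} : Set (SpC d)).ncard :=
          Set.ncard_le_ncard hsub (Set.finite_singleton y)
      _ = 1 := Set.ncard_singleton y
  -- all the lifts coincide
  have hall : ∀ q ∈ Q, q ∈ spZ 𝔠₀ := by
    intro q hq
    obtain ⟨𝔠, h𝔠, hle, hd1, hq𝔠, hcn⟩ := hlift q hq
    have hC : IsVar (spZ 𝔠) := ⟨𝔠, h𝔠, rfl⟩
    obtain ⟨h'', ⟨w₀, hw₀, hw₀'⟩, himage⟩ := ph_image_dense
      (ph_prod_isVar hC (ph_univ (ι := Fin 1)).1) (depConeMap p)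
    rw [← dep_spCone_eq] at hw₀ himage
    have hw₀γ : w₀ ∈ dcone p (spZ 𝔠₀) := by rw [hcn₀, ← hcn]; exact hw₀
    -- `h''` is nonzero at some `a (y - p)`, `y` on the first lift, `a ≠ 0`
    obtain ⟨y₁, hy₁, a₁, ha₁, hne₁⟩ : ∃ y₁ ∈ spZ 𝔠₀, ∃ a₁ : ℂ, a₁ ≠ 0 ∧
        eval (a₁ • (y₁ - p)) h'' ≠ 0 := by
      by_contra hcon
      push Not at hcon
      apply hw₀'
      refine (ph_mem_zcl _ w₀).mp hw₀γ h'' ?_
      rintro _ ⟨y, hy, a, rfl⟩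
      by_contra hne
      obtain ⟨a', ha', hne'⟩ := scoa_line_ne h'' (y - p) a hne
      exact hne' (hcon y hy a' ha')
    have hsubC : spZ 𝔠₀ ⊆ spZ 𝔠 := by
      refine scoa_dense hC₀ (ph_zcl_of_isVar hC)
        (h' * aeval (fun i => C a₁ * (X i - C (p i)) : Fin d → PrfPol d) h'')
        (scoa_mul_ne hC₀ _ _ ⟨q₀, hq𝔠₀, hh'q₀⟩ ⟨y₁, hy₁, by rw [dep_eval_scale]; exact hne₁⟩) ?_
      intro y hy hyG
      rw [map_mul, dep_eval_scale] at hyG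
      have hy' : eval y h' ≠ 0 := left_ne_zero_of_mul hyG
      have hy'' : eval (a₁ • (y - p)) h'' ≠ 0 := right_ne_zero_of_mul hyG
      have hyp : y - p ≠ 0 := fun h0 => (hgen y hy hy').tr_p (by rw [h0]; exact Submodule.zero_mem _)
      obtain ⟨z, hz, lam, hzl⟩ := himage (a₁ • (y - p))
        (by
          have : a₁ • (y - p) ∈ dcone p (spZ 𝔠) := by
            rw [hcn, ← hcn₀]; exact dep_sub_dcone p _ hy a₁
          exact this) hy''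
      have hlam : lam ≠ 0 := by
        rintro rfl
        rw [zero_smul] at hzl
        exact (smul_ne_zero ha₁ hyp) hzl
      have hzp : z ≠ p := by
        rintro rfl
        rw [sub_self, smul_zero] at hzl
        exact (smul_ne_zero ha₁ hyp) hzl
      have hzc : z - p = (lam⁻¹ * a₁) • (y - p) := by
        rw [mul_smul, hzl, smul_smul, inv_mul_cancel₀ hlam, one_smul]
      have := hstar y hy hy' q hq z (zeroLocus_anti_mono hle hz) hzp _ hzc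
      rwa [this] at hz
    have : spZ 𝔠₀ = spZ 𝔠 := scoa_var_eq hC hC₀ hsubC (by rw [hd₀, hd1])
    rw [this]; exact hq𝔠
  refine ⟨𝔠₀, h𝔠₀, hd₀, hall, ?_⟩
  have := proj 𝔠₀ p h𝔠₀ hd₀ (by rw [hcn₀, hγ2]) hroot ?_
  · rwa [hcn₀] at this
  · intro hp𝔠
    have h𝔵eq : asg q₀ = 𝔵 := huniq q₀ hq₀ (hsub₀ hp𝔠)
    have htr := hgood₀.tr_p
    obtain ⟨f, hf, hfne⟩ : ∃ f ∈ Ideal.span F, dAt f p (q₀ - p) ≠ 0 := by
      by_contra hcon
      push Not at hcon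
      exact htr hcon
    have hf𝔵 : f ∈ 𝔵 := Ideal.span_le.mpr (fun g hg' => hF𝔵 g hg') hf
    refine ⟨∑ i, C (eval p (pderiv i f)) * (X i - C (p i)), f, ?_, ?_, hle₀ (h𝔵eq ▸ hf𝔵), ?_⟩
    · refine totalDegree_finsetSum_le fun i _ => ?_
      refine (totalDegree_mul _ _).trans ?_
      rw [totalDegree_C, zero_add]
      refine (totalDegree_sub _ _).trans ?_
      rw [totalDegree_C, totalDegree_X]
      simp
    · intro hl
      apply hfne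
      have := (ph_mem_zeroLocus 𝔠₀ q₀).mp hq𝔠₀ _ hl
      rw [map_sum] at this
      rw [← this]
      simp [dAt]
    · have := ph_ord_neg (ph_ord_taylor1 p f ((ph_mem_zeroLocus 𝔵 p).mp hp f hf𝔵))
      rwa [neg_sub] at this

/-- `k = 1`: the target carrier itself projects onto `γ` -/
theorem sco_row_one (F : Set (PrfPol d)) (ℱ : Set (SpLPol d)) (j : ℕ) (hj : j + 1 = d)
    (𝔵 𝔶 : Ideal (PrfPol d)) (h𝔵 : 𝔵.IsPrime) (h𝔶 : 𝔶.IsPrime) (hkx : vdim (spZ 𝔵) = 1)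
    (hky : vdim (spZ 𝔶) = 1) (hF𝔶 : ∀ f ∈ F, f ∈ 𝔶) (p q : SpC d) (hp : p ∈ spZ 𝔵) (hq : q ∈ spZ 𝔶)
    (h1 : spImg (spZ 𝔵) (spZ 𝔶) ⊆ Zl ℱ) (hg : ScoGood F ℱ j p q)
    (γ : Set (SpC d)) (hγ : IsVar γ) (hγ2 : vdim γ = 2) (hcone : ∀ w ∈ γ, ∀ a : ℂ, a • w ∈ γ)
    (hγℱ : ∀ w ∈ γ, Sum.elim p w ∈ Zl ℱ) (hqγ : q - p ∈ γ) :
    ∀ y ∈ spZ 𝔶, y - p ∈ γ := by
  obtain ⟨lam, hlam, hlab⟩ := hg.lab
  have hk : d - j = 1 := by omega
  rw [hk] at hlab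
  have htq : q - p ∉ tanSp 𝔶 q := fun h => hg.tr_q fun f hf =>
    h f (Ideal.span_le.mpr (fun g hg' => hF𝔶 g hg') hf)
  obtain ⟨𝔠, h𝔠, hle, hdim, -, hcn⟩ := sco_lift 𝔵 𝔶 h𝔵 h𝔶 1 le_rfl hkx hky ℱ h1 p q hp hq lam hlam
    hlab htq γ hγ hγ2 hcone hγℱ hqγ
  have heq : 𝔶 = 𝔠 := by
    by_contra hne
    have := ph_vdim_lt_of_prime_lt h𝔶 h𝔠 (lt_of_le_of_ne hle hne)
    have h2 : vdim (spZ 𝔠) < vdim (spZ 𝔶) := this
    omega
  intro y hy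
  rw [← hcn, ← heq]
  have := dep_sub_dcone p (spZ 𝔶) hy 1
  rwa [one_smul] at this

/-- a line through the origin is an irreducible curve -/
theorem sco_line_isVar {w : SpC d} (hw : w ≠ 0) :
    IsVar {y : SpC d | ∃ a : ℂ, y = a • w} ∧ vdim {y : SpC d | ∃ a : ℂ, y = a • w} = 1 := by
  have himg : {y : SpC d | ∃ a : ℂ, y = a • w} =
      pmap (fun j => C (w j) * X 0 : Fin d → MvPolynomial (Fin 1) ℂ) '' Set.univ := by
    ext y
    constructor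
    · rintro ⟨a, rfl⟩
      refine ⟨fun _ => a, Set.mem_univ _, ?_⟩
      funext j
      simp [pmap, mul_comm]
    · rintro ⟨z, -, rfl⟩
      refine ⟨z 0, ?_⟩
      funext j
      simp [pmap, mul_comm]
  have hcl : {y : SpC d | ∃ a : ℂ, y = a • w} =
      Zl {f : PrfPol d | ∃ i j, f = C (w i) * X j - C (w j) * X i} := by
    ext y
    constructor
    · rintro ⟨a, rfl⟩ f ⟨i, j, rfl⟩
      simp
      ring
    · intro hy
      obtain ⟨i, hi⟩ : ∃ i, w i ≠ 0 := by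
        by_contra hno
        push Not at hno
        exact hw (funext hno)
      refine ⟨y i / w i, ?_⟩
      funext j
      have h1 := hy _ ⟨i, j, rfl⟩
      simp only [map_sub, map_mul, eval_C, eval_X] at h1
      simp only [Pi.smul_apply, smul_eq_mul]
      field_simp
      linear_combination h1
  constructor
  · have h1 := ph_isVar_zcl_image (ph_univ (ι := Fin 1)).1
      (fun j => C (w j) * X 0 : Fin d → MvPolynomial (Fin 1) ℂ)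
    rw [← himg, hcl, ph_zcl_Zl, ← hcl] at h1
    exact h1
  · have hL : Function.Injective
        ((LinearMap.proj 0 : (Fin 1 → ℂ) →ₗ[ℂ] ℂ).smulRight w) := by
      intro z z' hzz
      obtain ⟨i, hi⟩ : ∃ i, w i ≠ 0 := by
        by_contra hno
        push Not at hno
        exact hw (funext hno)
      have h1 := congrFun hzz i
      simp only [LinearMap.smulRight_apply, LinearMap.proj_apply, Pi.smul_apply, smul_eq_mul] at h1
      funext k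
      rw [Subsingleton.elim k 0]
      exact mul_right_cancel₀ hi h1
    have himg2 : {y : SpC d | ∃ a : ℂ, y = a • w} =
        (fun z => ((LinearMap.proj 0 : (Fin 1 → ℂ) →ₗ[ℂ] ℂ).smulRight w) z + 0) '' Set.univ := by
      ext y
      constructor
      · rintro ⟨a, rfl⟩
        exact ⟨fun _ => a, Set.mem_univ _, by simp⟩
      · rintro ⟨z, -, rfl⟩
        exact ⟨z 0, by simp⟩
    have hA1 : ∀ D, hA {y : SpC d | ∃ a : ℂ, y = a • w} D = hA (Set.univ : Set (Fin 1 → ℂ)) D := by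
      intro D
      rw [himg2]
      exact rk_hA_map_eq _ hL 0 Set.univ D
    have h2 : vdim {y : SpC d | ∃ a : ℂ, y = a • w} = vdim (Set.univ : Set (Fin 1 → ℂ)) := by
      unfold vdim
      simp only [hA1]
    rw [h2, (ph_univ (ι := Fin 1)).2.1]
    simp

/-- Bezout for a cone NOT contained in the specialised label equation `H(p,·)`: at most `deg γ deg H` label lines -/
theorem sco_bez_row (γ : Set (SpC d)) (hγ : IsVar γ) (hγ2 : vdim γ = 2)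
    (hcone : ∀ w ∈ γ, ∀ a : ℂ, a • w ∈ γ) (H : SpLPol d) (p : SpC d)
    (hH : ∃ w ∈ γ, eval (Sum.elim p w) H ≠ 0) (Q : Finset (SpC d))
    (h1 : ∀ w ∈ Q, w ∈ γ ∧ w ≠ 0 ∧ ∀ a : ℂ, eval (Sum.elim p (a • w)) H = 0)
    (h2 : ∀ w ∈ Q, ∀ w' ∈ Q, w ≠ w' → ∀ a : ℂ, w' ≠ a • w) :
    Q.card ≤ vdeg γ * H.totalDegree := by
  classical
  have hdeg : (phFrL p H).totalDegree ≤ H.totalDegree := by
    unfold phFrL
    apply rk_totalDegree_aeval_le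
    intro k
    cases k with
    | inl i => simp
    | inr j => simp
  have hinj : Set.InjOn (fun w : SpC d => {y : SpC d | ∃ a : ℂ, y = a • w}) (Q : Set (SpC d)) := by
    intro w hw w' hw' heq
    by_contra hne
    have h3 : w' ∈ {y : SpC d | ∃ a : ℂ, y = a • w'} := ⟨1, by simp⟩
    have heq' : {y : SpC d | ∃ a : ℂ, y = a • w} = {y : SpC d | ∃ a : ℂ, y = a • w'} := heq
    rw [← heq'] at h3
    obtain ⟨a, ha⟩ := h3
    exact h2 w hw w' hw' hne a ha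
  have hbez := dep_cone_bezout (0 : SpC d) (phFrL p H) γ hγ 1 hγ2 (by
      obtain ⟨w, hw, hne⟩ := hH
      exact ⟨w, hw, by rwa [zero_add, ph_eval_frL]⟩)
    (Q.image fun w : SpC d => {y : SpC d | ∃ a : ℂ, y = a • w}) (by
      intro Y hY
      obtain ⟨w, hw, rfl⟩ := Finset.mem_image.1 hY
      obtain ⟨g1, g2, g3⟩ := h1 w hw
      refine ⟨(sco_line_isVar g2).1, (sco_line_isVar g2).2, ?_⟩
      rintro _ ⟨a, rfl⟩
      exact ⟨by rw [ph_eval_frL]; exact g3 a, by rw [sub_zero]; exact hcone w g1 a⟩)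
  rw [Finset.sum_image hinj] at hbez
  have hcard : Q.card ≤ ∑ w ∈ Q, vdeg {y : SpC d | ∃ a : ℂ, y = a • w} := by
    rw [Finset.card_eq_sum_ones]
    exact Finset.sum_le_sum fun w hw => ph_vdeg_pos _ (sco_line_isVar (h1 w hw).2.1).1
  calc Q.card ≤ (phFrL p H).totalDegree * vdeg γ := hcard.trans hbez
    _ ≤ H.totalDegree * vdeg γ := Nat.mul_le_mul_right _ hdeg
    _ = vdeg γ * H.totalDegree := Nat.mul_comm _ _

/-- (poly:physical-count) for curves -/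
theorem sco_curve_count (P : Finset (Pt d)) (𝔠 : Ideal (PrfPol d)) (h𝔠 : 𝔠.IsPrime)
    (h1 : vdim (spZ 𝔠) = 1) (T : Finset (SpC d)) (hT : T ⊆ P.image prfPt) (hT' : ∀ x ∈ T, x ∈ spZ 𝔠) :
    T.card ≤ 2 * dM P * vdeg (spZ 𝔠) :=
  sep_count_curve P (spZ 𝔠) ⟨𝔠, h𝔠, rfl⟩ h1 T hT fun x hx => hT' x (Finset.mem_coe.1 hx)

/-- representatives of the lines spanned by finitely many nonzero vectors -/
theorem sco_lines {V : Type*} [AddCommGroup V] [Module ℂ V] (W : Finset V) (hW : ∀ w ∈ W, w ≠ 0) :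
    ∃ W' ⊆ W, (∀ w ∈ W', ∀ w' ∈ W', w ≠ w' → ∀ a : ℂ, w' ≠ a • w) ∧
      ∀ w ∈ W, ∃ w' ∈ W', ∃ a : ℂ, w = a • w' := by
  classical
  induction W using Finset.induction_on with
  | empty => exact ⟨∅, by simp, by simp, by simp⟩
  | insert x W hx ih =>
    obtain ⟨W', hsub, hpw, hcov⟩ := ih (fun w hw => hW w (Finset.mem_insert_of_mem hw))
    by_cases h : ∃ w' ∈ W', ∃ a : ℂ, x = a • w'
    · refine ⟨W', hsub.trans (Finset.subset_insert _ _), hpw, ?_⟩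
      intro w hw
      rcases Finset.mem_insert.1 hw with rfl | hw
      · exact h
      · exact hcov w hw
    · push Not at h
      refine ⟨insert x W', Finset.insert_subset_insert _ hsub, ?_, ?_⟩
      · intro w hw w' hw' hne a
        rcases Finset.mem_insert.1 hw with rfl | hw1
        · rcases Finset.mem_insert.1 hw' with rfl | hw'
          · exact absurd rfl hne
          · intro he
            have ha : a ≠ 0 := by
              rintro rfl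
              rw [zero_smul] at he
              exact hW w' (Finset.mem_insert_of_mem (hsub hw')) he
            apply h w' hw' a⁻¹
            rw [he, smul_smul, inv_mul_cancel₀ ha, one_smul]
        · rcases Finset.mem_insert.1 hw' with rfl | hw2
          · exact h w hw1 a
          · exact hpw w hw1 w' hw2 hne a
      · intro w hw
        rcases Finset.mem_insert.1 hw with rfl | hw
        · exact ⟨w, Finset.mem_insert_self _ _, 1, (one_smul _ _).symm⟩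
        · obtain ⟨w', hw', a, ha⟩ := hcov w hw
          exact ⟨w', Finset.mem_insert_of_mem hw', a, ha⟩

/-- at a common zero: corank of the Jacobian = dimension of the tangent space of the system -/
theorem sco_jac_rank (F : Set (PrfPol d)) (x : SpC d) (hx : ∀ f ∈ F, eval x f = 0) :
    finrank ℂ (scoT F x) + prfJacRk F x = d := by
  have h := ph_finrank_orth (Ω := ℂ) ((fun f => prfGrad f x) '' F) (scoT F x) (by
    intro v
    rw [ph_mem_tanSp_span F x (by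
      intro g hg
      rw [MvPolynomial.aeval_eq_eval]
      exact hx g hg)]
    constructor
    · rintro h _ ⟨f, hf, rfl⟩
      exact h f hf
    · intro h f hf
      exact h _ ⟨f, hf, rfl⟩)
  rw [Fintype.card_fin] at h
  exact h

/-- **THE ROW BOUND.**  `𝒦` from `scs_cone_decomp 𝔠.D p`, `∑ vdeg γ ≤ E`.  Every `q` in the row is covered: `q - p ∈ γ` for some `γ ∈ 𝒦`; its label line lies in `Zl ℱ` (`lab_van`, `R_mem`, `sp_lab_subset_img`).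
(a) `γ ⊄ Zl ℱ(p,·)`: pick `H ∈ ℱ`; the targets over `γ` lie on `≤ vdeg γ · deg H ≤ vdeg γ · T_s(t₂)` lines through `p` (`sco_bez_row` for one representative `q - p` of each line), each with `≤ B^θ` sample points (`light`).
(b) `γ ⊆ Zl ℱ(p,·)`, `k ≥ 2`: `sco_row` (carriers are prime of dimension `k`: unit S5L; `huniq`: `lim.unique` at `p`, where the Jacobian has full rank by `tan_p`), `sco_curve_count`: `≤ 2 M · 2 vdeg γ`.
(c) `γ ⊆ Zl ℱ(p,·)`, `k = 1`: `sco_row_one` gives `SpTerm 𝔠.D p (asg q)`; `asg q = 𝔠.cho q` (`lim.unique` at `q`: both are carriers after `d - 1` cuts through `q`, `X = Y`); contradiction with `SpCfg.Ok.term`: no such target. -/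
theorem sco_row_bound (hd : 3 ≤ d) (lim : SpLimStmt d) (proj : ScoProjStmt d) (𝔠 : SpCfg d)
    (b : ℕ → ℝ) (α θ : ℝ) (hθ : 0 < θ) (hok : 𝔠.Ok b α θ) (hXY : 𝔠.X = 𝔠.Y) (j : ℕ) (hj : j < d)
    (t₂ α' : ℝ) (σ : ScoSys d) (hσ : σ.Ok 𝔠 j t₂ α') (p : SpC d) (Q : Finset (SpC d))
    (hQ : ∀ q ∈ Q, (p, q) ∈ σ.Γ) :
    (Q.card : ℝ) ≤ 𝔠.D.E * prfT 𝔠.D.B 𝔠.s t₂ * 𝔠.D.B ^ θ + 4 * (dM 𝔠.D.P : ℝ) * 𝔠.D.E := by
  classical
  have hB0 : 0 ≤ 𝔠.D.B := Real.rpow_nonneg (Nat.cast_nonneg _) _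
  have hE0 : 0 ≤ 𝔠.D.E := by
    unfold SpData.E
    have h1 := hok.reg.pos
    have h2 : 0 ≤ 𝔠.D.N := Nat.cast_nonneg _
    have h3 : 0 ≤ dA 𝔠.D.P := Real.rpow_nonneg (Nat.cast_nonneg _) _
    positivity
  have hT0 : 0 ≤ prfT 𝔠.D.B 𝔠.s t₂ := mul_nonneg hB0 (Real.exp_pos _).le
  have hBθ : 0 ≤ 𝔠.D.B ^ θ := Real.rpow_nonneg hB0 _
  rcases Q.eq_empty_or_nonempty with rfl | ⟨q₀, hq₀⟩
  · simp only [Finset.card_empty, Nat.cast_zero]
    positivity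
  have hΓ : ∀ q ∈ Q, (p, q) ∈ 𝔠.Γ := fun q hq => hσ.sub (hQ q hq)
  have hpX : p ∈ 𝔠.X.pts := (Finset.mem_product.1 (hok.sub (hΓ q₀ hq₀))).1
  have hqX : ∀ q ∈ Q, q ∈ 𝔠.X.pts := fun q hq => by
    rw [hXY]
    exact (Finset.mem_product.1 (hok.sub (hΓ q hq))).2
  have hptsD : 𝔠.X.pts ⊆ 𝔠.D.pts := Finset.biUnion_subset.mpr hok.okX.sub
  have hpP : spRe p ∈ 𝔠.D.P := by
    obtain ⟨p', hp', rfl⟩ := Finset.mem_image.1 (hptsD hpX)
    rw [sp_re_pt]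
    exact hp'
  -- facts on carriers
  have hfacts : ∀ x ∈ 𝔠.X.pts, (σ.asg x).IsPrime ∧ vdim (spZ (σ.asg x)) = d - j ∧
      x ∈ spZ (σ.asg x) ∧ σ.asg x ∈ 𝔠.X.carriers j := by
    intro x hx
    obtain ⟨a, ha, hxa⟩ := Finset.mem_biUnion.1 hx
    have h1 := hσ.asg a ha x hxa
    have h2 : σ.asg x ∈ (𝔠.X.π a).carriers j := ⟨x, hxa, h1⟩
    have h3 := prf_carriers_dim (𝔠.X.π a) (hok.okX.piece a ha).path j hj.le h2
    exact ⟨h3.1, h3.2, h1.2, a, ha, h2⟩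
  have hFcar : ∀ f ∈ (σ.F : Set (PrfPol d)), ∀ P ∈ spCarr2 𝔠.X 𝔠.X j, f ∈ P := by
    intro f hf P hP
    rcases hP with hP | hP <;> exact hσ.F_van f (Finset.mem_coe.1 hf) P hP
  have hFzero : ∀ x ∈ 𝔠.X.pts, ∀ f ∈ (σ.F : Set (PrfPol d)), eval x f = 0 := by
    intro x hx f hf
    obtain ⟨-, -, h3, h4⟩ := hfacts x hx
    have := (mem_zeroLocus_iff.1 h3) f (hσ.F_van f (Finset.mem_coe.1 hf) _ h4)
    rwa [MvPolynomial.aeval_eq_eval] at this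
  have hpaths : ∀ a ∈ 𝔠.X.I, (𝔠.X.π a).Path := fun a ha => (hok.okX.piece a ha).path
  have huniq : ∀ x ∈ 𝔠.X.pts, finrank ℂ (scoT (σ.F : Set (PrfPol d)) x) ≤ d - j →
      ∀ P ∈ 𝔠.X.carriers j, ∀ P' ∈ 𝔠.X.carriers j, x ∈ spZ P → x ∈ spZ P' → P = P' := by
    intro x hx hrk P hP P' hP' hxP hxP'
    have h1 := sco_jac_rank (σ.F : Set (PrfPol d)) x (hFzero x hx)
    have h2 : j ≤ prfJacRk (σ.F : Set (PrfPol d)) x := by omega
    exact (lim.unique 𝔠.X 𝔠.X hpaths hpaths j hj.le _ hFcar x h2 P (Or.inl hP) P' (Or.inl hP')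
      hxP hxP').1
  -- labels
  have hlab : ∀ q ∈ Q, spImg (spZ (σ.asg p)) (spZ (σ.asg q)) ⊆ Zl (σ.ℱ : Set (SpLPol d)) :=
    fun q hq => hσ.lab_van (σ.asg p, σ.asg q) (hσ.R_mem (p, q) (hQ q hq))
  have hline : ∀ q ∈ Q, ∀ a : ℂ, Sum.elim p (a • (q - p)) ∈ Zl (σ.ℱ : Set (SpLPol d)) := by
    intro q hq a
    apply hlab q hq
    apply sp_lab_subset_img (hfacts p hpX).2.2.1 (hfacts q (hqX q hq)).2.2.1
    exact ⟨(p, q), rfl, a, rfl⟩
  -- cones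
  obtain ⟨𝒦, h𝒦, hcov, hdeg⟩ := scs_cone_decomp 𝔠.D p
  have hch : ∀ q ∈ Q, ∃ γ ∈ 𝒦, q - p ∈ γ := fun q hq => (hcov _).1 (hok.cov _ (hΓ q hq))
  choose! g hg using hch
  have hsum : Q.card = ∑ γ ∈ 𝒦, (Q.filter (fun q => g q = γ)).card :=
    Finset.card_eq_sum_card_fiberwise (fun q hq => (hg q hq).1)
  have hrow : ∀ γ ∈ 𝒦, ((Q.filter (fun q => g q = γ)).card : ℝ) ≤
      (vdeg γ : ℝ) * (prfT 𝔠.D.B 𝔠.s t₂ * 𝔠.D.B ^ θ + 4 * (dM 𝔠.D.P : ℝ)) := by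
    intro γ hγ
    obtain ⟨hγv, hγ2, hγc⟩ := h𝒦 γ hγ
    obtain ⟨Qγ, hQγ⟩ : ∃ Qγ, Qγ = Q.filter (fun q => g q = γ) := ⟨_, rfl⟩
    rw [← hQγ]
    have hQγQ : ∀ q ∈ Qγ, q ∈ Q ∧ q - p ∈ γ := by
      intro q hq
      rw [hQγ] at hq
      obtain ⟨h1, h2⟩ := Finset.mem_filter.1 hq
      exact ⟨h1, h2 ▸ (hg q h1).2⟩
    by_cases hcase : ∀ w ∈ γ, Sum.elim p w ∈ Zl (σ.ℱ : Set (SpLPol d))
    · -- (b), (c)
      rcases Qγ.eq_empty_or_nonempty with he | hne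
      · rw [he]
        simp only [Finset.card_empty, Nat.cast_zero]
        positivity
      by_cases hk : j + 2 ≤ d
      · obtain ⟨𝔠', h1, h2, h3, h4⟩ := sco_row proj (σ.F : Set (PrfPol d))
          (σ.ℱ : Set (SpLPol d)) j hk (σ.asg p) (hfacts p hpX).1 (hfacts p hpX).2.1
          (fun f hf => hσ.F_van f (Finset.mem_coe.1 hf) _ (hfacts p hpX).2.2.2) p
          (hfacts p hpX).2.2.1 γ hγv hγ2 hγc hcase Qγ hne σ.asg (by
            intro q hq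
            obtain ⟨hqQ, hqγ⟩ := hQγQ q hq
            obtain ⟨f1, f2, f3, f4⟩ := hfacts q (hqX q hqQ)
            exact ⟨f1, f2, f3, fun f hf => hσ.F_van f (Finset.mem_coe.1 hf) _ f4, hlab q hqQ,
              hσ.good _ (hQ q hqQ), hqγ⟩) (by
            intro q hq hpq
            obtain ⟨hqQ, hqγ⟩ := hQγQ q hq
            exact huniq p hpX (hσ.good _ (hQ q hqQ)).tan_p _ (hfacts q (hqX q hqQ)).2.2.2 _
              (hfacts p hpX).2.2.2 hpq (hfacts p hpX).2.2.1)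
        have h5 := sco_curve_count 𝔠.D.P 𝔠' h1 h2 Qγ
          (fun q hq => hptsD (hqX q (hQγQ q hq).1)) h3
        have h6 : Qγ.card ≤ 2 * dM 𝔠.D.P * (2 * vdeg γ) := h5.trans (Nat.mul_le_mul_left _ h4)
        have h7 : (Qγ.card : ℝ) ≤ 2 * (dM 𝔠.D.P : ℝ) * (2 * (vdeg γ : ℝ)) := by exact_mod_cast h6
        have h8 : 0 ≤ (vdeg γ : ℝ) * (prfT 𝔠.D.B 𝔠.s t₂ * 𝔠.D.B ^ θ) := by positivity
        nlinarith
      · exfalso
        have hj1 : j + 1 = d := by omega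
        obtain ⟨q, hq⟩ := hne
        obtain ⟨hqQ, hqγ⟩ := hQγQ q hq
        obtain ⟨f1, f2, f3, f4⟩ := hfacts q (hqX q hqQ)
        obtain ⟨e1, e2, e3, e4⟩ := hfacts p hpX
        have hdj : d - j = 1 := by omega
        have h1 := sco_row_one (σ.F : Set (PrfPol d)) (σ.ℱ : Set (SpLPol d)) j hj1 (σ.asg p)
          (σ.asg q) e1 f1 (hdj ▸ e2) (hdj ▸ f2)
          (fun f hf => hσ.F_van f (Finset.mem_coe.1 hf) _ f4) p q e3 f3 (hlab q hqQ)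
          (hσ.good _ (hQ q hqQ)) γ hγv hγ2 hγc hcase hqγ
        have hterm : SpTerm 𝔠.D p (σ.asg q) := by
          intro y hy _
          exact (hcov _).2 ⟨γ, hγ, h1 y hy⟩
        have hqY : q ∈ 𝔠.Y.pts := (Finset.mem_product.1 (hok.sub (hΓ q hqQ))).2
        obtain ⟨a, ha, hqa⟩ := Finset.mem_biUnion.1 hqY
        have h2 := hok.cho_mem a ha q hqa
        have h3 : 𝔠.cho q ∈ 𝔠.X.carriers j := by
          rw [hXY]
          have : d - 1 = j := by omega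
          rw [this] at h2
          exact ⟨a, ha, q, hqa, h2⟩
        have h4 : σ.asg q = 𝔠.cho q :=
          huniq q (hqX q hqQ) (hσ.good _ (hQ q hqQ)).tan_q _ f4 _ h3 f3 h2.2
        exact hok.term _ (hΓ q hqQ) (h4 ▸ hterm)
    · -- (a)
      push Not at hcase
      obtain ⟨w₀, hw₀, hw₀'⟩ := hcase
      have hex : ∃ H ∈ σ.ℱ, eval (Sum.elim p w₀) H ≠ 0 := by
        by_contra hcon
        push Not at hcon
        exact hw₀' (fun H hH => hcon H (Finset.mem_coe.1 hH))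
      obtain ⟨H, hH, hHw⟩ := hex
      have hne0 : ∀ q ∈ Qγ, q - p ≠ 0 := fun q hq =>
        sub_ne_zero.2 (hok.off _ (hΓ q (hQγQ q hq).1)).symm
      obtain ⟨W', hW'sub, hW'pw, hW'cov⟩ := sco_lines (Qγ.image (fun q => q - p)) (by
        intro w hw
        obtain ⟨q, hq, rfl⟩ := Finset.mem_image.1 hw
        exact hne0 q hq)
      have hW'q : ∀ w ∈ W', ∃ q ∈ Qγ, w = q - p := by
        intro w hw
        obtain ⟨q, hq, rfl⟩ := Finset.mem_image.1 (hW'sub hw)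
        exact ⟨q, hq, rfl⟩
      have hbez := sco_bez_row γ hγv hγ2 hγc H p ⟨w₀, hw₀, hHw⟩ W' (by
        intro w hw
        obtain ⟨q, hq, rfl⟩ := hW'q w hw
        exact ⟨(hQγQ q hq).2, hne0 q hq,
          fun a => hline q (hQγQ q hq).1 a H (Finset.mem_coe.2 hH)⟩) hW'pw
      have hcover : Qγ ⊆ W'.biUnion (fun w => Qγ.filter (fun q => ∃ a : ℂ, q - p = a • w)) := by
        intro q hq
        obtain ⟨w', hw', a, ha⟩ := hW'cov (q - p) (Finset.mem_image_of_mem _ hq)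
        exact Finset.mem_biUnion.2 ⟨w', hw', Finset.mem_filter.2 ⟨hq, a, ha⟩⟩
      have hlight : ∀ w ∈ W', ((Qγ.filter (fun q => ∃ a : ℂ, q - p = a • w)).card : ℝ)
          ≤ 𝔠.D.B ^ θ := by
        intro w hw
        obtain ⟨q', hq', rfl⟩ := hW'q w hw
        apply hok.light (p, q') (hΓ q' (hQγQ q' hq').1)
        · intro q hq
          exact hptsD (hqX q (hQγQ q (Finset.mem_filter.1 hq).1).1)
        · intro q hq
          exact (Finset.mem_filter.1 hq).2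
      have h1 : (Qγ.card : ℝ)
          ≤ ∑ w ∈ W', ((Qγ.filter (fun q => ∃ a : ℂ, q - p = a • w)).card : ℝ) := by
        exact_mod_cast (Finset.card_le_card hcover).trans Finset.card_biUnion_le
      have h2 : (W'.card : ℝ) ≤ (vdeg γ : ℝ) * prfT 𝔠.D.B 𝔠.s t₂ := by
        have h3 : (W'.card : ℝ) ≤ (vdeg γ : ℝ) * (H.totalDegree : ℝ) := by exact_mod_cast hbez
        refine h3.trans ?_
        have := hσ.lab_deg H hH
        gcongr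
      have h4 : 0 ≤ (vdeg γ : ℝ) * (4 * (dM 𝔠.D.P : ℝ)) := by positivity
      calc (Qγ.card : ℝ)
          ≤ ∑ w ∈ W', ((Qγ.filter (fun q => ∃ a : ℂ, q - p = a • w)).card : ℝ) := h1
        _ ≤ ∑ _w ∈ W', 𝔠.D.B ^ θ := Finset.sum_le_sum hlight
        _ = (W'.card : ℝ) * 𝔠.D.B ^ θ := by rw [Finset.sum_const, nsmul_eq_mul]
        _ ≤ ((vdeg γ : ℝ) * prfT 𝔠.D.B 𝔠.s t₂) * 𝔠.D.B ^ θ := by gcongr
        _ ≤ _ := by linarith
  have hdegE : ∑ γ ∈ 𝒦, (vdeg γ : ℝ) ≤ 𝔠.D.E := by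
    have h1 := hok.reg.deg (spRe p) hpP
    have h2 : ((∑ γ ∈ 𝒦, vdeg γ : ℕ) : ℝ)
        ≤ ((((𝔠.D.C (spRe p)).map PCurve.deg).sum : ℕ) : ℝ) := by exact_mod_cast hdeg
    rw [Nat.cast_sum] at h2
    exact h2.trans h1
  rw [hsum, Nat.cast_sum]
  calc ∑ γ ∈ 𝒦, ((Q.filter (fun q => g q = γ)).card : ℝ)
      ≤ ∑ γ ∈ 𝒦, (vdeg γ : ℝ) * (prfT 𝔠.D.B 𝔠.s t₂ * 𝔠.D.B ^ θ + 4 * (dM 𝔠.D.P : ℝ)) :=
        Finset.sum_le_sum hrow
    _ = (∑ γ ∈ 𝒦, (vdeg γ : ℝ)) * (prfT 𝔠.D.B 𝔠.s t₂ * 𝔠.D.B ^ θ + 4 * (dM 𝔠.D.P : ℝ)) := by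
        rw [Finset.sum_mul]
    _ ≤ 𝔠.D.E * (prfT 𝔠.D.B 𝔠.s t₂ * 𝔠.D.B ^ θ + 4 * (dM 𝔠.D.P : ℝ)) := by gcongr
    _ = _ := by ring

/-- **(SCO-FIN)**  `|σ.Γ| ≤ n · max row`.  `s = log B`: `T_s(t₂) = B^{1+t₂}`; `E = δ N / B²`, `M ≤ δ B²`, `n ≥ N √δ`:
`E B^{1+t₂+θ} / n ≤ √δ B^{-(1-t₂)+θ} ≤ e^{-(1-t₂) s/2}` for `θ ≤ (1-t₂)/2`, `≤ e^{-(1-t₂)/(2θ)}`; `4 M E / n ≤ 4 δ^{3/2} ≤ 4 θ^{3/2}`.  Both `< α'/2` for small `θ`: contradiction with `dense`.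
(`j = scoJ d b < d` because `b (d-1) = 1`.) -/
theorem sco_fin (hd : 3 ≤ d) (lim : SpLimStmt d) (proj : ScoProjStmt d) : ScoFinStmt d := by
  classical
  intro b hb hb1 α α' t₂ hα hα' ht₂
  obtain ⟨θ, hθd⟩ : ∃ θ : ℝ, θ = min 1 (min (1 - t₂) ((α' / 10) ^ 2)) := ⟨_, rfl⟩
  have ht₂' : 0 < 1 - t₂ := by linarith
  have hθ : 0 < θ := by rw [hθd]; positivity
  have hθ1 : θ ≤ 1 := hθd ▸ min_le_left _ _
  have hθ2 : θ ≤ 1 - t₂ := hθd ▸ (min_le_right _ _).trans (min_le_left _ _)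
  have hθ3 : θ ≤ (α' / 10) ^ 2 := hθd ▸ (min_le_right _ _).trans (min_le_right _ _)
  refine ⟨θ, hθ, ?_⟩
  intro 𝔠 hok hout σ hσ
  obtain ⟨hXY, hvs, hs, -, hn⟩ := hout
  have hj : scoJ d b < d := by
    unfold scoJ
    have h1 : ((Finset.range d).filter fun i => b i < 1) ⊆ (Finset.range d).erase (d - 1) := by
      intro i hi
      obtain ⟨h2, h3⟩ := Finset.mem_filter.1 hi
      refine Finset.mem_erase.2 ⟨?_, h2⟩
      rintro rfl
      rw [hb1] at h3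
      exact lt_irrefl _ h3
    have h2 := Finset.card_le_card h1
    rw [Finset.card_erase_of_mem (Finset.mem_range.2 (by omega)), Finset.card_range] at h2
    omega
  obtain ⟨N, hN⟩ : ∃ N : ℝ, N = 𝔠.D.N := ⟨_, rfl⟩
  obtain ⟨B, hB⟩ : ∃ B : ℝ, B = 𝔠.D.B := ⟨_, rfl⟩
  obtain ⟨δ, hδ⟩ : ∃ δ : ℝ, δ = 𝔠.D.δ := ⟨_, rfl⟩
  obtain ⟨n, hnd⟩ : ∃ n : ℝ, n = (𝔠.X.pts.card : ℝ) := ⟨_, rfl⟩
  obtain ⟨M, hM⟩ : ∃ M : ℝ, M = (dM 𝔠.D.P : ℝ) := ⟨_, rfl⟩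
  have hδ0 : 0 < δ := hδ ▸ hok.reg.pos
  have hδθ : δ ≤ θ := hδ ▸ hok.reg.le
  have hN1 : 1 ≤ N := hN ▸ hok.reg.one_le_N hθ1
  have hB1 : 1 ≤ B := hB ▸ hok.reg.one_le_B hθ1
  have hBpos : 0 < B := by linarith
  have hA : dA 𝔠.D.P = B ^ 2 := by
    rw [hB]
    unfold dA SpData.B SpData.N
    rw [← Real.rpow_natCast, ← Real.rpow_mul (Nat.cast_nonneg _)]
    congr 1
    push_cast
    ring
  have hT : prfT B 𝔠.s t₂ * B ^ θ ≤ B ^ 2 := by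
    rw [hs, ← hB]
    unfold prfT
    have e1 : Real.exp (t₂ * Real.log B) = B ^ t₂ := by
      rw [Real.rpow_def_of_pos hBpos, mul_comm]
    rw [e1]
    calc B * B ^ t₂ * B ^ θ = B ^ (1 + t₂ + θ) := by
          rw [Real.rpow_add hBpos, Real.rpow_add hBpos, Real.rpow_one]
      _ ≤ B ^ (2 : ℝ) := Real.rpow_le_rpow_of_exponent_le hB1 (by linarith)
      _ = B ^ 2 := by rw [← Real.rpow_natCast]; norm_num
  have hE : 𝔠.D.E = δ * N / B ^ 2 := by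
    unfold SpData.E
    rw [hA, hδ, hN]
  have hMle : M ≤ δ * B ^ 2 := by
    have := hok.reg.dist
    rw [hA, ← hδ, ← hM] at this
    exact this
  have hM0 : 0 ≤ M := hM ▸ Nat.cast_nonneg _
  have hrowle : 𝔠.D.E * prfT 𝔠.D.B 𝔠.s t₂ * 𝔠.D.B ^ θ + 4 * (dM 𝔠.D.P : ℝ) * 𝔠.D.E
      ≤ 5 * (δ * N) := by
    rw [hE, ← hB, ← hM]
    have hB2 : 0 < B ^ 2 := by positivity
    have h1 : δ * N / B ^ 2 * prfT B 𝔠.s t₂ * B ^ θ ≤ δ * N := by
      calc δ * N / B ^ 2 * prfT B 𝔠.s t₂ * B ^ θ = δ * N / B ^ 2 * (prfT B 𝔠.s t₂ * B ^ θ) := by ring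
        _ ≤ δ * N / B ^ 2 * B ^ 2 := by gcongr
        _ = δ * N := by field_simp
    have h2 : 4 * M * (δ * N / B ^ 2) ≤ 4 * (δ * N) := by
      calc 4 * M * (δ * N / B ^ 2) ≤ 4 * (δ * B ^ 2) * (δ * N / B ^ 2) := by gcongr
        _ = 4 * (δ * (δ * N)) := by field_simp
        _ ≤ 4 * (1 * (δ * N)) := by
            have : δ ≤ 1 := hδθ.trans hθ1
            gcongr
        _ = 4 * (δ * N) := by ring
    linarith
  have hcount : (σ.Γ.card : ℝ) ≤ n * (5 * (δ * N)) := by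
    have h1 : σ.Γ.card = ∑ p ∈ 𝔠.X.pts, (σ.Γ.filter (fun z => z.1 = p)).card :=
      Finset.card_eq_sum_card_fiberwise
        (fun z hz => (Finset.mem_product.1 (hok.sub (hσ.sub hz))).1)
    have h2 : ∀ p ∈ 𝔠.X.pts, ((σ.Γ.filter (fun z => z.1 = p)).card : ℝ) ≤ 5 * (δ * N) := by
      intro p _
      have h3 : (σ.Γ.filter (fun z => z.1 = p)).card
          = ((σ.Γ.filter (fun z => z.1 = p)).image Prod.snd).card := by
        rw [Finset.card_image_of_injOn]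
        intro z hz w hw hzw
        have hz1 := (Finset.mem_filter.1 (Finset.mem_coe.1 hz)).2
        have hw1 := (Finset.mem_filter.1 (Finset.mem_coe.1 hw)).2
        exact Prod.ext (hz1.trans hw1.symm) hzw
      rw [h3]
      refine le_trans ?_ hrowle
      apply sco_row_bound hd lim proj 𝔠 b α θ hθ hok hXY _ hj t₂ α' σ hσ p
      intro q hq
      obtain ⟨z, hz, rfl⟩ := Finset.mem_image.1 hq
      obtain ⟨hz1, hz2⟩ := Finset.mem_filter.1 hz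
      rw [← hz2]
      exact hz1
    rw [h1, Nat.cast_sum]
    calc ∑ p ∈ 𝔠.X.pts, ((σ.Γ.filter (fun z => z.1 = p)).card : ℝ)
        ≤ ∑ _p ∈ 𝔠.X.pts, 5 * (δ * N) := Finset.sum_le_sum h2
      _ = n * (5 * (δ * N)) := by rw [Finset.sum_const, nsmul_eq_mul, hnd]
  have hdense := hσ.dense
  rw [← hnd] at hdense
  rw [← hN, ← hδ, ← hnd] at hn
  have hsq0 : 0 < Real.sqrt δ := Real.sqrt_pos.2 hδ0
  have hn0 : 0 < n := lt_of_lt_of_le (by positivity) hn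
  have hsq : Real.sqrt δ * Real.sqrt δ = δ := Real.mul_self_sqrt hδ0.le
  have hsqle : Real.sqrt δ ≤ α' / 10 := by
    have h1 : Real.sqrt δ ≤ Real.sqrt ((α' / 10) ^ 2) := Real.sqrt_le_sqrt (hδθ.trans hθ3)
    rwa [Real.sqrt_sq (by positivity)] at h1
  have h1 : δ * N ≤ Real.sqrt δ * n := by
    calc δ * N = (Real.sqrt δ * Real.sqrt δ) * N := by rw [hsq]
      _ = Real.sqrt δ * (N * Real.sqrt δ) := by ring
      _ ≤ Real.sqrt δ * n := by gcongr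
  have h2 : α' * n ^ 2 ≤ α' / 2 * n ^ 2 := by
    calc α' * n ^ 2 ≤ n * (5 * (δ * N)) := hdense.trans hcount
      _ ≤ n * (5 * (Real.sqrt δ * n)) := by gcongr
      _ ≤ n * (5 * (α' / 10 * n)) := by gcongr
      _ = α' / 2 * n ^ 2 := by ring
  have h3 : 0 < n ^ 2 := by positivity
  nlinarith

end Claimed.Agent.R273
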