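-- KEEP
import Claimed.Agent.R273.PjTop
import Claimed.Agent.R273.ScoFin
import Claimed.Agent.R273.GeoDefs

/-!
# Row 273, S3b (helper299): the contracts of other units, PROVED from `PjTop.lean`.  Prefix `pj_`.

* `pj_scoProj d : ScoProjStmt d`   (helper37, ScoFin.lean; hypothesis `proj` of `sparse_main`);
* `pj_bad_unique`                  (helper191, TmComb.lean R2): at most one centre of a nonlinear irreducible curve is not half-good.
-/

set_option autoImplicit false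

namespace Claimed.Agent.R273

open MvPolynomial Module

variable {d : ℕ}

/-- **`ScoProjStmt`** (poly:projection (i) + poly:tangent-projection) -/
theorem pj_scoProj (d : ℕ) : ScoProjStmt d := by
  intro 𝔠 p h𝔠 h1 _ hray htan
  have hC : IsVar (spZ 𝔠) := ⟨𝔠, h𝔠, rfl⟩
  by_cases hp : p ∈ spZ 𝔠
  · obtain ⟨l, f, hl1, hl𝔠, hf, hord⟩ := htan hp
    have hfp : eval p f = 0 := (pj_mem_zeroLocus_iff 𝔠 p).mp hp f hf
    have hlp : eval p l = 0 := by
      have h2 := (ph_ord_one_iff p (l - f)).mp (ph_ord_mono (by norm_num) hord)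
      rw [map_sub, hfp, sub_zero] at h2
      exact h2
    have hlC : ∃ z ∈ spZ 𝔠, eval z l ≠ 0 := by
      by_contra hcon
      apply hl𝔠
      rw [pj_mem_prime_iff 𝔠 h𝔠]
      intro x hx
      exact by_contra fun hne => hcon ⟨x, hx, hne⟩
    have h := pj_dep_tangent (spZ 𝔠) hC h1 p l 1 (l - f) hl1 hlp hlC (by simp) hord
      (fun x hx => by
        have : (1 : PrfPol d) * l - (l - f) = f := by ring
        rw [this]
        exact (pj_mem_zeroLocus_iff 𝔠 x).mp hx f hf) 1 hray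
    simpa using h
  · have h := pj_dep_proj0 (spZ 𝔠) hC p hp 1 hray
    omega

/-- a set whose direction space has dimension `≥ 2` is not contained in a line -/
theorem pj_not_line_of_dirSpan (Y : Set (SpC d)) (h : 2 ≤ finrank ℂ (dirSpan Y)) :
    ¬ ∃ x₀ v : SpC d, ∀ x ∈ Y, ∃ c : ℂ, x = x₀ + c • v := by
  rintro ⟨x₀, v, hY⟩
  have hle : dirSpan Y ≤ Submodule.span ℂ {v} := by
    apply Submodule.span_le.mpr
    rintro w ⟨y, hy, y', hy', rfl⟩
    obtain ⟨c, rfl⟩ := hY y hy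
    obtain ⟨c', rfl⟩ := hY y' hy'
    rw [SetLike.mem_coe, Submodule.mem_span_singleton]
    exact ⟨c - c', by rw [sub_smul]; abel⟩
  have h1 := Submodule.finrank_mono hle
  have h2 : finrank ℂ (Submodule.span ℂ {v}) ≤ 1 := by
    simpa using finrank_span_le_card ({v} : Set (SpC d)) (R := ℂ)
  exact absurd (h.trans (h1.trans h2)) (by norm_num)

/-- **at most one centre of a nonlinear irreducible curve is not half-good** -/
theorem pj_bad_unique (Y : Set (SpC d)) (hY : IsVar Y) (h1 : vdim Y = 1)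
    (hnl : 2 ≤ finrank ℂ (dirSpan Y)) (p₁ p₂ : SpC d) (hne : p₁ ≠ p₂) :
    DepHalfGood p₁ Y ∨ DepHalfGood p₂ Y := by
  by_contra hcon
  rw [not_or] at hcon
  obtain ⟨hc₁, hc₂⟩ := hcon
  unfold DepHalfGood at hc₁ hc₂
  push Not at hc₁ hc₂
  obtain ⟨t₁, ht₁, hlt₁⟩ := hc₁
  obtain ⟨t₂, ht₂, hlt₂⟩ := hc₂
  have h := pj_dep_two Y hY h1 (pj_not_line_of_dirSpan Y hnl) p₁ p₂ hne t₁ t₂ ht₁ ht₂
  have e₁ : 2 * t₁ * vdeg (dcone p₁ Y) = 2 * (t₁ * vdeg (dcone p₁ Y)) := by ring
  have e₂ : 2 * t₂ * vdeg (dcone p₂ Y) = 2 * (t₂ * vdeg (dcone p₂ Y)) := by ring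
  omega

end Claimed.Agent.R273
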