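import Claimed.Agent.R273.PjMod

/-!
# Row 273, S3b (helper299), layer 3: THE MAIN INEQUALITY `b (deg μ - r) ≤ t e`.  Prefix `pj_`.

LEAF PJ-cone (`pj_eval_line`, `pj_K_isVar`, `pj_K_vdim_le`, `pj_sub_K`, `pj_K_smul`, `pj_K_hom`).
   `pj_eval_line`: `f = C c + ∑ C a_i X_i` for `deg f ≤ 1`; simplest: both sides are additive in `f`; by `MvPolynomial.induction_on'`-free argument: write `f = ∑_{m ∈ support} monomial m (coeff m f)`, every `m` has degree `≤ 1`, i.e. `m = 0` or `m = single i 1` (`Finsupp.degree`, `le_totalDegree`).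
   `pjCone o X = pmap ψ '' prodSet X univ`, `ψ i := X (inr 0) * (X (inl i) - C (o i))` on `ι ⊕ Fin 1`: `ph_prod_isVar`, `ph_univ`, `ph_isVar_zcl_image`, `ph_vdim_zcl_image_le`, `ph_prod_vdim`.
   `pj_K_smul`: for `F` vanishing on `pjCone o X`, `F(c ·)` (`aeval (fun i => C c * X i) F`) vanishes on `pjCone o X`, hence on `pjK o X`.   `pj_K_hom`: for `w` in the cone, `λ ↦ F(λ w) = ∑_j λ^j F_j(w)` has infinitely many zeros; then pass to the closure.
LEAF PJ-fib (`pj_isoZero_of_finite`, `pj_fibre_le`).  `pj_isoZero_of_finite`: `ph_isoZero_of_geom` with `u := ∏_{y ∈ zeros, y ≠ z} (X i_y - C (y i_y))`, `y i_y ≠ z i_y`.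
   `pj_fibre_le`: `W := zcl (ψ '' V)`.  If `vdim W < card κ`: `Ψ` from `pj_exists_vanish`, the fibre over `u` is empty.  Otherwise `vdim W = card κ = vdim V` (`ph_vdim_le`, `ph_vdim_zcl_image_le`); `ph_gen_fib` gives `h'`; `h' ≠ 0`; `u ∈ W` for all `u`: `W = univ`
   (else a nonzero polynomial vanishes on `W`, `ph_vdim_lt_of_ssubset` in `univ`).  Fibre finite; `V = zeroLocus ℂ p = Zl p`; `ph_bezout_iso` with `G₀ = p`, `G = range (ψ j - C (u j))`, `L = 1`.
GLUE `pj_main` (PROVED below).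
-/

set_option autoImplicit false

namespace Claimed.Agent.R273

open MvPolynomial Module

variable {ι κ : Type*}

/-! ### PJ-cone -/

theorem pj_eval_line (f : MvPolynomial ι ℂ) (hf : f.totalDegree ≤ 1) (x v : ι → ℂ) (c : ℂ) :
    eval (x + c • v) f = eval x f + c * eval v (pjL f) := by
  have key : ∀ m ∈ f.support, eval (x + c • v) (monomial m (coeff m f))
      = eval x (monomial m (coeff m f))
        + c * (eval v (monomial m (coeff m f)) - eval 0 (monomial m (coeff m f))) := by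
    intro m hm
    have hdeg : (m.sum fun _ e => e) ≤ 1 := (le_totalDegree hm).trans hf
    rcases Nat.le_one_iff_eq_zero_or_eq_one.1 hdeg with h0 | h1
    · have hm0 : m = 0 := by
        ext i
        by_contra hne
        have hi : i ∈ m.support := Finsupp.mem_support_iff.2 hne
        have := Finset.single_le_sum (f := fun j => m j) (fun j _ => Nat.zero_le _) hi
        rw [Finsupp.sum] at h0
        simp only [Finsupp.coe_zero, Pi.zero_apply] at hne
        omega
      subst hm0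
      simp
    · obtain ⟨i, rfl⟩ := (Finsupp.sum_eq_one_iff m).1 h1
      simp only [eval_monomial, Finsupp.prod_single_index, pow_zero, pow_one, Pi.add_apply,
        Pi.smul_apply, smul_eq_mul, Pi.zero_apply]
      ring
  have h : ∀ y : ι → ℂ, eval y f = ∑ m ∈ f.support, eval y (monomial m (coeff m f)) := fun y => by
    conv_lhs => rw [f.as_sum]
    rw [map_sum]
  rw [pjL, map_sub, eval_C, h (x + c • v), h x, h v, h 0, ← Finset.sum_sub_distrib, Finset.mul_sum,
    ← Finset.sum_add_distrib]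
  exact Finset.sum_congr rfl key

theorem pj_totalDegree_pjL (f : MvPolynomial ι ℂ) (hf : f.totalDegree ≤ 1) :
    (pjL f).totalDegree ≤ 1 :=
  (totalDegree_sub_C_le f _).trans hf

theorem pj_exists_eval_ne_zero (g : MvPolynomial κ ℂ) (hg : g ≠ 0) : ∃ x, eval x g ≠ 0 := by
  by_contra hcon
  apply hg
  apply MvPolynomial.funext
  intro x
  rw [map_zero]
  exact by_contra fun hx => hcon ⟨x, hx⟩

theorem pj_eval_pjL_smul (f : MvPolynomial ι ℂ) (hf : f.totalDegree ≤ 1) (v : ι → ℂ) (c : ℂ) :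
    eval (c • v) (pjL f) = c * eval v (pjL f) := by
  have h := pj_eval_line f hf 0 v c
  rw [zero_add] at h
  rw [pjL, map_sub, eval_C, h, ← pjL]
  ring

theorem pj_eval_pjL_sub (f : MvPolynomial ι ℂ) (hf : f.totalDegree ≤ 1) (x o : ι → ℂ) :
    eval (x - o) (pjL f) = eval x f - eval o f := by
  have h := pj_eval_line f hf o (x - o) 1
  rw [one_smul, add_sub_cancel, one_mul] at h
  rw [h]; ring

theorem pj_homog_eval_smul {F : MvPolynomial ι ℂ} {a : ℕ} (hF : F.IsHomogeneous a) (s : ℂ)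
    (x : ι → ℂ) : eval (s • x) F = s ^ a * eval x F := by
  rw [eval_eq, eval_eq, Finset.mul_sum]
  refine Finset.sum_congr rfl fun d hd => ?_
  have hdeg : d.degree = a := by
    by_contra hne
    exact (mem_support_iff.mp hd) (hF.coeff_eq_zero hne)
  have : ∏ i ∈ d.support, (s • x) i ^ d i = s ^ a * ∏ i ∈ d.support, x i ^ d i := by
    simp only [Pi.smul_apply, smul_eq_mul, mul_pow]
    rw [Finset.prod_mul_distrib, Finset.prod_pow_eq_pow_sum, ← hdeg]
    rfl
  rw [this]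
  ring

variable [Fintype ι] [Fintype κ]

/-- the parametrisation of the cone -/
noncomputable def pjPar (o : ι → ℂ) : ι → MvPolynomial (ι ⊕ Fin 1) ℂ :=
  fun i => X (Sum.inr 0) * (X (Sum.inl i) - C (o i))

omit [Fintype ι] in
theorem pj_cone_eq (o : ι → ℂ) (X : Set (ι → ℂ)) :
    pjCone o X = pmap (pjPar o) '' prodSet X (Set.univ : Set (Fin 1 → ℂ)) := by
  ext w
  constructor
  · rintro ⟨y, hy, lam, rfl⟩
    refine ⟨Sum.elim y (fun _ => lam), ⟨hy, Set.mem_univ _⟩, ?_⟩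
    funext i
    simp [pmap, pjPar]
  · rintro ⟨z, ⟨hz, -⟩, rfl⟩
    refine ⟨_, hz, z (Sum.inr 0), ?_⟩
    funext i
    simp [pmap, pjPar]

theorem pj_K_isVar (o : ι → ℂ) {X : Set (ι → ℂ)} (hX : IsVar X) : IsVar (pjK o X) := by
  unfold pjK
  rw [pj_cone_eq]
  exact ph_isVar_zcl_image (ph_prod_isVar hX ph_univ.1) _

theorem pj_K_vdim_le (o : ι → ℂ) {X : Set (ι → ℂ)} (hX : IsVar X) :
    vdim (pjK o X) ≤ vdim X + 1 := by
  unfold pjK
  rw [pj_cone_eq]
  refine (ph_vdim_zcl_image_le (ph_prod_isVar hX ph_univ.1) _).trans ?_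
  rw [ph_prod_vdim hX ph_univ.1, ph_univ.2.1, Fintype.card_fin]

theorem pj_sub_K (o : ι → ℂ) (X : Set (ι → ℂ)) {y : ι → ℂ} (hy : y ∈ X) (c : ℂ) :
    c • (y - o) ∈ pjK o X :=
  ph_subset_zcl _ ⟨y, hy, c, rfl⟩

theorem pj_K_smul (o : ι → ℂ) (X : Set (ι → ℂ)) {w : ι → ℂ} (hw : w ∈ pjK o X) (c : ℂ) :
    c • w ∈ pjK o X := by
  unfold pjK at hw ⊢
  rw [ph_mem_zcl] at hw ⊢
  intro F hF
  have e : ∀ y : ι → ℂ, eval y (aeval (fun i => C c * MvPolynomial.X i : ι → MvPolynomial ι ℂ) F)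
      = eval (c • y) F := by
    intro y
    rw [pj_eval_aeval]
    congr 2
    funext i
    simp [pmap]
  rw [← e]
  apply hw
  rintro _ ⟨y, hy, lam, rfl⟩
  rw [e]
  exact hF _ ⟨y, hy, c * lam, by rw [smul_smul]⟩

/-- the ideal of a cone is homogeneous -/
theorem pj_K_hom (o : ι → ℂ) (X : Set (ι → ℂ)) (F : MvPolynomial ι ℂ)
    (hF : ∀ w ∈ pjK o X, eval w F = 0) (j : ℕ) :
    ∀ w ∈ pjK o X, eval w (homogeneousComponent j F) = 0 := by
  intro w hw
  by_cases hj : F.totalDegree < j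
  · rw [homogeneousComponent_eq_zero j F hj, map_zero]
  set P : Polynomial ℂ := ∑ i ∈ Finset.range (F.totalDegree + 1),
    Polynomial.C (eval w (homogeneousComponent i F)) * Polynomial.X ^ i with hP
  have hP0 : P = 0 := by
    apply Polynomial.funext
    intro lam
    rw [Polynomial.eval_zero, hP, Polynomial.eval_finsetSum]
    have h1 := hF _ (pj_K_smul o X hw lam)
    conv_lhs at h1 => rw [← sum_homogeneousComponent F]
    rw [map_sum] at h1
    rw [← h1]
    refine Finset.sum_congr rfl fun i _ => ?_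
    rw [pj_homog_eval_smul (homogeneousComponent_isHomogeneous i F), Polynomial.eval_mul,
      Polynomial.eval_C, Polynomial.eval_pow, Polynomial.eval_X, mul_comm]
  have hc : P.coeff j = eval w (homogeneousComponent j F) := by
    rw [hP, Polynomial.finsetSum_coeff]
    simp only [Polynomial.coeff_C_mul, Polynomial.coeff_X_pow]
    rw [Finset.sum_eq_single j]
    · simp
    · intro i _ hij
      rw [if_neg (Ne.symm hij), mul_zero]
    · intro h
      exact absurd (Finset.mem_range.2 (by omega)) h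
  rw [← hc, hP0, Polynomial.coeff_zero]

/-! ### PJ-fib -/

/-- a zero of a system with finitely many zeros is isolated -/
theorem pj_isoZero_of_finite (G : Set (MvPolynomial ι ℂ)) (hfin : (Zl G).Finite) (z : ι → ℂ)
    (hz : z ∈ Zl G) : IsoZero G z := by
  classical
  have hidx : ∀ y : ι → ℂ, y ≠ z → ∃ i, y i ≠ z i := fun y hy => by
    by_contra h
    push Not at h
    exact hy (funext h)
  rcases isEmpty_or_nonempty ι with hι | hι
  · exact ph_isoZero_of_geom G z hz 1 (by simp) fun y _ hyz => absurd (Subsingleton.elim y z) hyz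
  choose! idx hidx using hidx
  refine ph_isoZero_of_geom G z hz
    (∏ y ∈ hfin.toFinset.erase z, (X (idx y) - C (y (idx y)))) ?_ ?_
  · rw [map_prod, Finset.prod_ne_zero_iff]
    intro y hy
    rw [map_sub, eval_X, eval_C, sub_ne_zero]
    exact (hidx y (Finset.ne_of_mem_erase hy)).symm
  · intro y hy hyz
    rw [map_prod]
    refine Finset.prod_eq_zero (Finset.mem_erase.2 ⟨hyz, hfin.mem_toFinset.2 hy⟩) ?_
    rw [map_sub, eval_X, eval_C, sub_self]

/-- the general fibre of a map of degree `≤ 1` from `V` to a space of dimension `≥ dim V` is finite, with at most `vdeg V` points -/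
theorem pj_fibre_le {V : Set (ι → ℂ)} (hV : IsVar V) (ψ : κ → MvPolynomial ι ℂ)
    (hψ : ∀ j, (ψ j).totalDegree ≤ 1) (hκ : vdim V ≤ Fintype.card κ) :
    ∃ Ψ : MvPolynomial κ ℂ, Ψ ≠ 0 ∧ ∀ u, eval u Ψ ≠ 0 →
      {v ∈ V | pmap ψ v = u}.Finite ∧ {v ∈ V | pmap ψ v = u}.ncard ≤ vdeg V := by
  classical
  set W := zcl (pmap ψ '' V) with hW
  have hWvar : IsVar W := ph_isVar_zcl_image hV ψ
  have hcount : ∀ u, {v ∈ V | pmap ψ v = u}.Finite → {v ∈ V | pmap ψ v = u}.ncard ≤ vdeg V := by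
    intro u hfin
    obtain ⟨p, hp, hVp⟩ := id hV
    have hG₀ : Zl (p : Set (MvPolynomial ι ℂ)) = V := by
      rw [hVp]
      ext x
      rw [ph_mem_zeroLocus]
      rfl
    have hZ : Zl ((p : Set (MvPolynomial ι ℂ)) ∪ Set.range fun j => ψ j - C (u j))
        = {v ∈ V | pmap ψ v = u} := by
      ext x
      constructor
      · intro hx
        refine ⟨?_, funext fun j => ?_⟩
        · rw [← hG₀]
          exact fun g hg => hx g (Or.inl hg)
        · have h := hx _ (Or.inr ⟨j, rfl⟩)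
          rw [map_sub, eval_C] at h
          exact sub_eq_zero.1 h
      · rintro ⟨hxV, hxu⟩ g (hg | ⟨j, rfl⟩)
        · rw [← hG₀] at hxV
          exact hxV g hg
        · rw [map_sub, eval_C, ← hxu]
          exact sub_self _
    have h := ph_bezout_iso hV _ hG₀ (Set.range fun j => ψ j - C (u j)) 1 le_rfl
      (by
        rintro _ ⟨j, rfl⟩
        exact (totalDegree_sub_C_le _ _).trans (hψ j)) hfin.toFinset
      (fun z hz => pj_isoZero_of_finite _ (hZ ▸ hfin) z (hZ ▸ (hfin.mem_toFinset.1 hz)))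
    rw [one_pow, mul_one] at h
    rwa [Set.ncard_eq_toFinset_card _ hfin]
  by_cases hdim : vdim W < Fintype.card κ
  · obtain ⟨Ψ, hΨ, hvan⟩ := pj_exists_vanish W hdim
    refine ⟨Ψ, hΨ, fun u hu => ?_⟩
    have hemp : {v ∈ V | pmap ψ v = u} = ∅ := by
      rw [Set.eq_empty_iff_forall_notMem]
      rintro v ⟨hv, rfl⟩
      exact hu (hvan _ (ph_subset_zcl _ ⟨v, hv, rfl⟩))
    rw [hemp]
    simp
  · have h1 : vdim W = Fintype.card κ := le_antisymm (ph_vdim_le W) (not_lt.1 hdim)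
    have h2 : vdim W ≤ vdim V := ph_vdim_zcl_image_le hV ψ
    have h3 : vdim W = vdim V := by omega
    obtain ⟨t, h', _, ⟨w₁, _, hw₁⟩, hfib⟩ := ph_gen_fib hV ψ h3
    have hWuniv : ∀ u, u ∈ W := by
      intro u
      by_contra hu
      rw [hW, ph_mem_zcl] at hu
      push Not at hu
      obtain ⟨g, hg, hgu⟩ := hu
      have hgW : ∀ x ∈ W, eval x g = 0 := fun x hx => (ph_mem_zcl _ x).1 hx g hg
      have := ph_vdim_lt_of_ssubset ph_univ.1 (Set.subset_univ W) g hgW ⟨u, Set.mem_univ _, hgu⟩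
        (ph_isVar_nonempty W hWvar)
      rw [ph_univ.2.1] at this
      omega
    refine ⟨h', fun h0 => hw₁ (by rw [h0, map_zero]), fun u hu => ?_⟩
    have hf := (hfib u (hWuniv u) hu).1
    exact ⟨hf, hcount u hf⟩

/-! ### the main inequality -/

/-- **MAIN INEQUALITY.** -/
theorem pj_main {X : Set (ι → ℂ)} (hX : IsVar X) {ρ : κ → MvPolynomial ι ℂ}
    {μ : MvPolynomial κ ℂ} {b : ℕ} (hκ : vdim X + 1 = Fintype.card κ) (hM : PjModel X ρ μ b)
    (o : ι → ℂ) (r : ℕ) (hr : ¬ OrdGE (pmap ρ o) (r + 1) μ) (t : ℕ) (ht : PjRayLE o X t) :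
    b * (μ.totalDegree - r) ≤ t * vdeg (pjK o X) := by
  classical
  obtain ⟨h, hh, hray⟩ := ht
  obtain ⟨h', ⟨w₁, hw₁, hw₁'⟩, hcnt⟩ := hM.cnt
  set w₀ := pmap ρ o with hw₀
  obtain ⟨Ψ₁, hΨ₁, H₁⟩ := pj_line_roots μ hM.irr w₀ r hr
  obtain ⟨Ψ₂, hΨ₂, H₂⟩ := pj_avoid (pj_zset_isVar μ hM.irr) (MvPolynomial.X : κ → MvPolynomial κ ℂ)
    (pj_zset_vdim_lt μ hM.irr) w₀ h' ⟨w₁, hw₁, hw₁'⟩
  obtain ⟨Ψ₃, hΨ₃, H₃⟩ := pj_avoid hX ρ (by omega) w₀ h hh
  obtain ⟨Ψ₄, hΨ₄, H₄⟩ := pj_fibre_le (pj_K_isVar o hX) (fun j => pjL (ρ j))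
    (fun j => pj_totalDegree_pjL _ (hM.lin j)) ((pj_K_vdim_le o hX).trans hκ.le)
  obtain ⟨i₀⟩ : Nonempty κ := Fintype.card_pos_iff.mp (by omega)
  obtain ⟨u, hu⟩ := pj_exists_eval_ne_zero (Ψ₁ * Ψ₂ * Ψ₃ * Ψ₄ * MvPolynomial.X i₀)
    (mul_ne_zero (mul_ne_zero (mul_ne_zero (mul_ne_zero hΨ₁ hΨ₂) hΨ₃) hΨ₄) (X_ne_zero i₀))
  simp only [map_mul, eval_X, mul_ne_zero_iff] at hu
  obtain ⟨⟨⟨⟨hu₁, hu₂⟩, hu₃⟩, hu₄⟩, hu₀⟩ := hu
  obtain ⟨hΛfin, hΛ⟩ := H₁ u hu₁
  obtain ⟨hFfin, hF⟩ := H₄ u hu₄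
  set Λ := {a : ℂ | a ≠ 0 ∧ eval (w₀ + a • u) μ = 0} with hΛdef
  set F := {v ∈ pjK o X | pmap (fun j => pjL (ρ j)) v = u} with hFdef
  set E := {x ∈ X | ∃ a : ℂ, a ≠ 0 ∧ pmap ρ x = w₀ + a • u} with hEdef
  -- the fibres over the points of the line
  have hfib : ∀ a ∈ Λ, {x ∈ X | pmap ρ x = w₀ + a • u}.Finite ∧
      b ≤ {x ∈ X | pmap ρ x = w₀ + a • u}.ncard := by
    intro a ha
    apply hcnt _ ha.2
    apply H₂ u hu₂ (w₀ + a • u) ha.2 a ha.1
    funext i
    simp [pmap]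
  have hEfin : E.Finite := by
    apply (hΛfin.biUnion fun a ha => (hfib a ha).1).subset
    rintro x ⟨hx, a, ha, hxa⟩
    simp only [Set.mem_iUnion]
    refine ⟨a, ⟨ha, ?_⟩, hx, hxa⟩
    rw [← hxa]; exact hM.img x hx
  -- the parameter of a point
  set α : (ι → ℂ) → ℂ := fun x => (pmap ρ x i₀ - w₀ i₀) / u i₀ with hα
  have hαeq : ∀ x a, pmap ρ x = w₀ + a • u → α x = a := by
    intro x a hxa
    simp only [hα, hxa, Pi.add_apply, Pi.smul_apply, smul_eq_mul, add_sub_cancel_left]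
    field_simp
  -- lower bound
  have hlow : b * hΛfin.toFinset.card ≤ hEfin.toFinset.card := by
    apply Finset.mul_card_image_le_card_of_maps_to (f := α)
    · intro x hx
      rw [Set.Finite.mem_toFinset] at hx ⊢
      obtain ⟨hxX, a, ha, hxa⟩ := hx
      rw [hαeq x a hxa]
      exact ⟨ha, by rw [← hxa]; exact hM.img x hxX⟩
    · intro a ha
      rw [Set.Finite.mem_toFinset] at ha
      have h1 : ((hEfin.toFinset.filter fun x => α x = a : Finset (ι → ℂ)) : Set (ι → ℂ))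
          = {x ∈ X | pmap ρ x = w₀ + a • u} := by
        ext x
        simp only [Finset.coe_filter, Set.Finite.mem_toFinset, Set.mem_ofPred_eq]
        constructor
        · rintro ⟨⟨hxX, a', _, hxa'⟩, hxa⟩
          rw [hαeq x a' hxa'] at hxa
          exact ⟨hxX, by rw [hxa', hxa]⟩
        · rintro ⟨hxX, hxa⟩
          exact ⟨⟨hxX, a, ha.1, hxa⟩, hαeq x a hxa⟩
      rw [← Set.ncard_coe_finset, h1]
      exact (hfib a ha).2
  -- upper bound
  set φ : (ι → ℂ) → (ι → ℂ) := fun x => (α x)⁻¹ • (x - o) with hφ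
  have hup : hEfin.toFinset.card ≤ t * hFfin.toFinset.card := by
    apply Finset.card_le_mul_card_image_of_maps_to (f := φ)
    · intro x hx
      rw [Set.Finite.mem_toFinset] at hx ⊢
      obtain ⟨hxX, a, ha, hxa⟩ := hx
      refine ⟨pj_sub_K o X hxX _, ?_⟩
      funext j
      simp only [pmap, hφ]
      rw [pj_eval_pjL_smul _ (hM.lin j), pj_eval_pjL_sub _ (hM.lin j), hαeq x a hxa]
      have := congrFun hxa j
      simp only [pmap, hw₀, Pi.add_apply, Pi.smul_apply, smul_eq_mul] at this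
      rw [this]
      field_simp
      ring
    · intro v _
      rcases (hEfin.toFinset.filter fun x => φ x = v).eq_empty_or_nonempty with he | ⟨x₁, hx₁⟩
      · rw [he]; simp
      · rw [Finset.mem_filter, Set.Finite.mem_toFinset] at hx₁
        obtain ⟨⟨hx₁X, a₁, ha₁, hxa₁⟩, hφ₁⟩ := hx₁
        have hh₁ : eval x₁ h ≠ 0 := H₃ u hu₃ x₁ hx₁X a₁ ha₁ hxa₁
        obtain ⟨hfin₁, hcard₁⟩ := hray x₁ hx₁X hh₁
        rw [← Set.ncard_coe_finset]
        refine (Set.ncard_le_ncard ?_ hfin₁).trans hcard₁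
        intro x hx
        simp only [Finset.coe_filter, Set.Finite.mem_toFinset, Set.mem_ofPred_eq] at hx
        obtain ⟨⟨hxX, a, ha, hxa⟩, hφx⟩ := hx
        have e1 : x - o = a • v := by
          rw [← hφx, hφ]
          simp only [hαeq x a hxa]
          rw [smul_smul, mul_inv_cancel₀ ha, one_smul]
        have e2 : x₁ - o = a₁ • v := by
          rw [← hφ₁, hφ]
          simp only [hαeq x₁ a₁ hxa₁]
          rw [smul_smul, mul_inv_cancel₀ ha₁, one_smul]
        refine ⟨hxX, ?_, a * a₁⁻¹, ?_⟩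
        · rintro rfl
          have := congrFun hxa i₀
          simp only [← hw₀, Pi.add_apply, Pi.smul_apply, smul_eq_mul, left_eq_add,
            mul_eq_zero] at this
          rcases this with h0 | h0
          · exact ha h0
          · exact hu₀ h0
        · rw [e1, e2, smul_smul, mul_assoc, inv_mul_cancel₀ ha₁, mul_one]
  have hΛ' : μ.totalDegree - r ≤ hΛfin.toFinset.card := by
    rwa [← Set.ncard_eq_toFinset_card _ hΛfin]
  have hF' : hFfin.toFinset.card ≤ vdeg (pjK o X) := by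
    rwa [← Set.ncard_eq_toFinset_card _ hFfin]
  calc b * (μ.totalDegree - r) ≤ b * hΛfin.toFinset.card := Nat.mul_le_mul_left _ hΛ'
    _ ≤ hEfin.toFinset.card := hlow
    _ ≤ t * hFfin.toFinset.card := hup
    _ ≤ t * vdeg (pjK o X) := Nat.mul_le_mul_left _ hF'

end Claimed.Agent.R273
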