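import Claimed.Agent.R273.PjLine

/-!
# Row 273, S3b (helper299), layer 2: EXISTENCE OF HYPERSURFACE MODELS.  Prefix `pj_`.

`p` prime, `X = zeroLocus ℂ p`, `k = dim X`, `ρ : Fin (k+1) → ℂ[x]` of degree `≤ 1` such that `t := (ρ 1, .., ρ k)` is a Noether position of `p`; `ρ 0 =: e` is ANY polynomial of degree `≤ 1`.  NO birationality is needed (`b` = number of points of the general fibre of `ρ : X → Z(μ)`).

LEAF PJ-mod-a (`pj_model_img`).  `W := zcl (ρ '' X)`.  (closed) `ℂ[x]/p` is integral over `ℂ[t]` (`ph_filtfin_integral`), a fortiori over `ℂ[ρ]` (`aeval t = (aeval ρ) ∘ rename Fin.succ`; `RingHom.IsIntegral.tower_top`), so `ρ '' X = zeroLocus (comap)` (`ph_finite_surj`) `= W` (`ph_zcl_image`).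
   (dim) `≤ k`: `ph_vdim_zcl_image_le`, `ph_vdim_of_npos`.  `≥ k`: `pr := pmap (fun i : Fin k => X i.succ)`, `pr '' (ρ '' X) = t '' X = univ` (`ph_fibre_nonempty`), so `k = vdim univ` (`ph_univ`, `Fintype.card_fin`) `≤ vdim (ρ '' X)` (`pj_vdim_image_le`) `≤ vdim W` (`ph_vdim_mono`, `ph_subset_zcl`).
LEAF PJ-mod-b (`pj_model_deg`).  `a₀` from `ph_gen_points p hp t ht`.  `B := zset μ ∩ zset h'`; `g₁ ≠ 0` in `ℂ[T_1..T_k]` vanishing on `pr '' B` (if `B ≠ ∅`: `vdim B < vdim (zset μ) ≤ k`, `ph_vdim_lt_of_ssubset`, `pj_zset_isVar`, `pj_zset_vdim_lt`, `pj_vdim_image_le`, `pj_exists_vanish`).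
   `μ(ε₀, c₀) ≠ 0` for some point (`μ ≠ 0`, `MvPolynomial.funext`); `g₂ := aeval (Fin.cons (C ε₀) X) μ ≠ 0`.  Choose `c` with `(a₀ g₁ g₂)(c) ≠ 0`.  `Q := aeval (Fin.cons Polynomial.X (fun i => Polynomial.C (c i))) μ ∈ ℂ[E]`, `Q ≠ 0` (`Q(ε₀) = g₂(c)`), `natDegree Q ≤ μ.totalDegree`.
   `{x ∈ X | t x = c} = ⋃_{ε ∈ Q.roots.toFinset} {x ∈ X | ρ x = Fin.cons ε c}` (by `himg`), each member has `≤ b` points (`(ε, c) ∉ B` since `g₁(c) ≠ 0`): `vdeg X ≤ card roots * b` (`Set.ncard` of a finite union: `Finset.set_ncard_biUnion_le`).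
GLUE `pj_model_exists` (proved below).
LEAF PJ-mod-c (`pj_exists_sep`, `pj_model_sep`).  `pj_exists_sep`: a linear form separating a point from finitely many others: the forms `e_a = ∑ a_i X_i` with `e_a(z) = e_a(xs)` form a proper subspace `{a | a ⬝ (z - xs) = 0}` of `ι → ℂ`; a vector space over an infinite field is not a finite union of proper subspaces
   (`Subspace.biUnion_ne_univ_of_top_notMem`), or: take `a_i = c^i`-type Vandermonde; or induction on `F` with `e + c e'`.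
   `pj_model_sep`: `X = zeroLocus ℂ p`; `(k, t)` from `ph_exists_npos`, `k = vdim X` (`ph_vdim_of_npos`); `F := {x ∈ X | t x = t xs}` finite (`ph_fibre_finite`), `xs ∉ F`; `e` from `pj_exists_sep`; `ρ := Fin.cons e t`; `pj_model_exists`; if `μ(ρ xs) = 0` then `ρ xs = ρ x`, `x ∈ X`, so `x ∈ F`, `e x = e xs`.
-/

set_option autoImplicit false

namespace Claimed.Agent.R273

open MvPolynomial Module

variable {ι : Type*} [Fintype ι]

/-! ### PJ-mod-a -/

theorem pj_model_img {k : ℕ} (p : Ideal (MvPolynomial ι ℂ)) (hp : p.IsPrime)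
    (ρ : Fin (k + 1) → MvPolynomial ι ℂ) (ht : NPos p (fun i => ρ i.succ)) :
    vdim (zcl (pmap ρ '' zeroLocus ℂ p)) = k ∧
      zcl (pmap ρ '' zeroLocus ℂ p) = pmap ρ '' zeroLocus ℂ p := by
  have hX : IsVar (zeroLocus ℂ p) := ⟨p, hp, rfl⟩
  -- closedness
  have hint0 := ph_filtfin_integral p (fun i => ρ i.succ) ht.fin
  have hcomp : ((Ideal.Quotient.mk p).comp
      (aeval (fun i : Fin k => ρ i.succ) : MvPolynomial (Fin k) ℂ →ₐ[ℂ] MvPolynomial ι ℂ).toRingHom)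
      = ((Ideal.Quotient.mk p).comp
        (aeval ρ : MvPolynomial (Fin (k + 1)) ℂ →ₐ[ℂ] MvPolynomial ι ℂ).toRingHom).comp
          (rename Fin.succ : MvPolynomial (Fin k) ℂ →ₐ[ℂ] MvPolynomial (Fin (k + 1)) ℂ).toRingHom := by
    apply MvPolynomial.ringHom_ext
    · intro c; simp
    · intro i; simp
  rw [hcomp] at hint0
  have hint := RingHom.IsIntegral.tower_top _ _ hint0
  have hcl : zcl (pmap ρ '' zeroLocus ℂ p) = pmap ρ '' zeroLocus ℂ p :=
    (ph_zcl_image p hp ρ).trans (ph_finite_surj p hp ρ hint).symm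
  refine ⟨le_antisymm ?_ ?_, hcl⟩
  · have h1 := ph_vdim_zcl_image_le hX ρ
    rwa [ph_vdim_of_npos p hp _ ht] at h1
  · rw [hcl]
    have h1 := pj_vdim_image_le (pmap ρ '' zeroLocus ℂ p)
      (fun i : Fin k => (X i.succ : MvPolynomial (Fin (k + 1)) ℂ))
    have h2 : pmap (fun i : Fin k => (X i.succ : MvPolynomial (Fin (k + 1)) ℂ)) ''
        (pmap ρ '' zeroLocus ℂ p) = Set.univ := by
      rw [Set.eq_univ_iff_forall]
      intro c
      obtain ⟨x, hx, hxc⟩ := ph_fibre_nonempty p hp _ ht c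
      refine ⟨pmap ρ x, ⟨x, hx, rfl⟩, ?_⟩
      funext i
      simp only [pmap, eval_X]
      exact hxc i
    rw [h2, (ph_univ (ι := Fin k)).2.1, Fintype.card_fin] at h1
    exact h1

/-! ### PJ-mod-b -/

omit [Fintype ι] in
/-- a nonzero polynomial does not vanish identically -/
theorem pj_exists_eval_ne (f : MvPolynomial ι ℂ) (hf : f ≠ 0) : ∃ x, eval x f ≠ 0 := by
  by_contra h
  push Not at h
  exact hf (MvPolynomial.funext fun x => by rw [h x, map_zero])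

theorem pj_model_deg {k : ℕ} (p : Ideal (MvPolynomial ι ℂ)) (hp : p.IsPrime)
    (ρ : Fin (k + 1) → MvPolynomial ι ℂ) (ht : NPos p (fun i => ρ i.succ))
    (μ : MvPolynomial (Fin (k + 1)) ℂ) (hμ : Irreducible μ)
    (himg : ∀ x ∈ zeroLocus ℂ p, eval (pmap ρ x) μ = 0) (b : ℕ) (h' : MvPolynomial (Fin (k + 1)) ℂ)
    (hh' : ∃ w, eval w μ = 0 ∧ eval w h' ≠ 0)
    (hcnt : ∀ w, eval w μ = 0 → eval w h' ≠ 0 → {x ∈ zeroLocus ℂ p | pmap ρ x = w}.Finite ∧
      {x ∈ zeroLocus ℂ p | pmap ρ x = w}.ncard ≤ b) :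
    vdeg (zeroLocus ℂ p) ≤ b * μ.totalDegree := by
  classical
  obtain ⟨a₀, ha₀, hgen⟩ := ph_gen_points p hp _ ht
  -- the bad set of the base
  obtain ⟨g₁, hg₁, hg₁B⟩ : ∃ g₁ : MvPolynomial (Fin k) ℂ, g₁ ≠ 0 ∧
      ∀ w, eval w μ = 0 → eval w h' = 0 → eval (fun i : Fin k => w i.succ) g₁ = 0 := by
    set B : Set (Fin (k + 1) → ℂ) := zset μ ∩ zset h' with hB
    by_cases hBe : B.Nonempty
    · have h1 : vdim B < vdim (zset μ) :=
        ph_vdim_lt_of_ssubset (pj_zset_isVar μ hμ) Set.inter_subset_left h' (fun x hx => hx.2)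
          hh' hBe
      have h2 := pj_zset_vdim_lt μ hμ
      rw [Fintype.card_fin] at h2
      have h3 := pj_vdim_image_le B (fun i : Fin k => (X i.succ : MvPolynomial (Fin (k + 1)) ℂ))
      obtain ⟨g₁, hg₁, hv⟩ := pj_exists_vanish
        (pmap (fun i : Fin k => (X i.succ : MvPolynomial (Fin (k + 1)) ℂ)) '' B)
        (by rw [Fintype.card_fin]; omega)
      refine ⟨g₁, hg₁, fun w hw hw' => hv _ ⟨w, ⟨hw, hw'⟩, ?_⟩⟩
      funext i
      simp only [pmap, eval_X]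
    · exact ⟨1, one_ne_zero, fun w hw hw' => absurd ⟨w, hw, hw'⟩ hBe⟩
  -- a value of the first coordinate at which `μ` is not identically zero
  obtain ⟨w₀, hw₀⟩ := pj_exists_eval_ne μ hμ.ne_zero
  set g₂ : MvPolynomial (Fin k) ℂ :=
    aeval (Fin.cons (C (w₀ 0)) X : Fin (k + 1) → MvPolynomial (Fin k) ℂ) μ with hg₂def
  have hg₂ev : ∀ c : Fin k → ℂ, eval c g₂ = eval (Fin.cons (w₀ 0) c : Fin (k + 1) → ℂ) μ := by
    intro c
    rw [hg₂def, pj_eval_aeval]
    congr 2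
    funext i
    refine Fin.cases ?_ (fun j => ?_) i
    · simp [pmap]
    · simp [pmap]
  have hg₂ : g₂ ≠ 0 := by
    intro h0
    apply hw₀
    have := hg₂ev (fun i => w₀ i.succ)
    rw [h0, map_zero] at this
    rw [← Fin.cons_self_tail w₀]
    exact this.symm
  obtain ⟨c, hc⟩ := pj_exists_eval_ne (a₀ * g₁ * g₂) (mul_ne_zero (mul_ne_zero ha₀ hg₁) hg₂)
  rw [map_mul, map_mul] at hc
  have hca : eval c a₀ ≠ 0 := fun h => hc (by rw [h]; ring)
  have hc1 : eval c g₁ ≠ 0 := fun h => hc (by rw [h]; ring)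
  have hc2 : eval c g₂ ≠ 0 := fun h => hc (by rw [h]; ring)
  -- the restriction of `μ` to the line over `c`
  set Q : Polynomial ℂ := pjLine μ (Fin.cons 0 c) (Fin.cons 1 0) with hQdef
  have hQev : ∀ ε : ℂ, Q.eval ε = eval (Fin.cons ε c : Fin (k + 1) → ℂ) μ := by
    intro ε
    rw [hQdef, pj_eval_pjLine]
    congr 2
    funext i
    refine Fin.cases ?_ (fun j => ?_) i
    · simp
    · simp
  have hQ0 : Q ≠ 0 := by
    intro h0
    apply hc2
    rw [hg₂ev, ← hQev, h0, Polynomial.eval_zero]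
  have hQdeg : Q.natDegree ≤ μ.totalDegree := pj_natDegree_pjLine_le _ _ _
  -- the fibre over `c`
  set S : ℂ → Set (ι → ℂ) := fun ε =>
    {x ∈ zeroLocus ℂ p | pmap ρ x = (Fin.cons ε c : Fin (k + 1) → ℂ)} with hS
  have hSb : ∀ ε ∈ Q.roots.toFinset, (S ε).Finite ∧ (S ε).ncard ≤ b := by
    intro ε hε
    have hroot : Q.eval ε = 0 := by
      have := (Polynomial.mem_roots hQ0).1 (Multiset.mem_toFinset.1 hε)
      exact this
    rw [hQev] at hroot
    refine hcnt _ hroot fun h0 => hc1 ?_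
    have := hg₁B _ hroot h0
    simpa using this
  have hsub : {x ∈ zeroLocus ℂ p | ∀ i : Fin k, eval x (ρ i.succ) = c i}
      ⊆ ⋃ ε ∈ Q.roots.toFinset, S ε := by
    rintro x ⟨hx, hxc⟩
    have hρ : pmap ρ x = (Fin.cons (eval x (ρ 0)) c : Fin (k + 1) → ℂ) := by
      funext i
      refine Fin.cases ?_ (fun j => ?_) i
      · simp [pmap]
      · simpa [pmap] using hxc j
    have hroot : Q.eval (eval x (ρ 0)) = 0 := by
      rw [hQev, ← hρ]
      exact himg x hx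
    refine Set.mem_biUnion (x := eval x (ρ 0)) ?_ ⟨hx, hρ⟩
    exact Multiset.mem_toFinset.2 ((Polynomial.mem_roots hQ0).2 hroot)
  have hfin : (⋃ ε ∈ Q.roots.toFinset, S ε).Finite :=
    Set.Finite.biUnion (Finset.finite_toSet _) fun ε hε => (hSb ε hε).1
  calc vdeg (zeroLocus ℂ p)
      = {x ∈ zeroLocus ℂ p | ∀ i : Fin k, eval x (ρ i.succ) = c i}.ncard := (hgen c hca).symm
    _ ≤ (⋃ ε ∈ Q.roots.toFinset, S ε).ncard := Set.ncard_le_ncard hsub hfin
    _ ≤ ∑ ε ∈ Q.roots.toFinset, (S ε).ncard := Finset.set_ncard_biUnion_le _ _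
    _ ≤ ∑ _ε ∈ Q.roots.toFinset, b := Finset.sum_le_sum fun ε hε => (hSb ε hε).2
    _ = Q.roots.toFinset.card * b := by rw [Finset.sum_const, smul_eq_mul]
    _ ≤ μ.totalDegree * b := by
        refine Nat.mul_le_mul_right _ (le_trans ?_ hQdeg)
        exact (Multiset.toFinset_card_le _).trans (Polynomial.card_roots' Q)
    _ = b * μ.totalDegree := mul_comm _ _

/-! ### glue -/

/-- **existence of the hypersurface model**; moreover `ρ : X → Z(μ)` is onto and `(μ)` is the ideal of relations. -/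
theorem pj_model_exists {k : ℕ} (p : Ideal (MvPolynomial ι ℂ)) (hp : p.IsPrime)
    (ρ : Fin (k + 1) → MvPolynomial ι ℂ) (h0 : (ρ 0).totalDegree ≤ 1)
    (ht : NPos p (fun i => ρ i.succ)) :
    ∃ (μ : MvPolynomial (Fin (k + 1)) ℂ) (b : ℕ), PjModel (zeroLocus ℂ p) ρ μ b ∧
      (∀ w, eval w μ = 0 → ∃ x ∈ zeroLocus ℂ p, pmap ρ x = w) ∧
      ∀ G : MvPolynomial (Fin (k + 1)) ℂ, aeval ρ G ∈ p ↔ μ ∣ G := by
  have hX : IsVar (zeroLocus ℂ p) := ⟨p, hp, rfl⟩
  obtain ⟨hdim, hcl⟩ := pj_model_img p hp ρ ht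
  have hW : IsVar (zcl (pmap ρ '' zeroLocus ℂ p)) := ph_isVar_zcl_image hX ρ
  obtain ⟨μ, hμ, hWμ⟩ := pj_hypersurface _ hW (by rw [hdim, Fintype.card_fin])
  have hk : vdim (zeroLocus ℂ p) = k := ph_vdim_of_npos p hp _ ht
  obtain ⟨b, h', _, ⟨w₁, hw₁, hw₁'⟩, hcnt⟩ := ph_gen_fib hX ρ (by rw [hdim, hk])
  have hmem : ∀ w, eval w μ = 0 ↔ w ∈ zcl (pmap ρ '' zeroLocus ℂ p) := fun w => by
    rw [hWμ]; exact Iff.rfl
  have himg : ∀ x ∈ zeroLocus ℂ p, eval (pmap ρ x) μ = 0 := fun x hx =>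
    (hmem _).mpr (ph_subset_zcl _ ⟨x, hx, rfl⟩)
  refine ⟨μ, b, ⟨?_, hμ, himg, ⟨h', ⟨w₁, (hmem _).mpr hw₁, hw₁'⟩, fun w hw hw' => ?_⟩, ?_⟩, ?_, ?_⟩
  · intro i
    refine Fin.cases h0 (fun j => ?_) i
    exact ht.lin j
  · obtain ⟨h1, h2⟩ := hcnt w ((hmem w).mp hw) hw'
    exact ⟨h1, h2.ge⟩
  · refine pj_model_deg p hp ρ ht μ hμ himg b h' ⟨w₁, (hmem _).mpr hw₁, hw₁'⟩ fun w hw hw' => ?_
    obtain ⟨h1, h2⟩ := hcnt w ((hmem w).mp hw) hw'
    exact ⟨h1, h2.le⟩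
  · intro w hw
    have := (hmem w).mp hw
    rw [hcl] at this
    obtain ⟨x, hx, rfl⟩ := this
    exact ⟨x, hx, rfl⟩
  · intro G
    rw [pj_mem_prime_iff p hp, ← pj_zset_null μ hμ]
    constructor
    · intro h w hw
      have := (hmem w).mp hw
      rw [hcl] at this
      obtain ⟨x, hx, rfl⟩ := this
      rw [← pj_eval_aeval]
      exact h x hx
    · intro h x hx
      rw [pj_eval_aeval]
      exact h _ (himg x hx)

/-! ### PJ-mod-c -/

theorem pj_exists_sep (xs : ι → ℂ) (F : Finset (ι → ℂ)) (hF : xs ∉ F) :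
    ∃ e : MvPolynomial ι ℂ, e.totalDegree ≤ 1 ∧ ∀ z ∈ F, eval z e ≠ eval xs e := by
  classical
  set P : MvPolynomial ι ℂ := ∏ z ∈ F, ∑ i, C (z i - xs i) * X i with hP
  have hP0 : P ≠ 0 := by
    rw [hP, Finset.prod_ne_zero_iff]
    intro z hz h0
    have hne : z ≠ xs := fun h => hF (h ▸ hz)
    obtain ⟨i₀, hi₀⟩ := Function.ne_iff.1 hne
    have h1 := congrArg (eval (Pi.single i₀ (1 : ℂ))) h0
    rw [map_zero, map_sum, Finset.sum_eq_single i₀] at h1
    · simp only [map_mul, eval_C, eval_X, Pi.single_eq_same, mul_one] at h1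
      exact hi₀ (sub_eq_zero.1 h1)
    · intro j _ hj
      simp only [map_mul, eval_C, eval_X, Pi.single_eq_of_ne hj, mul_zero]
    · intro h; exact absurd (Finset.mem_univ _) h
  obtain ⟨a, ha⟩ := pj_exists_eval_ne P hP0
  refine ⟨∑ i, C (a i) * X i, ?_, fun z hz h0 => ha ?_⟩
  · refine totalDegree_finsetSum_le fun i _ => ?_
    refine (totalDegree_mul _ _).trans ?_
    rw [totalDegree_C, zero_add]
    exact (totalDegree_X i).le
  · rw [hP, map_prod]
    refine Finset.prod_eq_zero hz ?_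
    simp only [map_sum, map_mul, eval_C, eval_X] at h0 ⊢
    rw [← sub_eq_zero, ← Finset.sum_sub_distrib] at h0
    rw [← h0]
    refine Finset.sum_congr rfl fun i _ => ?_
    ring

/-- a model whose equation does not vanish at the image of a given point outside `X` -/
theorem pj_model_sep (X : Set (ι → ℂ)) (hX : IsVar X) (xs : ι → ℂ) (hxs : xs ∉ X) :
    ∃ (ρ : Fin (vdim X + 1) → MvPolynomial ι ℂ) (μ : MvPolynomial (Fin (vdim X + 1)) ℂ) (b : ℕ),
      PjModel X ρ μ b ∧ eval (pmap ρ xs) μ ≠ 0 := by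
  classical
  obtain ⟨p, hp, rfl⟩ := hX
  obtain ⟨k, t, _, ht⟩ := ph_exists_npos p hp.ne_top
  have hk : vdim (zeroLocus ℂ p) = k := ph_vdim_of_npos p hp t ht
  subst hk
  have hFfin := ph_fibre_finite p t ht.fin (fun i => eval xs (t i))
  obtain ⟨e, he, hsep⟩ := pj_exists_sep xs hFfin.toFinset (fun h => by
    rw [Set.Finite.mem_toFinset] at h
    exact hxs h.1)
  have ht' : NPos p (fun i => (Fin.cons e t : Fin (vdim (zeroLocus ℂ p) + 1) → MvPolynomial ι ℂ)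
      i.succ) := by
    simpa only [Fin.cons_succ] using ht
  obtain ⟨μ, b, hmod, hsurj, _⟩ := pj_model_exists p hp (Fin.cons e t) (by simpa using he) ht'
  refine ⟨Fin.cons e t, μ, b, hmod, fun h0 => ?_⟩
  obtain ⟨x, hx, hxs'⟩ := hsurj _ h0
  have hxF : x ∈ hFfin.toFinset := by
    rw [Set.Finite.mem_toFinset]
    refine ⟨hx, fun i => ?_⟩
    have := congrFun hxs' i.succ
    simpa [pmap] using this
  apply hsep x hxF
  have := congrFun hxs' 0
  simpa [pmap] using this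

end Claimed.Agent.R273
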