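import Claimed.Agent.R273.PjMain

/-!
# Row 273, S3b (helper299), layer 5a: a linear form `s` which is a REDUCTION of the maximal ideal of a curve at the origin.  Prefix `pj_`.

`p` prime, `C = zeroLocus ℂ p` a curve through `0`, `𝔐 = idealOfVars ι ℂ = (X_i)`, `K = pjK 0 C ⊇ C` the cone over `C` with apex `0`, of dimension `2`.
GOAL (`pj_reduction0`): a linear form `s`, in Noether position for `C`, nonzero at finitely many prescribed points of `C \ 0`, and `u`, `u(0) ≠ 0`, `c` with `u 𝔐^(c+1) ⊆ s 𝔐^c + p`.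
No tangent cones, no associated graded rings, no Nakayama: the cone `K` reduces `𝔐` to two forms, an explicit plane relation reduces two forms to one.

LEAF PJ-red-a (`pj_cone_forms`).  `q := vanishingIdeal ℂ K`, prime (`pj_K_isVar`), `q ≤ p` (`C ⊆ K`: `y = 1 • (y - 0)`; `IsPrime.vanishingIdeal_zeroLocus`).  `ph_exists_npos q` + `ph_vdim_of_npos`: `t : Fin 2 → ..`, `NPos q t`.  `s_i := homogeneousComponent 1 (t i)`, `t i = s_i + C (c_i)` (degree `≤ 1`).
   `FiltFin q ![s₁, s₂]`: in the definition replace `a_j` by `a_j(T + c)` (`aeval (fun i => X i + C (c i))`, same total degree: `ph_totalDegree_aeval_le`); then `ph_filtfin_mono`.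
   (zero) `{v ∈ K | s₁ v = s₂ v = 0}` is finite (`ph_fibre_finite`) and stable under `v ↦ c v` (`pj_K_smul`, homogeneity), so it is `{0}` (`c ↦ c • v` is injective for `v ≠ 0`).
   (power) `zeroLocus (q ⊔ span {s₁, s₂}) = {0}`, so `𝔐 ≤ radical` (Nullstellensatz `vanishingIdeal_zeroLocus_eq_radical`), `𝔐^M ≤ q ⊔ span {s₁,s₂}` (`Ideal.exists_radical_pow_le_of_fg`/`Ideal.exists_pow_le_of_le_radical_of_fg`), WLOG `M ≥ 1`.
   `𝔐^M` is generated by the monomials of degree `M`; for such a monomial `x^α = f + s₁ g₁ + s₂ g₂`, `f ∈ q`; take `homogeneousComponent M`: `x^α = f_M + s₁ (g₁)_(M-1) + s₂ (g₂)_(M-1)`, `f_M ∈ q` (`pj_K_hom`), `(g_i)_(M-1) ∈ 𝔐^(M-1)`.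
LEAF PJ-red-b (`pj_plane_rel`, `pj_dehom_ne_zero`).  `pj_plane_rel`: `vdim (pmap ![s₁,s₂] '' C) ≤ 1 < 2` (`pj_vdim_image_le`), `pj_exists_vanish`, `pj_eval_aeval`-type identity, Nullstellensatz for `p`.
   `pj_dehom_ne_zero`: if `H(1, γ) = 0` for all `γ` then `H(a, b) = a^j H(1, b/a) = 0` for `a ≠ 0`, so `X 0 * H = 0` as a function (`MvPolynomial.funext`).
LEAF PJ-red-c (`pj_filtfin_dir`).  This is `ph_filtfin_step` (PhNN.lean, PROVED) with the direction `λ = (1, γ)` EXPOSED: copy its proof (150 lines), replace the `obtain ⟨lam, hlam⟩` block by the hypothesis; there `t' i = t i.succ - C (lam i.succ) * (C (lam 0)⁻¹ * t 0)`.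
LEAF PJ-red-d (`pj_plane_red`).  `a := s₁`, `bb := s = s₂ - γ s₁`, `s₂ = γ a + bb`.  For `H` homogeneous of degree `j ≥ 1`: `aeval ![a, γ a + bb] H - C (H(1,γ)) a^j ∈ span {bb} * span {a, bb}^(j-1)` (on monomials: `a^i ((γ a + bb)^(j-i) - (γ a)^(j-i))`, `sub_dvd_pow_sub_pow`/`Commute.geom_sum₂_mul`).
   `0 ≡ aeval ![s₁,s₂] G = ∑_{j ≥ m} ..`, `u := ∑_{j ≥ m} C (G_j(1,γ)) s₁^(j-m)`, `u(0) = G_m(1,γ)` (`s₁(0) = 0`), `u s₁^m ∈ span {s} * span {s₁, s}^(m-1) ⊔ p`, and `span {s₁, s} = span {s₁, s₂}`.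
LEAF PJ-red-e (`pj_red_comb`), pure ideal calculus in any commutative ring.  `𝔮 = span {s₁, s₂} ≤ 𝔐`.  (1) `𝔐^(M-1+i) ≤ 𝔮^i 𝔐^(M-1) ⊔ p` by induction on `i`.  (2) `𝔮^m = span {s₁^m} ⊔ span {s} 𝔮^(m-1)` (`𝔮 = span {s₁, s}`, expand), so `u 𝔮^m ≤ span {s} 𝔮^(m-1) ⊔ p`.
   (3) `u 𝔐^(M-1+m) ≤ u 𝔮^m 𝔐^(M-1) ⊔ p ≤ span {s} 𝔮^(m-1) 𝔐^(M-1) ⊔ p ≤ span {s} 𝔐^(M+m-2) ⊔ p`.
GLUE `pj_reduction0` (PROVED below): choose `γ` outside the roots of finitely many nonzero polynomials of `ℂ[γ]`: `G_top(1,γ)`, `G_m(1,γ)` (`pj_dehom_ne_zero`), `s₂(z) - γ s₁(z)` (`z ∈ Z`; nonzero by (zero) of `pj_cone_forms`, `z ∈ C ⊆ K`, `z ≠ 0`).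
-/

set_option autoImplicit false

namespace Claimed.Agent.R273

open MvPolynomial Module

variable {ι : Type*} [Fintype ι]

/-! ### PJ-red-a -/

omit [Fintype ι] in
/-- a polynomial of degree `≤ 1` is its linear form plus its constant term -/
theorem pj_lin_decomp (f : MvPolynomial ι ℂ) (hf : f.totalDegree ≤ 1) :
    f = homogeneousComponent 1 f + C (coeff 0 f) := by
  classical
  ext m
  rw [coeff_add, coeff_homogeneousComponent, coeff_C]
  by_cases h1 : m.degree = 1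
  · have hm : (0 : ι →₀ ℕ) ≠ m := by
      rintro rfl
      simp at h1
    rw [if_pos h1, if_neg hm, add_zero]
  · rw [if_neg h1, zero_add]
    by_cases h0 : (0 : ι →₀ ℕ) = m
    · rw [if_pos h0, h0]
    · rw [if_neg h0]
      apply coeff_eq_zero_of_totalDegree_lt
      have h2 : m.degree ≠ 0 := by
        intro h
        exact h0 ((Finsupp.degree_eq_zero_iff m).1 h).symm
      have h3 : m.degree = ∑ i ∈ m.support, m i := rfl
      omega

omit [Fintype ι] in
/-- the homogeneous components of a multiple of a linear form -/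
theorem pj_hc_mul_lin (g s : MvPolynomial ι ℂ) (hs : s.IsHomogeneous 1) (n : ℕ) :
    homogeneousComponent (n + 1) (g * s) = homogeneousComponent n g * s := by
  classical
  conv_lhs => rw [← sum_homogeneousComponent g, Finset.sum_mul, map_sum]
  have h : ∀ j, homogeneousComponent (n + 1) (homogeneousComponent j g * s)
      = if j = n then homogeneousComponent j g * s else 0 := by
    intro j
    rw [homogeneousComponent_of_mem ((homogeneousComponent_isHomogeneous j g).mul hs)]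
    by_cases hj : j = n
    · rw [if_pos hj, if_pos (by omega)]
    · rw [if_neg hj, if_neg (by omega)]
  simp only [h]
  rw [Finset.sum_ite_eq']
  split_ifs with hn
  · rfl
  · rw [homogeneousComponent_eq_zero, zero_mul]
    rw [Finset.mem_range] at hn
    omega

omit [Fintype ι] in
theorem pj_hc_mem_pow (g : MvPolynomial ι ℂ) (n : ℕ) :
    homogeneousComponent n g ∈ idealOfVars ι ℂ ^ n := by
  classical
  rw [mem_pow_idealOfVars_iff']
  intro x hx
  rw [coeff_homogeneousComponent, if_neg (by omega)]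

omit [Fintype ι] in
/-- translation of the parameters does not change filtered finiteness -/
theorem pj_filtfin_shift {k : ℕ} (I : Ideal (MvPolynomial ι ℂ)) (t s : Fin k → MvPolynomial ι ℂ)
    (c : Fin k → ℂ) (hts : ∀ i, t i = s i + C (c i)) (h : FiltFin I t) : FiltFin I s := by
  obtain ⟨m, b, hb⟩ := h
  refine ⟨m, b, fun f => ?_⟩
  obtain ⟨a, h1, h2⟩ := hb f
  refine ⟨fun j => aeval (fun i => (X i + C (c i) : MvPolynomial (Fin k) ℂ)) (a j), fun j => ?_, ?_⟩
  · rcases h1 j with h | h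
    · left
      simp only [h, map_zero]
    · right
      have := ph_totalDegree_aeval_le (fun i => (X i + C (c i) : MvPolynomial (Fin k) ℂ)) (by
        intro i
        refine (totalDegree_add _ _).trans (max_le (by simp) (by simp))) (a j)
      exact le_trans (Nat.add_le_add_right this _) h
  · have e : ∀ j, aeval s (aeval (fun i => (X i + C (c i) : MvPolynomial (Fin k) ℂ)) (a j))
        = aeval t (a j) := by
      intro j
      have : (aeval s).comp (aeval (fun i => (X i + C (c i) : MvPolynomial (Fin k) ℂ)))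
          = (aeval t : MvPolynomial (Fin k) ℂ →ₐ[ℂ] MvPolynomial ι ℂ) := by
        apply MvPolynomial.algHom_ext
        intro i
        rw [AlgHom.comp_apply, aeval_X, map_add, aeval_X, aeval_C, aeval_X, hts i, algebraMap_eq]
      exact congrArg (fun φ : MvPolynomial (Fin k) ℂ →ₐ[ℂ] MvPolynomial ι ℂ => φ (a j)) this
    simp only [e]
    exact h2

theorem pj_cone_forms (p : Ideal (MvPolynomial ι ℂ)) (hp : p.IsPrime)
    (hK : vdim (pjK 0 (zeroLocus ℂ p)) = 2) :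
    ∃ s₁ s₂ : MvPolynomial ι ℂ, s₁.IsHomogeneous 1 ∧ s₂.IsHomogeneous 1 ∧ FiltFin p ![s₁, s₂] ∧
      (∀ v ∈ pjK 0 (zeroLocus ℂ p), eval v s₁ = 0 → eval v s₂ = 0 → v = 0) ∧
      ∃ M : ℕ, 1 ≤ M ∧
        idealOfVars ι ℂ ^ M ≤ Ideal.span {s₁, s₂} * idealOfVars ι ℂ ^ (M - 1) ⊔ p := by
  classical
  obtain ⟨q, hq, hKq⟩ := pj_K_isVar (0 : ι → ℂ) (X := zeroLocus ℂ p) ⟨p, hp, rfl⟩
  -- `q ≤ p`
  have hCK : zeroLocus ℂ p ⊆ zeroLocus ℂ q := by
    intro y hy
    rw [← hKq]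
    have := pj_sub_K (0 : ι → ℂ) (zeroLocus ℂ p) hy 1
    rwa [one_smul, sub_zero] at this
  have hqp : q ≤ p := by
    intro f hf
    rw [pj_mem_prime_iff p hp]
    intro x hx
    exact (pj_mem_prime_iff q hq f).1 hf x (hCK hx)
  -- Noether position of the cone
  obtain ⟨k, t, -, hN⟩ := ph_exists_npos q hq.ne_top
  have hk : k = 2 := by
    rw [← ph_vdim_of_npos q hq t hN, ← hKq, hK]
  subst hk
  set s : Fin 2 → MvPolynomial ι ℂ := fun i => homogeneousComponent 1 (t i) with hs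
  have hshom : ∀ i, (s i).IsHomogeneous 1 := fun i => homogeneousComponent_isHomogeneous 1 (t i)
  have hfq : FiltFin q s :=
    pj_filtfin_shift q t s (fun i => coeff 0 (t i)) (fun i => pj_lin_decomp (t i) (hN.lin i)) hN.fin
  have hs2 : (![s 0, s 1] : Fin 2 → MvPolynomial ι ℂ) = s := by
    funext i
    fin_cases i <;> rfl
  -- (zero)
  have hzero : ∀ v ∈ pjK 0 (zeroLocus ℂ p), eval v (s 0) = 0 → eval v (s 1) = 0 → v = 0 := by
    intro v hv h0 h1
    by_contra hne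
    have hfin := ph_fibre_finite q s hfq 0
    refine Set.infinite_of_injective_forall_mem (f := fun c : ℂ => c • v) ?_ ?_ hfin
    · intro a b hab
      exact smul_left_injective ℂ hne hab
    · intro c
      refine ⟨?_, ?_⟩
      · rw [← hKq]
        exact pj_K_smul 0 _ hv c
      · intro i
        rw [pj_eval_smul_of_homog (hshom i)]
        fin_cases i
        · simp [h0]
        · simp [h1]
  refine ⟨s 0, s 1, hshom 0, hshom 1, ?_, hzero, ?_⟩
  · rw [hs2]
    exact ph_filtfin_mono hqp hfq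
  -- (power)
  set J : Ideal (MvPolynomial ι ℂ) := q ⊔ Ideal.span {s 0, s 1} with hJ
  have hJ0 : ∀ x ∈ zeroLocus ℂ J, x = 0 := by
    intro x hx
    apply hzero x
    · rw [hKq]
      exact fun f hf => hx f (Ideal.mem_sup_left hf)
    · have := hx (s 0) (Ideal.mem_sup_right (Ideal.subset_span (by simp)))
      simpa [aeval_eq_eval] using this
    · have := hx (s 1) (Ideal.mem_sup_right (Ideal.subset_span (by simp)))
      simpa [aeval_eq_eval] using this
  have hrad : idealOfVars ι ℂ ≤ J.radical := by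
    rw [← vanishingIdeal_zeroLocus_eq_radical (K := ℂ) J, idealOfVars, Ideal.span_le]
    rintro _ ⟨i, rfl⟩
    intro x hx
    rw [hJ0 x hx]
    simp
  obtain ⟨M₀, hM₀⟩ := Ideal.exists_pow_le_of_le_radical_of_fg hrad (idealOfVars_fg ι ℂ)
  refine ⟨M₀ + 1, by omega, ?_⟩
  rw [Nat.add_sub_cancel, pow_idealOfVars_eq_span, Ideal.span_le]
  rintro _ ⟨α, hα, rfl⟩
  have hα' : α.degree = M₀ + 1 := hα
  have hmem : (monomial α (1 : ℂ)) ∈ J := by
    apply hM₀
    rw [monomial_mem_pow_idealOfVars_iff _ _ one_ne_zero]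
    omega
  obtain ⟨f, hf, g, hg, hfg⟩ := Submodule.mem_sup.1 hmem
  obtain ⟨g₁, g₂, rfl⟩ := Ideal.mem_span_pair.1 hg
  have hfM : homogeneousComponent (M₀ + 1) f ∈ q := by
    rw [pj_mem_prime_iff q hq]
    rw [← hKq]
    apply pj_K_hom
    rw [hKq]
    exact (pj_mem_prime_iff q hq f).1 hf
  have hmon : homogeneousComponent (M₀ + 1) (monomial α (1 : ℂ)) = monomial α 1 :=
    homogeneousComponent_eq_self (isHomogeneous_monomial 1 hα')
  have key : monomial α (1 : ℂ) = homogeneousComponent (M₀ + 1) f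
      + (homogeneousComponent M₀ g₁ * s 0 + homogeneousComponent M₀ g₂ * s 1) := by
    rw [← hmon, ← hfg, map_add, map_add, pj_hc_mul_lin _ _ (hshom 0), pj_hc_mul_lin _ _ (hshom 1)]
  show monomial α (1 : ℂ) ∈ _
  rw [key]
  refine Ideal.add_mem _ (Ideal.mem_sup_right (hqp hfM)) (Ideal.mem_sup_left (Ideal.add_mem _ ?_ ?_))
  · rw [mul_comm (homogeneousComponent M₀ g₁) (s 0)]
    exact Ideal.mul_mem_mul (Ideal.subset_span (by simp)) (pj_hc_mem_pow _ _)
  · rw [mul_comm (homogeneousComponent M₀ g₂) (s 1)]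
    exact Ideal.mul_mem_mul (Ideal.subset_span (by simp)) (pj_hc_mem_pow _ _)

/-! ### PJ-red-b -/

theorem pj_plane_rel (p : Ideal (MvPolynomial ι ℂ)) (hp : p.IsPrime)
    (h1 : vdim (zeroLocus ℂ p) = 1) (s₁ s₂ : MvPolynomial ι ℂ) :
    ∃ G : MvPolynomial (Fin 2) ℂ, G ≠ 0 ∧ aeval ![s₁, s₂] G ∈ p := by
  have h2 : vdim (pmap ![s₁, s₂] '' zeroLocus ℂ p) < Fintype.card (Fin 2) := by
    have := pj_vdim_image_le (zeroLocus ℂ p) ![s₁, s₂]
    rw [h1] at this
    simp only [Fintype.card_fin]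
    omega
  obtain ⟨G, hG0, hG⟩ := pj_exists_vanish _ h2
  refine ⟨G, hG0, (pj_mem_prime_iff p hp _).2 fun x hx => ?_⟩
  rw [pj_eval_aeval]
  exact hG _ ⟨x, hx, rfl⟩

theorem pj_eval_smul_homog {σ : Type*} [Fintype σ] {F : MvPolynomial σ ℂ} {a : ℕ}
    (hF : F.IsHomogeneous a) (t : ℂ) (v : σ → ℂ) : eval (t • v) F = t ^ a * eval v F := by
  conv_lhs => rw [← support_sum_monomial_coeff F]
  conv_rhs => rw [← support_sum_monomial_coeff F]
  rw [map_sum, map_sum, Finset.mul_sum]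
  refine Finset.sum_congr rfl fun d hd => ?_
  have h1 := hF (mem_support_iff.1 hd)
  rw [Finsupp.weight_apply, Finsupp.sum_fintype _ _ (by simp)] at h1
  rw [eval_monomial, eval_monomial, Finsupp.prod_fintype _ _ (by simp),
    Finsupp.prod_fintype _ _ (by simp)]
  simp only [Pi.smul_apply, smul_eq_mul, mul_pow, Finset.prod_mul_distrib, Finset.prod_pow_eq_pow_sum]
  have h2 : ∑ i, d i = a := by simpa using h1
  rw [h2]
  ring

theorem pj_dehom_ne_zero (H : MvPolynomial (Fin 2) ℂ) (j : ℕ) (hH : H.IsHomogeneous j)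
    (h0 : H ≠ 0) : (aeval ![Polynomial.C 1, Polynomial.X] H : Polynomial ℂ) ≠ 0 := by
  intro hcon
  have h1 : ∀ γ : ℂ, eval ![1, γ] H = 0 := by
    intro γ
    have h2 := congrArg (Polynomial.eval γ) hcon
    rw [Polynomial.eval_zero] at h2
    rw [← h2]
    generalize H = P
    induction P using MvPolynomial.induction_on with
    | C a => simp
    | add p q hp hq => simp [hp, hq]
    | mul_X p i hp => fin_cases i <;> simp [hp]
  have h3 : X 0 * H = 0 := by
    apply MvPolynomial.funext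
    intro x
    rw [map_mul, eval_X, map_zero]
    by_cases hx : x 0 = 0
    · rw [hx, zero_mul]
    · have e : x = x 0 • ![1, x 1 / x 0] := by
        funext i
        fin_cases i
        · simp
        · simp; field_simp
      rw [e, pj_eval_smul_homog hH, h1]
      simp
  exact h0 ((mul_eq_zero.1 h3).resolve_left (X_ne_zero 0))

/-! ### PJ-red-c -/

omit [Fintype ι] in
/-- `ph_filtfin_step` with the direction exposed. -/
theorem pj_filtfin_step_dir {k : ℕ} (I : Ideal (MvPolynomial ι ℂ)) (t : Fin (k + 1) → MvPolynomial ι ℂ)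
    (ht : ∀ i, (t i).totalDegree ≤ 1) (h : FiltFin I t) (g : MvPolynomial (Fin (k + 1)) ℂ)
    (hgI : aeval t g ∈ I) (lam : Fin (k + 1) → ℂ)
    (hc₀ : eval lam (homogeneousComponent g.totalDegree g) ≠ 0) (hl0 : lam 0 ≠ 0) :
    FiltFin I (fun i : Fin k => t i.succ - C (lam i.succ) * (C (lam 0)⁻¹ * t 0)) := by
  classical
  obtain ⟨m, b, hb⟩ := h
  set e := g.totalDegree with he
  set c₀ := eval lam (homogeneousComponent e g) with hc₀def
  set s : MvPolynomial ι ℂ := C (lam 0)⁻¹ * t 0 with hs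
  set t' : Fin k → MvPolynomial ι ℂ := fun i => t i.succ - C (lam i.succ) * s with ht'
  have hsdeg : s.totalDegree ≤ 1 := by
    refine (totalDegree_mul _ _).trans ?_
    rw [totalDegree_C, zero_add]; exact ht 0
  have ht'deg : ∀ i, (t' i).totalDegree ≤ 1 := by
    intro i
    refine (totalDegree_sub _ _).trans (max_le (ht _) ?_)
    refine (totalDegree_mul _ _).trans ?_
    rw [totalDegree_C, zero_add]; exact hsdeg
  show FiltFin I t'
  -- `aeval t = aeval (cons s t') ∘ L`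
  have hcomp : ∀ a, aeval (Fin.cons s t' : Fin (k + 1) → MvPolynomial ι ℂ) (phL lam a) = aeval t a := by
    intro a
    have : (aeval (Fin.cons s t' : Fin (k + 1) → MvPolynomial ι ℂ)).comp (phL lam) = aeval t := by
      apply MvPolynomial.algHom_ext
      intro j
      refine Fin.cases ?_ (fun i => ?_) j
      · rw [AlgHom.comp_apply, ph_phL_X_zero, map_mul, aeval_C, aeval_X, aeval_X, Fin.cons_zero, hs,
          algebraMap_eq, ← mul_assoc, ← C_mul, mul_inv_cancel₀ hl0, C_1, one_mul]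
      · rw [AlgHom.comp_apply, ph_phL_X_succ, map_add, map_mul, aeval_C, aeval_X, aeval_X, aeval_X,
          Fin.cons_zero, Fin.cons_succ, algebraMap_eq, ht']
        ring
    exact congrArg (fun φ : MvPolynomial (Fin (k + 1)) ℂ →ₐ[ℂ] MvPolynomial ι ℂ => φ a) this
  set Φ : MvPolynomial (Fin (k + 1)) ℂ → Polynomial (MvPolynomial (Fin k) ℂ) :=
    fun a => finSuccEquiv ℂ k (phL lam a) with hΦ
  set ev : Polynomial (MvPolynomial (Fin k) ℂ) →+* MvPolynomial ι ℂ :=
    Polynomial.eval₂RingHom (aeval t' : MvPolynomial (Fin k) ℂ →ₐ[ℂ] MvPolynomial ι ℂ).toRingHom s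
    with hev
  have hevΦ : ∀ a, ev (Φ a) = aeval t a := by
    intro a
    rw [← hcomp a, ← ph_ev_finSucc]
    rfl
  have hΦw : ∀ a, WDeg (Φ a) a.totalDegree := fun a =>
    ph_wdeg_finSucc _ (ph_phL_totalDegree lam a)
  -- the monic polynomial
  have hcoeff : (Φ g).coeff e = C c₀ := by
    have h1 : coeff 0 ((Φ g).coeff e) = c₀ := by
      rw [hΦ, finSuccEquiv_coeff_coeff, he, ph_coeff_phL]
    have h2 : (Φ g).coeff e ≠ 0 := by
      intro h0
      rw [h0, coeff_zero] at h1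
      exact hc₀ h1.symm
    have h3 : ((Φ g).coeff e).totalDegree = 0 := by
      rcases hΦw g e with h | h
      · exact absurd h h2
      · omega
    rw [totalDegree_eq_zero_iff_eq_C.mp h3, h1]
  have hnat : (Φ g).natDegree ≤ e := by
    rw [hΦ, natDegree_finSuccEquiv]
    exact (degreeOf_le_totalDegree _ _).trans (ph_phL_totalDegree lam g)
  set G : Polynomial (MvPolynomial (Fin k) ℂ) := Polynomial.C (C c₀⁻¹) * Φ g with hG
  have hGnat : G.natDegree ≤ e := (Polynomial.natDegree_C_mul_le _ _).trans hnat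
  have hGcoeff : G.coeff e = 1 := by
    rw [hG, Polynomial.coeff_C_mul, hcoeff, ← C_mul, inv_mul_cancel₀ hc₀, C_1]
  have hGmonic : G.Monic := Polynomial.monic_of_natDegree_le_of_coeff_eq_one e hGnat hGcoeff
  have hGnat' : G.natDegree = e :=
    Polynomial.natDegree_eq_of_le_of_coeff_ne_zero hGnat (by rw [hGcoeff]; exact one_ne_zero)
  have hGw : WDeg G G.natDegree := by
    rw [hGnat']
    intro j
    rw [hG, Polynomial.coeff_C_mul]
    rcases hΦw g j with h | h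
    · left; rw [h, mul_zero]
    · right
      have := totalDegree_mul (C c₀⁻¹ : MvPolynomial (Fin k) ℂ) ((Φ g).coeff j)
      rw [totalDegree_C, zero_add] at this
      omega
  have hevG : ev G ∈ I := by
    rw [hG, map_mul, hevΦ]
    exact I.mul_mem_left _ hgI
  -- the new family
  apply ph_filtfin_of_fintype (κ := Fin e × Fin m) I t' fun jl => s ^ (jl.1 : ℕ) * b jl.2
  intro f
  obtain ⟨a, ha1, ha2⟩ := hb f
  set r : Fin m → Polynomial (MvPolynomial (Fin k) ℂ) := fun l => Φ (a l) %ₘ G with hr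
  have hrw : ∀ l, WDeg (r l) (a l).totalDegree := fun l => ph_wdeg_mod G hGmonic hGw _ _ (hΦw (a l))
  have hr0 : ∀ l, a l = 0 → r l = 0 := by
    intro l hl
    rw [hr]
    simp only [hl, hΦ, map_zero, Polynomial.zero_modByMonic]
  have hrdeg : ∀ l, (r l).degree < (e : WithBot ℕ) := by
    intro l
    have := Polynomial.degree_modByMonic_lt (Φ (a l)) hGmonic
    rwa [Polynomial.degree_eq_natDegree hGmonic.ne_zero, hGnat'] at this
  have hevr : ∀ l, ev (r l) = ∑ j : Fin e, aeval t' ((r l).coeff j) * s ^ (j : ℕ) := by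
    intro l
    by_cases h0 : r l = 0
    · simp [h0]
    · have hn : (r l).natDegree < e := (Polynomial.natDegree_lt_iff_degree_lt h0).mpr (hrdeg l)
      have := Polynomial.eval₂_eq_sum_range'
        (aeval t' : MvPolynomial (Fin k) ℂ →ₐ[ℂ] MvPolynomial ι ℂ).toRingHom hn s
      rw [Finset.sum_range] at this
      exact this
  refine ⟨fun jl => (r jl.2).coeff (jl.1 : ℕ), ?_, ?_⟩
  · rintro ⟨j, l⟩
    simp only
    by_cases hal : a l = 0
    · left; rw [hr0 l hal, Polynomial.coeff_zero]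
    · rcases hrw l j with h | h
      · exact Or.inl h
      · right
        have h1 : (a l).totalDegree + (b l).totalDegree ≤ f.totalDegree := by
          rcases ha1 l with h' | h'
          · exact absurd h' hal
          · exact h'
        have h2 : (s ^ (j : ℕ) * b l).totalDegree ≤ (j : ℕ) + (b l).totalDegree := by
          refine (totalDegree_mul _ _).trans ?_
          have := totalDegree_pow s (j : ℕ)
          have h3 : (j : ℕ) * s.totalDegree ≤ (j : ℕ) * 1 := Nat.mul_le_mul_left _ hsdeg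
          omega
        omega
  · have e1 : ∑ jl : Fin e × Fin m, aeval t' ((r jl.2).coeff (jl.1 : ℕ)) * (s ^ (jl.1 : ℕ) * b jl.2)
        = ∑ l, ev (r l) * b l := by
      rw [Fintype.sum_prod_type_right]
      refine Finset.sum_congr rfl fun l _ => ?_
      rw [hevr, Finset.sum_mul]
      refine Finset.sum_congr rfl fun j _ => ?_
      ring
    rw [e1]
    have e2 : f - ∑ l, ev (r l) * b l
        = (f - ∑ l, aeval t (a l) * b l) + ∑ l, (ev (Φ (a l)) - ev (r l)) * b l := by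
      simp only [hevΦ, sub_mul, Finset.sum_sub_distrib]
      ring
    rw [e2]
    refine I.add_mem ha2 (I.sum_mem fun l _ => I.mul_mem_right _ ?_)
    have e3 : Φ (a l) - r l = G * (Φ (a l) /ₘ G) := by
      have := Polynomial.modByMonic_add_div (Φ (a l)) G
      rw [hr]
      simp only
      linear_combination this.symm
    rw [← map_sub, e3, map_mul]
    exact I.mul_mem_right _ hevG


theorem pj_filtfin_dir (I : Ideal (MvPolynomial ι ℂ)) (s₁ s₂ : MvPolynomial ι ℂ)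
    (h₁ : s₁.totalDegree ≤ 1) (h₂ : s₂.totalDegree ≤ 1) (hf : FiltFin I ![s₁, s₂])
    (G : MvPolynomial (Fin 2) ℂ) (hGI : aeval ![s₁, s₂] G ∈ I) (γ : ℂ)
    (hγ : eval ![1, γ] (homogeneousComponent G.totalDegree G) ≠ 0) :
    FiltFin I ![s₂ - C γ * s₁] := by
  have key := pj_filtfin_step_dir (k := 1) I ![s₁, s₂] (by
    intro i
    fin_cases i
    · exact h₁
    · exact h₂) hf G hGI ![1, γ] hγ (by simp)
  have e : (fun i : Fin 1 => (![s₁, s₂] : Fin 2 → MvPolynomial ι ℂ) i.succ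
      - C ((![1, γ] : Fin 2 → ℂ) i.succ) * (C ((![1, γ] : Fin 2 → ℂ) 0)⁻¹ * (![s₁, s₂] : Fin 2 → MvPolynomial ι ℂ) 0))
      = ![s₂ - C γ * s₁] := by
    funext i
    fin_cases i
    simp
  rwa [e] at key

/-! ### PJ-red-d -/

/-- `x^k - y^k ∈ (x - y) 𝔮^(k-1)` for `x, y ∈ 𝔮` -/
theorem pj_pow_sub_pow_mem {R : Type*} [CommRing R] (𝔮 : Ideal R) {x y : R} (hx : x ∈ 𝔮) (hy : y ∈ 𝔮)
    (k : ℕ) : x ^ k - y ^ k ∈ Ideal.span {x - y} * 𝔮 ^ (k - 1) := by
  have e0 : x ^ k - y ^ k = (x - y) * ∑ i ∈ Finset.range k, x ^ i * y ^ (k - 1 - i) := by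
    rw [mul_comm, geom_sum₂_mul]
  rw [e0]
  refine Ideal.mul_mem_mul (Ideal.mem_span_singleton_self _) (Ideal.sum_mem _ fun l hl => ?_)
  have hl' : l < k := Finset.mem_range.1 hl
  have e : 𝔮 ^ (k - 1) = 𝔮 ^ l * 𝔮 ^ (k - 1 - l) := by
    rw [← pow_add]
    congr 1
    omega
  rw [e]
  exact Ideal.mul_mem_mul (Ideal.pow_mem_pow hx _) (Ideal.pow_mem_pow hy _)

omit [Fintype ι] in
/-- one homogeneous component: `H(a, b) - H(1,γ) a^j ∈ (b - γ a) (a,b)^(j-1)` -/
theorem pj_homog_red (a b : MvPolynomial ι ℂ) (γ : ℂ) (H : MvPolynomial (Fin 2) ℂ) (j : ℕ)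
    (hH : H.IsHomogeneous j) :
    aeval ![a, b] H - C (eval ![1, γ] H) * a ^ j
      ∈ Ideal.span {b - C γ * a} * Ideal.span {a, b} ^ (j - 1) := by
  have ha : a ∈ Ideal.span {a, b} := Ideal.subset_span (by simp)
  have hb : b ∈ Ideal.span {a, b} := Ideal.subset_span (by simp)
  have hga : C γ * a ∈ Ideal.span {a, b} := Ideal.mul_mem_left _ _ ha
  have key : aeval ![a, b] H - C (eval ![1, γ] H) * a ^ j
      = ∑ d ∈ H.support, (aeval ![a, b] (monomial d (coeff d H))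
          - C (eval ![1, γ] (monomial d (coeff d H))) * a ^ j) := by
    conv_lhs => rw [← support_sum_monomial_coeff H]
    rw [map_sum, map_sum, map_sum, Finset.sum_mul, ← Finset.sum_sub_distrib]
  rw [key]
  refine Ideal.sum_mem _ fun d hd => ?_
  have hdeg : d 0 + d 1 = j := by
    have h1 := hH (mem_support_iff.1 hd)
    rw [Finsupp.weight_apply, Finsupp.sum_fintype _ _ (by simp), Fin.sum_univ_two] at h1
    simpa using h1
  rw [aeval_monomial, eval_monomial, Finsupp.prod_fintype _ _ (by simp),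
    Finsupp.prod_fintype _ _ (by simp), Fin.prod_univ_two, Fin.prod_univ_two]
  simp only [Matrix.cons_val_zero, Matrix.cons_val_one, one_pow, one_mul, algebraMap_eq]
  have e : C (coeff d H) * (a ^ d 0 * b ^ d 1) - C (coeff d H * γ ^ d 1) * a ^ j
      = (C (coeff d H) * a ^ d 0) * (b ^ d 1 - (C γ * a) ^ d 1) := by
    rw [← hdeg, map_mul, map_pow]
    ring
  rw [e]
  by_cases h1 : d 1 = 0
  · rw [h1]; simp
  · have h2 := pj_pow_sub_pow_mem _ hb hga (d 1)
    have h3 : a ^ d 0 ∈ Ideal.span {a, b} ^ d 0 := Ideal.pow_mem_pow ha _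
    have h4 := Ideal.mul_mem_mul h3 h2
    have e2 : Ideal.span {a, b} ^ d 0 * (Ideal.span {b - C γ * a} * Ideal.span {a, b} ^ (d 1 - 1))
        = Ideal.span {b - C γ * a} * Ideal.span {a, b} ^ (j - 1) := by
      have : j - 1 = d 0 + (d 1 - 1) := by omega
      rw [this, pow_add]
      ring
    rw [e2] at h4
    rw [mul_assoc]
    exact Ideal.mul_mem_left _ _ h4

theorem pj_plane_red (p : Ideal (MvPolynomial ι ℂ)) (s₁ s₂ : MvPolynomial ι ℂ)
    (h₁ : eval 0 s₁ = 0) (G : MvPolynomial (Fin 2) ℂ) (hGI : aeval ![s₁, s₂] G ∈ p) (m : ℕ)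
    (hm1 : 1 ≤ m) (hm : ∀ j < m, homogeneousComponent j G = 0) (γ : ℂ)
    (hγ : eval ![1, γ] (homogeneousComponent m G) ≠ 0) :
    ∃ u : MvPolynomial ι ℂ, eval 0 u ≠ 0 ∧
      u * s₁ ^ m ∈ Ideal.span {s₂ - C γ * s₁} * Ideal.span {s₁, s₂} ^ (m - 1) ⊔ p := by
  classical
  have hmN : m ≤ G.totalDegree := by
    by_contra hcon
    push Not at hcon
    rw [homogeneousComponent_eq_zero _ _ hcon] at hγ
    simp at hγ
  refine ⟨∑ j ∈ (Finset.range (G.totalDegree + 1)).filter (fun j => m ≤ j),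
    C (eval ![1, γ] (homogeneousComponent j G)) * s₁ ^ (j - m), ?_, ?_⟩
  · rw [map_sum, Finset.sum_eq_single m]
    · simpa using hγ
    · intro j hj hjm
      have hj' := (Finset.mem_filter.1 hj).2
      have : j - m ≠ 0 := by omega
      rw [map_mul, map_pow, h₁, zero_pow this, mul_zero]
    · intro hcon
      exact absurd (Finset.mem_filter.2 ⟨Finset.mem_range.2 (by omega), le_rfl⟩) hcon
  · have e1 : (∑ j ∈ (Finset.range (G.totalDegree + 1)).filter (fun j => m ≤ j),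
        C (eval ![1, γ] (homogeneousComponent j G)) * s₁ ^ (j - m)) * s₁ ^ m
        = aeval ![s₁, s₂] G - ∑ j ∈ (Finset.range (G.totalDegree + 1)).filter (fun j => m ≤ j),
          (aeval ![s₁, s₂] (homogeneousComponent j G)
            - C (eval ![1, γ] (homogeneousComponent j G)) * s₁ ^ j) := by
      have e2 : aeval ![s₁, s₂] G = ∑ j ∈ (Finset.range (G.totalDegree + 1)).filter (fun j => m ≤ j),
          aeval ![s₁, s₂] (homogeneousComponent j G) := by
        conv_lhs => rw [← sum_homogeneousComponent G]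
        rw [map_sum, Finset.sum_filter]
        refine Finset.sum_congr rfl fun j _ => ?_
        split_ifs with h
        · rfl
        · rw [hm j (by omega), map_zero]
      rw [e2, ← Finset.sum_sub_distrib, Finset.sum_mul]
      refine Finset.sum_congr rfl fun j hj => ?_
      have hj' := (Finset.mem_filter.1 hj).2
      rw [mul_assoc, pow_sub_mul_pow s₁ hj']
      ring
    rw [e1]
    refine Ideal.sub_mem _ (Ideal.mem_sup_right hGI) (Ideal.mem_sup_left (Ideal.sum_mem _ fun j hj => ?_))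
    have hj' := (Finset.mem_filter.1 hj).2
    have h2 := pj_homog_red s₁ s₂ γ _ j (homogeneousComponent_isHomogeneous j G)
    exact Ideal.mul_mono_right (Ideal.pow_le_pow_right (by omega)) h2

/-! ### PJ-red-e -/

theorem pj_red_comb_aux1 {R : Type*} [CommRing R] (𝔐 p 𝔮 : Ideal R) (M' : ℕ)
    (hpow : 𝔐 ^ (M' + 1) ≤ 𝔮 * 𝔐 ^ M' ⊔ p) (i : ℕ) : 𝔐 ^ (M' + i) ≤ 𝔮 ^ i * 𝔐 ^ M' ⊔ p := by
  induction i with
  | zero =>
    rw [pow_zero, one_mul, add_zero]
    exact le_sup_left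
  | succ i ih =>
    calc 𝔐 ^ (M' + (i + 1)) = 𝔐 ^ (M' + i) * 𝔐 := by rw [← add_assoc, pow_succ]
      _ ≤ (𝔮 ^ i * 𝔐 ^ M' ⊔ p) * 𝔐 := Ideal.mul_mono_left ih
      _ = 𝔮 ^ i * 𝔐 ^ (M' + 1) ⊔ p * 𝔐 := by rw [Ideal.sup_mul, mul_assoc, ← pow_succ]
      _ ≤ 𝔮 ^ i * (𝔮 * 𝔐 ^ M' ⊔ p) ⊔ p :=
        sup_le_sup (Ideal.mul_mono_right hpow) (Ideal.mul_le_left (I := p) (J := 𝔐))
      _ = (𝔮 ^ (i + 1) * 𝔐 ^ M' ⊔ 𝔮 ^ i * p) ⊔ p := by
        rw [Ideal.mul_sup, ← mul_assoc, ← pow_succ]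
      _ ≤ 𝔮 ^ (i + 1) * 𝔐 ^ M' ⊔ p :=
        sup_le (sup_le le_sup_left
          (le_trans (Ideal.mul_le_right (I := 𝔮 ^ i) (J := p)) le_sup_right)) le_sup_right

theorem pj_red_comb_aux2 {R : Type*} [CommRing R] (𝔮 : Ideal R) (s₁ s : R)
    (hq : 𝔮 = Ideal.span {s₁} ⊔ Ideal.span {s}) (k : ℕ) :
    𝔮 ^ (k + 1) ≤ Ideal.span {s₁ ^ (k + 1)} ⊔ Ideal.span {s} * 𝔮 ^ k := by
  have hs1 : Ideal.span {s₁} ≤ 𝔮 := by rw [hq]; exact le_sup_left
  induction k with
  | zero =>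
    rw [zero_add, pow_one, pow_one, pow_zero, mul_one]
    exact hq.le
  | succ k ih =>
    calc 𝔮 ^ (k + 1 + 1) = 𝔮 ^ (k + 1) * 𝔮 := pow_succ _ _
      _ ≤ (Ideal.span {s₁ ^ (k + 1)} ⊔ Ideal.span {s} * 𝔮 ^ k) * 𝔮 := Ideal.mul_mono_left ih
      _ = Ideal.span {s₁ ^ (k + 1)} * 𝔮 ⊔ Ideal.span {s} * 𝔮 ^ (k + 1) := by
        rw [Ideal.sup_mul, mul_assoc, ← pow_succ]
      _ ≤ Ideal.span {s₁ ^ (k + 1 + 1)} ⊔ Ideal.span {s} * 𝔮 ^ (k + 1) := by
        refine sup_le ?_ le_sup_right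
        conv_lhs => rw [hq]
        rw [Ideal.mul_sup, Ideal.span_singleton_mul_span_singleton, ← pow_succ]
        refine sup_le le_sup_left (le_trans ?_ le_sup_right)
        rw [mul_comm, ← Ideal.span_singleton_pow]
        exact Ideal.mul_mono_right (Ideal.pow_right_mono hs1 _)

theorem pj_red_comb {R : Type*} [CommRing R] (𝔐 p : Ideal R) (s₁ s₂ s u g : R) (hs : s = s₂ - g * s₁)
    (h₁ : s₁ ∈ 𝔐) (h₂ : s₂ ∈ 𝔐) (M m : ℕ) (hM : 1 ≤ M) (hm : 1 ≤ m)
    (hpow : 𝔐 ^ M ≤ Ideal.span {s₁, s₂} * 𝔐 ^ (M - 1) ⊔ p)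
    (hu : u * s₁ ^ m ∈ Ideal.span {s} * Ideal.span {s₁, s₂} ^ (m - 1) ⊔ p) :
    ∀ f ∈ 𝔐 ^ (M + m - 2 + 1), u * f ∈ Ideal.span {s} * 𝔐 ^ (M + m - 2) ⊔ p := by
  obtain ⟨M', rfl⟩ : ∃ M', M = M' + 1 := ⟨M - 1, by omega⟩
  obtain ⟨m', rfl⟩ : ∃ m', m = m' + 1 := ⟨m - 1, by omega⟩
  obtain ⟨𝔮, h𝔮⟩ : ∃ 𝔮 : Ideal R, 𝔮 = Ideal.span {s₁, s₂} := ⟨_, rfl⟩
  rw [← h𝔮] at hpow hu
  rw [Nat.add_sub_cancel] at hpow hu
  have he1 : M' + 1 + (m' + 1) - 2 = m' + M' := by omega
  rw [he1]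
  have hqM : 𝔮 ≤ 𝔐 := by
    rw [h𝔮, Ideal.span_le]
    intro x hx
    rcases hx with rfl | hx
    · exact h₁
    · rw [Set.mem_singleton_iff] at hx
      rw [hx]
      exact h₂
  have hq : 𝔮 = Ideal.span {s₁} ⊔ Ideal.span {s} := by
    rw [h𝔮, Ideal.span_insert]
    apply le_antisymm
    · refine sup_le le_sup_left ?_
      rw [Ideal.span_singleton_le_iff_mem]
      have : s₂ = g * s₁ + s := by rw [hs]; ring
      rw [this]
      exact Ideal.add_mem _ (Ideal.mem_sup_left (Ideal.mul_mem_left _ _ (Ideal.mem_span_singleton_self _)))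
        (Ideal.mem_sup_right (Ideal.mem_span_singleton_self _))
    · refine sup_le le_sup_left ?_
      rw [Ideal.span_singleton_le_iff_mem, hs]
      exact Ideal.sub_mem _ (Ideal.mem_sup_right (Ideal.mem_span_singleton_self _))
        (Ideal.mem_sup_left (Ideal.mul_mem_left _ _ (Ideal.mem_span_singleton_self _)))
  have h2 : Ideal.span {u} * 𝔮 ^ (m' + 1) ≤ Ideal.span {s} * 𝔮 ^ m' ⊔ p := by
    calc Ideal.span {u} * 𝔮 ^ (m' + 1)
        ≤ Ideal.span {u} * (Ideal.span {s₁ ^ (m' + 1)} ⊔ Ideal.span {s} * 𝔮 ^ m') :=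
          Ideal.mul_mono_right (pj_red_comb_aux2 𝔮 s₁ s hq m')
      _ = Ideal.span {u * s₁ ^ (m' + 1)} ⊔ Ideal.span {u} * (Ideal.span {s} * 𝔮 ^ m') := by
          rw [Ideal.mul_sup, Ideal.span_singleton_mul_span_singleton]
      _ ≤ Ideal.span {s} * 𝔮 ^ m' ⊔ p :=
          sup_le ((Ideal.span_singleton_le_iff_mem _).2 hu)
            (le_trans (Ideal.mul_le_right (I := Ideal.span {u}) (J := Ideal.span {s} * 𝔮 ^ m'))
              le_sup_left)
  have h3 : Ideal.span {u} * 𝔐 ^ (m' + M' + 1) ≤ Ideal.span {s} * 𝔐 ^ (m' + M') ⊔ p := by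
    calc Ideal.span {u} * 𝔐 ^ (m' + M' + 1) = Ideal.span {u} * 𝔐 ^ (M' + (m' + 1)) := by
          congr 2
          omega
      _ ≤ Ideal.span {u} * (𝔮 ^ (m' + 1) * 𝔐 ^ M' ⊔ p) :=
          Ideal.mul_mono_right (pj_red_comb_aux1 𝔐 p 𝔮 M' hpow (m' + 1))
      _ = Ideal.span {u} * 𝔮 ^ (m' + 1) * 𝔐 ^ M' ⊔ Ideal.span {u} * p := by
          rw [Ideal.mul_sup, mul_assoc]
      _ ≤ (Ideal.span {s} * 𝔮 ^ m' ⊔ p) * 𝔐 ^ M' ⊔ p :=
          sup_le_sup (Ideal.mul_mono_left h2) (Ideal.mul_le_right (I := Ideal.span {u}) (J := p))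
      _ = (Ideal.span {s} * (𝔮 ^ m' * 𝔐 ^ M') ⊔ p * 𝔐 ^ M') ⊔ p := by
          rw [Ideal.sup_mul, mul_assoc]
      _ ≤ Ideal.span {s} * 𝔐 ^ (m' + M') ⊔ p := by
          refine sup_le (sup_le (le_trans ?_ le_sup_left)
            (le_trans (Ideal.mul_le_left (I := p) (J := 𝔐 ^ M')) le_sup_right)) le_sup_right
          rw [pow_add]
          exact Ideal.mul_mono_right (Ideal.mul_mono_left (Ideal.pow_right_mono hqM _))
  intro f hf
  exact h3 (Ideal.mul_mem_mul (Ideal.mem_span_singleton_self u) hf)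

/-! ### glue -/

theorem pj_eval_dehom (H : MvPolynomial (Fin 2) ℂ) (γ : ℂ) :
    (aeval ![Polynomial.C 1, Polynomial.X] H : Polynomial ℂ).eval γ = eval ![1, γ] H := by
  have h : ((Polynomial.evalRingHom γ).comp
      (aeval ![Polynomial.C 1, Polynomial.X] : MvPolynomial (Fin 2) ℂ →ₐ[ℂ] Polynomial ℂ).toRingHom)
      = (eval ![1, γ] : MvPolynomial (Fin 2) ℂ →+* ℂ) := by
    apply MvPolynomial.ringHom_ext
    · intro c; simp
    · intro i; fin_cases i <;> simp
  exact congrArg (fun φ : MvPolynomial (Fin 2) ℂ →+* ℂ => φ H) h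

/-- **a linear reduction of the maximal ideal of a curve at the origin** -/
theorem pj_reduction0 (p : Ideal (MvPolynomial ι ℂ)) (hp : p.IsPrime)
    (h1 : vdim (zeroLocus ℂ p) = 1) (h0 : (0 : ι → ℂ) ∈ zeroLocus ℂ p)
    (hK : vdim (pjK 0 (zeroLocus ℂ p)) = 2) (Z : Finset (ι → ℂ))
    (hZ : ∀ z ∈ Z, z ∈ zeroLocus ℂ p ∧ z ≠ 0) :
    ∃ (s u : MvPolynomial ι ℂ) (c : ℕ), s.IsHomogeneous 1 ∧ NPos p ![s] ∧
      (∀ z ∈ Z, eval z s ≠ 0) ∧ eval 0 u ≠ 0 ∧
      ∀ f ∈ idealOfVars ι ℂ ^ (c + 1), u * f ∈ Ideal.span {s} * idealOfVars ι ℂ ^ c ⊔ p := by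
  classical
  obtain ⟨s₁, s₂, hs₁, hs₂, hff, hzero, M, hM1, hpow⟩ := pj_cone_forms p hp hK
  obtain ⟨G, hG0, hGI⟩ := pj_plane_rel p hp h1 s₁ s₂
  have hex : ∃ j, homogeneousComponent j G ≠ 0 :=
    ⟨G.totalDegree, ph_homogComp_totalDegree_ne_zero hG0⟩
  set m := Nat.find hex with hmdef
  have hm : ∀ j < m, homogeneousComponent j G = 0 := fun j hj => not_not.mp (Nat.find_min hex hj)
  have hmne : homogeneousComponent m G ≠ 0 := Nat.find_spec hex
  have e₁ : eval 0 s₁ = 0 := pj_homog_eval_zero s₁ 1 one_ne_zero hs₁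
  have e₂ : eval 0 s₂ = 0 := pj_homog_eval_zero s₂ 1 one_ne_zero hs₂
  have hm1 : 1 ≤ m := by
    by_contra hlt
    have hm0 : m = 0 := by omega
    apply hmne
    rw [hm0, homogeneousComponent_zero]
    have h2 := (pj_mem_zeroLocus_iff p 0).mp h0 _ hGI
    rw [pj_eval_aeval] at h2
    have h3 : pmap ![s₁, s₂] (0 : ι → ℂ) = 0 := by
      funext i; fin_cases i
      · exact e₁
      · exact e₂
    rw [h3] at h2
    have h4 : eval (0 : Fin 2 → ℂ) G = coeff 0 G := by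
      rw [← constantCoeff_eq]
      exact congrArg (fun φ : MvPolynomial (Fin 2) ℂ →+* ℂ => φ G) eval_zero
    rw [← h4, h2, C_0]
  -- the three conditions on `γ`
  have hA₁ := pj_dehom_ne_zero _ _ (homogeneousComponent_isHomogeneous G.totalDegree G)
    (ph_homogComp_totalDegree_ne_zero hG0)
  have hA₂ := pj_dehom_ne_zero _ _ (homogeneousComponent_isHomogeneous m G) hmne
  have hA₃ : (∏ z ∈ Z, (Polynomial.C (eval z s₂) - Polynomial.C (eval z s₁) * Polynomial.X)
      : Polynomial ℂ) ≠ 0 := by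
    rw [Finset.prod_ne_zero_iff]
    intro z hz h
    have c0 := congrArg (fun P : Polynomial ℂ => P.coeff 0) h
    have c1 := congrArg (fun P : Polynomial ℂ => P.coeff 1) h
    simp at c0 c1
    refine (hZ z hz).2 (hzero z ?_ c1 c0)
    have := pj_sub_K 0 (zeroLocus ℂ p) (hZ z hz).1 1
    simpa using this
  obtain ⟨γ, hγ⟩ : ∃ γ : ℂ, Polynomial.eval γ
      ((aeval ![Polynomial.C 1, Polynomial.X] (homogeneousComponent G.totalDegree G)) *
        (aeval ![Polynomial.C 1, Polynomial.X] (homogeneousComponent m G)) *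
        ∏ z ∈ Z, (Polynomial.C (eval z s₂) - Polynomial.C (eval z s₁) * Polynomial.X)) ≠ 0 := by
    by_contra hcon
    apply mul_ne_zero (mul_ne_zero hA₁ hA₂) hA₃
    apply Polynomial.funext
    intro γ
    rw [Polynomial.eval_zero]
    exact by_contra fun hx => hcon ⟨γ, hx⟩
  rw [Polynomial.eval_mul, Polynomial.eval_mul, pj_eval_dehom, pj_eval_dehom,
    Polynomial.eval_prod] at hγ
  obtain ⟨⟨hγ₁, hγ₂⟩, hγ₃⟩ : (eval ![1, γ] (homogeneousComponent G.totalDegree G) ≠ 0 ∧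
      eval ![1, γ] (homogeneousComponent m G) ≠ 0) ∧ _ := by
    simpa only [mul_ne_zero_iff] using hγ
  rw [Finset.prod_ne_zero_iff] at hγ₃
  set s := s₂ - C γ * s₁ with hs
  have hs1 : s.IsHomogeneous 1 := by
    have h2 : (C γ * s₁).IsHomogeneous 1 := by
      simpa using (isHomogeneous_C ι γ).mul hs₁
    exact hs₂.sub h2
  have hfin : FiltFin p ![s] :=
    pj_filtfin_dir p s₁ s₂ hs₁.totalDegree_le hs₂.totalDegree_le hff G hGI γ hγ₁
  have hlin : ∀ i : Fin 1, ((![s] : Fin 1 → MvPolynomial ι ℂ) i).totalDegree ≤ 1 := by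
    intro i; fin_cases i; exact hs1.totalDegree_le
  obtain ⟨u, hu0, hu⟩ := pj_plane_red p s₁ s₂ e₁ G hGI m hm1 hm γ hγ₂
  have hmem : ∀ f : MvPolynomial ι ℂ, f.IsHomogeneous 1 → f ∈ idealOfVars ι ℂ := fun f hf => by
    have := pj_homog_mem_pow f 1 hf
    rwa [pow_one] at this
  refine ⟨s, u, M + m - 2, hs1, ⟨hlin, ph_inj_of_filtfin_of_vdim p hp _ hlin hfin h1, hfin⟩, ?_, hu0,
    pj_red_comb (idealOfVars ι ℂ) p s₁ s₂ s u (C γ) hs (hmem _ hs₁) (hmem _ hs₂) M m hM1 hm1 hpow hu⟩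
  intro z hz
  have := hγ₃ z hz
  simp only [Polynomial.eval_sub, Polynomial.eval_C, Polynomial.eval_mul, Polynomial.eval_X] at this
  rw [hs, map_sub, map_mul, eval_C]
  intro h
  apply this
  rw [← h]; ring

end Claimed.Agent.R273
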