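import Claimed.Agent.R273.PhOrd
import Claimed.Agent.R273.RkDim

/-!
# Row 273, S3b, poly:polar, part 1: local and global codimension counts in the affine plane.  Architect + prover helper5.  Prefix `pmb_`.

`A = ℂ[x,y]`, `𝔪_q` the ideal of the point `q`, `d(s) = dim A/𝔪_q^s = binom(s+1,2)`.
* `pmb_proj` (any field, any finite `ι`): a linear projection `ρ : K[x] → K[x]_{≤D}` with kernel `𝔪_z^{D+1}` (`A = A_{≤D} ⊕ 𝔪_z^{D+1}`),
  from `ph_ord_trunc` and `ph_ord_eq_zero`.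
* `pmb_local`: `ord_q f ≥ m`, `ord_q g ≥ n` ⇒ `dim A/(𝔪_q^{m+n} + (f,g)) ≥ d(m+n) - d(m) - d(n) = m n`  (Fulton's local inequality):
  `(𝔪^{m+n} + (f,g)) ∩ A_{<m+n} ⊆ ρ (f A_{<n} + g A_{<m})`.
* `pmb_coprime`: powers of the ideals of distinct points are coprime; CRT.
* `pmb_core`: for `K ≥ K0` every subspace `I' ⊆ A_{≤K} ∩ (f,g)` has `dim I' + ∑_q m_q n_q ≤ dim A_{≤K}`.
-/

set_option autoImplicit false

namespace Claimed.Agent.R273

open MvPolynomial Module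

section general

variable {K : Type*} [Field K] {ι : Type*}

/-- the ideal of the point `z` -/
noncomputable def pmbM (z : ι → K) : Ideal (MvPolynomial ι K) :=
  Ideal.span (Set.range fun i => (X i - C (z i) : MvPolynomial ι K))

theorem pmb_mem_pow (z : ι → K) (r : ℕ) (g : MvPolynomial ι K) : g ∈ pmbM z ^ r ↔ OrdGE z r g :=
  (ph_ord_iff_mem_pow z r g).symm

/-- `K[x] = K[x]_{≤D} ⊕ 𝔪_z^{D+1}`: the projection. -/
theorem pmb_proj [Finite ι] (z : ι → K) (D : ℕ) :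
    ∃ ρ : MvPolynomial ι K →ₗ[K] restrictTotalDegree ι K D,
      (∀ x : restrictTotalDegree ι K D, ρ x.1 = x) ∧ ∀ w, ρ w = 0 ↔ OrdGE z (D + 1) w := by
  obtain ⟨tr, htr⟩ := ph_ord_trunc z D
  set e : restrictTotalDegree ι K D →ₗ[K] restrictTotalDegree ι K D :=
    tr.comp (restrictTotalDegree ι K D).subtype with he
  have hinj : Function.Injective e := by
    rw [← LinearMap.ker_eq_bot, eq_bot_iff]
    intro x hx
    have h1 : tr x.1 = 0 := hx
    have h2 := ph_ord_eq_zero ((htr _).mp h1)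
      (Nat.lt_succ_of_le ((mem_restrictTotalDegree _ _ _).mp x.2))
    exact Subtype.ext h2
  have hsurj : Function.Surjective e := LinearMap.injective_iff_surjective.mp hinj
  let E := LinearEquiv.ofBijective e ⟨hinj, hsurj⟩
  refine ⟨E.symm.toLinearMap.comp tr, fun x => ?_, fun w => ?_⟩
  · have : tr x.1 = E x := rfl
    simp [this]
  · rw [← htr]
    simp

theorem pmb_decomp [Finite ι] (z : ι → K) (D : ℕ) (u : MvPolynomial ι K) :
    ∃ p : MvPolynomial ι K, p.totalDegree ≤ D ∧ OrdGE z (D + 1) (u - p) := by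
  obtain ⟨ρ, h1, h2⟩ := pmb_proj z D
  refine ⟨(ρ u).1, (mem_restrictTotalDegree _ _ _).mp (ρ u).2, ?_⟩
  rw [← h2, map_sub, h1, sub_self]

/-- ideals of distinct points are coprime -/
theorem pmb_coprime {z w : ι → K} (h : z ≠ w) (r s : ℕ) : IsCoprime (pmbM z ^ r) (pmbM w ^ s) := by
  apply IsCoprime.pow
  rw [Ideal.isCoprime_iff_sup_eq, Ideal.eq_top_iff_one]
  obtain ⟨i, hi⟩ := Function.ne_iff.mp h
  have h1 : (X i - C (z i) : MvPolynomial ι K) ∈ pmbM z ⊔ pmbM w :=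
    Ideal.mem_sup_left (Ideal.subset_span ⟨i, rfl⟩)
  have h2 : (X i - C (w i) : MvPolynomial ι K) ∈ pmbM z ⊔ pmbM w :=
    Ideal.mem_sup_right (Ideal.subset_span ⟨i, rfl⟩)
  have h3 : (C (z i - w i) : MvPolynomial ι K) ∈ pmbM z ⊔ pmbM w := by
    have := Ideal.sub_mem _ h2 h1
    have e : (X i - C (w i) - (X i - C (z i)) : MvPolynomial ι K) = C (z i - w i) := by
      rw [map_sub]; ring
    rwa [e] at this
  have h4 := Ideal.mul_mem_left _ (C (z i - w i)⁻¹) h3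
  rwa [← map_mul, inv_mul_cancel₀ (sub_ne_zero.mpr hi), map_one] at h4

/-- a surjection of `K[x]` onto a finite dimensional space is already surjective on `K[x]_{≤ K0}` -/
theorem pmb_exhaust {Y : Type*} [AddCommGroup Y] [Module K Y] [Module.Finite K Y]
    (Ψ : MvPolynomial ι K →ₗ[K] Y) (hΨ : Function.Surjective Ψ) :
    ∃ K0 : ℕ, ∀ y, ∃ p : MvPolynomial ι K, p.totalDegree ≤ K0 ∧ Ψ p = y := by
  classical
  let b := Module.finBasis K Y
  choose u hu using fun j => hΨ (b j)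
  refine ⟨Finset.univ.sup fun j => (u j).totalDegree, fun y => ⟨∑ j, b.repr y j • u j, ?_, ?_⟩⟩
  · apply totalDegree_finsetSum_le
    intro j _
    refine (totalDegree_smul_le _ _).trans ?_
    exact Finset.le_sup (f := fun j => (u j).totalDegree) (Finset.mem_univ j)
  · rw [map_sum]
    simp only [map_smul, hu]
    exact b.sum_repr y

end general

section plane

local notation "A2" => MvPolynomial (Fin 2) ℂ

theorem pmb_choose_two (k : ℕ) : 2 * (2 + k).choose k = (k + 1) * (k + 2) := by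
  rw [add_comm 2 k, Nat.choose_symm_add]
  induction k with
  | zero => simp
  | succ k ih =>
    have h1 : (k + 1 + 2).choose 2 = (k + 2).choose 1 + (k + 2).choose 2 := Nat.choose_succ_succ _ _
    rw [h1, Nat.choose_one_right]
    nlinarith

/-- the local ideal `𝔪_q^s + (f, g)` -/
noncomputable def pmbB (q : Fin 2 → ℂ) (s : ℕ) (f g : A2) : Ideal A2 :=
  pmbM q ^ s ⊔ Ideal.span {f, g}

/-- `A_{≤D} → A / 𝔟` -/
noncomputable def pmbPi (𝔟 : Ideal A2) (D : ℕ) : restrictTotalDegree (Fin 2) ℂ D →ₗ[ℂ] (A2 ⧸ 𝔟) :=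
  (Ideal.Quotient.mkₐ ℂ 𝔟).toLinearMap.comp (restrictTotalDegree (Fin 2) ℂ D).subtype

theorem pmb_pi_surjective (q : Fin 2 → ℂ) (s : ℕ) (f g : A2) (D : ℕ) (hD : s ≤ D + 1) :
    Function.Surjective (pmbPi (pmbB q s f g) D) := by
  intro y
  obtain ⟨u, rfl⟩ := Ideal.Quotient.mk_surjective y
  obtain ⟨p, hp, hup⟩ := pmb_decomp q D u
  refine ⟨⟨p, (mem_restrictTotalDegree _ _ _).mpr hp⟩, ?_⟩
  change Ideal.Quotient.mk _ p = Ideal.Quotient.mk _ u
  rw [eq_comm, Ideal.Quotient.eq]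
  exact Ideal.mem_sup_left ((pmb_mem_pow q s _).mpr (ph_ord_mono hD hup))

theorem pmb_local_finite (q : Fin 2 → ℂ) (s : ℕ) (f g : A2) :
    Module.Finite ℂ (A2 ⧸ pmbB q s f g) :=
  Module.Finite.of_surjective _ (pmb_pi_surjective q s f g s (Nat.le_succ s))

/-- Fulton's local inequality `I_q(f,g) ≥ m n`, in the truncated form. -/
theorem pmb_local (q : Fin 2 → ℂ) (m n : ℕ) (f g : A2) (hf : OrdGE q m f) (hg : OrdGE q n g) :
    m * n ≤ finrank ℂ (A2 ⧸ pmbB q (m + n) f g) := by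
  rcases Nat.eq_zero_or_pos m with hm | hm
  · subst hm; simp
  rcases Nat.eq_zero_or_pos n with hn | hn
  · subst hn; simp
  obtain ⟨m', rfl⟩ : ∃ m', m = m' + 1 := ⟨m - 1, by omega⟩
  obtain ⟨n', rfl⟩ : ∃ n', n = n' + 1 := ⟨n - 1, by omega⟩
  set D := m' + n' + 1 with hD
  have hs : m' + 1 + (n' + 1) = D + 1 := by omega
  set 𝔟 := pmbB q (m' + 1 + (n' + 1)) f g with h𝔟
  have hsurj : Function.Surjective (pmbPi 𝔟 D) := pmb_pi_surjective q _ f g D hs.le
  obtain ⟨ρ, hρ1, hρ2⟩ := pmb_proj q D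
  let Λ : (restrictTotalDegree (Fin 2) ℂ n' × restrictTotalDegree (Fin 2) ℂ m') →ₗ[ℂ]
      restrictTotalDegree (Fin 2) ℂ D :=
    ρ.comp (((LinearMap.mulLeft ℂ f).comp (restrictTotalDegree (Fin 2) ℂ n').subtype).coprod
      ((LinearMap.mulLeft ℂ g).comp (restrictTotalDegree (Fin 2) ℂ m').subtype))
  have hker : LinearMap.ker (pmbPi 𝔟 D) ≤ LinearMap.range Λ := by
    intro x hx
    have hx' : x.1 ∈ 𝔟 := Ideal.Quotient.eq_zero_iff_mem.mp hx
    obtain ⟨w, hw, y, hy, hwy⟩ := Submodule.mem_sup.mp hx'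
    obtain ⟨a, b, rfl⟩ := Ideal.mem_span_pair.mp hy
    obtain ⟨a0, ha0, ha1⟩ := pmb_decomp q n' a
    obtain ⟨b0, hb0, hb1⟩ := pmb_decomp q m' b
    refine ⟨(⟨a0, (mem_restrictTotalDegree _ _ _).mpr ha0⟩,
      ⟨b0, (mem_restrictTotalDegree _ _ _).mpr hb0⟩), ?_⟩
    have h1 : OrdGE q (D + 1) (x.1 - (f * a0 + g * b0)) := by
      have e : x.1 - (f * a0 + g * b0) = w + f * (a - a0) + g * (b - b0) := by
        rw [← hwy]; ring
      rw [e]
      refine ph_ord_add (ph_ord_add ?_ ?_) ?_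
      · rw [← hs]; exact (pmb_mem_pow q _ _).mp hw
      · rw [← hs]; exact ph_ord_mul hf ha1
      · have := ph_ord_mul hg hb1
        rwa [show n' + 1 + (m' + 1) = D + 1 by omega] at this
    have h2 := (hρ2 _).mpr h1
    rw [map_sub, hρ1, sub_eq_zero] at h2
    rw [h2]
    simp [Λ]
  have h1 := LinearMap.finrank_range_add_finrank_ker (pmbPi 𝔟 D)
  rw [LinearMap.range_eq_top.mpr hsurj, finrank_top] at h1
  have h2 : finrank ℂ (LinearMap.ker (pmbPi 𝔟 D)) ≤ finrank ℂ (LinearMap.range Λ) :=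
    Submodule.finrank_mono hker
  have h3 : finrank ℂ (LinearMap.range Λ) ≤
      finrank ℂ (restrictTotalDegree (Fin 2) ℂ n' × restrictTotalDegree (Fin 2) ℂ m') :=
    LinearMap.finrank_range_le Λ
  rw [Module.finrank_prod, rk_finrank_restrict, rk_finrank_restrict] at h3
  rw [rk_finrank_restrict] at h1
  simp only [Fintype.card_fin] at h1 h3
  have e1 := pmb_choose_two D
  have e2 := pmb_choose_two n'
  have e3 := pmb_choose_two m'
  rw [hD] at e1 h1
  nlinarith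

/-- Global count: `∑_q m_q n_q ≤ dim A_{≤K} / (A_{≤K} ∩ (f,g))` for large `K`. -/
theorem pmb_core (f g : A2) (Q : Finset (Fin 2 → ℂ)) (m n : (Fin 2 → ℂ) → ℕ)
    (hf : ∀ q ∈ Q, OrdGE q (m q) f) (hg : ∀ q ∈ Q, OrdGE q (n q) g) :
    ∃ K0 : ℕ, ∀ K, K0 ≤ K → ∀ I' : Submodule ℂ A2, I' ≤ restrictTotalDegree (Fin 2) ℂ K →
      (∀ u ∈ I', u ∈ Ideal.span {f, g}) →
      finrank ℂ I' + ∑ q ∈ Q, m q * n q ≤ finrank ℂ (restrictTotalDegree (Fin 2) ℂ K) := by
  classical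
  let 𝔟 : Q → Ideal A2 := fun q => pmbB q.1 (m q.1 + n q.1) f g
  have hfin : ∀ q : Q, Module.Finite ℂ (A2 ⧸ 𝔟 q) := fun q => pmb_local_finite _ _ _ _
  have hcop : Pairwise (Function.onFun IsCoprime 𝔟) := by
    intro q q' hqq'
    have h0 := pmb_coprime (K := ℂ) (z := q.1) (w := q'.1) (fun h => hqq' (Subtype.ext h))
      (m q.1 + n q.1) (m q'.1 + n q'.1)
    rw [Ideal.isCoprime_iff_sup_eq] at h0
    rw [Function.onFun, Ideal.isCoprime_iff_sup_eq]
    exact eq_top_iff.mpr (h0 ▸ sup_le_sup le_sup_left le_sup_left)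
  let Ψ : A2 →ₗ[ℂ] (∀ q : Q, A2 ⧸ 𝔟 q) :=
    LinearMap.pi fun q => (Ideal.Quotient.mkₐ ℂ (𝔟 q)).toLinearMap
  have hΨ : Function.Surjective Ψ := by
    intro y
    obtain ⟨r, hr⟩ := Ideal.pi_quotient_surjective hcop y
    exact ⟨r, funext hr⟩
  obtain ⟨K0, hK0⟩ := pmb_exhaust Ψ hΨ
  refine ⟨K0, fun K hK I' hI' hI'' => ?_⟩
  let ΨK := Ψ.comp (restrictTotalDegree (Fin 2) ℂ K).subtype
  have hsurj : Function.Surjective ΨK := by
    intro y
    obtain ⟨p, hp, rfl⟩ := hK0 y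
    exact ⟨⟨p, (mem_restrictTotalDegree _ _ _).mpr (hp.trans hK)⟩, rfl⟩
  have h1 := LinearMap.finrank_range_add_finrank_ker ΨK
  rw [LinearMap.range_eq_top.mpr hsurj, finrank_top, Module.finrank_pi_fintype] at h1
  have h2 : finrank ℂ I' ≤ finrank ℂ (LinearMap.ker ΨK) := by
    let j : I' →ₗ[ℂ] LinearMap.ker ΨK := LinearMap.codRestrict _ (Submodule.inclusion hI') (by
      intro u
      rw [LinearMap.mem_ker]
      funext q
      change Ideal.Quotient.mk (𝔟 q) u.1 = 0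
      exact Ideal.Quotient.eq_zero_iff_mem.mpr (Ideal.mem_sup_right (hI'' u.1 u.2)))
    apply LinearMap.finrank_le_finrank_of_injective (f := j)
    intro u v huv
    have := congrArg (fun w : LinearMap.ker ΨK => (w.1.1 : A2)) huv
    exact Subtype.ext this
  have h3 : ∑ q ∈ Q, m q * n q ≤ ∑ q : Q, finrank ℂ (A2 ⧸ 𝔟 q) := by
    rw [← Finset.sum_coe_sort Q (fun q => m q * n q)]
    exact Finset.sum_le_sum fun q _ => pmb_local q.1 _ _ f g (hf q.1 q.2) (hg q.1 q.2)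
  omega

end plane

end Claimed.Agent.R273
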