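import Claimed.Agent.R273.PhOrd

/-!
# Row 273, S3b, poly:compression, part 1: the characteristic `p` construction.  Architect helper5.  Prefix `pmc_`.

`K` a perfect field of characteristic `p`, `n = card ι`, `J = (X_k ^ p : k)`.

* C1 `pmc_frob_decomp` (Frobenius digits).  `g = ∑_α c_α X^α`.  Put `I = image (α ↦ α mod p) (support g)` and
  `h i = ∑_{α ∈ support g, α mod p = i} monomial (α / p) ((frobeniusEquiv K p).symm c_α)`.
  `(h i)^p = ∑ monomial (p • (α / p)) c_α` (`sum_pow_char`, `monomial_pow`, `frobeniusEquiv_symm_pow_p`), and `α = α mod p + p • (α / p)`.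
  Degree: every monomial `β = α / p` of `h i` has `p * β.degree ≤ α.degree ≤ totalDegree g`.
* C2 `pmc_pow_sub_mem`: `u - C u(0) ∈ (X_k : k)`; `{a | a ^ p ∈ J}` contains the `X_k`, is stable under `+` (`add_pow_char`) and multiples
  (`mul_pow`): `Submodule.span_induction`.  `u^p - C (u(0)^p) = (u - C u(0))^p` (`sub_pow_char`).
* C3 `pmc_reduced_eq_zero`: `X_k ^ p = monomial (single k p) 1`; `mem_ideal_span_monomial_image`: every monomial of an element of `J`
  dominates some `single k p`.
* C4 `pmc_mem_of_degree`: a monomial `m` with all `m k < p` has degree `≤ n (p - 1)`.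
* C5 `pmc_shift_monomial`: `phSh z (monomial i 1) = ∏_k (X k + C (z k)) ^ i k`, `degreeOf_prod_le`, `degreeOf_pow_le`, `degreeOf_add_le`.
* C6 `pmc_vanish` (GLUE, proved below from C2..C5): `phSh z g = ∑ phSh z (X^i) * (phSh z (h i))^p ∈ J` (C4), so (C2)
  `w = ∑ C ((h i)(z)^p) * phSh z (X^i) ∈ J`; `w` is reduced (C5), so `w = 0` (C3); apply `phSh (-z)` and read off the coefficient of `X^i`.
* C7 `pmc_charp` (GLUE, proved below from C1, C6): `m = (n (p-1) + r) / r`, so `n (p-1) + 1 ≤ m r ≤ n (p-1) + r ≤ (n+1) p`;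
  `f^m = ∑ X^i (h i)^p`, `p deg (h i) ≤ m E`; some `(h i)(x_*) ≠ 0`.
-/

set_option autoImplicit false

namespace Claimed.Agent.R273

open MvPolynomial

variable {K : Type*} [Field K] {ι : Type*}

/-- C1. Frobenius digits. -/
theorem pmc_frob_decomp (p : ℕ) [Fact p.Prime] [CharP K p] [PerfectRing K p] (g : MvPolynomial ι K) :
    ∃ (I : Finset (ι →₀ ℕ)) (h : (ι →₀ ℕ) → MvPolynomial ι K),
      (∀ i ∈ I, ∀ k, i k < p) ∧ g = ∑ i ∈ I, monomial i 1 * h i ^ p ∧
        ∀ i ∈ I, p * (h i).totalDegree ≤ g.totalDegree := by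
  classical
  have hp : 0 < p := (Fact.out : p.Prime).pos
  let md : (ι →₀ ℕ) → (ι →₀ ℕ) := fun α => α.mapRange (· % p) (Nat.zero_mod p)
  let dv : (ι →₀ ℕ) → (ι →₀ ℕ) := fun α => α.mapRange (· / p) (Nat.zero_div p)
  have hsplit : ∀ α, md α + p • dv α = α := by
    intro α; ext k; simp [md, dv, Nat.mod_add_div]
  let root : K → K := (frobeniusEquiv K p).symm
  have hroot : ∀ c, root c ^ p = c := fun c => frobeniusEquiv_symm_pow_p K p c
  refine ⟨g.support.image md, fun i => ∑ α ∈ g.support.filter (fun α => md α = i),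
    monomial (dv α) (root (coeff α g)), ?_, ?_, ?_⟩
  · intro i hi k
    obtain ⟨α, _, rfl⟩ := Finset.mem_image.mp hi
    simp only [md, Finsupp.mapRange_apply]
    exact Nat.mod_lt _ hp
  · have key : ∀ i, monomial i (1 : K) * (∑ α ∈ g.support.filter (fun α => md α = i),
        monomial (dv α) (root (coeff α g))) ^ p =
        ∑ α ∈ g.support.filter (fun α => md α = i), monomial α (coeff α g) := by
      intro i
      rw [sum_pow_char, Finset.mul_sum]
      apply Finset.sum_congr rfl
      intro α hα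
      rw [monomial_pow, hroot, monomial_mul, one_mul]
      rw [← (Finset.mem_filter.mp hα).2, hsplit α]
    simp_rw [key]
    rw [Finset.sum_fiberwise_of_maps_to (fun α hα => Finset.mem_image_of_mem _ hα)]
    exact (support_sum_monomial_coeff g).symm
  · intro i _
    have h1 : (∑ α ∈ g.support.filter (fun α => md α = i),
        monomial (dv α) (root (coeff α g))).totalDegree ≤ g.totalDegree / p := by
      apply totalDegree_finsetSum_le
      intro α hα
      refine (totalDegree_monomial_le _ _).trans ?_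
      rw [Nat.le_div_iff_mul_le hp]
      have h2 : α.degree ≤ g.totalDegree := le_totalDegree (Finset.mem_filter.mp hα).1
      have h3 : (md α).degree + p * (dv α).degree = α.degree := by
        conv_rhs => rw [← hsplit α]
        rw [map_add, map_nsmul, smul_eq_mul]
      have h4 : ((dv α).sum fun _ => id) = (dv α).degree := by
        rw [Finsupp.degree_apply]; rfl
      rw [h4, mul_comm]
      omega
    calc p * _ ≤ p * (g.totalDegree / p) := Nat.mul_le_mul_left _ h1
      _ ≤ g.totalDegree := Nat.mul_div_le _ _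

/-- C2. `u^p ≡ u(0)^p` modulo `(X_k^p)`. -/
theorem pmc_pow_sub_mem (p : ℕ) [Fact p.Prime] [CharP K p] (u : MvPolynomial ι K) :
    u ^ p - C (constantCoeff u ^ p) ∈ Ideal.span (Set.range fun k : ι => (X k ^ p : MvPolynomial ι K)) := by
  set J := Ideal.span (Set.range fun k : ι => (X k ^ p : MvPolynomial ι K)) with hJ
  have hp : p ≠ 0 := (Fact.out : p.Prime).ne_zero
  have key : ∀ a ∈ Ideal.span (Set.range (X : ι → MvPolynomial ι K)), a ^ p ∈ J := by
    intro a ha
    induction ha using Submodule.span_induction with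
    | mem x hx =>
      obtain ⟨k, rfl⟩ := hx
      exact Ideal.subset_span ⟨k, rfl⟩
    | zero => rw [zero_pow hp]; exact J.zero_mem
    | add x y _ _ hx hy => rw [add_pow_char]; exact J.add_mem hx hy
    | smul c x _ hx => rw [smul_eq_mul, mul_pow]; exact J.mul_mem_left _ hx
  have h1 : u - C (constantCoeff u) ∈ Ideal.span (Set.range (X : ι → MvPolynomial ι K)) := by
    have h2 : OrdGE (0 : ι → K) 1 (u - C (constantCoeff u)) := by
      rw [ph_ord_one_iff]
      simp [constantCoeff_eq, eval_zero]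
    rw [ph_ord_iff, ph_phSh_zero, pow_one] at h2
    exact h2
  have h3 := key _ h1
  rwa [sub_pow_char, ← map_pow] at h3

/-- C3. A reduced polynomial in `(X_k^p)` is zero. -/
theorem pmc_reduced_eq_zero (p : ℕ) (w : MvPolynomial ι K)
    (hw : w ∈ Ideal.span (Set.range fun k : ι => (X k ^ p : MvPolynomial ι K)))
    (hred : ∀ m ∈ w.support, ∀ k, m k < p) : w = 0 := by
  classical
  have e : (Set.range fun k : ι => (X k ^ p : MvPolynomial ι K)) =
      (fun s => monomial s (1 : K)) '' (Set.range fun k : ι => Finsupp.single k p) := by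
    rw [← Set.range_comp]
    congr 1
    funext k
    simp [X_pow_eq_monomial]
  rw [e, mem_ideal_span_monomial_image] at hw
  by_contra hne
  obtain ⟨m, hm⟩ := support_nonempty.mpr hne
  obtain ⟨_, ⟨k, rfl⟩, hk⟩ := hw m hm
  have h1 := hk k
  rw [Finsupp.single_eq_same] at h1
  exact absurd (hred m hm k) (not_lt.mpr h1)

/-- C4. Order `> n (p - 1)` at the origin forces membership in `(X_k^p)`. -/
theorem pmc_mem_of_degree [Fintype ι] (p : ℕ) (w : MvPolynomial ι K)
    (hw : ∀ m ∈ w.support, Fintype.card ι * (p - 1) + 1 ≤ m.degree) :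
    w ∈ Ideal.span (Set.range fun k : ι => (X k ^ p : MvPolynomial ι K)) := by
  classical
  have e : (Set.range fun k : ι => (X k ^ p : MvPolynomial ι K)) =
      (fun s => monomial s (1 : K)) '' (Set.range fun k : ι => Finsupp.single k p) := by
    rw [← Set.range_comp]
    congr 1
    funext k
    simp [X_pow_eq_monomial]
  rw [e, mem_ideal_span_monomial_image]
  intro m hm
  have h1 := hw m hm
  by_contra hcon
  have h2 : ∀ k, m k ≤ p - 1 := by
    intro k
    by_contra hk
    apply hcon
    refine ⟨_, ⟨k, rfl⟩, ?_⟩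
    rw [Finsupp.single_le_iff]
    omega
  have h3 : m.degree ≤ Fintype.card ι * (p - 1) := by
    rw [Finsupp.degree_eq_sum]
    calc ∑ k, m k ≤ ∑ _k : ι, (p - 1) := Finset.sum_le_sum fun k _ => h2 k
      _ = Fintype.card ι * (p - 1) := by simp
  omega

/-- C5. Translating a monomial does not increase the partial degrees. -/
theorem pmc_shift_monomial (z : ι → K) (i : ι →₀ ℕ) :
    ∀ m ∈ (phSh z (monomial i (1 : K))).support, ∀ k, m k ≤ i k := by
  classical
  intro m hm k
  have h1 : m k ≤ degreeOf k (phSh z (monomial i (1 : K))) := monomial_le_degreeOf k hm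
  refine h1.trans ?_
  rw [phSh, aeval_monomial, map_one, one_mul, Finsupp.prod]
  refine (degreeOf_prod_le _ _ _).trans ?_
  have h2 : ∀ j ∈ i.support, degreeOf k ((X j + C (z j) : MvPolynomial ι K) ^ i j) ≤
      if j = k then i k else 0 := by
    intro j _
    refine (degreeOf_pow_le _ _ _).trans ?_
    have h3 : degreeOf k (X j + C (z j) : MvPolynomial ι K) ≤ if j = k then 1 else 0 := by
      refine (degreeOf_add_le _ _ _).trans ?_
      rw [degreeOf_C, degreeOf_X]
      simp [eq_comm]
    split_ifs with hjk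
    · subst hjk
      rw [if_pos rfl] at h3
      calc i j * _ ≤ i j * 1 := Nat.mul_le_mul_left _ h3
        _ = i j := mul_one _
    · rw [if_neg hjk] at h3
      rw [Nat.le_zero.mp h3, mul_zero]
  refine (Finset.sum_le_sum h2).trans ?_
  rw [Finset.sum_ite_eq']
  split_ifs <;> simp

/-- C6 (glue). All Frobenius digits vanish at a point of order `> n (p - 1)`. -/
theorem pmc_vanish [Fintype ι] (p : ℕ) [Fact p.Prime] [CharP K p] (I : Finset (ι →₀ ℕ))
    (h : (ι →₀ ℕ) → MvPolynomial ι K) (hI : ∀ i ∈ I, ∀ k, i k < p) (z : ι → K)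
    (hord : OrdGE z (Fintype.card ι * (p - 1) + 1) (∑ i ∈ I, monomial i 1 * h i ^ p)) :
    ∀ i ∈ I, eval z (h i) = 0 := by
  classical
  set J := Ideal.span (Set.range fun k : ι => (X k ^ p : MvPolynomial ι K)) with hJ
  have h1 : phSh z (∑ i ∈ I, monomial i 1 * h i ^ p) ∈ J := pmc_mem_of_degree p _ hord
  rw [map_sum] at h1
  set w : MvPolynomial ι K := ∑ i ∈ I, C (eval z (h i) ^ p) * phSh z (monomial i 1) with hw
  have h2 : w ∈ J := by
    have : w = ∑ i ∈ I, phSh z (monomial i 1 * h i ^ p) - ∑ i ∈ I, phSh z (monomial i 1) *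
        ((phSh z (h i)) ^ p - C (constantCoeff (phSh z (h i)) ^ p)) := by
      rw [← Finset.sum_sub_distrib]
      apply Finset.sum_congr rfl
      intro i _
      rw [map_mul, map_pow (phSh z), ph_constantCoeff_phSh]; ring
    rw [this]
    exact J.sub_mem h1 (J.sum_mem fun i _ => J.mul_mem_left _ (pmc_pow_sub_mem p _))
  have h3 : w = 0 := by
    apply pmc_reduced_eq_zero p w h2
    intro m hm k
    obtain ⟨i, hi, hmi⟩ := Finset.mem_biUnion.mp (support_sum hm)
    have hmi' : m ∈ (phSh z (monomial i (1 : K))).support := by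
      rw [mem_support_iff, coeff_C_mul] at hmi
      exact mem_support_iff.mpr (right_ne_zero_of_mul hmi)
    exact (pmc_shift_monomial z i m hmi' k).trans_lt (hI i hi k)
  have h4 : ∑ i ∈ I, C (eval z (h i) ^ p) * monomial i (1 : K) = 0 := by
    have h5 := congrArg (phSh (-z)) h3
    rw [hw, map_sum, map_zero] at h5
    rw [← h5]
    apply Finset.sum_congr rfl
    intro i _
    rw [map_mul, ph_phSh_neg]
    congr 1
    simp [phSh]
  intro i hi
  have h6 := congrArg (coeff i) h4
  rw [coeff_sum, coeff_zero] at h6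
  simp only [coeff_C_mul, coeff_monomial, mul_ite, mul_one, mul_zero] at h6
  rw [Finset.sum_ite_eq' I i, if_pos hi] at h6
  exact pow_eq_zero_iff (Fact.out : p.Prime).ne_zero |>.mp h6

/-- C7 (glue). Multiplicity compression over a perfect field of characteristic `p ≥ r`. -/
theorem pmc_charp [Fintype ι] (p : ℕ) [Fact p.Prime] [CharP K p] [PerfectRing K p]
    (S : Set (ι → K)) (xs : ι → K) (f : MvPolynomial ι K) (E r : ℕ) (hr : 1 ≤ r) (hrp : r ≤ p)
    (hE : f.totalDegree ≤ E) (hS : ∀ z ∈ S, OrdGE z r f) (hx : eval xs f ≠ 0) :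
    ∃ g : MvPolynomial ι K, r * g.totalDegree ≤ (Fintype.card ι + 1) * E ∧
      (∀ z ∈ S, eval z g = 0) ∧ eval xs g ≠ 0 := by
  have hp : 0 < p := (Fact.out : p.Prime).pos
  set n := Fintype.card ι with hn
  set m := (n * (p - 1) + r) / r with hm
  have hm1 : n * (p - 1) + 1 ≤ m * r := by
    have h0 := Nat.div_add_mod (n * (p - 1) + r) r
    have h1 := Nat.mod_lt (n * (p - 1) + r) hr
    rw [← hm, mul_comm] at h0
    omega
  have hm2 : m * r ≤ n * (p - 1) + r := Nat.div_mul_le_self _ _
  obtain ⟨I, h, hI, hdec, hdeg⟩ := pmc_frob_decomp p (f ^ m)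
  have hv : ∀ z ∈ S, ∀ i ∈ I, eval z (h i) = 0 := by
    intro z hz
    apply pmc_vanish p I h hI z
    rw [← hdec]
    exact ph_ord_mono hm1 (ph_ord_pow (hS z hz) m)
  have hex : ∃ i ∈ I, eval xs (h i) ≠ 0 := by
    by_contra hcon
    push Not at hcon
    apply hx
    have h0 : eval xs (f ^ m) = 0 := by
      rw [hdec, map_sum]
      apply Finset.sum_eq_zero
      intro i hi
      rw [map_mul, map_pow, hcon i hi, zero_pow hp.ne', mul_zero]
    rw [map_pow] at h0
    exact eq_zero_of_pow_eq_zero h0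
  obtain ⟨i, hi, hne⟩ := hex
  refine ⟨h i, ?_, fun z hz => hv z hz i hi, hne⟩
  have h1 : p * (h i).totalDegree ≤ m * E :=
    (hdeg i hi).trans ((totalDegree_pow _ _).trans (Nat.mul_le_mul_left _ hE))
  have h2 : m * r ≤ (n + 1) * p := by
    refine hm2.trans ?_
    have : n * (p - 1) ≤ n * p := Nat.mul_le_mul_left _ (Nat.sub_le _ _)
    nlinarith
  refine le_of_mul_le_mul_left (a := p) ?_ hp
  calc p * (r * (h i).totalDegree) = r * (p * (h i).totalDegree) := by ring
    _ ≤ r * (m * E) := Nat.mul_le_mul_left _ h1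
    _ = (m * r) * E := by ring
    _ ≤ ((n + 1) * p) * E := Nat.mul_le_mul_right _ h2
    _ = p * ((n + 1) * E) := by ring

end Claimed.Agent.R273
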