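import Claimed.Agent.R273.PrfPath

/-!
# Row 273, S5: THE ENVELOPE STEP `prf_env_step`, cut into leaves (architect helper161).  Prefix `prfe_`.

`T = ⌊T_s(t)⌋₊`, `W := prfpW S' T` = the polynomials of degree `≤ T` vanishing on `S'`, `J := Ideal.span W`.

LEAF PRFE-bad (`prfe_bad`): `𝒞 := (prf_carriers_finite π j).toFinset`; `prfp_generic W 𝒞` gives `g ∈ W` with `g ∉ p` for every `p ∈ 𝒞` not containing `W`.  For `x ∈ Bad`: `g(x) = 0` (`prfp_mem_W`, `x ∈ S'`), every `p ∈ prfCarr (sys j) x` lies in `𝒞` (`⟨x, hS' .., hp⟩`), so `g ∉ p`: `PrfProperAt`.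
   `hπ.nocap t ht j hj h1 h2 g _ Bad _ _`; `deg g ≤ T ≤ T_s(t)`.
LEAF PRFE-good (`prfe_good`, `prfe_pigeon`).
 * `prfe_good`: `J ≤ p` (`Ideal.span_le`), `Ideal.exists_minimalPrimes_le`: `q ≤ p`; `Z(p) ⊆ Z(q)` (`zeroLocus_anti_mono`); `vdim Z(p) = n - j` (`prf_pure`), `ph_vdim_mono`, `ph_vdim_le` (`Fintype.card_fin`).
 * `prfe_pigeon`: choose `hx` for `x ∈ Gd`; `Gd = ⋃_{h ∈ range (n+1)} Gd.filter (hx = h)`; if all fibres had `(n+1) |fibre| < |Gd|` the sum would be `< |Gd|` (`Finset.card_eq_sum_card_fiberwise`, `Finset.exists_lt_card_fiber_of_..` or `Finset.exists_le_of_sum_le`).  For `Gd = ∅` take `h = n`, `S'' = ∅`.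
LEAF PRFE-ineq (`prfe_ineq`): `𝒬 :=` the minimal primes of `J` of dimension `h` (`Ideal.finite_minimalPrimes_of_isNoetherianRing`, `Set.Finite.toFinset`, `Finset.filter`), `a := prfDeg 𝒬`.
   `hA S'' T' ≤ hA (prfUn 𝒬) T'` (`rk_hA_mono_set`) `≤ a binom(T'+h,h)` (`prf_up`).     `a binom(T+h,h) ≤ (n+1)^n hA (prfUn 𝒬) T` (`prf_low_at` with `ν = Unit`, `s = {()}`, `G _ = W`, `L _ = T`; `Finset.sum_singleton`).
   `hA (prfUn 𝒬) T ≤ hA S' T` (`prfp_rk_forced` with the space `restrictTotalDegree (Fin n) ℂ T`: a polynomial of degree `≤ T` vanishing on `S'` is in `W ⊆ J ≤ q`, so vanishes on `Z(q)`).   Multiply.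
`prf_env_step` is PROVED from these.
-/

set_option autoImplicit false

namespace Claimed.Agent.R273

open MvPolynomial Module

variable {n : ℕ}

theorem prfe_bad (π : PrfPiece n) (B s κ : ℝ) (grid : Finset ℝ) (hπ : π.Ok B s κ grid)
    (t : ℝ) (ht : t ∈ grid) (j : ℕ) (hj : j ≤ n) (h1 : ∀ i < j, π.τ i ≤ t)
    (h2 : ∀ i, j ≤ i → i < n → t < π.τ i) (S' : Finset (Fin n → ℂ)) (hS' : S' ⊆ π.S) (T : ℕ)
    (hT : (T : ℝ) ≤ prfT B s t) (Bad : Finset (Fin n → ℂ)) (hBad : Bad ⊆ S')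
    (h : ∀ x ∈ Bad, ∀ p ∈ prfCarr (prfSys π.f j) x,
      ∃ g ∈ prfpW (S' : Set (Fin n → ℂ)) T, g ∉ p) :
    (Bad.card : ℝ) ≤ κ * π.S.card := by
  classical
  obtain ⟨g, hgW, hg⟩ := prfp_generic (prfpW (S' : Set (Fin n → ℂ)) T)
    (prf_carriers_finite π j).toFinset
  obtain ⟨hdeg, hzero⟩ := (prfp_mem_W _ _ g).mp hgW
  refine hπ.nocap t ht j hj h1 h2 g (le_trans (by exact_mod_cast hdeg) hT) Bad
    (hBad.trans hS') fun x hx => ⟨hzero x (Finset.mem_coe.2 (hBad hx)), fun p hp => ?_⟩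
  exact hg p ((prf_carriers_finite π j).mem_toFinset.2 ⟨x, hS' (hBad hx), hp⟩) (h x hx p hp)

theorem prfe_good (π : PrfPiece n) (hπ : π.Path) (j : ℕ) (hj : j ≤ n) (x : Fin n → ℂ)
    (hx : x ∈ π.S) (W : Submodule ℂ (PrfPol n)) (p : Ideal (PrfPol n))
    (hp : p ∈ prfCarr (prfSys π.f j) x) (hW : ∀ g ∈ W, g ∈ p) :
    ∃ q ∈ (Ideal.span (W : Set (PrfPol n))).minimalPrimes, x ∈ zeroLocus ℂ q ∧
      n - j ≤ vdim (zeroLocus ℂ q) ∧ vdim (zeroLocus ℂ q) ≤ n := by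
  have := prf_carr_prime hp
  have hJ : Ideal.span (W : Set (PrfPol n)) ≤ p := Ideal.span_le.2 fun g hg => hW g hg
  obtain ⟨q, hq, hqp⟩ := Ideal.exists_minimalPrimes_le hJ
  have hsub : zeroLocus ℂ p ⊆ zeroLocus ℂ q := zeroLocus_anti_mono hqp
  have hdim : vdim (zeroLocus ℂ p) = n - j :=
    (prf_pure π.f j x fun i hi => hπ x hx i (lt_of_lt_of_le hi hj)).2 p hp
  refine ⟨q, hq, hsub hp.2, hdim ▸ ph_vdim_mono hsub, ?_⟩
  have := ph_vdim_le (zeroLocus ℂ q)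
  rwa [Fintype.card_fin] at this

theorem prfe_pigeon {α : Type*} (Gd : Finset α) (lo n : ℕ) (hlo : lo ≤ n) (P : α → ℕ → Prop)
    (h : ∀ x ∈ Gd, ∃ k, lo ≤ k ∧ k ≤ n ∧ P x k) :
    ∃ k, lo ≤ k ∧ k ≤ n ∧ ∃ S'' ⊆ Gd, (∀ x ∈ S'', P x k) ∧ Gd.card ≤ (n + 1) * S''.card := by
  classical
  by_cases hne : Gd.Nonempty
  · -- choose the exponent of every point
    have h' : ∀ x : α, ∃ k, x ∈ Gd → lo ≤ k ∧ k ≤ n ∧ P x k := by
      intro x
      by_cases hx : x ∈ Gd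
      · obtain ⟨k, hk⟩ := h x hx
        exact ⟨k, fun _ => hk⟩
      · exact ⟨0, fun hx' => absurd hx' hx⟩
    choose kx hkx using h'
    have hmaps : ∀ x ∈ Gd, kx x ∈ Finset.range (n + 1) := fun x hx =>
      Finset.mem_range.2 (Nat.lt_succ_of_le (hkx x hx).2.1)
    have hsum := Finset.card_eq_sum_card_fiberwise hmaps
    by_contra hcon
    push Not at hcon
    have hlt : ∀ k ∈ Finset.range (n + 1), (n + 1) * (Gd.filter fun x => kx x = k).card ≤ Gd.card := by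
      intro k hk
      by_cases hemp : (Gd.filter fun x => kx x = k).Nonempty
      · obtain ⟨x, hx⟩ := hemp
        obtain ⟨hxG, rfl⟩ := Finset.mem_filter.1 hx
        exact (hcon (kx x) (hkx x hxG).1 (hkx x hxG).2.1 _ (Finset.filter_subset _ _)
          fun y hy => by
            obtain ⟨hyG, hyk⟩ := Finset.mem_filter.1 hy
            exact hyk ▸ (hkx y hyG).2.2).le
      · rw [Finset.not_nonempty_iff_eq_empty.1 hemp]
        simp
    -- a nonempty fibre gives a strict inequality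
    obtain ⟨x0, hx0⟩ := hne
    have hstrict : (n + 1) * (Gd.filter fun x => kx x = kx x0).card < Gd.card :=
      hcon (kx x0) (hkx x0 hx0).1 (hkx x0 hx0).2.1 _ (Finset.filter_subset _ _)
        fun y hy => by
          obtain ⟨hyG, hyk⟩ := Finset.mem_filter.1 hy
          exact hyk ▸ (hkx y hyG).2.2
    have htot : ∑ k ∈ Finset.range (n + 1), (n + 1) * (Gd.filter fun x => kx x = k).card
        < ∑ _k ∈ Finset.range (n + 1), Gd.card :=
      Finset.sum_lt_sum hlt ⟨kx x0, hmaps x0 hx0, hstrict⟩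
    rw [← Finset.mul_sum, ← hsum, Finset.sum_const, Finset.card_range, smul_eq_mul] at htot
    exact lt_irrefl _ htot
  · rw [Finset.not_nonempty_iff_eq_empty] at hne
    subst hne
    exact ⟨n, hlo, le_rfl, ∅, Finset.Subset.refl _, by simp, by simp⟩

theorem prfe_ineq (S' : Finset (Fin n → ℂ)) (T : ℕ) (hT : 1 ≤ T) (h : ℕ)
    (S'' : Finset (Fin n → ℂ))
    (hS'' : ∀ x ∈ S'', ∃ q ∈ (Ideal.span (prfpW (S' : Set (Fin n → ℂ)) T :
      Set (PrfPol n))).minimalPrimes, x ∈ zeroLocus ℂ q ∧ vdim (zeroLocus ℂ q) = h) (T' : ℕ) :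
    hA (S'' : Set (Fin n → ℂ)) T' * (T + h).choose h ≤
      (n + 1) ^ n * hA (S' : Set (Fin n → ℂ)) T * (T' + h).choose h := by
  classical
  set W := prfpW (S' : Set (Fin n → ℂ)) T with hW
  have hfin : (Ideal.span (W : Set (PrfPol n))).minimalPrimes.Finite :=
    Ideal.finite_minimalPrimes_of_isNoetherianRing _ _
  set 𝒬 : Finset (Ideal (PrfPol n)) :=
    hfin.toFinset.filter fun q => vdim (zeroLocus ℂ q) = h with h𝒬
  have hmem : ∀ q, q ∈ 𝒬 ↔ q ∈ (Ideal.span (W : Set (PrfPol n))).minimalPrimes ∧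
      vdim (zeroLocus ℂ q) = h := by
    intro q
    rw [h𝒬, Finset.mem_filter, hfin.mem_toFinset]
  -- upper bound at `T'`
  have hsub : (S'' : Set (Fin n → ℂ)) ⊆ prfUn 𝒬 := by
    intro x hx
    obtain ⟨q, hq, hxq, hqd⟩ := hS'' x (Finset.mem_coe.1 hx)
    exact Set.mem_iUnion₂.2 ⟨q, (hmem q).2 ⟨hq, hqd⟩, hxq⟩
  have hup : hA (S'' : Set (Fin n → ℂ)) T' ≤ prfDeg 𝒬 * (T' + h).choose h :=
    (rk_hA_mono_set T' hsub).trans
      (prf_up 𝒬 (fun q hq => ⟨((hmem q).1 hq).1.1.1, ((hmem q).1 hq).2⟩) T')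
  -- lower bound at `T`
  have hfam : PrfFam ({()} : Finset Unit) (fun _ => (W : Set (PrfPol n))) (fun _ => T) h 𝒬 :=
    ⟨fun _ _ => hT, fun _ _ g hg => ((prfp_mem_W _ _ g).mp hg).1, fun q hq => ((hmem q).1 hq).2,
      fun q hq => ⟨(), Finset.mem_singleton_self _, ((hmem q).1 hq).1⟩⟩
  have hlow := prf_low_at ({()} : Finset Unit) (fun _ => (W : Set (PrfPol n))) (fun _ => T) h 𝒬 hfam
  rw [Finset.sum_singleton] at hlow
  -- forced
  have hforced : hA (prfUn 𝒬) T ≤ hA (S' : Set (Fin n → ℂ)) T :=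
    prfp_forced _ T 𝒬 fun q hq g hg => ((hmem q).1 hq).1.1.2 (Ideal.subset_span hg)
  calc hA (S'' : Set (Fin n → ℂ)) T' * (T + h).choose h
      ≤ prfDeg 𝒬 * (T' + h).choose h * (T + h).choose h := Nat.mul_le_mul_right _ hup
    _ = prfDeg 𝒬 * (T + h).choose h * (T' + h).choose h := by ring
    _ ≤ (n + 1) ^ n * hA (prfUn 𝒬) T * (T' + h).choose h := Nat.mul_le_mul_right _ hlow
    _ ≤ (n + 1) ^ n * hA (S' : Set (Fin n → ℂ)) T * (T' + h).choose h :=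
        Nat.mul_le_mul_right _ (Nat.mul_le_mul_left _ hforced)

/-- ENVELOPE STEP: on a plateau after `j` cuts (grid time `t`), a subset `S'` has a subset `S''` of
size `≥ (|S'| - κ|S|)/(n+1)` and an exponent `h ≥ n - j` with
`hA S'' T' * binom(T+h,h) ≤ (n+1)^n * hA S' T * binom(T'+h,h)` for ALL `T'`; `T = ⌊T_s(t)⌋`. -/
theorem prf_env_step (π : PrfPiece n) (B s κ : ℝ) (grid : Finset ℝ) (hπ : π.Ok B s κ grid)
    (t : ℝ) (ht : t ∈ grid) (j : ℕ) (hj : j ≤ n) (h1 : ∀ i < j, π.τ i ≤ t)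
    (h2 : ∀ i, j ≤ i → i < n → t < π.τ i) (hT : 1 ≤ prfT B s t)
    (S' : Finset (Fin n → ℂ)) (hS' : S' ⊆ π.S) :
    ∃ (S'' : Finset (Fin n → ℂ)) (h : ℕ), S'' ⊆ S' ∧ n - j ≤ h ∧ h ≤ n ∧
      (S'.card : ℝ) - κ * π.S.card ≤ (n + 1) * (S''.card : ℝ) ∧
      ∀ T' : ℕ, hA (S'' : Set (Fin n → ℂ)) T' * (⌊prfT B s t⌋₊ + h).choose h ≤
        (n + 1) ^ n * hA (S' : Set (Fin n → ℂ)) ⌊prfT B s t⌋₊ * (T' + h).choose h := by
  classical
  set T := ⌊prfT B s t⌋₊ with hTdef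
  have hT1 : 1 ≤ T := Nat.le_floor (by simpa using hT)
  have hTle : (T : ℝ) ≤ prfT B s t := Nat.floor_le (le_trans zero_le_one hT)
  set W := prfpW (S' : Set (Fin n → ℂ)) T with hW
  set Bad := S'.filter (fun x => ∀ p ∈ prfCarr (prfSys π.f j) x, ∃ g ∈ W, g ∉ p) with hBad
  set Gd := S'.filter (fun x => ¬ ∀ p ∈ prfCarr (prfSys π.f j) x, ∃ g ∈ W, g ∉ p) with hGd
  have hbad : (Bad.card : ℝ) ≤ κ * π.S.card :=
    prfe_bad π B s κ grid hπ t ht j hj h1 h2 S' hS' T hTle Bad (Finset.filter_subset _ _)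
      fun x hx => (Finset.mem_filter.mp hx).2
  have hcard : Bad.card + Gd.card = S'.card := Finset.card_filter_add_card_filter_not _
  obtain ⟨h, hlo, hhi, S'', hS''sub, hS''P, hS''card⟩ := prfe_pigeon Gd (n - j) n (Nat.sub_le _ _)
    (fun x k => ∃ q ∈ (Ideal.span (W : Set (PrfPol n))).minimalPrimes, x ∈ zeroLocus ℂ q ∧
      vdim (zeroLocus ℂ q) = k) (by
      intro x hx
      obtain ⟨hxS', hxn⟩ := Finset.mem_filter.mp hx
      push_neg at hxn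
      obtain ⟨p, hp, hpW⟩ := hxn
      obtain ⟨q, hq, hxq, hq1, hq2⟩ := prfe_good π hπ.path j hj x (hS' hxS') W p hp hpW
      exact ⟨_, hq1, hq2, q, hq, hxq, rfl⟩)
  refine ⟨S'', h, hS''sub.trans (Finset.filter_subset _ _), hlo, hhi, ?_, ?_⟩
  · have e1 : (S'.card : ℝ) = Bad.card + Gd.card := by exact_mod_cast hcard.symm
    have e2 : (Gd.card : ℝ) ≤ (n + 1) * (S''.card : ℝ) := by exact_mod_cast hS''card
    linarith
  · intro T'
    exact prfe_ineq S' T hT1 h S'' hS''P T'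

end Claimed.Agent.R273
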