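import Claimed.Agent.R273.PrfDefs
import Claimed.Agent.R273.PhDim

/-!
# Row 273, S5: THE VARIETY-LEVEL FACTS used by profiles.tex, part 1: definitions and BRIDGES to POLY-A (architect helper161)

Language: primes of `ℂ[x_1..x_n]`, `zeroLocus`, `vdim`, `vdeg`, `hA`.  POLY-A (helper94: `PhDeg.lean`, `PhDim.lean`) speaks of sets `V` with `IsVar V`, `IsCompOf V G`.
Dictionary: `IsVar (zeroLocus ℂ p)` for `p` prime (`⟨p, hp, rfl⟩`); `IsCompOf (zeroLocus ℂ p) G` for `p ∈ (span G).minimalPrimes`; `p ↦ zeroLocus ℂ p` is injective on primes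
(`vanishingIdeal_zeroLocus_eq_radical`, `Ideal.IsPrime.radical`), so `∑_{p ∈ 𝒜} vdeg Z(p) = ∑_{V ∈ 𝒜.image Z} vdeg V` (`Finset.sum_image`) and `prfUn 𝒜 = ⋃ V ∈ 𝒜.image Z, V`.   `Fintype.card (Fin n) = n`.

LEAF PRF-facts-a (`prf_dim`, `prf_dim_lt`, `prf_point`, `prf_deg_pos`, `prf_cut_dim`, `prf_bezout_cut`).
* `prf_dim`       = `ph_height_add_vdim` (commute the sum).      * `prf_deg_pos` = `ph_vdeg_pos`.
* `prf_dim_lt`    `g ∈ q \ p` (`SetLike.lt_iff_le_and_exists`); `ph_vdim_lt_of_ssubset` with `V = Z(p)`, `W = Z(q) ⊆ Z(p)` (`zeroLocus_anti_mono`), `g = 0` on `W`, `g ≠ 0` somewhere on `V` (else `g ∈ vanishingIdeal (Z p) = p`), `W ≠ ∅` (`ph_isVar_nonempty`).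
* `prf_point`     `ph_point_of_vdim_zero`; `vdeg {x} = 1`: `vdeg ≥ 1` (`ph_vdeg_pos`), `≤ 1`: `Nat.sInf_le` with `hA {x} D ≤ ncard = 1` (`rk_hA_le_ncard`), `vdim = 0`, `choose _ 0 = 1`.
* `prf_cut_dim`   `ph_pit` with `V = Z(p)`, `G₀ = (p : Set _)`, `Zl G₀ = Z(p)` (unfold), `span (insert g p) = p ⊔ span {g}` (`Ideal.span_insert`, `Ideal.span_eq`, `sup_comm`).
* `prf_bezout_cut` `ph_bezout_cut` with the same `G₀`, `𝒲 = 𝒬.image Z`.
LEAF PRF-facts-b (`prf_up`, `prf_low`, `prf_low_at`): `ph_hilbert_up_family`, `ph_hilbert_low_union`; `prf_low_at`: `prf_low` at `D = (n+1) Λ`, `Λ = ∑ L a` (`D - nΛ = Λ`) and `rk_hA_mul_le` (`hA T ((n+1) Λ) ≤ (n+1)^n hA T Λ`).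
-/

set_option autoImplicit false

namespace Claimed.Agent.R273

open MvPolynomial Module

variable {n : ℕ}

/-- Gradient of a polynomial at a point. -/
noncomputable def prfGrad (f : PrfPol n) (x : Fin n → ℂ) : Fin n → ℂ := fun i => eval x (pderiv i f)

/-- Rank of the Jacobian of a set of polynomials at a point. -/
noncomputable def prfJacRk (F : Set (PrfPol n)) (x : Fin n → ℂ) : ℕ :=
  finrank ℂ (Submodule.span ℂ ((fun f => prfGrad f x) '' F))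

/-- A finite family of `k`-dimensional components of finitely many systems `G a` of degrees `≤ L a`
("union of systems" of poly:hilbert). -/
structure PrfFam {ν : Type} (s : Finset ν) (G : ν → Set (PrfPol n)) (L : ν → ℕ) (k : ℕ)
    (𝒜 : Finset (Ideal (PrfPol n))) : Prop where
  one_le : ∀ a ∈ s, 1 ≤ L a
  deg : ∀ a ∈ s, ∀ g ∈ G a, g.totalDegree ≤ L a
  dim : ∀ p ∈ 𝒜, vdim (zeroLocus ℂ p) = k
  comp : ∀ p ∈ 𝒜, ∃ a ∈ s, p ∈ (Ideal.span (G a)).minimalPrimes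

/-- Sum over a family of primes = sum over the family of their zero loci. -/
theorem prf_sum_image (𝒜 : Finset (Ideal (PrfPol n))) (h : ∀ p ∈ 𝒜, p.IsPrime) :
    ∑ V ∈ 𝒜.image (fun p => zeroLocus ℂ p), vdeg V = prfDeg 𝒜 := by
  classical
  rw [prfDeg, Finset.sum_image]
  intro p hp q hq hpq
  exact ph_zeroLocus_inj (h p hp) (h q hq) hpq

theorem prf_un_image (𝒜 : Finset (Ideal (PrfPol n))) :
    (⋃ V ∈ 𝒜.image (fun p => zeroLocus ℂ p), V) = prfUn 𝒜 := by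
  classical
  ext x
  simp [prfUn]

theorem prf_Zl_coe (p : Ideal (PrfPol n)) : Zl (p : Set (PrfPol n)) = zeroLocus ℂ p := by
  rw [ph_Zl_eq_zeroLocus, Ideal.span_eq]

theorem prf_span_insert (p : Ideal (PrfPol n)) (g : PrfPol n) :
    Ideal.span (insert g (p : Set (PrfPol n))) = p ⊔ Ideal.span {g} := by
  rw [Ideal.span_insert, Ideal.span_eq, sup_comm]

theorem prf_exists_ne (p : Ideal (PrfPol n)) (hp : p.IsPrime) (g : PrfPol n) (hg : g ∉ p) :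
    ∃ x ∈ zeroLocus ℂ p, eval x g ≠ 0 := by
  by_contra hcon
  push Not at hcon
  apply hg
  rw [← ph_vanishing_prime p hp, ph_mem_vanishingIdeal]
  exact hcon

/-- DIM. -/
theorem prf_dim (p : Ideal (PrfPol n)) (hp : p.IsPrime) :
    (vdim (zeroLocus ℂ p) : ℕ∞) + p.height = n := by
  have := ph_height_add_vdim p hp
  rw [Fintype.card_fin] at this
  rw [add_comm]; exact this

theorem prf_dim_lt (p q : Ideal (PrfPol n)) (hp : p.IsPrime) (hq : q.IsPrime) (h : p < q) :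
    vdim (zeroLocus ℂ q) < vdim (zeroLocus ℂ p) := by
  exact ph_vdim_lt_of_prime_lt hp hq h

theorem prf_point (p : Ideal (PrfPol n)) (hp : p.IsPrime) (h : vdim (zeroLocus ℂ p) = 0) :
    (∃ x, zeroLocus ℂ p = {x}) ∧ vdeg (zeroLocus ℂ p) = 1 := by
  obtain ⟨x, hx⟩ := ph_point_of_vdim_zero _ ⟨p, hp, rfl⟩ h
  refine ⟨⟨x, hx⟩, le_antisymm ?_ (ph_vdeg_pos _ ⟨p, hp, rfl⟩)⟩
  apply Nat.sInf_le
  intro D
  rw [h, hx]
  have := rk_hA_le_ncard ({x} : Set (Fin n → ℂ)) D (Set.finite_singleton x)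
  simpa using this

theorem prf_deg_pos (p : Ideal (PrfPol n)) (hp : p.IsPrime) : 0 < vdeg (zeroLocus ℂ p) := by
  exact ph_vdeg_pos _ ⟨p, hp, rfl⟩

/-- PIT in dimension form. -/
theorem prf_cut_dim (p : Ideal (PrfPol n)) (hp : p.IsPrime) (g : PrfPol n) (hg : g ∉ p)
    (q : Ideal (PrfPol n)) (hq : q ∈ (p ⊔ Ideal.span {g}).minimalPrimes) :
    vdim (zeroLocus ℂ q) + 1 = vdim (zeroLocus ℂ p) := by
  refine ph_pit _ ⟨p, hp, rfl⟩ (p : Set (PrfPol n)) (prf_Zl_coe p) g (prf_exists_ne p hp g hg) _ ?_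
  exact ⟨q, by rw [prf_span_insert]; exact hq, rfl⟩

/-- BEZ-CUT. -/
theorem prf_bezout_cut (p : Ideal (PrfPol n)) (hp : p.IsPrime) (g : PrfPol n) (hg : g ∉ p)
    (𝒬 : Finset (Ideal (PrfPol n))) (h𝒬 : ∀ q ∈ 𝒬, q ∈ (p ⊔ Ideal.span {g}).minimalPrimes) :
    prfDeg 𝒬 ≤ g.totalDegree * vdeg (zeroLocus ℂ p) := by
  classical
  have hpr : ∀ q ∈ 𝒬, q.IsPrime := fun q hq => (h𝒬 q hq).1.1
  rw [← prf_sum_image 𝒬 hpr]
  refine ph_bezout_cut _ ⟨p, hp, rfl⟩ (p : Set (PrfPol n)) (prf_Zl_coe p) g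
    (prf_exists_ne p hp g hg) _ ?_
  intro W hW
  obtain ⟨q, hq, rfl⟩ := Finset.mem_image.1 hW
  exact ⟨q, by rw [prf_span_insert]; exact h𝒬 q hq, rfl⟩

/-- UP (Chardin). -/
theorem prf_up {k : ℕ} (𝒜 : Finset (Ideal (PrfPol n)))
    (h : ∀ p ∈ 𝒜, p.IsPrime ∧ vdim (zeroLocus ℂ p) = k) (D : ℕ) :
    hA (prfUn 𝒜) D ≤ prfDeg 𝒜 * (D + k).choose k := by
  classical
  rw [← prf_sum_image 𝒜 (fun p hp => (h p hp).1), ← prf_un_image]
  refine ph_hilbert_up_family _ ?_ k ?_ D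
  · intro V hV
    obtain ⟨q, hq, rfl⟩ := Finset.mem_image.1 hV
    exact ⟨q, (h q hq).1, rfl⟩
  · intro V hV
    obtain ⟨q, hq, rfl⟩ := Finset.mem_image.1 hV
    exact (h q hq).2

/-- LOW (Chardin-Philippon, union of systems). -/
theorem prf_low {ν : Type} (s : Finset ν) (G : ν → Set (PrfPol n)) (L : ν → ℕ) (k : ℕ)
    (𝒜 : Finset (Ideal (PrfPol n))) (h : PrfFam s G L k 𝒜) (D : ℕ)
    (hD : n * ∑ a ∈ s, L a ≤ D) :
    prfDeg 𝒜 * (D - n * ∑ a ∈ s, L a + k).choose k ≤ hA (prfUn 𝒜) D := by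
  classical
  have hpr : ∀ p ∈ 𝒜, p.IsPrime := fun p hp => by
    obtain ⟨a, _, ha⟩ := h.comp p hp
    exact ha.1.1
  rw [← prf_sum_image 𝒜 hpr, ← prf_un_image]
  have := ph_hilbert_low_union s G L h.one_le h.deg (𝒜.image (fun p => zeroLocus ℂ p)) ?_ k ?_ D
    (by rw [Fintype.card_fin]; exact hD)
  · rw [Fintype.card_fin] at this; exact this
  · intro V hV
    obtain ⟨q, hq, rfl⟩ := Finset.mem_image.1 hV
    obtain ⟨a, ha, hqa⟩ := h.comp q hq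
    exact ⟨a, ha, q, hqa, rfl⟩
  · intro V hV
    obtain ⟨q, hq, rfl⟩ := Finset.mem_image.1 hV
    exact h.dim q hq

/-- LOW at the defining degree. -/
theorem prf_low_at {ν : Type} (s : Finset ν) (G : ν → Set (PrfPol n)) (L : ν → ℕ) (k : ℕ)
    (𝒜 : Finset (Ideal (PrfPol n))) (h : PrfFam s G L k 𝒜) :
    prfDeg 𝒜 * ((∑ a ∈ s, L a) + k).choose k ≤ (n + 1) ^ n * hA (prfUn 𝒜) (∑ a ∈ s, L a) := by
  have h1 := prf_low s G L k 𝒜 h ((n + 1) * ∑ a ∈ s, L a)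
    (Nat.mul_le_mul_right _ (Nat.le_succ n))
  have h2 : (n + 1) * ∑ a ∈ s, L a - n * ∑ a ∈ s, L a = ∑ a ∈ s, L a := by
    rw [add_mul, one_mul, Nat.add_sub_cancel_left]
  rw [h2] at h1
  have h3 := rk_hA_mul_le (prfUn 𝒜) (k := n + 1) (Nat.succ_le_succ (Nat.zero_le n)) (∑ a ∈ s, L a)
  rw [Fintype.card_fin] at h3
  exact h1.trans h3

end Claimed.Agent.R273
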