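import Claimed.Agent.R273.PrfBudget

/-!
# Row 273, S5: prof:regularity in FINITE FORM: `prf_indiv`, `prf_regular`, `prf_unique`, cut into leaves (architect helper161).  Prefix `prfi_`.

A POOL is a finite family `π a`, `a ∈ I`, of pieces of the same width `s` (one piece: `I = {a}`).  A PLATEAU of the pool at the grid time `t` after `j` cuts: `PrfPlateau (π a) j t` for every member.
Mass accounting is done in each member separately, with its own later cuts (as in the paper).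

LEAF PRFI-fam (`prfi_fam`).  `𝒞 := I.biUnion fun a => (prf_carriers_finite (π a) j).toFinset`.  `PrfFam`: `one_le` = `hL`; `deg`: `g ∈ prfSys f j` is `f i`, `i < j`; `dim`, primes: `prf_carriers_dim`; `comp`: `p ∈ carriers` is `⟨x, _, hp⟩`, `hp.1`.
   `prfDeg 𝒞 ≤ ∑_b prfDeg (carriers_b)` (`Finset.sum_biUnion_le`-type: `∑ over a biUnion ≤ ∑ ∑` for `ℕ`-valued functions) `≤ ∑_b degLo_b` (`prf_carrier_deg`).
LEAF PRFI-split (`prfi_exc`, `prfi_split`, `prfi_num`).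
 * `prfi_exc`: `prf_mass π hπ j hj (ℰ.filter (· ∈ π.carriers j))`; `prfDeg` of a subset is smaller (`Finset.sum_le_sum_of_subset`); `p ∈ prfCarr .. x`, `x ∈ S` ⇒ `p ∈ π.carriers j`, `x ∈ Z(p)`.
 * `prfi_split`: `S' = S₁ ∪ S₂`, `S₁ := S'.filter (∀ p ∈ prfCarr (sys j) x, p ∉ ℰ)`: `g` is a proper cut at `x ∈ S₁`: `hπ.nocap t ht j hj hpl.1 hpl.2 g hg S₁`;   `S₂` = the rest: `prfi_exc`.   `Finset.card_filter_add_card_filter_not`.
 * `prfi_num`: `e ≤ K a / D` (`le_div_iff₀`), monotonicity.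
LEAF PRFI-unique (`prf_unique`): `prf_jac (k := n - j)` with `p`; `n - (n - j) = j`; primes/dimensions by `prf_carriers_dim`.
`prf_indiv`, `prf_indiv_one`, `prf_regular` are PROVED from these (`prf_pool`, `prf_reg`).   NOTE: `prf_regular` needs NO pooling: the test polynomial `g` of `prf_reg` has degree `≤ Cn ⌊T t⌋ ≤ T t'` and is itself a proper cut at the later time `t'` (`prfi_split`).
-/

set_option autoImplicit false

namespace Claimed.Agent.R273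

open MvPolynomial Module

variable {n : ℕ}

/-- Product of the degrees of the first `j` cuts / of the later cuts. -/
noncomputable def PrfPiece.degLo (π : PrfPiece n) (j : ℕ) : ℕ :=
  ∏ i ∈ Finset.range j, (π.f i).totalDegree
noncomputable def PrfPiece.degHi (π : PrfPiece n) (j : ℕ) : ℕ :=
  ∏ i ∈ Finset.Ico j n, (π.f i).totalDegree

theorem prfi_sum_biUnion_le {ι α : Type*} [DecidableEq α] (s : Finset ι) (t : ι → Finset α)
    (f : α → ℕ) : ∑ x ∈ s.biUnion t, f x ≤ ∑ i ∈ s, ∑ x ∈ t i, f x := by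
  classical
  induction s using Finset.induction_on with
  | empty => simp
  | insert a s ha ih =>
    rw [Finset.biUnion_insert, Finset.sum_insert ha]
    calc ∑ x ∈ t a ∪ s.biUnion t, f x ≤ ∑ x ∈ t a, f x + ∑ x ∈ s.biUnion t, f x := by
            rw [← Finset.sum_union_inter]; exact Nat.le_add_right _ _
      _ ≤ _ := Nat.add_le_add_left ih _

/-- all carriers of a pool after `j` cuts, as a family -/
theorem prfi_fam {ν : Type} (I : Finset ν) (π : ν → PrfPiece n) (hpath : ∀ a ∈ I, (π a).Path)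
    (j : ℕ) (hj : j ≤ n) (L : ℕ) (hL : 1 ≤ L)
    (hdeg : ∀ a ∈ I, ∀ i < j, ((π a).f i).totalDegree ≤ L) :
    ∃ 𝒞 : Finset (Ideal (PrfPol n)), (∀ p, p ∈ 𝒞 ↔ ∃ a ∈ I, p ∈ (π a).carriers j) ∧
      PrfFam I (fun a => prfSys (π a).f j) (fun _ => L) (n - j) 𝒞 ∧
      prfDeg 𝒞 ≤ ∑ b ∈ I, (π b).degLo j := by
  classical
  set 𝒞 : Finset (Ideal (PrfPol n)) := I.biUnion fun a => (prf_carriers_finite (π a) j).toFinset
    with h𝒞
  have hmem : ∀ p, p ∈ 𝒞 ↔ ∃ a ∈ I, p ∈ (π a).carriers j := by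
    intro p
    simp only [h𝒞, Finset.mem_biUnion, Set.Finite.mem_toFinset]
  refine ⟨𝒞, hmem, ⟨fun _ _ => hL, ?_, ?_, ?_⟩, ?_⟩
  · rintro a ha g ⟨i, hi, rfl⟩
    exact hdeg a ha i hi
  · intro p hp
    obtain ⟨a, ha, hpa⟩ := (hmem p).1 hp
    exact (prf_carriers_dim (π a) (hpath a ha) j hj hpa).2
  · intro p hp
    obtain ⟨a, ha, x, _, hpx⟩ := (hmem p).1 hp
    exact ⟨a, ha, hpx.1⟩
  · calc prfDeg 𝒞 ≤ ∑ b ∈ I, prfDeg (prf_carriers_finite (π b) j).toFinset := by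
          unfold prfDeg
          exact prfi_sum_biUnion_le _ _ _
      _ ≤ ∑ b ∈ I, (π b).degLo j := Finset.sum_le_sum fun b hb =>
          prf_carrier_deg (π b) (hpath b hb) j hj _ (by
            intro p hp
            exact (Set.Finite.mem_toFinset _).1 hp)

/-- points with an own local carrier in `ℰ` -/
theorem prfi_exc (π : PrfPiece n) (hπ : π.Path) (j : ℕ) (hj : j ≤ n)
    (ℰ : Finset (Ideal (PrfPol n))) (S' : Finset (Fin n → ℂ)) (hS' : S' ⊆ π.S)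
    (h : ∀ x ∈ S', ∃ p ∈ prfCarr (prfSys π.f j) x, p ∈ ℰ) :
    S'.card ≤ prfDeg ℰ * π.degHi j := by
  classical
  have h1 := prf_mass π hπ j hj (ℰ.filter (· ∈ π.carriers j))
    (by
      intro p hp
      exact (Finset.mem_filter.1 hp).2) S' hS'
    (by
      intro x hx
      obtain ⟨p, hp, hpE⟩ := h x hx
      simp only [prfUn, Set.mem_iUnion]
      exact ⟨p, Finset.mem_filter.2 ⟨hpE, x, hS' hx, hp⟩, hp.2⟩)
  refine h1.trans (Nat.mul_le_mul_right _ ?_)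
  unfold prfDeg
  exact Finset.sum_le_sum_of_subset (Finset.filter_subset _ _)

/-- zeros of a polynomial which is proper on all carriers outside `ℰ` -/
theorem prfi_split (π : PrfPiece n) (B s κ : ℝ) (grid : Finset ℝ) (hπ : π.Ok B s κ grid)
    (j : ℕ) (t : ℝ) (hj : j ≤ n) (ht : t ∈ grid) (hpl : PrfPlateau π j t) (g : PrfPol n)
    (hg : (g.totalDegree : ℝ) ≤ prfT B s t) (ℰ : Finset (Ideal (PrfPol n)))
    (hℰ : ∀ p ∈ π.carriers j, p ∉ ℰ → g ∉ p) (S' : Finset (Fin n → ℂ)) (hS' : S' ⊆ π.S)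
    (h0 : ∀ x ∈ S', eval x g = 0) :
    (S'.card : ℝ) ≤ κ * π.S.card + (prfDeg ℰ : ℝ) * (π.degHi j : ℝ) := by
  classical
  set P : (Fin n → ℂ) → Prop := fun x => ∀ p ∈ prfCarr (prfSys π.f j) x, p ∉ ℰ with hP
  have hc := Finset.card_filter_add_card_filter_not (s := S') P
  have h1 : ((S'.filter P).card : ℝ) ≤ κ * π.S.card :=
    hπ.nocap t ht j hj hpl.1 hpl.2 g hg (S'.filter P) ((Finset.filter_subset _ _).trans hS')
      (by
        intro x hx
        obtain ⟨hxS, hxP⟩ := Finset.mem_filter.1 hx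
        exact ⟨h0 x hxS, fun p hp => hℰ p ⟨x, hS' hxS, hp⟩ (hxP p hp)⟩)
  have h2 : (S'.filter fun x => ¬ P x).card ≤ prfDeg ℰ * π.degHi j :=
    prfi_exc π hπ.path j hj ℰ _ ((Finset.filter_subset _ _).trans hS')
      (by
        intro x hx
        have hxP := (Finset.mem_filter.1 hx).2
        simp only [hP, not_forall, not_not] at hxP
        obtain ⟨p, hp, hpE⟩ := hxP
        exact ⟨p, hp, hpE⟩)
  have h2' : ((S'.filter fun x => ¬ P x).card : ℝ) ≤ (prfDeg ℰ : ℝ) * (π.degHi j : ℝ) := by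
    exact_mod_cast h2
  have hc' : (S'.card : ℝ) = ((S'.filter P).card : ℝ) + ((S'.filter fun x => ¬ P x).card : ℝ) := by
    exact_mod_cast hc.symm
  linarith

theorem prfi_num (e a D K lo hi : ℕ) (hD : 0 < D) (h1 : e * D ≤ K * a) (h2 : a ≤ lo) :
    (e : ℝ) * hi ≤ (K : ℝ) / D * lo * hi := by
  have hD' : (0 : ℝ) < D := by exact_mod_cast hD
  have h3 : (e : ℝ) * D ≤ K * lo := by
    have : e * D ≤ K * lo := h1.trans (Nat.mul_le_mul_left _ h2)
    exact_mod_cast this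
  have h4 : (e : ℝ) ≤ (K : ℝ) / D * lo := by
    rw [div_mul_eq_mul_div, le_div_iff₀ hD']
    exact h3
  exact mul_le_mul_of_nonneg_right h4 (Nat.cast_nonneg _)

/-- INDIVIDUAL CUTS (first assertion of prof:regularity, pooled form).  `L` bounds the degrees of the
first `j` cuts, `L'` the degrees of the individual cuts `h p ∉ p`.  If
`Cn max(|I| L, L') ≤ D := ⌊T_s(t)⌋`, then in every member `π a` the individual cuts capture at most
`κ |S_a| + (Cn max(|I| L, L') / D) (∑_b degLo_b) degHi_a` points. -/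
theorem prf_indiv (n : ℕ) : ∃ Cn : ℕ, 0 < Cn ∧
    ∀ {ν : Type} (I : Finset ν) (π : ν → PrfPiece n) (B s κ : ℝ) (grid : Finset ℝ),
      (∀ a ∈ I, (π a).Ok B s κ grid) →
      ∀ (j : ℕ) (t : ℝ), j ≤ n → t ∈ grid → (∀ a ∈ I, PrfPlateau (π a) j t) →
      ∀ (L L' : ℕ), 1 ≤ L → 1 ≤ L' → (∀ a ∈ I, ∀ i < j, ((π a).f i).totalDegree ≤ L) →
      ∀ h : Ideal (PrfPol n) → PrfPol n,
        (∀ a ∈ I, ∀ p ∈ (π a).carriers j, h p ∉ p ∧ (h p).totalDegree ≤ L') →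
        Cn * max (I.card * L) L' ≤ ⌊prfT B s t⌋₊ →
        ∀ a ∈ I, ∀ S' ⊆ (π a).S,
          (∀ x ∈ S', ∃ b ∈ I, ∃ p ∈ (π b).carriers j, x ∈ zeroLocus ℂ p ∧ eval x (h p) = 0) →
          (S'.card : ℝ) ≤ κ * (π a).S.card +
            (Cn * max (I.card * L) L' : ℕ) / (⌊prfT B s t⌋₊ : ℝ) *
              (∑ b ∈ I, ((π b).degLo j : ℝ)) * ((π a).degHi j : ℝ) := by
  obtain ⟨Cn, hCn, H⟩ := prf_pool n
  refine ⟨Cn, hCn, ?_⟩
  intro ν I π B s κ grid hok j t hj ht hpl L L' hL hL' hdeg h hh hD a ha S' hS' hx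
  obtain ⟨𝒞, h𝒞, hfam, hlo⟩ := prfi_fam I π (fun a ha => (hok a ha).path) j hj L hL hdeg
  have hsum : ∑ _a ∈ I, L = I.card * L := by rw [Finset.sum_const, smul_eq_mul]
  set D := ⌊prfT B s t⌋₊ with hDdef
  set M := max (I.card * L) L' with hM
  have hM1 : 1 ≤ M := le_trans hL' (le_max_right _ _)
  have hD1 : 1 ≤ D := le_trans (Nat.mul_pos hCn hM1) hD
  have hT0 : (0 : ℝ) ≤ prfT B s t := by
    have := Nat.floor_pos.mp hD1
    linarith
  obtain ⟨g, ℰ, _, hgD, hℰD, hgcut, hgℰ⟩ := H I (fun a => prfSys (π a).f j) (fun _ => L) (n - j) 𝒞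
    hfam h L' hL' (fun p hp => by
      obtain ⟨b, hb, hpb⟩ := (h𝒞 p).mp hp
      exact hh b hb p hpb) D (by rw [hsum]; exact hD)
  rw [hsum] at hℰD
  have h1 := prfi_split (π a) B s κ grid (hok a ha) j t hj ht (hpl a ha) g
    (le_trans (Nat.cast_le.mpr hgD) (Nat.floor_le hT0)) ℰ
    (fun p hp hpℰ => hgℰ p ((h𝒞 p).mpr ⟨a, ha, hp⟩) hpℰ) S' hS' (by
      intro x hxS
      obtain ⟨b, hb, p, hp, hxp, hx0⟩ := hx x hxS
      exact hgcut p ((h𝒞 p).mpr ⟨b, hb, hp⟩) x hxp hx0)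
  have h2 := prfi_num (prfDeg ℰ) (prfDeg 𝒞) D (Cn * M) (∑ b ∈ I, (π b).degLo j) ((π a).degHi j) hD1
    (by calc prfDeg ℰ * D ≤ Cn * prfDeg 𝒞 * M := hℰD
          _ = Cn * M * prfDeg 𝒞 := by ring) hlo
  rw [Nat.cast_sum] at h2
  linarith

/-- individual cuts for ONE piece -/
theorem prf_indiv_one (n : ℕ) : ∃ Cn : ℕ, 0 < Cn ∧
    ∀ (π : PrfPiece n) (B s κ : ℝ) (grid : Finset ℝ), π.Ok B s κ grid →
      ∀ (j : ℕ) (t : ℝ), j ≤ n → t ∈ grid → PrfPlateau π j t →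
      ∀ (L L' : ℕ), 1 ≤ L → 1 ≤ L' → (∀ i < j, (π.f i).totalDegree ≤ L) →
      ∀ h : Ideal (PrfPol n) → PrfPol n,
        (∀ p ∈ π.carriers j, h p ∉ p ∧ (h p).totalDegree ≤ L') →
        Cn * max L L' ≤ ⌊prfT B s t⌋₊ →
        ∀ S' ⊆ π.S, (∀ x ∈ S', ∃ p ∈ π.carriers j, x ∈ zeroLocus ℂ p ∧ eval x (h p) = 0) →
          (S'.card : ℝ) ≤ κ * π.S.card +
            (Cn * max L L' : ℕ) / (⌊prfT B s t⌋₊ : ℝ) * π.degLo j * π.degHi j := by
  obtain ⟨Cn, hCn, H⟩ := prf_indiv n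
  refine ⟨Cn, hCn, ?_⟩
  intro π B s κ grid hok j t hj ht hpl L L' hL hL' hdeg h hh hD S' hS' hx
  have := H ({()} : Finset Unit) (fun _ => π) B s κ grid (fun _ _ => hok) j t hj ht
    (fun _ _ => hpl) L L' hL hL' (fun _ _ => hdeg) h (fun _ _ => hh)
    (by simpa using hD) () (Finset.mem_singleton_self _) S' hS'
    (fun x hxS => by
      obtain ⟨p, hp, h1, h2⟩ := hx x hxS
      exact ⟨(), Finset.mem_singleton_self _, p, hp, h1, h2⟩)
  simpa using this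

/-- REGULARITY (second assertion of prof:regularity, pooled form): common equations `F` of degree
`≤ D = ⌊T_s(t)⌋` vanishing on ALL carriers of the pool, with Jacobian rank `≥ j` (the codimension)
at all points of every member up to the displayed number of exceptions; `t < t'` on the plateau. -/
theorem prf_regular (n : ℕ) : ∃ Cn : ℕ, 0 < Cn ∧
    ∀ {ν : Type} (I : Finset ν) (π : ν → PrfPiece n) (B s κ : ℝ) (grid : Finset ℝ),
      (∀ a ∈ I, (π a).Ok B s κ grid) →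
      ∀ (j : ℕ) (t t' : ℝ), j ≤ n → t ∈ grid → t' ∈ grid → t ≤ t' →
        (∀ a ∈ I, PrfPlateau (π a) j t) → (∀ a ∈ I, PrfPlateau (π a) j t') →
      ∀ (L : ℕ), 1 ≤ L → (∀ a ∈ I, ∀ i < j, ((π a).f i).totalDegree ≤ L) →
        Cn * (I.card * L) ≤ ⌊prfT B s t⌋₊ → Cn * ⌊prfT B s t⌋₊ ≤ ⌊prfT B s t'⌋₊ →
        ∃ (F : Finset (PrfPol n)) (g : PrfPol n),
          (∀ f ∈ F, f.totalDegree ≤ ⌊prfT B s t⌋₊ ∧ ∀ a ∈ I, ∀ p ∈ (π a).carriers j, f ∈ p) ∧
          g.totalDegree ≤ Cn * ⌊prfT B s t⌋₊ ∧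
          (∀ x, eval x g ≠ 0 → j ≤ prfJacRk (F : Set (PrfPol n)) x) ∧
          ∀ a ∈ I, ∀ S' ⊆ (π a).S, (∀ x ∈ S', eval x g = 0) →
            (S'.card : ℝ) ≤ κ * (π a).S.card +
              ((Cn * (I.card * L) : ℕ) / (⌊prfT B s t⌋₊ : ℝ) +
                (Cn * ⌊prfT B s t⌋₊ : ℕ) / (⌊prfT B s t'⌋₊ : ℝ)) *
                (∑ b ∈ I, ((π b).degLo j : ℝ)) * ((π a).degHi j : ℝ) := by
  obtain ⟨Cn, hCn, H⟩ := prf_reg n
  refine ⟨Cn, hCn, ?_⟩
  intro ν I π B s κ grid hok j t t' hj ht ht' htt hpl hpl' L hL hdeg hD hD'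
  obtain ⟨𝒞, h𝒞, hfam, hlo⟩ := prfi_fam I π (fun a ha => (hok a ha).path) j hj L hL hdeg
  have hsum : ∑ _a ∈ I, L = I.card * L := by rw [Finset.sum_const, smul_eq_mul]
  set D := ⌊prfT B s t⌋₊ with hDdef
  set D' := ⌊prfT B s t'⌋₊ with hD'def
  obtain ⟨F, g, ℰ, _, hF, hgD, hℰD, hgℰ, hrk⟩ := H I (fun a => prfSys (π a).f j) (fun _ => L)
    (n - j) 𝒞 hfam D (by rw [hsum]; exact hD)
  rw [hsum] at hℰD
  refine ⟨F, g, fun f hf => ⟨(hF f hf).1, fun a ha p hp => (hF f hf).2 p ((h𝒞 p).mpr ⟨a, ha, hp⟩)⟩,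
    hgD, fun x hx => ?_, ?_⟩
  · have := hrk x hx
    omega
  · intro a ha S' hS' hx
    have hI1 : 1 ≤ I.card := Finset.card_pos.mpr ⟨a, ha⟩
    have hD1 : 1 ≤ D := le_trans (Nat.mul_pos hCn (Nat.mul_pos hI1 hL)) hD
    have hD'1 : 1 ≤ D' := le_trans (Nat.mul_pos hCn hD1) hD'
    have hT0 : (0 : ℝ) ≤ prfT B s t' := by
      have := Nat.floor_pos.mp hD'1
      linarith
    have h1 := prfi_split (π a) B s κ grid (hok a ha) j t' hj ht' (hpl' a ha) g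
      (le_trans (Nat.cast_le.mpr (le_trans hgD hD')) (Nat.floor_le hT0)) ℰ
      (fun p hp hpℰ => hgℰ p ((h𝒞 p).mpr ⟨a, ha, hp⟩) hpℰ) S' hS' hx
    have h2 := prfi_num (prfDeg ℰ) (prfDeg 𝒞) D (Cn * (I.card * L)) (∑ b ∈ I, (π b).degLo j)
      ((π a).degHi j) hD1
      (by calc prfDeg ℰ * D ≤ Cn * prfDeg 𝒞 * (I.card * L) := hℰD
            _ = Cn * (I.card * L) * prfDeg 𝒞 := by ring) hlo
    rw [Nat.cast_sum] at h2
    have h3 : (0 : ℝ) ≤ ((Cn * D : ℕ) : ℝ) / (D' : ℝ) * (∑ b ∈ I, ((π b).degLo j : ℝ)) *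
        ((π a).degHi j : ℝ) := by positivity
    calc (S'.card : ℝ) ≤ κ * (π a).S.card + (prfDeg ℰ : ℝ) * ((π a).degHi j : ℝ) := h1
      _ ≤ κ * (π a).S.card + ((Cn * (I.card * L) : ℕ) : ℝ) / (D : ℝ) *
            (∑ b ∈ I, ((π b).degLo j : ℝ)) * ((π a).degHi j : ℝ) := by linarith
      _ ≤ _ := by
          rw [add_mul, add_mul]
          linarith

/-- UNIQUE SMOOTH CARRIER at a point of full rank: all carriers of all members through `x`
coincide, and the kernel of the Jacobian of `F` is the tangent space. -/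
theorem prf_unique {ν : Type} (I : Finset ν) (π : ν → PrfPiece n) (hπ : ∀ a ∈ I, (π a).Path)
    (j : ℕ) (hj : j ≤ n) (F : Set (PrfPol n))
    (hF : ∀ f ∈ F, ∀ a ∈ I, ∀ p ∈ (π a).carriers j, f ∈ p)
    (x : Fin n → ℂ) (hx : j ≤ prfJacRk F x)
    (a b : ν) (ha : a ∈ I) (hb : b ∈ I) (p q : Ideal (PrfPol n)) (hp : p ∈ (π a).carriers j)
    (hq : q ∈ (π b).carriers j) (hxp : x ∈ zeroLocus ℂ p) (hxq : x ∈ zeroLocus ℂ q) :
    p = q ∧ ∀ f ∈ p, prfGrad f x ∈ Submodule.span ℂ ((fun f => prfGrad f x) '' F) := by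
  obtain ⟨hpp, hpd⟩ := prf_carriers_dim (π a) (hπ a ha) j hj hp
  obtain ⟨hqp, hqd⟩ := prf_carriers_dim (π b) (hπ b hb) j hj hq
  have h := prf_jac (k := n - j) F x (by omega) p hpp hpd (fun f hf => hF f hf a ha p hp) hxp
  exact ⟨(h.1 q hqp hqd (fun f hf => hF f hf b hb q hq) hxq).symm, h.2⟩

end Claimed.Agent.R273
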