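import Claimed.Agent.R273.PrfFacts
import Claimed.Agent.R273.PhMap

/-!
# Row 273, S5: paths of proper cuts: purity, carrier degree, mass budget (architect helper161).  FINITE FORM, one piece, `n` = ambient dimension.

LEAF PRF-pure (`prf_carr_prime`, `prf_carr_exists`, `prf_carr_bot`, `prf_proper_zero`, `prf_carr_step`, `prf_pure`, `prf_carr_lift`, `prf_carriers_finite`, `prf_carr_mem`).
  `prf_carr_exists`: `f_i(x) = 0` for `i < j`, so `span (sys j) ≤ ker (eval x)` (prime, even maximal); `Ideal.exists_minimalPrimes_le` gives `p ≤ ker (eval x)`, i.e. `x ∈ zeroLocus p` (`mem_zeroLocus_iff`, `aeval = eval`).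
  `prf_carr_bot`: `prfSys f 0 = ∅` (`Set.Iio 0 = ∅`), `Ideal.span ∅ = ⊥`, `⊥` prime (domain): `p` minimal over `⊥` ⇒ `p ≤ ⊥`; conversely `⊥ ∈ minimalPrimes ⊥`, `zeroLocus ⊥ = univ`.
  `prf_carr_step`: `q ∈ carr (sys (j+1)) x`.  `span (sys j) ≤ q`, so some minimal prime `p ≤ q` of `span (sys j)` (`Ideal.exists_minimalPrimes_le`); `Z(q) ⊆ Z(p)` so `p ∈ carr (sys j) x`;
   `f j ∈ q`, `f j ∉ p` (proper).  `q` is minimal over `p ⊔ (f j)`: a prime `q'` with `p ⊔ (f j) ≤ q' ≤ q` contains `span (sys (j+1))` (`sys (j+1) = insert (f j) (sys j)`), so `q ≤ q'` by minimality of `q`.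
  `prf_pure`: induction on `j` with `prf_carr_step` + `prf_cut_dim`; `j = 0`: `prf_carr_bot`, `vdim univ = n` (`prf_dim`, `Ideal.height_bot`).   `j ≤ n`: `vdim q + 1 = vdim p = n - j` forces `j < n`; a local carrier exists by `prf_carr_exists`.
  `prf_carr_lift`: `p ∈ carr (sys j) x`, path proper at `x` up to `j`: `p ⊔ (f j) ≤ 𝔪_x`, take `q'` minimal over it inside `𝔪_x`, and `q'' ≤ q'` minimal over `span (sys (j+1))`;
   both have dimension `n-j-1` (`prf_cut_dim`, `prf_pure`), so `q'' = q'` (`prf_dim_lt`).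
  `prf_carriers_finite`: subset of `(span (sys j)).minimalPrimes`, finite (`Ideal.finite_minimalPrimes_of_isNoetherianRing`).
LEAF PRF-deg (`prf_deg_bot`, `prf_carrier_deg`).
  `prf_deg_bot`: `zeroLocus ⊥ = univ`; `hA univ D = binom(D+n,n)` (`rk_finrank_restrict`-type lemma in RkDim, evaluation on `univ` is injective: `MvPolynomial.funext`), `vdim univ = n` (`prf_dim`); `vdeg ≤ 1` by `Nat.sInf_le`, `≥ 1` by `prf_deg_pos`.
  `prf_carrier_deg`: induction on `j`.  `j = 0`: `𝒜 ⊆ {⊥}`.  Step: choose for `q ∈ 𝒜 ⊆ carriers (j+1)` a parent `par q ∈ carriers j` (`prf_carr_step` at the point of `q`); `ℬ := 𝒜.image par`;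
   `prfDeg 𝒜 = ∑_{p ∈ ℬ} prfDeg (𝒜.filter (par · = p))` (`Finset.sum_fiberwise_of_maps_to`) `≤ ∑_{p ∈ ℬ} deg (f j) vdeg p` (`prf_bezout_cut`) `= deg (f j) prfDeg ℬ`; `Finset.prod_range_succ`.
LEAF PRF-mass (`prf_mass`): induction on `n - j` (statement for all `𝒜`, `S'`).  `j = n`: every `p ∈ 𝒜` has dimension `0` (`prf_pure`), `prf_point`: one point, degree `1`; `x ↦` a member of `𝒜` through `x` is injective: `|S'| ≤ |𝒜| = prfDeg 𝒜`.
   `j < n`: `𝒜' :=` the members `q` of `carriers (j+1)` (a `Finset` by `prf_carriers_finite`) which are minimal over `p ⊔ (f j)` for some `p ∈ 𝒜`.   `x ∈ S'` on `p ∈ 𝒜`: `p ∈ carr (sys j) x` (`prf_carr_mem`), `prf_carr_lift`: `x ∈ prfUn 𝒜'`.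
   `prfDeg 𝒜' ≤ ∑_{p ∈ 𝒜} prfDeg (𝒜'.filter (· minimal over p ⊔ (f j))) ≤ deg (f j) prfDeg 𝒜` (`Finset.sum_le_sum`-type double counting: `𝒜' ⊆ 𝒜.biUnion ..`; `prf_bezout_cut`, `f j ∉ p` by properness at the point of `p`); `Finset.prod_Ico_succ_top`/`Finset.prod_eq_prod_Ico_succ_bot`.
-/

set_option autoImplicit false

namespace Claimed.Agent.R273

open MvPolynomial Module

variable {n : ℕ}

/-- The grid time `t` lies on a plateau after `j` cuts of the piece `π`. -/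
def PrfPlateau (π : PrfPiece n) (j : ℕ) (t : ℝ) : Prop :=
  (∀ i < j, π.τ i ≤ t) ∧ ∀ i, j ≤ i → i < n → t < π.τ i

theorem prf_carr_prime {G : Set (PrfPol n)} {x : Fin n → ℂ} {p : Ideal (PrfPol n)}
    (hp : p ∈ prfCarr G x) : p.IsPrime := hp.1.1.1

/-- the maximal ideal of a point -/
noncomputable def prfMax (x : Fin n → ℂ) : Ideal (PrfPol n) := RingHom.ker (eval x)

instance prf_max_prime (x : Fin n → ℂ) : (prfMax x).IsPrime := RingHom.ker_isPrime _

theorem prf_mem_max (x : Fin n → ℂ) (g : PrfPol n) : g ∈ prfMax x ↔ eval x g = 0 :=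
  RingHom.mem_ker

theorem prf_le_max (x : Fin n → ℂ) (p : Ideal (PrfPol n)) : p ≤ prfMax x ↔ x ∈ zeroLocus ℂ p := by
  rw [ph_mem_zeroLocus]
  exact ⟨fun h g hg => (prf_mem_max x g).1 (h hg), fun h g hg => (prf_mem_max x g).2 (h g hg)⟩

/-- a common zero of the system lies on a local carrier -/
theorem prf_carr_exists (G : Set (PrfPol n)) (x : Fin n → ℂ) (h : ∀ g ∈ G, eval x g = 0) :
    (prfCarr G x).Nonempty := by
  have h1 : Ideal.span G ≤ prfMax x := Ideal.span_le.2 fun g hg => (prf_mem_max x g).2 (h g hg)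
  obtain ⟨p, hp, hpx⟩ := Ideal.exists_minimalPrimes_le h1
  exact ⟨p, hp, (prf_le_max x p).1 hpx⟩

/-- before the first cut the only carrier is the whole space -/
theorem prf_carr_bot (f : ℕ → PrfPol n) (x : Fin n → ℂ) (p : Ideal (PrfPol n)) :
    p ∈ prfCarr (prfSys f 0) x ↔ p = ⊥ := by
  have h0 : Ideal.span (prfSys f 0) = (⊥ : Ideal (PrfPol n)) := by
    have : prfSys f 0 = ∅ := by
      unfold prfSys
      rw [show Set.Iio (0 : ℕ) = ∅ from Set.eq_empty_iff_forall_notMem.2 fun i hi => Nat.not_lt_zero i hi,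
        Set.image_empty]
    rw [this, Ideal.span_empty]
  have h1 : (⊥ : Ideal (PrfPol n)).minimalPrimes = {⊥} :=
    IsDomain.minimalPrimes_eq_singleton_bot (PrfPol n)
  unfold prfCarr
  rw [h0, h1]
  constructor
  · rintro ⟨hp, -⟩
    exact hp
  · rintro rfl
    refine ⟨rfl, ?_⟩
    rw [zeroLocus_bot]
    trivial

/-- a nonzero polynomial is a proper cut of the empty system at each of its zeros -/
theorem prf_proper_zero (f : ℕ → PrfPol n) (g : PrfPol n) (hg : g ≠ 0) (x : Fin n → ℂ)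
    (hx : eval x g = 0) : PrfProperAt (prfSys f 0) g x :=
  ⟨hx, fun p hp hgp => hg (by rw [(prf_carr_bot f x p).mp hp] at hgp; exact hgp)⟩

/-- a carrier of the piece is a local carrier at each of its points -/
theorem prf_carr_mem (π : PrfPiece n) (j : ℕ) {p : Ideal (PrfPol n)} (hp : p ∈ π.carriers j)
    {x : Fin n → ℂ} (hx : x ∈ zeroLocus ℂ p) : p ∈ prfCarr (prfSys π.f j) x := by
  obtain ⟨_, _, h⟩ := hp
  exact ⟨h.1, hx⟩

/-- every carrier after `j+1` cuts is a component of a proper section of a carrier after `j` cuts. -/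
theorem prf_carr_step (f : ℕ → PrfPol n) (j : ℕ) (x : Fin n → ℂ)
    (h : PrfProperAt (prfSys f j) (f j) x) (q : Ideal (PrfPol n))
    (hq : q ∈ prfCarr (prfSys f (j + 1)) x) :
    ∃ p ∈ prfCarr (prfSys f j) x, f j ∉ p ∧ q ∈ (p ⊔ Ideal.span {f j}).minimalPrimes := by
  have hqp : q.IsPrime := prf_carr_prime hq
  have hqle : Ideal.span (prfSys f (j + 1)) ≤ q := hq.1.1.2
  have hsub : Ideal.span (prfSys f j) ≤ q :=
    (Ideal.span_mono (Set.image_mono fun i (hi : i < j) => (Nat.lt_succ_of_lt hi : i < j + 1))).trans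
      hqle
  obtain ⟨p, hp, hpq⟩ := Ideal.exists_minimalPrimes_le hsub
  have hpx : p ∈ prfCarr (prfSys f j) x := ⟨hp, zeroLocus_anti_mono hpq hq.2⟩
  have hfq : f j ∈ q := hqle (Ideal.subset_span ⟨j, Nat.lt_succ_self j, rfl⟩)
  refine ⟨p, hpx, h.2 p hpx, ⟨hqp, sup_le hpq ((Ideal.span_singleton_le_iff_mem _).2 hfq)⟩, ?_⟩
  rintro q' ⟨hq'p, hq'le⟩ hq'q
  refine hq.1.2 ⟨hq'p, Ideal.span_le.2 ?_⟩ hq'q
  rintro _ ⟨i, hi, rfl⟩
  rcases Nat.lt_succ_iff_lt_or_eq.1 hi with hi' | rfl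
  · exact hq'le (Ideal.mem_sup_left (hp.1.2 (Ideal.subset_span ⟨i, hi', rfl⟩)))
  · exact hq'le (Ideal.mem_sup_right (Ideal.mem_span_singleton_self _))

/-- PURITY: after `j` proper cuts at `x` all local carriers have dimension `n - j` (and `j ≤ n`). -/
theorem prf_pure (f : ℕ → PrfPol n) (j : ℕ) (x : Fin n → ℂ)
    (h : ∀ i < j, PrfProperAt (prfSys f i) (f i) x) :
    j ≤ n ∧ ∀ p ∈ prfCarr (prfSys f j) x, vdim (zeroLocus ℂ p) = n - j := by
  induction j with
  | zero =>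
    refine ⟨Nat.zero_le n, fun p hp => ?_⟩
    rw [(prf_carr_bot f x p).1 hp]
    have h1 := prf_dim (⊥ : Ideal (PrfPol n)) Ideal.isPrime_bot
    rw [Ideal.height_bot, add_zero] at h1
    have h2 : vdim (zeroLocus ℂ (⊥ : Ideal (PrfPol n))) = n := by exact_mod_cast h1
    rw [h2, Nat.sub_zero]
  | succ j ih =>
    obtain ⟨hjn, hdim⟩ := ih fun i hi => h i (Nat.lt_succ_of_lt hi)
    have hj := h j (Nat.lt_succ_self j)
    have key : ∀ q ∈ prfCarr (prfSys f (j + 1)) x, vdim (zeroLocus ℂ q) + 1 = n - j := by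
      intro q hq
      obtain ⟨p, hp, hfp, hqp⟩ := prf_carr_step f j x hj q hq
      rw [prf_cut_dim p (prf_carr_prime hp) (f j) hfp q hqp, hdim p hp]
    obtain ⟨q₀, hq₀⟩ := prf_carr_exists (prfSys f (j + 1)) x (by
      rintro _ ⟨i, hi, rfl⟩
      exact (h i hi).1)
    have h0 := key q₀ hq₀
    refine ⟨by omega, fun q hq => ?_⟩
    have h1 := key q hq
    omega

/-- every carrier through `x` has a child through `x`. -/
theorem prf_carr_lift (f : ℕ → PrfPol n) (j : ℕ) (x : Fin n → ℂ)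
    (h : ∀ i ≤ j, PrfProperAt (prfSys f i) (f i) x) (p : Ideal (PrfPol n))
    (hp : p ∈ prfCarr (prfSys f j) x) :
    ∃ q ∈ prfCarr (prfSys f (j + 1)) x, q ∈ (p ⊔ Ideal.span {f j}).minimalPrimes := by
  have hj := h j le_rfl
  have hpp : p.IsPrime := prf_carr_prime hp
  have hfp : f j ∉ p := hj.2 p hp
  have h1 : p ⊔ Ideal.span {f j} ≤ prfMax x :=
    sup_le ((prf_le_max x p).2 hp.2)
      ((Ideal.span_singleton_le_iff_mem _).2 ((prf_mem_max x _).2 hj.1))
  obtain ⟨q', hq', hq'x⟩ := Ideal.exists_minimalPrimes_le h1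
  have hq'p : q'.IsPrime := hq'.1.1
  have h2 : Ideal.span (prfSys f (j + 1)) ≤ q' := by
    refine Ideal.span_le.2 ?_
    rintro _ ⟨i, hi, rfl⟩
    rcases Nat.lt_succ_iff_lt_or_eq.1 hi with hi' | rfl
    · exact hq'.1.2 (Ideal.mem_sup_left (hp.1.1.2 (Ideal.subset_span ⟨i, hi', rfl⟩)))
    · exact hq'.1.2 (Ideal.mem_sup_right (Ideal.mem_span_singleton_self _))
  obtain ⟨q'', hq'', hle⟩ := Ideal.exists_minimalPrimes_le h2
  have hq''c : q'' ∈ prfCarr (prfSys f (j + 1)) x := ⟨hq'', (prf_le_max x q'').1 (hle.trans hq'x)⟩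
  have d1 := prf_cut_dim p hpp (f j) hfp q' hq'
  have d2 := (prf_pure f j x fun i hi => h i hi.le).2 p hp
  have d3 := (prf_pure f (j + 1) x fun i hi => h i (Nat.lt_succ_iff.1 hi)).2 q'' hq''c
  have heq : q'' = q' := by
    by_contra hne
    have hlt := prf_dim_lt q'' q' hq''.1.1 hq'p (lt_of_le_of_ne hle hne)
    omega
  exact ⟨q', heq ▸ hq''c, hq'⟩

theorem prf_carriers_finite (π : PrfPiece n) (j : ℕ) : (π.carriers j).Finite := by
  refine (Ideal.finite_minimalPrimes_of_isNoetherianRing (PrfPol n)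
    (Ideal.span (prfSys π.f j))).subset ?_
  rintro p ⟨x, _, hp⟩
  exact hp.1

/-- the whole space has degree one -/
theorem prf_deg_bot (n : ℕ) : vdeg (zeroLocus ℂ (⊥ : Ideal (PrfPol n))) = 1 := by
  rw [zeroLocus_bot]
  exact ph_univ.2.2

/-- the components of the proper sections of a family by `g` have total degree `≤ deg g` times the degree of the family -/
theorem prf_deg_children (g : PrfPol n) (𝒜 𝒜' : Finset (Ideal (PrfPol n)))
    (h𝒜 : ∀ p ∈ 𝒜, p.IsPrime ∧ g ∉ p)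
    (h : ∀ q ∈ 𝒜', ∃ p ∈ 𝒜, q ∈ (p ⊔ Ideal.span {g}).minimalPrimes) :
    prfDeg 𝒜' ≤ g.totalDegree * prfDeg 𝒜 := by
  classical
  let par : Ideal (PrfPol n) → Ideal (PrfPol n) := fun q =>
    if hq : q ∈ 𝒜' then (h q hq).choose else ⊥
  have hpar : ∀ q ∈ 𝒜', par q ∈ 𝒜 ∧ q ∈ (par q ⊔ Ideal.span {g}).minimalPrimes := by
    intro q hq
    have : par q = (h q hq).choose := dif_pos hq
    rw [this]
    exact (h q hq).choose_spec
  unfold prfDeg
  rw [← Finset.sum_fiberwise_of_maps_to (g := par) (t := 𝒜) (fun q hq => (hpar q hq).1),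
    Finset.mul_sum]
  refine Finset.sum_le_sum fun p hp => ?_
  refine prf_bezout_cut p (h𝒜 p hp).1 g (h𝒜 p hp).2 (𝒜'.filter fun q => par q = p) fun q hq => ?_
  obtain ⟨hq1, hq2⟩ := Finset.mem_filter.1 hq
  rw [← hq2]
  exact (hpar q hq1).2

/-- on the path, the next cut is proper on every carrier -/
theorem prf_carrier_proper (π : PrfPiece n) (hπ : π.Path) (j : ℕ) (hj : j < n)
    {p : Ideal (PrfPol n)} (hp : p ∈ π.carriers j) : p.IsPrime ∧ π.f j ∉ p := by
  obtain ⟨x, hx, h⟩ := hp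
  exact ⟨prf_carr_prime h, (hπ x hx j hj).2 p h⟩

/-- CARRIER DEGREE: `≤ ∏_{i<j} deg f_i`. -/
theorem prf_carrier_deg (π : PrfPiece n) (hπ : π.Path) (j : ℕ) (hj : j ≤ n)
    (𝒜 : Finset (Ideal (PrfPol n))) (h𝒜 : (𝒜 : Set (Ideal (PrfPol n))) ⊆ π.carriers j) :
    prfDeg 𝒜 ≤ ∏ i ∈ Finset.range j, (π.f i).totalDegree := by
  classical
  induction j generalizing 𝒜 with
  | zero =>
    have hsub : 𝒜 ⊆ {⊥} := by
      intro p hp
      obtain ⟨x, _, h⟩ := h𝒜 hp
      exact Finset.mem_singleton.2 ((prf_carr_bot π.f x p).1 h)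
    calc prfDeg 𝒜 ≤ prfDeg {⊥} := Finset.sum_le_sum_of_subset hsub
      _ = 1 := by
        unfold prfDeg
        rw [Finset.sum_singleton, prf_deg_bot]
      _ = ∏ i ∈ Finset.range 0, (π.f i).totalDegree := by simp
  | succ j ih =>
    have hjn : j < n := hj
    set ℬ : Finset (Ideal (PrfPol n)) := (prf_carriers_finite π j).toFinset with hℬ
    have hℬc : (ℬ : Set (Ideal (PrfPol n))) ⊆ π.carriers j := by
      intro p hp
      exact (Set.Finite.mem_toFinset _).1 hp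
    have h1 : prfDeg 𝒜 ≤ (π.f j).totalDegree * prfDeg ℬ := by
      refine prf_deg_children (π.f j) ℬ 𝒜 (fun p hp => prf_carrier_proper π hπ j hjn (hℬc hp)) ?_
      intro q hq
      obtain ⟨x, hx, h⟩ := h𝒜 hq
      obtain ⟨p, hp, -, hqp⟩ := prf_carr_step π.f j x (hπ x hx j hjn) q h
      exact ⟨p, (Set.Finite.mem_toFinset _).2 ⟨x, hx, hp⟩, hqp⟩
    have h2 := ih hjn.le ℬ hℬc
    rw [Finset.prod_range_succ, mul_comm]
    exact h1.trans (Nat.mul_le_mul_left _ h2)

/-- MASS BUDGET (prof:mass-budget): carriers of total degree `a` touch at most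
`a ∏_{j ≤ i < n} deg f_i` points of the piece. -/
theorem prf_mass (π : PrfPiece n) (hπ : π.Path) (j : ℕ) (hj : j ≤ n)
    (𝒜 : Finset (Ideal (PrfPol n))) (h𝒜 : (𝒜 : Set (Ideal (PrfPol n))) ⊆ π.carriers j)
    (S' : Finset (Fin n → ℂ)) (hS' : S' ⊆ π.S) (hin : ∀ x ∈ S', x ∈ prfUn 𝒜) :
    S'.card ≤ prfDeg 𝒜 * ∏ i ∈ Finset.Ico j n, (π.f i).totalDegree := by
  classical
  obtain ⟨k, hk⟩ : ∃ k, n - j = k := ⟨_, rfl⟩
  induction k generalizing j 𝒜 with
  | zero =>
    have hjn : j = n := by omega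
    subst hjn
    rw [Finset.Ico_self, Finset.prod_empty, mul_one]
    have hpt : ∀ p ∈ 𝒜, (∃ x, zeroLocus ℂ p = {x}) ∧ vdeg (zeroLocus ℂ p) = 1 := by
      intro p hp
      obtain ⟨x, hx, h⟩ := h𝒜 hp
      have hd := (prf_pure π.f j x fun i hi => hπ x hx i hi).2 p h
      rw [Nat.sub_self] at hd
      exact prf_point p (prf_carr_prime h) hd
    have hdeg : prfDeg 𝒜 = 𝒜.card := by
      unfold prfDeg
      rw [Finset.sum_congr rfl fun p hp => (hpt p hp).2]
      simp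
    rw [hdeg]
    have hex : ∀ x ∈ S', ∃ p ∈ 𝒜, x ∈ zeroLocus ℂ p := by
      intro x hx
      have := hin x hx
      unfold prfUn at this
      simpa using this
    let own : (Fin j → ℂ) → Ideal (PrfPol j) := fun x =>
      if hx : x ∈ S' then (hex x hx).choose else ⊥
    have hown : ∀ x ∈ S', own x ∈ 𝒜 ∧ x ∈ zeroLocus ℂ (own x) := by
      intro x hx
      have : own x = (hex x hx).choose := dif_pos hx
      rw [this]
      exact (hex x hx).choose_spec
    refine Finset.card_le_card_of_injOn own (fun x hx => (hown x hx).1) ?_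
    intro x hx y hy hxy
    obtain ⟨z, hz⟩ := (hpt _ (hown x hx).1).1
    have h1 : x ∈ ({z} : Set (Fin j → ℂ)) := hz ▸ (hown x hx).2
    have h2 : y ∈ ({z} : Set (Fin j → ℂ)) := by
      rw [← hz, hxy]
      exact (hown y hy).2
    rw [Set.mem_singleton_iff] at h1 h2
    rw [h1, h2]
  | succ k ih =>
    have hjn : j < n := by omega
    set 𝒜' : Finset (Ideal (PrfPol n)) := (prf_carriers_finite π (j + 1)).toFinset.filter
      (fun q => ∃ p ∈ 𝒜, q ∈ (p ⊔ Ideal.span {π.f j}).minimalPrimes) with h𝒜'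
    have h𝒜'c : (𝒜' : Set (Ideal (PrfPol n))) ⊆ π.carriers (j + 1) := by
      intro q hq
      exact (Set.Finite.mem_toFinset _).1 (Finset.mem_filter.1 hq).1
    have hin' : ∀ x ∈ S', x ∈ prfUn 𝒜' := by
      intro x hx
      have hxu := hin x hx
      unfold prfUn at hxu
      simp only [Set.mem_iUnion, exists_prop] at hxu
      obtain ⟨p, hp, hxp⟩ := hxu
      have hxS := hS' hx
      obtain ⟨q, hq, hqp⟩ := prf_carr_lift π.f j x
        (fun i hi => hπ x hxS i (lt_of_le_of_lt hi hjn)) p (prf_carr_mem π j (h𝒜 hp) hxp)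
      unfold prfUn
      simp only [Set.mem_iUnion, exists_prop]
      refine ⟨q, Finset.mem_filter.2 ⟨(Set.Finite.mem_toFinset _).2 ⟨x, hxS, hq⟩, p, hp, hqp⟩, hq.2⟩
    have h1 := ih (j + 1) hjn 𝒜' h𝒜'c hin' (by omega)
    have h2 : prfDeg 𝒜' ≤ (π.f j).totalDegree * prfDeg 𝒜 :=
      prf_deg_children (π.f j) 𝒜 𝒜' (fun p hp => prf_carrier_proper π hπ j hjn (h𝒜 hp))
        (fun q hq => (Finset.mem_filter.1 hq).2)
    rw [Finset.prod_eq_prod_Ico_succ_bot hjn]
    calc S'.card ≤ prfDeg 𝒜' * ∏ i ∈ Finset.Ico (j + 1) n, (π.f i).totalDegree := h1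
      _ ≤ ((π.f j).totalDegree * prfDeg 𝒜) * ∏ i ∈ Finset.Ico (j + 1) n, (π.f i).totalDegree :=
          Nat.mul_le_mul_right _ h2
      _ = prfDeg 𝒜 * ((π.f j).totalDegree * ∏ i ∈ Finset.Ico (j + 1) n, (π.f i).totalDegree) := by
          ring

/-- the carriers of a piece on its path: primes of dimension `n - j` -/
theorem prf_carriers_dim (π : PrfPiece n) (hπ : π.Path) (j : ℕ) (hj : j ≤ n)
    {p : Ideal (PrfPol n)} (hp : p ∈ π.carriers j) :
    p.IsPrime ∧ vdim (zeroLocus ℂ p) = n - j := by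
  obtain ⟨x, hx, h⟩ := hp
  exact ⟨prf_carr_prime h,
    (prf_pure π.f j x fun i hi => hπ x hx i (lt_of_lt_of_le hi hj)).2 p h⟩

/-- every point of a piece has an own local carrier after `j` cuts -/
theorem prf_own_carrier (π : PrfPiece n) (hπ : π.Path) (j : ℕ) (hj : j ≤ n) {x : Fin n → ℂ}
    (hx : x ∈ π.S) : (prfCarr (prfSys π.f j) x).Nonempty := by
  apply prf_carr_exists
  rintro g ⟨i, hi, rfl⟩
  exact (hπ x hx i (lt_of_lt_of_le hi hj)).1

end Claimed.Agent.R273
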