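import Claimed.Agent.R273.PrfFam

/-!
# Row 273, S3b/S5: `poly:pooling` (`prf_pool`), cut into leaves.  Architect helper161.  Prefix `prfp_`.

PROOF WITHOUT BEZOUT.  `C := ⋃_{p ∈ 𝒜} Z(p) ∩ Z(h_p)` (`prfpCut`), `W := I(C)_{≤D}` (`prfpW`), `ℰ := {p ∈ 𝒜 | W ⊆ p}` (forced members), `g ∈ W` generic (`ph_avoid`).
`Λ = ∑ L a`, `q = n Λ`, `r = L' + q`, `a = prfDeg 𝒜`:
  `prfDeg ℰ binom(D-q+k,k) ≤ hA (⋃ℰ) D` (`prf_low`) `≤ hA C D` (`prfp_forced`) and `hA C D + a binom(D-r+k,k) ≤ a binom(D+k,k)` (`prfp_cut`); numerics `prf_num`.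

LEAF PRFP-num (`prfp_pascal`, `prf_num`), Mathlib only (+ `ph_choose_le_pow`, `ph_pow_le_choose` of PhNN, proved).
 * `prfp_pascal`: induction on `r`: `binom(D+k+1,k+1) = binom(D-1+k+1,k+1) + binom(D+k,k)` (`Nat.succ_sub_one`, `Nat.choose_succ_succ`), `binom(D-1+k,k) ≤ binom(D+k,k)` (`Nat.choose_le_choose`).
 * `prf_num`: `Cn := 2 c + 2^n n! c + 1`.   `k = 0`: `e + a ≤ a`, `e = 0`.   `k = k'+1`: from the hypothesis and `prfp_pascal`: `e binom(D-q+k,k) ≤ a r binom(D+k',k')`.   `(D-q+1)^k ≤ k! binom(D-q+k,k)` (`ph_pow_le_choose`), `binom(D+k',k') ≤ (D+1)^k'` (`ph_choose_le_pow`),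
   `D + 1 ≤ 2 (D-q+1)` (`2q ≤ 2cM ≤ D`).   So `e (D+1)^k ≤ 2^k e (D-q+1)^k ≤ 2^k k! a r (D+1)^k'`, cancel `(D+1)^k'`: `e D ≤ e (D+1) ≤ 2^k k! a r ≤ 2^n n! c a M` (`Nat.factorial_le`, `Nat.pow_le_pow_right`).
LEAF PRFP-cut (`prfp_nonvan`, `prfp_cut_one`, `prfp_cut`).
 * `prfp_nonvan`: `h ∉ p`, `p` prime: otherwise `h ∈ vanishingIdeal (zeroLocus p) = p.radical = p`.
 * `prfp_cut_one`: `ph_section_hA (Z p) ⟨p, hp, rfl⟩ h _ (q := L') ..`: `hA V (D-L') + hA (V ∩ zset h) D ≤ hA V D`;   `prf_up {p}` (`prfUn {p} = Z p`, `prfDeg {p} = vdeg`), `prf_low s G L k {p}` at `D - L'` (`PrfFam` restricted to `{p}`), `D - L' - nΛ = D - (L' + nΛ)` (`Nat.sub_sub`).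
 * `prfp_cut`: `rk_rkOn_biUnion_le` (`hA` unfolds to `rkOn`), sum of `prfp_cut_one` over `p ∈ 𝒜` (`Finset.sum_le_sum`, `Finset.sum_mul`, `Finset.sum_add_distrib`).
LEAF PRFP-forced (`prfp_rk_forced`, `prfp_forced`, `prfp_generic`).
 * `prfp_rk_forced`: `rkOn W E ≤ rkOn W (C ∪ E) = rkOn W C` (`rk_rkOn_mono_set`, `rk_rkOn_congr_ker`: the kernels of the evaluation on `C ∪ E` and on `C` coincide).
 * `prfp_generic`: `ph_avoid (prfpW C D) (𝒜.filter (¬ W ⊆ ·))`.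
`prf_pool` is PROVED from these.
-/

set_option autoImplicit false

namespace Claimed.Agent.R273

open MvPolynomial Module

variable {n : ℕ}

/-! ### numerics (shared with `prf_reg`) -/

theorem prfp_pascal (k r D : ℕ) (hr : r ≤ D) :
    (D + (k + 1)).choose (k + 1) ≤ (D - r + (k + 1)).choose (k + 1) + r * (D + k).choose k := by
  induction r with
  | zero => simp
  | succ r ih =>
    have h1 := ih (by omega)
    obtain ⟨E, hE⟩ : ∃ E, D - r = E + 1 := ⟨D - r - 1, by omega⟩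
    have hE' : D - (r + 1) = E := by omega
    rw [hE] at h1
    rw [hE']
    have h2 : (E + 1 + (k + 1)).choose (k + 1)
        = (E + (k + 1)).choose k + (E + (k + 1)).choose (k + 1) := by
      have : E + 1 + (k + 1) = (E + (k + 1)) + 1 := by omega
      rw [this, Nat.choose_succ_succ]
    have h3 : (E + (k + 1)).choose k ≤ (D + k).choose k := Nat.choose_le_choose k (by omega)
    rw [h2] at h1
    calc (D + (k + 1)).choose (k + 1)
        ≤ (E + (k + 1)).choose k + (E + (k + 1)).choose (k + 1) + r * (D + k).choose k := h1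
      _ ≤ (D + k).choose k + (E + (k + 1)).choose (k + 1) + r * (D + k).choose k := by gcongr
      _ = (E + (k + 1)).choose (k + 1) + (r + 1) * (D + k).choose k := by ring

/-- from the two-sided Hilbert bounds to the degree of the exceptional family -/
theorem prf_num (n c : ℕ) : ∃ Cn : ℕ, 0 < Cn ∧ ∀ k ≤ n, ∀ e a M q r D : ℕ, q ≤ c * M → r ≤ c * M →
    Cn * M ≤ D → e * (D - q + k).choose k + a * (D - r + k).choose k ≤ a * (D + k).choose k →
    e * D ≤ Cn * a * M := by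
  refine ⟨2 * c + 2 ^ n * n.factorial * c + 1, by omega, ?_⟩
  intro k hk e a M q r D hq hr hD H
  have hcM : 2 * (c * M) ≤ D := by
    refine le_trans ?_ hD
    nlinarith [Nat.zero_le (2 ^ n * n.factorial * c * M), Nat.zero_le M]
  rcases k with _ | k'
  · simp only [add_zero, Nat.choose_zero_right, mul_one] at H
    have : e = 0 := by omega
    rw [this]; simp
  have hrD : r ≤ D := by omega
  have hp := prfp_pascal k' r D hrD
  have h1 : e * (D - q + (k' + 1)).choose (k' + 1) ≤ a * r * (D + k').choose k' := by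
    have : a * (D + (k' + 1)).choose (k' + 1)
        ≤ a * (D - r + (k' + 1)).choose (k' + 1) + a * r * (D + k').choose k' := by
      calc a * (D + (k' + 1)).choose (k' + 1)
          ≤ a * ((D - r + (k' + 1)).choose (k' + 1) + r * (D + k').choose k') := by gcongr
        _ = _ := by ring
    omega
  have h2 := ph_pow_le_choose (D - q) (k' + 1)
  have h3 := ph_choose_le_pow D k'
  have h4 : D + 1 ≤ 2 * (D - q + 1) := by omega
  have h5 : e * (D + 1) * (D + 1) ^ k'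
      ≤ 2 ^ (k' + 1) * (k' + 1).factorial * (a * r) * (D + 1) ^ k' := by
    calc e * (D + 1) * (D + 1) ^ k' = e * (D + 1) ^ (k' + 1) := by ring
      _ ≤ e * (2 * (D - q + 1)) ^ (k' + 1) := by gcongr
      _ = 2 ^ (k' + 1) * (e * (D - q + 1) ^ (k' + 1)) := by rw [mul_pow]; ring
      _ ≤ 2 ^ (k' + 1) * (e * ((k' + 1).factorial * (D - q + (k' + 1)).choose (k' + 1))) := by gcongr
      _ = 2 ^ (k' + 1) * (k' + 1).factorial * (e * (D - q + (k' + 1)).choose (k' + 1)) := by ring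
      _ ≤ 2 ^ (k' + 1) * (k' + 1).factorial * (a * r * (D + k').choose k') := by gcongr
      _ ≤ 2 ^ (k' + 1) * (k' + 1).factorial * (a * r * (D + 1) ^ k') := by gcongr
      _ = _ := by ring
  have h6 : e * (D + 1) ≤ 2 ^ (k' + 1) * (k' + 1).factorial * (a * r) :=
    Nat.le_of_mul_le_mul_right h5 (by positivity)
  have h7 : 2 ^ (k' + 1) ≤ 2 ^ n := Nat.pow_le_pow_right (by norm_num) hk
  have h8 : (k' + 1).factorial ≤ n.factorial := Nat.factorial_le hk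
  calc e * D ≤ e * (D + 1) := by gcongr; omega
    _ ≤ 2 ^ (k' + 1) * (k' + 1).factorial * (a * r) := h6
    _ ≤ 2 ^ n * n.factorial * (a * (c * M)) := by gcongr
    _ = (2 ^ n * n.factorial * c) * a * M := by ring
    _ ≤ (2 * c + 2 ^ n * n.factorial * c + 1) * a * M := by gcongr; omega

/-! ### the cuts -/

/-- the union of the proper cuts -/
def prfpCut (𝒜 : Finset (Ideal (PrfPol n))) (h : Ideal (PrfPol n) → PrfPol n) :
    Set (Fin n → ℂ) := ⋃ p ∈ 𝒜, (zeroLocus ℂ p ∩ zset (h p))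

/-- the polynomials of degree `≤ D` vanishing on `C` -/
noncomputable def prfpW (C : Set (Fin n → ℂ)) (D : ℕ) : Submodule ℂ (PrfPol n) :=
  restrictTotalDegree (Fin n) ℂ D ⊓ (vanishingIdeal ℂ C).restrictScalars ℂ

theorem prfp_mem_W (C : Set (Fin n → ℂ)) (D : ℕ) (g : PrfPol n) :
    g ∈ prfpW C D ↔ g.totalDegree ≤ D ∧ ∀ x ∈ C, eval x g = 0 := by
  simp only [prfpW, Submodule.mem_inf, mem_restrictTotalDegree, Submodule.restrictScalars_mem,
    mem_vanishingIdeal_iff, aeval_eq_eval]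

theorem prfp_nonvan {ι : Type*} [Finite ι] (p : Ideal (MvPolynomial ι ℂ)) (hp : p.IsPrime)
    (h : MvPolynomial ι ℂ) (hh : h ∉ p) : ∃ x ∈ zeroLocus ℂ p, eval x h ≠ 0 := by
  by_contra hcon
  push Not at hcon
  apply hh
  have h1 : h ∈ vanishingIdeal ℂ (zeroLocus ℂ p) := by
    rw [mem_vanishingIdeal_iff]
    intro x hx
    exact hcon x hx
  rwa [vanishingIdeal_zeroLocus_eq_radical, hp.radical] at h1

theorem prfp_cut_one {ν : Type} (s : Finset ν) (G : ν → Set (PrfPol n)) (L : ν → ℕ) (k : ℕ)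
    (𝒜 : Finset (Ideal (PrfPol n))) (hfam : PrfFam s G L k 𝒜) (p : Ideal (PrfPol n)) (hp : p ∈ 𝒜)
    (h : PrfPol n) (hh : h ∉ p) (L' : ℕ) (hL' : h.totalDegree ≤ L') (D : ℕ)
    (hD : L' + n * ∑ a ∈ s, L a ≤ D) :
    hA (zeroLocus ℂ p ∩ zset h) D +
        vdeg (zeroLocus ℂ p) * (D - (L' + n * ∑ a ∈ s, L a) + k).choose k ≤
      vdeg (zeroLocus ℂ p) * (D + k).choose k := by
  have hpp : p.IsPrime := by
    obtain ⟨a, _, ha⟩ := hfam.comp p hp
    exact ha.1.1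
  have hsub : ∀ p' ∈ ({p} : Finset (Ideal (PrfPol n))), p' ∈ 𝒜 := by
    intro p' hp'
    rw [Finset.mem_singleton] at hp'
    rw [hp']
    exact hp
  have hfam1 : PrfFam s G L k {p} :=
    ⟨hfam.one_le, hfam.deg, fun p' hp' => hfam.dim p' (hsub p' hp'),
      fun p' hp' => hfam.comp p' (hsub p' hp')⟩
  have hUn : prfUn ({p} : Finset (Ideal (PrfPol n))) = zeroLocus ℂ p := by simp [prfUn]
  have hDeg : prfDeg ({p} : Finset (Ideal (PrfPol n))) = vdeg (zeroLocus ℂ p) := by simp [prfDeg]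
  have h1 := ph_section_hA (zeroLocus ℂ p) ⟨p, hpp, rfl⟩ h (prfp_nonvan p hpp h hh) hL'
    (show L' ≤ D by omega)
  have h2 := prf_up (k := k) ({p} : Finset (Ideal (PrfPol n)))
    (fun p' hp' => by
      rw [Finset.mem_singleton] at hp'
      rw [hp']
      exact ⟨hpp, hfam.dim p hp⟩) D
  have h3 := prf_low s G L k {p} hfam1 (D - L') (by omega)
  rw [hUn, hDeg] at h2 h3
  rw [Nat.sub_sub] at h3
  omega

theorem prfp_cut {ν : Type} (s : Finset ν) (G : ν → Set (PrfPol n)) (L : ν → ℕ) (k : ℕ)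
    (𝒜 : Finset (Ideal (PrfPol n))) (hfam : PrfFam s G L k 𝒜) (h : Ideal (PrfPol n) → PrfPol n)
    (L' : ℕ) (hh : ∀ p ∈ 𝒜, h p ∉ p ∧ (h p).totalDegree ≤ L') (D : ℕ)
    (hD : L' + n * ∑ a ∈ s, L a ≤ D) :
    hA (prfpCut 𝒜 h) D + prfDeg 𝒜 * (D - (L' + n * ∑ a ∈ s, L a) + k).choose k ≤
      prfDeg 𝒜 * (D + k).choose k := by
  have h1 : hA (prfpCut 𝒜 h) D ≤ ∑ p ∈ 𝒜, hA (zeroLocus ℂ p ∩ zset (h p)) D := by
    unfold hA prfpCut
    exact rk_rkOn_biUnion_le _ 𝒜 _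
  have h2 : ∑ p ∈ 𝒜, (hA (zeroLocus ℂ p ∩ zset (h p)) D +
      vdeg (zeroLocus ℂ p) * (D - (L' + n * ∑ a ∈ s, L a) + k).choose k) ≤
      ∑ p ∈ 𝒜, vdeg (zeroLocus ℂ p) * (D + k).choose k :=
    Finset.sum_le_sum fun p hp =>
      prfp_cut_one s G L k 𝒜 hfam p hp (h p) (hh p hp).1 L' (hh p hp).2 D hD
  rw [Finset.sum_add_distrib, ← Finset.sum_mul, ← Finset.sum_mul] at h2
  unfold prfDeg
  omega

/-! ### forced members, generic member -/

theorem prfp_rk_forced {ι : Type*} (W : Submodule ℂ (MvPolynomial ι ℂ)) [Module.Finite ℂ W]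
    (C E : Set (ι → ℂ)) (h : ∀ g ∈ W, (∀ x ∈ C, eval x g = 0) → ∀ x ∈ E, eval x g = 0) :
    rkOn W E ≤ rkOn W C := by
  have h1 : rkOn W E ≤ rkOn W (C ∪ E) := rk_rkOn_mono_set W Set.subset_union_right
  have h2 : rkOn W (C ∪ E) = rkOn W C := by
    apply rk_rkOn_congr_ker
    intro f hf
    constructor
    · intro hx x hxC
      exact hx x (Or.inl hxC)
    · intro hx x hxCE
      rcases hxCE with hxC | hxE
      · exact hx x hxC
      · exact h f hf hx x hxE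
  omega

theorem prfp_forced (C : Set (Fin n → ℂ)) (D : ℕ) (ℰ : Finset (Ideal (PrfPol n)))
    (h : ∀ p ∈ ℰ, ∀ g ∈ prfpW C D, g ∈ p) : hA (prfUn ℰ) D ≤ hA C D := by
  unfold hA
  apply prfp_rk_forced
  intro g hg hC x hx
  simp only [prfUn, Set.mem_iUnion] at hx
  obtain ⟨p, hp, hxp⟩ := hx
  have h1 : g ∈ prfpW C D := (prfp_mem_W C D g).mpr ⟨(mem_restrictTotalDegree _ D g).mp hg, hC⟩
  exact (mem_zeroLocus_iff.mp hxp) g (h p hp g h1)

theorem prfp_generic {ι : Type*} [Fintype ι] (W : Submodule ℂ (MvPolynomial ι ℂ))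
    (𝒜 : Finset (Ideal (MvPolynomial ι ℂ))) :
    ∃ g ∈ W, ∀ p ∈ 𝒜, (∃ g' ∈ W, g' ∉ p) → g ∉ p := by
  classical
  obtain ⟨g, hgW, hg⟩ := ph_avoid W (𝒜.filter fun p => ∃ g' ∈ W, g' ∉ p) (by
    intro 𝔮 h𝔮 hsub
    obtain ⟨-, g', hg'W, hg'⟩ := Finset.mem_filter.mp h𝔮
    exact hg' (hsub hg'W))
  exact ⟨g, hgW, fun p hp hex => hg p (Finset.mem_filter.mpr ⟨hp, hex⟩)⟩

theorem PrfFam.subset {ν : Type} {s : Finset ν} {G : ν → Set (PrfPol n)} {L : ν → ℕ} {k : ℕ}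
    {𝒜 ℰ : Finset (Ideal (PrfPol n))} (h : PrfFam s G L k 𝒜) (hℰ : ℰ ⊆ 𝒜) : PrfFam s G L k ℰ :=
  ⟨h.one_le, h.deg, fun p hp => h.dim p (hℰ hp), fun p hp => h.comp p (hℰ hp)⟩

theorem PrfFam.prime {ν : Type} {s : Finset ν} {G : ν → Set (PrfPol n)} {L : ν → ℕ} {k : ℕ}
    {𝒜 : Finset (Ideal (PrfPol n))} (h : PrfFam s G L k 𝒜) {p : Ideal (PrfPol n)} (hp : p ∈ 𝒜) :
    p.IsPrime := by
  obtain ⟨a, _, ha⟩ := h.comp p hp
  exact ha.1.1

theorem PrfFam.dim_le {ν : Type} {s : Finset ν} {G : ν → Set (PrfPol n)} {L : ν → ℕ} {k : ℕ}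
    {𝒜 : Finset (Ideal (PrfPol n))} (h : PrfFam s G L k 𝒜) (hne : 𝒜.Nonempty) : k ≤ n := by
  obtain ⟨p, hp⟩ := hne
  have := ph_vdim_le (zeroLocus ℂ p)
  rw [h.dim p hp, Fintype.card_fin] at this
  exact this

/-- POOL (poly:pooling; the loss is stated with `max L L'`, enough for every use). -/
theorem prf_pool (n : ℕ) : ∃ Cn : ℕ, 0 < Cn ∧
    ∀ {ν : Type} (s : Finset ν) (G : ν → Set (PrfPol n)) (L : ν → ℕ) (k : ℕ)
      (𝒜 : Finset (Ideal (PrfPol n))), PrfFam s G L k 𝒜 →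
      ∀ (h : Ideal (PrfPol n) → PrfPol n) (L' : ℕ), 1 ≤ L' →
        (∀ p ∈ 𝒜, h p ∉ p ∧ (h p).totalDegree ≤ L') →
        ∀ D : ℕ, Cn * max (∑ a ∈ s, L a) L' ≤ D →
          ∃ (g : PrfPol n) (ℰ : Finset (Ideal (PrfPol n))), ℰ ⊆ 𝒜 ∧ g.totalDegree ≤ D ∧
            prfDeg ℰ * D ≤ Cn * prfDeg 𝒜 * max (∑ a ∈ s, L a) L' ∧
            (∀ p ∈ 𝒜, ∀ x ∈ zeroLocus ℂ p, eval x (h p) = 0 → eval x g = 0) ∧
            ∀ p ∈ 𝒜, p ∉ ℰ → g ∉ p := by
  classical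
  obtain ⟨C₀, hC₀, hnum⟩ := prf_num n (n + 1)
  refine ⟨C₀ + (n + 1), by omega, ?_⟩
  intro ν s G L k 𝒜 hfam h L' hL' hh D hD
  set Λ := ∑ a ∈ s, L a with hΛ
  set M := max Λ L' with hM
  have hΛM : Λ ≤ M := le_max_left _ _
  have hL'M : L' ≤ M := le_max_right _ _
  have hq : n * Λ ≤ (n + 1) * M := by nlinarith
  have hr : L' + n * Λ ≤ (n + 1) * M := by nlinarith
  have hD0 : C₀ * M ≤ D := le_trans (by nlinarith) hD
  have hD1 : (n + 1) * M ≤ D := le_trans (by nlinarith) hD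
  rcases 𝒜.eq_empty_or_nonempty with rfl | hne
  · exact ⟨1, ∅, by simp, by simp, by simp [prfDeg], by simp, by simp⟩
  have hk : k ≤ n := hfam.dim_le hne
  set Cc := prfpCut 𝒜 h with hCc
  set W := prfpW Cc D with hW
  obtain ⟨g, hgW, hg⟩ := prfp_generic W 𝒜
  set ℰ := 𝒜.filter (fun p => ∀ g' ∈ W, g' ∈ p) with hℰ
  have hℰsub : ℰ ⊆ 𝒜 := Finset.filter_subset _ _
  have hgW' := (prfp_mem_W Cc D g).mp hgW
  refine ⟨g, ℰ, hℰsub, hgW'.1, ?_, ?_, ?_⟩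
  · have h1 := prf_low s G L k ℰ (hfam.subset hℰsub) D (le_trans hq hD1)
    have h2 : hA (prfUn ℰ) D ≤ hA Cc D :=
      prfp_forced Cc D ℰ fun p hp => (Finset.mem_filter.mp hp).2
    have h3 := prfp_cut s G L k 𝒜 hfam h L' hh D (le_trans hr hD1)
    have h4 := hnum k hk (prfDeg ℰ) (prfDeg 𝒜) M (n * Λ) (L' + n * Λ) D hq hr hD0
      (le_trans (Nat.add_le_add_right (le_trans h1 h2) _) h3)
    calc prfDeg ℰ * D ≤ C₀ * prfDeg 𝒜 * M := h4
      _ ≤ (C₀ + (n + 1)) * prfDeg 𝒜 * M := by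
        apply Nat.mul_le_mul_right
        apply Nat.mul_le_mul_right
        omega
  · intro p hp x hx hx0
    apply hgW'.2 x
    simp only [hCc, prfpCut, Set.mem_iUnion]
    exact ⟨p, hp, hx, hx0⟩
  · intro p hp hpℰ
    apply hg p hp
    by_contra hcon
    apply hpℰ
    rw [hℰ, Finset.mem_filter]
    refine ⟨hp, fun g' hg' => ?_⟩
    by_contra hg'p
    exact hcon ⟨g', hg', hg'p⟩

end Claimed.Agent.R273
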