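import Claimed.Agent.R273.PrfIndiv

/-!
# Row 273, S5: prof:product-testing in FINITE FORM: `prf_prod`, cut into leaves (architect helper161).  Prefix `prfq_` (and `spl_spec*`).

LEAF SPL-spec (`spl_specL_eval`, `spl_specR_eval`, `spl_specL_deg`, `spl_specR_deg`, `spl_exists_ne`, `spl_deg_zero`), Mathlib only.
 * eval: `prfSpecL G x = aeval (Sum.elim (C ∘ x) X) G`; `eval y ∘ aeval φ = aeval (eval y ∘ φ)` (`MvPolynomial.induction_on G`, or `comp_aeval`, `aeval_def`, `eval₂_comp`); `Sum.elim` cases.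
 * deg: `ph_totalDegree_aeval_le` (PhLin, proved; substitution of polynomials of degree `≤ 1`) or by hand: `aeval φ (monomial m c) = C c * ∏ φ(i)^{m i}`, `totalDegree_mul_le`, `totalDegree_finset_prod`, `totalDegree_pow_le`.
 * `spl_exists_ne`: `MvPolynomial.funext` (`ℂ` infinite): `G ≠ 0 → ∃ w, eval w G ≠ 0`; `w = Sum.elim (w ∘ inl) (w ∘ inr)` (`Sum.elim_comp_inl_inr`).
 * `spl_deg_zero`: `totalDegree g = 0 → g = C c` (`MvPolynomial.totalDegree_eq_zero_iff_eq_C`), `g ≠ 0 → c ≠ 0`.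
LEAF PRFQ-case1 (`prfq_case1`): `h q := if prfSpecL G x ∉ q then prfSpecL G x else 1` (classical); `q ∈ carriers` is prime (`prf_carr_prime`), so `1 ∉ q` (`Ideal.IsPrime.ne_top`, `Ideal.eq_top_iff_one`); degrees: `spl_specL_deg`, `totalDegree_one`.
   For `y ∈ S'`: `p := asg₂ y ∈ carriers` (`⟨y, _, hasg₂ y _⟩`), `y ∈ Z(p)` (`(hasg₂ y _).2`), `h p = prfSpecL G x`, `eval y (h p) = G(x,y) = 0` (`spl_specL_eval`).
LEAF PRFQ-case2 (`prfq_ystar`, `prfq_case2`).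
 * `prfq_ystar`: for `X ∈ 𝒳` pick `x_X ∈ Z(X)`, `y_X ∈ Z(Y)` with `G(x_X, y_X) ≠ 0`; `g_X := prfSpecL G x_X ∉ Y` (it does not vanish at `y_X ∈ Z(Y)`); `∏_{X ∈ 𝒳} g_X ∉ Y` (`Ideal.IsPrime.prod_mem_iff`/induction); `prfp_nonvan` gives `y ∈ Z(Y)` with `∏ g_X(y) ≠ 0`;
   so `G(x_X, y) ≠ 0`, i.e. `prfSpecR G y` does not vanish at `x_X ∈ Z(X)`: `∉ X`.
 * `prfq_case2`: `𝒳 := (prf_carriers_finite π₁ j).toFinset.filter (¬ PrfVanProd G · Y)`, `y*` from `prfq_ystar`, `h X := if prfSpecR G y* ∉ X then prfSpecR G y* else 1`.   For `x ∈ S'`: `X := asg₁ x ∈ 𝒳`, `h X = prfSpecR G y*`, `eval x (h X) = G(x, y*) = eval y* (prfSpecL G x) = 0` (`prfSpecL G x ∈ Y`, `y* ∈ Z(Y)`).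
LEAF PRFQ-count (`prfq_count_fst`, `prfq_count_snd`): `Finset.card_eq_sum_card_fiberwise` (`Γ → A`, `z ↦ z.1`), the fibre over `x` injects into its image under `Prod.snd` (`Finset.card_image_of_injOn`), `Finset.sum_le_card_nsmul`-type bound in `ℝ`.
`prf_prod` is PROVED from these.
-/

set_option autoImplicit false

namespace Claimed.Agent.R273

open MvPolynomial Module

variable {n : ℕ}

/-- Specialisations of a polynomial in `(x, y)`. -/
noncomputable def prfSpecL (G : MvPolynomial (Fin n ⊕ Fin n) ℂ) (x : Fin n → ℂ) : PrfPol n :=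
  aeval (Sum.elim (fun i => C (x i)) X) G
noncomputable def prfSpecR (G : MvPolynomial (Fin n ⊕ Fin n) ℂ) (y : Fin n → ℂ) : PrfPol n :=
  aeval (Sum.elim X (fun i => C (y i))) G

/-- `G` vanishes identically on `Z(p) × Z(q)`. -/
def PrfVanProd (G : MvPolynomial (Fin n ⊕ Fin n) ℂ) (p q : Ideal (PrfPol n)) : Prop :=
  ∀ x ∈ zeroLocus ℂ p, ∀ y ∈ zeroLocus ℂ q, eval (Sum.elim x y) G = 0

/-! ### specialisations -/

theorem spl_specL_eval (G : MvPolynomial (Fin n ⊕ Fin n) ℂ) (x y : Fin n → ℂ) :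
    eval y (prfSpecL G x) = eval (Sum.elim x y) G := by
  unfold prfSpecL
  induction G using MvPolynomial.induction_on with
  | C a => simp
  | add p q hp hq => rw [map_add, map_add, map_add, hp, hq]
  | mul_X p i hp =>
    rw [map_mul, map_mul, map_mul, hp, aeval_X, eval_X]
    cases i <;> simp

theorem spl_specR_eval (G : MvPolynomial (Fin n ⊕ Fin n) ℂ) (x y : Fin n → ℂ) :
    eval x (prfSpecR G y) = eval (Sum.elim x y) G := by
  unfold prfSpecR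
  induction G using MvPolynomial.induction_on with
  | C a => simp
  | add p q hp hq => rw [map_add, map_add, map_add, hp, hq]
  | mul_X p i hp =>
    rw [map_mul, map_mul, map_mul, hp, aeval_X, eval_X]
    cases i <;> simp

theorem spl_specL_deg (G : MvPolynomial (Fin n ⊕ Fin n) ℂ) (x : Fin n → ℂ) :
    (prfSpecL G x).totalDegree ≤ G.totalDegree := by
  refine ph_totalDegree_aeval_le _ (fun j => ?_) G
  cases j <;> simp [totalDegree_X]

theorem spl_specR_deg (G : MvPolynomial (Fin n ⊕ Fin n) ℂ) (y : Fin n → ℂ) :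
    (prfSpecR G y).totalDegree ≤ G.totalDegree := by
  refine ph_totalDegree_aeval_le _ (fun j => ?_) G
  cases j <;> simp [totalDegree_X]

theorem spl_exists_ne (G : MvPolynomial (Fin n ⊕ Fin n) ℂ) (hG : G ≠ 0) :
    ∃ x y : Fin n → ℂ, eval (Sum.elim x y) G ≠ 0 := by
  by_contra hcon
  push Not at hcon
  refine hG (MvPolynomial.funext fun w => ?_)
  have h := hcon (fun i => w (Sum.inl i)) (fun i => w (Sum.inr i))
  have e : Sum.elim (fun i => w (Sum.inl i)) (fun i => w (Sum.inr i)) = w := by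
    funext i
    cases i <;> rfl
  rw [e] at h
  rw [h, map_zero]

/-- a nonzero polynomial of degree `0` has no zeros -/
theorem spl_deg_zero {σ : Type} (g : MvPolynomial σ ℂ) (hg : g ≠ 0) (h : g.totalDegree = 0)
    (w : σ → ℂ) : eval w g ≠ 0 := by
  rw [totalDegree_eq_zero_iff_eq_C] at h
  rw [h, eval_C]
  intro h0
  apply hg
  rw [h, h0, C_0]

/-! ### the two cases -/

/-- the conclusion of `prf_indiv_one` for a fixed piece, with the bound `bd` -/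
def PrfqInd (π : PrfPiece n) (j L' : ℕ) (bd : ℝ) : Prop :=
  ∀ h : Ideal (PrfPol n) → PrfPol n, (∀ p ∈ π.carriers j, h p ∉ p ∧ (h p).totalDegree ≤ L') →
    ∀ S' ⊆ π.S, (∀ x ∈ S', ∃ p ∈ π.carriers j, x ∈ zeroLocus ℂ p ∧ eval x (h p) = 0) →
      (S'.card : ℝ) ≤ bd

/-- Case 1: `G(x,·)` is a proper cut of the assigned carrier of `y` -/
theorem prfq_case1 (π₂ : PrfPiece n) (j L' : ℕ) (bd : ℝ) (hind : PrfqInd π₂ j L' bd)
    (asg₂ : (Fin n → ℂ) → Ideal (PrfPol n))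
    (hasg₂ : ∀ y ∈ π₂.S, asg₂ y ∈ prfCarr (prfSys π₂.f j) y)
    (G : MvPolynomial (Fin n ⊕ Fin n) ℂ) (hG : G.totalDegree ≤ L') (x : Fin n → ℂ)
    (S' : Finset (Fin n → ℂ)) (hS' : S' ⊆ π₂.S)
    (h : ∀ y ∈ S', eval (Sum.elim x y) G = 0 ∧ prfSpecL G x ∉ asg₂ y) :
    (S'.card : ℝ) ≤ bd := by
  classical
  have hz : ∀ {p : Ideal (PrfPol n)} {y : Fin n → ℂ} {g : PrfPol n}, y ∈ zeroLocus ℂ p → g ∈ p → eval y g = 0 := by
    intro p y g hy hg
    have := (mem_zeroLocus_iff.mp hy) g hg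
    simpa [aeval_eq_eval] using this
  refine hind (fun q => if prfSpecL G x ∉ q then prfSpecL G x else 1) ?_ S' hS' ?_
  · rintro q ⟨y, hy, hq⟩
    have hqp : q.IsPrime := prf_carr_prime hq
    by_cases hc : prfSpecL G x ∉ q
    · simp only [if_pos hc]
      exact ⟨hc, (spl_specL_deg G x).trans hG⟩
    · simp only [if_neg hc]
      refine ⟨fun h1 => hqp.ne_top ((Ideal.eq_top_iff_one _).2 h1), ?_⟩
      rw [totalDegree_one]
      exact Nat.zero_le _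
  · intro y hy
    refine ⟨asg₂ y, ⟨y, hS' hy, hasg₂ y (hS' hy)⟩, (hasg₂ y (hS' hy)).2, ?_⟩
    simp only [if_pos (h y hy).2]
    rw [spl_specL_eval]
    exact (h y hy).1

theorem prfq_ystar (G : MvPolynomial (Fin n ⊕ Fin n) ℂ) (Y : Ideal (PrfPol n)) (hY : Y.IsPrime)
    (𝒳 : Finset (Ideal (PrfPol n))) (h : ∀ X ∈ 𝒳, ¬ PrfVanProd G X Y) :
    ∃ y ∈ zeroLocus ℂ Y, ∀ X ∈ 𝒳, prfSpecR G y ∉ X := by
  classical
  have hz : ∀ {p : Ideal (PrfPol n)} {y : Fin n → ℂ} {g : PrfPol n}, y ∈ zeroLocus ℂ p → g ∈ p → eval y g = 0 := by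
    intro p y g hy hg
    have := (mem_zeroLocus_iff.mp hy) g hg
    simpa [aeval_eq_eval] using this
  have hch : ∀ X ∈ 𝒳, ∃ x ∈ zeroLocus ℂ X, ∃ y ∈ zeroLocus ℂ Y, eval (Sum.elim x y) G ≠ 0 := by
    intro X hX
    have := h X hX
    unfold PrfVanProd at this
    push Not at this
    exact this
  choose! xs hxs ys hys hne using hch
  have hprod : ∏ X ∈ 𝒳, prfSpecL G (xs X) ∉ Y := by
    intro hmem
    obtain ⟨X, hX, hXm⟩ := (hY.prod_mem_iff).1 hmem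
    apply hne X hX
    rw [← spl_specL_eval]
    exact hz (hys X hX) hXm
  obtain ⟨y, hy, hyne⟩ := prfp_nonvan Y hY _ hprod
  refine ⟨y, hy, fun X hX hmem => ?_⟩
  apply hyne
  rw [map_prod]
  refine Finset.prod_eq_zero hX ?_
  rw [spl_specL_eval, ← spl_specR_eval]
  exact hz (hxs X hX) hmem

/-- Case 2: `G(x,·)` vanishes on `Z(Y)` but `G` does not vanish on `Z(asg₁ x) × Z(Y)` -/
theorem prfq_case2 (π₁ : PrfPiece n) (j L' : ℕ) (bd : ℝ) (hind : PrfqInd π₁ j L' bd)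
    (asg₁ : (Fin n → ℂ) → Ideal (PrfPol n))
    (hasg₁ : ∀ x ∈ π₁.S, asg₁ x ∈ prfCarr (prfSys π₁.f j) x)
    (G : MvPolynomial (Fin n ⊕ Fin n) ℂ) (hG : G.totalDegree ≤ L') (Y : Ideal (PrfPol n))
    (hY : Y.IsPrime) (S' : Finset (Fin n → ℂ)) (hS' : S' ⊆ π₁.S)
    (h : ∀ x ∈ S', prfSpecL G x ∈ Y ∧ ¬ PrfVanProd G (asg₁ x) Y) :
    (S'.card : ℝ) ≤ bd := by
  classical
  have hz : ∀ {p : Ideal (PrfPol n)} {y : Fin n → ℂ} {g : PrfPol n}, y ∈ zeroLocus ℂ p → g ∈ p → eval y g = 0 := by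
    intro p y g hy hg
    have := (mem_zeroLocus_iff.mp hy) g hg
    simpa [aeval_eq_eval] using this
  obtain ⟨ys, hys, hysX⟩ := prfq_ystar G Y hY
    ((prf_carriers_finite π₁ j).toFinset.filter fun X => ¬ PrfVanProd G X Y) (fun X hX => (Finset.mem_filter.1 hX).2)
  refine hind (fun X => if prfSpecR G ys ∉ X then prfSpecR G ys else 1) ?_ S' hS' ?_
  · rintro q ⟨y, hy, hq⟩
    have hqp : q.IsPrime := prf_carr_prime hq
    by_cases hc : prfSpecR G ys ∉ q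
    · simp only [if_pos hc]
      exact ⟨hc, (spl_specR_deg G ys).trans hG⟩
    · simp only [if_neg hc]
      refine ⟨fun h1 => hqp.ne_top ((Ideal.eq_top_iff_one _).2 h1), ?_⟩
      rw [totalDegree_one]
      exact Nat.zero_le _
  · intro x hx
    have hc : asg₁ x ∈ π₁.carriers j := ⟨x, hS' hx, hasg₁ x (hS' hx)⟩
    have hn : prfSpecR G ys ∉ asg₁ x :=
      hysX _ (Finset.mem_filter.2 ⟨(prf_carriers_finite π₁ j).mem_toFinset.2 hc, (h x hx).2⟩)
    refine ⟨asg₁ x, hc, (hasg₁ x (hS' hx)).2, ?_⟩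
    simp only [if_pos hn]
    rw [spl_specR_eval, ← spl_specL_eval]
    exact hz hys (h x hx).1

/-! ### counting by fibres -/

theorem prfq_count_fst {α β : Type*} [DecidableEq α] [DecidableEq β] (A : Finset α) (Bf : Finset β)
    (Γ : Finset (α × β)) (hΓ : Γ ⊆ A ×ˢ Bf) (c : ℝ)
    (h : ∀ x ∈ A, (((Γ.filter (fun z => z.1 = x)).image Prod.snd).card : ℝ) ≤ c) :
    (Γ.card : ℝ) ≤ c * A.card := by
  have hmaps : Set.MapsTo (fun z : α × β => z.1) (Γ : Set (α × β)) (A : Set α) := by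
    intro z hz
    exact (Finset.mem_product.mp (hΓ hz)).1
  rw [Finset.card_eq_sum_card_fiberwise hmaps, Nat.cast_sum, mul_comm, ← nsmul_eq_mul]
  refine Finset.sum_le_card_nsmul _ _ _ fun x hx => ?_
  refine le_trans (le_of_eq ?_) (h x hx)
  rw [Finset.card_image_of_injOn]
  intro z hz w hw hzw
  have h1 := (Finset.mem_filter.mp hz).2
  have h2 := (Finset.mem_filter.mp hw).2
  exact Prod.ext (h1.trans h2.symm) hzw

theorem prfq_count_snd {α β : Type*} [DecidableEq α] [DecidableEq β] (A : Finset α) (Bf : Finset β)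
    (Γ : Finset (α × β)) (hΓ : Γ ⊆ A ×ˢ Bf) (c : ℝ)
    (h : ∀ y ∈ Bf, (((Γ.filter (fun z => z.2 = y)).image Prod.fst).card : ℝ) ≤ c) :
    (Γ.card : ℝ) ≤ c * Bf.card := by
  have hmaps : Set.MapsTo (fun z : α × β => z.2) (Γ : Set (α × β)) (Bf : Set β) := by
    intro z hz
    exact (Finset.mem_product.mp (hΓ hz)).2
  rw [Finset.card_eq_sum_card_fiberwise hmaps, Nat.cast_sum, mul_comm, ← nsmul_eq_mul]
  refine Finset.sum_le_card_nsmul _ _ _ fun x hx => ?_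
  refine le_trans (le_of_eq ?_) (h x hx)
  rw [Finset.card_image_of_injOn]
  intro z hz w hw hzw
  have h1 := (Finset.mem_filter.mp hz).2
  have h2 := (Finset.mem_filter.mp hw).2
  exact Prod.ext hzw (h1.trans h2.symm)

/-- PRODUCT TESTING (first assertion of prof:product-testing), finite form, for two pieces on a common
plateau (source `π₁`, target `π₂`; the pooled form is the same with pools).  `asg₁, asg₂` assign to
every point one of its own local carriers.  `err₁, err₂` are the bounds of `prf_indiv`. -/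
theorem prf_prod (n : ℕ) : ∃ Cn : ℕ, 0 < Cn ∧
    ∀ (π₁ π₂ : PrfPiece n) (B s κ : ℝ) (grid : Finset ℝ), π₁.Ok B s κ grid → π₂.Ok B s κ grid →
      ∀ (j : ℕ) (t : ℝ), j ≤ n → t ∈ grid → PrfPlateau π₁ j t → PrfPlateau π₂ j t →
      ∀ (L L' : ℕ), 1 ≤ L → 1 ≤ L' → (∀ i < j, (π₁.f i).totalDegree ≤ L) →
        (∀ i < j, (π₂.f i).totalDegree ≤ L) → Cn * max L L' ≤ ⌊prfT B s t⌋₊ →
      ∀ (asg₁ asg₂ : (Fin n → ℂ) → Ideal (PrfPol n)),
        (∀ x ∈ π₁.S, asg₁ x ∈ prfCarr (prfSys π₁.f j) x) →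
        (∀ y ∈ π₂.S, asg₂ y ∈ prfCarr (prfSys π₂.f j) y) →
      ∀ G : MvPolynomial (Fin n ⊕ Fin n) ℂ, G.totalDegree ≤ L' →
      ∀ Γ ⊆ π₁.S ×ˢ π₂.S,
        (∀ z ∈ Γ, eval (Sum.elim z.1 z.2) G = 0 ∧ ¬ PrfVanProd G (asg₁ z.1) (asg₂ z.2)) →
        (Γ.card : ℝ) ≤
          (κ * π₁.S.card + (Cn * max L L' : ℕ) / (⌊prfT B s t⌋₊ : ℝ) * π₁.degLo j * π₁.degHi j)
              * π₂.S.card +
          (κ * π₂.S.card + (Cn * max L L' : ℕ) / (⌊prfT B s t⌋₊ : ℝ) * π₂.degLo j * π₂.degHi j)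
              * π₁.S.card := by
  classical
  obtain ⟨Cn, hCn, H⟩ := prf_indiv_one n
  refine ⟨Cn, hCn, ?_⟩
  intro π₁ π₂ B s κ grid hok₁ hok₂ j t hj ht hpl₁ hpl₂ L L' hL hL' hdeg₁ hdeg₂ hD asg₁ asg₂
    hasg₁ hasg₂ G hG Γ hΓ hz
  set bd₁ := κ * π₁.S.card + (Cn * max L L' : ℕ) / (⌊prfT B s t⌋₊ : ℝ) * π₁.degLo j * π₁.degHi j
    with hbd₁
  set bd₂ := κ * π₂.S.card + (Cn * max L L' : ℕ) / (⌊prfT B s t⌋₊ : ℝ) * π₂.degLo j * π₂.degHi j
    with hbd₂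
  have hind₁ : PrfqInd π₁ j L' bd₁ := fun h hh S' hS' hx =>
    H π₁ B s κ grid hok₁ j t hj ht hpl₁ L L' hL hL' hdeg₁ h hh hD S' hS' hx
  have hind₂ : PrfqInd π₂ j L' bd₂ := fun h hh S' hS' hx =>
    H π₂ B s κ grid hok₂ j t hj ht hpl₂ L L' hL hL' hdeg₂ h hh hD S' hS' hx
  set Γ₁ := Γ.filter (fun z => prfSpecL G z.1 ∉ asg₂ z.2) with hΓ₁
  set Γ₂ := Γ.filter (fun z => ¬ prfSpecL G z.1 ∉ asg₂ z.2) with hΓ₂
  have hcard : Γ₁.card + Γ₂.card = Γ.card := Finset.card_filter_add_card_filter_not _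
  have h1 : (Γ₁.card : ℝ) ≤ bd₂ * π₁.S.card := by
    refine prfq_count_fst π₁.S π₂.S Γ₁ ((Finset.filter_subset _ _).trans hΓ) bd₂ fun x _ => ?_
    refine prfq_case1 π₂ j L' bd₂ hind₂ asg₂ hasg₂ G hG x _ ?_ ?_
    · intro y hy
      obtain ⟨z, hzm, rfl⟩ := Finset.mem_image.mp hy
      have hzΓ : z ∈ Γ := (Finset.mem_filter.mp (Finset.mem_filter.mp hzm).1).1
      exact (Finset.mem_product.mp (hΓ hzΓ)).2
    · intro y hy
      obtain ⟨z, hzm, rfl⟩ := Finset.mem_image.mp hy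
      obtain ⟨hz1, hzx⟩ := Finset.mem_filter.mp hzm
      obtain ⟨hzΓ, hzs⟩ := Finset.mem_filter.mp hz1
      subst hzx
      exact ⟨(hz z hzΓ).1, hzs⟩
  have h2 : (Γ₂.card : ℝ) ≤ bd₁ * π₂.S.card := by
    refine prfq_count_snd π₁.S π₂.S Γ₂ ((Finset.filter_subset _ _).trans hΓ) bd₁ fun y hy => ?_
    refine prfq_case2 π₁ j L' bd₁ hind₁ asg₁ hasg₁ G hG (asg₂ y) (prf_carr_prime (hasg₂ y hy)) _
      ?_ ?_
    · intro x hx
      obtain ⟨z, hzm, rfl⟩ := Finset.mem_image.mp hx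
      have hzΓ : z ∈ Γ := (Finset.mem_filter.mp (Finset.mem_filter.mp hzm).1).1
      exact (Finset.mem_product.mp (hΓ hzΓ)).1
    · intro x hx
      obtain ⟨z, hzm, rfl⟩ := Finset.mem_image.mp hx
      obtain ⟨hz1, hzy⟩ := Finset.mem_filter.mp hzm
      obtain ⟨hzΓ, hzs⟩ := Finset.mem_filter.mp hz1
      subst hzy
      exact ⟨not_not.mp hzs, (hz z hzΓ).2⟩
  have e : (Γ.card : ℝ) = Γ₁.card + Γ₂.card := by exact_mod_cast hcard.symm
  rw [e]
  linarith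

end Claimed.Agent.R273
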