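import Claimed.Agent.R273.PrfEnv

/-!
# Row 273, S5: RANK BUDGET `prf_rank` and BALANCE `prf_balance` (prof:rank-budget, prof:balance), finite form, cut into leaves (architect helper161).  Prefix `prfk_`.

`T(u) = prfT B s u = B e^{u s}`;  `σ(t) = π.sigma B s t = ∏_{i<n} min (T t) (T τ_i)`;  `K := prfkK n = (n+1)^n 2^n n!`.
`PrfRankAt n j`: the rank budget with error `e^{-n j μ s}` at the grid times at which AT MOST `j` cuts have been made.  Induction on `j` (`prfk_zero`, `prfk_succ`).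

LEAF PRFK-num (`prfk_full`, `prfk_choose_ge`, `prfk_ratio`, `prfk_env_real`).
 * `prfk_full`: `rk_rkOn_add_ker` (rank + dim ker = finrank), the kernel is `⊥` (`rk_mem_ker_evalOn`, `mem_restrictTotalDegree`), `rk_finrank_restrict` (RkDim), `Nat.choose_symm_add`, `Fintype.card_fin`, `add_comm`.
 * `prfk_choose_ge`: `(T+1)^n ≤ n! binom(T+n,n)` (`ph_pow_le_choose`, PhNN), cast, `pow_le_pow_left₀`.
 * `prfk_ratio`: `binom(T'+h,h) ≤ (T'+1)^h ≤ (2x')^h` (`ph_choose_le_pow`, `Nat.floor_le`), `(x/x')^m ≤ (x/x')^h` (`1 ≤ x/x'`), `(x/x')^h (2x')^h = 2^h x^h`, `x ≤ T+1` (`Nat.lt_floor_add_one`), `(T+1)^h ≤ h! binom(T+h,h)`, `2^h h! ≤ 2^n n!`.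
 * `prfk_env_real`: multiply `prfk_ratio` by `H''`, use the hypothesis, cancel `binom(T'+h,h) > 0`.
LEAF PRFK-sigma (`prfk_T_pos`, `prfk_sigma_nonneg`, `prfk_sigma_plateau`, `prfk_sigma_step`, `prfk_sigma_top`).
 * `prfk_sigma_plateau`: split `range n` at `j` (`Finset.prod_range_mul_prod_Ico`), `min = T τ_i` for `i < j`, `= T t` for `j ≤ i < n` (monotonicity of `T`: `B > 0`, `s > 0`), `Finset.prod_const`, `Nat.card_Ico`.
 * `prfk_sigma_step`: both sides by `prfk_sigma_plateau`; `∏_{i<j} = ∏_{i<j'} ∏_{j' ≤ i < j}`, `T τ_i ≤ T(t') e^{μ s}` for `j' ≤ i < j`; `T(t')^{n-j'} = T(t')^{j-j'} T(t')^{n-j}`.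
LEAF PRFK-plateau (`prfk_plateau_exists`, `prfk_pred_plateau`).
 * `prfk_plateau_exists`: `j :=` the least `j ≤ n` with `j = n ∨ t < τ_j` (`Nat.find`), or induction on `n`-prefixes; `Ok.mono`.
 * `prfk_pred_plateau`: `hg.pred θ (hπ.mem j ..) hθ` gives `t'`; `prfk_plateau_exists` at `t'` gives `j'`; `j' ≤ j` since `τ_j = θ > t'`; for `j' ≤ i ≤ j`: `τ_i ≤ τ_j = θ ≤ t' + μ`.
LEAF PRFK-zero (`prfk_zero`): `c = 1/n!`, `κ₀ = α/2`.  `g ≠ 0`, `deg g ≤ ⌊T t⌋`, `g = 0` on `S'`: `prf_proper_zero`, `nocap` with `j = 0`: `|S'| ≤ κ |S| ≤ (α/2)|S| < α |S|` (`|S| > 0`), contradiction.  `prfk_full`, `prfk_choose_ge` with `x = T t` (`Nat.lt_floor_add_one`), `σ(t) = (T t)^n` (`prfk_sigma_plateau`, `j = 0`), `exp 0 = 1`.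
LEAF PRFK-low (`prfk_step_low`): `T' := ⌊T(-1)⌋₊`.  `(T(-1))^n / n! ≤ hA S'' T'`: if `1 < T(-1)`: `Ok.low` + `prfk_full` + `prfk_choose_ge`; else `T(-1) = 1`, `hA S'' T' ≥ hA S'' 0 = 1` (`rk_hA_mono_deg`, `rk_hA_zero`).
   `prfk_env_real` with `x = T t`, `x' = T(-1)`, `m = n - (j+1)`.   `τ_i = -1` for `i ≤ j` (`Ok.mono`, `PrfGrid.range`), so `σ(t) = T(-1)^{j+1} (T t)^m` and `T(-1)^n (T t / T(-1))^m = σ(t)`.
LEAF PRFK-pred (`prfk_step_pred`): `prfk_env_real` with `x = T t`, `x' = T t'` (`1 ≤ T(-1) ≤ T t' ≤ T t`), `m = n - (j+1)`; `prfk_sigma_step`; `e^{(j+1-j') μ s} ≤ e^{(j+1) μ s}`.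
LEAF PRFK-succ (`prfk_succ`): `α' := α/(2(n+1))`; `(c₁, κ₁) := IH α'`, `(c₂, κ₂) := IH α`; `c := min c₂ (min (c₁/K) (1/(n! K)))`, `κ₀ := min κ₂ (min κ₁ (α'/2))`.
   `j'' ≤ j`: IH for `α`, `e^{-n(j+1) μ s} ≤ e^{-n j μ s}`.   `j'' = j+1 ≤ n`: `prf_env_step` gives `S''`, `h`; `(n+1)|S''| ≥ |S'| - κ|S| ≥ (α/2)|S|`, so `α'|S| ≤ |S''|`, `S'' ≠ ∅`, `κ|S| < |S''|`.   `τ_j = -1`: `prfk_step_low`.   `-1 < τ_j`: `prfk_pred_plateau`, IH for `α'` at `t'`, `prfk_step_pred` with `E = e^{-n j μ s}`; `e^{-n(j+1)μ s} ≤ e^{-(j+1) μ s} e^{-n j μ s}` as `j+1 ≤ n`.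
`prf_rank`, `prf_balance` are PROVED from these.
-/

set_option autoImplicit false

namespace Claimed.Agent.R273

open MvPolynomial Module

variable {n : ℕ}

/-- the constant lost in one envelope step -/
def prfkK (n : ℕ) : ℕ := (n + 1) ^ n * 2 ^ n * n.factorial

theorem prfk_K_pos (n : ℕ) : (0 : ℝ) < (prfkK n : ℝ) := by
  have : 0 < prfkK n := by
    unfold prfkK
    positivity
  exact_mod_cast this

/-! ### numerics -/

theorem prfk_full (S'' : Set (Fin n → ℂ)) (T : ℕ)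
    (h : ∀ g : PrfPol n, g.totalDegree ≤ T → (∀ x ∈ S'', eval x g = 0) → g = 0) :
    hA S'' T = (T + n).choose n := by
  have h1 := rk_rkOn_add_ker (restrictTotalDegree (Fin n) ℂ T) S''
  have hker : LinearMap.ker (evalOn (restrictTotalDegree (Fin n) ℂ T) S'') = ⊥ := by
    rw [eq_bot_iff]
    intro f hf
    rw [rk_mem_ker_evalOn] at hf
    have := h f.1 ((mem_restrictTotalDegree _ _ _).1 f.2) hf
    rw [Submodule.mem_bot]
    exact Subtype.ext this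
  rw [hker, finrank_bot, add_zero, rk_finrank_restrict, Fintype.card_fin] at h1
  rw [hA, h1, add_comm, Nat.choose_symm_add]

theorem prfk_choose_ge (n T : ℕ) (x : ℝ) (h0 : 0 ≤ x) (hx : x ≤ T + 1) :
    x ^ n / n.factorial ≤ ((T + n).choose n : ℝ) := by
  rw [div_le_iff₀ (by positivity)]
  have h1 : ((T + 1 : ℕ) : ℝ) ^ n ≤ ((n.factorial * (T + n).choose n : ℕ) : ℝ) := by
    exact_mod_cast ph_pow_le_choose T n
  calc x ^ n ≤ ((T + 1 : ℕ) : ℝ) ^ n := by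
        push_cast
        gcongr
    _ ≤ ((n.factorial * (T + n).choose n : ℕ) : ℝ) := h1
    _ = ((T + n).choose n : ℝ) * n.factorial := by push_cast; ring

theorem prfk_ratio (n m h : ℕ) (hm : m ≤ h) (hh : h ≤ n) (x x' : ℝ) (h1 : 1 ≤ x') (h2 : x' ≤ x) :
    (x / x') ^ m * ((⌊x'⌋₊ + h).choose h : ℝ) ≤
      (2 ^ n * n.factorial : ℕ) * ((⌊x⌋₊ + h).choose h : ℝ) := by
  have hx'0 : 0 < x' := by linarith
  have hx0 : 0 < x := by linarith
  have hq : 1 ≤ x / x' := (one_le_div hx'0).2 h2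
  have a1 : ((⌊x'⌋₊ + h).choose h : ℝ) ≤ (2 * x') ^ h := by
    have e1 : ((⌊x'⌋₊ + h).choose h : ℝ) ≤ ((⌊x'⌋₊ + 1 : ℕ) : ℝ) ^ h := by
      exact_mod_cast ph_choose_le_pow ⌊x'⌋₊ h
    refine e1.trans ?_
    have : ((⌊x'⌋₊ + 1 : ℕ) : ℝ) ≤ 2 * x' := by
      push_cast
      have := Nat.floor_le hx'0.le
      linarith
    gcongr
  have a2 : (x / x') ^ m ≤ (x / x') ^ h := pow_le_pow_right₀ hq hm
  have a3 : (x / x') ^ h * (2 * x') ^ h = 2 ^ h * x ^ h := by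
    rw [← mul_pow, ← mul_pow]
    congr 1
    field_simp
  have a4 : x ^ h ≤ (h.factorial : ℝ) * ((⌊x⌋₊ + h).choose h : ℝ) := by
    have e1 : ((⌊x⌋₊ + 1 : ℕ) : ℝ) ^ h ≤ ((h.factorial * (⌊x⌋₊ + h).choose h : ℕ) : ℝ) := by
      exact_mod_cast ph_pow_le_choose ⌊x⌋₊ h
    have e2 : x ≤ ((⌊x⌋₊ + 1 : ℕ) : ℝ) := by
      push_cast
      exact (Nat.lt_floor_add_one x).le
    calc x ^ h ≤ ((⌊x⌋₊ + 1 : ℕ) : ℝ) ^ h := by gcongr
      _ ≤ _ := e1
      _ = _ := by push_cast; ring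
  have a5 : ((2 : ℝ) ^ h * h.factorial) ≤ ((2 ^ n * n.factorial : ℕ) : ℝ) := by
    have : 2 ^ h * h.factorial ≤ 2 ^ n * n.factorial :=
      Nat.mul_le_mul (Nat.pow_le_pow_right (by norm_num) hh) (Nat.factorial_le hh)
    exact_mod_cast this
  have hc0 : (0 : ℝ) ≤ ((⌊x⌋₊ + h).choose h : ℝ) := Nat.cast_nonneg _
  calc (x / x') ^ m * ((⌊x'⌋₊ + h).choose h : ℝ) ≤ (x / x') ^ h * (2 * x') ^ h := by gcongr
    _ = 2 ^ h * x ^ h := a3
    _ ≤ 2 ^ h * ((h.factorial : ℝ) * ((⌊x⌋₊ + h).choose h : ℝ)) := by gcongr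
    _ = ((2 : ℝ) ^ h * h.factorial) * ((⌊x⌋₊ + h).choose h : ℝ) := by ring
    _ ≤ _ := by gcongr

/-- the envelope inequality in real form -/
theorem prfk_env_real (n m h : ℕ) (hm : m ≤ h) (hh : h ≤ n) (x x' : ℝ) (h1 : 1 ≤ x') (h2 : x' ≤ x)
    (H' H'' : ℕ)
    (henv : H'' * (⌊x⌋₊ + h).choose h ≤ (n + 1) ^ n * H' * (⌊x'⌋₊ + h).choose h) :
    (H'' : ℝ) * (x / x') ^ m ≤ (prfkK n : ℝ) * H' := by
  have hr := prfk_ratio n m h hm hh x x' h1 h2
  have hpos : (0 : ℝ) < ((⌊x'⌋₊ + h).choose h : ℝ) := by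
    exact_mod_cast Nat.choose_pos (Nat.le_add_left _ _)
  have henv' : (H'' : ℝ) * ((⌊x⌋₊ + h).choose h : ℝ)
      ≤ ((n + 1 : ℕ) : ℝ) ^ n * H' * ((⌊x'⌋₊ + h).choose h : ℝ) := by exact_mod_cast henv
  refine le_of_mul_le_mul_right ?_ hpos
  have hc : (0 : ℝ) ≤ ((2 ^ n * n.factorial : ℕ) : ℝ) := Nat.cast_nonneg _
  calc (H'' : ℝ) * (x / x') ^ m * ((⌊x'⌋₊ + h).choose h : ℝ)
      = (H'' : ℝ) * ((x / x') ^ m * ((⌊x'⌋₊ + h).choose h : ℝ)) := by ring
    _ ≤ (H'' : ℝ) * (((2 ^ n * n.factorial : ℕ) : ℝ) * ((⌊x⌋₊ + h).choose h : ℝ)) := by gcongr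
    _ = ((2 ^ n * n.factorial : ℕ) : ℝ) * ((H'' : ℝ) * ((⌊x⌋₊ + h).choose h : ℝ)) := by ring
    _ ≤ ((2 ^ n * n.factorial : ℕ) : ℝ)
          * (((n + 1 : ℕ) : ℝ) ^ n * H' * ((⌊x'⌋₊ + h).choose h : ℝ)) := by gcongr
    _ = (prfkK n : ℝ) * H' * ((⌊x'⌋₊ + h).choose h : ℝ) := by
        unfold prfkK
        push_cast
        ring

/-! ### the function `σ` -/

theorem prfk_T_pos {B s : ℝ} (h : 1 ≤ prfT B s (-1)) (u : ℝ) : 0 < prfT B s u := by
  have hB : 0 < B := by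
    by_contra hcon
    have : prfT B s (-1) ≤ 0 := mul_nonpos_of_nonpos_of_nonneg (not_lt.mp hcon) (Real.exp_pos _).le
    linarith
  exact mul_pos hB (Real.exp_pos _)

theorem prfk_T_mono {B s : ℝ} (h : 1 ≤ prfT B s (-1)) (hs : 0 < s) {u v : ℝ} (huv : u ≤ v) :
    prfT B s u ≤ prfT B s v := by
  have hB : 0 < B := by
    have := prfk_T_pos h 0
    unfold prfT at this
    simpa using this
  unfold prfT
  exact mul_le_mul_of_nonneg_left (Real.exp_le_exp.2 (mul_le_mul_of_nonneg_right huv hs.le)) hB.le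

theorem prfk_sigma_nonneg (π : PrfPiece n) {B s : ℝ} (h : 1 ≤ prfT B s (-1)) (t : ℝ) :
    0 ≤ π.sigma B s t :=
  Finset.prod_nonneg fun _ _ => le_min (prfk_T_pos h _).le (prfk_T_pos h _).le

theorem prfk_sigma_plateau (π : PrfPiece n) {B s : ℝ} (h : 1 ≤ prfT B s (-1)) (hs : 0 < s)
    {j : ℕ} (hj : j ≤ n) {t : ℝ} (hpl : PrfPlateau π j t) :
    π.sigma B s t = (∏ i ∈ Finset.range j, prfT B s (π.τ i)) * prfT B s t ^ (n - j) := by
  unfold PrfPiece.sigma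
  rw [← Finset.prod_range_mul_prod_Ico _ hj]
  congr 1
  · refine Finset.prod_congr rfl fun i hi => ?_
    exact min_eq_right (prfk_T_mono h hs (hpl.1 i (Finset.mem_range.1 hi)))
  · have e : ∀ i ∈ Finset.Ico j n, min (prfT B s t) (prfT B s (π.τ i)) = prfT B s t := fun i hi =>
      min_eq_left (prfk_T_mono h hs (hpl.2 i (Finset.mem_Ico.1 hi).1 (Finset.mem_Ico.1 hi).2).le)
    rw [Finset.prod_congr rfl e, Finset.prod_const, Nat.card_Ico]

theorem prfk_sigma_step (π : PrfPiece n) {B s μ : ℝ} (h : 1 ≤ prfT B s (-1)) (hs : 0 < s)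
    {j j' : ℕ} (hj : j ≤ n) (hj' : j' ≤ j) {t t' : ℝ} (hpl : PrfPlateau π j t)
    (hpl' : PrfPlateau π j' t') (hτ : ∀ i, j' ≤ i → i < j → π.τ i ≤ t' + μ) :
    π.sigma B s t ≤ π.sigma B s t' * Real.exp ((j - j' : ℕ) * μ * s) *
      (prfT B s t / prfT B s t') ^ (n - j) := by
  rw [prfk_sigma_plateau π h hs hj hpl, prfk_sigma_plateau π h hs (hj'.trans hj) hpl']
  have hT' := prfk_T_pos h t'
  have hT := prfk_T_pos h t
  rw [← Finset.prod_range_mul_prod_Ico _ hj']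
  have h1 : ∏ i ∈ Finset.Ico j' j, prfT B s (π.τ i)
      ≤ (prfT B s t' * Real.exp (μ * s)) ^ (j - j') := by
    rw [← Nat.card_Ico, ← Finset.prod_const]
    refine Finset.prod_le_prod (fun i _ => (prfk_T_pos h _).le) fun i hi => ?_
    have := prfk_T_mono h hs (hτ i (Finset.mem_Ico.1 hi).1 (Finset.mem_Ico.1 hi).2)
    refine this.trans (le_of_eq ?_)
    unfold prfT
    rw [add_mul, Real.exp_add, mul_assoc]
  have h2 : prfT B s t' ^ (n - j') = prfT B s t' ^ (j - j') * prfT B s t' ^ (n - j) := by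
    rw [← pow_add]
    congr 1
    omega
  have h3 : Real.exp ((j - j' : ℕ) * μ * s) = Real.exp (μ * s) ^ (j - j') := by
    rw [← Real.exp_nat_mul]
    congr 1
    ring
  have hP : 0 ≤ ∏ i ∈ Finset.range j', prfT B s (π.τ i) :=
    Finset.prod_nonneg fun i _ => (prfk_T_pos h _).le
  rw [h2, h3, div_pow]
  calc (∏ i ∈ Finset.range j', prfT B s (π.τ i)) * (∏ i ∈ Finset.Ico j' j, prfT B s (π.τ i))
        * prfT B s t ^ (n - j)
      ≤ (∏ i ∈ Finset.range j', prfT B s (π.τ i)) * (prfT B s t' * Real.exp (μ * s)) ^ (j - j')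
        * prfT B s t ^ (n - j) :=
        mul_le_mul_of_nonneg_right (mul_le_mul_of_nonneg_left h1 hP) (pow_nonneg hT.le _)
    _ = (∏ i ∈ Finset.range j', prfT B s (π.τ i))
        * (prfT B s t' ^ (j - j') * prfT B s t' ^ (n - j)) * Real.exp (μ * s) ^ (j - j')
        * (prfT B s t ^ (n - j) / prfT B s t' ^ (n - j)) := by
        rw [mul_pow]
        field_simp

/-- at a time after all cuts `σ = ∏ T(τ_i)` -/
theorem prfk_sigma_top (π : PrfPiece n) {B s : ℝ} (h : 1 ≤ prfT B s (-1)) (hs : 0 < s) {t : ℝ}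
    (ht : ∀ i < n, π.τ i ≤ t) :
    π.sigma B s t = ∏ i ∈ Finset.range n, prfT B s (π.τ i) := by
  have hpl : PrfPlateau π n t := ⟨ht, fun i h1 h2 => absurd h2 (not_lt.2 h1)⟩
  rw [prfk_sigma_plateau π h hs le_rfl hpl, Nat.sub_self, pow_zero, mul_one]

/-! ### plateaux -/

theorem prfk_plateau_exists (π : PrfPiece n) (hmono : ∀ i j, i ≤ j → j < n → π.τ i ≤ π.τ j)
    (t : ℝ) : ∃ j ≤ n, PrfPlateau π j t := by
  classical
  have hex : ∃ j, j = n ∨ t < π.τ j := ⟨n, Or.inl rfl⟩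
  refine ⟨Nat.find hex, Nat.find_min' hex (Or.inl rfl), fun i hi => ?_, fun i h1 h2 => ?_⟩
  · have := Nat.find_min hex hi
    rw [not_or, not_lt] at this
    exact this.2
  · rcases Nat.find_spec hex with h | h
    · omega
    · exact lt_of_lt_of_le h (hmono _ _ h1 h2)

theorem prfk_pred_plateau (π : PrfPiece n) {B s κ μ top : ℝ} {grid : Finset ℝ}
    (hπ : π.Ok B s κ grid) (hg : PrfGrid grid μ top) {j : ℕ} (hj : j < n) (hθ : -1 < π.τ j) :
    ∃ t' ∈ grid, t' < π.τ j ∧ ∃ j' ≤ j, PrfPlateau π j' t' ∧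
      ∀ i, j' ≤ i → i < j + 1 → π.τ i ≤ t' + μ := by
  obtain ⟨t', ht', h1, h2, -⟩ := hg.pred (π.τ j) (hπ.mem j hj) hθ
  obtain ⟨j', -, hpl⟩ := prfk_plateau_exists π hπ.mono t'
  refine ⟨t', ht', h1, j', ?_, hpl, fun i _ hi => ?_⟩
  · by_contra hcon
    have := hpl.1 j (not_le.1 hcon)
    linarith
  · have := hπ.mono i j (by omega) hj
    linarith

/-! ### the induction -/

/-- the rank budget at the grid times at which at most `j` cuts have been made -/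
def PrfRankAt (n j : ℕ) : Prop :=
  ∀ α : ℝ, 0 < α → ∃ c κ₀ : ℝ, 0 < c ∧ 0 < κ₀ ∧
    ∀ (π : PrfPiece n) (B s κ μ top : ℝ) (grid : Finset ℝ), π.Ok B s κ grid → PrfGrid grid μ top →
      0 < s → 0 ≤ μ → κ ≤ κ₀ → 1 ≤ prfT B s (-1) →
      ∀ S' ⊆ π.S, α * (π.S.card : ℝ) ≤ S'.card → S'.Nonempty → ∀ t ∈ grid,
        ∀ j' ≤ j, j' ≤ n → PrfPlateau π j' t →
        c * π.sigma B s t * Real.exp (-((n : ℝ) * j * μ * s)) ≤
          (hA (S' : Set (Fin n → ℂ)) ⌊prfT B s t⌋₊ : ℝ)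

theorem prfk_zero (n : ℕ) : PrfRankAt n 0 := by
  intro α hα
  have hf : (0 : ℝ) < (n.factorial : ℝ) := by exact_mod_cast n.factorial_pos
  refine ⟨1 / n.factorial, α / 2, by positivity, by positivity, ?_⟩
  intro π B s κ μ top grid hπ hg hs hμ hκ hB S' hS' hα' hne t ht j' hj' _ hpl
  obtain rfl : j' = 0 := Nat.le_zero.1 hj'
  have hT := prfk_T_pos hB t
  have hS0 : (0 : ℝ) < (π.S.card : ℝ) := by
    exact_mod_cast Finset.card_pos.2 (hne.mono hS')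
  have hfull : hA (S' : Set (Fin n → ℂ)) ⌊prfT B s t⌋₊ = (⌊prfT B s t⌋₊ + n).choose n := by
    refine prfk_full _ _ fun g hg1 hg2 => ?_
    by_contra hg0
    have h4 : ((g.totalDegree : ℕ) : ℝ) ≤ prfT B s t :=
      le_trans (by exact_mod_cast hg1) (Nat.floor_le hT.le)
    have h5 := hπ.nocap t ht 0 (Nat.zero_le _) hpl.1 hpl.2 g h4 S' hS' fun x hx =>
      prf_proper_zero π.f g hg0 x (hg2 x (Finset.mem_coe.2 hx))
    have h6 : κ * (π.S.card : ℝ) ≤ α / 2 * π.S.card := mul_le_mul_of_nonneg_right hκ hS0.le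
    nlinarith
  rw [hfull, prfk_sigma_plateau π hB hs (Nat.zero_le _) hpl, Finset.prod_range_zero, one_mul,
    Nat.sub_zero]
  have h1 := prfk_choose_ge n _ _ hT.le (Nat.lt_floor_add_one (prfT B s t)).le
  refine le_trans (le_of_eq ?_) h1
  simp only [Nat.cast_zero, mul_zero, zero_mul, neg_zero, Real.exp_zero, mul_one]
  ring

/-- the step when all the cuts made so far were made at the time `-1` -/
theorem prfk_step_low (π : PrfPiece n) {B s κ μ top : ℝ} {grid : Finset ℝ} (hπ : π.Ok B s κ grid)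
    (hg : PrfGrid grid μ top) (hs : 0 < s) (hB : 1 ≤ prfT B s (-1)) {t : ℝ} (ht : t ∈ grid)
    {j : ℕ} (hj : j + 1 ≤ n) (hpl : PrfPlateau π (j + 1) t) (hθ : π.τ j = -1)
    (S' S'' : Finset (Fin n → ℂ)) (hS'' : S'' ⊆ π.S) (hne : S''.Nonempty)
    (hbig : κ * (π.S.card : ℝ) < S''.card) (h : ℕ) (h1 : n - (j + 1) ≤ h) (h2 : h ≤ n)
    (henv : ∀ T' : ℕ, hA (S'' : Set (Fin n → ℂ)) T' * (⌊prfT B s t⌋₊ + h).choose h ≤
        (n + 1) ^ n * hA (S' : Set (Fin n → ℂ)) ⌊prfT B s t⌋₊ * (T' + h).choose h) :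
    π.sigma B s t / (n.factorial * prfkK n : ℕ) ≤
      (hA (S' : Set (Fin n → ℂ)) ⌊prfT B s t⌋₊ : ℝ) := by
  have hK := prfk_K_pos n
  have hf : (0 : ℝ) < (n.factorial : ℝ) := by exact_mod_cast n.factorial_pos
  have ht1 : -1 ≤ t := (hg.range t ht).1
  have hxx : prfT B s (-1) ≤ prfT B s t := prfk_T_mono hB hs ht1
  have hT := prfk_T_pos hB t
  have hT' := prfk_T_pos hB (-1)
  have henvR := prfk_env_real n (n - (j + 1)) h h1 h2 _ _ hB hxx _ _ (henv ⌊prfT B s (-1)⌋₊)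
  -- (a)
  have ha : prfT B s (-1) ^ n / n.factorial
      ≤ (hA (S'' : Set (Fin n → ℂ)) ⌊prfT B s (-1)⌋₊ : ℝ) := by
    rcases lt_or_ge 1 (prfT B s (-1)) with h3 | h3
    · have hfull : hA (S'' : Set (Fin n → ℂ)) ⌊prfT B s (-1)⌋₊
          = (⌊prfT B s (-1)⌋₊ + n).choose n := by
        refine prfk_full _ _ fun g hg1 hg2 => ?_
        by_contra hg0
        have h4 : ((g.totalDegree : ℕ) : ℝ) ≤ prfT B s (-1) :=
          le_trans (by exact_mod_cast hg1) (Nat.floor_le hT'.le)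
        have h5 := hπ.low h3 g hg0 h4 S'' hS'' fun x hx => hg2 x (Finset.mem_coe.2 hx)
        linarith
      rw [hfull]
      exact prfk_choose_ge n _ _ hT'.le (Nat.lt_floor_add_one _).le
    · have e1 : prfT B s (-1) = 1 := le_antisymm h3 hB
      have h4 : 1 ≤ hA (S'' : Set (Fin n → ℂ)) ⌊prfT B s (-1)⌋₊ := by
        have h5 := rk_hA_mono_deg (T := (S'' : Set (Fin n → ℂ))) (Nat.zero_le ⌊prfT B s (-1)⌋₊)
        rw [rk_hA_zero _ (Finset.coe_nonempty.2 hne)] at h5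
        exact h5
      have h6 : (1 : ℝ) ≤ (hA (S'' : Set (Fin n → ℂ)) ⌊prfT B s (-1)⌋₊ : ℝ) := by exact_mod_cast h4
      have h7 : (1 : ℝ) ≤ (n.factorial : ℝ) := by exact_mod_cast n.factorial_pos
      refine le_trans ?_ h6
      rw [e1, one_pow, div_le_one hf]
      exact h7
  -- (c)
  have hτ : ∀ i ∈ Finset.range (j + 1), prfT B s (π.τ i) = prfT B s (-1) := by
    intro i hi
    rw [Finset.mem_range] at hi
    have h3 := hπ.mono i j (by omega) (by omega)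
    have h4 := (hg.range _ (hπ.mem i (by omega))).1
    have : π.τ i = -1 := le_antisymm (by linarith) h4
    rw [this]
  have hσ : π.sigma B s t
      = prfT B s (-1) ^ n * (prfT B s t / prfT B s (-1)) ^ (n - (j + 1)) := by
    rw [prfk_sigma_plateau π hB hs hj hpl, Finset.prod_congr rfl hτ, Finset.prod_const,
      Finset.card_range, div_pow]
    have e : prfT B s (-1) ^ n = prfT B s (-1) ^ (j + 1) * prfT B s (-1) ^ (n - (j + 1)) := by
      rw [← pow_add]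
      congr 1
      omega
    rw [e]
    field_simp
  obtain ⟨r, hr⟩ : ∃ r : ℝ, r = (prfT B s t / prfT B s (-1)) ^ (n - (j + 1)) := ⟨_, rfl⟩
  rw [← hr] at henvR hσ
  have hr0 : 0 ≤ r := by
    rw [hr]
    positivity
  rw [hσ]
  push_cast
  calc prfT B s (-1) ^ n * r / ((n.factorial : ℝ) * (prfkK n : ℝ))
      = (prfT B s (-1) ^ n / n.factorial) * r / prfkK n := by
        field_simp
    _ ≤ (hA (S'' : Set (Fin n → ℂ)) ⌊prfT B s (-1)⌋₊ : ℝ) * r / prfkK n :=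
        div_le_div_of_nonneg_right (mul_le_mul_of_nonneg_right ha hr0) hK.le
    _ ≤ (hA (S' : Set (Fin n → ℂ)) ⌊prfT B s t⌋₊ : ℝ) := by
        rw [div_le_iff₀ hK]
        linarith

/-- the step through the predecessor `t'` of the last cut time -/
theorem prfk_step_pred (π : PrfPiece n) {B s μ : ℝ} (hs : 0 < s) (hμ : 0 ≤ μ)
    (hB : 1 ≤ prfT B s (-1)) {t t' : ℝ} (ht' : -1 ≤ t') (htt : t' ≤ t) {j j' : ℕ}
    (hj : j + 1 ≤ n) (hj' : j' ≤ j) (hpl : PrfPlateau π (j + 1) t) (hpl' : PrfPlateau π j' t')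
    (hτ : ∀ i, j' ≤ i → i < j + 1 → π.τ i ≤ t' + μ)
    (S' S'' : Finset (Fin n → ℂ)) (c₁ E : ℝ) (hc₁ : 0 < c₁) (hE : 0 < E)
    (hIH : c₁ * π.sigma B s t' * E ≤ (hA (S'' : Set (Fin n → ℂ)) ⌊prfT B s t'⌋₊ : ℝ))
    (h : ℕ) (h1 : n - (j + 1) ≤ h) (h2 : h ≤ n)
    (henv : ∀ T' : ℕ, hA (S'' : Set (Fin n → ℂ)) T' * (⌊prfT B s t⌋₊ + h).choose h ≤
        (n + 1) ^ n * hA (S' : Set (Fin n → ℂ)) ⌊prfT B s t⌋₊ * (T' + h).choose h) :
    c₁ / prfkK n * π.sigma B s t * (Real.exp (-((j + 1 : ℕ) * μ * s)) * E) ≤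
      (hA (S' : Set (Fin n → ℂ)) ⌊prfT B s t⌋₊ : ℝ) := by
  have hK := prfk_K_pos n
  have hx' : 1 ≤ prfT B s t' := hB.trans (prfk_T_mono hB hs ht')
  have hxx : prfT B s t' ≤ prfT B s t := prfk_T_mono hB hs htt
  have henvR := prfk_env_real n (n - (j + 1)) h h1 h2 _ _ hx' hxx _ _ (henv ⌊prfT B s t'⌋₊)
  have hstep := prfk_sigma_step π hB hs hj (hj'.trans (Nat.le_succ j)) hpl hpl' hτ
  have hT := prfk_T_pos hB t
  have hT' := prfk_T_pos hB t'
  obtain ⟨r, hr⟩ : ∃ r : ℝ, r = (prfT B s t / prfT B s t') ^ (n - (j + 1)) := ⟨_, rfl⟩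
  rw [← hr] at henvR hstep
  have hr0 : 0 ≤ r := by
    rw [hr]
    positivity
  have hσ' := prfk_sigma_nonneg π hB t'
  have hexp : Real.exp ((j + 1 - j' : ℕ) * μ * s) * Real.exp (-((j + 1 : ℕ) * μ * s)) ≤ 1 := by
    rw [← Real.exp_add]
    apply Real.exp_le_one_iff.2
    have h3 : ((j + 1 - j' : ℕ) : ℝ) ≤ ((j + 1 : ℕ) : ℝ) := by exact_mod_cast Nat.sub_le _ _
    have h4 : 0 ≤ μ * s := by positivity
    nlinarith
  obtain ⟨e1, he1⟩ : ∃ e : ℝ, e = Real.exp ((j + 1 - j' : ℕ) * μ * s) := ⟨_, rfl⟩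
  obtain ⟨e2, he2⟩ : ∃ e : ℝ, e = Real.exp (-((j + 1 : ℕ) * μ * s)) := ⟨_, rfl⟩
  rw [← he1] at hstep hexp
  rw [← he2] at hexp ⊢
  have he20 : 0 < e2 := by
    rw [he2]
    exact Real.exp_pos _
  calc c₁ / prfkK n * π.sigma B s t * (e2 * E)
      ≤ c₁ / prfkK n * (π.sigma B s t' * e1 * r) * (e2 * E) := by
        refine mul_le_mul_of_nonneg_right (mul_le_mul_of_nonneg_left hstep ?_) ?_ <;> positivity
    _ = (c₁ * π.sigma B s t' * E) * r / prfkK n * (e1 * e2) := by ring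
    _ ≤ (c₁ * π.sigma B s t' * E) * r / prfkK n * 1 := by
        refine mul_le_mul_of_nonneg_left hexp ?_
        positivity
    _ ≤ (hA (S'' : Set (Fin n → ℂ)) ⌊prfT B s t'⌋₊ : ℝ) * r / prfkK n := by
        rw [mul_one]
        exact div_le_div_of_nonneg_right (mul_le_mul_of_nonneg_right hIH hr0) hK.le
    _ ≤ (hA (S' : Set (Fin n → ℂ)) ⌊prfT B s t⌋₊ : ℝ) := by
        rw [div_le_iff₀ hK]
        linarith

theorem prfk_succ (n j : ℕ) (h : PrfRankAt n j) : PrfRankAt n (j + 1) := by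
  intro α hα
  have hK := prfk_K_pos n
  have hf : (0 : ℝ) < (n.factorial : ℝ) := by exact_mod_cast n.factorial_pos
  have hn1 : (0 : ℝ) < (n : ℝ) + 1 := by positivity
  obtain ⟨α', hα'def⟩ : ∃ α' : ℝ, α' = α / (2 * ((n : ℝ) + 1)) := ⟨_, rfl⟩
  have hα'0 : 0 < α' := by
    rw [hα'def]
    positivity
  obtain ⟨c₁, κ₁, hc₁, hκ₁, H₁⟩ := h α' hα'0
  obtain ⟨c₂, κ₂, hc₂, hκ₂, H₂⟩ := h α hα
  refine ⟨min c₂ (min (c₁ / prfkK n) (1 / (n.factorial * prfkK n))),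
    min κ₂ (min κ₁ (α' / 2)), ?_, ?_, ?_⟩
  · exact lt_min hc₂ (lt_min (by positivity) (by positivity))
  · exact lt_min hκ₂ (lt_min hκ₁ (by positivity))
  intro π B s κ μ top grid hπ hg hs hμ hκ hB S' hS' hαS hne t ht j'' hj'' hj''n hpl
  have hκ2 : κ ≤ κ₂ := hκ.trans (min_le_left _ _)
  have hκ1 : κ ≤ κ₁ := hκ.trans ((min_le_right _ _).trans (min_le_left _ _))
  have hκ3 : κ ≤ α' / 2 := hκ.trans ((min_le_right _ _).trans (min_le_right _ _))
  have hσ := prfk_sigma_nonneg π hB t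
  have hμs : 0 ≤ μ * s := by positivity
  obtain ⟨c, hcdef⟩ : ∃ c : ℝ, c = min c₂ (min (c₁ / prfkK n) (1 / (n.factorial * prfkK n))) :=
    ⟨_, rfl⟩
  rw [← hcdef]
  have hcc2 : c ≤ c₂ := hcdef ▸ min_le_left _ _
  have hcc1 : c ≤ c₁ / prfkK n := hcdef ▸ (min_le_right _ _).trans (min_le_left _ _)
  have hcc3 : c ≤ 1 / (n.factorial * prfkK n) := hcdef ▸ (min_le_right _ _).trans (min_le_right _ _)
  rcases Nat.lt_or_ge j j'' with hlt | hle
  swap
  · -- at most `j` cuts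
    have h1 := H₂ π B s κ μ top grid hπ hg hs hμ hκ2 hB S' hS' hαS hne t ht j'' hle hj''n hpl
    refine le_trans ?_ h1
    have h2 : Real.exp (-((n : ℝ) * ((j + 1 : ℕ) : ℝ) * μ * s)) ≤ Real.exp (-((n : ℝ) * j * μ * s)) := by
      apply Real.exp_le_exp.2
      push_cast
      have : 0 ≤ (n : ℝ) * (μ * s) := by positivity
      linarith only [this]
    exact mul_le_mul (mul_le_mul_of_nonneg_right hcc2 hσ) h2 (Real.exp_pos _).le (by positivity)
  · obtain rfl : j'' = j + 1 := by omega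
    have hS0 : (0 : ℝ) < (π.S.card : ℝ) := by
      exact_mod_cast Finset.card_pos.2 (hne.mono hS')
    have ht1 : -1 ≤ t := (hg.range t ht).1
    have hTt : 1 ≤ prfT B s t := hB.trans (prfk_T_mono hB hs ht1)
    obtain ⟨S'', hh, hS''sub, hh1, hh2, hcard, henv⟩ :=
      prf_env_step π B s κ grid hπ t ht (j + 1) hj''n hpl.1 hpl.2 hTt S' hS'
    have hκS : κ * (π.S.card : ℝ) ≤ α' / 2 * π.S.card := mul_le_mul_of_nonneg_right hκ3 hS0.le
    have hα'le : α' ≤ α := by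
      rw [hα'def, div_le_iff₀ (by positivity)]
      have : 0 ≤ α * (n : ℝ) := by positivity
      nlinarith
    have hbig1 : α' * (π.S.card : ℝ) ≤ S''.card := by
      have e : α = α' * (2 * ((n : ℝ) + 1)) := by
        rw [hα'def]
        field_simp
      have h3 : α / 2 * (π.S.card : ℝ) ≤ ((n : ℝ) + 1) * S''.card := by
        have : α' / 2 * (π.S.card : ℝ) ≤ α / 2 * π.S.card :=
          mul_le_mul_of_nonneg_right (by linarith) hS0.le
        nlinarith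
      have h4 : ((n : ℝ) + 1) * (α' * (π.S.card : ℝ)) ≤ ((n : ℝ) + 1) * S''.card := by
        refine le_trans (le_of_eq ?_) h3
        rw [e]
        ring
      exact le_of_mul_le_mul_left h4 hn1
    have hpos'' : (0 : ℝ) < (S''.card : ℝ) := lt_of_lt_of_le (by positivity) hbig1
    have hne'' : S''.Nonempty := Finset.card_pos.1 (by exact_mod_cast hpos'')
    have hbig : κ * (π.S.card : ℝ) < S''.card := by
      have : α' / 2 * (π.S.card : ℝ) < α' * π.S.card := by nlinarith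
      linarith
    have hS''S : S'' ⊆ π.S := hS''sub.trans hS'
    have hjn : j < n := hj''n
    have hE1 : Real.exp (-((n : ℝ) * ((j + 1 : ℕ) : ℝ) * μ * s)) ≤ 1 := by
      apply Real.exp_le_one_iff.2
      have : 0 ≤ (n : ℝ) * ((j + 1 : ℕ) : ℝ) * (μ * s) := by positivity
      linarith
    rcases eq_or_lt_of_le (hg.range _ (hπ.mem j hjn)).1 with hθ | hθ
    · -- all cuts at time `-1`
      have h1 := prfk_step_low π hπ hg hs hB ht hj''n hpl hθ.symm S' S'' hS''S hne'' hbig hh hh1 hh2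
        henv
      refine le_trans ?_ h1
      push_cast
      calc c * π.sigma B s t * Real.exp (-((n : ℝ) * ((j : ℝ) + 1) * μ * s))
          ≤ 1 / (n.factorial * prfkK n) * π.sigma B s t * 1 := by
            have hE1' := hE1
            push_cast at hE1'
            exact mul_le_mul (mul_le_mul_of_nonneg_right hcc3 hσ) hE1' (Real.exp_pos _).le
              (by positivity)
        _ = π.sigma B s t / ((n.factorial : ℝ) * (prfkK n : ℝ)) := by
            rw [mul_one, one_div, inv_mul_eq_div]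
    · obtain ⟨t', ht', htlt, j', hj'j, hpl', hτ⟩ := prfk_pred_plateau π hπ hg hjn hθ
      have hIH := H₁ π B s κ μ top grid hπ hg hs hμ hκ1 hB S'' hS''S hbig1 hne'' t' ht' j' hj'j
        (hj'j.trans hjn.le) hpl'
      have htt : t' ≤ t := (htlt.le).trans (hpl.1 j (Nat.lt_succ_self j))
      have h1 := prfk_step_pred π hs hμ hB (hg.range t' ht').1 htt hj''n hj'j hpl hpl' hτ S' S'' c₁
        (Real.exp (-((n : ℝ) * j * μ * s))) hc₁ (Real.exp_pos _) hIH hh hh1 hh2 henv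
      refine le_trans ?_ h1
      have h2 : Real.exp (-((n : ℝ) * ((j + 1 : ℕ) : ℝ) * μ * s))
          ≤ Real.exp (-((j + 1 : ℕ) * μ * s)) * Real.exp (-((n : ℝ) * j * μ * s)) := by
        rw [← Real.exp_add]
        apply Real.exp_le_exp.2
        push_cast
        have h3 : ((j : ℝ) + 1) ≤ (n : ℝ) := by exact_mod_cast hj''n
        have h4 := mul_le_mul_of_nonneg_right h3 hμs
        linarith only [h4]
      exact mul_le_mul (mul_le_mul_of_nonneg_right hcc1 hσ) h2 (Real.exp_pos _).le (by positivity)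

theorem prfk_all (n j : ℕ) : PrfRankAt n j := by
  induction j with
  | zero => exact prfk_zero n
  | succ j ih => exact prfk_succ n j ih

/-- RANK BUDGET (prof:rank-budget), finite form.  For every density `α` there are `c, κ₀ > 0`:
a piece with capture fraction `κ ≤ κ₀`, grid of mesh `≤ μ`, `T_s(-1) ≥ 1`: every `S' ⊆ S` with
`|S'| ≥ α |S|` has `hA S' ⌊T_s(t)⌋ ≥ c σ(t) e^{-n² μ s}` at every grid time `t`. -/
theorem prf_rank (n : ℕ) (α : ℝ) (hα : 0 < α) : ∃ c κ₀ : ℝ, 0 < c ∧ 0 < κ₀ ∧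
    ∀ (π : PrfPiece n) (B s κ μ top : ℝ) (grid : Finset ℝ), π.Ok B s κ grid → PrfGrid grid μ top →
      0 < s → 0 ≤ μ → κ ≤ κ₀ → 1 ≤ prfT B s (-1) →
      ∀ S' ⊆ π.S, α * (π.S.card : ℝ) ≤ S'.card → S'.Nonempty → ∀ t ∈ grid,
        c * π.sigma B s t * Real.exp (-(n : ℝ) ^ 2 * μ * s) ≤
          (hA (S' : Set (Fin n → ℂ)) ⌊prfT B s t⌋₊ : ℝ) := by
  obtain ⟨c, κ₀, hc, hκ₀, H⟩ := prfk_all n n α hα
  refine ⟨c, κ₀, hc, hκ₀, ?_⟩
  intro π B s κ μ top grid hπ hg hs hμ hκ hB S' hS' hα' hne t ht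
  obtain ⟨j, hj, hpl⟩ := prfk_plateau_exists π hπ.mono t
  have := H π B s κ μ top grid hπ hg hs hμ hκ hB S' hS' hα' hne t ht j hj hj hpl
  have e : -(n : ℝ) ^ 2 * μ * s = -((n : ℝ) * n * μ * s) := by ring
  rw [e]
  exact this

/-- BALANCE (prof:balance), finite form: `|S| ≤ ∏ T_s(τ_i) ≤ C |S| e^{2 n² μ s}`. -/
theorem prf_balance (n : ℕ) : ∃ C κ₀ : ℝ, 0 < C ∧ 0 < κ₀ ∧
    ∀ (π : PrfPiece n) (B s κ μ top : ℝ) (grid : Finset ℝ), π.Ok B s κ grid → PrfGrid grid μ top →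
      0 < s → 0 ≤ μ → κ ≤ κ₀ → 1 ≤ prfT B s (-1) → π.S.Nonempty →
      (π.S.card : ℝ) ≤ ∏ i ∈ Finset.range n, prfT B s (π.τ i) ∧
      ∏ i ∈ Finset.range n, prfT B s (π.τ i) ≤
        C * (π.S.card : ℝ) * Real.exp (2 * (n : ℝ) ^ 2 * μ * s) := by
  classical
  obtain ⟨c, κ₀, hc, hκ₀, H⟩ := prf_rank n 1 one_pos
  refine ⟨1 / c, κ₀, by positivity, hκ₀, ?_⟩
  intro π B s κ μ top grid hπ hg hs hμ hκ hB hne
  constructor
  · -- mass budget before the first cut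
    have h1 := prf_mass π hπ.path 0 (Nat.zero_le _) {⊥} (by
      intro p hp
      obtain ⟨x, hx⟩ := hne
      rw [Finset.coe_singleton, Set.mem_singleton_iff] at hp
      exact ⟨x, hx, (prf_carr_bot π.f x p).mpr hp⟩) π.S (Finset.Subset.refl _) (by
      intro x _
      simp only [prfUn, Finset.mem_singleton, Set.iUnion_iUnion_eq_left]
      rw [mem_zeroLocus_iff]
      intro g hg
      rw [Ideal.mem_bot] at hg
      rw [hg, map_zero])
    have h2 : prfDeg ({⊥} : Finset (Ideal (PrfPol n))) = 1 := by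
      rw [prfDeg, Finset.sum_singleton, prf_deg_bot]
    rw [h2, one_mul] at h1
    have h3 : (π.S.card : ℝ) ≤ ∏ i ∈ Finset.Ico 0 n, ((π.f i).totalDegree : ℝ) := by
      exact_mod_cast h1
    refine le_trans h3 ?_
    rw [Finset.range_eq_Ico]
    refine Finset.prod_le_prod (fun _ _ => Nat.cast_nonneg _) fun i hi => ?_
    exact hπ.deg i (Finset.mem_Ico.mp hi).2
  · have h1 := H π B s κ μ top grid hπ hg hs hμ hκ hB π.S (Finset.Subset.refl _) (by simp) hne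
      top hg.top_mem
    rw [prfk_sigma_top π hB hs fun i hi => (hg.range _ (hπ.mem i hi)).2] at h1
    have h2 : (hA (π.S : Set (Fin n → ℂ)) ⌊prfT B s top⌋₊ : ℝ) ≤ π.S.card := by
      exact_mod_cast rk_rkOn_le_card _ π.S
    set Pr := ∏ i ∈ Finset.range n, prfT B s (π.τ i) with hPr
    have h3 : c * Pr * Real.exp (-(n : ℝ) ^ 2 * μ * s) ≤ π.S.card := le_trans h1 h2
    have hE : Real.exp (-(n : ℝ) ^ 2 * μ * s) * Real.exp ((n : ℝ) ^ 2 * μ * s) = 1 := by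
      rw [← Real.exp_add]
      simp
    have h4 : c * Pr ≤ π.S.card * Real.exp ((n : ℝ) ^ 2 * μ * s) := by
      calc c * Pr = c * Pr * Real.exp (-(n : ℝ) ^ 2 * μ * s) * Real.exp ((n : ℝ) ^ 2 * μ * s) := by
            rw [mul_assoc (c * Pr), hE, mul_one]
        _ ≤ π.S.card * Real.exp ((n : ℝ) ^ 2 * μ * s) :=
            mul_le_mul_of_nonneg_right h3 (Real.exp_pos _).le
    have h5 : Real.exp ((n : ℝ) ^ 2 * μ * s) ≤ Real.exp (2 * (n : ℝ) ^ 2 * μ * s) := by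
      apply Real.exp_le_exp.mpr
      have : 0 ≤ (n : ℝ) ^ 2 * μ * s := by positivity
      linarith
    have h6 : Pr ≤ 1 / c * (π.S.card * Real.exp ((n : ℝ) ^ 2 * μ * s)) := by
      rw [one_div, ← div_eq_inv_mul, le_div_iff₀ hc]
      linarith
    calc Pr ≤ 1 / c * (π.S.card * Real.exp ((n : ℝ) ^ 2 * μ * s)) := h6
      _ ≤ 1 / c * (π.S.card * Real.exp (2 * (n : ℝ) ^ 2 * μ * s)) := by
          apply mul_le_mul_of_nonneg_left _ (by positivity)
          exact mul_le_mul_of_nonneg_left h5 (Nat.cast_nonneg _)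
      _ = 1 / c * π.S.card * Real.exp (2 * (n : ℝ) ^ 2 * μ * s) := by ring

end Claimed.Agent.R273
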