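import Claimed.Agent.R273.PrfPool
import Claimed.Agent.R273.PhTan
import Claimed.Agent.R273.MinorLA

/-!
# Row 273, S3b/S5: `poly:regularity` (`prfr_reg`, `prf_reg`), part A: linear algebra, Jacobian minors, the functionals on the generic fibre.  Architect helper161.  Prefix `prfr_`.
EVERYTHING IS STATED FOR AN ARBITRARY FINITE INDEX TYPE `ι` (consumers: `Fin n`, `Fin d ⊕ Fin d`, `CnI r`); use `classical` where `DecidableEq ι` is needed (`ph_first_order`, `ph_union_sep`); `n = Fintype.card ι`.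

LEAF PRFR-la (`prfr_exists_minor`, `prfr_rank_of_minor`, `prfr_exists_orth`), Mathlib only, any field `K`.
 * `prfr_exists_minor`: `r ≤ finrank (span (w '' S))`: extract `r` linearly independent vectors `w (φ i)`, `φ i ∈ S` (`exists_linearIndependent`/`Submodule.exists_fun_fin_finrank_span_eq`-type lemmas, or: a basis of the span chosen inside `w '' S` (`Basis.ofSpan`/`Module.Basis.extend`), restrict to `r` of its members).
   The `r × n` matrix `A i j = w (φ i) j` has linearly independent rows, so `A.rank = r` (`Matrix.rank_transpose`, `LinearIndependent.rank_matrix`); its columns span `K^r`; choose `r` independent columns `c` in the same way; a square matrix with independent columns has `det ≠ 0` (`Matrix.linearIndependent_cols_iff_isUnit`, `Matrix.isUnit_iff_isUnit_det`).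
 * `prfr_rank_of_minor`: `det ≠ 0` ⇒ the rows of the `r × r` matrix are independent (`Matrix.linearIndependent_rows_iff_isUnit`) ⇒ the vectors `w (φ i)` are independent (`LinearIndependent.of_comp` with the projection `(ι → K) →ₗ (Fin r → K)`, `v ↦ v ∘ c` = `LinearMap.funLeft K K c`) ⇒ `r = card (Fin r) ≤ finrank (span ..)` (`LinearIndependent.fintype_card_le_finrank` inside the span, or `finrank_span_eq_card` + `Submodule.finrank_mono`).
 * `prfr_exists_orth`: `U < ⊤` (finrank); `Submodule.exists_dual_map_eq_bot_of_lt_top`/`Submodule.exists_le_ker_of_lt_top`: `f ≠ 0`, `U ≤ ker f`; `v j := f (Pi.single j 1)`; `f u = ∑ u j * v j` (`LinearMap.pi_apply_eq_sum_univ`).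
LEAF PRFR-minor (`prfr_minor_deg`, `prfr_minor_eval`, `prfr_minor_aeval`, `prfr_span_*`).
 * deg: `Matrix.det_apply`, `totalDegree_finset_sum_le`, `totalDegree_smul_le`, `totalDegree_finset_prod`, `totalDegree_pderiv_le` (copy of `ph_totalDegree_det_le`, PhInt).     * eval/aeval: `RingHom.map_det`/`AlgHom.map_det`, `Matrix.map`.
LEAF PRFR-J (`prfr_J_add`, `prfr_J_smul`, `prfr_J_mul`, `prfr_J_map`, `prfr_eval_map`): `Derivation.leibniz`, `pderiv_map`, `eval_map`, `aeval_def`, `eval₂_eq..`; `Finset.sum_add_distrib`, `Finset.mul_sum`.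
LEAF PRFR-lam (`prfr_lam_mul`, `prfr_lam_ker`).
 * `prfr_lam_mul`: `funext` on `Sum`; `inl`: `eval z (map t * g) = T * eval z g`; `inr`: `prfr_J_mul`, `prfr_J_map`, hypothesis `dAt t z (v z) = 0`.
 * `prfr_lam_ker`: `K := {f | (∀ z ∈ S, aeval z f = 0) ∧ ∀ z ∈ S', dAt f z (v z) = 0}` is closed under `+` and under multiplication by arbitrary `h` (`ph_dAt_mul`/`prfr_J_mul`; `S' ⊆ S`); `Submodule.span_induction` on `f ∈ Ideal.span Gs`.
LEAF PRFR-surj (`prfr_lam_surj`): `ph_first_order S q hsep val der` with `val z := w (inl z)` (`if h : z ∈ S then .. else 0`), `der z j := if j = j₀(z) then w (inr z) / v z j₀ else 0`, `j₀(z)` an index with `v z j₀ ≠ 0` (`Function.ne_iff`).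
-/

set_option autoImplicit false

namespace Claimed.Agent.R273

open MvPolynomial Module

variable {ι : Type*} [Fintype ι]

/-! ### the vocabulary of `PrfDefs`/`PrfFam` for an arbitrary finite index type -/

/-- total degree of a finite family of primes (`prfDeg` for any index type) -/
noncomputable def prfrDeg (𝒜 : Finset (Ideal (MvPolynomial ι ℂ))) : ℕ :=
  ∑ p ∈ 𝒜, vdeg (zeroLocus ℂ p)

/-- rank of the Jacobian of a set of polynomials at a point (`prfJacRk` for any index type) -/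
noncomputable def prfrRk (F : Set (MvPolynomial ι ℂ)) (x : ι → ℂ) : ℕ :=
  finrank ℂ (Submodule.span ℂ ((fun f => fun i => eval x (pderiv i f)) '' F))

/-- `PrfFam` for any index type -/
structure PrfrFam {ν : Type} (s : Finset ν) (G : ν → Set (MvPolynomial ι ℂ)) (L : ν → ℕ) (k : ℕ)
    (𝒜 : Finset (Ideal (MvPolynomial ι ℂ))) : Prop where
  one_le : ∀ a ∈ s, 1 ≤ L a
  deg : ∀ a ∈ s, ∀ g ∈ G a, g.totalDegree ≤ L a
  dim : ∀ p ∈ 𝒜, vdim (zeroLocus ℂ p) = k
  comp : ∀ p ∈ 𝒜, ∃ a ∈ s, p ∈ (Ideal.span (G a)).minimalPrimes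

omit [Fintype ι] in
theorem PrfrFam.prime {ν : Type} {s : Finset ν} {G : ν → Set (MvPolynomial ι ℂ)} {L : ν → ℕ}
    {k : ℕ} {𝒜 : Finset (Ideal (MvPolynomial ι ℂ))} (h : PrfrFam s G L k 𝒜)
    {p : Ideal (MvPolynomial ι ℂ)} (hp : p ∈ 𝒜) : p.IsPrime := by
  obtain ⟨a, _, ha⟩ := h.comp p hp
  exact ha.1.1

theorem PrfrFam.dim_le {ν : Type} {s : Finset ν} {G : ν → Set (MvPolynomial ι ℂ)} {L : ν → ℕ}
    {k : ℕ} {𝒜 : Finset (Ideal (MvPolynomial ι ℂ))} (h : PrfrFam s G L k 𝒜) (hne : 𝒜.Nonempty) :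
    k ≤ Fintype.card ι := by
  obtain ⟨p, hp⟩ := hne
  have := ph_vdim_le (zeroLocus ℂ p)
  rw [h.dim p hp] at this
  exact this

/-! ### linear algebra -/

theorem prfr_exists_minor {K : Type*} [Field K] {r : ℕ} {α : Type*} (w : α → ι → K)
    (S : Set α) (h : r ≤ finrank K (Submodule.span K (w '' S))) :
    ∃ (φ : Fin r → α) (c : Fin r → ι), (∀ i, φ i ∈ S) ∧
      (Matrix.of fun i j => w (φ i) (c j)).det ≠ 0 :=
  mla_exists_minor w S h

theorem prfr_rank_of_minor {K : Type*} [Field K] {r : ℕ} {α : Type*} (w : α → ι → K)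
    (S : Set α) (φ : Fin r → α) (c : Fin r → ι) (hφ : ∀ i, φ i ∈ S)
    (h : (Matrix.of fun i j => w (φ i) (c j)).det ≠ 0) :
    r ≤ finrank K (Submodule.span K (w '' S)) :=
  mla_rank_of_minor w S φ c hφ h

theorem prfr_exists_orth {K : Type*} [Field K] (U : Submodule K (ι → K))
    (h : finrank K U < Fintype.card ι) : ∃ v : ι → K, v ≠ 0 ∧ ∀ u ∈ U, ∑ j, u j * v j = 0 :=
  mla_exists_orth U h

/-! ### Jacobian minors -/

/-- the minor of the Jacobian matrix of `φ_1..φ_r` in the columns `c_1..c_r` -/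
noncomputable def prfrMinor {r : ℕ} (φ : Fin r → MvPolynomial ι ℂ) (c : Fin r → ι) : MvPolynomial ι ℂ :=
  (Matrix.of fun i j => pderiv (c j) (φ i)).det

omit [Fintype ι] in
theorem prfr_pderiv_degree (p : MvPolynomial ι ℂ) (i : ι) :
    (pderiv i p).totalDegree ≤ p.totalDegree := by
  unfold totalDegree
  apply Finset.sup_le
  intro m hm
  rw [MvPolynomial.mem_support_iff, coeff_pderiv] at hm
  have h1 : m + Finsupp.single i 1 ∈ p.support := by
    rw [MvPolynomial.mem_support_iff]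
    intro h0
    apply hm
    rw [h0, zero_mul]
  have h2 := MvPolynomial.le_totalDegree h1
  rw [Finsupp.sum_add_index' (fun _ => rfl) (fun _ _ _ => rfl), Finsupp.sum_single_index rfl] at h2
  unfold totalDegree at h2
  omega

theorem prfr_minor_deg {r : ℕ} (φ : Fin r → MvPolynomial ι ℂ) (c : Fin r → ι) (D : ℕ)
    (h : ∀ i, (φ i).totalDegree ≤ D) : (prfrMinor φ c).totalDegree ≤ r * D := by
  unfold prfrMinor
  rw [Matrix.det_apply]
  apply totalDegree_finsetSum_le
  intro σ _
  refine (totalDegree_smul_le _ _).trans ?_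
  refine (totalDegree_finsetProd _ _).trans ?_
  calc ∑ i, ((Matrix.of fun i j => pderiv (c j) (φ i)) (σ i) i).totalDegree
      ≤ ∑ _i : Fin r, D := Finset.sum_le_sum fun i _ => (prfr_pderiv_degree _ _).trans (h _)
    _ = r * D := by simp

theorem prfr_minor_eval {r : ℕ} (φ : Fin r → MvPolynomial ι ℂ) (c : Fin r → ι) (x : ι → ℂ) :
    eval x (prfrMinor φ c) = (Matrix.of fun i j => eval x (pderiv (c j) (φ i))).det := by
  unfold prfrMinor
  rw [RingHom.map_det]
  rfl

theorem prfr_minor_aeval {Ω : Type*} [Field Ω] [Algebra ℂ Ω] {r : ℕ} (φ : Fin r → MvPolynomial ι ℂ)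
    (c : Fin r → ι) (ζ : ι → Ω) :
    aeval ζ (prfrMinor φ c) = (Matrix.of fun i j => aeval ζ (pderiv (c j) (φ i))).det := by
  unfold prfrMinor
  rw [AlgHom.map_det]
  rfl

/-- the span of all `r`-minors of the Jacobian of a set of polynomials -/
noncomputable def prfrMinSp (Fs : Set (MvPolynomial ι ℂ)) (r : ℕ) : Submodule ℂ (MvPolynomial ι ℂ) :=
  Submodule.span ℂ {m | ∃ (φ : Fin r → MvPolynomial ι ℂ) (c : Fin r → ι), (∀ i, φ i ∈ Fs) ∧
    m = prfrMinor φ c}

theorem prfr_span_deg (Fs : Set (MvPolynomial ι ℂ)) (r D : ℕ) (h : ∀ f ∈ Fs, f.totalDegree ≤ D)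
    (g : MvPolynomial ι ℂ) (hg : g ∈ prfrMinSp Fs r) : g.totalDegree ≤ r * D := by
  have hle : prfrMinSp Fs r ≤ restrictTotalDegree ι ℂ (r * D) := by
    unfold prfrMinSp
    rw [Submodule.span_le]
    rintro m ⟨φ, c, hφ, rfl⟩
    exact (mem_restrictTotalDegree ι (r * D) _).mpr
      (prfr_minor_deg φ c D fun i => h _ (hφ i))
  exact (mem_restrictTotalDegree ι (r * D) g).mp (hle hg)

/-- a member of the span of the minors which does not vanish at `x` certifies the rank at `x` -/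
theorem prfr_span_rank (Fs : Set (MvPolynomial ι ℂ)) (r : ℕ) (g : MvPolynomial ι ℂ) (hg : g ∈ prfrMinSp Fs r)
    (x : ι → ℂ) (hx : eval x g ≠ 0) : r ≤ prfrRk Fs x := by
  by_contra hlt
  apply hx
  have hae : ∀ p : MvPolynomial ι ℂ, aeval x p = eval x p := fun _ => rfl
  have hle : prfrMinSp Fs r ≤ LinearMap.ker (aeval x : MvPolynomial ι ℂ →ₐ[ℂ] ℂ).toLinearMap := by
    unfold prfrMinSp
    rw [Submodule.span_le]
    rintro m ⟨φ, c, hφ, rfl⟩
    rw [SetLike.mem_coe, LinearMap.mem_ker, AlgHom.toLinearMap_apply, hae]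
    by_contra hne
    rw [prfr_minor_eval] at hne
    exact hlt (prfr_rank_of_minor (fun f => fun i => eval x (pderiv i f)) Fs φ c hφ hne)
  have := hle hg
  rwa [LinearMap.mem_ker, AlgHom.toLinearMap_apply, hae] at this

/-! ### functionals on `F[x]` -/

section functionals

variable {F : Type*} [Field F]

/-- derivative at `z` in the direction `v`, on `F[x]` -/
noncomputable def prfrJ (z v : ι → F) (g : MvPolynomial ι F) : F :=
  ∑ j, eval z (pderiv j g) * v j

theorem prfr_J_add (z v : ι → F) (f g : MvPolynomial ι F) :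
    prfrJ z v (f + g) = prfrJ z v f + prfrJ z v g := by
  simp only [prfrJ, map_add, add_mul, Finset.sum_add_distrib]

theorem prfr_J_smul (z v : ι → F) (c : F) (g : MvPolynomial ι F) :
    prfrJ z v (c • g) = c * prfrJ z v g := by
  unfold prfrJ
  rw [Finset.mul_sum]
  refine Finset.sum_congr rfl fun j _ => ?_
  rw [Derivation.map_smul, smul_eval, mul_assoc]

theorem prfr_J_mul (z v : ι → F) (f g : MvPolynomial ι F) :
    prfrJ z v (f * g) = eval z f * prfrJ z v g + eval z g * prfrJ z v f := by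
  simp only [prfrJ, Derivation.leibniz, smul_eq_mul, map_add, map_mul, add_mul,
    Finset.sum_add_distrib, Finset.mul_sum, mul_assoc]

theorem prfr_eval_map [Algebra ℂ F] (z : ι → F) (f : MvPolynomial ι ℂ) :
    eval z (map (algebraMap ℂ F) f) = aeval z f := by
  rw [eval_map, aeval_def]

theorem prfr_J_map [Algebra ℂ F] (z v : ι → F) (f : MvPolynomial ι ℂ) :
    prfrJ z v (map (algebraMap ℂ F) f) = dAt f z v := by
  unfold prfrJ dAt
  refine Finset.sum_congr rfl fun j _ => ?_
  rw [pderiv_map, prfr_eval_map]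

/-- the augmented evaluation map: values at the points of `S`, derivatives in the directions `v z` at the points of `S'` -/
noncomputable def prfrLam (S S' : Finset (ι → F)) (v : (ι → F) → ι → F) :
    MvPolynomial ι F →ₗ[F] (({z // z ∈ S} ⊕ {z // z ∈ S'}) → F) where
  toFun g := Sum.elim (fun z => eval z.1 g) (fun z => prfrJ z.1 (v z.1) g)
  map_add' f g := by
    funext a
    rcases a with z | z
    · simp
    · simp [prfr_J_add]
  map_smul' c g := by
    funext a
    rcases a with z | z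
    · simp
    · simp [prfr_J_smul]

theorem prfr_lam_mul [Algebra ℂ F] (S S' : Finset (ι → F)) (v : (ι → F) → ι → F)
    (hS : S' ⊆ S) (t : MvPolynomial ι ℂ) (T : F) (h1 : ∀ z ∈ S, aeval z t = T)
    (h2 : ∀ z ∈ S', dAt t z (v z) = 0) (g : MvPolynomial ι F) :
    prfrLam S S' v (map (algebraMap ℂ F) t * g) = T • prfrLam S S' v g := by
  funext a
  rcases a with z | z
  · change eval z.1 (map (algebraMap ℂ F) t * g) = T * eval z.1 g
    rw [map_mul, prfr_eval_map, h1 z.1 z.2]
  · change prfrJ z.1 (v z.1) (map (algebraMap ℂ F) t * g) = T * prfrJ z.1 (v z.1) g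
    rw [prfr_J_mul, prfr_J_map, h2 z.1 z.2, mul_zero, add_zero, prfr_eval_map, h1 z.1 (hS z.2)]

theorem prfr_lam_ker [Algebra ℂ F] (S S' : Finset (ι → F)) (v : (ι → F) → ι → F)
    (hS : S' ⊆ S) (Gs : Set (MvPolynomial ι ℂ)) (h1 : ∀ f ∈ Gs, ∀ z ∈ S, aeval z f = 0)
    (h2 : ∀ f ∈ Gs, ∀ z ∈ S', dAt f z (v z) = 0) (f : MvPolynomial ι ℂ) (hf : f ∈ Ideal.span Gs) :
    prfrLam S S' v (map (algebraMap ℂ F) f) = 0 := by
  have key : (∀ z ∈ S, aeval z f = 0) ∧ ∀ z ∈ S', dAt f z (v z) = 0 := by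
    induction hf using Submodule.span_induction with
    | mem f hf => exact ⟨h1 f hf, h2 f hf⟩
    | zero => exact ⟨fun z _ => map_zero _, fun z _ => by simp [dAt]⟩
    | add f g _ _ hf hg =>
      refine ⟨fun z hz => by rw [map_add, hf.1 z hz, hg.1 z hz, add_zero], fun z hz => ?_⟩
      rw [ph_dAt_add, hf.2 z hz, hg.2 z hz, add_zero]
    | smul a f _ hf =>
      refine ⟨fun z hz => by rw [smul_eq_mul, map_mul, hf.1 z hz, mul_zero], fun z hz => ?_⟩
      rw [smul_eq_mul, ph_dAt_mul, hf.2 z hz, hf.1 z (hS hz), mul_zero, zero_mul, add_zero]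
  funext a
  rcases a with z | z
  · change eval z.1 (map (algebraMap ℂ F) f) = 0
    rw [prfr_eval_map, key.1 z.1 z.2]
  · change prfrJ z.1 (v z.1) (map (algebraMap ℂ F) f) = 0
    rw [prfr_J_map, key.2 z.1 z.2]

theorem prfr_lam_surj (S S' : Finset (ι → F)) (v : (ι → F) → ι → F) (hS : S' ⊆ S)
    (hv : ∀ z ∈ S', v z ≠ 0) (q : ℕ)
    (hsep : ∀ z ∈ S, ∃ σ : MvPolynomial ι F, σ.totalDegree ≤ q ∧ eval z σ = 1 ∧
      ∀ y ∈ S, y ≠ z → eval y σ = 0)
    (w : ({z // z ∈ S} ⊕ {z // z ∈ S'}) → F) :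
    ∃ g : MvPolynomial ι F, g.totalDegree ≤ 3 * q + 1 ∧ prfrLam S S' v g = w := by
  classical
  have hex : ∀ z, ∀ hz : z ∈ S', ∃ j : ι, v z j ≠ 0 := fun z hz => by
    obtain ⟨j, hj⟩ := Function.ne_iff.mp (hv z hz)
    exact ⟨j, hj⟩
  choose j₀ hj₀ using hex
  obtain ⟨g, hgdeg, hg⟩ := ph_first_order S q hsep
    (fun z => if h : z ∈ S then w (Sum.inl ⟨z, h⟩) else 0)
    (fun z j => if h : z ∈ S' then (if j = j₀ z h then w (Sum.inr ⟨z, h⟩) / v z (j₀ z h) else 0)
      else 0)
  refine ⟨g, hgdeg, ?_⟩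
  funext a
  rcases a with z | z
  · change eval z.1 g = w (Sum.inl z)
    rw [(hg z.1 z.2).1, dif_pos z.2]
  · change prfrJ z.1 (v z.1) g = w (Sum.inr z)
    unfold prfrJ
    have h1 : ∀ j, eval z.1 (pderiv j g) * v z.1 j =
        if j = j₀ z.1 z.2 then w (Sum.inr z) else 0 := by
      intro j
      rw [(hg z.1 (hS z.2)).2 j, dif_pos z.2]
      split_ifs with hj
      · rw [hj, div_mul_cancel₀ _ (hj₀ z.1 z.2)]
      · rw [zero_mul]
    simp only [h1]
    rw [Finset.sum_ite_eq' Finset.univ, if_pos (Finset.mem_univ _)]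

end functionals

end Claimed.Agent.R273
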