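import Claimed.Agent.R273.PrfRegA

/-!
# Row 273, S3b/S5: `poly:regularity` (`prf_reg`), part B: sheets, separators, THE AUGMENTED COUNT.  Architect helper161.  Prefix `prfr_`.

`F = GenF k`, `t : Fin k → MvPolynomial ι ℂ` a common Noether position of the family `𝒜` (`ph_npos_family`), `Sg` = all sheets of `𝒜` (`|Sg| = prfrDeg 𝒜`), `Sg'` = the sheets of the failing subfamily `ℰ`.
`Λ = prfrLam Sg Sg' v : F[x] → F^{Sg ⊕ Sg'}`; `q = n ∑ L`, `q' = 3 q + 1`;  `I = 𝒜.inf id`, `I' = Ideal.span (I_{≤D})`: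
   `(|Sg| + |Sg'|) binom(D - q' + k, k) ≤ hI I' D` (`prfr_low_fintype`) `≤ hI I D` (`prfr_hI_trunc`) `≤ prfrDeg 𝒜 binom(D+k,k)` (`prfr_hI_up`).

LEAF PRFR-sheets (`prfr_sheets`, `prfr_sep`).
 * `prfr_sheets`: `Sg := 𝒜.biUnion fun p => if h : p ∈ 𝒜 then (ph_sheets_finite p _ t _).toFinset else ∅` (or `Set.Finite.toFinset` of the finite union); `Finset.card_biUnion` with `ph_sheets_disjoint`; `Set.ncard_eq_toFinset_card`; `ph_vdeg_eq_sheets`.
 * `prfr_sep`: `ph_union_sep s (fun a => sheetSys (G a) t) L ..` with the lists `S a := Sg.filter (fun ζ => ∃ p ∈ 𝒜, p ∈ (span (G a)).minimalPrimes ∧ ζ ∈ sheets p t)`; isolated zeros: `ph_sheet_iso`;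
   degrees of `sheetSys`: `totalDegree_map_le`, `totalDegree_sub_C_le`/`totalDegree_sub`, `(t i).totalDegree ≤ 1 ≤ L a`; `Fintype.card (Fin n) = n`; `Infinite (GenF k)` (char. 0 field / algebraically closed: `IsAlgClosed.instInfinite..`, `inferInstance`).
LEAF PRFR-hI (`prfr_low_fintype`, `prfr_hI_trunc`, `prfr_hI_up`).
 * `prfr_low_fintype`: `ph_low_lin` for `Λ' := (LinearEquiv.funCongrLeft F F (Fintype.equivFin κ).symm).toLinearMap ∘ₗ Λ` (any linear equivalence `(κ → F) ≃ₗ (Fin (card κ) → F)`).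
 * `prfr_hI_trunc`: `ph_finrank_map_le_of_ker` (PhLin): for `f` of degree `≤ D`: `mk_I f = 0 → f ∈ I → f ∈ I' → mk_{I'} f = 0` (`ph_mkQ_eq_zero`).
 * `prfr_hI_up`: `ph_hI_finset_inf_le`, `ph_hA_zeroLocus_prime`, `ph_up_var`, `Finset.sum_mul`.
LEAF PRFR-vec (`prfr_vec`, `prfr_dAt_span`): see the plan at the statements.
`prfr_count` is PROVED from these.
-/

set_option autoImplicit false

namespace Claimed.Agent.R273

open MvPolynomial Module

variable {ι : Type*} [Fintype ι]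

/-- the sheets of a family, as a finite set -/
theorem prfr_sheets {k : ℕ} (𝒜 : Finset (Ideal (MvPolynomial ι ℂ))) (hpr : ∀ p ∈ 𝒜, p.IsPrime)
    (t : Fin k → MvPolynomial ι ℂ) (ht : ∀ p ∈ 𝒜, NPos p t) :
    ∃ Sg : Finset (ι → GenF k), (∀ ζ, ζ ∈ Sg ↔ ∃ p ∈ 𝒜, ζ ∈ sheets p t) ∧
      Sg.card = prfrDeg 𝒜 := by
  classical
  have hfin : ∀ p ∈ 𝒜, (sheets p t).Finite := fun p hp =>
    ph_sheets_finite p (hpr p hp) t (ht p hp)
  set S : Ideal (MvPolynomial ι ℂ) → Finset (ι → GenF k) :=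
    fun p => if h : p ∈ 𝒜 then (hfin p h).toFinset else ∅ with hS
  have hSmem : ∀ p ∈ 𝒜, ∀ ζ, ζ ∈ S p ↔ ζ ∈ sheets p t := by
    intro p hp ζ
    simp only [hS, dif_pos hp, Set.Finite.mem_toFinset]
  refine ⟨𝒜.biUnion S, ?_, ?_⟩
  · intro ζ
    rw [Finset.mem_biUnion]
    constructor
    · rintro ⟨p, hp, h⟩
      exact ⟨p, hp, (hSmem p hp ζ).mp h⟩
    · rintro ⟨p, hp, h⟩
      exact ⟨p, hp, (hSmem p hp ζ).mpr h⟩
  · rw [Finset.card_biUnion]
    · unfold prfrDeg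
      refine Finset.sum_congr rfl fun p hp => ?_
      rw [ph_vdeg_eq_sheets p (hpr p hp) t (ht p hp), Set.ncard_eq_toFinset_card _ (hfin p hp)]
      simp only [hS, dif_pos hp]
    · intro p hp p' hp' hne
      change Disjoint (S p) (S p')
      rw [Finset.disjoint_left]
      intro ζ h1 h2
      exact Set.disjoint_left.mp
        (ph_sheets_disjoint p p' (hpr p hp) (hpr p' hp') t (ht p hp) (ht p' hp') hne)
        ((hSmem p hp ζ).mp h1) ((hSmem p' hp' ζ).mp h2)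

/-- separators of degree `≤ n ∑ L` on the generic fibre -/
theorem prfr_sep {ν : Type} (s : Finset ν) (G : ν → Set (MvPolynomial ι ℂ)) (L : ν → ℕ) (k : ℕ)
    (𝒜 : Finset (Ideal (MvPolynomial ι ℂ))) (hfam : PrfrFam s G L k 𝒜) (t : Fin k → MvPolynomial ι ℂ)
    (ht : ∀ p ∈ 𝒜, NPos p t) (Sg : Finset (ι → GenF k))
    (hSg : ∀ ζ, ζ ∈ Sg ↔ ∃ p ∈ 𝒜, ζ ∈ sheets p t) :
    ∀ z ∈ Sg, ∃ σ : MvPolynomial ι (GenF k), σ.totalDegree ≤ Fintype.card ι * ∑ a ∈ s, L a ∧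
      eval z σ = 1 ∧ ∀ y ∈ Sg, y ≠ z → eval y σ = 0 := by
  classical
  intro z hz
  obtain ⟨p₀, hp₀, -⟩ := (hSg z).mp hz
  have hlin : ∀ i, (t i).totalDegree ≤ 1 := (ht p₀ hp₀).lin
  set S : ν → Finset (ι → GenF k) := fun a =>
    Sg.filter (fun ζ => ∃ p ∈ 𝒜, p ∈ (Ideal.span (G a)).minimalPrimes ∧ ζ ∈ sheets p t) with hS
  have hcov : ∀ y ∈ Sg, ∃ a ∈ s, y ∈ S a := by
    intro y hy
    obtain ⟨p, hp, hyp⟩ := (hSg y).mp hy
    obtain ⟨a, ha, hpa⟩ := hfam.comp p hp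
    exact ⟨a, ha, Finset.mem_filter.mpr ⟨hy, p, hp, hpa, hyp⟩⟩
  obtain ⟨σ, h1, h2, h3⟩ := ph_union_sep s (fun a => sheetSys (G a) t) L hfam.one_le
    (by
      intro a ha g hg
      rcases hg with ⟨g0, hg0, rfl⟩ | ⟨i, rfl⟩
      · exact (ph_totalDegree_map_le _ _).trans (hfam.deg a ha g0 hg0)
      · refine (totalDegree_sub _ _).trans ?_
        rw [totalDegree_C]
        exact max_le (((ph_totalDegree_map_le _ _).trans (hlin i)).trans (hfam.one_le a ha))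
          (Nat.zero_le _))
    S
    (by
      intro a _ ζ hζ
      obtain ⟨-, p, hp, hpa, hζp⟩ := Finset.mem_filter.mp hζ
      exact ph_sheet_iso (G a) p hpa t (ht p hp) ζ hζp)
    z (hcov z hz)
  exact ⟨σ, h1, h2, fun y hy hyz => h3 y (hcov y hy) hyz⟩

/-- `ph_low_lin` with an arbitrary finite index type -/
theorem prfr_low_fintype {F : Type*} [Field F] [Algebra ℂ F] {k : ℕ} {κ : Type*} [Fintype κ]
    (T : Fin k → F) (hT : AlgebraicIndependent ℂ T) (t : Fin k → MvPolynomial ι ℂ)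
    (ht : ∀ i, (t i).totalDegree ≤ 1) (Λ : MvPolynomial ι F →ₗ[F] (κ → F))
    (hΛ : ∀ i g, Λ (map (algebraMap ℂ F) (t i) * g) = T i • Λ g)
    (q : ℕ) (hq : ∀ w, ∃ g : MvPolynomial ι F, g.totalDegree ≤ q ∧ Λ g = w)
    (I : Ideal (MvPolynomial ι ℂ)) (hIΛ : ∀ f ∈ I, Λ (map (algebraMap ℂ F) f) = 0)
    (D : ℕ) (hD : q ≤ D) : Fintype.card κ * (D - q + k).choose k ≤ hI I D := by
  classical
  set E : (κ → F) ≃ₗ[F] (Fin (Fintype.card κ) → F) :=
    LinearEquiv.funCongrLeft F F (Fintype.equivFin κ).symm with hE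
  refine ph_low_lin T hT t ht (E.toLinearMap ∘ₗ Λ) ?_ q ?_ I ?_ D hD
  · intro i g
    rw [LinearMap.comp_apply, LinearMap.comp_apply, hΛ, map_smul]
  · intro w
    obtain ⟨g, hg, h⟩ := hq (E.symm w)
    refine ⟨g, hg, ?_⟩
    rw [LinearMap.comp_apply, h, LinearEquiv.coe_coe, LinearEquiv.apply_symm_apply]
  · intro f hf
    rw [LinearMap.comp_apply, hIΛ f hf, map_zero]

/-- the Hilbert function at `D` only sees the part of degree `≤ D` of the ideal -/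
theorem prfr_hI_trunc (I : Ideal (MvPolynomial ι ℂ)) (D : ℕ) :
    hI (Ideal.span {f | f ∈ I ∧ f.totalDegree ≤ D}) D ≤ hI I D := by
  unfold hI
  refine ph_finrank_map_le_of_ker _ _ _ fun f hf h => ?_
  rw [ph_mkQ_eq_zero] at h ⊢
  exact Ideal.subset_span ⟨h, (mem_restrictTotalDegree ι D f).mp hf⟩

theorem prfr_hI_up {k : ℕ} (𝒜 : Finset (Ideal (MvPolynomial ι ℂ)))
    (h : ∀ p ∈ 𝒜, p.IsPrime ∧ vdim (zeroLocus ℂ p) = k) (D : ℕ) :
    hI (𝒜.inf id) D ≤ prfrDeg 𝒜 * (D + k).choose k := by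
  refine (ph_hI_finset_inf_le 𝒜 id D).trans ?_
  unfold prfrDeg
  rw [Finset.sum_mul]
  refine Finset.sum_le_sum fun p hp => ?_
  have h1 := ph_up_var (zeroLocus ℂ p) ⟨p, (h p hp).1, rfl⟩ D
  rw [(h p hp).2, ph_hA_zeroLocus_prime p (h p hp).1] at h1
  exact h1

/-- At a sheet of a prime containing all `r`-minors (`r = n - k`) of the Jacobian of `Fs` there is a nonzero VERTICAL vector killed by all differentials of `Fs`.
PROOF.  `w f := fun j => aeval ζ (pderiv j f)`.  If `r ≤ finrank (span (w '' Fs))`, `prfr_exists_minor` gives `φ, c` with `det ≠ 0`, which is `aeval ζ (prfrMinor φ c)` (`prfr_minor_aeval`); but the minor lies in `prfrMinSp Fs r` (`Submodule.subset_span`), hence in `p`, hence vanishes at `ζ` (`hζ.1`, `mem_zeroLocus_iff`).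
So `finrank < r`; `U := span (w '' Fs) ⊔ span (range fun i => w (t i))` has `finrank ≤ finrank + k < n` (`Submodule.finrank_add_le_finrank_add_finrank`, `finrank_range_le_card`); `prfr_exists_orth`; `dAt f ζ v = ∑ j, w f j * v j` by definition. -/
theorem prfr_vec {k r : ℕ} (hkr : k + r = Fintype.card ι) (p : Ideal (MvPolynomial ι ℂ)) (t : Fin k → MvPolynomial ι ℂ)
    (Fs : Set (MvPolynomial ι ℂ)) (hmin : ∀ m ∈ prfrMinSp Fs r, m ∈ p) (ζ : ι → GenF k)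
    (hζ : ζ ∈ sheets p t) :
    ∃ v : ι → GenF k, v ≠ 0 ∧ (∀ i, dAt (t i) ζ v = 0) ∧ ∀ f ∈ Fs, dAt f ζ v = 0 := by
  classical
  set w : MvPolynomial ι ℂ → ι → GenF k := fun f j => aeval ζ (pderiv j f) with hw
  have hlt : finrank (GenF k) (Submodule.span (GenF k) (w '' Fs)) < r := by
    by_contra hge
    rw [not_lt] at hge
    obtain ⟨φ, c, hφ, hdet⟩ := prfr_exists_minor w Fs hge
    apply hdet
    have h1 := prfr_minor_aeval φ c ζ
    have h2 : aeval ζ (prfrMinor φ c) = 0 :=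
      (mem_zeroLocus_iff.mp hζ.1) _ (hmin _ (Submodule.subset_span ⟨φ, c, hφ, rfl⟩))
    rw [h2] at h1
    exact h1.symm
  set U : Submodule (GenF k) (ι → GenF k) := Submodule.span (GenF k) (w '' Fs) ⊔
    Submodule.span (GenF k) (Set.range fun i => w (t i)) with hU
  have hUlt : finrank (GenF k) U < Fintype.card ι := by
    have h1 := Submodule.finrank_add_le_finrank_add_finrank (Submodule.span (GenF k) (w '' Fs))
      (Submodule.span (GenF k) (Set.range fun i => w (t i)))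
    have h2 : finrank (GenF k) (Submodule.span (GenF k) (Set.range fun i => w (t i))) ≤ k := by
      have := finrank_range_le_card (R := GenF k) (fun i => w (t i))
      rwa [Fintype.card_fin] at this
    rw [hU]
    omega
  obtain ⟨v, hv0, hv⟩ := prfr_exists_orth U hUlt
  refine ⟨v, hv0, fun i => ?_, fun f hf => ?_⟩
  · exact hv (w (t i)) (Submodule.mem_sup_right (Submodule.subset_span ⟨i, rfl⟩))
  · exact hv (w f) (Submodule.mem_sup_left (Submodule.subset_span ⟨f, hf, rfl⟩))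

/-- `dAt` is `ℂ`-linear in the polynomial (`Submodule.span_induction`; `ph_dAt_add`, `map_smul`, `Algebra.smul_def`) -/
theorem prfr_dAt_span {Ω : Type*} [Field Ω] [Algebra ℂ Ω] (Fs : Set (MvPolynomial ι ℂ)) (z v : ι → Ω)
    (h : ∀ f ∈ Fs, dAt f z v = 0) (f : MvPolynomial ι ℂ) (hf : f ∈ Submodule.span ℂ Fs) :
    dAt f z v = 0 := by
  induction hf using Submodule.span_induction with
  | mem f hf => exact h f hf
  | zero => simp [dAt]
  | add f g _ _ hf hg => rw [ph_dAt_add, hf, hg, add_zero]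
  | smul c f _ hf =>
    have : dAt (c • f) z v = c • dAt f z v := by
      unfold dAt
      rw [Finset.smul_sum]
      refine Finset.sum_congr rfl fun i _ => ?_
      rw [Derivation.map_smul, map_smul, smul_mul_assoc]
    rw [this, hf, smul_zero]

/-- THE AUGMENTED COUNT (poly:augmented-lower). -/
theorem prfr_count {ν : Type} (s : Finset ν) (G : ν → Set (MvPolynomial ι ℂ)) (L : ν → ℕ) (k : ℕ)
    (𝒜 : Finset (Ideal (MvPolynomial ι ℂ))) (hfam : PrfrFam s G L k 𝒜) (t : Fin k → MvPolynomial ι ℂ)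
    (htl : ∀ i, (t i).totalDegree ≤ 1) (ht : ∀ p ∈ 𝒜, NPos p t) (D : ℕ)
    (ℰ : Finset (Ideal (MvPolynomial ι ℂ))) (hℰ : ℰ ⊆ 𝒜)
    (hv : ∀ p ∈ ℰ, ∀ ζ ∈ sheets p t, ∃ v : ι → GenF k, v ≠ 0 ∧ (∀ i, dAt (t i) ζ v = 0) ∧
      ∀ f : MvPolynomial ι ℂ, f.totalDegree ≤ D → (∀ p' ∈ 𝒜, f ∈ p') → dAt f ζ v = 0)
    (hD : 3 * (Fintype.card ι * ∑ a ∈ s, L a) + 1 ≤ D) :
    (prfrDeg 𝒜 + prfrDeg ℰ) * (D - (3 * (Fintype.card ι * ∑ a ∈ s, L a) + 1) + k).choose k ≤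
      prfrDeg 𝒜 * (D + k).choose k := by
  classical
  have hpr : ∀ p ∈ 𝒜, p.IsPrime := fun p hp => hfam.prime hp
  obtain ⟨Sg, hSg, hcard⟩ := prfr_sheets 𝒜 hpr t ht
  obtain ⟨Sg', hSg', hcard'⟩ := prfr_sheets ℰ (fun p hp => hpr p (hℰ hp)) t
    (fun p hp => ht p (hℰ hp))
  have hsub : Sg' ⊆ Sg := by
    intro ζ hζ
    obtain ⟨p, hp, h⟩ := (hSg' ζ).mp hζ
    exact (hSg ζ).mpr ⟨p, hℰ hp, h⟩
  -- the directions
  have hex : ∀ ζ : ι → GenF k, ∃ v : ι → GenF k, ζ ∈ Sg' → (v ≠ 0 ∧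
      (∀ i, dAt (t i) ζ v = 0) ∧
      ∀ f : MvPolynomial ι ℂ, f.totalDegree ≤ D → (∀ p' ∈ 𝒜, f ∈ p') → dAt f ζ v = 0) := by
    intro ζ
    by_cases hζ : ζ ∈ Sg'
    · obtain ⟨p, hp, h⟩ := (hSg' ζ).mp hζ
      obtain ⟨v, hv'⟩ := hv p hp ζ h
      exact ⟨v, fun _ => hv'⟩
    · exact ⟨0, fun h => absurd h hζ⟩
  choose v hvv using hex
  set I := 𝒜.inf id with hI
  have hmemI : ∀ f, f ∈ I ↔ ∀ p ∈ 𝒜, f ∈ p := by
    intro f
    rw [hI, Submodule.mem_finsetInf]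
    rfl
  set Gs : Set (MvPolynomial ι ℂ) := {f | f ∈ I ∧ f.totalDegree ≤ D} with hGs
  have h1 := prfr_low_fintype (κ := {z // z ∈ Sg} ⊕ {z // z ∈ Sg'}) (gpt k) (ph_gpt_algInd k) t htl
    (prfrLam Sg Sg' v)
    (fun i g => prfr_lam_mul Sg Sg' v hsub (t i) (gpt k i)
      (fun z hz => by
        obtain ⟨p, _, h⟩ := (hSg z).mp hz
        exact h.2 i)
      (fun z hz => (hvv z hz).2.1 i) g)
    (3 * (Fintype.card ι * ∑ a ∈ s, L a) + 1)
    (prfr_lam_surj Sg Sg' v hsub (fun z hz => (hvv z hz).1) _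
      (prfr_sep s G L k 𝒜 hfam t ht Sg hSg))
    (Ideal.span Gs)
    (fun f hf => prfr_lam_ker Sg Sg' v hsub Gs
      (fun f hf z hz => by
        obtain ⟨p, hp, h⟩ := (hSg z).mp hz
        exact (mem_zeroLocus_iff.mp h.1) f ((hmemI f).mp hf.1 p hp))
      (fun f hf z hz => (hvv z hz).2.2 f hf.2 ((hmemI f).mp hf.1)) f hf)
    D hD
  have h2 := prfr_hI_trunc I D
  have h3 := prfr_hI_up (k := k) 𝒜 (fun p hp => ⟨hpr p hp, hfam.dim p hp⟩) D
  have hc : Fintype.card ({z // z ∈ Sg} ⊕ {z // z ∈ Sg'}) = prfrDeg 𝒜 + prfrDeg ℰ := by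
    rw [Fintype.card_sum, Fintype.card_coe, Fintype.card_coe, hcard, hcard']
  rw [hc] at h1
  exact le_trans h1 (le_trans h2 h3)

end Claimed.Agent.R273
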