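import Claimed.Agent.R273.PrfRegB

/-!
# Row 273, S3b/S5: `poly:regularity`, part C: the theorem `prfr_reg (ι)` for an ARBITRARY finite index type and its special case `prf_reg n`, PROVED from the leaves of `PrfRegA`, `PrfRegB`, `PrfPool` (`prf_num`, `prfp_generic`).  Architect helper161.

`W = prfrW 𝒜 D` = equations of degree `≤ D` of the whole family; `Fs` a finite spanning set; `r = n - k`; `g` generic in the span of the `r`-minors of the Jacobian of `Fs`; `ℰ` = members containing all the minors.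
LEAF PRFR-fg (`prfr_W_fg`): `W ≤ restrictTotalDegree ι ℂ D`, which is finite-dimensional (`rk_finite_restrict`): `Submodule.finiteDimensional_of_le`, `Submodule.fg_iff_finiteDimensional`.
-/

set_option autoImplicit false

namespace Claimed.Agent.R273

open MvPolynomial Module

variable {ι : Type*} [Fintype ι]

/-- the equations of degree `≤ D` of the whole family -/
noncomputable def prfrW (𝒜 : Finset (Ideal (MvPolynomial ι ℂ))) (D : ℕ) : Submodule ℂ (MvPolynomial ι ℂ) :=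
  restrictTotalDegree ι ℂ D ⊓ (𝒜.inf id).restrictScalars ℂ

theorem prfr_mem_W (𝒜 : Finset (Ideal (MvPolynomial ι ℂ))) (D : ℕ) (f : MvPolynomial ι ℂ) :
    f ∈ prfrW 𝒜 D ↔ f.totalDegree ≤ D ∧ ∀ p ∈ 𝒜, f ∈ p := by
  simp only [prfrW, Submodule.mem_inf, mem_restrictTotalDegree, Submodule.restrictScalars_mem,
    Submodule.mem_finsetInf, id]

theorem prfr_W_fg (𝒜 : Finset (Ideal (MvPolynomial ι ℂ))) (D : ℕ) :
    ∃ Fs : Finset (MvPolynomial ι ℂ), Submodule.span ℂ (Fs : Set (MvPolynomial ι ℂ)) = prfrW 𝒜 D := by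
  have hle : prfrW 𝒜 D ≤ restrictTotalDegree ι ℂ D := inf_le_left
  have hfd : FiniteDimensional ℂ (prfrW 𝒜 D) := Submodule.finiteDimensional_of_le hle
  obtain ⟨Fs, hFs⟩ := (Submodule.fg_iff_finiteDimensional _).mpr hfd
  exact ⟨Fs, hFs⟩

/-- REG (poly:regularity, algebraic part), for an arbitrary finite index type. -/
theorem prfr_reg (ι : Type*) [Fintype ι] : ∃ Cn : ℕ, 0 < Cn ∧
    ∀ {ν : Type} (s : Finset ν) (G : ν → Set (MvPolynomial ι ℂ)) (L : ν → ℕ) (k : ℕ)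
      (𝒜 : Finset (Ideal (MvPolynomial ι ℂ))), PrfrFam s G L k 𝒜 →
      ∀ D : ℕ, Cn * (∑ a ∈ s, L a) ≤ D →
          ∃ (F : Finset (MvPolynomial ι ℂ)) (g : MvPolynomial ι ℂ) (ℰ : Finset (Ideal (MvPolynomial ι ℂ))), ℰ ⊆ 𝒜 ∧
            (∀ f ∈ F, f.totalDegree ≤ D ∧ ∀ p ∈ 𝒜, f ∈ p) ∧ g.totalDegree ≤ Cn * D ∧
            prfrDeg ℰ * D ≤ Cn * prfrDeg 𝒜 * (∑ a ∈ s, L a) ∧
            (∀ p ∈ 𝒜, p ∉ ℰ → g ∉ p) ∧
            ∀ x, eval x g ≠ 0 → Fintype.card ι - k ≤ prfrRk (F : Set (MvPolynomial ι ℂ)) x := by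
  classical
  set n := Fintype.card ι with hn
  obtain ⟨C₀, hC₀, hnum⟩ := prf_num n (3 * n + 1)
  refine ⟨C₀ + (3 * n + 1), by omega, ?_⟩
  intro ν s G L k 𝒜 hfam D hD
  set Λ := ∑ a ∈ s, L a with hΛ
  rcases 𝒜.eq_empty_or_nonempty with rfl | hne
  · exact ⟨∅, 0, ∅, by simp, by simp, by simp, by simp [prfrDeg], by simp, by simp⟩
  have hk : k ≤ n := hfam.dim_le hne
  have hpr : ∀ p ∈ 𝒜, p.IsPrime := fun p hp => hfam.prime hp
  -- `Λ ≥ 1`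
  have hΛ1 : 1 ≤ Λ := by
    obtain ⟨p, hp⟩ := hne
    obtain ⟨a, ha, _⟩ := hfam.comp p hp
    calc 1 ≤ L a := hfam.one_le a ha
      _ ≤ Λ := Finset.single_le_sum (f := L) (fun _ _ => Nat.zero_le _) ha
  have hq : 3 * (n * Λ) + 1 ≤ (3 * n + 1) * Λ := by nlinarith
  have hD0 : C₀ * Λ ≤ D := le_trans (by nlinarith) hD
  have hD1 : (3 * n + 1) * Λ ≤ D := le_trans (by nlinarith) hD
  obtain ⟨t, htl, ht⟩ := ph_npos_family 𝒜 hpr k hfam.dim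
  obtain ⟨Fs, hFs⟩ := prfr_W_fg 𝒜 D
  have hFsW : ∀ f ∈ Fs, f.totalDegree ≤ D ∧ ∀ p ∈ 𝒜, f ∈ p := by
    intro f hf
    rw [← prfr_mem_W, ← hFs]
    exact Submodule.subset_span hf
  set r := n - k with hr
  obtain ⟨g, hgW, hg⟩ := prfp_generic (prfrMinSp (Fs : Set (MvPolynomial ι ℂ)) r) 𝒜
  set ℰ := 𝒜.filter (fun p => ∀ m ∈ prfrMinSp (Fs : Set (MvPolynomial ι ℂ)) r, m ∈ p) with hℰ
  have hℰsub : ℰ ⊆ 𝒜 := Finset.filter_subset _ _
  refine ⟨Fs, g, ℰ, hℰsub, hFsW, ?_, ?_, ?_, ?_⟩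
  · have h1 := prfr_span_deg (Fs : Set (MvPolynomial ι ℂ)) r D (fun f hf => (hFsW f hf).1) g hgW
    calc g.totalDegree ≤ r * D := h1
      _ ≤ (C₀ + (3 * n + 1)) * D := Nat.mul_le_mul_right _ (by omega)
  · have hcount := prfr_count s G L k 𝒜 hfam t htl ht D ℰ hℰsub (by
      intro p hp ζ hζ
      obtain ⟨v, hv0, hv1, hv2⟩ := prfr_vec (r := r) (by omega) p t (Fs : Set (MvPolynomial ι ℂ))
        (Finset.mem_filter.mp hp).2 ζ hζ
      refine ⟨v, hv0, hv1, fun f hfD hfp => ?_⟩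
      apply prfr_dAt_span (Fs : Set (MvPolynomial ι ℂ)) ζ v hv2
      rw [hFs, prfr_mem_W]
      exact ⟨hfD, hfp⟩) (le_trans hq hD1)
    have h4 := hnum k hk (prfrDeg ℰ) (prfrDeg 𝒜) Λ (3 * (n * Λ) + 1) (3 * (n * Λ) + 1) D hq hq hD0
      (by
        have : (prfrDeg 𝒜 + prfrDeg ℰ) * (D - (3 * (n * Λ) + 1) + k).choose k =
            prfrDeg ℰ * (D - (3 * (n * Λ) + 1) + k).choose k +
              prfrDeg 𝒜 * (D - (3 * (n * Λ) + 1) + k).choose k := by ring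
        rw [← this]
        exact hcount)
    calc prfrDeg ℰ * D ≤ C₀ * prfrDeg 𝒜 * Λ := h4
      _ ≤ (C₀ + (3 * n + 1)) * prfrDeg 𝒜 * Λ := by
        apply Nat.mul_le_mul_right
        apply Nat.mul_le_mul_right
        omega
  · intro p hp hpℰ
    apply hg p hp
    by_contra hcon
    apply hpℰ
    rw [hℰ, Finset.mem_filter]
    refine ⟨hp, fun m hm => ?_⟩
    by_contra hmp
    exact hcon ⟨m, hm, hmp⟩
  · intro x hx
    exact prfr_span_rank (Fs : Set (MvPolynomial ι ℂ)) r g hgW x hx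

/-- REG (poly:regularity, algebraic part). -/
theorem prf_reg (n : ℕ) : ∃ Cn : ℕ, 0 < Cn ∧
    ∀ {ν : Type} (s : Finset ν) (G : ν → Set (PrfPol n)) (L : ν → ℕ) (k : ℕ)
      (𝒜 : Finset (Ideal (PrfPol n))), PrfFam s G L k 𝒜 →
      ∀ D : ℕ, Cn * (∑ a ∈ s, L a) ≤ D →
          ∃ (F : Finset (PrfPol n)) (g : PrfPol n) (ℰ : Finset (Ideal (PrfPol n))), ℰ ⊆ 𝒜 ∧
            (∀ f ∈ F, f.totalDegree ≤ D ∧ ∀ p ∈ 𝒜, f ∈ p) ∧ g.totalDegree ≤ Cn * D ∧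
            prfDeg ℰ * D ≤ Cn * prfDeg 𝒜 * (∑ a ∈ s, L a) ∧
            (∀ p ∈ 𝒜, p ∉ ℰ → g ∉ p) ∧
            ∀ x, eval x g ≠ 0 → n - k ≤ prfJacRk (F : Set (PrfPol n)) x := by
  obtain ⟨Cn, hCn, H⟩ := prfr_reg (Fin n)
  refine ⟨Cn, hCn, ?_⟩
  intro ν s G L k 𝒜 hfam D hD
  obtain ⟨F, g, ℰ, h1, h2, h3, h4, h5, h6⟩ := H s G L k 𝒜 ⟨hfam.one_le, hfam.deg, hfam.dim, hfam.comp⟩
    D hD
  refine ⟨F, g, ℰ, h1, h2, h3, h4, h5, fun x hx => ?_⟩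
  have := h6 x hx
  rw [Fintype.card_fin] at this
  exact this

end Claimed.Agent.R273
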