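import Claimed.Agent.R273.PrfRegC

/-!
# Row 273, S3b: `poly:regularity` in the language of POLY-A (sets, `IsCompOf`, ONE system), any finite index type.  Architect helper161.
Consumers: `SpRegLabStmt d` (`ι = Fin d ⊕ Fin d`, helper37), `CnReg ι` (helper69).  NO transport along `ι ≃ Fin n` is needed any more.

LEAF PRFR-var (`prfr_tan_le`, `prfr_reg_var`).
 * `prfr_tan_le`: `ph_tanSp_finrank (Ideal.span F) x`: `finrank (tanSp ..) + finrank (span (grad '' (span F : Set _))) = card ι`; `grad '' F ⊆ grad '' (Ideal.span F)` (`Ideal.subset_span`), `Submodule.span_mono`, `Submodule.finrank_mono`; `aeval x = eval x` over `ℂ` (`MvPolynomial.aeval_eq_eval`/`coe_aeval_eq_eval`), so the second summand is `≥ prfrRk F x`; `omega`.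
 * `prfr_reg_var`: `Cn :=` the constant of `prfr_reg ι`.  Choose `pr V ∈ (span G).minimalPrimes` with `V = zeroLocus ℂ (pr V)` for `V ∈ 𝒱` (`IsCompOf`; `Classical.choose`, junk outside `𝒱`); `pr` is injective on `𝒱`; `𝒜 := 𝒱.image pr`;
   `PrfrFam {()} (fun _ => G) (fun _ => L) m 𝒜`; `∑ a ∈ {()}, L = L`; `prfrDeg 𝒜 = ∑ V ∈ 𝒱, vdeg V` (`Finset.sum_image`).   `prfr_reg` gives `F, g, ℰ'`; `ℰ := 𝒱.filter (pr · ∈ ℰ')`; `ℰ' = ℰ.image pr`, so `prfrDeg ℰ' = ∑ V ∈ ℰ, vdeg V`.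
   `f ∈ pr V` ⇒ `f = 0` on `V` (`mem_zeroLocus_iff`);   `g ∉ pr V` ⇒ `∃ x ∈ V, g x ≠ 0` (`prfp_nonvan`, `pr V` prime).
-/

set_option autoImplicit false

namespace Claimed.Agent.R273

open MvPolynomial Module

variable {ι : Type*} [Fintype ι]

/-- the tangent space of the system is small where the Jacobian rank is large -/
theorem prfr_tan_le (F : Set (MvPolynomial ι ℂ)) (x : ι → ℂ) (m : ℕ)
    (h : Fintype.card ι - m ≤ prfrRk F x) : finrank ℂ (tanSp (Ideal.span F) x) ≤ m := by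
  have h1 := ph_tanSp_finrank (Ideal.span F) x
  have h2 : prfrRk F x ≤ finrank ℂ (Submodule.span ℂ
      ((fun f : MvPolynomial ι ℂ => fun i => aeval x (pderiv i f)) ''
        (Ideal.span F : Set (MvPolynomial ι ℂ)))) := by
    unfold prfrRk
    apply Submodule.finrank_mono
    apply Submodule.span_mono
    rintro _ ⟨f, hf, rfl⟩
    exact ⟨f, Ideal.subset_span hf, rfl⟩
  omega

/-- REG in the language of POLY-A. -/
theorem prfr_reg_var (ι : Type*) [Fintype ι] : ∃ Cn : ℕ, 0 < Cn ∧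
    ∀ (G : Set (MvPolynomial ι ℂ)) (L : ℕ), 1 ≤ L → (∀ g ∈ G, g.totalDegree ≤ L) →
    ∀ (m : ℕ) (𝒱 : Finset (Set (ι → ℂ))), (∀ V ∈ 𝒱, IsCompOf V G ∧ vdim V = m) →
    ∀ D : ℕ, Cn * L ≤ D →
      ∃ (ℱ : Finset (MvPolynomial ι ℂ)) (g : MvPolynomial ι ℂ) (ℰ : Finset (Set (ι → ℂ))), ℰ ⊆ 𝒱 ∧
        (∀ f ∈ ℱ, f.totalDegree ≤ D ∧ ∀ V ∈ 𝒱, ∀ x ∈ V, eval x f = 0) ∧ g.totalDegree ≤ Cn * D ∧
        (∑ V ∈ ℰ, vdeg V) * D ≤ Cn * (∑ V ∈ 𝒱, vdeg V) * L ∧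
        (∀ V ∈ 𝒱, V ∉ ℰ → ∃ x ∈ V, eval x g ≠ 0) ∧
        ∀ x, eval x g ≠ 0 → Fintype.card ι - m ≤ prfrRk (ℱ : Set (MvPolynomial ι ℂ)) x := by
  classical
  obtain ⟨Cn, hCn, H⟩ := prfr_reg ι
  refine ⟨Cn, hCn, ?_⟩
  intro G L hL hG m 𝒱 h𝒱 D hD
  have hex : ∀ V : Set (ι → ℂ), ∃ p : Ideal (MvPolynomial ι ℂ), V ∈ 𝒱 →
      (p ∈ (Ideal.span G).minimalPrimes ∧ V = zeroLocus ℂ p) := by
    intro V
    by_cases hV : V ∈ 𝒱
    · obtain ⟨p, hp, hVp⟩ := (h𝒱 V hV).1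
      exact ⟨p, fun _ => ⟨hp, hVp⟩⟩
    · exact ⟨⊥, fun h => absurd h hV⟩
  choose pr hpr using hex
  have hinj : ∀ V ∈ 𝒱, ∀ V' ∈ 𝒱, pr V = pr V' → V = V' := by
    intro V hV V' hV' h
    rw [(hpr V hV).2, (hpr V' hV').2, h]
  have hfam : PrfrFam ({()} : Finset Unit) (fun _ => G) (fun _ => L) m (𝒱.image pr) := by
    refine ⟨fun _ _ => hL, fun _ _ => hG, ?_, ?_⟩
    · intro p hp
      obtain ⟨V, hV, rfl⟩ := Finset.mem_image.mp hp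
      rw [← (hpr V hV).2]
      exact (h𝒱 V hV).2
    · intro p hp
      obtain ⟨V, hV, rfl⟩ := Finset.mem_image.mp hp
      exact ⟨(), Finset.mem_singleton_self _, (hpr V hV).1⟩
  have hsum : ∑ _a ∈ ({()} : Finset Unit), L = L := by simp
  obtain ⟨F, g, ℰ', h1, h2, h3, h4, h5, h6⟩ := H {()} (fun _ => G) (fun _ => L) m (𝒱.image pr)
    hfam D (by rw [hsum]; exact hD)
  rw [hsum] at h4
  have hℰ' : ℰ' = (𝒱.filter (fun V => pr V ∈ ℰ')).image pr := by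
    ext p
    constructor
    · intro hp
      obtain ⟨V, hV, rfl⟩ := Finset.mem_image.mp (h1 hp)
      exact Finset.mem_image.mpr ⟨V, Finset.mem_filter.mpr ⟨hV, hp⟩, rfl⟩
    · intro hp
      obtain ⟨V, hV, rfl⟩ := Finset.mem_image.mp hp
      exact (Finset.mem_filter.mp hV).2
  have hdeg : ∀ 𝒮 ⊆ 𝒱, prfrDeg (𝒮.image pr) = ∑ V ∈ 𝒮, vdeg V := by
    intro 𝒮 h𝒮
    unfold prfrDeg
    rw [Finset.sum_image (fun V hV V' hV' h => hinj V (h𝒮 hV) V' (h𝒮 hV') h)]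
    refine Finset.sum_congr rfl fun V hV => ?_
    rw [← (hpr V (h𝒮 hV)).2]
  refine ⟨F, g, 𝒱.filter (fun V => pr V ∈ ℰ'), Finset.filter_subset _ _, ?_, h3, ?_, ?_, h6⟩
  · intro f hf
    refine ⟨(h2 f hf).1, fun V hV x hx => ?_⟩
    rw [(hpr V hV).2] at hx
    exact (mem_zeroLocus_iff.mp hx) f ((h2 f hf).2 (pr V) (Finset.mem_image_of_mem _ hV))
  · rw [← hdeg _ (Finset.filter_subset _ _), ← hℰ', ← hdeg 𝒱 subset_rfl]
    exact h4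
  · intro V hV hVℰ
    have hp : g ∉ pr V := h5 (pr V) (Finset.mem_image_of_mem _ hV)
      (fun h => hVℰ (Finset.mem_filter.mpr ⟨hV, h⟩))
    obtain ⟨x, hx, hne⟩ := prfp_nonvan (pr V) (hpr V hV).1.1.1 g hp
    exact ⟨x, by rw [(hpr V hV).2]; exact hx, hne⟩

/-- the same with the tangent space of the system (`scoT`) -/
theorem prfr_reg_tan (ι : Type*) [Fintype ι] : ∃ Cn : ℕ, 0 < Cn ∧
    ∀ (G : Set (MvPolynomial ι ℂ)) (L : ℕ), 1 ≤ L → (∀ g ∈ G, g.totalDegree ≤ L) →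
    ∀ (m : ℕ) (𝒱 : Finset (Set (ι → ℂ))), (∀ V ∈ 𝒱, IsCompOf V G ∧ vdim V = m) →
    ∀ D : ℕ, Cn * L ≤ D →
      ∃ (ℱ : Finset (MvPolynomial ι ℂ)) (g : MvPolynomial ι ℂ) (ℰ : Finset (Set (ι → ℂ))), ℰ ⊆ 𝒱 ∧
        (∀ f ∈ ℱ, f.totalDegree ≤ D ∧ ∀ V ∈ 𝒱, ∀ x ∈ V, eval x f = 0) ∧ g.totalDegree ≤ Cn * D ∧
        (∑ V ∈ ℰ, vdeg V) * D ≤ Cn * (∑ V ∈ 𝒱, vdeg V) * L ∧
        (∀ V ∈ 𝒱, V ∉ ℰ → ∃ x ∈ V, eval x g ≠ 0) ∧
        ∀ x, eval x g ≠ 0 →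
          finrank ℂ (tanSp (Ideal.span (ℱ : Set (MvPolynomial ι ℂ))) x) ≤ m := by
  obtain ⟨Cn, hCn, H⟩ := prfr_reg_var ι
  refine ⟨Cn, hCn, fun G L hL hG m 𝒱 h𝒱 D hD => ?_⟩
  obtain ⟨ℱ, g, ℰ, h1, h2, h3, h4, h5, h6⟩ := H G L hL hG m 𝒱 h𝒱 D hD
  exact ⟨ℱ, g, ℰ, h1, h2, h3, h4, h5, fun x hx => prfr_tan_le _ x m (h6 x hx)⟩

end Claimed.Agent.R273
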