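import Claimed.Agent.R273.PrfTreeDefs
import Claimed.Agent.R273.PhInt

/-!
# Row 273, S5: `prf_partition`, THE ALGEBRAIC INPUTS (architect helper60).  Prefix `prft`.

Black boxes (statements on main, proofs elsewhere): `prf_pure` (PrfBudget), `prf_point` (PrfFacts), `ph_separator`, `ph_union_sep`, `ph_isoZero_of_geom`, `ph_isoZero_of_primes`,
`ph_avoid` (PhInt, all proved).  Paper free.

LEAF PRFT-ALG-A (`prft_sys_update`, `prft_sys_congr`, `prft_proper_zero`, `prft_carr_top`, `prft_not_proper_top`, `prft_iso_of_path`).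
 * `prft_sys_*`: `prfSys f j = f '' Set.Iio j`, `Set.image_congr`.
 * `prft_proper_zero`: `prfSys f 0 = ∅`, `Ideal.span ∅ = ⊥`, minimal primes of `⊥` in a domain: `p ∈ minimalPrimes ⊥` and `⊥` prime, `⊥ ≤ p` ⇒ `p ≤ ⊥` (minimality), so `g ∈ p → g = 0`.
 * `prft_carr_top`: after `n` proper cuts at `x`: (i) there IS a local carrier (`span (sys n) ≤ ker (eval x)`, which is prime: `Ideal.exists_minimalPrimes_le`; `x ∈ zeroLocus p` because `p ≤ ker (eval x)`);
   (ii) every local carrier `p` has `vdim = n - n = 0` (`prf_pure`), so `zeroLocus p = {x}` (`prf_point`, `p` is prime: `Ideal.minimalPrimes_isPrime`) and every polynomial vanishing at `x` lies in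
   `vanishingIdeal (zeroLocus p) = p.radical = p` (`MvPolynomial.vanishingIdeal_zeroLocus_eq_radical`, `Ideal.IsPrime.radical`).
 * `prft_not_proper_top`, `prft_iso_of_path` (`ph_isoZero_of_primes`; `X i - C (x i)` vanishes at `x`): immediate from `prft_carr_top`.
LEAF PRFT-ALG-B (`prft_iso_of_sep`, `prft_iso_union`, `prft_prfPt_injective`, `prft_iso_init`).
 * `prft_iso_of_sep`: `E := {1 - ∑ z ∈ S, σ z} ∪ {(X j - C (z j)) * σ z}` (copy the proof of `ph_exact_iso`): the zero set of `E` is exactly `S`; `IsoZero E z` by `ph_isoZero_of_geom` with `u := σ z`.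
 * `prft_iso_union`: `ph_union_sep` with `ν := Fin l.length`, `s := univ`, `L a := L`, `S a := l.get a ∩ U` (or `l.get a`), then `prft_iso_of_sep` for `U` with `D := n * (l.length * L)`
   (`∑ a : Fin l.length, L = l.length * L`).
 * `prft_iso_init`: separators `σ_p := ∏ ρ ∈ distinctDistances P, C (-(ρ^2))⁻¹ * (∑ i, (X i - C (p i))^2 - C (ρ^2))` of degree `≤ 2 |Δ|`; at `q = p`: every factor is `1` (`ρ ≠ 0` because `ρ = dist a b`, `a ≠ b`);
   at `q ∈ P`, `q ≠ p`: the factor `ρ = dist q p` vanishes (`EuclideanSpace.dist_eq`, `Real.sq_sqrt`; push the real identity `∑ (q i - p i)^2 = ρ^2` to `ℂ`).  Then `prft_iso_of_sep` with `D = 2 |Δ|`, `D + 1 ≤ 2 dM P + 1`.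
LEAF PRFT-ALG-C (`prft_finish`): FINISHING A PATH.  `W := Submodule.span ℂ Giso`.  The set `𝒜` of all local carriers `p ∈ prfCarr (prfSys f j) x`, `x ∈ S`, is finite (subset of the minimal primes:
   `Ideal.finite_minimalPrimes_of_isNoetherianRing`).  For `p ∈ 𝒜` (through `x`): `W ⊄ p`.  Else `span Giso ≤ p`; `IsoZero` gives `u (X i - x_i)^N ∈ p`, `u ∉ p` (`eval x u ≠ 0`, `x ∈ zeroLocus p`), `p` prime, so all `X i - C (x i) ∈ p`;
   hence `zeroLocus p ⊆ {x}`, `hA (zeroLocus p) D ≤ 1` (`rk_hA_mono_set`, `rk_hA_le_ncard`), so `vdim (zeroLocus p) = 0` (`Nat.sInf_le`/`Nat.sInf_mem`: `0` belongs to the set with `C = 1`), but `vdim = n - j ≥ 1` by `prf_pure`.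
   `ph_avoid` gives `g ∈ W` outside all `p ∈ 𝒜`; `g` has degree `≤ L` (`W ≤ restrictTotalDegree`, as in `ph_separator`) and vanishes at the points of `S` (`W ≤ ker (eval x)`).
-/

set_option autoImplicit false

namespace Claimed.Agent.R273

open MvPolynomial

variable {n : ℕ}

/-! ### LEAF PRFT-ALG-A -/

theorem prft_sys_congr {f f' : ℕ → PrfPol n} {j : ℕ} (h : ∀ i < j, f i = f' i) :
    prfSys f j = prfSys f' j := by
  unfold prfSys
  exact Set.image_congr fun i hi => h i hi

theorem prft_sys_update (f : ℕ → PrfPol n) (j i : ℕ) (hij : i ≤ j) (g : PrfPol n) :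
    prfSys (Function.update f j g) i = prfSys f i := by
  refine prft_sys_congr fun k hk => ?_
  exact Function.update_of_ne (by omega) _ _

/-- a nonzero polynomial is a proper cut of the empty system at each of its zeros -/
theorem prft_proper_zero (f : ℕ → PrfPol n) (g : PrfPol n) (hg : g ≠ 0) (x : Fin n → ℂ)
    (hx : eval x g = 0) : PrfProperAt (prfSys f 0) g x := by
  refine ⟨hx, ?_⟩
  rintro p ⟨hp, -⟩ hgp
  have h0 : prfSys f 0 = ∅ := by unfold prfSys; simp
  rw [h0, Ideal.span_empty] at hp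
  have hle : p ≤ ⊥ := hp.2 ⟨Ideal.isPrime_bot, le_rfl⟩ bot_le
  exact hg ((Ideal.mem_bot).1 (hle hgp))

/-- after `n` proper cuts at `x` there is a local carrier, and every local carrier is `𝔪_x` -/
theorem prft_carr_top (f : ℕ → PrfPol n) (x : Fin n → ℂ)
    (h : ∀ i < n, PrfProperAt (prfSys f i) (f i) x) :
    (prfCarr (prfSys f n) x).Nonempty ∧
      ∀ p ∈ prfCarr (prfSys f n) x, ∀ g : PrfPol n, eval x g = 0 → g ∈ p := by
  have hker : Ideal.span (prfSys f n) ≤ RingHom.ker (eval x : PrfPol n →+* ℂ) := by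
    rw [Ideal.span_le]
    rintro _ ⟨i, hi, rfl⟩
    exact (h i hi).1
  have hprime : (RingHom.ker (eval x : PrfPol n →+* ℂ)).IsPrime := RingHom.ker_isPrime _
  constructor
  · obtain ⟨p, hp, hle⟩ := Ideal.exists_minimalPrimes_le hker
    refine ⟨p, hp, ?_⟩
    rw [mem_zeroLocus_iff]
    intro g hg
    rw [aeval_eq_eval]
    exact hle hg
  · rintro p hp g hg
    have hpp : p.IsPrime := hp.1.1.1
    have hdim := (prf_pure f n x h).2 p hp
    rw [Nat.sub_self] at hdim
    obtain ⟨⟨y, hy⟩, -⟩ := prf_point p hpp hdim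
    have hxy : x = y := by
      have := hp.2
      rw [hy] at this
      exact this
    have hmem : g ∈ vanishingIdeal ℂ (zeroLocus ℂ p) := by
      rw [mem_vanishingIdeal_iff]
      intro w hw
      rw [hy] at hw
      have : w = x := by rw [hxy]; exact hw
      rw [this, aeval_eq_eval]
      exact hg
    rw [vanishingIdeal_zeroLocus_eq_radical, hpp.radical] at hmem
    exact hmem

/-- no proper cut after `n` proper cuts -/
theorem prft_not_proper_top (f : ℕ → PrfPol n) (x : Fin n → ℂ)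
    (h : ∀ i < n, PrfProperAt (prfSys f i) (f i) x) (g : PrfPol n) :
    ¬ PrfProperAt (prfSys f n) g x := by
  intro hg
  obtain ⟨⟨p, hp⟩, hall⟩ := prft_carr_top f x h
  exact hg.2 p hp (hall p hp g hg.1)

/-- a complete proper path isolates the point -/
theorem prft_iso_of_path (f : ℕ → PrfPol n) (x : Fin n → ℂ)
    (h : ∀ i < n, PrfProperAt (prfSys f i) (f i) x) : IsoZero (prfSys f n) x := by
  obtain ⟨-, hall⟩ := prft_carr_top f x h
  refine ph_isoZero_of_primes _ x ?_ ?_
  · rintro _ ⟨i, hi, rfl⟩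
    exact (h i hi).1
  · intro q hq hle i
    refine hall q ⟨hq, ?_⟩ _ (by simp)
    rw [mem_zeroLocus_iff]
    intro g hg
    rw [aeval_eq_eval]
    exact hle hg

/-! ### LEAF PRFT-ALG-B -/

/-- separators give an exact isolating system -/
theorem prft_iso_of_sep (S : Finset (Fin n → ℂ)) (D : ℕ)
    (h : ∀ z ∈ S, ∃ σ : PrfPol n, σ.totalDegree ≤ D ∧ eval z σ = 1 ∧
      ∀ y ∈ S, y ≠ z → eval y σ = 0) :
    ∃ E : Set (PrfPol n), (∀ e ∈ E, e.totalDegree ≤ D + 1) ∧ ∀ z ∈ S, IsoZero E z := by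
  classical
  have hex : ∀ z : Fin n → ℂ, ∃ σ : PrfPol n, z ∈ S →
      (σ.totalDegree ≤ D ∧ eval z σ = 1 ∧ ∀ y ∈ S, y ≠ z → eval y σ = 0) := by
    intro z
    by_cases hz : z ∈ S
    · obtain ⟨σ, hσ⟩ := h z hz
      exact ⟨σ, fun _ => hσ⟩
    · exact ⟨0, fun h => absurd h hz⟩
  choose s hs using hex
  refine ⟨{1 - ∑ z ∈ S, s z} ∪ {e | ∃ z ∈ S, ∃ j, e = (X j - C (z j)) * s z}, ?_, ?_⟩
  · rintro e (rfl | ⟨z, hz, j, rfl⟩)
    · refine (totalDegree_sub _ _).trans (max_le (by simp) ?_)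
      refine (totalDegree_finsetSum_le fun z hz => (hs z hz).1).trans (Nat.le_succ _)
    · refine (totalDegree_mul _ _).trans ?_
      have h1 : (X j - C (z j) : PrfPol n).totalDegree ≤ 1 :=
        (totalDegree_sub_C_le _ _).trans (by rw [totalDegree_X])
      have h2 := (hs z hz).1
      omega
  · intro x hx
    refine ph_isoZero_of_geom _ x ?_ (s x) (by rw [(hs x hx).2.1]; exact one_ne_zero) ?_
    · rintro e (rfl | ⟨z, hz, j, rfl⟩)
      · rw [map_sub, map_one, map_sum, Finset.sum_eq_single x]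
        · rw [(hs x hx).2.1, sub_self]
        · intro z hz hzx
          exact (hs z hz).2.2 x hx (Ne.symm hzx)
        · intro h; exact absurd hx h
      · rw [map_mul]
        by_cases hxz : x = z
        · subst hxz; simp
        · rw [(hs z hz).2.2 x hx hxz, mul_zero]
    · intro y hy hyx
      by_contra hne
      apply hyx
      funext j
      have h2 : eval y ((X j - C (x j)) * s x) = 0 := hy _ (Or.inr ⟨x, hx, j, rfl⟩)
      rw [map_mul, mul_eq_zero] at h2
      rcases h2 with h2 | h2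
      · simpa [sub_eq_zero] using h2
      · exact absurd h2 hne

/-- a union of isolated batches is isolated; the degrees add -/
theorem prft_iso_union (l : List (Finset (Fin n → ℂ))) (L : ℕ) (hL : 1 ≤ L)
    (h : ∀ C ∈ l, ∃ G : Set (PrfPol n), (∀ g ∈ G, g.totalDegree ≤ L) ∧ ∀ x ∈ C, IsoZero G x)
    (U : Finset (Fin n → ℂ)) (hU : ∀ x ∈ U, ∃ C ∈ l, x ∈ C) :
    ∃ E : Set (PrfPol n), (∀ e ∈ E, e.totalDegree ≤ n * (l.length * L) + 1) ∧
      ∀ z ∈ U, IsoZero E z := by
  classical
  have hex : ∀ a : Fin l.length, ∃ G : Set (PrfPol n), (∀ g ∈ G, g.totalDegree ≤ L) ∧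
      ∀ x ∈ l.get a, IsoZero G x := fun a => h _ (List.get_mem l a)
  choose G hG1 hG2 using hex
  refine prft_iso_of_sep U (n * (l.length * L)) ?_
  intro z hz
  obtain ⟨C0, hC0, hzC⟩ := hU z hz
  obtain ⟨a, rfl⟩ := List.mem_iff_get.1 hC0
  obtain ⟨σ, h1, h2, h3⟩ := ph_union_sep (Finset.univ : Finset (Fin l.length)) G (fun _ => L)
    (fun _ _ => hL) (fun a _ => hG1 a) (fun a => l.get a) (fun a _ => hG2 a) z
    ⟨a, Finset.mem_univ _, hzC⟩
  refine ⟨σ, ?_, h2, ?_⟩
  · simpa using h1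
  · intro y hy hyz
    obtain ⟨C1, hC1, hyC⟩ := hU y hy
    obtain ⟨b, rfl⟩ := List.mem_iff_get.1 hC1
    exact h3 y ⟨b, Finset.mem_univ _, hyC⟩ hyz

theorem prft_prfPt_injective (d : ℕ) : Function.Injective (prfPt (d := d)) := by
  intro q q' h
  ext i
  have h1 := congrFun h i
  simp only [prfPt] at h1
  exact_mod_cast h1

/-- poly:separators: the sample is isolated by equations of degree `≤ 2 M + 1` -/
theorem prft_iso_init {d : ℕ} (P : Finset (Pt d)) :
    ∃ G : Set (PrfPol d), (∀ g ∈ G, g.totalDegree ≤ 2 * dM P + 1) ∧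
      ∀ z ∈ P.image prfPt, IsoZero G z := by
  classical
  obtain ⟨E, hE1, hE2⟩ := prft_iso_of_sep (P.image prfPt)
    (2 * (Claims.C0444.distinctDistances P).card) (by
    intro z hz
    obtain ⟨p, hp, rfl⟩ := Finset.mem_image.1 hz
    refine ⟨∏ ρ ∈ Claims.C0444.distinctDistances P, (C (-((ρ : ℂ) ^ 2))⁻¹ *
      (∑ i, (X i - C ((p i : ℝ) : ℂ)) ^ 2 - C ((ρ : ℂ) ^ 2))), ?_, ?_, ?_⟩
    · refine (totalDegree_finsetProd _ _).trans ?_
      refine (Finset.sum_le_card_nsmul _ _ 2 ?_).trans (by simp [mul_comm])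
      intro ρ _
      refine (totalDegree_mul _ _).trans ?_
      rw [totalDegree_C, zero_add]
      refine (totalDegree_sub_C_le _ _).trans ?_
      refine totalDegree_finsetSum_le fun i _ => ?_
      refine (totalDegree_pow _ _).trans ?_
      have : (X i - C ((p i : ℝ) : ℂ) : PrfPol d).totalDegree ≤ 1 :=
        (totalDegree_sub_C_le _ _).trans (by rw [totalDegree_X])
      omega
    · rw [map_prod]
      refine Finset.prod_eq_one fun ρ hρ => ?_
      have hρ0 : (ρ : ℂ) ≠ 0 := by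
        unfold Claims.C0444.distinctDistances at hρ
        obtain ⟨x, hx, rfl⟩ := Finset.mem_image.1 hρ
        have := (Finset.mem_filter.1 hx).2
        exact_mod_cast (dist_ne_zero.2 this)
      simp only [map_mul, map_sub, map_sum, map_pow, eval_C, eval_X, prfPt, sub_self]
      simp only [ne_eq, OfNat.ofNat_ne_zero, not_false_eq_true, zero_pow, Finset.sum_const_zero,
        zero_sub]
      exact inv_mul_cancel₀ (neg_ne_zero.2 (pow_ne_zero 2 hρ0))
    · intro y hy hyz
      obtain ⟨q, hq, rfl⟩ := Finset.mem_image.1 hy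
      have hqp : q ≠ p := fun h => hyz (by rw [h])
      rw [map_prod]
      refine Finset.prod_eq_zero (i := dist q p) ?_ ?_
      · unfold Claims.C0444.distinctDistances
        exact Finset.mem_image.2 ⟨(q, p), Finset.mem_filter.2 ⟨Finset.mem_product.2 ⟨hq, hp⟩, hqp⟩, rfl⟩
      · have hreal : ∑ i, (q i - p i) ^ 2 = (dist q p) ^ 2 := by
          rw [EuclideanSpace.dist_eq, Real.sq_sqrt (Finset.sum_nonneg fun _ _ => sq_nonneg _)]
          refine Finset.sum_congr rfl fun i _ => ?_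
          rw [Real.dist_eq, sq_abs]
        have hc : ∑ i, (((q i : ℝ) : ℂ) - ((p i : ℝ) : ℂ)) ^ 2 = ((dist q p : ℝ) : ℂ) ^ 2 := by
          exact_mod_cast congrArg (fun t : ℝ => (t : ℂ)) hreal
        simp only [map_mul, map_sub, map_sum, map_pow, eval_C, eval_X, prfPt]
        rw [hc, sub_self, mul_zero])
  exact ⟨E, fun e he => (hE1 e he).trans (by unfold dM; omega), hE2⟩

/-! ### LEAF PRFT-ALG-C -/

/-- FINISHING A PATH: a generic combination of the isolating equations is a proper cut at all points -/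
theorem prft_finish (Giso : Set (PrfPol n)) (L : ℕ) (hG : ∀ g ∈ Giso, g.totalDegree ≤ L)
    (S : Finset (Fin n → ℂ)) (hS : ∀ x ∈ S, IsoZero Giso x) (f : ℕ → PrfPol n) (j : ℕ) (hj : j < n)
    (h : ∀ x ∈ S, ∀ i < j, PrfProperAt (prfSys f i) (f i) x) :
    ∃ g : PrfPol n, g.totalDegree ≤ L ∧ ∀ x ∈ S, PrfProperAt (prfSys f j) g x := by
  classical
  set W : Submodule ℂ (PrfPol n) := Submodule.span ℂ Giso with hW
  have hfin : ((Ideal.span (prfSys f j)).minimalPrimes).Finite :=
    Ideal.finite_minimalPrimes_of_isNoetherianRing _ _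
  set 𝒜 : Finset (Ideal (PrfPol n)) :=
    hfin.toFinset.filter fun p => ∃ x ∈ S, x ∈ zeroLocus ℂ p with h𝒜
  obtain ⟨g, hgW, hg⟩ := ph_avoid W 𝒜 (by
    intro p hp hsub
    rw [h𝒜, Finset.mem_filter, Set.Finite.mem_toFinset] at hp
    obtain ⟨hmin, x, hx, hxp⟩ := hp
    have hpp : p.IsPrime := hmin.1.1
    have hspan : Ideal.span Giso ≤ p :=
      Ideal.span_le.mpr fun g hg => hsub (Submodule.subset_span hg)
    obtain ⟨-, u, N, hu, hN⟩ := hS x hx
    have hX : ∀ i, X i - C (x i) ∈ p := by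
      intro i
      rcases hpp.mem_or_mem (hspan (hN i)) with h3 | h3
      · exfalso
        apply hu
        have := (mem_zeroLocus_iff.1 hxp) u h3
        rwa [aeval_eq_eval] at this
      · exact hpp.mem_of_pow_mem _ h3
    have hzl : zeroLocus ℂ p ⊆ {x} := by
      intro y hy
      rw [Set.mem_singleton_iff]
      funext i
      have := (mem_zeroLocus_iff.1 hy) _ (hX i)
      rw [aeval_eq_eval] at this
      simpa [sub_eq_zero] using this
    have hdim0 : vdim (zeroLocus ℂ p) = 0 := by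
      unfold vdim
      refine Nat.le_zero.1 (Nat.sInf_le ⟨1, fun D => ?_⟩)
      refine (rk_hA_mono_set D hzl).trans ((rk_hA_le_ncard _ D (Set.finite_singleton x)).trans ?_)
      simp
    have hdim := (prf_pure f j x (h x hx)).2 p ⟨hmin, hxp⟩
    omega)
  refine ⟨g, ?_, ?_⟩
  · have : W ≤ restrictTotalDegree (Fin n) ℂ L := by
      rw [hW, Submodule.span_le]
      intro g hg
      exact (mem_restrictTotalDegree (Fin n) L g).mpr (hG g hg)
    exact (mem_restrictTotalDegree (Fin n) L _).mp (this hgW)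
  · intro x hx
    refine ⟨?_, ?_⟩
    · have : W ≤ LinearMap.ker (aeval x : PrfPol n →ₐ[ℂ] ℂ).toLinearMap := by
        rw [hW, Submodule.span_le]
        intro g hg
        simpa [coe_aeval_eq_eval] using (hS x hx).1 g hg
      simpa [coe_aeval_eq_eval] using this hgW
    · rintro p ⟨hmin, hxp⟩
      refine hg p ?_
      rw [h𝒜, Finset.mem_filter, Set.Finite.mem_toFinset]
      exact ⟨hmin, x, hx, hxp⟩

end Claimed.Agent.R273
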