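import Claimed.Agent.R273.PrfTreeDefs

/-!
# Row 273, S5: `prf_partition`, THE NUMERICAL INPUTS (architect helper60).  Prefix `prft`.  Mathlib + PrfTreeDefs/PrfDefs only; paper free.

Notation: `G = prftG n s = ⌊log s / (10 n log 10)⌋₊ + 3`, `μ = 3/G`, `top = 1 + μ`, `K = n G`, `a_r = 4 log s * 10^(K-1-r)`, `loss = 10^K * 4 |log s|`.

LEAF PRFT-NUM-A (the grid and the thresholds; exact algebra, no asymptotics): `prft_G_pos`, `prft_mu_pos`, `prft_mu_le_one`, `prft_time_zero`, `prft_time_top`, `prft_time_strictMono`, `prft_mem_grid`, `prft_grid`,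
  `prft_par_good`, `prft_tailA_le`, `prft_tailD_le`.
 * step `:= (top+1)/G = (2+μ)/G ≤ 3/G = μ` because `μ ≤ 1` (`G ≥ 3`).  `mesh`: `k := ⌈(b+1)/step⌉₊` (`Nat.le_ceil`, `Nat.ceil_lt_add_one`), `k ≤ G` because `(b+1)/step ≤ G`.  `pred`: `t = time k`, `k ≥ 1`, `t' = time (k-1)`.
 * geometric sums: for `i < K`: `∑ r ∈ Ico (i+1) K, 10^(K-1-r) = (10^(K-1-i) - 1)/9` (induction on `K - 1 - i`, or `Finset.sum_Ico_...` reflection + `geom_sum_eq`); hence `tail` (`≤ a_i/9`) and `tailA 0 ≤ 4 log s * 10^K / 9 ≤ loss`.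
 * `kap`: `a_i ≥ 4 log s > 0`, `7*4/18 ≥ 1`.   `tailD 0 ≤ K exp (-(4 log s)/2)`: every term `≤ exp (-(4 log s)/2)`, `Finset.sum_le_card_nsmul`.
LEAF PRFT-NUM-B (limits): `prft_tendsto_kap`, `prft_tendsto_mu`, `prft_tendsto_om`, `prft_pos`, `prft_pow_le`, `prft_loss_le`, `prft_tendsto_rho`.
 * `prft_pow_le`: `10^(n G) = 10^(3n) * exp (n ⌊x⌋ log 10)`, `⌊x⌋ ≤ x = log s/(10 n log 10)` (`Nat.floor_le`, `log s ≥ 0`), so `≤ 10^(3n) exp (log s / 10) = 10^(3n) s^(1/10)`.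
 * `prft_loss_le`: `log s ≤ s^(1/10)/(1/10)` (`Real.log_le_rpow_div`), so `loss ≤ 40 * 10^(3n) * s^(1/5)`.
LEAF PRFT-NUM-C (`prft_num`): every field of `PrftNum n s` holds for all large `s`; prove each field as `∀ᶠ s in atTop, ..` and combine (`Filter.Eventually.and`, `Filter.eventually_atTop`).
  With `c := 40 * 10^(3n)`: `loss ≤ c s^(1/5)`, `log s ≤ 10 s^(1/10) ≤ 10 s^(1/5)`, `√(2s) - √s = (√2 - 1) √s ≥ (2/5) s^(1/2)`; `s^(1/5) / s^(1/2) = s^(-3/10) → 0` (`tendsto_rpow_neg_atTop`).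
  `disc`: `exp (-(4 log s)/2) = s^(-2)`, `K = n G ≤ n (log s + 3) ≤ s` eventually; `exp (-√s/2) ≤ 1/s` eventually (`√s/2 ≥ log s`: `log s ≤ 4 s^(1/4)`..).
  `next`: `n e^{√s} + 1 ≤ (n+1) e^{√s} = exp (√s + log (n+1))`; `μ(s/2) (s/2) = 3 s / (2 G(s/2))`, `G(s/2) ≤ log s + 3`; `(√s + log (n+1)) (log s + 3) ≤ 3 s/2` eventually.
  `mu_le`: `G ≥ 12` eventually (`prft_tendsto_mu`).
-/

set_option autoImplicit false

namespace Claimed.Agent.R273

open Filter Topology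

/-! ### LEAF PRFT-NUM-A -/

theorem prft_G_pos (n : ℕ) (s : ℝ) : 3 ≤ prftG n s := by
  unfold prftG; omega

theorem prft_mu_pos (n : ℕ) (s : ℝ) : 0 < prftMu n s := by
  have h := prft_G_pos n s
  have h' : (0 : ℝ) < prftG n s := by exact_mod_cast (by omega : 0 < prftG n s)
  unfold prftMu; positivity

theorem prft_mu_le_one (n : ℕ) (s : ℝ) : prftMu n s ≤ 1 := by
  have h := prft_G_pos n s
  have h3 : (3 : ℝ) ≤ prftG n s := by exact_mod_cast h
  unfold prftMu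
  rw [div_le_one (by linarith)]
  exact h3

theorem prft_time_zero (n : ℕ) (s : ℝ) : prftTime n s 0 = -1 := by
  simp [prftTime]

theorem prft_time_top (n : ℕ) (s : ℝ) : prftTime n s (prftG n s) = prftTop n s := by
  have h := prft_G_pos n s
  have h3 : (3 : ℝ) ≤ prftG n s := by exact_mod_cast h
  have h0 : (prftG n s : ℝ) ≠ 0 := by linarith
  unfold prftTime
  field_simp
  ring

theorem prft_step_pos (n : ℕ) (s : ℝ) : 0 < (prftTop n s + 1) / prftG n s := by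
  have h := prft_G_pos n s
  have h3 : (3 : ℝ) ≤ prftG n s := by exact_mod_cast h
  have hm := prft_mu_pos n s
  have : 0 < prftTop n s + 1 := by unfold prftTop; linarith
  have h0 : (0 : ℝ) < prftG n s := by linarith
  positivity

theorem prft_step_le (n : ℕ) (s : ℝ) : (prftTop n s + 1) / prftG n s ≤ prftMu n s := by
  have h := prft_G_pos n s
  have h3 : (3 : ℝ) ≤ prftG n s := by exact_mod_cast h
  have hm := prft_mu_le_one n s
  have h0 : (0 : ℝ) < prftG n s := by linarith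
  have h1 : prftTop n s + 1 ≤ 3 := by unfold prftTop; linarith
  calc (prftTop n s + 1) / prftG n s ≤ 3 / prftG n s := by gcongr
    _ = prftMu n s := rfl

theorem prft_time_strictMono (n : ℕ) (s : ℝ) : StrictMono (prftTime n s) := by
  intro a b hab
  have hp := prft_step_pos n s
  have hab' : (a : ℝ) < b := by exact_mod_cast hab
  unfold prftTime
  have := mul_lt_mul_of_pos_right hab' hp
  linarith

theorem prft_mem_grid (n : ℕ) (s t : ℝ) :
    t ∈ prftGrid n s ↔ ∃ k ≤ prftG n s, t = prftTime n s k := by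
  unfold prftGrid
  simp only [Finset.mem_image, Finset.mem_range]
  constructor
  · rintro ⟨k, hk, rfl⟩
    exact ⟨k, by omega, rfl⟩
  · rintro ⟨k, hk, rfl⟩
    exact ⟨k, by omega, rfl⟩

theorem prft_grid (n : ℕ) (s : ℝ) : PrfGrid (prftGrid n s) (prftMu n s) (prftTop n s) := by
  have hG := prft_G_pos n s
  have hsm := prft_time_strictMono n s
  have hp := prft_step_pos n s
  have hle := prft_step_le n s
  have hG0 : (0 : ℝ) < prftG n s := by exact_mod_cast (by omega : 0 < prftG n s)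
  refine ⟨?_, ?_, ?_, ?_, ?_⟩
  · rw [prft_mem_grid]; exact ⟨0, Nat.zero_le _, (prft_time_zero n s).symm⟩
  · rw [prft_mem_grid]; exact ⟨prftG n s, le_rfl, (prft_time_top n s).symm⟩
  · intro t ht
    rw [prft_mem_grid] at ht
    obtain ⟨k, hk, rfl⟩ := ht
    constructor
    · rw [← prft_time_zero n s]; exact hsm.monotone (Nat.zero_le _)
    · rw [← prft_time_top n s]; exact hsm.monotone hk
  · intro b hb1 hb2
    obtain ⟨st, hst⟩ : ∃ st, st = (prftTop n s + 1) / prftG n s := ⟨_, rfl⟩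
    rw [← hst] at hp hle
    have htime : ∀ k : ℕ, prftTime n s k = -1 + k * st := by
      intro k; rw [hst]; rfl
    have hGst : (prftG n s : ℝ) * st = prftTop n s + 1 := by
      rw [hst]; field_simp
    have hq0 : 0 ≤ (b + 1) / st := div_nonneg (by linarith) hp.le
    refine ⟨prftTime n s ⌈(b + 1) / st⌉₊, ?_, ?_, ?_⟩
    · rw [prft_mem_grid]
      refine ⟨_, ?_, rfl⟩
      rw [Nat.ceil_le, div_le_iff₀ hp, hGst]
      linarith
    · rw [htime]
      have := Nat.le_ceil ((b + 1) / st)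
      rw [div_le_iff₀ hp] at this
      linarith
    · rw [htime]
      have := Nat.ceil_lt_add_one hq0
      have h2 : (⌈(b + 1) / st⌉₊ : ℝ) * st < ((b + 1) / st + 1) * st :=
        mul_lt_mul_of_pos_right this hp
      have h3 : ((b + 1) / st + 1) * st = b + 1 + st := by field_simp
      linarith
  · intro t ht h1
    rw [prft_mem_grid] at ht
    obtain ⟨k, hk, rfl⟩ := ht
    have hk0 : k ≠ 0 := by
      rintro rfl
      rw [prft_time_zero] at h1
      exact lt_irrefl _ h1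
    obtain ⟨j, rfl⟩ : ∃ j, k = j + 1 := ⟨k - 1, by omega⟩
    refine ⟨prftTime n s j, ?_, hsm (Nat.lt_succ_self j), ?_, ?_⟩
    · rw [prft_mem_grid]; exact ⟨j, by omega, rfl⟩
    · unfold prftTime
      push_cast
      nlinarith
    · intro u hu hlt
      rw [prft_mem_grid] at hu
      obtain ⟨i, hi, rfl⟩ := hu
      have : i < j + 1 := hsm.lt_iff_lt.mp hlt
      exact hsm.monotone (by omega)

theorem prft_geom (K : ℕ) : ∀ d i : ℕ, i + d = K →
    9 * ∑ r ∈ Finset.Ico i K, (10 : ℝ) ^ (K - 1 - r) + 1 = 10 ^ d := by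
  intro d
  induction d with
  | zero =>
    intro i hi
    have : i = K := by omega
    subst this
    simp
  | succ d ih =>
    intro i hi
    have hlt : i < K := by omega
    rw [Finset.sum_eq_sum_Ico_succ_bot hlt]
    have h1 := ih (i + 1) (by omega)
    have h2 : K - 1 - i = d := by omega
    rw [h2, pow_succ]
    linarith

theorem prft_A_ge (n : ℕ) (s : ℝ) (hs : 1 < s) (r : ℕ) : 4 * Real.log s ≤ prftA n s r := by
  have hl : 0 < Real.log s := Real.log_pos hs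
  have h1 : (1 : ℝ) ≤ 10 ^ (prftK n s - 1 - r) := one_le_pow₀ (by norm_num)
  unfold prftA
  nlinarith

theorem prft_tailA_eq (n : ℕ) (B s : ℝ) (i : ℕ) :
    (prftPar n B s).tailA n i
      = 4 * Real.log s * ∑ r ∈ Finset.Ico i (prftK n s), (10 : ℝ) ^ (prftK n s - 1 - r) := by
  rw [Finset.mul_sum]
  rfl

theorem prft_par_good (n : ℕ) (B s : ℝ) (hB : 0 < B) (hs : 1 < s) : (prftPar n B s).Good n := by
  have hl : 0 < Real.log s := Real.log_pos hs
  refine ⟨hB, by show 0 < s; linarith, (Real.exp_pos _).le, prft_time_strictMono n s, ?_, ?_, ?_⟩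
  · intro r
    have := prft_A_ge n s hs r
    show 0 < prftA n s r
    linarith
  · intro i hi
    have hi' : i < prftK n s := hi
    rw [prft_tailA_eq]
    show _ ≤ prftA n s i / 9
    have h1 := prft_geom (prftK n s) (prftK n s - 1 - i) (i + 1) (by omega)
    unfold prftA
    have h2 : ∑ r ∈ Finset.Ico (i + 1) (prftK n s), (10 : ℝ) ^ (prftK n s - 1 - r)
        ≤ 10 ^ (prftK n s - 1 - i) / 9 := by linarith
    calc 4 * Real.log s * ∑ r ∈ Finset.Ico (i + 1) (prftK n s), (10 : ℝ) ^ (prftK n s - 1 - r)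
        ≤ 4 * Real.log s * (10 ^ (prftK n s - 1 - i) / 9) := by gcongr
      _ = 4 * Real.log s * 10 ^ (prftK n s - 1 - i) / 9 := by ring
  · intro i _
    show Real.exp (-(7 * prftA n s i / 18)) ≤ Real.exp (-Real.log s)
    have := prft_A_ge n s hs i
    apply Real.exp_le_exp.mpr
    linarith

theorem prft_tailA_le (n : ℕ) (B s : ℝ) (hs : 1 < s) :
    (prftPar n B s).tailA n 0 ≤ prftLoss n s := by
  have hl : 0 < Real.log s := Real.log_pos hs
  rw [prft_tailA_eq]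
  have h1 := prft_geom (prftK n s) (prftK n s) 0 (by omega)
  unfold prftLoss
  rw [abs_of_pos hl]
  have h3 : (0 : ℝ) < 10 ^ prftK n s := by positivity
  have h2 : ∑ r ∈ Finset.Ico 0 (prftK n s), (10 : ℝ) ^ (prftK n s - 1 - r)
      ≤ 10 ^ prftK n s := by linarith
  calc 4 * Real.log s * ∑ r ∈ Finset.Ico 0 (prftK n s), (10 : ℝ) ^ (prftK n s - 1 - r)
      ≤ 4 * Real.log s * 10 ^ prftK n s := by gcongr
    _ = 10 ^ prftK n s * (4 * Real.log s) := by ring

theorem prft_tailD_le (n : ℕ) (B s : ℝ) (hs : 1 < s) :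
    (prftPar n B s).tailD n 0 ≤ (prftK n s : ℝ) * Real.exp (-(4 * Real.log s) / 2) := by
  show ∑ r ∈ Finset.Ico 0 (prftK n s), Real.exp (-(prftA n s r) / 2) ≤ _
  have h := Finset.sum_le_card_nsmul (Finset.Ico 0 (prftK n s))
    (fun r => Real.exp (-(prftA n s r) / 2)) (Real.exp (-(4 * Real.log s) / 2)) (by
      intro r _
      have := prft_A_ge n s hs r
      apply Real.exp_le_exp.mpr
      linarith)
  simpa using h

/-! ### LEAF PRFT-NUM-B -/

theorem prft_tendsto_kap : Tendsto prftKap atTop (𝓝 0) := by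
  exact Real.tendsto_exp_neg_atTop_nhds_zero.comp Real.tendsto_log_atTop

theorem prft_tendsto_mu (n : ℕ) (hn : 1 ≤ n) : Tendsto (prftMu n) atTop (𝓝 0) := by
  have hn' : (1 : ℝ) ≤ n := by exact_mod_cast hn
  have hl10 : 0 < Real.log 10 := Real.log_pos (by norm_num)
  have hc : (0 : ℝ) < 10 * n * Real.log 10 := by positivity
  have h1 : Tendsto (fun s : ℝ => Real.log s / (10 * n * Real.log 10)) atTop atTop :=
    Real.tendsto_log_atTop.atTop_div_const hc
  have h2 : Tendsto (fun s : ℝ => ⌊Real.log s / (10 * n * Real.log 10)⌋₊) atTop atTop :=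
    tendsto_nat_floor_atTop.comp h1
  have h3 : Tendsto (fun s : ℝ => prftG n s) atTop atTop :=
    tendsto_atTop_mono (fun s => by unfold prftG; omega) h2
  have h4 : Tendsto (fun s : ℝ => (prftG n s : ℝ)) atTop atTop :=
    tendsto_natCast_atTop_atTop.comp h3
  exact tendsto_const_nhds.div_atTop h4

theorem prft_tendsto_om : Tendsto prftOm atTop (𝓝 0) := by
  exact tendsto_const_nhds.div_atTop tendsto_abs_atTop_atTop

theorem prft_pos (n : ℕ) (s : ℝ) :
    0 < prftKap s ∧ 0 < prftMu n s ∧ 0 ≤ prftRho n s ∧ 0 ≤ prftOm s := by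
  refine ⟨Real.exp_pos _, prft_mu_pos n s, ?_, ?_⟩
  · unfold prftRho prftLoss; positivity
  · unfold prftOm; positivity

theorem prft_pow_le (n : ℕ) (hn : 1 ≤ n) (s : ℝ) (hs : 1 ≤ s) :
    (10 : ℝ) ^ prftK n s ≤ 10 ^ (3 * n) * s ^ ((1 : ℝ) / 10) := by
  have hn' : (1 : ℝ) ≤ n := by exact_mod_cast hn
  have hl10 : 0 < Real.log 10 := Real.log_pos (by norm_num)
  have hc : (0 : ℝ) < 10 * n * Real.log 10 := by positivity
  have hl : 0 ≤ Real.log s := Real.log_nonneg hs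
  have hs0 : 0 < s := by linarith
  obtain ⟨F, hF⟩ : ∃ F, F = ⌊Real.log s / (10 * n * Real.log 10)⌋₊ := ⟨_, rfl⟩
  have hFle : (F : ℝ) ≤ Real.log s / (10 * n * Real.log 10) := by
    rw [hF]; exact Nat.floor_le (div_nonneg hl hc.le)
  have hK : prftK n s = 3 * n + n * F := by
    unfold prftK prftG; rw [← hF]; ring
  rw [hK, pow_add]
  have h10 : (0 : ℝ) < 10 ^ (3 * n) := by positivity
  apply mul_le_mul_of_nonneg_left _ h10.le
  rw [← Real.rpow_natCast, Real.rpow_def_of_pos (by norm_num : (0 : ℝ) < 10),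
    Real.rpow_def_of_pos hs0]
  apply Real.exp_le_exp.mpr
  push_cast
  rw [le_div_iff₀ hc] at hFle
  nlinarith

theorem prft_loss_le (n : ℕ) (hn : 1 ≤ n) (s : ℝ) (hs : 1 ≤ s) :
    prftLoss n s ≤ 40 * 10 ^ (3 * n) * s ^ ((1 : ℝ) / 5) := by
  have hl : 0 ≤ Real.log s := Real.log_nonneg hs
  have hs0 : 0 < s := by linarith
  have h1 := prft_pow_le n hn s hs
  have h2 : Real.log s ≤ s ^ ((1 : ℝ) / 10) / (1 / 10) :=
    Real.log_le_rpow_div hs0.le (by norm_num)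
  have h3 : s ^ ((1 : ℝ) / 5) = s ^ ((1 : ℝ) / 10) * s ^ ((1 : ℝ) / 10) := by
    rw [← Real.rpow_add hs0]; norm_num
  have hy : 0 < s ^ ((1 : ℝ) / 10) := Real.rpow_pos_of_pos hs0 _
  unfold prftLoss
  rw [abs_of_nonneg hl, h3]
  have h10 : (0 : ℝ) < 10 ^ (3 * n) := by positivity
  calc (10 : ℝ) ^ prftK n s * (4 * Real.log s)
      ≤ (10 ^ (3 * n) * s ^ ((1 : ℝ) / 10)) * (4 * (s ^ ((1 : ℝ) / 10) / (1 / 10))) := by
        gcongr
    _ = 40 * 10 ^ (3 * n) * (s ^ ((1 : ℝ) / 10) * s ^ ((1 : ℝ) / 10)) := by ring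

theorem prft_tendsto_rho (n : ℕ) (hn : 1 ≤ n) :
    Tendsto (fun s => prftRho n s / s) atTop (𝓝 0) := by
  have h1 : Tendsto (fun s : ℝ => s ^ (-((1 : ℝ) / 2))) atTop (𝓝 0) :=
    tendsto_rpow_neg_atTop (by norm_num)
  have h2 : Tendsto (fun s : ℝ => s ^ (-((4 : ℝ) / 5))) atTop (𝓝 0) :=
    tendsto_rpow_neg_atTop (by norm_num)
  have h3 : Tendsto (fun s : ℝ => s ^ (-((1 : ℝ) / 2)) + 40 * 10 ^ (3 * n) * s ^ (-((4 : ℝ) / 5)))
      atTop (𝓝 0) := by
    simpa using h1.add (h2.const_mul (40 * 10 ^ (3 * n)))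
  refine squeeze_zero' ?_ ?_ h3
  · filter_upwards [eventually_ge_atTop (1 : ℝ)] with s hs
    exact div_nonneg (prft_pos n s).2.2.1 (by linarith)
  · filter_upwards [eventually_ge_atTop (1 : ℝ)] with s hs
    have hs0 : 0 < s := by linarith
    have hL := prft_loss_le n hn s hs
    have e1 : Real.sqrt s / s = s ^ (-((1 : ℝ) / 2)) := by
      rw [Real.sqrt_eq_rpow, div_eq_iff hs0.ne']
      nth_rewrite 3 [← Real.rpow_one s]
      rw [← Real.rpow_add hs0]; norm_num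
    have e2 : s ^ ((1 : ℝ) / 5) / s = s ^ (-((4 : ℝ) / 5)) := by
      rw [div_eq_iff hs0.ne']
      nth_rewrite 3 [← Real.rpow_one s]
      rw [← Real.rpow_add hs0]; norm_num
    unfold prftRho
    rw [add_div, e1, ← e2]
    have : prftLoss n s / s ≤ 40 * 10 ^ (3 * n) * s ^ ((1 : ℝ) / 5) / s := by gcongr
    calc s ^ (-((1 : ℝ) / 2)) + prftLoss n s / s
        ≤ s ^ (-((1 : ℝ) / 2)) + 40 * 10 ^ (3 * n) * s ^ ((1 : ℝ) / 5) / s := by linarith
      _ = s ^ (-((1 : ℝ) / 2)) + 40 * 10 ^ (3 * n) * (s ^ ((1 : ℝ) / 5) / s) := by ring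

/-! ### LEAF PRFT-NUM-C -/

theorem prft_num_G_le (n : ℕ) (hn : 1 ≤ n) (s : ℝ) (hs : 1 ≤ s) :
    (prftG n s : ℝ) ≤ Real.log s + 3 := by
  have hn' : (1 : ℝ) ≤ n := by exact_mod_cast hn
  have hl2 : (0.69 : ℝ) < Real.log 2 := by have := Real.log_two_gt_d9; linarith
  have hl10 : Real.log 2 ≤ Real.log 10 := Real.log_le_log (by norm_num) (by norm_num)
  have hc : (1 : ℝ) ≤ 10 * n * Real.log 10 := by nlinarith
  have hl : 0 ≤ Real.log s := Real.log_nonneg hs
  have h1 : ((⌊Real.log s / (10 * n * Real.log 10)⌋₊ : ℕ) : ℝ) ≤ Real.log s / (10 * n * Real.log 10) :=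
    Nat.floor_le (div_nonneg hl (by linarith))
  have h2 : Real.log s / (10 * n * Real.log 10) ≤ Real.log s := div_le_self hl hc
  unfold prftG
  push_cast
  linarith

theorem prft_num_loss (n : ℕ) (hn : 1 ≤ n) (y : ℝ) (hy : 1 ≤ y) :
    prftLoss n (y ^ 10) ≤ 40 * 10 ^ (3 * n) * y ^ 2 ∧ (prftK n (y ^ 10) : ℝ) ≤ 10 ^ (3 * n) * y := by
  have hy0 : 0 < y := by linarith
  have hs : (1 : ℝ) ≤ y ^ 10 := one_le_pow₀ hy
  have e1 : (y ^ 10) ^ ((1 : ℝ) / 5) = y ^ 2 := by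
    rw [← Real.rpow_natCast y 10, ← Real.rpow_mul hy0.le, ← Real.rpow_natCast y 2]
    norm_num
  have e2 : (y ^ 10) ^ ((1 : ℝ) / 10) = y := by
    rw [← Real.rpow_natCast y 10, ← Real.rpow_mul hy0.le]
    norm_num
  constructor
  · rw [← e1]; exact prft_loss_le n hn _ hs
  · have h := prft_pow_le n hn _ hs
    rw [e2] at h
    have h2 : (prftK n (y ^ 10) : ℝ) ≤ 10 ^ prftK n (y ^ 10) := by
      exact_mod_cast (Nat.lt_pow_self (by norm_num : 1 < 10)).le
    linarith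

theorem prft_num_next (n : ℕ) (hn : 1 ≤ n) (y : ℝ) (hy : (n : ℝ) + 30 ≤ y) :
    (n : ℝ) * Real.exp (y ^ 5) + 1 ≤ Real.exp (prftMu n (y ^ 10 / 2) * (y ^ 10 / 2)) := by
  have hn0 : (0 : ℝ) ≤ n := Nat.cast_nonneg n
  have hy30 : (30 : ℝ) ≤ y := by linarith
  have hy1 : (1 : ℝ) ≤ y := by linarith
  have hy0 : 0 < y := by linarith
  have hs2 : (1 : ℝ) ≤ y ^ 10 / 2 := by
    have : y ^ 1 ≤ y ^ 10 := pow_le_pow_right₀ hy1 (by norm_num)
    linarith
  have hlog : Real.log (y ^ 10 / 2) ≤ 10 * y := by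
    have h1 : Real.log (y ^ 10 / 2) ≤ Real.log (y ^ 10) :=
      Real.log_le_log (by linarith) (by linarith)
    have h2 : Real.log (y ^ 10) = 10 * Real.log y := by rw [Real.log_pow]; norm_num
    have h3 := Real.log_le_sub_one_of_pos hy0
    linarith
  have hG := prft_num_G_le n hn _ hs2
  have hG' : (prftG n (y ^ 10 / 2) : ℝ) ≤ 11 * y := by linarith
  have hG0 : (0 : ℝ) < prftG n (y ^ 10 / 2) := by
    exact_mod_cast (by have := prft_G_pos n (y ^ 10 / 2); omega : 0 < prftG n (y ^ 10 / 2))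
  have hmu : 2 * y ^ 5 ≤ prftMu n (y ^ 10 / 2) * (y ^ 10 / 2) := by
    unfold prftMu
    rw [div_mul_eq_mul_div, le_div_iff₀ hG0]
    have h5 : (0 : ℝ) < y ^ 5 := by positivity
    have h4 : (30 : ℝ) ≤ y ^ 4 := by
      have : y ^ 1 ≤ y ^ 4 := pow_le_pow_right₀ hy1 (by norm_num)
      linarith
    calc 2 * y ^ 5 * (prftG n (y ^ 10 / 2) : ℝ) ≤ 2 * y ^ 5 * (11 * y) := by gcongr
      _ = y ^ 6 * 22 := by ring
      _ ≤ y ^ 6 * (3 / 2 * y ^ 4) := by gcongr; linarith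
      _ = 3 * (y ^ 10 / 2) := by ring
  have hy5 : y ≤ y ^ 5 := by
    have : y ^ 1 ≤ y ^ 5 := pow_le_pow_right₀ hy1 (by norm_num)
    linarith
  have he1 : (1 : ℝ) ≤ Real.exp (y ^ 5) := Real.one_le_exp (by positivity)
  calc (n : ℝ) * Real.exp (y ^ 5) + 1 ≤ (n : ℝ) * Real.exp (y ^ 5) + Real.exp (y ^ 5) := by linarith
    _ = ((n : ℝ) + 1) * Real.exp (y ^ 5) := by ring
    _ ≤ Real.exp n * Real.exp (y ^ 5) := by
        gcongr
        exact Real.add_one_le_exp _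
    _ = Real.exp (n + y ^ 5) := by rw [Real.exp_add]
    _ ≤ Real.exp (prftMu n (y ^ 10 / 2) * (y ^ 10 / 2)) := by
        apply Real.exp_le_exp.mpr
        linarith

theorem prft_num_disc (n : ℕ) (hn : 1 ≤ n) (y : ℝ) (hy : 10 ^ (3 * n) + 30 ≤ y) :
    (prftK n (y ^ 10) : ℝ) * Real.exp (-(4 * Real.log (y ^ 10)) / 2) + Real.exp (-(y ^ 5 / 2))
      ≤ 2 / y ^ 10 := by
  have hc0 : (0 : ℝ) < 10 ^ (3 * n) := by positivity
  have hy30 : (30 : ℝ) ≤ y := by linarith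
  have hy1 : (1 : ℝ) ≤ y := by linarith
  have hy0 : 0 < y := by linarith
  have hs0 : (0 : ℝ) < y ^ 10 := by positivity
  have hK := (prft_num_loss n hn y hy1).2
  have hK2 : (prftK n (y ^ 10) : ℝ) ≤ y ^ 10 := by
    have h1 : (10 : ℝ) ^ (3 * n) * y ≤ y * y := by gcongr; linarith
    have h2 : y ^ 2 ≤ y ^ 10 := pow_le_pow_right₀ hy1 (by norm_num)
    nlinarith
  have e1 : Real.exp (-(4 * Real.log (y ^ 10)) / 2) = 1 / (y ^ 10 * y ^ 10) := by
    rw [show -(4 * Real.log (y ^ 10)) / 2 = -(Real.log (y ^ 10) + Real.log (y ^ 10)) by ring,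
      Real.exp_neg, Real.exp_add, Real.exp_log hs0, one_div]
  have h1 : (prftK n (y ^ 10) : ℝ) * Real.exp (-(4 * Real.log (y ^ 10)) / 2) ≤ 1 / y ^ 10 := by
    rw [e1, mul_one_div, div_le_div_iff₀ (by positivity) hs0]
    nlinarith
  have h2 : Real.exp (-(y ^ 5 / 2)) ≤ 1 / y ^ 10 := by
    have e2 : 1 / y ^ 10 = Real.exp (-(Real.log (y ^ 10))) := by
      rw [Real.exp_neg, Real.exp_log hs0, one_div]
    rw [e2]
    apply Real.exp_le_exp.mpr
    have h2 : Real.log (y ^ 10) = 10 * Real.log y := by rw [Real.log_pow]; norm_num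
    have h3 := Real.log_le_sub_one_of_pos hy0
    have h4 : (30 : ℝ) ≤ y ^ 4 := by
      have : y ^ 1 ≤ y ^ 4 := pow_le_pow_right₀ hy1 (by norm_num)
      linarith
    have h5 : y * 30 ≤ y * y ^ 4 := by gcongr
    have h6 : y * y ^ 4 = y ^ 5 := by ring
    linarith
  have : 2 / y ^ 10 = 1 / y ^ 10 + 1 / y ^ 10 := by ring
  linarith

theorem prft_num_aux (n : ℕ) (hn : 1 ≤ n) (y : ℝ) (hy : 100 * 10 ^ (3 * n) + 4 * n + 30 ≤ y)
    (hmu : prftMu n (y ^ 10) ≤ 1 / 4) : PrftNum n (y ^ 10) := by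
  have hn0 : (0 : ℝ) ≤ n := Nat.cast_nonneg n
  obtain ⟨c, hc⟩ : ∃ c : ℝ, c = 10 ^ (3 * n) := ⟨_, rfl⟩
  have hc0 : (0 : ℝ) < c := by rw [hc]; positivity
  have hy30 : (30 : ℝ) ≤ y := by rw [← hc] at hy; linarith
  have hy1 : (1 : ℝ) ≤ y := by linarith
  have hy0 : 0 < y := by linarith
  have hsq : Real.sqrt (y ^ 10) = y ^ 5 := by
    rw [show y ^ 10 = (y ^ 5) ^ 2 by ring]; exact Real.sqrt_sq (by positivity)
  have hL := (prft_num_loss n hn y hy1).1
  rw [← hc] at hL hy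
  have hlog : Real.log (y ^ 10) ≤ 10 * y := by
    have h2 : Real.log (y ^ 10) = 10 * Real.log y := by rw [Real.log_pow]; norm_num
    have h3 := Real.log_le_sub_one_of_pos hy0
    linarith
  have hy3 : y ≤ y ^ 3 := by
    have : y ^ 1 ≤ y ^ 3 := pow_le_pow_right₀ hy1 (by norm_num)
    linarith
  have hy2 : y ≤ y ^ 2 := by
    have : y ^ 1 ≤ y ^ 2 := pow_le_pow_right₀ hy1 (by norm_num)
    linarith
  have hy10 : y ≤ y ^ 10 := by
    have : y ^ 1 ≤ y ^ 10 := pow_le_pow_right₀ hy1 (by norm_num)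
    linarith
  have hkey : y ^ 2 * (100 * c + 25) ≤ y ^ 5 := by
    calc y ^ 2 * (100 * c + 25) ≤ y ^ 2 * y ^ 3 := by gcongr; linarith
      _ = y ^ 5 := by ring
  have hy2c : 0 ≤ y ^ 2 * c := by positivity
  refine ⟨one_lt_pow₀ (by linarith) (by norm_num), ?_, ?_, ?_, ?_, hmu, ?_⟩
  · rw [Real.sqrt_mul (by norm_num : (0 : ℝ) ≤ 2), hsq]
    have h2 : (1.4 : ℝ) ≤ Real.sqrt 2 := Real.le_sqrt' (by norm_num) |>.mpr (by norm_num)
    have h5 : (0 : ℝ) < y ^ 5 := by positivity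
    have h6 : 1.4 * y ^ 5 ≤ Real.sqrt 2 * y ^ 5 := by gcongr
    nlinarith
  · rw [hsq]
    nlinarith
  · rw [hsq]
    exact prft_num_disc n hn y (by rw [← hc]; linarith)
  · rw [hsq]
    exact prft_num_next n hn y (by linarith)
  · have := Real.log_le_self hn0
    linarith

theorem prft_num (n : ℕ) (hn : 1 ≤ n) : ∃ s₀ : ℝ, ∀ s, s₀ ≤ s → PrftNum n s := by
  have h1 : ∀ᶠ s : ℝ in atTop, prftMu n s ≤ 1 / 4 :=
    (prft_tendsto_mu n hn).eventually_le_const (by norm_num)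
  have h2 : ∀ᶠ s : ℝ in atTop, 100 * 10 ^ (3 * n) + 4 * (n : ℝ) + 30 ≤ s ^ ((1 : ℝ) / 10) :=
    (tendsto_rpow_atTop (by norm_num : (0 : ℝ) < 1 / 10)).eventually_ge_atTop _
  have h3 : ∀ᶠ s : ℝ in atTop, PrftNum n s := by
    filter_upwards [h1, h2, eventually_ge_atTop (1 : ℝ)] with s hs1 hs2 hs3
    have e : (s ^ ((1 : ℝ) / 10)) ^ 10 = s := by
      rw [← Real.rpow_natCast, ← Real.rpow_mul (by linarith)]
      norm_num
    have := prft_num_aux n hn (s ^ ((1 : ℝ) / 10)) hs2 (by rw [e]; exact hs1)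
    rwa [e] at this
  exact eventually_atTop.mp h3

end Claimed.Agent.R273
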