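import Claimed.Agent.R273.PrfTreeAlg
import Claimed.Agent.R273.PrfTreeNum

/-!
# Row 273, S5: `prf_partition`: greedy extraction, lists of pieces, THE REGULARISATION TREE (architect helper60).  Prefix `prft`.

Pure combinatorics; the only algebra is in the black boxes `prft_sys_update`, `prft_sys_congr`, `prft_not_proper_top`, `prft_finish` (PrfTreeAlg).

LEAF PRFT-COMB-A (`prft_greedy`, `prft_length_le`, `prft_mass_nil/cons/append`, `prft_disj_append`, `prft_combine`).
 * `prft_greedy`: strong induction on `S.card` (`Finset.strongInduction` or `Nat.strong_induction_on` generalising `S`).  If some `S' ⊆ S` has `Cap S'` and `θ ≤ |S'|` (then `S' ≠ ∅`), apply the induction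
   hypothesis to `S \ S'` and put `S'` in front; otherwise `𝒞 = []`, `R = S`.
 * `prft_combine`: induction on the list `𝒞`; `l := l_C ++ l_rest`; pieces of `l_C` lie in `C`, pieces of `l_rest` in later members of `𝒞`, which are disjoint from `C`.
LEAF PRFT-TREE-A (`prft_tree_term`, `prft_node_child`, `prft_out_child`, `prft_tree_fin`).
 * `prft_tree_term` (`j = n`): `l := [ν]`.  `nocap`: all `τ i = t k''`, `k'' ≤ k ≤ k'`, so `τ i ≤ t k'`; hence `j' = n` (if `j' < n` the second hypothesis at `i = j'` is absurd) and `S' = ∅` by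
   `prft_not_proper_top` (`Finset.eq_empty_of_forall_notMem`).  `size`: `exp (-tailA) ≤ 1` (`tailA ≥ 0`).  Discard: `|S| - |S| = 0 ≤ |S| tailD`.
 * `prft_node_child`, `prft_out_child`: unfold; `Function.update_self`, `Function.update_of_ne`, `prft_sys_update`.
 * `prft_tree_fin` (`k = G`): downward induction on `j` (`Nat.decreasingInduction` / induction on `n - j`): `prft_finish` gives `g`; child node `⟨S, update f j g, update τ j (t G)⟩`; `tailA`, `tailD` vanish at indices `≥ n G`
   (`Finset.Ico_eq_empty_of_le`), so no loss.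
LEAF PRFT-TREE-B (`prft_node_resid`, `prft_out_resid`).  The FRAGMENTATION BOUND.  `i := k n + j`.
 * `mem`, `mono`, .. are inherited.  `size`: `tailA i = a_i + tailA (i+1)` (`Finset.sum_eq_sum_Ico_succ_bot`), `tailA ((k+1) n + j) ≤ tailA (i+1)` (more terms, all `≥ 0`; `(k+1) n + j = i + n ≥ i + 1`).
 * `nocap` at `k' = k`: the `j` first times are `≤ t k`, the later ones are `≥ t (k+1) > t k`, so `j' = j`; `prfSys π.f j = prfSys ν.f j` (`prft_sys_congr`); `|S'| < e^{-a_i} m`, `|π.S| ≥ e^{-a_i/2} m e^{-tailA (i+1)}`,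
   `tailA (i+1) ≤ a_i/9`: `|S'| ≤ e^{-a_i/2 + a_i/9} |π.S| = e^{-7 a_i/18} |π.S| ≤ κ |π.S|`.   `k' ≥ k+1`: inherited.
GLUE (helper60): `prft_tree_step`, `prft_tree`, `prft_tree_root`.
-/

set_option autoImplicit false

namespace Claimed.Agent.R273

open MvPolynomial

/-! ### LEAF PRFT-COMB-A -/

/-- GREEDY EXTRACTION of capturable subsets of size `≥ θ`. -/
theorem prft_greedy {α : Type*} [DecidableEq α] (Cap : Finset α → Prop) (θ : ℝ) (hθ : 0 < θ)
    (S : Finset α) :
    ∃ (𝒞 : List (Finset α)) (R : Finset α),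
      (∀ C ∈ 𝒞, C ⊆ S ∧ Cap C ∧ θ ≤ (C.card : ℝ)) ∧ 𝒞.Pairwise Disjoint ∧ R ⊆ S ∧
      (∀ C ∈ 𝒞, Disjoint C R) ∧ S.card = R.card + (𝒞.map Finset.card).sum ∧
      (∀ x ∈ S, x ∈ R ∨ ∃ C ∈ 𝒞, x ∈ C) ∧
      ∀ S' ⊆ R, Cap S' → (S'.card : ℝ) < θ := by
  induction S using Finset.strongInduction with
  | H S ih =>
    by_cases hex : ∃ S' ⊆ S, Cap S' ∧ θ ≤ (S'.card : ℝ)
    · obtain ⟨S', hS', hcap, hθ'⟩ := hex
      have hne : S'.Nonempty := by
        rw [Finset.nonempty_iff_ne_empty]
        rintro rfl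
        simp at hθ'
        linarith
      have hss : S \ S' ⊂ S := Finset.sdiff_ssubset hS' hne
      obtain ⟨𝒞, R, h1, h2, h3, h4, h5, h6, h7⟩ := ih (S \ S') hss
      refine ⟨S' :: 𝒞, R, ?_, ?_, ?_, ?_, ?_, ?_, h7⟩
      · intro C hC
        rcases List.mem_cons.1 hC with rfl | hC
        · exact ⟨hS', hcap, hθ'⟩
        · exact ⟨(h1 C hC).1.trans Finset.sdiff_subset, (h1 C hC).2⟩
      · rw [List.pairwise_cons]
        refine ⟨fun C hC => ?_, h2⟩
        exact Finset.disjoint_of_subset_right (h1 C hC).1 Finset.disjoint_sdiff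
      · exact h3.trans Finset.sdiff_subset
      · intro C hC
        rcases List.mem_cons.1 hC with rfl | hC
        · exact Finset.disjoint_of_subset_right h3 Finset.disjoint_sdiff
        · exact h4 C hC
      · simp only [List.map_cons, List.sum_cons]
        have := Finset.card_sdiff_add_card_eq_card hS'
        omega
      · intro x hx
        by_cases hxS : x ∈ S'
        · exact Or.inr ⟨S', List.mem_cons_self, hxS⟩
        · rcases h6 x (Finset.mem_sdiff.2 ⟨hx, hxS⟩) with h | ⟨C, hC, hxC⟩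
          · exact Or.inl h
          · exact Or.inr ⟨C, List.mem_cons_of_mem _ hC, hxC⟩
    · refine ⟨[], S, by simp, List.Pairwise.nil, subset_rfl, by simp, by simp,
        fun x hx => Or.inl hx, ?_⟩
      intro S' hS' hcap
      by_contra hcon
      exact hex ⟨S', hS', hcap, not_lt.1 hcon⟩

theorem prft_length_le {α : Type*} (𝒞 : List (Finset α)) (θ : ℝ)
    (h : ∀ C ∈ 𝒞, θ ≤ (C.card : ℝ)) : (𝒞.length : ℝ) * θ ≤ ((𝒞.map Finset.card).sum : ℕ) := by
  induction 𝒞 with
  | nil => simp
  | cons C 𝒞 ih =>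
    have h1 := h C List.mem_cons_self
    have h2 := ih fun C' hC' => h C' (List.mem_cons_of_mem _ hC')
    simp only [List.length_cons, List.map_cons, List.sum_cons]
    rw [Nat.cast_add, Nat.cast_add, Nat.cast_one, add_mul, one_mul]
    linarith

variable {n : ℕ}

theorem prft_mass_nil : prftMass ([] : List (PrfPiece n)) = 0 := rfl

theorem prft_mass_cons (π : PrfPiece n) (l : List (PrfPiece n)) :
    prftMass (π :: l) = π.S.card + prftMass l := by
  simp [prftMass]

theorem prft_mass_append (l l' : List (PrfPiece n)) :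
    prftMass (l ++ l') = prftMass l + prftMass l' := by
  simp [prftMass]

theorem prft_disj_append (l l' : List (PrfPiece n)) (h : PrftDisj l) (h' : PrftDisj l')
    (hll' : ∀ π ∈ l, ∀ π' ∈ l', Disjoint π.S π'.S) : PrftDisj (l ++ l') := by
  exact List.pairwise_append.2 ⟨h, h', hll'⟩

/-- combine the lists of pieces of pairwise disjoint batches -/
theorem prft_combine (𝒞 : List (Finset (Fin n → ℂ))) (h𝒞 : 𝒞.Pairwise Disjoint) (D : ℝ)
    (Q : Finset (Fin n → ℂ) → PrfPiece n → Prop)
    (h : ∀ C ∈ 𝒞, ∃ l : List (PrfPiece n), (∀ π ∈ l, π.S ⊆ C ∧ Q C π) ∧ PrftDisj l ∧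
      (C.card : ℝ) - prftMass l ≤ C.card * D) :
    ∃ l : List (PrfPiece n), (∀ π ∈ l, ∃ C ∈ 𝒞, π.S ⊆ C ∧ Q C π) ∧ PrftDisj l ∧
      (((𝒞.map Finset.card).sum : ℕ) : ℝ) - prftMass l ≤ ((𝒞.map Finset.card).sum : ℕ) * D := by
  induction 𝒞 with
  | nil => exact ⟨[], by simp, List.Pairwise.nil, by simp [prftMass]⟩
  | cons C 𝒞 ih =>
    rw [List.pairwise_cons] at h𝒞
    obtain ⟨lC, hC1, hC2, hC3⟩ := h C List.mem_cons_self
    obtain ⟨lr, hr1, hr2, hr3⟩ := ih h𝒞.2 (fun C' hC' => h C' (List.mem_cons_of_mem _ hC'))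
    refine ⟨lC ++ lr, ?_, prft_disj_append _ _ hC2 hr2 ?_, ?_⟩
    · intro π hπ
      rcases List.mem_append.1 hπ with hπ | hπ
      · exact ⟨C, List.mem_cons_self, hC1 π hπ⟩
      · obtain ⟨C', hC', h'⟩ := hr1 π hπ
        exact ⟨C', List.mem_cons_of_mem _ hC', h'⟩
    · intro π hπ π' hπ'
      obtain ⟨C', hC', hsub, -⟩ := hr1 π' hπ'
      exact Finset.disjoint_of_subset_left (hC1 π hπ).1
        (Finset.disjoint_of_subset_right hsub (h𝒞.1 C' hC'))
    · rw [prft_mass_append]
      simp only [List.map_cons, List.sum_cons]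
      rw [Nat.cast_add, Nat.cast_add, add_mul]
      linarith

/-! ### tail sums -/

theorem prft_tailA_nonneg (q : PrftPar) (hq : q.Good n) (i : ℕ) : 0 ≤ q.tailA n i := by
  exact Finset.sum_nonneg fun r _ => (hq.a_pos r).le

theorem prft_tailD_nonneg (q : PrftPar) (i : ℕ) : 0 ≤ q.tailD n i := by
  exact Finset.sum_nonneg fun r _ => (Real.exp_pos _).le

theorem prft_tailA_succ (q : PrftPar) (i : ℕ) (hi : i < n * q.G) :
    q.tailA n i = q.a i + q.tailA n (i + 1) := by
  exact Finset.sum_eq_sum_Ico_succ_bot hi _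

theorem prft_tailD_succ (q : PrftPar) (i : ℕ) (hi : i < n * q.G) :
    q.tailD n i = Real.exp (-(q.a i) / 2) + q.tailD n (i + 1) := by
  exact Finset.sum_eq_sum_Ico_succ_bot hi _

theorem prft_tailA_anti (q : PrftPar) (hq : q.Good n) {i i' : ℕ} (h : i ≤ i') :
    q.tailA n i' ≤ q.tailA n i := by
  exact Finset.sum_le_sum_of_subset_of_nonneg (Finset.Ico_subset_Ico_left h)
    fun r _ _ => (hq.a_pos r).le

theorem prft_tailD_anti (q : PrftPar) {i i' : ℕ} (h : i ≤ i') : q.tailD n i' ≤ q.tailD n i := by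
  exact Finset.sum_le_sum_of_subset_of_nonneg (Finset.Ico_subset_Ico_left h)
    fun r _ _ => (Real.exp_pos _).le

theorem prft_tailA_top (q : PrftPar) {i : ℕ} (h : n * q.G ≤ i) : q.tailA n i = 0 := by
  unfold PrftPar.tailA
  rw [Finset.Ico_eq_empty_of_le h, Finset.sum_empty]

theorem prft_tailD_top (q : PrftPar) {i : ℕ} (h : n * q.G ≤ i) : q.tailD n i = 0 := by
  unfold PrftPar.tailD
  rw [Finset.Ico_eq_empty_of_le h, Finset.sum_empty]

/-! ### LEAF PRFT-TREE-A -/

/-- terminal nodes -/
theorem prft_tree_term (q : PrftPar) (hq : q.Good n) (Giso : Set (PrfPol n)) (k : ℕ) :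
    PrftTree q Giso k n := by
  intro ν hν
  have hcard : (0 : ℝ) ≤ ν.S.card := by positivity
  refine ⟨[ν], ?_, List.pairwise_singleton _ _, ?_⟩
  · intro π hπ
    rw [List.mem_singleton] at hπ
    subst hπ
    refine ⟨subset_rfl, fun _ _ => rfl, fun _ _ => rfl, fun i h1 h2 => absurd h2 (not_lt.2 h1),
      hν.mono, hν.deg, fun x hx j hj => hν.proper x hx j hj, ?_, ?_⟩
    · intro k' hk _ j' hj' _ h2 S' hS' hcap
      have hjn : j' = n := by
        by_contra hne
        have hlt : j' < n := lt_of_le_of_ne hj' hne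
        obtain ⟨k'', hk'', he⟩ := hν.mem j' hlt
        have h3 := h2 j' le_rfl hlt
        rw [he] at h3
        have h4 : q.t k'' ≤ q.t k' := hq.t_mono.monotone (hk''.trans hk)
        linarith
      subst hjn
      obtain ⟨g, _, hg⟩ := hcap
      have hemp : S' = ∅ := by
        apply Finset.eq_empty_of_forall_notMem
        intro x hx
        exact prft_not_proper_top π.f x (fun i hi => hν.proper x (hS' hx) i hi) g (hg x hx)
      rw [hemp]
      simp only [Finset.card_empty, Nat.cast_zero]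
      exact mul_nonneg hq.κ_nonneg hcard
    · have h0 := prft_tailA_nonneg q hq (k * n + n)
      have h1 : Real.exp (-(q.tailA n (k * n + n))) ≤ 1 := Real.exp_le_one_iff.2 (by linarith)
      exact mul_le_of_le_one_right hcard h1
  · have h0 := prft_tailD_nonneg (n := n) q (k * n + n)
    rw [prft_mass_cons, prft_mass_nil]
    simp only [add_zero, sub_self]
    exact mul_nonneg hcard h0

/-- an extracted set with its cut is a node -/
theorem prft_node_child (q : PrftPar) (Giso : Set (PrfPol n)) (k j : ℕ) (ν : PrfPiece n)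
    (hν : PrftNode q Giso k j ν) (C : Finset (Fin n → ℂ)) (hC : C ⊆ ν.S) (g : PrfPol n)
    (hg : (g.totalDegree : ℝ) ≤ q.T k) (hgC : ∀ x ∈ C, PrfProperAt (prfSys ν.f j) g x)
    (hq : StrictMono q.t) :
    PrftNode q Giso k (j + 1) ⟨C, Function.update ν.f j g, Function.update ν.τ j (q.t k)⟩ := by
  refine ⟨?_, ?_, ?_, ?_, fun x hx => hν.iso x (hC hx)⟩
  · intro x hx i hi
    show PrfProperAt (prfSys (Function.update ν.f j g) i) (Function.update ν.f j g i) x
    rw [prft_sys_update ν.f j i (by omega) g]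
    rcases Nat.lt_succ_iff_lt_or_eq.1 hi with hlt | rfl
    · rw [Function.update_of_ne hlt.ne]
      exact hν.proper x (hC hx) i hlt
    · rw [Function.update_self]
      exact hgC x hx
  · intro i hi
    show ∃ k' ≤ k, Function.update ν.τ j (q.t k) i = q.t k'
    rcases Nat.lt_succ_iff_lt_or_eq.1 hi with hlt | rfl
    · rw [Function.update_of_ne hlt.ne]
      exact hν.mem i hlt
    · rw [Function.update_self]
      exact ⟨k, le_rfl, rfl⟩
  · intro i i' hii hi'
    show Function.update ν.τ j (q.t k) i ≤ Function.update ν.τ j (q.t k) i'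
    rcases Nat.lt_succ_iff_lt_or_eq.1 hi' with hlt | rfl
    · rw [Function.update_of_ne hlt.ne, Function.update_of_ne (lt_of_le_of_lt hii hlt).ne]
      exact hν.mono i i' hii hlt
    · rw [Function.update_self]
      rcases hii.lt_or_eq with hlt | rfl
      · rw [Function.update_of_ne hlt.ne]
        obtain ⟨k', hk', he⟩ := hν.mem i hlt
        rw [he]
        exact hq.monotone hk'
      · rw [Function.update_self]
  · intro i hi
    show ((Function.update ν.f j g i).totalDegree : ℝ)
      ≤ prfT q.B q.s (Function.update ν.τ j (q.t k) i)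
    rcases Nat.lt_succ_iff_lt_or_eq.1 hi with hlt | rfl
    · rw [Function.update_of_ne hlt.ne, Function.update_of_ne hlt.ne]
      exact hν.deg i hlt
    · rw [Function.update_self, Function.update_self]
      exact hg

/-- terminal pieces of a child are terminal pieces of the node -/
theorem prft_out_child (q : PrftPar) (k j : ℕ) (hk : k ≤ q.G) (ν : PrfPiece n)
    (C : Finset (Fin n → ℂ)) (hC : C ⊆ ν.S) (g : PrfPol n)
    (hsize : (ν.S.card : ℝ) * Real.exp (-(q.tailA n (k * n + j))) ≤
      C.card * Real.exp (-(q.tailA n (k * n + (j + 1))))) (π : PrfPiece n)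
    (h : PrftOut q k (j + 1) ⟨C, Function.update ν.f j g, Function.update ν.τ j (q.t k)⟩ π) :
    PrftOut q k j ν π := by
  refine ⟨h.sub.trans hC, ?_, ?_, ?_, h.mono, h.deg, h.path, h.nocap, hsize.trans h.size⟩
  · intro i hi
    have := h.f_eq i (by omega)
    rw [this]
    exact Function.update_of_ne hi.ne _ _
  · intro i hi
    have := h.τ_eq i (by omega)
    rw [this]
    exact Function.update_of_ne hi.ne _ _
  · intro i hji hin
    rcases hji.lt_or_eq with hlt | rfl
    · exact h.mem i hlt hin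
    · refine ⟨k, le_rfl, hk, ?_⟩
      have := h.τ_eq j (by omega)
      rw [this]
      exact Function.update_self _ _ _

/-- the last grid time: the isolating equations finish the path -/
theorem prft_tree_fin (q : PrftPar) (hq : q.Good n) (Giso : Set (PrfPol n)) (L : ℕ)
    (hG : ∀ g ∈ Giso, g.totalDegree ≤ L) (hL : (L : ℝ) ≤ q.T q.G) (j : ℕ) (hj : j ≤ n) :
    PrftTree q Giso q.G j := by
  have key : ∀ r j, j + r = n → PrftTree q Giso q.G j := by
    intro r
    induction r with
    | zero =>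
      intro j hj
      have : j = n := by omega
      subst this
      exact prft_tree_term q hq Giso q.G
    | succ r ih =>
      intro j hj ν hν
      have hjn : j < n := by omega
      obtain ⟨g, hgL, hg⟩ := prft_finish Giso L hG ν.S hν.iso ν.f j hjn hν.proper
      have hgT : (g.totalDegree : ℝ) ≤ q.T q.G := le_trans (by exact_mod_cast hgL) hL
      have hnode := prft_node_child q Giso q.G j ν hν ν.S subset_rfl g hgT hg hq.t_mono
      obtain ⟨l, hl1, hl2, hl3⟩ := ih (j + 1) (by omega) _ hnode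
      have e1 : n * q.G ≤ q.G * n + j := by rw [Nat.mul_comm]; omega
      have e2 : n * q.G ≤ q.G * n + (j + 1) := by rw [Nat.mul_comm]; omega
      refine ⟨l, fun π hπ => prft_out_child q q.G j le_rfl ν ν.S subset_rfl g ?_ π (hl1 π hπ),
        hl2, ?_⟩
      · rw [prft_tailA_top q e1, prft_tailA_top q e2]
      · rw [prft_tailD_top q e2] at hl3
        rw [prft_tailD_top q e1]
        exact hl3
  exact key (n - j) j (by omega)

/-! ### LEAF PRFT-TREE-B -/

/-- a residual is a node at the next time -/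
theorem prft_node_resid (q : PrftPar) (Giso : Set (PrfPol n)) (k j : ℕ) (ν : PrfPiece n)
    (hν : PrftNode q Giso k j ν) (R : Finset (Fin n → ℂ)) (hR : R ⊆ ν.S) :
    PrftNode q Giso (k + 1) j ⟨R, ν.f, ν.τ⟩ := by
  refine ⟨fun x hx i hi => hν.proper x (hR hx) i hi, ?_, hν.mono, hν.deg,
    fun x hx => hν.iso x (hR hx)⟩
  intro i hi
  obtain ⟨k', hk', he⟩ := hν.mem i hi
  exact ⟨k', by omega, he⟩

theorem prft_resid_size (q : PrftPar) (hq : q.Good n) (i i' : ℕ)
    (hii : i + 1 ≤ i') (m r p : ℝ) (hm : 0 ≤ m)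
    (hbig : Real.exp (-(q.a i) / 2) * m ≤ r)
    (hsize : r * Real.exp (-(q.tailA n i')) ≤ p) :
    m * Real.exp (-(q.a i) / 2 - q.tailA n (i + 1)) ≤ p := by
  have h1 : q.tailA n i' ≤ q.tailA n (i + 1) := prft_tailA_anti q hq hii
  have h2 : Real.exp (-(q.tailA n (i + 1))) ≤ Real.exp (-(q.tailA n i')) :=
    Real.exp_le_exp.2 (by linarith)
  have hr : 0 ≤ r := le_trans (by positivity) hbig
  calc m * Real.exp (-(q.a i) / 2 - q.tailA n (i + 1))
      = (Real.exp (-(q.a i) / 2) * m) * Real.exp (-(q.tailA n (i + 1))) := by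
        rw [sub_eq_add_neg, Real.exp_add]; ring
    _ ≤ r * Real.exp (-(q.tailA n (i + 1))) :=
        mul_le_mul_of_nonneg_right hbig (Real.exp_pos _).le
    _ ≤ r * Real.exp (-(q.tailA n i')) := mul_le_mul_of_nonneg_left h2 hr
    _ ≤ p := hsize

/-- terminal pieces of a surviving residual are terminal pieces of the node (fragmentation bound) -/
theorem prft_out_resid (q : PrftPar) (hq : q.Good n) (Giso : Set (PrfPol n)) (k j : ℕ)
    (hk : k < q.G) (hj : j < n) (ν : PrfPiece n) (hν : PrftNode q Giso k j ν)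
    (R : Finset (Fin n → ℂ)) (hR : R ⊆ ν.S)
    (hbig : Real.exp (-(q.a (k * n + j)) / 2) * ν.S.card ≤ R.card)
    (hstop : ∀ S' ⊆ R, PrftCap ν.f j (q.T k) S' →
      (S'.card : ℝ) < Real.exp (-(q.a (k * n + j))) * ν.S.card) (π : PrfPiece n)
    (h : PrftOut q (k + 1) j ⟨R, ν.f, ν.τ⟩ π) : PrftOut q k j ν π := by
  obtain ⟨i, hi⟩ : ∃ i, i = k * n + j := ⟨_, rfl⟩
  have e2 : (k + 1) * n + j = i + n := by rw [hi, Nat.succ_mul]; omega
  have hiK : i < n * q.G := by
    calc i < k * n + n := by omega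
      _ = (k + 1) * n := by rw [Nat.succ_mul]
      _ ≤ q.G * n := Nat.mul_le_mul_right _ hk
      _ = n * q.G := Nat.mul_comm _ _
  rw [← hi] at hbig hstop
  have hm0 : (0 : ℝ) ≤ ν.S.card := by positivity
  have hsz : (R.card : ℝ) * Real.exp (-(q.tailA n (i + n))) ≤ π.S.card := by
    have := h.size
    rw [e2] at this
    exact this
  have hkey := prft_resid_size q hq i (i + n) (by omega) _ _ _ hm0 hbig hsz
  have ha := hq.a_pos i
  have htail := hq.tail i hiK
  have hkap := hq.kap i hiK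
  refine ⟨h.sub.trans hR, h.f_eq, h.τ_eq, ?_, h.mono, h.deg, h.path, ?_, ?_⟩
  · intro i' h1 h2
    obtain ⟨k', hk', hk'', he⟩ := h.mem i' h1 h2
    exact ⟨k', by omega, hk'', he⟩
  · intro k' hkk' hk'G j' hj' h1 h2 S' hS' hcap
    rcases hkk'.lt_or_eq with hlt | rfl
    · exact h.nocap k' hlt hk'G j' hj' h1 h2 S' hS' hcap
    · have hlow : ∀ i' < j, π.τ i' ≤ q.t k := by
        intro i' hi'
        rw [h.τ_eq i' hi']
        obtain ⟨k'', hk'', he⟩ := hν.mem i' hi'
        show ν.τ i' ≤ q.t k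
        rw [he]
        exact hq.t_mono.monotone hk''
      have hhigh : ∀ i', j ≤ i' → i' < n → q.t k < π.τ i' := by
        intro i' h3 h4
        obtain ⟨k'', hk'', _, he⟩ := h.mem i' h3 h4
        rw [he]
        exact hq.t_mono (by omega)
      have hjj : j' = j := by
        rcases lt_trichotomy j' j with hlt | heq | hgt
        · have := h2 j' le_rfl (by omega)
          have := hlow j' hlt
          linarith
        · exact heq
        · have := h1 j hgt
          have := hhigh j le_rfl hj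
          linarith
      subst hjj
      have hcap' : PrftCap ν.f j' (q.T k) S' := by
        obtain ⟨g, hg, hgS⟩ := hcap
        refine ⟨g, hg, fun x hx => ?_⟩
        have := hgS x hx
        rwa [prft_sys_congr (f := π.f) (f' := ν.f) (fun i' hi' => h.f_eq i' hi')] at this
      have hlt := hstop S' (hS'.trans h.sub) hcap'
      have hp0 : (0 : ℝ) ≤ π.S.card := by positivity
      have h5 : Real.exp (-(q.a i)) * ν.S.card
          ≤ Real.exp (-(7 * q.a i / 18)) * π.S.card := by
        have h6 : Real.exp (-(q.a i) / 2 - q.a i / 9)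
            ≤ Real.exp (-(q.a i) / 2 - q.tailA n (i + 1)) := Real.exp_le_exp.2 (by linarith)
        have h7 : (ν.S.card : ℝ) * Real.exp (-(q.a i) / 2 - q.a i / 9) ≤ π.S.card :=
          le_trans (mul_le_mul_of_nonneg_left h6 hm0) hkey
        calc Real.exp (-(q.a i)) * ν.S.card
            = Real.exp (-(7 * q.a i / 18)) * (ν.S.card * Real.exp (-(q.a i) / 2 - q.a i / 9)) := by
              rw [mul_comm (ν.S.card : ℝ), ← mul_assoc, ← Real.exp_add]
              congr 2
              ring
          _ ≤ Real.exp (-(7 * q.a i / 18)) * π.S.card :=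
              mul_le_mul_of_nonneg_left h7 (Real.exp_pos _).le
      calc (S'.card : ℝ) ≤ Real.exp (-(q.a i)) * ν.S.card := hlt.le
        _ ≤ Real.exp (-(7 * q.a i / 18)) * π.S.card := h5
        _ ≤ q.κ * π.S.card := mul_le_mul_of_nonneg_right hkap hp0
  · rw [← hi, prft_tailA_succ q i hiK]
    refine le_trans (mul_le_mul_of_nonneg_left (Real.exp_le_exp.2 ?_) hm0) hkey
    linarith

/-! ### GLUE -/

/-- one step of the tree -/
theorem prft_tree_step (q : PrftPar) (hq : q.Good n) (Giso : Set (PrfPol n)) (k j : ℕ)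
    (hk : k < q.G) (hj : j < n) (h1 : PrftTree q Giso k (j + 1)) (h2 : PrftTree q Giso (k + 1) j) :
    PrftTree q Giso k j := by
  classical
  intro ν hν
  obtain ⟨i, hi⟩ : ∃ i, i = k * n + j := ⟨_, rfl⟩
  have e1 : k * n + (j + 1) = i + 1 := by omega
  have e2 : (k + 1) * n + j = i + n := by rw [hi, Nat.succ_mul]; omega
  have hiK : i < n * q.G := by
    calc i < k * n + n := by omega
      _ = (k + 1) * n := by rw [Nat.succ_mul]
      _ ≤ q.G * n := Nat.mul_le_mul_right _ hk
      _ = n * q.G := Nat.mul_comm _ _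
  rw [← hi]
  obtain ⟨m, hm⟩ : ∃ m : ℝ, m = ν.S.card := ⟨_, rfl⟩
  rw [← hm]
  have hD0 := prft_tailD_nonneg (n := n) q (i + 1)
  have hDs := prft_tailD_succ (n := n) q i hiK
  have hAs := prft_tailA_succ (n := n) q i hiK
  have hm0 : 0 ≤ m := by rw [hm]; positivity
  rcases hm0.eq_or_lt with hm0 | hmpos
  · refine ⟨[], by simp, List.Pairwise.nil, ?_⟩
    rw [← hm0]
    simp [prftMass]
  have hθ : 0 < Real.exp (-(q.a i)) * m := by positivity
  obtain ⟨𝒞, R, h𝒞, h𝒞d, hRS, h𝒞R, hcard, -, hstop⟩ :=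
    prft_greedy (PrftCap ν.f j (q.T k)) _ hθ ν.S
  have hcard' : m = R.card + ((𝒞.map Finset.card).sum : ℕ) := by
    rw [hm, hcard]; push_cast; ring
  -- the children
  have hch : ∀ C ∈ 𝒞, ∃ l : List (PrfPiece n), (∀ π ∈ l, π.S ⊆ C ∧ PrftOut q k j ν π) ∧
      PrftDisj l ∧ (C.card : ℝ) - prftMass l ≤ C.card * q.tailD n (i + 1) := by
    intro C hC
    obtain ⟨hCS, ⟨g, hg, hgC⟩, hCθ⟩ := h𝒞 C hC
    obtain ⟨l, hl1, hl2, hl3⟩ := h1 _ (prft_node_child q Giso k j ν hν C hCS g hg hgC hq.t_mono)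
    rw [e1] at hl3
    refine ⟨l, fun π hπ => ⟨(hl1 π hπ).sub,
      prft_out_child q k j hk.le ν C hCS g ?_ π (hl1 π hπ)⟩, hl2, hl3⟩
    rw [e1, ← hi, hAs, ← hm, neg_add, Real.exp_add, ← mul_assoc]
    refine mul_le_mul_of_nonneg_right ?_ (Real.exp_pos _).le
    rw [mul_comm]
    exact hCθ
  obtain ⟨lc, hlc1, hlc2, hlc3⟩ :=
    prft_combine 𝒞 h𝒞d (q.tailD n (i + 1)) (fun _ π => PrftOut q k j ν π) hch
  have hsum0 : (0 : ℝ) ≤ ((𝒞.map Finset.card).sum : ℕ) := by positivity
  have hR0 : (0 : ℝ) ≤ R.card := by positivity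
  have hexp : 0 < Real.exp (-(q.a i) / 2) := Real.exp_pos _
  by_cases hbig : Real.exp (-(q.a i) / 2) * m ≤ R.card
  · -- the residual survives
    obtain ⟨lr, hlr1, hlr2, hlr3⟩ := h2 _ (prft_node_resid q Giso k j ν hν R hRS)
    rw [e2] at hlr3
    have hlr3' : (R.card : ℝ) - prftMass lr ≤ R.card * q.tailD n (i + n) := hlr3
    have hDa : q.tailD n (i + n) ≤ q.tailD n (i + 1) := prft_tailD_anti q (by omega)
    refine ⟨lc ++ lr, ?_, prft_disj_append _ _ hlc2 hlr2 ?_, ?_⟩
    · intro π hπ
      rcases List.mem_append.1 hπ with hπ | hπ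
      · obtain ⟨C, -, -, h⟩ := hlc1 π hπ
        exact h
      · refine prft_out_resid q hq Giso k j hk hj ν hν R hRS ?_ ?_ π (hlr1 π hπ)
        · rw [← hi, ← hm]; exact hbig
        · rw [← hi, ← hm]; exact hstop
    · intro π hπ π' hπ'
      obtain ⟨C, hC, hπC, -⟩ := hlc1 π hπ
      exact Finset.disjoint_of_subset_left hπC
        (Finset.disjoint_of_subset_right (hlr1 π' hπ').sub (h𝒞R C hC))
    · rw [prft_mass_append]
      push_cast
      have h3 : (R.card : ℝ) * q.tailD n (i + n) ≤ R.card * q.tailD n (i + 1) :=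
        mul_le_mul_of_nonneg_left hDa hR0
      have h4 : m * q.tailD n (i + 1) ≤ m * q.tailD n i := by
        rw [hDs]
        nlinarith
      have h5 : m * q.tailD n (i + 1)
          = R.card * q.tailD n (i + 1) + ((𝒞.map Finset.card).sum : ℕ) * q.tailD n (i + 1) := by
        rw [hcard']; ring
      linarith
  · -- the residual is discarded
    refine ⟨lc, fun π hπ => ?_, hlc2, ?_⟩
    · obtain ⟨C, -, -, h⟩ := hlc1 π hπ
      exact h
    · have hbig' : (R.card : ℝ) < Real.exp (-(q.a i) / 2) * m := not_le.1 hbig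
      have h5 : (((𝒞.map Finset.card).sum : ℕ) : ℝ) * q.tailD n (i + 1) ≤ m * q.tailD n (i + 1) :=
        mul_le_mul_of_nonneg_right (by linarith) hD0
      rw [hDs]
      linarith

/-- THE TREE -/
theorem prft_tree (q : PrftPar) (hq : q.Good n) (Giso : Set (PrfPol n)) (L : ℕ)
    (hG : ∀ g ∈ Giso, g.totalDegree ≤ L) (hL : (L : ℝ) ≤ q.T q.G) :
    ∀ k ≤ q.G, ∀ j ≤ n, PrftTree q Giso k j := by
  have key : ∀ r k, k + r = q.G → ∀ j ≤ n, PrftTree q Giso k j := by
    intro r
    induction r with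
    | zero =>
      intro k hk j hj
      have : k = q.G := by omega
      subst this
      exact prft_tree_fin q hq Giso L hG hL j hj
    | succ r ih =>
      intro k hk
      have ih' := ih (k + 1) (by omega)
      have inner : ∀ r' j, j + r' = n → PrftTree q Giso k j := by
        intro r'
        induction r' with
        | zero =>
          intro j hj
          have : j = n := by omega
          subst this
          exact prft_tree_term q hq Giso k
        | succ r' ih2 =>
          intro j hj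
          exact prft_tree_step q hq Giso k j (by omega) (by omega) (ih2 (j + 1) (by omega))
            (ih' j (by omega))
      intro j hj
      exact inner (n - j) j (by omega)
  intro k hk
  exact key (q.G - k) k (by omega)

/-- the tree of a batch, concrete parameters -/
theorem prft_tree_root (B s : ℝ) (hB : 0 < B) (hs : 1 < s) (A : Finset (Fin n → ℂ))
    (hA : PrftIso A (prfT B s (prftTop n s))) :
    ∃ l : List (PrfPiece n),
      (∀ π ∈ l, π.S ⊆ A ∧ PrftOk0 π B s (prftKap s) (prftGrid n s) ∧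
        (A.card : ℝ) * Real.exp (-(prftLoss n s)) ≤ π.S.card) ∧ PrftDisj l ∧
      (A.card : ℝ) - prftMass l ≤
        A.card * ((prftK n s : ℝ) * Real.exp (-(4 * Real.log s) / 2)) := by
  obtain ⟨Giso, L, hL, hG, hiso⟩ := hA
  have hq := prft_par_good n B s hB hs
  have hLT : (L : ℝ) ≤ (prftPar n B s).T (prftPar n B s).G := by
    show (L : ℝ) ≤ prfT B s (prftTime n s (prftG n s))
    rw [prft_time_top]
    exact hL
  have htree := prft_tree (prftPar n B s) hq Giso L hG hLT 0 (Nat.zero_le _) 0 (Nat.zero_le _)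
  have hnode : PrftNode (prftPar n B s) Giso 0 0 ⟨A, 0, 0⟩ :=
    ⟨fun _ _ i hi => absurd hi (Nat.not_lt_zero _), fun i hi => absurd hi (Nat.not_lt_zero _),
      fun _ i' _ hi => absurd hi (Nat.not_lt_zero _), fun i hi => absurd hi (Nat.not_lt_zero _),
      hiso⟩
  obtain ⟨l, hl1, hl2, hl3⟩ := htree _ hnode
  have hA0 : (0 : ℝ) ≤ A.card := by positivity
  refine ⟨l, fun π hπ => ?_, hl2, ?_⟩
  · have h := hl1 π hπ
    refine ⟨h.sub, ⟨h.mono, fun i hi => ?_, h.deg, h.path, ?_⟩, ?_⟩
    · obtain ⟨k', -, hk', he⟩ := h.mem i (Nat.zero_le _) hi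
      exact (prft_mem_grid n s _).2 ⟨k', hk', he⟩
    · intro t ht j hj h1 h2 g hg S' hS' hp
      obtain ⟨k', hk', rfl⟩ := (prft_mem_grid n s t).1 ht
      exact h.nocap k' (Nat.zero_le _) hk' j hj h1 h2 S' hS' ⟨g, hg, hp⟩
    · refine le_trans ?_ h.size
      refine mul_le_mul_of_nonneg_left ?_ hA0
      rw [Real.exp_le_exp, neg_le_neg_iff]
      simpa using prft_tailA_le n B s hs
  · refine hl3.trans ?_
    refine mul_le_mul_of_nonneg_left ?_ hA0
    simpa using prft_tailD_le n B s hs

end Claimed.Agent.R273
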