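import Claimed.Agent.R273.PrfBudget

/-!
# Row 273, S5: `prf_partition` (prof:partition), blueprint of the proof.  DEFINITIONS.  Prefix `prft`.
(architect helper60)

## Explicit parameters (functions of the width `s` and of the dimension `n` ONLY)
* `prftG n s`   number of grid steps, `⌊log s / (10 n log 10)⌋ + 3`  (so `10^(n G) ≤ 10^(3n) s^(1/10)`);
* `prftMu n s = 3 / G`  mesh,  `prftTop n s = 1 + μ`,  grid times `prftTime n s k = -1 + k (top+1)/G`, `k ≤ G`;
* indices of the potential extraction steps: `i = k n + j` (`k < G` the time index, `j < n` the number of cuts already made), `K = n G` of them;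
  a child has index `i + 1`, a residual has index `i + n`;
* thresholds `λ_i = exp (-a_i)`, `a_i = 4 log s * 10^(K-1-i)`  (NOT the paper's `s^{1/10}`: with `4 log s` everything is a power of `s`);
* `κ(s) = exp (-log s) = 1/s`, tree loss `≤ prftLoss = 10^K * 4 |log s|`, batches of size `≥ N exp (-√s)`, remainder kept if `≥ N exp (-√s/2)`,
  `ρ(s) = √s + loss`, `ω(u) = 2/|u|`.

## Structure of the proof
* `PrfTreeAlg`  : the algebraic inputs (7 small statements);
* `PrfTreeNum`  : the numerical inputs (limits, eventual inequalities, the grid);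
* `PrfTreeComb` : greedy extraction, lists of pieces, THE TREE (`prft_tree`);
* `PrfTreeWin`  : one window (`prft_window`), iteration over the windows, `prft_main`.
-/

set_option autoImplicit false

namespace Claimed.Agent.R273

open MvPolynomial

/-! ### the explicit parameter functions -/

/-- number of grid steps -/
noncomputable def prftG (n : ℕ) (s : ℝ) : ℕ := ⌊Real.log s / (10 * n * Real.log 10)⌋₊ + 3

/-- mesh -/
noncomputable def prftMu (n : ℕ) (s : ℝ) : ℝ := 3 / prftG n s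

/-- last grid time -/
noncomputable def prftTop (n : ℕ) (s : ℝ) : ℝ := 1 + prftMu n s

/-- grid times -/
noncomputable def prftTime (n : ℕ) (s : ℝ) (k : ℕ) : ℝ :=
  -1 + k * ((prftTop n s + 1) / prftG n s)

/-- the grid -/
noncomputable def prftGrid (n : ℕ) (s : ℝ) : Finset ℝ :=
  (Finset.range (prftG n s + 1)).image (prftTime n s)

/-- number of extraction indices -/
noncomputable def prftK (n : ℕ) (s : ℝ) : ℕ := n * prftG n s

/-- threshold exponents -/
noncomputable def prftA (n : ℕ) (s : ℝ) (r : ℕ) : ℝ := 4 * Real.log s * 10 ^ (prftK n s - 1 - r)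

/-- capture fraction -/
noncomputable def prftKap (s : ℝ) : ℝ := Real.exp (-Real.log s)

/-- bound for the total loss of a tree -/
noncomputable def prftLoss (n : ℕ) (s : ℝ) : ℝ := 10 ^ prftK n s * (4 * |Real.log s|)

/-- size loss -/
noncomputable def prftRho (n : ℕ) (s : ℝ) : ℝ := Real.sqrt s + prftLoss n s

/-- discarded fraction -/
noncomputable def prftOm (u : ℝ) : ℝ := 2 / |u|

/-- the numerical conditions on a width `s` (all of them hold for large `s`) -/
structure PrftNum (n : ℕ) (s : ℝ) : Prop where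
  one_lt : 1 < s
  loss_low : prftLoss n s + Real.log s ≤ Real.sqrt (2 * s) - Real.sqrt s
  loss_half : prftLoss n s ≤ Real.sqrt s / 2
  disc : (prftK n s : ℝ) * Real.exp (-(4 * Real.log s) / 2) + Real.exp (-(Real.sqrt s / 2)) ≤ 2 / s
  next : (n : ℝ) * Real.exp (Real.sqrt s) + 1 ≤ Real.exp (prftMu n (s / 2) * (s / 2))
  mu_le : prftMu n s ≤ 1 / 4
  logn : Real.log n ≤ s / 4

/-! ### abstract parameters of a tree -/

/-- parameters of a regularisation tree -/
structure PrftPar where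
  B : ℝ
  s : ℝ
  κ : ℝ
  G : ℕ
  t : ℕ → ℝ
  a : ℕ → ℝ

namespace PrftPar

/-- tail sums of the threshold exponents (`n` = dimension; indices `< n G`) -/
noncomputable def tailA (q : PrftPar) (n i : ℕ) : ℝ := ∑ r ∈ Finset.Ico i (n * q.G), q.a r

/-- tail sums of the discarded fractions -/
noncomputable def tailD (q : PrftPar) (n i : ℕ) : ℝ :=
  ∑ r ∈ Finset.Ico i (n * q.G), Real.exp (-(q.a r) / 2)

/-- testing degree at the grid time number `k` -/
noncomputable def T (q : PrftPar) (k : ℕ) : ℝ := prfT q.B q.s (q.t k)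

/-- admissible parameters -/
structure Good (q : PrftPar) (n : ℕ) : Prop where
  B_pos : 0 < q.B
  s_pos : 0 < q.s
  κ_nonneg : 0 ≤ q.κ
  t_mono : StrictMono q.t
  a_pos : ∀ r, 0 < q.a r
  tail : ∀ i < n * q.G, q.tailA n (i + 1) ≤ q.a i / 9
  kap : ∀ i < n * q.G, Real.exp (-(7 * q.a i / 18)) ≤ q.κ

end PrftPar

/-- the concrete parameters of width `s` -/
noncomputable def prftPar (n : ℕ) (B s : ℝ) : PrftPar :=
  ⟨B, s, prftKap s, prftG n s, prftTime n s, prftA n s⟩

/-! ### isolation, lower boundary -/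

variable {n : ℕ}

/-- `U` consists of isolated zeros of ONE system of degree `≤ T`. -/
def PrftIso (U : Finset (Fin n → ℂ)) (T : ℝ) : Prop :=
  ∃ (G : Set (PrfPol n)) (L : ℕ), (L : ℝ) ≤ T ∧ (∀ g ∈ G, g.totalDegree ≤ L) ∧ ∀ x ∈ U, IsoZero G x

/-- lower boundary: a nonzero polynomial of degree `≤ T_s(-1)` vanishes at `< θ` points of `U`. -/
def PrftLow (U : Finset (Fin n → ℂ)) (B s θ : ℝ) : Prop :=
  1 < prfT B s (-1) → ∀ g : PrfPol n, g ≠ 0 → (g.totalDegree : ℝ) ≤ prfT B s (-1) →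
    ∀ S' ⊆ U, (∀ x ∈ S', eval x g = 0) → (S'.card : ℝ) < θ

/-! ### lists of pieces -/

/-- total mass of a list of pieces -/
def prftMass (l : List (PrfPiece n)) : ℕ := (l.map fun π => π.S.card).sum

/-- the pieces of a list are pairwise disjoint -/
def PrftDisj (l : List (PrfPiece n)) : Prop := l.Pairwise fun π π' => Disjoint π.S π'.S

/-! ### nodes and terminal pieces of a tree -/

/-- `ν` is a node at the time index `k` with `j` cuts made; `Giso` is the isolating system. -/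
structure PrftNode (q : PrftPar) (Giso : Set (PrfPol n)) (k j : ℕ) (ν : PrfPiece n) : Prop where
  proper : ∀ x ∈ ν.S, ∀ i < j, PrfProperAt (prfSys ν.f i) (ν.f i) x
  mem : ∀ i < j, ∃ k' ≤ k, ν.τ i = q.t k'
  mono : ∀ i i', i ≤ i' → i' < j → ν.τ i ≤ ν.τ i'
  deg : ∀ i < j, ((ν.f i).totalDegree : ℝ) ≤ prfT q.B q.s (ν.τ i)
  iso : ∀ x ∈ ν.S, IsoZero Giso x

/-- `S'` is captured by one proper cut of degree `≤ T` of the system `f 0, .., f (j-1)`. -/
def PrftCap (f : ℕ → PrfPol n) (j : ℕ) (T : ℝ) (S' : Finset (Fin n → ℂ)) : Prop :=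
  ∃ g : PrfPol n, (g.totalDegree : ℝ) ≤ T ∧ ∀ x ∈ S', PrfProperAt (prfSys f j) g x

/-- `π` is a terminal piece of the subtree of the node `ν` (time index `k`, `j` cuts made). -/
structure PrftOut (q : PrftPar) (k j : ℕ) (ν π : PrfPiece n) : Prop where
  sub : π.S ⊆ ν.S
  f_eq : ∀ i < j, π.f i = ν.f i
  τ_eq : ∀ i < j, π.τ i = ν.τ i
  mem : ∀ i, j ≤ i → i < n → ∃ k', k ≤ k' ∧ k' ≤ q.G ∧ π.τ i = q.t k'
  mono : ∀ i i', i ≤ i' → i' < n → π.τ i ≤ π.τ i'
  deg : ∀ i < n, ((π.f i).totalDegree : ℝ) ≤ prfT q.B q.s (π.τ i)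
  path : π.Path
  nocap : ∀ k', k ≤ k' → k' ≤ q.G → ∀ j' ≤ n, (∀ i < j', π.τ i ≤ q.t k') →
    (∀ i, j' ≤ i → i < n → q.t k' < π.τ i) → ∀ S' ⊆ π.S, PrftCap π.f j' (q.T k') S' →
      (S'.card : ℝ) ≤ q.κ * π.S.card
  size : (ν.S.card : ℝ) * Real.exp (-(q.tailA n (k * n + j))) ≤ π.S.card

/-- the axioms of a piece without the lower boundary -/
structure PrftOk0 (π : PrfPiece n) (B s κ : ℝ) (grid : Finset ℝ) : Prop where
  mono : ∀ i j, i ≤ j → j < n → π.τ i ≤ π.τ j
  mem : ∀ i < n, π.τ i ∈ grid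
  deg : ∀ i < n, ((π.f i).totalDegree : ℝ) ≤ prfT B s (π.τ i)
  path : π.Path
  nocap : ∀ t ∈ grid, ∀ j ≤ n, (∀ i < j, π.τ i ≤ t) → (∀ i, j ≤ i → i < n → t < π.τ i) →
    ∀ g : PrfPol n, (g.totalDegree : ℝ) ≤ prfT B s t →
      ∀ S' ⊆ π.S, (∀ x ∈ S', PrfProperAt (prfSys π.f j) g x) → (S'.card : ℝ) ≤ κ * π.S.card

/-- the statement of the tree at `(k, j)` -/
def PrftTree (q : PrftPar) (Giso : Set (PrfPol n)) (k j : ℕ) : Prop :=
  ∀ ν : PrfPiece n, PrftNode q Giso k j ν → ∃ l : List (PrfPiece n),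
    (∀ π ∈ l, PrftOut q k j ν π) ∧ PrftDisj l ∧
      (ν.S.card : ℝ) - prftMass l ≤ ν.S.card * q.tailD n (k * n + j)

end Claimed.Agent.R273
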