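import Claimed.Agent.R273.PrfTreeComb

/-!
# Row 273, S5: `prf_partition`: ONE WINDOW, the iteration over the windows, `prft_main` (architect helper60).  Prefix `prft`.

ONE WINDOW of width `s` (`prft_window`).  Input: the unresolved set `U` (`|U| ≤ N`), isolated at degree `T_s(top s)`, with the lower boundary `N e^{-√(2s)}` at degree `T_s(-1)`.  `θ := N e^{-√s}`.
 1. greedy (`prft_greedy`) with `PrftCap1 (T_s(-1/2))`: batches `A` (`|A| ≥ θ`, on a hypersurface of degree `≤ T_s(-1/2)`), residual `R₁`;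
 2. greedy on `R₁` with `PrftCap2 (T_s(1/2))`: batches `C` (`|C| ≥ θ`, isolated at degree `T_s(1/2)`), residual `R₂`;  `U' := R₁ \ R₂` = union of the `C`;
 3. every `A`, and `R₂` if `|R₂| ≥ N e^{-√s/2}`, goes to the tree (`prft_tree_root`).
LEAF PRFT-WIN-A (`prft_T_mono`, `prft_iso_mono`, `prft_win_ok`, `prft_win_imb1`, `prft_win_imb2`).
 * `prft_win_ok`: `low`: `|S'| < N e^{-√(2s)} ≤ e^{-log s} N e^{-√s-loss} ≤ κ |π.S|` by `PrftNum.loss_low`; size: `N e^{-√s} e^{-loss} ≤ |A| e^{-loss} ≤ |π.S|`, `ρ = √s + loss`.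
 * `prft_win_imb1`: if `-1/2 + μ < τ 0`, take a grid time `t ∈ [-1/2, -1/2+μ]` (`(prft_grid n s).mesh`); no cut is made at time `t` (`mono`), the polynomial `h` of `PrftCap1` has degree `≤ T_s(-1/2) ≤ T_s(t)` and is a proper cut of the
   empty system at every point (`prft_proper_zero`): `nocap` with `j = 0`, `S' = π.S` gives `|π.S| ≤ κ |π.S|`, `κ = e^{-log s} < 1`: contradiction.
 * `prft_win_imb2`: if `τ (n-1) ≤ 1/2` then all `τ i ≤ 1/2` (`mono`), the system `prfSys π.f n` has degrees `≤ T_s(1/2)` and isolates every point of `π.S` (`prft_iso_of_path`): `PrftCap2`.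
LEAF PRFT-WIN-B (`prft_win_iso`, `prft_win_low`).
 * `prft_win_iso`: `L := ⌊T_s(1/2)⌋₊ ≥ 1` (`T_s(1/2) ≥ B > 1`); `prft_iso_union` gives degree `L' = n (len L) + 1`; `len θ ≤ ∑|C| ≤ N` (`prft_length_le`), so `len ≤ e^{√s}`;
   `L' ≤ T_s(1/2) (n e^{√s} + 1) ≤ T_s(1/2) exp (μ(s/2) s/2) = T_{s/2}(top (s/2))` by `PrftNum.next`.
 * `prft_win_low`: `T_{s/2}(-1) = T_s(-1/2)`, `√(2 (s/2)) = √s`.
GLUE (helper60): `prft_window`, `prft_iter`, `prft_main`.
-/

set_option autoImplicit false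

namespace Claimed.Agent.R273

open MvPolynomial

variable {n : ℕ}

/-- `S'` lies on a hypersurface of degree `≤ T` -/
def PrftCap1 (T : ℝ) (S' : Finset (Fin n → ℂ)) : Prop :=
  ∃ h : PrfPol n, h ≠ 0 ∧ (h.totalDegree : ℝ) ≤ T ∧ ∀ x ∈ S', eval x h = 0

/-- `S'` consists of isolated zeros of a system of degree `≤ T` -/
def PrftCap2 (T : ℝ) (S' : Finset (Fin n → ℂ)) : Prop :=
  ∃ G : Set (PrfPol n), (∀ g ∈ G, (g.totalDegree : ℝ) ≤ T) ∧ ∀ x ∈ S', IsoZero G x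

/-! ### LEAF PRFT-WIN-A -/

theorem prft_T_mono {B s b b' : ℝ} (hB : 0 < B) (hs : 0 < s) (h : b ≤ b') :
    prfT B s b ≤ prfT B s b' := by
  unfold prfT
  gcongr

theorem prft_iso_mono {U U' : Finset (Fin n → ℂ)} {T : ℝ} (h : PrftIso U T) (hU : U' ⊆ U) :
    PrftIso U' T := by
  obtain ⟨G, L, hL, hG, hx⟩ := h
  exact ⟨G, L, hL, hG, fun x hx' => hx x (hU hx')⟩

/-- a terminal piece of the tree of a batch is a piece -/
theorem prft_win_ok (N B s : ℝ) (hN : 0 < N) (hs : PrftNum n s) (U : Finset (Fin n → ℂ))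
    (hlow : PrftLow U B s (N * Real.exp (-Real.sqrt (2 * s)))) (A : Finset (Fin n → ℂ))
    (hAU : A ⊆ U) (hA : N * Real.exp (-Real.sqrt s) ≤ A.card) (π : PrfPiece n) (hπA : π.S ⊆ A)
    (h0 : PrftOk0 π B s (prftKap s) (prftGrid n s))
    (hsz : (A.card : ℝ) * Real.exp (-(prftLoss n s)) ≤ π.S.card) :
    π.Ok B s (prftKap s) (prftGrid n s) ∧ N * Real.exp (-(prftRho n s)) ≤ π.S.card := by
  have hsize : N * Real.exp (-(prftRho n s)) ≤ π.S.card := by
    refine le_trans ?_ hsz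
    refine le_trans (le_of_eq ?_) (mul_le_mul_of_nonneg_right hA (Real.exp_pos _).le)
    rw [mul_assoc, ← Real.exp_add, prftRho]
    congr 2
    ring
  refine ⟨⟨h0.mono, h0.mem, h0.deg, h0.path, h0.nocap, ?_⟩, hsize⟩
  intro h1 g hg hgd S' hS' hz
  have h2 := hlow h1 g hg hgd S' (hS'.trans (hπA.trans hAU)) hz
  refine h2.le.trans ?_
  have h3 : prftKap s * (N * Real.exp (-(prftRho n s))) ≤ prftKap s * π.S.card :=
    mul_le_mul_of_nonneg_left hsize (Real.exp_pos _).le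
  refine le_trans ?_ h3
  have e : prftKap s * (N * Real.exp (-(prftRho n s))) =
      N * Real.exp (-Real.log s + -(prftRho n s)) := by
    rw [Real.exp_add, prftKap]; ring
  rw [e]
  refine mul_le_mul_of_nonneg_left ?_ hN.le
  rw [Real.exp_le_exp, prftRho]
  have := hs.loss_low
  linarith

/-- imbalance of the pieces of a batch of the first kind -/
theorem prft_win_imb1 (hn : 1 ≤ n) (B s : ℝ) (hB : 0 < B) (hs : 1 < s) (π : PrfPiece n)
    (h0 : PrftOk0 π B s (prftKap s) (prftGrid n s)) (hne : π.S.Nonempty)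
    (hcap : PrftCap1 (prfT B s (-1 / 2)) π.S) : π.τ 0 ≤ -1 / 2 + prftMu n s := by
  by_contra hcon
  rw [not_le] at hcon
  have hμ : 0 ≤ prftMu n s := by unfold prftMu; positivity
  obtain ⟨t, ht, ht1, ht2⟩ := (prft_grid n s).mesh (-1 / 2) (by norm_num)
    (by unfold prftTop; linarith)
  obtain ⟨h, hh0, hhd, hhz⟩ := hcap
  have h1 := h0.nocap t ht 0 (Nat.zero_le n) (fun i hi => absurd hi (Nat.not_lt_zero i))
    (fun i _ hi => lt_of_lt_of_le (lt_of_le_of_lt ht2 hcon) (h0.mono 0 i (Nat.zero_le i) hi)) h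
    (hhd.trans (prft_T_mono hB (by linarith) ht1)) π.S (Finset.Subset.refl _)
    (fun x hx => prft_proper_zero π.f h hh0 x (hhz x hx))
  have hc : (0 : ℝ) < π.S.card := by exact_mod_cast Finset.card_pos.2 hne
  have hk : prftKap s < 1 := by
    unfold prftKap
    rw [Real.exp_lt_one_iff]
    have := Real.log_pos hs
    linarith
  nlinarith

/-- imbalance of the pieces of the remainder -/
theorem prft_win_imb2 (hn : 1 ≤ n) (B s : ℝ) (hB : 0 < B) (hs : 0 < s) (π : PrfPiece n)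
    (h0 : PrftOk0 π B s (prftKap s) (prftGrid n s))
    (hnc : ¬ PrftCap2 (prfT B s (1 / 2)) π.S) : 1 / 2 < π.τ (n - 1) := by
  by_contra hcon
  rw [not_lt] at hcon
  apply hnc
  refine ⟨prfSys π.f n, ?_, fun x hx => prft_iso_of_path π.f x fun i hi => h0.path x hx i hi⟩
  rintro g ⟨i, hi, rfl⟩
  have hi' : i < n := hi
  exact (h0.deg i hi').trans
    (prft_T_mono hB hs ((h0.mono i (n - 1) (by omega) (by omega)).trans hcon))

/-! ### LEAF PRFT-WIN-B -/

/-- the union of the batches of the second kind is isolated at the entry degree of the next window -/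
theorem prft_win_iso (N B s : ℝ) (hN : 0 < N) (hB : 1 < B) (hs : PrftNum n s)
    (𝒞 : List (Finset (Fin n → ℂ)))
    (h𝒞 : ∀ C ∈ 𝒞, PrftCap2 (prfT B s (1 / 2)) C ∧ N * Real.exp (-Real.sqrt s) ≤ (C.card : ℝ))
    (hsum : (((𝒞.map Finset.card).sum : ℕ) : ℝ) ≤ N) (U' : Finset (Fin n → ℂ))
    (hU' : ∀ x ∈ U', ∃ C ∈ 𝒞, x ∈ C) : PrftIso U' (prfT B (s / 2) (prftTop n (s / 2))) := by
  have hs1 := hs.one_lt
  have hs0 : 0 < s := by linarith
  obtain ⟨T₁, hT₁⟩ : ∃ T₁ : ℝ, T₁ = prfT B s (1 / 2) := ⟨_, rfl⟩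
  have hT₁B : B ≤ T₁ := by
    rw [hT₁]
    unfold prfT
    have : (1 : ℝ) ≤ Real.exp (1 / 2 * s) := Real.one_le_exp (by positivity)
    nlinarith
  have hT₁1 : 1 ≤ T₁ := by linarith
  have hL1 : 1 ≤ ⌊T₁⌋₊ := Nat.le_floor (by simpa using hT₁1)
  have hLle : ((⌊T₁⌋₊ : ℕ) : ℝ) ≤ T₁ := Nat.floor_le (by linarith)
  rw [← hT₁] at h𝒞
  obtain ⟨E, hE1, hE2⟩ := prft_iso_union 𝒞 ⌊T₁⌋₊ hL1 (fun C hC => by
    obtain ⟨G, hG1, hG2⟩ := (h𝒞 C hC).1
    exact ⟨G, fun g hg => Nat.le_floor (hG1 g hg), hG2⟩) U' hU'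
  refine ⟨E, n * (𝒞.length * ⌊T₁⌋₊) + 1, ?_, hE1, hE2⟩
  have hlen : (𝒞.length : ℝ) ≤ Real.exp (Real.sqrt s) := by
    have h1 := prft_length_le 𝒞 (N * Real.exp (-Real.sqrt s)) (fun C hC => (h𝒞 C hC).2)
    have h2 : (𝒞.length : ℝ) * (N * Real.exp (-Real.sqrt s)) ≤ N := h1.trans hsum
    have h3 : (𝒞.length : ℝ) * Real.exp (-Real.sqrt s) ≤ 1 := by
      have h4 : ((𝒞.length : ℝ) * Real.exp (-Real.sqrt s)) * N ≤ 1 * N := by linarith
      exact le_of_mul_le_mul_right h4 hN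
    rw [Real.exp_neg, ← div_eq_mul_inv, div_le_one (Real.exp_pos _)] at h3
    exact h3
  have hn0 : (0 : ℝ) ≤ n := Nat.cast_nonneg n
  have hlen0 : (0 : ℝ) ≤ 𝒞.length := Nat.cast_nonneg _
  have hnext := hs.next
  have e : prfT B (s / 2) (prftTop n (s / 2)) = T₁ * Real.exp (prftMu n (s / 2) * (s / 2)) := by
    rw [hT₁]
    unfold prfT prftTop
    rw [mul_assoc, ← Real.exp_add]
    congr 2
    ring
  rw [e]
  push_cast
  calc (n : ℝ) * ((𝒞.length : ℝ) * (⌊T₁⌋₊ : ℝ)) + 1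
      ≤ (n : ℝ) * (Real.exp (Real.sqrt s) * T₁) + T₁ := by
        have h5 : (𝒞.length : ℝ) * (⌊T₁⌋₊ : ℝ) ≤ Real.exp (Real.sqrt s) * T₁ :=
          mul_le_mul hlen hLle (Nat.cast_nonneg _) (Real.exp_pos _).le
        have h6 := mul_le_mul_of_nonneg_left h5 hn0
        linarith
    _ = T₁ * ((n : ℝ) * Real.exp (Real.sqrt s) + 1) := by ring
    _ ≤ T₁ * Real.exp (prftMu n (s / 2) * (s / 2)) :=
        mul_le_mul_of_nonneg_left hnext (by linarith)

/-- the first greedy operation supplies the lower boundary of the next window -/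
theorem prft_win_low (N B s : ℝ) (R U' : Finset (Fin n → ℂ)) (hU' : U' ⊆ R)
    (hstop : ∀ S' ⊆ R, PrftCap1 (prfT B s (-1 / 2)) S' →
      (S'.card : ℝ) < N * Real.exp (-Real.sqrt s)) :
    PrftLow U' B (s / 2) (N * Real.exp (-Real.sqrt (2 * (s / 2)))) := by
  intro _ g hg hdeg S' hS' hz
  have e : prfT B (s / 2) (-1) = prfT B s (-1 / 2) := by
    unfold prfT
    congr 2
    ring
  rw [e] at hdeg
  rw [show 2 * (s / 2) = s by ring]
  exact hstop S' (hS'.trans hU') ⟨g, hg, hdeg, hz⟩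

/-! ### GLUE -/

/-- the properties of a piece of width `s` -/
def PrftGoodPiece (N B s : ℝ) (π : PrfPiece n) : Prop :=
  π.Ok B s (prftKap s) (prftGrid n s) ∧ N * Real.exp (-(prftRho n s)) ≤ π.S.card ∧
    (π.τ 0 ≤ -1 / 2 + prftMu n s ∨ 1 / 2 < π.τ (n - 1))

/-- ONE WINDOW. -/
theorem prft_window (hn : 1 ≤ n) (N B s : ℝ) (hN : 0 < N) (hB : 1 < B) (hs : PrftNum n s)
    (U : Finset (Fin n → ℂ)) (hU : (U.card : ℝ) ≤ N)
    (hiso : PrftIso U (prfT B s (prftTop n s)))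
    (hlow : PrftLow U B s (N * Real.exp (-Real.sqrt (2 * s)))) :
    ∃ (U' : Finset (Fin n → ℂ)) (l : List (PrfPiece n)), U' ⊆ U ∧
      (∀ π ∈ l, π.S ⊆ U ∧ Disjoint U' π.S) ∧ PrftDisj l ∧
      (U.card : ℝ) - U'.card - prftMass l ≤ 2 / s * N ∧
      PrftIso U' (prfT B (s / 2) (prftTop n (s / 2))) ∧
      PrftLow U' B (s / 2) (N * Real.exp (-Real.sqrt (2 * (s / 2)))) ∧
      ∀ π ∈ l, PrftGoodPiece N B s π := by
  classical
  have hs1 := hs.one_lt
  have hs0 : 0 < s := by linarith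
  have hB0 : 0 < B := by linarith
  obtain ⟨θ, hθdef⟩ : ∃ θ : ℝ, θ = N * Real.exp (-Real.sqrt s) := ⟨_, rfl⟩
  have hθ : 0 < θ := by rw [hθdef]; positivity
  obtain ⟨δ, hδdef⟩ : ∃ δ : ℝ, δ = (prftK n s : ℝ) * Real.exp (-(4 * Real.log s) / 2) := ⟨_, rfl⟩
  have hδ0 : 0 ≤ δ := by rw [hδdef]; positivity
  -- the two greedy operations
  obtain ⟨𝒜, R₁, h𝒜, h𝒜d, hR₁U, h𝒜R, hcard₁, -, hstop₁⟩ :=
    prft_greedy (PrftCap1 (n := n) (prfT B s (-1 / 2))) θ hθ U
  obtain ⟨𝒞, R₂, h𝒞, h𝒞d, hR₂R, h𝒞R, hcard₂, hcov₂, hstop₂⟩ :=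
    prft_greedy (PrftCap2 (n := n) (prfT B s (1 / 2))) θ hθ R₁
  have hne_of : ∀ π : PrfPiece n, N * Real.exp (-(prftRho n s)) ≤ π.S.card → π.S.Nonempty := by
    intro π h
    rw [← Finset.card_pos]
    have h1 : 0 < N * Real.exp (-(prftRho n s)) := by positivity
    exact_mod_cast h1.trans_le h
  -- the trees of the batches of the first kind
  have hA : ∀ A ∈ 𝒜, ∃ l : List (PrfPiece n), (∀ π ∈ l, π.S ⊆ A ∧ PrftGoodPiece N B s π) ∧
      PrftDisj l ∧ (A.card : ℝ) - prftMass l ≤ A.card * δ := by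
    intro A hA
    obtain ⟨hAU, hAcap, hAθ⟩ := h𝒜 A hA
    obtain ⟨l, hl1, hl2, hl3⟩ := prft_tree_root B s hB0 hs1 A (prft_iso_mono hiso hAU)
    refine ⟨l, fun π hπ => ?_, hl2, by rw [hδdef]; exact hl3⟩
    obtain ⟨hπA, h0, hsz⟩ := hl1 π hπ
    obtain ⟨hok, hsize⟩ :=
      prft_win_ok N B s hN hs U hlow A hAU (by rw [← hθdef]; exact hAθ) π hπA h0 hsz
    refine ⟨hπA, hok, hsize, Or.inl ?_⟩
    obtain ⟨h, hh0, hhd, hhz⟩ := hAcap
    exact prft_win_imb1 hn B s hB0 hs1 π h0 (hne_of π hsize)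
      ⟨h, hh0, hhd, fun x hx => hhz x (hπA hx)⟩
  obtain ⟨la, hla1, hla2, hla3⟩ :=
    prft_combine 𝒜 h𝒜d δ (fun _ π => PrftGoodPiece N B s π) hA
  -- the next unresolved set
  have hU'R : R₁ \ R₂ ⊆ R₁ := Finset.sdiff_subset
  have hU'card : ((R₁ \ R₂).card : ℝ) = ((𝒞.map Finset.card).sum : ℕ) := by
    have h1 : (R₁ \ R₂).card + R₂.card = R₁.card := Finset.card_sdiff_add_card_eq_card hR₂R
    have h2 : (R₁ \ R₂).card = (𝒞.map Finset.card).sum := by omega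
    rw [h2]
  have hcard₁' : (U.card : ℝ) = R₁.card + ((𝒜.map Finset.card).sum : ℕ) := by
    rw [hcard₁]; push_cast; ring
  have hcard₂' : (R₁.card : ℝ) = R₂.card + ((𝒞.map Finset.card).sum : ℕ) := by
    rw [hcard₂]; push_cast; ring
  have hsA0 : (0 : ℝ) ≤ ((𝒜.map Finset.card).sum : ℕ) := by positivity
  have hsC0 : (0 : ℝ) ≤ ((𝒞.map Finset.card).sum : ℕ) := by positivity
  have hR₂0 : (0 : ℝ) ≤ R₂.card := by positivity
  have hiso' : PrftIso (R₁ \ R₂) (prfT B (s / 2) (prftTop n (s / 2))) := by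
    refine prft_win_iso N B s hN hB hs 𝒞 (fun C hC => ⟨(h𝒞 C hC).2.1, ?_⟩) (by linarith) _ ?_
    · rw [← hθdef]; exact (h𝒞 C hC).2.2
    · intro x hx
      rw [Finset.mem_sdiff] at hx
      exact (hcov₂ x hx.1).resolve_left hx.2
  have hlow' : PrftLow (R₁ \ R₂) B (s / 2) (N * Real.exp (-Real.sqrt (2 * (s / 2)))) :=
    prft_win_low N B s R₁ _ hU'R (by rw [← hθdef]; exact hstop₁)
  have hla_sub : ∀ π ∈ la, π.S ⊆ U ∧ Disjoint R₁ π.S := by
    intro π hπ
    obtain ⟨A, hA', hπA, -⟩ := hla1 π hπ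
    exact ⟨hπA.trans (h𝒜 A hA').1,
      (Finset.disjoint_of_subset_left hπA (h𝒜R A hA')).symm⟩
  have hdisc := hs.disc
  rw [← hδdef] at hdisc
  have hfin : N * δ + N * Real.exp (-(Real.sqrt s / 2)) ≤ 2 / s * N := by
    have := mul_le_mul_of_nonneg_left hdisc hN.le
    linarith
  by_cases hbig : N * Real.exp (-(Real.sqrt s / 2)) ≤ R₂.card
  · -- the remainder is regularised
    have hR₂U : R₂ ⊆ U := hR₂R.trans hR₁U
    obtain ⟨lr, hlr1, hlr2, hlr3⟩ := prft_tree_root B s hB0 hs1 R₂ (prft_iso_mono hiso hR₂U)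
    rw [← hδdef] at hlr3
    have hsq : 0 ≤ Real.sqrt s := Real.sqrt_nonneg s
    have hR₂θ : N * Real.exp (-Real.sqrt s) ≤ R₂.card := by
      refine le_trans ?_ hbig
      refine mul_le_mul_of_nonneg_left ?_ hN.le
      rw [Real.exp_le_exp]
      linarith
    have hgood : ∀ π ∈ lr, PrftGoodPiece N B s π := by
      intro π hπ
      obtain ⟨hπR, h0, hsz⟩ := hlr1 π hπ
      obtain ⟨hok, hsize⟩ := prft_win_ok N B s hN hs U hlow R₂ hR₂U hR₂θ π hπR h0 hsz
      refine ⟨hok, hsize, Or.inr (prft_win_imb2 hn B s hB0 hs0 π h0 fun hcap => ?_)⟩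
      have h1 := hstop₂ π.S hπR hcap
      have h2 : θ ≤ π.S.card := by
        refine le_trans ?_ hsz
        refine le_trans ?_ (mul_le_mul_of_nonneg_right hbig (Real.exp_pos _).le)
        rw [hθdef, mul_assoc, ← Real.exp_add]
        refine mul_le_mul_of_nonneg_left ?_ hN.le
        rw [Real.exp_le_exp]
        have := hs.loss_half
        linarith
      linarith
    refine ⟨R₁ \ R₂, la ++ lr, hU'R.trans hR₁U, ?_, prft_disj_append _ _ hla2 hlr2 ?_, ?_, hiso',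
      hlow', ?_⟩
    · intro π hπ
      rcases List.mem_append.1 hπ with hπ | hπ
      · exact ⟨(hla_sub π hπ).1, Finset.disjoint_of_subset_left hU'R (hla_sub π hπ).2⟩
      · exact ⟨(hlr1 π hπ).1.trans hR₂U,
          Finset.disjoint_of_subset_right (hlr1 π hπ).1 Finset.sdiff_disjoint⟩
    · intro π hπ π' hπ'
      exact (Finset.disjoint_of_subset_left ((hlr1 π' hπ').1.trans hR₂R) (hla_sub π hπ).2).symm
    · rw [prft_mass_append, hU'card, Nat.cast_add]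
      have h3 : (((𝒜.map Finset.card).sum : ℕ) : ℝ) * δ + R₂.card * δ ≤ N * δ := by
        rw [← add_mul]
        exact mul_le_mul_of_nonneg_right (by linarith) hδ0
      have h4 : 0 < N * Real.exp (-(Real.sqrt s / 2)) := by positivity
      linarith
    · intro π hπ
      rcases List.mem_append.1 hπ with hπ | hπ
      · obtain ⟨A, -, -, h⟩ := hla1 π hπ
        exact h
      · exact hgood π hπ
  · -- the remainder is discarded
    refine ⟨R₁ \ R₂, la, hU'R.trans hR₁U, fun π hπ => ⟨(hla_sub π hπ).1,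
      Finset.disjoint_of_subset_left hU'R (hla_sub π hπ).2⟩, hla2, ?_, hiso', hlow', ?_⟩
    · rw [hU'card]
      have hbig' := not_le.1 hbig
      have h3 : (((𝒜.map Finset.card).sum : ℕ) : ℝ) * δ ≤ N * δ :=
        mul_le_mul_of_nonneg_right (by linarith) hδ0
      linarith
    · intro π hπ
      obtain ⟨A, -, -, h⟩ := hla1 π hπ
      exact h

end Claimed.Agent.R273
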