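import Claimed.Agent.R273.RkBez

/-!
# Row 273, rank library [RK], part 8: many points on an irreducible plane curve

`g` irreducible form of degree `t ≤ D` in three variables, `S ⊆ Z(g)` with more than `t D` projectively distinct points.  A form `F` of
degree `D` vanishing on `S` is divisible by `g` (otherwise `IsRelPrime g F`, as `g` is irreducible, and `rk_bezout_card` gives
`|S| ≤ t D`); the quotient is a form of degree `D - t` (`rk_homog_quot`).  So the kernel of `evalOn R_D S` is `g R_{D-t}`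
(`rk_finrank_mulSub`) and rank-nullity (`rk_rkOn_add_ker`, `rk_finrank_homog`) gives the rank.
LEAF RK-curve (this file).
-/

set_option autoImplicit false

namespace Claimed.Agent.R273

open MvPolynomial Module

/-- a form of degree `D` vanishing at more than `t D` projectively distinct points of the irreducible curve `g = 0` is divisible by `g` -/
theorem rk_dvd_of_many {g F : MvPolynomial (Fin 3) ℂ} {t D : ℕ} (hg : Irreducible g) (ht : g.IsHomogeneous t)
    (hF : F.IsHomogeneous D) (S : Finset (Fin 3 → ℂ)) (hS : ProjDistinct (S : Set (Fin 3 → ℂ)))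
    (hZ : (S : Set (Fin 3 → ℂ)) ⊆ zset g) (hcard : t * D < S.card) (hv : ∀ x ∈ S, eval x F = 0) : g ∣ F := by
  by_contra hnd
  have hrel : IsRelPrime g F := hg.isRelPrime_iff_not_dvd.mpr hnd
  have := rk_bezout_card ht hF hrel S hS (fun x hx => ⟨hZ hx, hv x (by exact_mod_cast hx)⟩)
  omega

/-- the rank of more than `t D` points of an irreducible curve of degree `t ≤ D` is the rank of the whole curve -/
theorem rk_hP_many_on_irred {g : MvPolynomial (Fin 3) ℂ} {t D : ℕ} (hg : Irreducible g) (ht : g.IsHomogeneous t)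
    (htD : t ≤ D) (S : Finset (Fin 3 → ℂ)) (hS : ProjDistinct (S : Set (Fin 3 → ℂ)))
    (hZ : (S : Set (Fin 3 → ℂ)) ⊆ zset g) (hcard : t * D < S.card) :
    hP (S : Set (Fin 3 → ℂ)) D + Nat.multichoose 3 (D - t) = Nat.multichoose 3 D := by
  have h1 := rk_rkOn_add_ker (homogeneousSubmodule (Fin 3) ℂ D) (S : Set (Fin 3 → ℂ))
  rw [rk_finrank_homog, Fintype.card_fin] at h1
  have h2 : (LinearMap.ker (evalOn (homogeneousSubmodule (Fin 3) ℂ D) (S : Set (Fin 3 → ℂ)))).map
      (homogeneousSubmodule (Fin 3) ℂ D).subtype = mulSub g (D - t) := by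
    apply le_antisymm
    · rintro _ ⟨F, hF, rfl⟩
      rw [SetLike.mem_coe, rk_mem_ker_evalOn] at hF
      obtain ⟨w, hw⟩ := rk_dvd_of_many hg ht F.2 S hS hZ hcard (fun x hx => hF x (by exact_mod_cast hx))
      have hF2 : (F.1).IsHomogeneous (t + (D - t)) := by
        rw [Nat.add_sub_cancel' htD]; exact F.2
      exact ⟨homogeneousComponent (D - t) w, homogeneousComponent_isHomogeneous _ _,
        (rk_homog_quot ht hF2 hw).symm⟩
    · rintro _ ⟨u, hu, rfl⟩
      have hmem : g * u ∈ homogeneousSubmodule (Fin 3) ℂ D := by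
        have := ht.mul hu
        rwa [Nat.add_sub_cancel' htD] at this
      refine ⟨⟨g * u, hmem⟩, ?_, rfl⟩
      rw [SetLike.mem_coe, rk_mem_ker_evalOn]
      intro x hx
      have : eval x g = 0 := hZ hx
      simp [this]
  have h3 : finrank ℂ (LinearMap.ker (evalOn (homogeneousSubmodule (Fin 3) ℂ D) (S : Set (Fin 3 → ℂ)))) =
      Nat.multichoose 3 (D - t) := by
    have h4 := rk_finrank_mulSub hg.ne_zero (D - t)
    rw [Fintype.card_fin] at h4
    rw [← h4, ← h2]
    exact (Submodule.equivMapOfInjective _ (Submodule.injective_subtype _) _).finrank_eq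
  rw [h3] at h1
  exact h1

/-- numerical form: `h(D) - h(D - t) ≥ t D / 2` for `t ≤ D` -/
theorem rk_hP_many_on_irred_ge {g : MvPolynomial (Fin 3) ℂ} {t D : ℕ} (hg : Irreducible g) (ht : g.IsHomogeneous t)
    (htD : t ≤ D) (S : Finset (Fin 3 → ℂ)) (hS : ProjDistinct (S : Set (Fin 3 → ℂ)))
    (hZ : (S : Set (Fin 3 → ℂ)) ⊆ zset g) (hcard : t * D < S.card) :
    t * D ≤ 2 * hP (S : Set (Fin 3 → ℂ)) D := by
  have h := rk_hP_many_on_irred hg ht htD S hS hZ hcard
  have hmc : ∀ j, 2 * Nat.multichoose 3 j = (j + 1) * (j + 2) := by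
    intro j
    rw [Nat.multichoose_eq, ← pmb_choose_two]
    congr 2
    omega
  have e1 := hmc D
  have e2 := hmc (D - t)
  obtain ⟨s, rfl⟩ : ∃ s, D = t + s := ⟨D - t, by omega⟩
  rw [Nat.add_sub_cancel_left] at e2 h
  nlinarith

/-- a polynomial all of whose monomials have degree `≥` its total degree is a form -/
theorem rk_curve_homog_of_ord {ι : Type*} {g : MvPolynomial ι ℂ} (h : OrdGE (0 : ι → ℂ) g.totalDegree g) :
    g.IsHomogeneous g.totalDegree := by
  intro d hd
  have hd' : d ∈ g.support := MvPolynomial.mem_support_iff.mpr hd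
  have h1 : g.totalDegree ≤ d.degree := by
    have h2 : d ∈ (phSh (0 : ι → ℂ) g).support := by rw [ph_phSh_zero]; exact hd'
    exact h d h2
  have h3 : d.degree ≤ g.totalDegree := le_totalDegree hd'
  have h4 : (Finsupp.weight 1) d = d.degree := by rw [Finsupp.degree_eq_weight_one]; rfl
  rw [h4]
  omega

theorem rk_curve_homog_of_mul {ι : Type*} {f g : MvPolynomial ι ℂ} {k : ℕ} (h : (f * g).IsHomogeneous k)
    (h0 : f * g ≠ 0) : f.IsHomogeneous f.totalDegree ∧ g.IsHomogeneous g.totalDegree ∧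
      f.totalDegree + g.totalDegree = k := by
  have hf0 : f ≠ 0 := left_ne_zero_of_mul h0
  have hg0 : g ≠ 0 := right_ne_zero_of_mul h0
  have hdeg : f.totalDegree + g.totalDegree = k := by
    rw [← totalDegree_mul_of_isDomain hf0 hg0, h.totalDegree h0]
  have hord : OrdGE (0 : ι → ℂ) k (f * g) := by
    intro d hd
    change d ∈ (phSh (0 : ι → ℂ) (f * g)).support at hd
    rw [ph_phSh_zero] at hd
    have := h (MvPolynomial.mem_support_iff.mp hd)
    have h4 : (Finsupp.weight 1) d = d.degree := by rw [Finsupp.degree_eq_weight_one]; rfl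
    rw [h4] at this
    omega
  refine ⟨rk_curve_homog_of_ord ?_, rk_curve_homog_of_ord ?_, hdeg⟩
  · have h1 : OrdGE (0 : ι → ℂ) (g.totalDegree + f.totalDegree) (g * f) := by
      rw [add_comm, mul_comm, hdeg]; exact hord
    rcases ph_ord_mul_or h1 with h2 | h2
    · exact absurd (ph_ord_eq_zero h2 (Nat.lt_succ_self _)) hg0
    · exact h2
  · have h1 : OrdGE (0 : ι → ℂ) (f.totalDegree + g.totalDegree) (f * g) := by
      rw [hdeg]; exact hord
    rcases ph_ord_mul_or h1 with h2 | h2
    · exact absurd (ph_ord_eq_zero h2 (Nat.lt_succ_self _)) hf0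
    · exact h2

/-- factors of a form are forms -/
theorem rk_homog_of_dvd {ι : Type*} {g u : MvPolynomial ι ℂ} {k : ℕ} (hu : u.IsHomogeneous k) (hu0 : u ≠ 0) (h : g ∣ u) :
    ∃ b, b ≤ k ∧ g.IsHomogeneous b := by
  obtain ⟨w, rfl⟩ := h
  obtain ⟨h1, _, h3⟩ := rk_curve_homog_of_mul hu hu0
  exact ⟨g.totalDegree, by omega, h1⟩

theorem rk_curve_list_prod {ι : Type*} (l : List (MvPolynomial ι ℂ × ℕ))
    (h : ∀ p ∈ l, p.1.IsHomogeneous p.2) : (l.map Prod.fst).prod.IsHomogeneous (l.map Prod.snd).sum := by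
  induction l with
  | nil => simpa using isHomogeneous_one ι ℂ
  | cons p l ih =>
    simp only [List.map_cons, List.prod_cons, List.sum_cons]
    exact (h p (List.mem_cons_self ..)).mul (ih fun q hq => h q (List.mem_cons_of_mem _ hq))

/-- a nonzero form of degree `t` is a unit times a product of irreducible forms whose degrees add up to `t` -/
theorem rk_exists_irred_factors {ι : Type*} {u : MvPolynomial ι ℂ} {t : ℕ} (hu : u.IsHomogeneous t) (hu0 : u ≠ 0) :
    ∃ (l : List (MvPolynomial ι ℂ × ℕ)) (c : ℂ), c ≠ 0 ∧ (∀ p ∈ l, Irreducible p.1 ∧ p.1.IsHomogeneous p.2) ∧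
      u = C c * (l.map Prod.fst).prod ∧ (l.map Prod.snd).sum = t := by
  classical
  obtain ⟨v, hv⟩ := UniqueFactorizationMonoid.factors_prod hu0
  obtain ⟨c, hc, hvc⟩ := MvPolynomial.isUnit_iff_eq_C_of_isReduced.mp v.isUnit
  set l : List (MvPolynomial ι ℂ × ℕ) :=
    (UniqueFactorizationMonoid.factors u).toList.map (fun p => (p, p.totalDegree)) with hl
  have hl1 : (l.map Prod.fst).prod = (UniqueFactorizationMonoid.factors u).prod := by
    rw [hl, List.map_map]
    have : (Prod.fst ∘ fun p : MvPolynomial ι ℂ => (p, p.totalDegree)) = id := rfl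
    rw [this, List.map_id, ← Multiset.prod_coe, Multiset.coe_toList]
  have hl2 : ∀ p ∈ l, Irreducible p.1 ∧ p.1.IsHomogeneous p.2 := by
    intro p hp
    rw [hl, List.mem_map] at hp
    obtain ⟨q, hq, rfl⟩ := hp
    rw [Multiset.mem_toList] at hq
    have hirr := UniqueFactorizationMonoid.irreducible_of_factor q hq
    obtain ⟨b, _, hb⟩ := rk_homog_of_dvd hu hu0 (UniqueFactorizationMonoid.dvd_of_mem_factors hq)
    refine ⟨hirr, ?_⟩
    simp only
    rw [hb.totalDegree hirr.ne_zero]
    exact hb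
  have hu' : u = C c * (l.map Prod.fst).prod := by
    rw [hl1, mul_comm, ← hvc]; exact hv.symm
  refine ⟨l, c, hc.ne_zero, hl2, hu', ?_⟩
  have h1 := rk_curve_list_prod l (fun p hp => (hl2 p hp).2)
  have h2 : u.IsHomogeneous (0 + (l.map Prod.snd).sum) := by
    rw [hu']; exact (isHomogeneous_C ι c).mul h1
  rw [zero_add] at h2
  exact h2.inj_right hu hu0

end Claimed.Agent.R273
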