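import Claimed.Agent.R273.SplBasic

/-!
# Row 273, SPARSE, unit S5L (chief helper161): (INDIV), (REG), (UNIQUE), (NONREAL) of `SpLim.lean` from `PrfReg.lean`.

The union of two pools of one window is ONE family over `ν = ℕ ⊕ ℕ`: `spl2I X Y = X.I.disjSum Y.I`, `spl2π X Y = Sum.elim X.π Y.π`; `|spl2I| ≤ 2 e^{θ s}`.   `T(u) = prfT D.B s u`.

LEAF SPL-two (`spl2_*`, `spl_carr_zero`, `spl_carr_point`).
 * `spl_carr_zero`: `prfSys f 0 = ∅`, `Ideal.span ∅ = ⊥`, `⊥` is prime (domain), so `minimalPrimes ⊥ = {⊥}` (`Ideal.minimalPrimes_eq_subsingleton_self`/`IsDomain`), and `zeroLocus ⊥ = univ`.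
 * `spl_carr_point`: `prf_pure` (`vdim = n - n = 0`), `p` prime (member of `minimalPrimes`), `prf_point`: `Z(p) = {x₀}`, `x ∈ Z(p)`; `g(x) = 0 ⇒ g ∈ vanishingIdeal (zeroLocus p) = p.radical = p` (`MvPolynomial.vanishingIdeal_zeroLocus_eq_radical`, `Ideal.IsPrime.radical`).
LEAF SPL-indiv-main (`spl_indiv_main`): `-1 ≤ t`, `j < d`.   `Cn := prf_indiv d`.  `γ := (b j - t)/4 > 0`; if `j ≥ 1` also `γ' := t - b (j-1) > 0` (else `γ' := 1`).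
 Choose `θ ≤ min (ε/2) (min γ' (γ/(d+4)))`, and by `spl_absorb`: `4 Cn + 1 ≤ e^{γ s/2}`.. precisely we need (i), (ii) below.
 `u := t + 2γ ≤ top`; `t' ∈ grid`, `u ≤ t' ≤ u + θ` (`PrfGrid.mesh`); `spl_plateau` for all members of `X` and `Y` (`X.grid = Y.grid`): `b i + θ ≤ t ≤ t'` (`i < j`), `t' ≤ t + 2γ + θ < b j - θ ≤ b i - θ` (`i ≥ j`, `SpAdm.mono`).
 `L := L' := ⌊T(t)⌋₊ ≥ 1` (`spl_one_le_T`, `spl_cut_deg` with `u = t`).    (i) `Cn max (|I| L) L' ≤ ⌊T(t')⌋₊`: `|I| ≤ 2 e^{θ s}`, `T(t') ≥ T(t) e^{2γ s}`, enough: `2 Cn e^{θ s} + 1 ≤ e^{2γ s}`.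
 `prf_indiv` for `c = Sum.inl a`, `S'_a = S' ∩ S_a`:  `|S'_a| ≤ θ |S_a| + (Cn max(..)/⌊T t'⌋) (∑_c degLo_c j) degHi_a j`, with `∑_c degLo ≤ 2 e^{θ s} e_j e^{d θ s}`, `degHi_a ≤ (N/e_j) e^{d θ s}`, `N ≤ |S_a| e^{θ s}`, `⌊T t'⌋ ≥ T(t')/2`:
 second term `≤ 8 Cn e^{(2d+3) θ s - 2γ s} |S_a|`;  (ii) `8 Cn e^{-γ s} ≤ ε/2` and `(2d+3) θ ≤ γ`.   [so take `θ ≤ γ/(2d+3)`.]   Then `spl_sum_members`.
LEAF SPL-indiv-rest (`spl_indiv_top`, `spl_indiv_low`, `spl_indiv_mono`).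
 * `top` (`j = d`): `p ∈ spCarr2 X Y d` is a local carrier at a point `x₀` of a member; `spl_carr_point`: `Z(p) = {x₀}`, so `x = x₀` and `h p (x) = 0 ⇒ h p ∈ p`: contradiction; `S' = ∅`.  (`θ := 1`.)
 * `low` (`j = 0`, `t < -1`): `spCarr2 X Y 0 = {⊥}` (`spl_carr_zero`; pools nonempty, members nonempty), `g := h ⊥ ≠ 0`, `deg g ≤ T(t) ≤ T(-1)`.  If `1 < T(-1)`: `PrfPiece.Ok.low` in every member, `θ := ε`.  Else `T(t) < T(-1) ≤ 1`: `deg g = 0`, `g = C c`, `c ≠ 0`: no zeros.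
 * `mono`: `T(t) ≤ T(t₀)`.
`spl_indiv` is PROVED from these.
LEAF SPL-reg-main (`spl_reg_main`): `1 ≤ j < d`.  `Cn := prf_regular d`.  `β := b (j-1)`, `γ := (t - β)/4`; `θ ≤ γ/(2d+4)`, `θ ≤ ε/2`, `θ < (b j - t)`.  Grid times `t₁ ∈ [β + γ, β + γ + θ]`, `t₂ ∈ [β + 2γ + θ.., ..]`: take `t₂ ∈ [β + 3γ - θ.., ]`, any choice with
 `β + θ + (γ - 2θ) ≤ t₁`, `t₁ + γ ≤ t₂ ≤ t`.   `L := ⌊T(β + θ)⌋₊ ≥ 1`.   Conditions: `Cn |I| L ≤ ⌊T t₁⌋₊`, `Cn ⌊T t₁⌋₊ ≤ ⌊T t₂⌋₊` (absorption);  degrees `⌊T t₁⌋₊ ≤ T(t)`, `Cn ⌊T t₁⌋₊ ≤ ⌊T t₂⌋₊ ≤ T(t)`.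
 Exceptions in a member: `θ |S_a| + (Cn |I| L/⌊T t₁⌋ + Cn ⌊T t₁⌋/⌊T t₂⌋) (∑ degLo) degHi_a ≤ θ |S_a| + 16 Cn e^{-(γ - 2θ) s} e^{(2d+2) θ s} |S_a|`.   Members of `X` are `Sum.inl a`, members of `Y` are `Sum.inr a`; `spl_sum_members` twice.
LEAF SPL-reg-top (`spl_reg_top`): `j = d`, directly from `prf_reg` with `k = 0` (NO grid time: `t` may exceed `top`).   `𝒜` := all carriers after `d` cuts of both pools (`prf_carriers_finite`), `PrfFam (spl2I X Y) (fun c => prfSys (π c).f d) (fun _ => L) 0 𝒜`, `L := ⌊T(b (d-1) + θ)⌋₊`;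
 `Dg := ⌊T(t)/Cn⌋₊`, `Cn |I| L ≤ Dg`.   `F, g, ℰ`.   A point `x ∈ S_a` with `g(x) = 0`: its local carrier `p_x` (exists: `span (sys d) ≤ 𝔪_x`, `Ideal.exists_minimalPrimes_le`) has `g ∈ p_x` (`spl_carr_point`), so `p_x ∈ ℰ`; `x ↦ p_x` is injective (`Z(p_x) = {x}`), `vdeg = 1`:
 `#{x} ≤ prfDeg ℰ ≤ Cn prfDeg 𝒜 |I| L / Dg`, `prfDeg 𝒜 = |𝒜| ≤ |X.pts| + |Y.pts| ≤ 2N`.
`spl_reg` is PROVED from `spl_reg_main`, `spl_reg_top` (`j = 0`: `F = ∅`, `g = 1`).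
LEAF SPL-unique (`spl_unique`): `prf_unique` with `ν = ℕ ⊕ ℕ`.      LEAF SPL-nonreal (`spl_nonreal`): `h p := l_p` (`Classical.choose`) if `SpNonreal p`, else `1`; `1 ∉ p` (`p` prime, from `minimalPrimes`); `deg ≤ 1 ≤ T(t)` (`spl_one_le_T`); points of `X.pts` are real (`spl_real`); apply `spl_indiv`.
-/

set_option autoImplicit false

namespace Claimed.Agent.R273

open MvPolynomial Module

variable {d : ℕ}

/-! ### two pools as one family -/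

/-- index set of the union of two pools -/
def spl2I (X Y : SpPool d) : Finset (ℕ ⊕ ℕ) := X.I.disjSum Y.I

/-- members of the union of two pools -/
def spl2π (X Y : SpPool d) : ℕ ⊕ ℕ → PrfPiece d := Sum.elim X.π Y.π

theorem spl2_carr (X Y : SpPool d) (j : ℕ) (p : Ideal (PrfPol d)) :
    p ∈ spCarr2 X Y j ↔ ∃ c ∈ spl2I X Y, p ∈ (spl2π X Y c).carriers j := by
  unfold spCarr2 SpPool.carriers spl2I spl2π
  simp only [Set.mem_union, Set.mem_ofPred_eq, Finset.mem_disjSum]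
  constructor
  · rintro (⟨a, ha, hp⟩ | ⟨a, ha, hp⟩)
    · exact ⟨Sum.inl a, Or.inl ⟨a, ha, rfl⟩, hp⟩
    · exact ⟨Sum.inr a, Or.inr ⟨a, ha, rfl⟩, hp⟩
  · rintro ⟨c, (⟨a, ha, rfl⟩ | ⟨a, ha, rfl⟩), hp⟩
    · exact Or.inl ⟨a, ha, hp⟩
    · exact Or.inr ⟨a, ha, hp⟩

theorem spl2_ok {D : SpData d} {X Y : SpPool d} {s θ : ℝ} {b : ℕ → ℝ} (h : SpTwo D X Y s θ b) :
    ∀ c ∈ spl2I X Y, (spl2π X Y c).Ok D.B s θ X.grid := by
  intro c hc
  rcases Finset.mem_disjSum.mp hc with ⟨a, ha, rfl⟩ | ⟨a, ha, rfl⟩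
  · exact h.okX.piece a ha
  · rw [h.grid]
    exact h.okY.piece a ha

theorem spl2_card {D : SpData d} {X Y : SpPool d} {s θ : ℝ} {b : ℕ → ℝ} (hd : 1 ≤ d) (hθ : 0 < θ)
    (h : SpTwo D X Y s θ b) : ((spl2I X Y).card : ℝ) ≤ 2 * Real.exp (θ * s) := by
  unfold spl2I
  rw [Finset.card_disjSum]
  push_cast
  linarith [spl_card_I hd hθ h.okX, spl_card_I hd hθ h.okY]

theorem spl2_degLo {D : SpData d} {X Y : SpPool d} {s θ : ℝ} {b : ℕ → ℝ} (hd : 1 ≤ d) (hθ : 0 < θ)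
    (h : SpTwo D X Y s θ b) {j : ℕ} (hj : j ≤ d) :
    ∑ c ∈ spl2I X Y, ((spl2π X Y c).degLo j : ℝ) ≤
      2 * spE D.B s b j * Real.exp ((d + 1) * θ * s) := by
  have key : ∀ {Z : SpPool d}, Z.Ok D s θ b →
      ∑ a ∈ Z.I, ((Z.π a).degLo j : ℝ) ≤ spE D.B s b j * Real.exp ((d + 1) * θ * s) := by
    intro Z hZ
    have hE := spl_spE_pos hθ hZ j
    calc ∑ a ∈ Z.I, ((Z.π a).degLo j : ℝ)
        ≤ ∑ _a ∈ Z.I, spE D.B s b j * Real.exp (d * θ * s) :=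
          Finset.sum_le_sum fun a ha => spl_degLo_le hθ hZ ha hj
      _ = (Z.I.card : ℝ) * (spE D.B s b j * Real.exp (d * θ * s)) := by simp
      _ ≤ Real.exp (θ * s) * (spE D.B s b j * Real.exp (d * θ * s)) :=
          mul_le_mul_of_nonneg_right (spl_card_I hd hθ hZ) (by positivity)
      _ = spE D.B s b j * Real.exp ((d + 1) * θ * s) := by
          rw [show ((d : ℝ) + 1) * θ * s = θ * s + d * θ * s by ring, Real.exp_add]
          ring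
  unfold spl2I spl2π
  rw [Finset.sum_disjSum]
  simp only [Sum.elim_inl, Sum.elim_inr]
  linarith [key h.okX, key h.okY]

/-- before the first cut the only carrier is the whole space -/
theorem spl_carr_zero {n : ℕ} (f : ℕ → PrfPol n) (x : Fin n → ℂ) (p : Ideal (PrfPol n)) :
    p ∈ prfCarr (prfSys f 0) x ↔ p = ⊥ := by
  exact prf_carr_bot f x p

/-- after `n` proper cuts the local carriers at `x` are the maximal ideal of `x` -/
theorem spl_carr_point {n : ℕ} (f : ℕ → PrfPol n) (x : Fin n → ℂ)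
    (h : ∀ i < n, PrfProperAt (prfSys f i) (f i) x) (p : Ideal (PrfPol n))
    (hp : p ∈ prfCarr (prfSys f n) x) :
    zeroLocus ℂ p = {x} ∧ ∀ g : PrfPol n, eval x g = 0 → g ∈ p := by
  have hpure := (prf_pure f n x h).2 p hp
  have hprime := prf_carr_prime hp
  obtain ⟨⟨x0, hx0⟩, _⟩ := prf_point p hprime (by simpa using hpure)
  have hx : x = x0 := by
    have := hp.2
    rw [hx0] at this
    exact this
  subst hx
  refine ⟨hx0, fun g hg => ?_⟩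
  have h1 : vanishingIdeal ℂ (zeroLocus ℂ p) = p := by
    rw [vanishingIdeal_zeroLocus_eq_radical, hprime.radical]
  rw [← h1, mem_vanishingIdeal_iff, hx0]
  intro y hy
  rw [Set.mem_singleton_iff.mp hy]
  simpa [aeval_eq_eval] using hg

/-! ### numerics shared by (INDIV) and (REG) -/

theorem spl_exp_absorb {C η a₁ a₂ s : ℝ} (hs : 0 ≤ s) (hC : C ≤ Real.exp (η * s)) (h : a₁ + η ≤ a₂) :
    C * Real.exp (a₁ * s) ≤ Real.exp (a₂ * s) := by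
  calc C * Real.exp (a₁ * s) ≤ Real.exp (η * s) * Real.exp (a₁ * s) :=
        mul_le_mul_of_nonneg_right hC (Real.exp_pos _).le
    _ = Real.exp ((a₁ + η) * s) := by
        rw [← Real.exp_add]
        congr 1
        ring
    _ ≤ Real.exp (a₂ * s) := Real.exp_le_exp.mpr (mul_le_mul_of_nonneg_right h hs)

theorem spl_lohi {D : SpData d} {X Y : SpPool d} {s θ : ℝ} {b : ℕ → ℝ} (hd : 1 ≤ d) (hb : SpAdm d b)
    (hθ : 0 < θ) (h : SpTwo D X Y s θ b) {j : ℕ} (hj : j ≤ d) {c : ℕ ⊕ ℕ} (hc : c ∈ spl2I X Y) :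
    (∑ c' ∈ spl2I X Y, ((spl2π X Y c').degLo j : ℝ)) * ((spl2π X Y c).degHi j : ℝ)
      ≤ 2 * ((spl2π X Y c).S.card : ℝ) * Real.exp ((2 * d + 2) * θ * s) := by
  have hE := spl_spE_pos hθ h.okX j
  have hlo := spl2_degLo hd hθ h hj
  have hN := spl_N_pos hd hθ h.okX
  have hhi : ((spl2π X Y c).degHi j : ℝ) ≤ D.N / spE D.B s b j * Real.exp (d * θ * s) ∧
      D.N ≤ ((spl2π X Y c).S.card : ℝ) * Real.exp (θ * s) := by
    rcases Finset.mem_disjSum.mp hc with ⟨a, ha, rfl⟩ | ⟨a, ha, rfl⟩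
    · exact ⟨spl_degHi_le hd hb hθ h.okX ha hj, spl_N_le_member h.okX ha⟩
    · exact ⟨spl_degHi_le hd hb hθ h.okY ha hj, spl_N_le_member h.okY ha⟩
  calc (∑ c' ∈ spl2I X Y, ((spl2π X Y c').degLo j : ℝ)) * ((spl2π X Y c).degHi j : ℝ)
      ≤ (2 * spE D.B s b j * Real.exp ((d + 1) * θ * s))
          * (D.N / spE D.B s b j * Real.exp (d * θ * s)) :=
        mul_le_mul hlo hhi.1 (Nat.cast_nonneg _) (by positivity)
    _ = 2 * D.N * (Real.exp ((d + 1) * θ * s) * Real.exp (d * θ * s)) := by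
        field_simp
    _ = 2 * D.N * Real.exp ((2 * d + 1) * θ * s) := by
        rw [← Real.exp_add]
        congr 2
        ring
    _ ≤ 2 * (((spl2π X Y c).S.card : ℝ) * Real.exp (θ * s)) * Real.exp ((2 * d + 1) * θ * s) := by
        gcongr
        exact hhi.2
    _ = 2 * ((spl2π X Y c).S.card : ℝ) * (Real.exp (θ * s) * Real.exp ((2 * d + 1) * θ * s)) := by
        ring
    _ = 2 * ((spl2π X Y c).S.card : ℝ) * Real.exp ((2 * d + 2) * θ * s) := by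
        rw [← Real.exp_add]
        congr 2
        ring

theorem spl_member_bound {D : SpData d} {X Y : SpPool d} {s θ : ℝ} {b : ℕ → ℝ} (hd : 1 ≤ d)
    (hb : SpAdm d b) (hθ : 0 < θ) (h : SpTwo D X Y s θ b) {j : ℕ} (hj : j ≤ d) {c : ℕ ⊕ ℕ}
    (hc : c ∈ spl2I X Y) {ε κ A n : ℝ} (hκ : κ ≤ ε / 2) (hA0 : 0 ≤ A)
    (hA : A * Real.exp ((2 * d + 2) * θ * s) ≤ ε / 4)
    (hn : n ≤ κ * ((spl2π X Y c).S.card : ℝ)
      + A * (∑ c' ∈ spl2I X Y, ((spl2π X Y c').degLo j : ℝ)) * ((spl2π X Y c).degHi j : ℝ)) :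
    n ≤ ε * ((spl2π X Y c).S.card : ℝ) := by
  have h1 := spl_lohi hd hb hθ h hj hc
  have hS : (0 : ℝ) ≤ ((spl2π X Y c).S.card : ℝ) := Nat.cast_nonneg _
  have h2 : A * (∑ c' ∈ spl2I X Y, ((spl2π X Y c').degLo j : ℝ)) * ((spl2π X Y c).degHi j : ℝ)
      ≤ ε / 2 * ((spl2π X Y c).S.card : ℝ) := by
    calc A * (∑ c' ∈ spl2I X Y, ((spl2π X Y c').degLo j : ℝ)) * ((spl2π X Y c).degHi j : ℝ)
        = A * ((∑ c' ∈ spl2I X Y, ((spl2π X Y c').degLo j : ℝ)) * ((spl2π X Y c).degHi j : ℝ)) := by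
          ring
      _ ≤ A * (2 * ((spl2π X Y c).S.card : ℝ) * Real.exp ((2 * d + 2) * θ * s)) :=
          mul_le_mul_of_nonneg_left h1 hA0
      _ = (A * Real.exp ((2 * d + 2) * θ * s)) * (2 * ((spl2π X Y c).S.card : ℝ)) := by ring
      _ ≤ ε / 4 * (2 * ((spl2π X Y c).S.card : ℝ)) :=
          mul_le_mul_of_nonneg_right hA (by positivity)
      _ = ε / 2 * ((spl2π X Y c).S.card : ℝ) := by ring
  have h3 : κ * ((spl2π X Y c).S.card : ℝ) ≤ ε / 2 * ((spl2π X Y c).S.card : ℝ) :=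
    mul_le_mul_of_nonneg_right hκ hS
  linarith

/-- `m / ⌊x⌋₊ ≤ 2 m / x` for `x ≥ 1` -/
theorem spl_ratio {m x : ℝ} (hm : 0 ≤ m) (hx : 1 ≤ x) : m / (⌊x⌋₊ : ℝ) ≤ 2 * m / x := by
  have h1 := spl_floor hx
  have hx0 : 0 < x := by linarith
  have h2 : 0 < (⌊x⌋₊ : ℝ) := by linarith
  rw [div_le_div_iff₀ h2 hx0]
  nlinarith

theorem spl2_card_pos {D : SpData d} {X Y : SpPool d} {s θ : ℝ} {b : ℕ → ℝ}
    (h : SpTwo D X Y s θ b) : 1 ≤ (spl2I X Y).card := by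
  obtain ⟨a, ha⟩ := h.okX.ne
  exact Finset.card_pos.mpr ⟨Sum.inl a, Finset.inl_mem_disjSum.mpr ha⟩

theorem spl2_plateau {D : SpData d} {X Y : SpPool d} {s θ : ℝ} {b : ℕ → ℝ}
    (h : SpTwo D X Y s θ b) {j : ℕ} (hj : j ≤ d) {u : ℝ} (h1 : ∀ i < j, b i + θ ≤ u)
    (h2 : ∀ i, j ≤ i → i < d → u < b i - θ) : ∀ c ∈ spl2I X Y, PrfPlateau (spl2π X Y c) j u := by
  intro c hc
  rcases Finset.mem_disjSum.mp hc with ⟨a, ha, rfl⟩ | ⟨a, ha, rfl⟩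
  · exact spl_plateau h.okX ha hj h1 h2
  · exact spl_plateau h.okY ha hj h1 h2

theorem spl2_cut_deg {D : SpData d} {X Y : SpPool d} {s θ : ℝ} {b : ℕ → ℝ} (hθ : 0 < θ)
    (h : SpTwo D X Y s θ b) {j : ℕ} (hj : j ≤ d) {u : ℝ} (hu : ∀ i < j, b i + θ ≤ u) :
    ∀ c ∈ spl2I X Y, ∀ i < j, ((spl2π X Y c).f i).totalDegree ≤ ⌊prfT D.B s u⌋₊ := by
  intro c hc
  rcases Finset.mem_disjSum.mp hc with ⟨a, ha, rfl⟩ | ⟨a, ha, rfl⟩
  · exact spl_cut_deg hθ h.okX ha hj hu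
  · exact spl_cut_deg hθ h.okY ha hj hu

/-- `|I| ⌊T(u)⌋ ≤ 2 e^{θ s} T(u)` -/
theorem spl2_card_mul {D : SpData d} {X Y : SpPool d} {s θ : ℝ} {b : ℕ → ℝ} (hd : 1 ≤ d) (hθ : 0 < θ)
    (h : SpTwo D X Y s θ b) (u : ℝ) :
    (((spl2I X Y).card * ⌊prfT D.B s u⌋₊ : ℕ) : ℝ) ≤ 2 * Real.exp (θ * s) * prfT D.B s u := by
  have hT : 0 ≤ prfT D.B s u := (mul_pos (spl_B_pos hθ h.okX) (Real.exp_pos _)).le
  push_cast
  exact mul_le_mul (spl2_card hd hθ h) (Nat.floor_le hT) (Nat.cast_nonneg _) (by positivity)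

/-- `m / ⌊T(v)⌋ ≤ 2 K e^{-δ s}` if `m ≤ K T(u)`, `u + δ ≤ v` -/
theorem spl_frac {B s u v δ m K : ℝ} (hB : 0 < B) (hs : 0 ≤ s) (hm0 : 0 ≤ m) (hK : 0 ≤ K)
    (hm : m ≤ K * prfT B s u) (huv : u + δ ≤ v) (hv : 1 ≤ prfT B s v) :
    m / (⌊prfT B s v⌋₊ : ℝ) ≤ 2 * K * Real.exp (-(δ * s)) := by
  have h1 : prfT B s u * Real.exp (δ * s) ≤ prfT B s v := by
    rw [← spl_T_add]
    exact spl_T_mono hB.le hs huv
  have hv0 : 0 < prfT B s v := by linarith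
  refine (spl_ratio hm0 hv).trans ?_
  rw [div_le_iff₀ hv0, Real.exp_neg]
  have he := Real.exp_pos (δ * s)
  have h2 : prfT B s u ≤ (Real.exp (δ * s))⁻¹ * prfT B s v := by
    rw [← div_eq_inv_mul, le_div_iff₀ he]
    exact h1
  calc 2 * m ≤ 2 * (K * prfT B s u) := by linarith
    _ ≤ 2 * (K * ((Real.exp (δ * s))⁻¹ * prfT B s v)) := by gcongr
    _ = 2 * K * (Real.exp (δ * s))⁻¹ * prfT B s v := by ring

/-- `K e^{a s} ≤ ε/4` if `4K/ε ≤ e^{η s}`, `a + η ≤ 0` -/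
theorem spl_small {K ε η a s : ℝ} (hε : 0 < ε) (hs : 0 ≤ s) (hC : 4 * K / ε ≤ Real.exp (η * s))
    (h : a + η ≤ 0) : K * Real.exp (a * s) ≤ ε / 4 := by
  have h1 := spl_exp_absorb (a₁ := a) (a₂ := 0) hs hC h
  rw [zero_mul, Real.exp_zero] at h1
  have h2 : 4 * K / ε * Real.exp (a * s) * (ε / 4) = K * Real.exp (a * s) := by
    field_simp
  nlinarith

/-! ### (INDIV) -/

/-- the conclusion of (INDIV) for fixed `b ε j t` -/
def SplIndivAt (d : ℕ) (b : ℕ → ℝ) (ε : ℝ) (j : ℕ) (t : ℝ) : Prop :=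
  ∃ θ : ℝ, 0 < θ ∧ ∀ (D : SpData d) (X Y : SpPool d) (s : ℝ), SpTwo D X Y s θ b →
    ∀ h : Ideal (PrfPol d) → PrfPol d,
      (∀ p ∈ spCarr2 X Y j, h p ∉ p ∧ ((h p).totalDegree : ℝ) ≤ prfT D.B s t) →
      ∀ S' ⊆ X.pts, (∀ x ∈ S', ∃ p ∈ spCarr2 X Y j, x ∈ zeroLocus ℂ p ∧ eval x (h p) = 0) →
        (S'.card : ℝ) ≤ ε * X.pts.card

theorem spl_indiv_main (hd : 1 ≤ d) {b : ℕ → ℝ} (hb : SpAdm d b) {ε : ℝ} (hε : 0 < ε) {j : ℕ}
    {t : ℝ} (hj : j < d) (ht : -1 ≤ t) (hpl : SpPlat d b j t) : SplIndivAt d b ε j t := by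
  obtain ⟨Cn, hCn, H⟩ := prf_indiv d
  have hCn' : (0 : ℝ) < Cn := by exact_mod_cast hCn
  obtain ⟨γ, hγdef⟩ : ∃ γ : ℝ, γ = (b j - t) / 4 := ⟨_, rfl⟩
  have hγ : 0 < γ := by
    have := hpl.2.2 j le_rfl hj
    rw [hγdef]
    linarith
  obtain ⟨γ', hγ', hγ'le⟩ : ∃ γ' : ℝ, 0 < γ' ∧ ∀ i < j, b i + γ' ≤ t := by
    rcases Nat.eq_zero_or_pos j with h0 | h0
    · exact ⟨1, one_pos, fun i hi => by omega⟩
    · refine ⟨t - b (j - 1), by linarith [hpl.2.1 (j - 1) (by omega)], fun i hi => ?_⟩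
      have := hb.mono i (j - 1) (by omega) (by omega)
      linarith
  obtain ⟨θ₁, hθ₁, A1⟩ := spl_absorb (2 * Cn) γ hγ
  obtain ⟨θ₂, hθ₂, A2⟩ := spl_absorb (16 * Cn / ε) γ hγ
  have hd3 : (0 : ℝ) < 2 * d + 3 := by positivity
  obtain ⟨θ, hθ, c1, c2, c3, c4, c5⟩ : ∃ θ : ℝ, 0 < θ ∧ θ ≤ ε / 2 ∧ θ ≤ γ' ∧ (2 * d + 3) * θ ≤ γ ∧
      θ ≤ θ₁ ∧ θ ≤ θ₂ := by
    refine ⟨min (min (ε / 2) γ') (min (γ / (2 * d + 3)) (min θ₁ θ₂)), by positivity, ?_, ?_, ?_, ?_, ?_⟩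
    · exact (min_le_left _ _).trans (min_le_left _ _)
    · exact (min_le_left _ _).trans (min_le_right _ _)
    · have : min (min (ε / 2) γ') (min (γ / (2 * d + 3)) (min θ₁ θ₂)) ≤ γ / (2 * d + 3) :=
        (min_le_right _ _).trans (min_le_left _ _)
      rw [le_div_iff₀ hd3] at this
      linarith
    · exact (min_le_right _ _).trans ((min_le_right _ _).trans (min_le_left _ _))
    · exact (min_le_right _ _).trans ((min_le_right _ _).trans (min_le_right _ _))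
  have hθγ : θ ≤ γ / 5 := by
    have h5 : (1 : ℝ) ≤ d := by exact_mod_cast hd
    nlinarith
  refine ⟨θ, hθ, fun D X Y s h2 hh hdeg S' hS' hx => ?_⟩
  have hs := spl_s_pos hθ h2.okX
  have hB := spl_B_pos hθ h2.okX
  have a1 := A1 θ s hθ c4 h2.okX.s_ge
  have a2 := A2 θ s hθ c5 h2.okX.s_ge
  have hbj : b j ≤ 1 := (hb.mono j (d - 1) (by omega) (by omega)).trans hb.hi
  obtain ⟨t', ht'g, ht'1, ht'2⟩ := h2.okX.grid.mesh (t + 2 * γ) (by linarith)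
    (by linarith [h2.okX.top_ge])
  have hplat := spl2_plateau h2 hj.le (u := t') (fun i hi => by linarith [hγ'le i hi])
    (fun i hi hid => by
      have := hb.mono j i hi hid
      linarith)
  have hT1 : 1 ≤ prfT D.B s t := spl_one_le_T hθ h2.okX ht
  have hL1 : 1 ≤ ⌊prfT D.B s t⌋₊ := Nat.le_floor (by simpa using hT1)
  have hcut := spl2_cut_deg hθ h2 hj.le (u := t) (fun i hi => by linarith [hγ'le i hi])
  have hI1 := spl2_card_pos h2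
  have hmax : max ((spl2I X Y).card * ⌊prfT D.B s t⌋₊) ⌊prfT D.B s t⌋₊
      = (spl2I X Y).card * ⌊prfT D.B s t⌋₊ := max_eq_left (Nat.le_mul_of_pos_left _ hI1)
  have hTt' : prfT D.B s t * Real.exp (2 * γ * s) ≤ prfT D.B s t' := by
    rw [← spl_T_add]
    exact spl_T_mono hB.le hs.le ht'1
  have hM : ((Cn * ((spl2I X Y).card * ⌊prfT D.B s t⌋₊) : ℕ) : ℝ)
      ≤ 2 * Cn * Real.exp (θ * s) * prfT D.B s t := by
    have := spl2_card_mul hd hθ h2 t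
    rw [Nat.cast_mul]
    calc (Cn : ℝ) * (((spl2I X Y).card * ⌊prfT D.B s t⌋₊ : ℕ) : ℝ)
        ≤ Cn * (2 * Real.exp (θ * s) * prfT D.B s t) := mul_le_mul_of_nonneg_left this hCn'.le
      _ = 2 * Cn * Real.exp (θ * s) * prfT D.B s t := by ring
  have hM2 : 2 * Cn * Real.exp (θ * s) ≤ Real.exp (2 * γ * s) :=
    spl_exp_absorb hs.le a1 (by linarith)
  have hT1' : 1 ≤ prfT D.B s t' := by
    have : (1 : ℝ) ≤ Real.exp (2 * γ * s) := Real.one_le_exp (by positivity)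
    nlinarith
  have hcond : Cn * max ((spl2I X Y).card * ⌊prfT D.B s t⌋₊) ⌊prfT D.B s t⌋₊ ≤ ⌊prfT D.B s t'⌋₊ := by
    rw [hmax]
    apply Nat.le_floor
    calc ((Cn * ((spl2I X Y).card * ⌊prfT D.B s t⌋₊) : ℕ) : ℝ)
        ≤ 2 * Cn * Real.exp (θ * s) * prfT D.B s t := hM
      _ ≤ Real.exp (2 * γ * s) * prfT D.B s t := mul_le_mul_of_nonneg_right hM2 (by linarith)
      _ ≤ prfT D.B s t' := by linarith
  refine spl_sum_members h2.okX S' hS' ε fun a ha => ?_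
  have hc : Sum.inl a ∈ spl2I X Y := Finset.inl_mem_disjSum.mpr ha
  have key := H (spl2I X Y) (spl2π X Y) D.B s θ X.grid (spl2_ok h2) j t' hj.le ht'g hplat
    ⌊prfT D.B s t⌋₊ ⌊prfT D.B s t⌋₊ hL1 hL1 hcut hh
    (fun c hc p hp => by
      have := hdeg p ((spl2_carr X Y j p).mpr ⟨c, hc, hp⟩)
      exact ⟨this.1, Nat.le_floor this.2⟩) hcond (Sum.inl a) hc (S' ∩ (X.π a).S)
    Finset.inter_subset_right (fun x hxS => by
      obtain ⟨p, hp, hxp, hx0⟩ := hx x (Finset.mem_inter.mp hxS).1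
      obtain ⟨c, hc, hpc⟩ := (spl2_carr X Y j p).mp hp
      exact ⟨c, hc, p, hpc, hxp, hx0⟩)
  rw [hmax] at key
  refine spl_member_bound hd hb hθ h2 hj.le hc c1 (by positivity) ?_ key
  -- the numerical core
  have hT0 : 0 < prfT D.B s t := by linarith
  have r1 : ((Cn * ((spl2I X Y).card * ⌊prfT D.B s t⌋₊) : ℕ) : ℝ) / (⌊prfT D.B s t'⌋₊ : ℝ)
      ≤ 4 * Cn * Real.exp (θ * s) / Real.exp (2 * γ * s) := by
    refine (spl_ratio (Nat.cast_nonneg _) hT1').trans ?_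
    rw [div_le_div_iff₀ (by linarith) (Real.exp_pos _)]
    calc 2 * ((Cn * ((spl2I X Y).card * ⌊prfT D.B s t⌋₊) : ℕ) : ℝ) * Real.exp (2 * γ * s)
        ≤ 2 * (2 * Cn * Real.exp (θ * s) * prfT D.B s t) * Real.exp (2 * γ * s) := by gcongr
      _ = 4 * Cn * Real.exp (θ * s) * (prfT D.B s t * Real.exp (2 * γ * s)) := by ring
      _ ≤ 4 * Cn * Real.exp (θ * s) * prfT D.B s t' := by gcongr
  have r2 : 16 * Cn / ε * Real.exp ((2 * d + 3) * θ * s) ≤ Real.exp (2 * γ * s) :=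
    spl_exp_absorb hs.le a2 (by linarith)
  calc ((Cn * ((spl2I X Y).card * ⌊prfT D.B s t⌋₊) : ℕ) : ℝ) / (⌊prfT D.B s t'⌋₊ : ℝ)
        * Real.exp ((2 * d + 2) * θ * s)
      ≤ 4 * Cn * Real.exp (θ * s) / Real.exp (2 * γ * s) * Real.exp ((2 * d + 2) * θ * s) :=
        mul_le_mul_of_nonneg_right r1 (Real.exp_pos _).le
    _ = 4 * Cn * (Real.exp (θ * s) * Real.exp ((2 * d + 2) * θ * s)) / Real.exp (2 * γ * s) := by ring
    _ = 4 * Cn * Real.exp ((2 * d + 3) * θ * s) / Real.exp (2 * γ * s) := by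
        rw [← Real.exp_add]
        congr 3
        ring
    _ ≤ ε / 4 := by
        rw [div_le_iff₀ (Real.exp_pos _)]
        have : 16 * Cn / ε * Real.exp ((2 * d + 3) * θ * s) * (ε / 4)
            = 4 * Cn * Real.exp ((2 * d + 3) * θ * s) := by
          field_simp
          ring
        nlinarith

theorem spl_indiv_top (hd : 1 ≤ d) (b : ℕ → ℝ) {ε : ℝ} (hε : 0 < ε) (t : ℝ) :
    SplIndivAt d b ε d t := by
  refine ⟨1, one_pos, fun D X Y s h2 hh hdeg S' _ hx => ?_⟩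
  have hempty : S' = ∅ := by
    by_contra hne
    obtain ⟨x, hxS⟩ := Finset.nonempty_iff_ne_empty.mpr hne
    obtain ⟨p, hp, hxp, hx0⟩ := hx x hxS
    obtain ⟨c, hc, x₀, hx₀, hpc⟩ := (spl2_carr X Y d p).mp hp
    have hpt := spl_carr_point (spl2π X Y c).f x₀
      (fun i hi => (spl2_ok h2 c hc).path x₀ hx₀ i hi) p hpc
    rw [hpt.1] at hxp
    rw [Set.mem_singleton_iff.mp hxp] at hx0
    exact (hdeg p hp).1 (hpt.2 _ hx0)
  subst hempty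
  simp only [Finset.card_empty, Nat.cast_zero]
  positivity

theorem spl_indiv_low (hd : 1 ≤ d) (b : ℕ → ℝ) {ε : ℝ} (hε : 0 < ε) {t : ℝ} (ht : t < -1) :
    SplIndivAt d b ε 0 t := by
  refine ⟨ε, hε, fun D X Y s h2 hh hdeg S' hS' hx => ?_⟩
  have hs := spl_s_pos hε h2.okX
  have hB := spl_B_pos hε h2.okX
  -- the only carrier is the zero ideal
  have hbot : ∀ p ∈ spCarr2 X Y 0, p = ⊥ := by
    intro p hp
    obtain ⟨c, _, x₀, _, hpc⟩ := (spl2_carr X Y 0 p).mp hp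
    exact (spl_carr_zero _ x₀ p).mp hpc
  have hmem : (⊥ : Ideal (PrfPol d)) ∈ spCarr2 X Y 0 := by
    obtain ⟨a, ha⟩ := h2.okX.ne
    have hpos := spl_member_pos hd hε h2.okX ha
    have hne : (X.π a).S.Nonempty := Finset.card_pos.mp (by exact_mod_cast hpos)
    obtain ⟨x₀, hx₀⟩ := hne
    exact Or.inl ⟨a, ha, x₀, hx₀, (spl_carr_zero _ x₀ ⊥).mpr rfl⟩
  have hg0 : hh ⊥ ≠ 0 := fun h0 => (hdeg ⊥ hmem).1 (by rw [h0]; exact zero_mem _)
  have hgd := (hdeg ⊥ hmem).2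
  have hzero : ∀ x ∈ S', eval x (hh ⊥) = 0 := by
    intro x hxS
    obtain ⟨p, hp, _, hx0⟩ := hx x hxS
    rwa [hbot p hp] at hx0
  have hlt : prfT D.B s t < prfT D.B s (-1) := by
    unfold prfT
    exact mul_lt_mul_of_pos_left (Real.exp_lt_exp.mpr (by nlinarith)) hB
  rcases lt_or_ge 1 (prfT D.B s (-1)) with h1 | h1
  · refine spl_sum_members h2.okX S' hS' ε fun a ha => ?_
    exact (h2.okX.piece a ha).low h1 (hh ⊥) hg0 (hgd.trans hlt.le) _ Finset.inter_subset_right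
      fun x hxS => hzero x (Finset.mem_inter.mp hxS).1
  · have hd0 : (hh ⊥).totalDegree = 0 := by
      have : ((hh ⊥).totalDegree : ℝ) < 1 := lt_of_le_of_lt hgd (lt_of_lt_of_le hlt h1)
      exact Nat.lt_one_iff.mp (by exact_mod_cast this)
    have hempty : S' = ∅ := by
      by_contra hne
      obtain ⟨x, hxS⟩ := Finset.nonempty_iff_ne_empty.mpr hne
      have h3 := hzero x hxS
      rw [totalDegree_eq_zero_iff_eq_C.mp hd0, eval_C] at h3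
      apply hg0
      rw [totalDegree_eq_zero_iff_eq_C.mp hd0, h3, C_0]
    subst hempty
    simp only [Finset.card_empty, Nat.cast_zero]
    positivity

theorem spl_indiv_mono {b : ℕ → ℝ} {ε : ℝ} {j : ℕ} {t t₀ : ℝ} (h : SplIndivAt d b ε j t₀)
    (ht : t ≤ t₀) : SplIndivAt d b ε j t := by
  obtain ⟨θ, hθ, H⟩ := h
  refine ⟨θ, hθ, fun D X Y s h2 hh hdeg S' hS' hx => H D X Y s h2 hh (fun p hp => ?_) S' hS' hx⟩
  refine ⟨(hdeg p hp).1, (hdeg p hp).2.trans ?_⟩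
  exact spl_T_mono (spl_B_pos hθ h2.okX).le (spl_s_pos hθ h2.okX).le ht

theorem spl_indiv (hd : 1 ≤ d) : SpIndivStmt d := by
  intro b hb ε hε j t hpl
  show SplIndivAt d b ε j t
  rcases Nat.lt_or_ge j d with hj | hj
  · rcases le_or_gt (-1) t with ht | ht
    · exact spl_indiv_main hd hb hε hj ht hpl
    · have hj0 : j = 0 := by
        by_contra hne
        have h1 : b 0 < t := hpl.2.1 0 (Nat.pos_of_ne_zero hne)
        linarith [hb.lo]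
      subst hj0
      exact spl_indiv_low hd b hε ht
  · have : j = d := le_antisymm hpl.1 hj
    subst this
    exact spl_indiv_top hd b hε t

/-! ### (REG) -/

/-- the conclusion of (REG) for fixed `b ε j t` -/
def SplRegAt (d : ℕ) (b : ℕ → ℝ) (ε : ℝ) (j : ℕ) (t : ℝ) : Prop :=
  ∃ θ : ℝ, 0 < θ ∧ ∀ (D : SpData d) (X Y : SpPool d) (s : ℝ), SpTwo D X Y s θ b →
    ∃ (F : Finset (PrfPol d)) (g : PrfPol d),
      (∀ f ∈ F, (f.totalDegree : ℝ) ≤ prfT D.B s t ∧ ∀ p ∈ spCarr2 X Y j, f ∈ p) ∧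
      (g.totalDegree : ℝ) ≤ prfT D.B s t ∧
      (∀ x, eval x g ≠ 0 → j ≤ prfJacRk (F : Set (PrfPol d)) x) ∧
      (∀ S' ⊆ X.pts, (∀ x ∈ S', eval x g = 0) → (S'.card : ℝ) ≤ ε * X.pts.card) ∧
      ∀ S' ⊆ Y.pts, (∀ x ∈ S', eval x g = 0) → (S'.card : ℝ) ≤ ε * Y.pts.card

theorem spl_reg_main (hd : 1 ≤ d) {b : ℕ → ℝ} (hb : SpAdm d b) {ε : ℝ} (hε : 0 < ε) {j : ℕ}
    {t : ℝ} (hj1 : 1 ≤ j) (hj : j < d) (hpl : SpPlat d b j t) : SplRegAt d b ε j t := by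
  obtain ⟨Cn, hCn, H⟩ := prf_regular d
  have hCn' : (0 : ℝ) < Cn := by exact_mod_cast hCn
  obtain ⟨β, hβdef⟩ : ∃ β : ℝ, β = b (j - 1) := ⟨_, rfl⟩
  obtain ⟨γ, hγdef⟩ : ∃ γ : ℝ, γ = (t - β) / 4 := ⟨_, rfl⟩
  have hβt : β < t := by
    rw [hβdef]
    exact hpl.2.1 (j - 1) (by omega)
  have hγ : 0 < γ := by
    rw [hγdef]
    linarith
  have htβ : t = β + 4 * γ := by
    rw [hγdef]
    ring
  have htj : t < b j := hpl.2.2 j le_rfl hj
  have hβ1 : -1 ≤ β := by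
    rw [hβdef]
    exact hb.lo.trans (hb.mono 0 (j - 1) (Nat.zero_le _) (by omega))
  have hbi : ∀ i < j, b i ≤ β := fun i hi => by
    rw [hβdef]
    exact hb.mono i (j - 1) (by omega) (by omega)
  have hγ2 : 0 < γ / 2 := by positivity
  obtain ⟨θ₁, hθ₁, A1⟩ := spl_absorb (2 * Cn) (γ / 2) hγ2
  obtain ⟨θ₂, hθ₂, A2⟩ := spl_absorb (4 * (6 * Cn) / ε) (γ / 2) hγ2
  have hd3 : (0 : ℝ) < 2 * d + 3 := by positivity
  obtain ⟨θ, hθ, c1, c2, c3, c4, c5⟩ : ∃ θ : ℝ, 0 < θ ∧ θ ≤ ε / 2 ∧ θ ≤ (b j - t) / 2 ∧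
      (2 * d + 3) * θ ≤ γ / 2 ∧ θ ≤ θ₁ ∧ θ ≤ θ₂ := by
    have hbt : 0 < (b j - t) / 2 := by linarith
    refine ⟨min (min (ε / 2) ((b j - t) / 2)) (min (γ / 2 / (2 * d + 3)) (min θ₁ θ₂)), by positivity,
      ?_, ?_, ?_, ?_, ?_⟩
    · exact (min_le_left _ _).trans (min_le_left _ _)
    · exact (min_le_left _ _).trans (min_le_right _ _)
    · have : min (min (ε / 2) ((b j - t) / 2)) (min (γ / 2 / (2 * d + 3)) (min θ₁ θ₂))
          ≤ γ / 2 / (2 * d + 3) := (min_le_right _ _).trans (min_le_left _ _)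
      rw [le_div_iff₀ hd3] at this
      linarith
    · exact (min_le_right _ _).trans ((min_le_right _ _).trans (min_le_left _ _))
    · exact (min_le_right _ _).trans ((min_le_right _ _).trans (min_le_right _ _))
  have hθγ : θ ≤ γ / 10 := by
    have h5 : (1 : ℝ) ≤ d := by exact_mod_cast hd
    nlinarith
  refine ⟨θ, hθ, fun D X Y s h2 => ?_⟩
  have hs := spl_s_pos hθ h2.okX
  have hB := spl_B_pos hθ h2.okX
  have a1 := A1 θ s hθ c4 h2.okX.s_ge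
  have a2 := A2 θ s hθ c5 h2.okX.s_ge
  have hbj : b j ≤ 1 := (hb.mono j (d - 1) (by omega) (by omega)).trans hb.hi
  have htop := h2.okX.top_ge
  obtain ⟨t₁, ht₁g, ht₁1, ht₁2⟩ := spl_grid_le h2.okX.grid hθ.le (u := β + 2 * γ) (by linarith)
    (by linarith)
  obtain ⟨t₂, ht₂g, ht₂1, ht₂2⟩ := spl_grid_le h2.okX.grid hθ.le (u := t) (by linarith)
    (by linarith)
  have hplat₁ := spl2_plateau h2 hj.le (u := t₁) (fun i hi => by linarith [hbi i hi])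
    (fun i hi hid => by
      have := hb.mono j i hi hid
      linarith)
  have hplat₂ := spl2_plateau h2 hj.le (u := t₂) (fun i hi => by linarith [hbi i hi])
    (fun i hi hid => by
      have := hb.mono j i hi hid
      linarith)
  have hT1 : 1 ≤ prfT D.B s (β + θ) := spl_one_le_T hθ h2.okX (by linarith)
  have hT1₁ : 1 ≤ prfT D.B s t₁ := spl_one_le_T hθ h2.okX (by linarith)
  have hT1₂ : 1 ≤ prfT D.B s t₂ := spl_one_le_T hθ h2.okX (by linarith)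
  have hL1 : 1 ≤ ⌊prfT D.B s (β + θ)⌋₊ := Nat.le_floor (by simpa using hT1)
  have hcut := spl2_cut_deg hθ h2 hj.le (u := β + θ) (fun i hi => by linarith [hbi i hi])
  have hM : ((Cn * ((spl2I X Y).card * ⌊prfT D.B s (β + θ)⌋₊) : ℕ) : ℝ)
      ≤ 2 * Cn * Real.exp (θ * s) * prfT D.B s (β + θ) := by
    have := spl2_card_mul hd hθ h2 (β + θ)
    rw [Nat.cast_mul]
    calc (Cn : ℝ) * (((spl2I X Y).card * ⌊prfT D.B s (β + θ)⌋₊ : ℕ) : ℝ)
        ≤ Cn * (2 * Real.exp (θ * s) * prfT D.B s (β + θ)) := mul_le_mul_of_nonneg_left this hCn'.le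
      _ = 2 * Cn * Real.exp (θ * s) * prfT D.B s (β + θ) := by ring
  have hM' : ((Cn * ⌊prfT D.B s t₁⌋₊ : ℕ) : ℝ) ≤ Cn * prfT D.B s t₁ := by
    rw [Nat.cast_mul]
    exact mul_le_mul_of_nonneg_left (Nat.floor_le (by linarith)) hCn'.le
  have hTt₁ : prfT D.B s (β + θ) * Real.exp ((2 * γ - 2 * θ) * s) ≤ prfT D.B s t₁ := by
    rw [← spl_T_add]
    exact spl_T_mono hB.le hs.le (by linarith)
  have hTt₂ : prfT D.B s t₁ * Real.exp ((2 * γ - θ) * s) ≤ prfT D.B s t₂ := by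
    rw [← spl_T_add]
    exact spl_T_mono hB.le hs.le (by linarith)
  have hcond₁ : Cn * ((spl2I X Y).card * ⌊prfT D.B s (β + θ)⌋₊) ≤ ⌊prfT D.B s t₁⌋₊ := by
    apply Nat.le_floor
    have hM2 : 2 * Cn * Real.exp (θ * s) ≤ Real.exp ((2 * γ - 2 * θ) * s) :=
      spl_exp_absorb hs.le a1 (by linarith)
    calc ((Cn * ((spl2I X Y).card * ⌊prfT D.B s (β + θ)⌋₊) : ℕ) : ℝ)
        ≤ 2 * Cn * Real.exp (θ * s) * prfT D.B s (β + θ) := hM
      _ ≤ Real.exp ((2 * γ - 2 * θ) * s) * prfT D.B s (β + θ) :=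
          mul_le_mul_of_nonneg_right hM2 (by linarith)
      _ ≤ prfT D.B s t₁ := by linarith
  have hcond₂ : Cn * ⌊prfT D.B s t₁⌋₊ ≤ ⌊prfT D.B s t₂⌋₊ := by
    apply Nat.le_floor
    have hM2 : (Cn : ℝ) * Real.exp (0 * s) ≤ Real.exp ((2 * γ - θ) * s) :=
      spl_exp_absorb (η := γ / 2) hs.le (by linarith) (by linarith)
    rw [zero_mul, Real.exp_zero, mul_one] at hM2
    calc ((Cn * ⌊prfT D.B s t₁⌋₊ : ℕ) : ℝ) ≤ Cn * prfT D.B s t₁ := hM'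
      _ ≤ Real.exp ((2 * γ - θ) * s) * prfT D.B s t₁ := mul_le_mul_of_nonneg_right hM2 (by linarith)
      _ ≤ prfT D.B s t₂ := by linarith
  obtain ⟨F, g, hF, hg, hrk, hexc⟩ := H (spl2I X Y) (spl2π X Y) D.B s θ X.grid (spl2_ok h2) j t₁ t₂
    hj.le ht₁g ht₂g (by linarith) hplat₁ hplat₂ ⌊prfT D.B s (β + θ)⌋₊ hL1 hcut hcond₁ hcond₂
  have hTm₁ : prfT D.B s t₁ ≤ prfT D.B s t := spl_T_mono hB.le hs.le (by linarith)
  have hTm₂ : prfT D.B s t₂ ≤ prfT D.B s t := spl_T_mono hB.le hs.le ht₂2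
  -- the numerical core
  have hA : (((Cn * ((spl2I X Y).card * ⌊prfT D.B s (β + θ)⌋₊) : ℕ) : ℝ) / (⌊prfT D.B s t₁⌋₊ : ℝ)
      + ((Cn * ⌊prfT D.B s t₁⌋₊ : ℕ) : ℝ) / (⌊prfT D.B s t₂⌋₊ : ℝ))
        * Real.exp ((2 * d + 2) * θ * s) ≤ ε / 4 := by
    have r1 := spl_frac hB hs.le (Nat.cast_nonneg _) (by positivity) hM
      (show β + θ + (2 * γ - 2 * θ) ≤ t₁ by linarith) hT1₁
    have r2 := spl_frac hB hs.le (Nat.cast_nonneg _) hCn'.le hM'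
      (show t₁ + (2 * γ - θ) ≤ t₂ by linarith) hT1₂
    have q1 : Real.exp (θ * s) * Real.exp (-((2 * γ - 2 * θ) * s)) * Real.exp ((2 * d + 2) * θ * s)
        ≤ Real.exp (-(γ / 2) * s) := by
      rw [← Real.exp_add, ← Real.exp_add]
      apply Real.exp_le_exp.mpr
      have : (θ + -(2 * γ - 2 * θ) + (2 * d + 2) * θ) * s ≤ -(γ / 2) * s :=
        mul_le_mul_of_nonneg_right (by linarith) hs.le
      linarith
    have q2 : Real.exp (-((2 * γ - θ) * s)) * Real.exp ((2 * d + 2) * θ * s)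
        ≤ Real.exp (-(γ / 2) * s) := by
      rw [← Real.exp_add]
      apply Real.exp_le_exp.mpr
      have : (-(2 * γ - θ) + (2 * d + 2) * θ) * s ≤ -(γ / 2) * s :=
        mul_le_mul_of_nonneg_right (by linarith) hs.le
      linarith
    have q3 : 6 * Cn * Real.exp (-(γ / 2) * s) ≤ ε / 4 := spl_small hε hs.le a2 (by linarith)
    have he := Real.exp_pos ((2 * d + 2) * θ * s)
    calc (((Cn * ((spl2I X Y).card * ⌊prfT D.B s (β + θ)⌋₊) : ℕ) : ℝ) / (⌊prfT D.B s t₁⌋₊ : ℝ)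
      + ((Cn * ⌊prfT D.B s t₁⌋₊ : ℕ) : ℝ) / (⌊prfT D.B s t₂⌋₊ : ℝ))
        * Real.exp ((2 * d + 2) * θ * s)
        ≤ (2 * (2 * Cn * Real.exp (θ * s)) * Real.exp (-((2 * γ - 2 * θ) * s))
            + 2 * Cn * Real.exp (-((2 * γ - θ) * s))) * Real.exp ((2 * d + 2) * θ * s) :=
          mul_le_mul_of_nonneg_right (add_le_add r1 r2) he.le
      _ = 4 * Cn * (Real.exp (θ * s) * Real.exp (-((2 * γ - 2 * θ) * s))
            * Real.exp ((2 * d + 2) * θ * s))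
          + 2 * Cn * (Real.exp (-((2 * γ - θ) * s)) * Real.exp ((2 * d + 2) * θ * s)) := by ring
      _ ≤ 4 * Cn * Real.exp (-(γ / 2) * s) + 2 * Cn * Real.exp (-(γ / 2) * s) := by gcongr
      _ = 6 * Cn * Real.exp (-(γ / 2) * s) := by ring
      _ ≤ ε / 4 := q3
  have hA0 : (0 : ℝ) ≤ ((Cn * ((spl2I X Y).card * ⌊prfT D.B s (β + θ)⌋₊) : ℕ) : ℝ)
      / (⌊prfT D.B s t₁⌋₊ : ℝ) + ((Cn * ⌊prfT D.B s t₁⌋₊ : ℕ) : ℝ) / (⌊prfT D.B s t₂⌋₊ : ℝ) :=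
    add_nonneg (div_nonneg (Nat.cast_nonneg _) (Nat.cast_nonneg _))
      (div_nonneg (Nat.cast_nonneg _) (Nat.cast_nonneg _))
  refine ⟨F, g, fun f hf => ⟨?_, fun p hp => ?_⟩, ?_, hrk, ?_, ?_⟩
  · calc ((f.totalDegree : ℕ) : ℝ) ≤ (⌊prfT D.B s t₁⌋₊ : ℝ) := by exact_mod_cast (hF f hf).1
      _ ≤ prfT D.B s t₁ := Nat.floor_le (by linarith)
      _ ≤ prfT D.B s t := hTm₁
  · obtain ⟨c, hc, hpc⟩ := (spl2_carr X Y j p).mp hp
    exact (hF f hf).2 c hc p hpc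
  · calc ((g.totalDegree : ℕ) : ℝ) ≤ (⌊prfT D.B s t₂⌋₊ : ℝ) := by exact_mod_cast hg.trans hcond₂
      _ ≤ prfT D.B s t₂ := Nat.floor_le (by linarith)
      _ ≤ prfT D.B s t := hTm₂
  · intro S' hS' hx
    refine spl_sum_members h2.okX S' hS' ε fun a ha => ?_
    have hc : Sum.inl a ∈ spl2I X Y := Finset.inl_mem_disjSum.mpr ha
    exact spl_member_bound hd hb hθ h2 hj.le hc c1 hA0 hA
      (hexc (Sum.inl a) hc (S' ∩ (X.π a).S) Finset.inter_subset_right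
        fun x hxS => hx x (Finset.mem_inter.mp hxS).1)
  · intro S' hS' hx
    refine spl_sum_members h2.okY S' hS' ε fun a ha => ?_
    have hc : Sum.inr a ∈ spl2I X Y := Finset.inr_mem_disjSum.mpr ha
    exact spl_member_bound hd hb hθ h2 hj.le hc c1 hA0 hA
      (hexc (Sum.inr a) hc (S' ∩ (Y.π a).S) Finset.inter_subset_right
        fun x hxS => hx x (Finset.mem_inter.mp hxS).1)

theorem spl_reg_top (hd : 1 ≤ d) {b : ℕ → ℝ} (hb : SpAdm d b) {ε : ℝ} (hε : 0 < ε) {t : ℝ}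
    (hpl : SpPlat d b d t) : SplRegAt d b ε d t := by
  obtain ⟨Cn, hCn, H⟩ := prf_reg d
  have hCn' : (0 : ℝ) < Cn := by exact_mod_cast hCn
  have hCn1 : (1 : ℝ) ≤ Cn := by exact_mod_cast hCn
  obtain ⟨β, hβdef⟩ : ∃ β : ℝ, β = b (d - 1) := ⟨_, rfl⟩
  obtain ⟨γ, hγdef⟩ : ∃ γ : ℝ, γ = (t - β) / 4 := ⟨_, rfl⟩
  have hβt : β < t := by
    rw [hβdef]
    exact hpl.2.1 (d - 1) (by omega)
  have hγ : 0 < γ := by
    rw [hγdef]
    linarith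
  have htβ : t = β + 4 * γ := by
    rw [hγdef]
    ring
  have hβ1 : -1 ≤ β := by
    rw [hβdef]
    exact hb.lo.trans (hb.mono 0 (d - 1) (Nat.zero_le _) (by omega))
  have hbi : ∀ i < d, b i ≤ β := fun i hi => by
    rw [hβdef]
    exact hb.mono i (d - 1) (by omega) (by omega)
  obtain ⟨θ₁, hθ₁, A1⟩ := spl_absorb (2 * Cn ^ 2) γ hγ
  obtain ⟨θ₂, hθ₂, A2⟩ := spl_absorb (4 * (4 * Cn ^ 2) / ε) γ hγ
  have hd3 : (0 : ℝ) < 2 * d + 4 := by positivity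
  obtain ⟨θ, hθ, c3, c4, c5⟩ : ∃ θ : ℝ, 0 < θ ∧ (2 * d + 4) * θ ≤ γ ∧ θ ≤ θ₁ ∧ θ ≤ θ₂ := by
    refine ⟨min (γ / (2 * d + 4)) (min θ₁ θ₂), by positivity, ?_, ?_, ?_⟩
    · have : min (γ / (2 * d + 4)) (min θ₁ θ₂) ≤ γ / (2 * d + 4) := min_le_left _ _
      rw [le_div_iff₀ hd3] at this
      linarith
    · exact (min_le_right _ _).trans (min_le_left _ _)
    · exact (min_le_right _ _).trans (min_le_right _ _)
  have hθγ : θ ≤ γ / 6 := by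
    have h5 : (1 : ℝ) ≤ d := by exact_mod_cast hd
    nlinarith
  refine ⟨θ, hθ, fun D X Y s h2 => ?_⟩
  have hs := spl_s_pos hθ h2.okX
  have hB := spl_B_pos hθ h2.okX
  have a1 := A1 θ s hθ c4 h2.okX.s_ge
  have a2 := A2 θ s hθ c5 h2.okX.s_ge
  have hT1 : 1 ≤ prfT D.B s (β + θ) := spl_one_le_T hθ h2.okX (by linarith)
  have hL1 : 1 ≤ ⌊prfT D.B s (β + θ)⌋₊ := Nat.le_floor (by simpa using hT1)
  have hcut := spl2_cut_deg hθ h2 le_rfl (u := β + θ) (fun i hi => by linarith [hbi i hi])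
  have hpath : ∀ c ∈ spl2I X Y, (spl2π X Y c).Path := fun c hc => (spl2_ok h2 c hc).path
  obtain ⟨𝒞, h𝒞, hfam, hlo⟩ := prfi_fam (spl2I X Y) (spl2π X Y) hpath d le_rfl
    ⌊prfT D.B s (β + θ)⌋₊ hL1 hcut
  have hsum : ∑ _a ∈ spl2I X Y, ⌊prfT D.B s (β + θ)⌋₊
      = (spl2I X Y).card * ⌊prfT D.B s (β + θ)⌋₊ := by rw [Finset.sum_const, smul_eq_mul]
  have hTC : ∀ u : ℝ, prfT D.B s u / Cn = prfT (D.B / Cn) s u := fun u => by
    unfold prfT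
    ring
  have hBC : 0 < D.B / Cn := by positivity
  have hM : ((Cn * ((spl2I X Y).card * ⌊prfT D.B s (β + θ)⌋₊) : ℕ) : ℝ)
      ≤ 2 * Cn ^ 2 * Real.exp (θ * s) * prfT (D.B / Cn) s (β + θ) := by
    have := spl2_card_mul hd hθ h2 (β + θ)
    rw [Nat.cast_mul, ← hTC]
    calc (Cn : ℝ) * (((spl2I X Y).card * ⌊prfT D.B s (β + θ)⌋₊ : ℕ) : ℝ)
        ≤ Cn * (2 * Real.exp (θ * s) * prfT D.B s (β + θ)) := mul_le_mul_of_nonneg_left this hCn'.le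
      _ = 2 * Cn ^ 2 * Real.exp (θ * s) * (prfT D.B s (β + θ) / Cn) := by
          field_simp
  have hTt : prfT (D.B / Cn) s (β + θ) * Real.exp ((4 * γ - θ) * s) ≤ prfT (D.B / Cn) s t := by
    rw [← spl_T_add]
    exact spl_T_mono hBC.le hs.le (by linarith)
  have hP0 : 0 < prfT (D.B / Cn) s (β + θ) := mul_pos hBC (Real.exp_pos _)
  have hMle : ((Cn * ((spl2I X Y).card * ⌊prfT D.B s (β + θ)⌋₊) : ℕ) : ℝ) ≤ prfT (D.B / Cn) s t := by
    have hM2 : 2 * Cn ^ 2 * Real.exp (θ * s) ≤ Real.exp ((4 * γ - θ) * s) :=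
      spl_exp_absorb hs.le a1 (by linarith)
    calc ((Cn * ((spl2I X Y).card * ⌊prfT D.B s (β + θ)⌋₊) : ℕ) : ℝ)
        ≤ 2 * Cn ^ 2 * Real.exp (θ * s) * prfT (D.B / Cn) s (β + θ) := hM
      _ ≤ Real.exp ((4 * γ - θ) * s) * prfT (D.B / Cn) s (β + θ) :=
          mul_le_mul_of_nonneg_right hM2 hP0.le
      _ ≤ prfT (D.B / Cn) s t := by linarith
  have hcond : Cn * ((spl2I X Y).card * ⌊prfT D.B s (β + θ)⌋₊) ≤ ⌊prfT (D.B / Cn) s t⌋₊ :=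
    Nat.le_floor hMle
  have hpos1 : 1 ≤ Cn * ((spl2I X Y).card * ⌊prfT D.B s (β + θ)⌋₊) :=
    Nat.mul_pos hCn (Nat.mul_pos (spl2_card_pos h2) hL1)
  have hDg1 : 1 ≤ ⌊prfT (D.B / Cn) s t⌋₊ := hpos1.trans hcond
  have hTC1 : 1 ≤ prfT (D.B / Cn) s t := by
    have : (1 : ℝ) ≤ ((Cn * ((spl2I X Y).card * ⌊prfT D.B s (β + θ)⌋₊) : ℕ) : ℝ) := by
      exact_mod_cast hpos1
    linarith
  obtain ⟨F, g, ℰ, _, hF, hg, hℰ, hgℰ, hrk⟩ := H (spl2I X Y) (fun c => prfSys (spl2π X Y c).f d)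
    (fun _ => ⌊prfT D.B s (β + θ)⌋₊) (d - d) 𝒞 hfam ⌊prfT (D.B / Cn) s t⌋₊ (by rw [hsum]; exact hcond)
  rw [hsum] at hℰ
  have hfl : (⌊prfT (D.B / Cn) s t⌋₊ : ℝ) ≤ prfT D.B s t / Cn := by
    rw [hTC]
    exact Nat.floor_le (by linarith)
  have hT0 : 0 < prfT D.B s t := mul_pos hB (Real.exp_pos _)
  -- the numerical core
  have hA0 : (0 : ℝ) ≤ ((Cn * ((spl2I X Y).card * ⌊prfT D.B s (β + θ)⌋₊) : ℕ) : ℝ)
      / (⌊prfT (D.B / Cn) s t⌋₊ : ℝ) := div_nonneg (Nat.cast_nonneg _) (Nat.cast_nonneg _)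
  have hA : ((Cn * ((spl2I X Y).card * ⌊prfT D.B s (β + θ)⌋₊) : ℕ) : ℝ)
      / (⌊prfT (D.B / Cn) s t⌋₊ : ℝ) * Real.exp ((2 * d + 2) * θ * s) ≤ ε / 4 := by
    have r1 := spl_frac hBC hs.le (Nat.cast_nonneg _) (by positivity) hM
      (show β + θ + (4 * γ - θ) ≤ t by linarith) hTC1
    have q1 : Real.exp (θ * s) * Real.exp (-((4 * γ - θ) * s)) * Real.exp ((2 * d + 2) * θ * s)
        ≤ Real.exp (-γ * s) := by
      rw [← Real.exp_add, ← Real.exp_add]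
      apply Real.exp_le_exp.mpr
      have : (θ + -(4 * γ - θ) + (2 * d + 2) * θ) * s ≤ -γ * s :=
        mul_le_mul_of_nonneg_right (by linarith) hs.le
      linarith
    have q3 : 4 * Cn ^ 2 * Real.exp (-γ * s) ≤ ε / 4 := spl_small hε hs.le a2 (by linarith)
    have he := Real.exp_pos ((2 * d + 2) * θ * s)
    calc ((Cn * ((spl2I X Y).card * ⌊prfT D.B s (β + θ)⌋₊) : ℕ) : ℝ)
      / (⌊prfT (D.B / Cn) s t⌋₊ : ℝ) * Real.exp ((2 * d + 2) * θ * s)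
        ≤ (2 * (2 * Cn ^ 2 * Real.exp (θ * s)) * Real.exp (-((4 * γ - θ) * s)))
            * Real.exp ((2 * d + 2) * θ * s) := mul_le_mul_of_nonneg_right r1 he.le
      _ = 4 * Cn ^ 2 * (Real.exp (θ * s) * Real.exp (-((4 * γ - θ) * s))
            * Real.exp ((2 * d + 2) * θ * s)) := by ring
      _ ≤ 4 * Cn ^ 2 * Real.exp (-γ * s) := by gcongr
      _ ≤ ε / 4 := q3
  -- exceptional points in one member
  have hmember : ∀ c ∈ spl2I X Y, ∀ S'' ⊆ (spl2π X Y c).S, (∀ x ∈ S'', eval x g = 0) →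
      (S''.card : ℝ) ≤ ε * ((spl2π X Y c).S.card : ℝ) := by
    intro c hc S'' hS'' hx
    have h1 := prfi_exc (spl2π X Y c) (hpath c hc) d le_rfl ℰ S'' hS'' (fun x hxS => by
      obtain ⟨p, hp⟩ := prf_own_carrier (spl2π X Y c) (hpath c hc) d le_rfl (hS'' hxS)
      refine ⟨p, hp, ?_⟩
      by_contra hpℰ
      have hpt := spl_carr_point (spl2π X Y c).f x
        (fun i hi => hpath c hc x (hS'' hxS) i hi) p hp
      exact hgℰ p ((h𝒞 p).mpr ⟨c, hc, x, hS'' hxS, hp⟩) hpℰ (hpt.2 g (hx x hxS)))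
    have h3 := prfi_num (prfDeg ℰ) (prfDeg 𝒞) ⌊prfT (D.B / Cn) s t⌋₊
      (Cn * ((spl2I X Y).card * ⌊prfT D.B s (β + θ)⌋₊)) (∑ c' ∈ spl2I X Y, (spl2π X Y c').degLo d)
      ((spl2π X Y c).degHi d) hDg1
      (by calc prfDeg ℰ * ⌊prfT (D.B / Cn) s t⌋₊
            ≤ Cn * prfDeg 𝒞 * ((spl2I X Y).card * ⌊prfT D.B s (β + θ)⌋₊) := hℰ
          _ = Cn * ((spl2I X Y).card * ⌊prfT D.B s (β + θ)⌋₊) * prfDeg 𝒞 := by ring) hlo
    rw [Nat.cast_sum] at h3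
    refine spl_member_bound hd hb hθ h2 le_rfl hc (κ := 0) (by positivity) hA0 hA ?_
    have h4 : (S''.card : ℝ) ≤ (prfDeg ℰ : ℝ) * ((spl2π X Y c).degHi d : ℝ) := by exact_mod_cast h1
    linarith
  refine ⟨F, g, fun f hf => ⟨?_, fun p hp => ?_⟩, ?_, fun x hx => ?_, ?_, ?_⟩
  · calc ((f.totalDegree : ℕ) : ℝ) ≤ (⌊prfT (D.B / Cn) s t⌋₊ : ℝ) := by exact_mod_cast (hF f hf).1
      _ ≤ prfT D.B s t / Cn := hfl
      _ ≤ prfT D.B s t := div_le_self hT0.le hCn1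
  · obtain ⟨c, hc, hpc⟩ := (spl2_carr X Y d p).mp hp
    exact (hF f hf).2 p ((h𝒞 p).mpr ⟨c, hc, hpc⟩)
  · calc ((g.totalDegree : ℕ) : ℝ) ≤ ((Cn * ⌊prfT (D.B / Cn) s t⌋₊ : ℕ) : ℝ) := by exact_mod_cast hg
      _ = Cn * (⌊prfT (D.B / Cn) s t⌋₊ : ℝ) := by push_cast; ring
      _ ≤ Cn * (prfT D.B s t / Cn) := mul_le_mul_of_nonneg_left hfl hCn'.le
      _ = prfT D.B s t := by field_simp
  · have := hrk x hx
    simpa using this
  · intro S' hS' hx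
    refine spl_sum_members h2.okX S' hS' ε fun a ha => ?_
    exact hmember (Sum.inl a) (Finset.inl_mem_disjSum.mpr ha) (S' ∩ (X.π a).S)
      Finset.inter_subset_right fun x hxS => hx x (Finset.mem_inter.mp hxS).1
  · intro S' hS' hx
    refine spl_sum_members h2.okY S' hS' ε fun a ha => ?_
    exact hmember (Sum.inr a) (Finset.inr_mem_disjSum.mpr ha) (S' ∩ (Y.π a).S)
      Finset.inter_subset_right fun x hxS => hx x (Finset.mem_inter.mp hxS).1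

theorem spl_reg_zero (b : ℕ → ℝ) {ε : ℝ} (hε : 0 < ε) (t : ℝ) : SplRegAt d b ε 0 t := by
  refine ⟨1, one_pos, fun D X Y s h => ⟨∅, 1, by simp, ?_, fun _ _ => Nat.zero_le _, ?_, ?_⟩⟩
  · have hB : 0 < D.B := spl_B_pos one_pos h.okX
    simp only [totalDegree_one, Nat.cast_zero]
    exact (mul_pos hB (Real.exp_pos _)).le
  · intro S' _ hx
    have : S' = ∅ := by
      by_contra hne
      obtain ⟨x, hxS⟩ := Finset.nonempty_iff_ne_empty.mpr hne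
      simpa using hx x hxS
    subst this
    simp only [Finset.card_empty, Nat.cast_zero]
    positivity
  · intro S' _ hx
    have : S' = ∅ := by
      by_contra hne
      obtain ⟨x, hxS⟩ := Finset.nonempty_iff_ne_empty.mpr hne
      simpa using hx x hxS
    subst this
    simp only [Finset.card_empty, Nat.cast_zero]
    positivity

theorem spl_reg (hd : 1 ≤ d) : SpRegStmt d := by
  intro b hb ε hε j t hpl
  show SplRegAt d b ε j t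
  rcases Nat.eq_zero_or_pos j with hj0 | hj1
  · subst hj0
    exact spl_reg_zero b hε t
  · rcases Nat.lt_or_ge j d with hj | hj
    · exact spl_reg_main hd hb hε hj1 hj hpl
    · have : j = d := le_antisymm hpl.1 hj
      subst this
      exact spl_reg_top hd hb hε hpl

/-! ### (UNIQUE), (NONREAL) -/

theorem spl_unique : SpUniqueStmt d := by
  intro X Y hX hY j hj F hF x hx p hp q hq hxp hxq
  obtain ⟨a, ha, hpa⟩ := (spl2_carr X Y j p).mp hp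
  obtain ⟨c, hc, hqc⟩ := (spl2_carr X Y j q).mp hq
  refine prf_unique (spl2I X Y) (spl2π X Y) ?_ j hj F
    (fun f hf a ha p hp => hF f hf p ((spl2_carr X Y j p).mpr ⟨a, ha, hp⟩)) x hx a c ha hc p q hpa hqc
    hxp hxq
  intro c hc
  rcases Finset.mem_disjSum.mp hc with ⟨a, ha, rfl⟩ | ⟨a, ha, rfl⟩
  · exact hX a ha
  · exact hY a ha

theorem spl_nonreal (hd : 1 ≤ d) : SpNonrealStmt d := by
  classical
  intro b hb ε hε j t hpl ht
  obtain ⟨θ, hθ, H⟩ := spl_indiv hd b hb ε hε j t hpl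
  refine ⟨θ, hθ, fun D X Y s h2 S' hS' hx => ?_⟩
  refine H D X Y s h2 (fun p => if hp : SpNonreal p then Classical.choose hp else 1) (fun p hp => ?_)
    S' hS' (fun x hxS => ?_)
  · have hT := spl_one_le_T hθ h2.okX ht
    by_cases hn : SpNonreal p
    · simp only [dif_pos hn]
      have hspec := Classical.choose_spec hn
      refine ⟨hspec.2.1, le_trans ?_ hT⟩
      exact_mod_cast hspec.1
    · simp only [dif_neg hn]
      obtain ⟨c, _, x₀, _, hpc⟩ := (spl2_carr X Y j p).mp hp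
      refine ⟨(Ideal.ne_top_iff_one p).mp (prf_carr_prime hpc).ne_top, ?_⟩
      simp only [totalDegree_one, Nat.cast_zero]
      linarith
  · obtain ⟨p, hp, hxp, hn⟩ := hx x hxS
    refine ⟨p, hp, hxp, ?_⟩
    simp only [dif_pos hn]
    exact (Classical.choose_spec hn).2.2 x hxp (spl_real h2.okX (hS' hxS))

end Claimed.Agent.R273
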