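import Claimed.Agent.R273.SpImg
import Claimed.Agent.R273.SpNum
import Claimed.Agent.R273.SplReg

/-! # S6A-BD: the common rank at the boundary `t = -1` and before the first cut (no sorry) -/

set_option autoImplicit false

namespace Claimed.Agent.R273

open MvPolynomial Module

variable {d : ℕ}

/-- invertibility of the label substitution -/
theorem spb_pull_ne_zero (H : MvPolynomial (Fin d ⊕ Fin d) ℂ) (hH : H ≠ 0) : spPull 1 H ≠ 0 := by
  intro h0
  apply hH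
  apply MvPolynomial.funext
  intro w
  have hw : w = Sum.elim (fun i => w (Sum.inl i))
      ((1 : ℂ) • ((fun i => w (Sum.inl i) + w (Sum.inr i)) - fun i => w (Sum.inl i))) := by
    funext i
    rcases i with i | i <;> simp
  rw [hw, ← sp_eval_pull, h0]
  simp

/-- full rank of the labels when no nonzero polynomial of degree `≤ T` vanishes on the graph -/
theorem spb_full (Γ : Finset (SpC d × SpC d)) (T : ℝ) (hT : 0 ≤ T)
    (hno : ∀ G : MvPolynomial (Fin d ⊕ Fin d) ℂ, G ≠ 0 → (G.totalDegree : ℝ) ≤ T →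
      ¬ ∀ z ∈ Γ, eval (Sum.elim z.1 z.2) G = 0) :
    T ^ (2 * d) ≤ ((2 * d).factorial : ℝ) * (hA (spLab (Γ : Set (SpC d × SpC d))) ⌊T⌋₊ : ℝ) := by
  have h1 : hA (spLab (Γ : Set (SpC d × SpC d))) ⌊T⌋₊ =
      (Fintype.card (Fin d ⊕ Fin d) + ⌊T⌋₊).choose ⌊T⌋₊ := by
    rw [← rk_hA_univ]
    apply rk_rkOn_congr_ker
    intro f hf
    constructor
    · intro h
      by_contra hx
      have hf0 : f ≠ 0 := by
        rintro rfl
        simp at hx
      refine hno (spPull 1 f) (spb_pull_ne_zero f hf0) ?_ ?_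
      · have h3 : ((spPull 1 f).totalDegree : ℝ) ≤ (⌊T⌋₊ : ℝ) := by
          exact_mod_cast (sp_pull_degree 1 f).trans ((mem_restrictTotalDegree _ _ _).mp hf)
        exact h3.trans (Nat.floor_le hT)
      · intro z hz
        rw [sp_eval_pull]
        exact h _ ⟨z, Finset.mem_coe.mpr hz, 1, rfl⟩
    · intro h x _
      exact h x (Set.mem_univ x)
  have hcard : Fintype.card (Fin d ⊕ Fin d) = 2 * d := by simp; ring
  rw [h1, hcard, ← Nat.choose_symm_add]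
  have h2 := Nat.pow_le_choose (α := ℝ) (2 * d) (2 * d + ⌊T⌋₊)
  have hfac : (0 : ℝ) < ((2 * d).factorial : ℝ) := by exact_mod_cast Nat.factorial_pos _
  rw [div_le_iff₀ hfac] at h2
  have h3 : T ≤ ((2 * d + ⌊T⌋₊ + 1 - 2 * d : ℕ) : ℝ) := by
    rw [show 2 * d + ⌊T⌋₊ + 1 - 2 * d = ⌊T⌋₊ + 1 by omega]
    push_cast
    exact (Nat.lt_floor_add_one T).le
  calc T ^ (2 * d) ≤ ((2 * d + ⌊T⌋₊ + 1 - 2 * d : ℕ) : ℝ) ^ (2 * d) := by gcongr
    _ ≤ ((2 * d + ⌊T⌋₊).choose (2 * d) : ℝ) * ((2 * d).factorial : ℝ) := h2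
    _ = _ := by ring

/-- from full rank to the common-rank inequality -/
theorem spb_of_full (hd : 3 ≤ d) (b : ℕ → ℝ) (hb : SpAdm d b) (B s t ε H : ℝ) (hB : 0 < B)
    (hs : 0 ≤ s) (ht : t ≤ b 0) (hfac : ((2 * d).factorial : ℝ) ≤ Real.exp (ε * s))
    (hH0 : 0 ≤ H) (hfull : prfT B s t ^ (2 * d) ≤ ((2 * d).factorial : ℝ) * H) :
    spRk d B s b t * Real.exp (-(ε * s)) ≤ H := by
  have h1 := spn_rk_le_zero hd b hb t B s hB hs ht
  have h2 : spRk d B s b t ≤ Real.exp (ε * s) * H :=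
    h1.trans (hfull.trans (mul_le_mul_of_nonneg_right hfac hH0))
  have h3 := Real.exp_pos (ε * s)
  rw [Real.exp_neg, ← div_eq_mul_inv, div_le_iff₀ h3]
  linarith

theorem spb_pos_of_dense {α : ℝ} (hα : 0 < α) {nx ny g : ℕ} (hnx : 0 < nx) (hny : 0 < ny)
    (hdense : α * (nx : ℝ) * (ny : ℝ) ≤ (g : ℝ)) (h : (g : ℝ) ≤ α / 2 * nx * ny) : False := by
  have h1 : (0 : ℝ) < nx := by exact_mod_cast hnx
  have h2 : (0 : ℝ) < ny := by exact_mod_cast hny
  have h3 : 0 < α * (nx : ℝ) * (ny : ℝ) := by positivity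
  nlinarith

theorem spb_pts_pos {D : SpData d} {X : SpPool d} {s θ : ℝ} {b : ℕ → ℝ} (hd : 1 ≤ d) (hθ : 0 < θ)
    (hX : X.Ok D s θ b) : 0 < X.pts.card := by
  obtain ⟨a, ha⟩ := hX.ne
  have h1 := spl_member_pos hd hθ hX ha
  have h2 : 0 < (X.π a).S.card := by exact_mod_cast h1
  exact h2.trans_le (Finset.card_le_card (Finset.subset_biUnion_of_mem (fun a => (X.π a).S) ha))

theorem spb_cr_bd (hd : 3 ≤ d) (lim : SpLimStmt d) (b : ℕ → ℝ) (hb : SpAdm d b) :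
    SpCRAt d b (-1) := by
  intro α ε hα hε
  obtain ⟨θ₁, hθ₁, hlow⟩ := lim.low b hb (α / 2) (by positivity)
  obtain ⟨θ₂, hθ₂, habs⟩ := spl_absorb ((2 * d).factorial : ℝ) ε hε
  have hθ : 0 < min θ₁ θ₂ := lt_min hθ₁ hθ₂
  refine ⟨min θ₁ θ₂, hθ, fun D X Y s htwo Γ hΓ _ hdense => ?_⟩
  have hs := spl_s_pos hθ htwo.okX
  have hB := spl_B_pos hθ htwo.okX
  have hT1 := spl_one_le_T hθ htwo.okX (le_refl (-1 : ℝ))
  have hfac := habs _ s hθ (min_le_right _ _) htwo.okX.s_ge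
  have hnx := spb_pts_pos (by omega) hθ htwo.okX
  have hny := spb_pts_pos (by omega) hθ htwo.okY
  refine spb_of_full hd b hb D.B s (-1) ε _ hB hs.le hb.lo hfac (Nat.cast_nonneg _) ?_
  by_cases h1 : 1 < prfT D.B s (-1)
  · refine spb_full Γ _ (by linarith) fun G hG hdeg hvan => ?_
    exact spb_pos_of_dense hα hnx hny hdense
      (hlow D X Y s (htwo.mono hθ (min_le_left _ _)) h1 G hG hdeg Γ hΓ hvan)
  · have hT : prfT D.B s (-1) = 1 := le_antisymm (not_lt.mp h1) hT1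
    rw [hT, one_pow]
    have hne : (spLab (Γ : Set (SpC d × SpC d))).Nonempty := by
      have : Γ.Nonempty := by
        rw [Finset.nonempty_iff_ne_empty]
        rintro rfl
        have h1 : (0 : ℝ) < X.pts.card := by exact_mod_cast hnx
        have h2 : (0 : ℝ) < Y.pts.card := by exact_mod_cast hny
        have h3 : 0 < α * (X.pts.card : ℝ) * (Y.pts.card : ℝ) := by positivity
        simp at hdense
        linarith
      obtain ⟨z, hz⟩ := this
      exact ⟨_, z, Finset.mem_coe.mpr hz, 0, rfl⟩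
    have h2 : 1 ≤ hA (spLab (Γ : Set (SpC d × SpC d))) ⌊(1 : ℝ)⌋₊ := by
      rw [← rk_hA_zero _ hne]
      exact rk_hA_mono_deg _ (Nat.zero_le _)
    have h3 : (1 : ℝ) ≤ (hA (spLab (Γ : Set (SpC d × SpC d))) ⌊(1 : ℝ)⌋₊ : ℝ) := by exact_mod_cast h2
    have h4 : (1 : ℝ) ≤ ((2 * d).factorial : ℝ) := by exact_mod_cast Nat.factorial_pos _
    nlinarith

theorem spb_asg_zero (X : SpPool d) : SpAsg X 0 (fun _ => ⊥) :=
  fun a _ x _ => (spl_carr_zero (X.π a).f x ⊥).mpr rfl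

theorem spb_not_van_bot (G : MvPolynomial (Fin d ⊕ Fin d) ℂ) (hG : G ≠ 0) :
    ¬ PrfVanProd G (⊥ : Ideal (PrfPol d)) ⊥ := by
  intro h
  apply hG
  apply MvPolynomial.funext
  intro w
  have hw : w = Sum.elim (fun i => w (Sum.inl i)) (fun i => w (Sum.inr i)) := by
    funext i
    rcases i with i | i <;> simp
  rw [hw, h _ (by rw [ph_mem_zeroLocus]; simp) _ (by rw [ph_mem_zeroLocus]; simp)]
  simp

theorem spb_cr_zero (hd : 3 ≤ d) (lim : SpLimStmt d) (b : ℕ → ℝ) (hb : SpAdm d b) (t : ℝ)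
    (ht : SpPlat d b 0 t) (h1 : -1 ≤ t) : SpCRAt d b t := by
  intro α ε hα hε
  obtain ⟨θ₁, hθ₁, hprod⟩ := lim.prod b hb (α / 2) (by positivity) 0 t ht
  obtain ⟨θ₂, hθ₂, habs⟩ := spl_absorb ((2 * d).factorial : ℝ) ε hε
  have hθ : 0 < min θ₁ θ₂ := lt_min hθ₁ hθ₂
  refine ⟨min θ₁ θ₂, hθ, fun D X Y s htwo Γ hΓ _ hdense => ?_⟩
  have hs := spl_s_pos hθ htwo.okX
  have hB := spl_B_pos hθ htwo.okX
  have hT1 := spl_one_le_T hθ htwo.okX h1
  have hfac := habs _ s hθ (min_le_right _ _) htwo.okX.s_ge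
  have hnx := spb_pts_pos (by omega) hθ htwo.okX
  have hny := spb_pts_pos (by omega) hθ htwo.okY
  refine spb_of_full hd b hb D.B s t ε _ hB hs.le (ht.2.2 0 le_rfl (by omega)).le hfac
    (Nat.cast_nonneg _) ?_
  refine spb_full Γ _ (by linarith) fun G hG hdeg hvan => ?_
  refine spb_pos_of_dense hα hnx hny hdense
    (hprod D X Y s (htwo.mono hθ (min_le_left _ _)) _ _ (spb_asg_zero X) (spb_asg_zero Y) {G}
      ?_ Γ hΓ ?_)
  · rintro G' rfl
    exact hdeg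
  · intro z hz
    exact ⟨by rintro G' rfl; exact hvan z hz, G, rfl, spb_not_van_bot G hG⟩

end Claimed.Agent.R273
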