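import Claimed.Agent.R273.SpStep

/-! # S6A-RP: sc:retained-products -/

set_option autoImplicit false

namespace Claimed.Agent.R273

open MvPolynomial Module

variable {d : ℕ}

/-! ### combinatorics -/

theorem spr_mass_comb {I Zt P : Type*} [DecidableEq I] [DecidableEq Zt] [DecidableEq P]
    (S₁ S₂ : Finset P) (a₁ a₂ : P → I) (R : Finset (I × I)) (img : I × I → Zt) (dg : I → ℕ)
    (dz : Zt → ℕ) (m₁ m₂ c : ℝ) (hm₁ : 0 ≤ m₁) (hm₂ : 0 ≤ m₂) (hc : 0 ≤ c)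
    (hf₁ : ∀ p, ((S₁.filter (fun x => a₁ x = p)).card : ℝ) ≤ dg p * m₁)
    (hf₂ : ∀ q, ((S₂.filter (fun y => a₂ y = q)).card : ℝ) ≤ dg q * m₂)
    (hdeg : ∀ r ∈ R, dg r.1 * dg r.2 ≤ 2 * dz (img r))
    (hfib : ∀ r ∈ R, ((R.filter (fun r' => img r' = img r)).card : ℝ) ≤ c)
    (𝒥 : Finset Zt) (Λ : Finset (P × P)) (hΛ : Λ ⊆ S₁ ×ˢ S₂)
    (hz : ∀ z ∈ Λ, (a₁ z.1, a₂ z.2) ∈ R ∧ img (a₁ z.1, a₂ z.2) ∈ 𝒥) :
    (Λ.card : ℝ) ≤ 2 * c * m₁ * m₂ * ((∑ Z ∈ 𝒥, dz Z : ℕ) : ℝ) := by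
  set R' := R.filter (fun r => img r ∈ 𝒥) with hR'
  have h1 : Λ.card = ∑ r ∈ R', (Λ.filter (fun z => (a₁ z.1, a₂ z.2) = r)).card :=
    Finset.card_eq_sum_card_fiberwise fun z hzΛ =>
      Finset.mem_coe.mpr (Finset.mem_filter.mpr (hz z hzΛ))
  have h2 : ∀ r ∈ R', ((Λ.filter (fun z => (a₁ z.1, a₂ z.2) = r)).card : ℝ) ≤
      2 * m₁ * m₂ * (dz (img r) : ℝ) := by
    intro r hr
    have hrR := (Finset.mem_filter.mp hr).1
    have hsub : Λ.filter (fun z => (a₁ z.1, a₂ z.2) = r) ⊆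
        (S₁.filter (fun x => a₁ x = r.1)) ×ˢ (S₂.filter (fun y => a₂ y = r.2)) := by
      intro z hzf
      obtain ⟨hzΛ, hzr⟩ := Finset.mem_filter.mp hzf
      obtain ⟨hz1, hz2⟩ := Finset.mem_product.mp (hΛ hzΛ)
      exact Finset.mem_product.mpr ⟨Finset.mem_filter.mpr ⟨hz1, by rw [← hzr]⟩,
        Finset.mem_filter.mpr ⟨hz2, by rw [← hzr]⟩⟩
    have h3 := Finset.card_le_card hsub
    rw [Finset.card_product] at h3
    have h4 : ((Λ.filter (fun z => (a₁ z.1, a₂ z.2) = r)).card : ℝ) ≤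
        ((S₁.filter (fun x => a₁ x = r.1)).card : ℝ) * ((S₂.filter (fun y => a₂ y = r.2)).card : ℝ) := by
      exact_mod_cast h3
    have h5 : ((dg r.1 : ℝ) * (dg r.2 : ℝ)) ≤ 2 * (dz (img r) : ℝ) := by exact_mod_cast hdeg r hrR
    calc ((Λ.filter (fun z => (a₁ z.1, a₂ z.2) = r)).card : ℝ)
        ≤ ((dg r.1 : ℝ) * m₁) * ((dg r.2 : ℝ) * m₂) :=
          h4.trans (mul_le_mul (hf₁ r.1) (hf₂ r.2) (Nat.cast_nonneg _) (by positivity))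
      _ = ((dg r.1 : ℝ) * (dg r.2 : ℝ)) * (m₁ * m₂) := by ring
      _ ≤ (2 * (dz (img r) : ℝ)) * (m₁ * m₂) := by gcongr
      _ = _ := by ring
  have h6 : (∑ r ∈ R', (dz (img r) : ℝ)) ≤ c * ((∑ Z ∈ 𝒥, dz Z : ℕ) : ℝ) := by
    have h7 : ∑ r ∈ R', (dz (img r) : ℝ) =
        ∑ Z ∈ 𝒥, ∑ r ∈ R' with img r = Z, (dz (img r) : ℝ) :=
      (Finset.sum_fiberwise_of_maps_to (fun r hr => (Finset.mem_filter.mp hr).2) _).symm
    rw [h7]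
    push_cast
    rw [Finset.mul_sum]
    refine Finset.sum_le_sum fun Z _ => ?_
    have h8 : ∑ r ∈ R' with img r = Z, (dz (img r) : ℝ) =
        ((R'.filter (fun r => img r = Z)).card : ℝ) * (dz Z : ℝ) := by
      rw [Finset.sum_congr rfl (g := fun _ => (dz Z : ℝ))
        (fun r hr => by rw [(Finset.mem_filter.mp hr).2])]
      simp
    rw [h8]
    refine mul_le_mul_of_nonneg_right ?_ (Nat.cast_nonneg _)
    rcases (R'.filter (fun r => img r = Z)).eq_empty_or_nonempty with he | ⟨r, hr⟩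
    · rw [he]
      simpa using hc
    · obtain ⟨hrR', hrZ⟩ := Finset.mem_filter.mp hr
      have hrR := (Finset.mem_filter.mp hrR').1
      refine le_trans ?_ (hfib r hrR)
      have : R'.filter (fun r => img r = Z) ⊆ R.filter (fun r' => img r' = img r) := by
        intro r' hr'
        obtain ⟨h9, h10⟩ := Finset.mem_filter.mp hr'
        exact Finset.mem_filter.mpr ⟨(Finset.mem_filter.mp h9).1, by rw [h10, hrZ]⟩
      exact_mod_cast Finset.card_le_card this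
  calc (Λ.card : ℝ) = ∑ r ∈ R', ((Λ.filter (fun z => (a₁ z.1, a₂ z.2) = r)).card : ℝ) := by
        rw [h1]; push_cast; rfl
    _ ≤ ∑ r ∈ R', 2 * m₁ * m₂ * (dz (img r) : ℝ) := Finset.sum_le_sum h2
    _ = 2 * m₁ * m₂ * ∑ r ∈ R', (dz (img r) : ℝ) := by rw [Finset.mul_sum]
    _ ≤ 2 * m₁ * m₂ * (c * ((∑ Z ∈ 𝒥, dz Z : ℕ) : ℝ)) := by gcongr
    _ = _ := by ring

theorem spr_degup_comb {I Zt : Type*} [DecidableEq I] [DecidableEq Zt] (𝒜₁ 𝒜₂ : Finset I)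
    (R : Finset (I × I)) (img : I × I → Zt) (dg : I → ℕ) (dz : Zt → ℕ) (K : ℕ)
    (hR : ∀ r ∈ R, r.1 ∈ 𝒜₁ ∧ r.2 ∈ 𝒜₂) (hdeg : ∀ r ∈ R, dz (img r) ≤ dg r.1 * dg r.2 * K)
    (𝒥 : Finset Zt) (h𝒥 : ∀ Z ∈ 𝒥, ∃ r ∈ R, Z = img r) :
    ∑ Z ∈ 𝒥, dz Z ≤ (∑ p ∈ 𝒜₁, dg p) * (∑ q ∈ 𝒜₂, dg q) * K := by
  have h1 : 𝒥 ⊆ R.image img := by
    intro Z hZ
    obtain ⟨r, hr, rfl⟩ := h𝒥 Z hZ
    exact Finset.mem_image_of_mem _ hr
  have h2 : R ⊆ 𝒜₁ ×ˢ 𝒜₂ := fun r hr => Finset.mem_product.mpr (hR r hr)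
  calc ∑ Z ∈ 𝒥, dz Z ≤ ∑ Z ∈ R.image img, dz Z := Finset.sum_le_sum_of_subset h1
    _ ≤ ∑ r ∈ R, dz (img r) := Finset.sum_image_le_of_nonneg fun _ _ => Nat.zero_le _
    _ ≤ ∑ r ∈ R, dg r.1 * dg r.2 * K := Finset.sum_le_sum hdeg
    _ ≤ ∑ r ∈ 𝒜₁ ×ˢ 𝒜₂, dg r.1 * dg r.2 * K := Finset.sum_le_sum_of_subset h2
    _ = (∑ p ∈ 𝒜₁, dg p) * (∑ q ∈ 𝒜₂, dg q) * K := by
        rw [← Finset.sum_mul, Finset.sum_product, Finset.sum_mul_sum]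

/-! ### one pool -/

theorem spr_exp3 {a b c t s : ℝ} (h : a + b + c ≤ t) (hs : 0 ≤ s) :
    Real.exp (a * s) * Real.exp (b * s) * Real.exp (c * s) ≤ Real.exp (t * s) := by
  rw [← Real.exp_add, ← Real.exp_add]
  apply Real.exp_le_exp.mpr
  nlinarith

/-- the mass of one carrier -/
theorem spr_fiber_mass {D : SpData d} {X : SpPool d} {s ε₁ : ℝ} {b : ℕ → ℝ} {j : ℕ}
    (hM : ∀ (𝒜 : Finset (Ideal (PrfPol d))) (S' : Finset (SpC d)),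
      (∀ x ∈ S', ∃ a ∈ X.I, x ∈ (X.π a).S ∧ ∃ p ∈ 𝒜, p ∈ (X.π a).carriers j ∧ x ∈ zeroLocus ℂ p) →
      (S'.card : ℝ) ≤ prfDeg 𝒜 * (D.N / spE D.B s b j) * Real.exp (ε₁ * s))
    {asg : SpC d → Ideal (PrfPol d)} (hasg : SpAsg X j asg) {S : Finset (SpC d)} (hS : S ⊆ X.pts)
    (p : Ideal (PrfPol d)) [DecidablePred fun x => asg x = p] :
    ((S.filter (fun x => asg x = p)).card : ℝ) ≤
      (vdeg (spZ p) : ℝ) * (D.N / spE D.B s b j * Real.exp (ε₁ * s)) := by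
  have h := hM {p} (S.filter (fun x => asg x = p)) (by
    intro x hx
    obtain ⟨hxS, hxp⟩ := Finset.mem_filter.mp hx
    obtain ⟨a, ha, hxa⟩ := Finset.mem_biUnion.mp (hS hxS)
    have h1 := hasg a ha x hxa
    rw [hxp] at h1
    exact ⟨a, ha, hxa, p, Finset.mem_singleton_self p, ⟨x, hxa, h1⟩, h1.2⟩)
  have h2 : prfDeg {p} = vdeg (spZ p) := by simp [prfDeg]
  rw [h2] at h
  linarith

theorem spr_fam {D : SpData d} {X : SpPool d} {s θ θG : ℝ} {b : ℕ → ℝ} {j : ℕ} (hj : j ≤ d)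
    (hX : X.Ok D s θ b) {asg : SpC d → Ideal (PrfPol d)} (hasg : SpAsg X j asg)
    {S : Finset (SpC d)} (hS : S ⊆ X.pts) (hreal : ∀ x ∈ S, ¬ SpNonreal (asg x))
    (hsize : D.N * Real.exp (-(θG * s)) ≤ (S.card : ℝ)) : SpFamOk D (d - j) s θG S asg where
  sub := hS.trans (Finset.biUnion_subset.mpr hX.sub)
  size := hsize
  prime := fun x hx => (sps_mem_asg hasg (hS hx)).2.1
  dim := fun x hx => (spl_carr_prime_dim hX hj (sps_mem_asg hasg (hS hx)).1).2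
  mem := fun x hx => (sps_mem_asg hasg (hS hx)).2.2
  real := hreal

theorem spr_flat {D : SpData d} {X : SpPool d} {s ε₁ θG c : ℝ} {b : ℕ → ℝ} {j : ℕ}
    (hE : 0 < spE D.B s b j) (hs : 0 ≤ s)
    (hDg : ∀ 𝒜 : Finset (Ideal (PrfPol d)), (𝒜 : Set (Ideal (PrfPol d))) ⊆ X.carriers j →
      (prfDeg 𝒜 : ℝ) ≤ spE D.B s b j * Real.exp (ε₁ * s))
    (hM : ∀ (𝒜 : Finset (Ideal (PrfPol d))) (S' : Finset (SpC d)),
      (∀ x ∈ S', ∃ a ∈ X.I, x ∈ (X.π a).S ∧ ∃ p ∈ 𝒜, p ∈ (X.π a).carriers j ∧ x ∈ zeroLocus ℂ p) →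
      (S'.card : ℝ) ≤ prfDeg 𝒜 * (D.N / spE D.B s b j) * Real.exp (ε₁ * s))
    {asg : SpC d → Ideal (PrfPol d)} (hasg : SpAsg X j asg) {S : Finset (SpC d)} (hS : S ⊆ X.pts)
    (hε₁ : ε₁ ≤ θG) (hN : D.N ≤ c * (S.card : ℝ))
    (hc : c * Real.exp (ε₁ * s) ≤ Real.exp (θG * s)) : SpFlatOk (spE D.B s b j) s θG S asg where
  num := by
    intro 𝒜 h𝒜
    have h1 : (𝒜 : Set (Ideal (PrfPol d))) ⊆ X.carriers j := by
      intro p hp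
      obtain ⟨_, x, hx, rfl⟩ := h𝒜 p hp
      exact (sps_mem_asg hasg (hS hx)).1
    have h2 : prfDeg 𝒜 = 𝒜.card := by
      unfold prfDeg
      rw [Finset.sum_congr rfl (g := fun _ => 1) fun p hp => (h𝒜 p hp).1]
      simp
    have h3 := hDg 𝒜 h1
    rw [h2] at h3
    refine h3.trans (mul_le_mul_of_nonneg_left (Real.exp_le_exp.mpr ?_) hE.le)
    exact mul_le_mul_of_nonneg_right hε₁ hs
  wt := by
    classical
    intro p hp S' hS' hx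
    have h1 : S' ⊆ S.filter (fun x => asg x = p) := fun x hxS' =>
      Finset.mem_filter.mpr ⟨hS' hxS', hx x hxS'⟩
    have h2 := spr_fiber_mass hM hasg hS p
    rw [hp] at h2
    have h3 : (S'.card : ℝ) ≤ ((S.filter (fun x => asg x = p)).card : ℝ) := by
      exact_mod_cast Finset.card_le_card h1
    have hexp := Real.exp_pos (ε₁ * s)
    calc (S'.card : ℝ) ≤ D.N / spE D.B s b j * Real.exp (ε₁ * s) := by
          have := h3.trans h2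
          simpa using this
      _ ≤ c * (S.card : ℝ) / spE D.B s b j * Real.exp (ε₁ * s) := by gcongr
      _ = (S.card : ℝ) / spE D.B s b j * (c * Real.exp (ε₁ * s)) := by ring
      _ ≤ (S.card : ℝ) / spE D.B s b j * Real.exp (θG * s) := by
          have : 0 ≤ (S.card : ℝ) / spE D.B s b j := by positivity
          gcongr

/-! ### the retained points -/

/-- the points retained by sc:retained-products -/
def SprGood (X Y : SpPool d) (j : ℕ) (g : PrfPol d) (x : SpC d) : Prop :=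
  eval x g ≠ 0 ∧ ∀ p ∈ spCarr2 X Y j, x ∈ zeroLocus ℂ p → ¬ SpNonreal p

theorem spr_loss (X Y Z : SpPool d) (j : ℕ) (g : PrfPol d) (η : ℝ) [DecidablePred (SprGood X Y j g)]
    (h1 : ∀ S' ⊆ Z.pts, (∀ x ∈ S', eval x g = 0) → (S'.card : ℝ) ≤ η / 2 * Z.pts.card)
    (h2 : ∀ S' ⊆ Z.pts, (∀ x ∈ S', ∃ p ∈ spCarr2 X Y j, x ∈ zeroLocus ℂ p ∧ SpNonreal p) →
      (S'.card : ℝ) ≤ η / 2 * Z.pts.card) :
    (1 - η) * (Z.pts.card : ℝ) ≤ ((Z.pts.filter (SprGood X Y j g)).card : ℝ) := by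
  classical
  set A := Z.pts.filter (fun x => eval x g = 0) with hA
  set N := Z.pts.filter (fun x => ∃ p ∈ spCarr2 X Y j, x ∈ zeroLocus ℂ p ∧ SpNonreal p) with hN
  have e1 := h1 A (Finset.filter_subset _ _) (fun x hx => (Finset.mem_filter.mp hx).2)
  have e2 := h2 N (Finset.filter_subset _ _) (fun x hx => (Finset.mem_filter.mp hx).2)
  have hcover : Z.pts ⊆ Z.pts.filter (SprGood X Y j g) ∪ (A ∪ N) := by
    intro x hx
    by_cases hg : eval x g = 0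
    · exact Finset.mem_union_right _ (Finset.mem_union_left _ (Finset.mem_filter.mpr ⟨hx, hg⟩))
    · by_cases hn : ∃ p ∈ spCarr2 X Y j, x ∈ zeroLocus ℂ p ∧ SpNonreal p
      · exact Finset.mem_union_right _ (Finset.mem_union_right _ (Finset.mem_filter.mpr ⟨hx, hn⟩))
      · refine Finset.mem_union_left _ (Finset.mem_filter.mpr ⟨hx, hg, fun p hp hxp hnr => ?_⟩)
        exact hn ⟨p, hp, hxp, hnr⟩
  have e3 := (Finset.card_le_card hcover).trans ((Finset.card_union_le _ _).trans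
    (Nat.add_le_add_left (Finset.card_union_le _ _) _))
  have e4 : (Z.pts.card : ℝ) ≤ ((Z.pts.filter (SprGood X Y j g)).card : ℝ) +
      ((A.card : ℝ) + (N.card : ℝ)) := by exact_mod_cast e3
  linarith

/-- the number of retained pairs with a given image -/
theorem spr_fib_count (R R₀ : Finset (Ideal (PrfPol d) × Ideal (PrfPol d))) (hRR₀ : R ⊆ R₀)
    (hprime : ∀ r ∈ R, r.1.IsPrime ∧ r.2.IsPrime) (c : ℝ)
    (hdepth : ∀ r ∈ R₀, ∀ 𝒴 : Finset (Ideal (PrfPol d)),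
      (∀ q ∈ 𝒴, (r.1, q) ∈ R₀ ∧ spImg (spZ r.1) (spZ q) = spImg (spZ r.1) (spZ r.2)) →
      (𝒴.card : ℝ) ≤ c)
    [DecidableEq (Ideal (PrfPol d))] [DecidableEq (Set (Fin d ⊕ Fin d → ℂ))]
    (r : Ideal (PrfPol d) × Ideal (PrfPol d)) (hr : r ∈ R) :
    ((R.filter (fun r' => spImgP r' = spImgP r)).card : ℝ) ≤ c := by
  have hsrc : ∀ r' ∈ R.filter (fun r' => spImgP r' = spImgP r), r'.1 = r.1 := by
    intro r' hr'
    obtain ⟨h1, h2⟩ := Finset.mem_filter.mp hr'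
    exact ph_zeroLocus_inj (hprime r' h1).1 (hprime r hr).1
      (sp_img_src ⟨_, (hprime r' h1).1, rfl⟩ ⟨_, (hprime r' h1).2, rfl⟩ ⟨_, (hprime r hr).1, rfl⟩
        ⟨_, (hprime r hr).2, rfl⟩ h2)
  have hinj : Set.InjOn Prod.snd
      ((R.filter (fun r' => spImgP r' = spImgP r) : Finset _) : Set (Ideal (PrfPol d) × Ideal (PrfPol d))) := by
    intro r₁ h₁ r₂ h₂ h
    exact Prod.ext ((hsrc r₁ h₁).trans (hsrc r₂ h₂).symm) h
  rw [← Finset.card_image_of_injOn hinj]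
  refine hdepth r (hRR₀ hr) _ ?_
  intro q hq
  obtain ⟨r', hr', rfl⟩ := Finset.mem_image.mp hq
  obtain ⟨h1, h2⟩ := Finset.mem_filter.mp hr'
  have h3 := hsrc r' hr'
  refine ⟨by rw [← h3]; exact hRR₀ h1, ?_⟩
  have h4 : spImg (spZ r'.1) (spZ r'.2) = spImg (spZ r.1) (spZ r.2) := h2
  rw [← h4, h3]

/-! ### numerics -/

theorem spr_num {θ ε₁ κ η₀ θG s : ℝ} (hs : 0 ≤ s) (h8 : 8 ≤ Real.exp (κ * s)) (hθ0 : 0 ≤ θ)
    (hθ : θ ≤ ε₁) (hε₁a : ε₁ ≤ η₀ / 8) (hε₁b : ε₁ ≤ θG / 4) (hκa : κ ≤ η₀ / 4)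
    (hκb : κ ≤ θG / 4) :
    2 * Real.exp (θ * s) ≤ Real.exp (θG * s) ∧
    2 * Real.exp (θ * s) * Real.exp (ε₁ * s) ≤ Real.exp (θG * s) ∧
    2 * (2 * Real.exp (θ * s) * Real.exp (ε₁ * s)) ^ 2 ≤ Real.exp (η₀ * s) ∧
    Real.exp (ε₁ * s) * Real.exp (ε₁ * s) * Real.exp (κ * s) ≤ Real.exp (η₀ * s) := by
  have ha := Real.exp_pos (θ * s)
  have hb := Real.exp_pos (ε₁ * s)
  have hb1 : 1 ≤ Real.exp (ε₁ * s) := Real.one_le_exp (mul_nonneg (hθ0.trans hθ) hs)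
  have h2 : 2 * Real.exp (θ * s) * Real.exp (ε₁ * s) ≤ Real.exp (θG * s) := by
    calc 2 * Real.exp (θ * s) * Real.exp (ε₁ * s)
        ≤ Real.exp (κ * s) * Real.exp (θ * s) * Real.exp (ε₁ * s) := by
          have : (2 : ℝ) ≤ Real.exp (κ * s) := by linarith
          gcongr
      _ ≤ Real.exp (θG * s) := spr_exp3 (by linarith) hs
  refine ⟨?_, h2, ?_, spr_exp3 (by linarith) hs⟩
  · refine le_trans ?_ h2
    nlinarith
  · calc 2 * (2 * Real.exp (θ * s) * Real.exp (ε₁ * s)) ^ 2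
        = 8 * Real.exp (θ * s) ^ 2 * Real.exp (ε₁ * s) ^ 2 := by ring
      _ = 8 * Real.exp (2 * θ * s) * Real.exp (2 * ε₁ * s) := by
          rw [← Real.exp_nat_mul, ← Real.exp_nat_mul]
          push_cast
          rw [mul_assoc 2 θ s, mul_assoc 2 ε₁ s]
      _ ≤ Real.exp (κ * s) * Real.exp (2 * θ * s) * Real.exp (2 * ε₁ * s) := by gcongr
      _ ≤ Real.exp (η₀ * s) := spr_exp3 (by linarith) hs

theorem spr_N_le {D : SpData d} {Z : SpPool d} {s θ η₀ : ℝ} {b : ℕ → ℝ} (hZ : Z.Ok D s θ b)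
    {S : Finset (SpC d)} (hl : (1 - η₀) * (Z.pts.card : ℝ) ≤ (S.card : ℝ)) (hη₀ : η₀ ≤ 1 / 2) :
    D.N ≤ 2 * Real.exp (θ * s) * (S.card : ℝ) := by
  obtain ⟨a₀, ha₀⟩ := hZ.ne
  have hmem : ((Z.π a₀).S.card : ℝ) ≤ Z.pts.card := by
    exact_mod_cast Finset.card_le_card (Finset.subset_biUnion_of_mem (fun a => (Z.π a).S) ha₀)
  have h1 := spl_N_le_member hZ ha₀
  have h2 : (Z.pts.card : ℝ) ≤ 2 * (S.card : ℝ) := by
    have : (0 : ℝ) ≤ Z.pts.card := Nat.cast_nonneg _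
    nlinarith
  have h3 := Real.exp_pos (θ * s)
  calc D.N ≤ ((Z.π a₀).S.card : ℝ) * Real.exp (θ * s) := h1
    _ ≤ (2 * (S.card : ℝ)) * Real.exp (θ * s) := by gcongr; exact hmem.trans h2
    _ = _ := by ring

theorem spr_size {N c E S : ℝ} (hE : 0 < E) (hN : N ≤ c * S) (hc : c ≤ E) (hS : 0 ≤ S) :
    N * E⁻¹ ≤ S := by
  rw [← div_eq_mul_inv, div_le_iff₀ hE]
  calc N ≤ c * S := hN
    _ ≤ E * S := by gcongr
    _ = S * E := by ring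

/-! ### the two degree/mass fields, finite form -/

theorem spr_degup_field (S₁ S₂ : Finset (SpC d)) (a₁ a₂ : SpC d → Ideal (PrfPol d))
    [DecidableEq (Ideal (PrfPol d))]
    (R : Finset (Ideal (PrfPol d) × Ideal (PrfPol d))) (k : ℕ) (e x₁ xκ xη : ℝ)
    (hRmem : ∀ r ∈ R, r.1 ∈ S₁.image a₁ ∧ r.2 ∈ S₂.image a₂)
    (hpd₁ : ∀ r ∈ R, r.1.IsPrime ∧ vdim (spZ r.1) = k)
    (hpd₂ : ∀ r ∈ R, r.2.IsPrime ∧ vdim (spZ r.2) = k)
    (h4 : (prfDeg (S₁.image a₁) : ℝ) ≤ e * x₁) (h5 : (prfDeg (S₂.image a₂) : ℝ) ≤ e * x₁)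
    (hK : ((2 ^ (2 * k + 1) : ℕ) : ℝ) ≤ xκ) (n4 : x₁ * x₁ * xκ ≤ xη) (he : 0 ≤ e) (hx₁ : 0 ≤ x₁)
    (𝒥 : Finset (Set (Fin d ⊕ Fin d → ℂ))) (h𝒥 : ∀ Z ∈ 𝒥, ∃ r ∈ R, Z = spImgP r) :
    ((∑ Z ∈ 𝒥, vdeg Z : ℕ) : ℝ) ≤ e ^ 2 * xη := by
  classical
  have h3 := spr_degup_comb (S₁.image a₁) (S₂.image a₂) R spImgP (fun p => vdeg (spZ p)) vdeg
    (2 ^ (2 * k + 1)) hRmem (fun r hr => by
      have := sp_img_vdeg_le (V := spZ r.1) (W := spZ r.2) ⟨_, (hpd₁ r hr).1, rfl⟩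
        ⟨_, (hpd₂ r hr).1, rfl⟩
      rw [(hpd₁ r hr).2, (hpd₂ r hr).2, show k + k + 1 = 2 * k + 1 by ring] at this
      exact this) 𝒥 h𝒥
  have h6 : ((∑ Z ∈ 𝒥, vdeg Z : ℕ) : ℝ) ≤ (prfDeg (S₁.image a₁) : ℝ) *
      (prfDeg (S₂.image a₂) : ℝ) * ((2 ^ (2 * k + 1) : ℕ) : ℝ) := by
    exact_mod_cast h3
  have hex : 0 ≤ e * x₁ := mul_nonneg he hx₁
  calc ((∑ Z ∈ 𝒥, vdeg Z : ℕ) : ℝ)
      ≤ (e * x₁) * (e * x₁) * xκ := h6.trans (by gcongr)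
    _ = e ^ 2 * (x₁ * x₁ * xκ) := by ring
    _ ≤ e ^ 2 * xη := by gcongr

theorem spr_mass_field (S₁ S₂ : Finset (SpC d)) (a₁ a₂ : SpC d → Ideal (PrfPol d))
    [DecidableEq (Ideal (PrfPol d))]
    (R R₀ : Finset (Ideal (PrfPol d) × Ideal (PrfPol d))) (hRR₀ : R ⊆ R₀) (e u c xη : ℝ)
    (he : 0 < e) (hu0 : 0 ≤ u) (hc : 0 ≤ c)
    (hf₁ : ∀ p, ((S₁.filter (fun x => a₁ x = p)).card : ℝ) ≤
      (vdeg (spZ p) : ℝ) * (u * (S₁.card : ℝ) / e))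
    (hf₂ : ∀ p, ((S₂.filter (fun x => a₂ x = p)).card : ℝ) ≤
      (vdeg (spZ p) : ℝ) * (u * (S₂.card : ℝ) / e))
    (hprime : ∀ r ∈ R, r.1.IsPrime ∧ r.2.IsPrime)
    (hdeg : ∀ r ∈ R₀, vdeg (spZ r.1) * vdeg (spZ r.2) ≤ 2 * vdeg (spImg (spZ r.1) (spZ r.2)))
    (hdepth : ∀ r ∈ R₀, ∀ 𝒴 : Finset (Ideal (PrfPol d)),
      (∀ q ∈ 𝒴, (r.1, q) ∈ R₀ ∧ spImg (spZ r.1) (spZ q) = spImg (spZ r.1) (spZ r.2)) →
      (𝒴.card : ℝ) ≤ c)
    (n3 : 2 * u ^ 2 ≤ xη)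
    (𝒥 : Finset (Set (Fin d ⊕ Fin d → ℂ))) (Λ : Finset (SpC d × SpC d)) (hΛ : Λ ⊆ S₁ ×ˢ S₂)
    (hz : ∀ z ∈ Λ, (a₁ z.1, a₂ z.2) ∈ R ∧ spImgP (a₁ z.1, a₂ z.2) ∈ 𝒥) :
    (Λ.card : ℝ) ≤ ((∑ Z ∈ 𝒥, vdeg Z : ℕ) : ℝ) / e ^ 2 * (c * xη) * (S₁.card : ℝ) *
      (S₂.card : ℝ) := by
  classical
  have h3 := spr_mass_comb S₁ S₂ a₁ a₂ R spImgP (fun p => vdeg (spZ p)) vdeg
    (u * (S₁.card : ℝ) / e) (u * (S₂.card : ℝ) / e) c
    (by positivity) (by positivity) hc hf₁ hf₂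
    (fun r hr => hdeg r (hRR₀ hr))
    (fun r hr => spr_fib_count R R₀ hRR₀ hprime c hdepth r hr) 𝒥 Λ hΛ hz
  refine h3.trans ?_
  have hsum : (0 : ℝ) ≤ ((∑ Z ∈ 𝒥, vdeg Z : ℕ) : ℝ) := Nat.cast_nonneg _
  calc 2 * c * (u * (S₁.card : ℝ) / e) * (u * (S₂.card : ℝ) / e) * ((∑ Z ∈ 𝒥, vdeg Z : ℕ) : ℝ)
      = ((∑ Z ∈ 𝒥, vdeg Z : ℕ) : ℝ) / e ^ 2 * (c * (2 * u ^ 2)) * (S₁.card : ℝ) *
          (S₂.card : ℝ) := by
        field_simp
    _ ≤ ((∑ Z ∈ 𝒥, vdeg Z : ℕ) : ℝ) / e ^ 2 * (c * xη) * (S₁.card : ℝ) * (S₂.card : ℝ) := by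
        gcongr

theorem spr_fiber_bound {D : SpData d} {X : SpPool d} {s ε₁ θ : ℝ} {b : ℕ → ℝ} {j : ℕ}
    (hE : 0 < spE D.B s b j)
    (hM : ∀ (𝒜 : Finset (Ideal (PrfPol d))) (S' : Finset (SpC d)),
      (∀ x ∈ S', ∃ a ∈ X.I, x ∈ (X.π a).S ∧ ∃ p ∈ 𝒜, p ∈ (X.π a).carriers j ∧ x ∈ zeroLocus ℂ p) →
      (S'.card : ℝ) ≤ prfDeg 𝒜 * (D.N / spE D.B s b j) * Real.exp (ε₁ * s))
    {asg : SpC d → Ideal (PrfPol d)} (hasg : SpAsg X j asg) {S : Finset (SpC d)} (hS : S ⊆ X.pts)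
    (hN : D.N ≤ 2 * Real.exp (θ * s) * (S.card : ℝ))
    (p : Ideal (PrfPol d)) [DecidablePred fun x => asg x = p] :
    ((S.filter (fun x => asg x = p)).card : ℝ) ≤ (vdeg (spZ p) : ℝ) *
      (2 * Real.exp (θ * s) * Real.exp (ε₁ * s) * (S.card : ℝ) / spE D.B s b j) := by
  refine (spr_fiber_mass hM hasg hS p).trans ?_
  refine mul_le_mul_of_nonneg_left ?_ (Nat.cast_nonneg _)
  calc D.N / spE D.B s b j * Real.exp (ε₁ * s)
      ≤ (2 * Real.exp (θ * s) * (S.card : ℝ)) / spE D.B s b j * Real.exp (ε₁ * s) := by gcongr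
    _ = 2 * Real.exp (θ * s) * Real.exp (ε₁ * s) * (S.card : ℝ) / spE D.B s b j := by ring

/-! ### sc:retained-products -/

theorem spr_rp (lim : SpLimStmt d) (gd : SpDepthStmt d) : SpRPStmt d := by
  classical
  intro b hb j τ h2 hj hplat hτ ε η hε hη
  set η₀ := min η (1 / 2) with hη₀def
  have hη₀ : 0 < η₀ := lt_min hη (by norm_num)
  have hη₀1 : η₀ ≤ η := min_le_left _ _
  have hη₀2 : η₀ ≤ 1 / 2 := min_le_right _ _
  obtain ⟨θG, hθG, hG⟩ := gd (d - j) (by omega) (by omega) ε η₀ hε hη₀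
  set ε₁ := min (η₀ / 8) (θG / 4) with hε₁def
  have hε₁ : 0 < ε₁ := lt_min (by positivity) (by positivity)
  have hε₁a : ε₁ ≤ η₀ / 8 := min_le_left _ _
  have hε₁b : ε₁ ≤ θG / 4 := min_le_right _ _
  set κ := min (η₀ / 4) (θG / 4) with hκdef
  have hκ : 0 < κ := lt_min (by positivity) (by positivity)
  have hκa : κ ≤ η₀ / 4 := min_le_left _ _
  have hκb : κ ≤ θG / 4 := min_le_right _ _
  obtain ⟨θR, hθR, hReg⟩ := lim.regular b hb (η₀ / 2) (by positivity) j τ hplat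
  obtain ⟨θN, hθN, hNr⟩ := lim.nonreal b hb (η₀ / 2) (by positivity) j τ hplat hτ
  obtain ⟨θD, hθD, hDeg⟩ := lim.deg b hb ε₁ hε₁
  obtain ⟨θM, hθM, hMass⟩ := lim.mass b hb ε₁ hε₁
  obtain ⟨θA, hθA, hAbs⟩ := spl_absorb ((2 : ℝ) ^ (2 * d + 3)) κ hκ
  set θ := min (min θG θR) (min (min θN θD) (min θM (min θA ε₁))) with hθdef
  have hθ : 0 < θ := lt_min (lt_min hθG hθR) (lt_min (lt_min hθN hθD) (lt_min hθM (lt_min hθA hε₁)))
  have hleG : θ ≤ θG := (min_le_left _ _).trans (min_le_left _ _)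
  have hleR : θ ≤ θR := (min_le_left _ _).trans (min_le_right _ _)
  have hleN : θ ≤ θN := (min_le_right _ _).trans ((min_le_left _ _).trans (min_le_left _ _))
  have hleD : θ ≤ θD := (min_le_right _ _).trans ((min_le_left _ _).trans (min_le_right _ _))
  have hleM : θ ≤ θM := (min_le_right _ _).trans ((min_le_right _ _).trans (min_le_left _ _))
  have hleA : θ ≤ θA := (min_le_right _ _).trans ((min_le_right _ _).trans
    ((min_le_right _ _).trans (min_le_left _ _)))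
  have hleε : θ ≤ ε₁ := (min_le_right _ _).trans ((min_le_right _ _).trans
    ((min_le_right _ _).trans (min_le_right _ _)))
  refine ⟨θ, hθ, fun D X Y s htwo => ?_⟩
  have hs := spl_s_pos hθ htwo.okX
  have hB := spl_B_pos hθ htwo.okX
  have hE := spn_E_pos hB s b j
  -- the assignments
  let A : SpPool d → SpC d → Ideal (PrfPol d) := fun Z =>
    if h : ∃ asg, SpAsg Z j asg then h.choose else fun _ => ⊥
  have hA : ∀ Z, (∃ asg, SpAsg Z j asg) → SpAsg Z j (A Z) := by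
    intro Z h
    simp only [A, dif_pos h]
    exact h.choose_spec
  have h₁ : SpAsg X j (A X) := hA X (spl_asg_exists htwo.okX hj.le)
  have h₂ : SpAsg Y j (A Y) := hA Y (spl_asg_exists htwo.okY hj.le)
  obtain ⟨F, g, hF, hgdeg, hgrank, hgX, hgY⟩ := hReg D X Y s (htwo.mono hθ hleR)
  set S₁ := X.pts.filter (SprGood X Y j g) with hS₁
  set S₂ := Y.pts.filter (SprGood X Y j g) with hS₂
  have hsub₁ : S₁ ⊆ X.pts := Finset.filter_subset _ _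
  have hsub₂ : S₂ ⊆ Y.pts := Finset.filter_subset _ _
  have hl₁ : (1 - η₀) * (X.pts.card : ℝ) ≤ (S₁.card : ℝ) :=
    spr_loss X Y X j g η₀ hgX (hNr D X Y s (htwo.mono hθ hleN))
  have hl₂ : (1 - η₀) * (Y.pts.card : ℝ) ≤ (S₂.card : ℝ) :=
    spr_loss X Y Y j g η₀ hgY (fun S' hS' hx => hNr D Y X s (htwo.mono hθ hleN).symm S' hS'
      (fun x hx' => by
        obtain ⟨p, hp, h⟩ := hx x hx'
        exact ⟨p, Or.symm hp, h⟩))
  have hreal₁ : ∀ x ∈ S₁, ¬ SpNonreal (A X x) := fun x hx =>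
    (Finset.mem_filter.mp hx).2.2 _ (Or.inl (sps_mem_asg h₁ (hsub₁ hx)).1)
      (sps_mem_asg h₁ (hsub₁ hx)).2.2
  have hreal₂ : ∀ x ∈ S₂, ¬ SpNonreal (A Y x) := fun x hx =>
    (Finset.mem_filter.mp hx).2.2 _ (Or.inr (sps_mem_asg h₂ (hsub₂ hx)).1)
      (sps_mem_asg h₂ (hsub₂ hx)).2.2
  -- numerics
  have hC := hAbs θ s hθ hleA htwo.okX.s_ge
  have h8 : (8 : ℝ) ≤ Real.exp (κ * s) := by
    refine le_trans ?_ hC
    calc (8 : ℝ) = 2 ^ 3 := by norm_num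
      _ ≤ 2 ^ (2 * d + 3) := pow_le_pow_right₀ (by norm_num) (by omega)
  have hK : ((2 ^ (2 * (d - j) + 1) : ℕ) : ℝ) ≤ Real.exp (κ * s) := by
    refine le_trans ?_ hC
    push_cast
    exact pow_le_pow_right₀ (by norm_num) (by omega)
  obtain ⟨n1, n2, n3, n4⟩ := spr_num hs.le h8 hθ.le hleε hε₁a hε₁b hκa hκb
  have hN₁ := spr_N_le htwo.okX hl₁ hη₀2
  have hN₂ := spr_N_le htwo.okY hl₂ hη₀2
  have hsz₁ : D.N * Real.exp (-(θG * s)) ≤ (S₁.card : ℝ) := by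
    rw [Real.exp_neg]
    exact spr_size (Real.exp_pos _) hN₁ n1 (Nat.cast_nonneg _)
  have hsz₂ : D.N * Real.exp (-(θG * s)) ≤ (S₂.card : ℝ) := by
    rw [Real.exp_neg]
    exact spr_size (Real.exp_pos _) hN₂ n1 (Nat.cast_nonneg _)
  have hDX := hDeg D X s (htwo.mono hθ hleD).reg (htwo.mono hθ hleD).okX j hj.le
  have hDY := hDeg D Y s (htwo.mono hθ hleD).reg (htwo.mono hθ hleD).okY j hj.le
  have hMX := hMass D X s (htwo.mono hθ hleM).reg (htwo.mono hθ hleM).okX j hj.le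
  have hMY := hMass D Y s (htwo.mono hθ hleM).reg (htwo.mono hθ hleM).okY j hj.le
  have hε₁G : ε₁ ≤ θG := by linarith
  obtain ⟨R₀, hR₀loss, hR₀⟩ := hG D s (spE D.B s b j) (htwo.mono hθ hleG).reg
    (htwo.mono hθ hleG).okX.s_ge htwo.okX.s_le hE S₁ S₂ (A X) (A Y)
    (spr_fam hj.le htwo.okX h₁ hsub₁ hreal₁ hsz₁) (spr_fam hj.le htwo.okY h₂ hsub₂ hreal₂ hsz₂)
    (spr_flat hE hs.le hDX hMX h₁ hsub₁ hε₁G hN₁ n2)
    (spr_flat hE hs.le hDY hMY h₂ hsub₂ hε₁G hN₂ n2)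
  set R := R₀.filter (fun r => r.1 ∈ S₁.image (A X) ∧ r.2 ∈ S₂.image (A Y)) with hR
  have hRR₀ : R ⊆ R₀ := Finset.filter_subset _ _
  have hRmem : ∀ r ∈ R, r.1 ∈ S₁.image (A X) ∧ r.2 ∈ S₂.image (A Y) := fun r hr =>
    (Finset.mem_filter.mp hr).2
  have hRsub : ∀ r ∈ R, (∃ x ∈ S₁, A X x = r.1) ∧ ∃ y ∈ S₂, A Y y = r.2 := fun r hr =>
    ⟨Finset.mem_image.mp (hRmem r hr).1, Finset.mem_image.mp (hRmem r hr).2⟩
  have hcar : ∀ r ∈ R, r.1 ∈ X.carriers j ∧ r.2 ∈ Y.carriers j := by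
    intro r hr
    obtain ⟨⟨x, hx, hx'⟩, y, hy, hy'⟩ := hRsub r hr
    exact ⟨hx' ▸ (sps_mem_asg h₁ (hsub₁ hx)).1, hy' ▸ (sps_mem_asg h₂ (hsub₂ hy)).1⟩
  have hpd₁ : ∀ r ∈ R, r.1.IsPrime ∧ vdim (spZ r.1) = d - j := fun r hr =>
    spl_carr_prime_dim htwo.okX hj.le (hcar r hr).1
  have hpd₂ : ∀ r ∈ R, r.2.IsPrime ∧ vdim (spZ r.2) = d - j := fun r hr =>
    spl_carr_prime_dim htwo.okY hj.le (hcar r hr).2
  refine ⟨⟨S₁, S₂, A X, A Y, F, g, R⟩, SpRet.Ok.mono_eta (η := η₀) ?_ hη₀1 hs.le⟩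
  refine
    { sub₁ := hsub₁
      sub₂ := hsub₂
      loss₁ := hl₁
      loss₂ := hl₂
      asg₁ := h₁
      asg₂ := h₂
      same := ?_
      F_deg := fun f hf => (hF f hf).1
      F_van := fun f hf => (hF f hf).2
      g_deg := hgdeg
      g_rank := hgrank
      g_ne₁ := fun x hx => (Finset.mem_filter.mp hx).2.1
      g_ne₂ := fun x hx => (Finset.mem_filter.mp hx).2.1
      real₁ := hreal₁
      real₂ := hreal₂
      R_sub := hRsub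
      R_loss := ?_
      dim := fun r hr => (hR₀ r (hRR₀ hr)).2.1
      transv := fun r hr => (hR₀ r (hRR₀ hr)).1
      deg_up := ?_
      mass := ?_ }
  · intro hXY
    subst hXY
    exact ⟨rfl, rfl⟩
  · intro Λ hΛ hz
    refine hR₀loss Λ hΛ fun z hzΛ hzR₀ => hz z hzΛ ?_
    obtain ⟨hz1, hz2⟩ := Finset.mem_product.mp (hΛ hzΛ)
    exact Finset.mem_filter.mpr ⟨hzR₀, Finset.mem_image_of_mem _ hz1, Finset.mem_image_of_mem _ hz2⟩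
  · intro 𝒥 h𝒥
    exact spr_degup_field S₁ S₂ (A X) (A Y) R (d - j) (spE D.B s b j) (Real.exp (ε₁ * s))
      (Real.exp (κ * s)) (Real.exp (η₀ * s)) hRmem hpd₁ hpd₂
      (hDX _ (by
        intro p hp
        obtain ⟨x, hx, rfl⟩ := Finset.mem_image.mp (Finset.mem_coe.mp hp)
        exact (sps_mem_asg h₁ (hsub₁ hx)).1))
      (hDY _ (by
        intro p hp
        obtain ⟨x, hx, rfl⟩ := Finset.mem_image.mp (Finset.mem_coe.mp hp)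
        exact (sps_mem_asg h₂ (hsub₂ hx)).1))
      hK n4 hE.le (Real.exp_pos _).le 𝒥 h𝒥
  · intro 𝒥 Λ hΛ hz
    have hexp : Real.exp ((ε + η₀) * s) = Real.exp (ε * s) * Real.exp (η₀ * s) := by
      rw [← Real.exp_add]
      congr 1
      ring
    rw [hexp]
    exact spr_mass_field S₁ S₂ (A X) (A Y) R R₀ hRR₀ (spE D.B s b j)
      (2 * Real.exp (θ * s) * Real.exp (ε₁ * s)) (Real.exp (ε * s)) (Real.exp (η₀ * s)) hE
      (by positivity) (Real.exp_pos _).le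
      (fun p => spr_fiber_bound hE hMX h₁ hsub₁ hN₁ p)
      (fun p => spr_fiber_bound hE hMY h₂ hsub₂ hN₂ p)
      (fun r hr => ⟨(hpd₁ r hr).1, (hpd₂ r hr).1⟩)
      (fun r hr => (hR₀ r hr).2.2.1) (fun r hr => (hR₀ r hr).2.2.2) n3 𝒥 Λ hΛ hz

end Claimed.Agent.R273
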