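import Claimed.Agent.R273.SpBD
import Claimed.Agent.R273.SplProd

/-! # S6A-STEP: the plateau step of sc:common-rank -/

set_option autoImplicit false

namespace Claimed.Agent.R273

open MvPolynomial Module

variable {d : ℕ}

/-! ### numerics -/

theorem sps_pow_le_choose {T : ℝ} (hT : 0 ≤ T) (h : ℕ) :
    T ^ h ≤ (h.factorial : ℝ) * ((⌊T⌋₊ + h).choose h : ℝ) := by
  have h2 := Nat.pow_le_choose (α := ℝ) h (⌊T⌋₊ + h)
  have hfac : (0 : ℝ) < (h.factorial : ℝ) := by exact_mod_cast Nat.factorial_pos _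
  rw [div_le_iff₀ hfac] at h2
  have h3 : T ≤ ((⌊T⌋₊ + h + 1 - h : ℕ) : ℝ) := by
    rw [show ⌊T⌋₊ + h + 1 - h = ⌊T⌋₊ + 1 by omega]
    push_cast
    exact (Nat.lt_floor_add_one T).le
  calc T ^ h ≤ ((⌊T⌋₊ + h + 1 - h : ℕ) : ℝ) ^ h := by gcongr
    _ ≤ ((⌊T⌋₊ + h).choose h : ℝ) * (h.factorial : ℝ) := h2
    _ = _ := by ring

theorem sps_choose_le_pow {T : ℝ} (hT : 1 ≤ T) (h : ℕ) :
    ((⌊T⌋₊ + h).choose h : ℝ) ≤ (2 * T) ^ h := by
  have h1 : ((⌊T⌋₊ + h).choose h : ℝ) ≤ ((⌊T⌋₊ + 1 : ℕ) : ℝ) ^ h := by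
    exact_mod_cast Nat.choose_add_le_add_one_pow ⌊T⌋₊ h
  refine h1.trans ?_
  have h2 : (⌊T⌋₊ : ℝ) ≤ T := Nat.floor_le (by linarith)
  push_cast
  gcongr
  linarith

/-- the case of a larger envelope component -/
theorem sps_high (n h k : ℕ) (Rku Rkt a H Tu T e1 g : ℝ) (hRku : 0 ≤ Rku) (ha : 0 ≤ a)
    (he1 : 0 ≤ e1) (hg : 0 ≤ g) (hH : 0 ≤ H) (hTu : 1 ≤ Tu) (hT : Tu ≤ T) (hkh : 2 * k + 2 ≤ h)
    (hhn : h ≤ n)
    (h1 : Rku * e1 ≤ a * ((⌊Tu⌋₊ + h).choose h : ℝ))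
    (h2 : a * ((⌊T⌋₊ + h).choose h : ℝ) ≤ ((n + 1 : ℕ) : ℝ) ^ n * H)
    (h3 : Rkt ≤ Rku * (T / Tu) ^ (2 * k + 2) * g) :
    Rkt * e1 ≤ g * ((2 : ℝ) ^ n * (n.factorial : ℝ) * ((n + 1 : ℕ) : ℝ) ^ n) * H := by
  have hTu0 : 0 < Tu := by linarith
  have hT0 : 0 < T := by linarith
  have hr : 1 ≤ T / Tu := by rwa [one_le_div hTu0]
  have hc1 := sps_choose_le_pow hTu h
  have hc2 := sps_pow_le_choose hT0.le h
  have hfacle : (h.factorial : ℝ) ≤ (n.factorial : ℝ) := by exact_mod_cast Nat.factorial_le hhn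
  have h2pow : (2 : ℝ) ^ h ≤ 2 ^ n := pow_le_pow_right₀ (by norm_num) hhn
  have hfac0 : (0 : ℝ) ≤ (h.factorial : ℝ) := Nat.cast_nonneg _
  -- Rku e1 (T/Tu)^h ≤ 2^h h! (n+1)^n H
  have key : Rku * e1 * (T / Tu) ^ h ≤ (2 : ℝ) ^ h * (h.factorial : ℝ) * (((n + 1 : ℕ) : ℝ) ^ n * H) := by
    rw [div_pow, ← mul_div_assoc, div_le_iff₀ (by positivity)]
    calc Rku * e1 * T ^ h ≤ a * ((⌊Tu⌋₊ + h).choose h : ℝ) * T ^ h := by gcongr
      _ ≤ a * (2 * Tu) ^ h * ((h.factorial : ℝ) * ((⌊T⌋₊ + h).choose h : ℝ)) := by gcongr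
      _ = (2 : ℝ) ^ h * (h.factorial : ℝ) * (a * ((⌊T⌋₊ + h).choose h : ℝ)) * Tu ^ h := by
          rw [mul_pow]; ring
      _ ≤ (2 : ℝ) ^ h * (h.factorial : ℝ) * (((n + 1 : ℕ) : ℝ) ^ n * H) * Tu ^ h := by gcongr
  have hpow : (T / Tu) ^ (2 * k + 2) ≤ (T / Tu) ^ h := pow_le_pow_right₀ hr hkh
  have hnH : 0 ≤ ((n + 1 : ℕ) : ℝ) ^ n * H := by positivity
  calc Rkt * e1 ≤ Rku * (T / Tu) ^ (2 * k + 2) * g * e1 := by gcongr
    _ ≤ Rku * (T / Tu) ^ h * g * e1 := by gcongr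
    _ = g * (Rku * e1 * (T / Tu) ^ h) := by ring
    _ ≤ g * ((2 : ℝ) ^ h * (h.factorial : ℝ) * (((n + 1 : ℕ) : ℝ) ^ n * H)) := by gcongr
    _ ≤ g * ((2 : ℝ) ^ n * (n.factorial : ℝ) * (((n + 1 : ℕ) : ℝ) ^ n * H)) := by gcongr
    _ = _ := by ring

/-- the case of the minimal dimension -/
theorem sps_low (n m : ℕ) (Rkt a H T M α' P L e2 : ℝ) (hM : 0 < M) (hP : 0 < P) (hα' : 0 ≤ α')
    (he2 : 0 ≤ e2) (hT : 0 ≤ T) (hH : 0 ≤ H) (hmn : m ≤ n)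
    (h1 : α' * P ≤ L) (h2 : L ≤ a / M * e2 * P)
    (h3 : a * ((⌊T⌋₊ + m).choose m : ℝ) ≤ ((n + 1 : ℕ) : ℝ) ^ n * H)
    (h4 : Rkt ≤ M * T ^ m) :
    α' * Rkt ≤ e2 * ((n.factorial : ℝ) * ((n + 1 : ℕ) : ℝ) ^ n) * H := by
  have h5 : α' ≤ a / M * e2 := le_of_mul_le_mul_right (h1.trans h2) hP
  have h6 : α' * M ≤ a * e2 := by
    have : a / M * e2 = a * e2 / M := by ring
    rw [this, le_div_iff₀ hM] at h5
    exact h5
  have hc2 := sps_pow_le_choose hT m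
  have hfacle : (m.factorial : ℝ) ≤ (n.factorial : ℝ) := by exact_mod_cast Nat.factorial_le hmn
  have hnH : 0 ≤ ((n + 1 : ℕ) : ℝ) ^ n * H := by positivity
  have hTm : 0 ≤ T ^ m := by positivity
  have hfac0 : (0 : ℝ) ≤ (m.factorial : ℝ) := Nat.cast_nonneg _
  have hae : 0 ≤ a * e2 := le_trans (by positivity) h6
  calc α' * Rkt ≤ α' * (M * T ^ m) := by gcongr
    _ = α' * M * T ^ m := by ring
    _ ≤ a * e2 * T ^ m := by gcongr
    _ ≤ a * e2 * ((m.factorial : ℝ) * ((⌊T⌋₊ + m).choose m : ℝ)) := by gcongr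
    _ = e2 * (m.factorial : ℝ) * (a * ((⌊T⌋₊ + m).choose m : ℝ)) := by ring
    _ ≤ e2 * (m.factorial : ℝ) * (((n + 1 : ℕ) : ℝ) ^ n * H) := by gcongr
    _ ≤ e2 * (n.factorial : ℝ) * (((n + 1 : ℕ) : ℝ) ^ n * H) := by gcongr
    _ = _ := by ring

/-! ### the package consumed by the step -/

/-- the image of the carrier pair of a pair of points -/
def spsImg (asg₁ asg₂ : SpC d → Ideal (PrfPol d)) (z : SpC d × SpC d) :
    Set (Fin d ⊕ Fin d → ℂ) := spImgP (asg₁ z.1, asg₂ z.2)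

/-- what the plateau step needs from sc:retained-products (`j ≥ 2`, `M = e_j²`) resp. from the tangency deletion and the mass budget (`j = 1`, `M = e_1`) -/
structure SpsPkg (X Y : SpPool d) (s : ℝ) (j : ℕ) (M ε η : ℝ)
    (asg₁ asg₂ : SpC d → Ideal (PrfPol d)) (G : Finset (SpC d × SpC d)) : Prop where
  ok₁ : SpAsg X j asg₁
  ok₂ : SpAsg Y j asg₂
  sub : G ⊆ X.pts ×ˢ Y.pts
  bad : (((X.pts ×ˢ Y.pts) \ G).card : ℝ) ≤ η * X.pts.card * Y.pts.card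
  dim : ∀ z ∈ G, vdim (spsImg asg₁ asg₂ z) = 2 * (d - j) + 1
  mass : ∀ 𝒥 : Finset (Set (Fin d ⊕ Fin d → ℂ)), ∀ Λ ⊆ G, (∀ z ∈ Λ, spsImg asg₁ asg₂ z ∈ 𝒥) →
    (Λ.card : ℝ) ≤ ((∑ Z ∈ 𝒥, vdeg Z : ℕ) : ℝ) / M * Real.exp (ε * s) * X.pts.card * Y.pts.card

theorem sps_mem_asg {X : SpPool d} {j : ℕ} {asg : SpC d → Ideal (PrfPol d)} (h : SpAsg X j asg)
    {x : SpC d} (hx : x ∈ X.pts) : asg x ∈ X.carriers j ∧ (asg x).IsPrime ∧ x ∈ spZ (asg x) := by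
  obtain ⟨a, ha, hxa⟩ := Finset.mem_biUnion.mp hx
  have h1 := h a ha x hxa
  exact ⟨⟨a, ha, x, hxa, h1⟩, prf_carr_prime h1, h1.2⟩

theorem sps_img_isVar {X Y : SpPool d} {j : ℕ} {asg₁ asg₂ : SpC d → Ideal (PrfPol d)}
    (h₁ : SpAsg X j asg₁) (h₂ : SpAsg Y j asg₂) {z : SpC d × SpC d} (hz : z ∈ X.pts ×ˢ Y.pts) :
    IsVar (spsImg asg₁ asg₂ z) := by
  obtain ⟨hz1, hz2⟩ := Finset.mem_product.mp hz
  exact sp_img_isVar ⟨_, (sps_mem_asg h₁ hz1).2.1, rfl⟩ ⟨_, (sps_mem_asg h₂ hz2).2.1, rfl⟩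

theorem sps_lab_subset {X Y : SpPool d} {j : ℕ} {asg₁ asg₂ : SpC d → Ideal (PrfPol d)}
    (h₁ : SpAsg X j asg₁) (h₂ : SpAsg Y j asg₂) {z : SpC d × SpC d} (hz : z ∈ X.pts ×ˢ Y.pts) :
    spLab {z} ⊆ spsImg asg₁ asg₂ z := by
  obtain ⟨hz1, hz2⟩ := Finset.mem_product.mp hz
  exact sp_lab_subset_img (x := z.1) (y := z.2) (sps_mem_asg h₁ hz1).2.2 (sps_mem_asg h₂ hz2).2.2

theorem sps_lab_iUnion (Λ : Finset (SpC d × SpC d)) :
    (⋃ z ∈ Λ, spLab ({z} : Set (SpC d × SpC d))) = spLab (Λ : Set (SpC d × SpC d)) := by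
  ext w
  simp only [Set.mem_iUnion]
  constructor
  · rintro ⟨z, hz, z', rfl, lam, rfl⟩
    exact ⟨z', Finset.mem_coe.mpr hz, lam, rfl⟩
  · rintro ⟨z, hz, lam, rfl⟩
    exact ⟨z, Finset.mem_coe.mp hz, z, rfl, lam, rfl⟩

/-- **the finite core of the plateau step** -/
theorem sps_core (b : ℕ → ℝ) (B : ℝ) (X Y : SpPool d) (s : ℝ) (j : ℕ) (h1j : 1 ≤ j) (hj : j < d)
    (M ε₂ η : ℝ) (asg₁ asg₂ : SpC d → Ideal (PrfPol d)) (G : Finset (SpC d × SpC d))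
    (pkg : SpsPkg X Y s j M ε₂ η asg₁ asg₂ G) (t u α' e1 g : ℝ)
    (Γ Γ₂ : Finset (SpC d × SpC d)) (hΓ₂G : Γ₂ ⊆ G)
    (henv : ∀ z ∈ Γ₂, spsImg asg₁ asg₂ z ⊆ Env (spLab (Γ : Set (SpC d × SpC d))) ⌊prfT B s t⌋₊)
    (hcard : ((2 * d + 1 : ℕ) : ℝ) * (α' * X.pts.card * Y.pts.card) ≤ Γ₂.card)
    (hbor : ∀ Λ' ⊆ Γ₂, α' * X.pts.card * Y.pts.card ≤ Λ'.card →
      spRk d B s b u * e1 ≤ (hA (spLab (Λ' : Set (SpC d × SpC d))) ⌊prfT B s u⌋₊ : ℝ))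
    (hTu : 1 ≤ prfT B s u) (hT : prfT B s u ≤ prfT B s t)
    (hgrow : spRk d B s b t ≤
      spRk d B s b u * (prfT B s t / prfT B s u) ^ (2 * (d - j) + 2) * g)
    (hM : 0 < M) (hRkM : spRk d B s b t ≤ M * prfT B s t ^ (2 * (d - j) + 1))
    (hRku : 0 ≤ spRk d B s b u) (hα' : 0 ≤ α') (he1 : 0 ≤ e1) (hg : 0 ≤ g)
    (hnx : 0 < X.pts.card) (hny : 0 < Y.pts.card) :
    spRk d B s b t * e1 ≤ g * ((2 : ℝ) ^ (2 * d) * ((2 * d).factorial : ℝ) *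
        ((2 * d + 1 : ℕ) : ℝ) ^ (2 * d)) * (hA (spLab (Γ : Set (SpC d × SpC d))) ⌊prfT B s t⌋₊ : ℝ) ∨
    α' * spRk d B s b t ≤ Real.exp (ε₂ * s) * (((2 * d).factorial : ℝ) *
        ((2 * d + 1 : ℕ) : ℝ) ^ (2 * d)) * (hA (spLab (Γ : Set (SpC d × SpC d))) ⌊prfT B s t⌋₊ : ℝ) := by
  classical
  have hcι : Fintype.card (Fin d ⊕ Fin d) = 2 * d := by simp; ring
  have hsubXY : Γ₂ ⊆ X.pts ×ˢ Y.pts := hΓ₂G.trans pkg.sub
  obtain ⟨h, a, Λ', hmh, hhn, hΛ'sub, hcardΛ, c1, -, c2, c3⟩ :=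
    sp_env_core (spLab (Γ : Set (SpC d × SpC d))) ⌊prfT B s t⌋₊ (2 * (d - j) + 1)
      (by rw [hcι]; omega) Γ₂ (fun z => spLab {z}) (spsImg asg₁ asg₂)
      (fun z hz => sps_lab_subset pkg.ok₁ pkg.ok₂ (hsubXY hz)) henv
      (fun z hz => sps_img_isVar pkg.ok₁ pkg.ok₂ (hsubXY hz))
      (fun z hz => (pkg.dim z (hΓ₂G hz)).ge)
  rw [hcι] at hhn hcardΛ c1
  rw [sps_lab_iUnion] at c2
  have hPpos : (0 : ℝ) < (X.pts.card : ℝ) * (Y.pts.card : ℝ) := by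
    have h1 : (0 : ℝ) < X.pts.card := by exact_mod_cast hnx
    have h2 : (0 : ℝ) < Y.pts.card := by exact_mod_cast hny
    positivity
  have hΛ'card : α' * X.pts.card * Y.pts.card ≤ Λ'.card := by
    have h1 : (Γ₂.card : ℝ) ≤ ((2 * d + 1 : ℕ) : ℝ) * (Λ'.card : ℝ) := by exact_mod_cast hcardΛ
    have h2 : (0 : ℝ) < ((2 * d + 1 : ℕ) : ℝ) := by positivity
    exact le_of_mul_le_mul_left (hcard.trans h1) h2
  have c1' : (a : ℝ) * ((⌊prfT B s t⌋₊ + h).choose h : ℝ) ≤ ((2 * d + 1 : ℕ) : ℝ) ^ (2 * d) *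
      (hA (spLab (Γ : Set (SpC d × SpC d))) ⌊prfT B s t⌋₊ : ℝ) := by exact_mod_cast c1
  rcases hmh.eq_or_lt with heq | hlt
  · -- minimal dimension
    right
    subst heq
    have hsum := c3 rfl (fun z hz => pkg.dim z (hΓ₂G hz)) (Λ'.image (spsImg asg₁ asg₂))
      (fun Z hZ => by
        obtain ⟨z, hz, rfl⟩ := Finset.mem_image.mp hZ
        exact ⟨z, hz, rfl⟩)
    have hmass := pkg.mass (Λ'.image (spsImg asg₁ asg₂)) Λ' (hΛ'sub.trans hΓ₂G)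
      (fun z hz => Finset.mem_image_of_mem _ hz)
    have hsum' : ((∑ Z ∈ Λ'.image (spsImg asg₁ asg₂), vdeg Z : ℕ) : ℝ) ≤ (a : ℝ) := by
      exact_mod_cast hsum
    refine sps_low (2 * d) (2 * (d - j) + 1) _ a _ (prfT B s t) M α'
      ((X.pts.card : ℝ) * (Y.pts.card : ℝ)) Λ'.card (Real.exp (ε₂ * s)) hM hPpos hα'
      (Real.exp_pos _).le (by linarith) (Nat.cast_nonneg _) hhn (by linarith) ?_ c1' hRkM
    refine hmass.trans ?_
    rw [mul_assoc _ (X.pts.card : ℝ)]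
    gcongr
  · -- a larger component
    left
    refine sps_high (2 * d) h (d - j) (spRk d B s b u) _ a _ (prfT B s u) (prfT B s t) e1 g hRku
      (Nat.cast_nonneg _) he1 hg (Nat.cast_nonneg _) hTu hT (by omega) hhn ?_ c1' hgrow
    refine (hbor Λ' hΛ'sub hΛ'card).trans ?_
    exact_mod_cast c2 ⌊prfT B s u⌋₊

/-! ### the theta-level step -/

/-- PRODUCT TESTING FORCES THE COMPLETE IMAGES INTO THE ENVELOPE. -/
theorem sps_env_images (hprod : SpProdStmt d) (b : ℕ → ℝ) (hb : SpAdm d b) (ε : ℝ) (hε : 0 < ε)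
    (j : ℕ) (t : ℝ) (ht : SpPlat d b j t) :
    ∃ θ : ℝ, 0 < θ ∧ ∀ (D : SpData d) (X Y : SpPool d) (s : ℝ), SpTwo D X Y s θ b →
      ∀ asg₁ asg₂ : SpC d → Ideal (PrfPol d), SpAsg X j asg₁ → SpAsg Y j asg₂ →
      ∀ Γ ⊆ X.pts ×ˢ Y.pts, ∀ Λ ⊆ Γ,
        (∀ z ∈ Λ, ¬ spImgP (asg₁ z.1, asg₂ z.2) ⊆
          Env (spLab (Γ : Set (SpC d × SpC d))) ⌊prfT D.B s t⌋₊) →
        (Λ.card : ℝ) ≤ ε * X.pts.card * Y.pts.card := by
  obtain ⟨θ, hθ, h⟩ := hprod b hb ε hε j t ht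
  refine ⟨θ, hθ, fun D X Y s htwo asg₁ asg₂ h1 h2 Γ hΓ Λ hΛ hz => ?_⟩
  have hT0 : 0 ≤ prfT D.B s t :=
    mul_nonneg (Real.rpow_nonneg (Nat.cast_nonneg _) _) (Real.exp_pos _).le
  refine h D X Y s htwo asg₁ asg₂ h1 h2
    {G | ∃ (lam : ℂ) (H : MvPolynomial (Fin d ⊕ Fin d) ℂ), H.totalDegree ≤ ⌊prfT D.B s t⌋₊ ∧
      (∀ w ∈ spLab (Γ : Set (SpC d × SpC d)), eval w H = 0) ∧ G = spPull lam H} ?_ Λ
    (hΛ.trans hΓ) ?_
  · rintro G ⟨lam, H, hH, _, rfl⟩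
    have h3 : ((spPull lam H).totalDegree : ℝ) ≤ (⌊prfT D.B s t⌋₊ : ℝ) := by
      exact_mod_cast (sp_pull_degree lam H).trans hH
    exact h3.trans (Nat.floor_le hT0)
  · intro z hzΛ
    refine ⟨?_, ?_⟩
    · rintro G ⟨lam, H, _, hH, rfl⟩
      rw [sp_eval_pull]
      exact hH _ ⟨z, Finset.mem_coe.mpr (hΛ hzΛ), lam, rfl⟩
    · have h4 := hz z hzΛ
      unfold spImgP Env at h4
      rw [sp_img_subset_iff] at h4
      push Not at h4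
      obtain ⟨H, ⟨hH1, hH2⟩, lam, h5⟩ := h4
      exact ⟨spPull lam H, ⟨lam, H, hH1, hH2, rfl⟩, h5⟩

/-- theta-form of the package; `M B s` is the degree scale -/
def SpsPkgStmt (d : ℕ) (b : ℕ → ℝ) (j : ℕ) (M : ℝ → ℝ → ℝ) : Prop :=
  ∀ ε η : ℝ, 0 < ε → 0 < η → ∃ θ : ℝ, 0 < θ ∧
    ∀ (D : SpData d) (X Y : SpPool d) (s : ℝ), SpTwo D X Y s θ b →
      ∃ (asg₁ asg₂ : SpC d → Ideal (PrfPol d)) (G : Finset (SpC d × SpC d)),
        SpsPkg X Y s j (M D.B s) ε η asg₁ asg₂ G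

theorem sps_fin1 (x H g K E : ℝ) (hE : 1 ≤ E) (hH : 0 ≤ H) (hg0 : 0 ≤ g) (hg : g ≤ E)
    (hK : K ≤ E) (h : x * E⁻¹ ≤ g * K * H) : x * (E ^ 4)⁻¹ ≤ H := by
  have hE0 : 0 < E := by linarith
  have h1 : g * K * H ≤ E * E * H := by
    have : g * K ≤ E * E := by
      calc g * K ≤ g * E := mul_le_mul_of_nonneg_left hK hg0
        _ ≤ E * E := mul_le_mul_of_nonneg_right hg hE0.le
    exact mul_le_mul_of_nonneg_right this hH
  have h2 : x ≤ E ^ 3 * H := by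
    have := h.trans h1
    rw [← div_eq_mul_inv, div_le_iff₀ hE0] at this
    linarith [this]
  rw [← div_eq_mul_inv, div_le_iff₀ (by positivity)]
  have h3 : E ^ 3 * H ≤ E ^ 4 * H := by
    apply mul_le_mul_of_nonneg_right _ hH
    exact pow_le_pow_right₀ hE (by norm_num)
  linarith

theorem sps_fin2 (x H K α' E : ℝ) (hE : 1 ≤ E) (hH : 0 ≤ H) (hα' : 0 < α') (hK : K / α' ≤ E)
    (h : α' * x ≤ E * K * H) : x * (E ^ 4)⁻¹ ≤ H := by
  have hE0 : 0 < E := by linarith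
  have hK' : K ≤ E * α' := by rwa [div_le_iff₀ hα'] at hK
  have h1 : α' * x ≤ α' * (E ^ 2 * H) := by
    calc α' * x ≤ E * K * H := h
      _ ≤ E * (E * α') * H := by gcongr
      _ = α' * (E ^ 2 * H) := by ring
  have h2 : x ≤ E ^ 2 * H := le_of_mul_le_mul_left h1 hα'
  rw [← div_eq_mul_inv, div_le_iff₀ (by positivity)]
  have h3 : E ^ 2 * H ≤ E ^ 4 * H := by
    apply mul_le_mul_of_nonneg_right _ hH
    exact pow_le_pow_right₀ hE (by norm_num)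
  linarith

theorem sps_rk_nonneg (B s : ℝ) (hB : 0 < B) (b : ℕ → ℝ) (u : ℝ) : 0 ≤ spRk d B s b u := by
  unfold spRk
  have h1 := spn_sigma_pos (d := d) hB s b u
  have h2 := spn_T_pos hB s u
  have h3 : 0 < spD B s b 0 * spD B s b 1 := mul_pos (spn_D_pos hB s b 0) (spn_D_pos hB s b 1)
  have h4 : 0 ≤ min 1 (prfT B s u / (spD B s b 0 * spD B s b 1)) :=
    le_min zero_le_one (div_pos h2 h3).le
  positivity

/-- **the plateau step from a package** -/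
theorem sps_step (hd : 3 ≤ d) (prod : SpProdStmt d) (b : ℕ → ℝ) (hb : SpAdm d b) (j : ℕ) (t : ℝ)
    (h1 : 1 ≤ j) (hj : j < d) (ht : SpPlat d b j t) (M : ℝ → ℝ → ℝ) (hpkg : SpsPkgStmt d b j M)
    (hMpos : ∀ B s, 0 < B → 0 < M B s)
    (hRkM : ∀ B s, 0 < B → 0 ≤ s → spRk d B s b t ≤ M B s * prfT B s t ^ (2 * (d - j) + 1))
    (hbor : ∀ ξ : ℝ, 0 < ξ → ∃ u : ℝ, -1 ≤ u ∧ u ≤ b (j - 1) ∧ b (j - 1) - u ≤ ξ ∧ SpCRAt d b u) :
    SpCRAt d b t := by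
  classical
  intro α ε hα hε
  have hdpos : (0 : ℝ) < d := by
    have : 0 < d := by omega
    positivity
  obtain ⟨u, hu1, hu2, hu3, hcru⟩ := hbor (ε / (8 * d)) (by positivity)
  have hβt : b (j - 1) < t := ht.2.1 (j - 1) (by omega)
  set α' : ℝ := α / (2 * ((2 * d + 1 : ℕ) : ℝ)) with hα'def
  have hα' : 0 < α' := by positivity
  set K₁ : ℝ := (2 : ℝ) ^ (2 * d) * ((2 * d).factorial : ℝ) * ((2 * d + 1 : ℕ) : ℝ) ^ (2 * d) with hK₁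
  set K₂ : ℝ := ((2 * d).factorial : ℝ) * ((2 * d + 1 : ℕ) : ℝ) ^ (2 * d) with hK₂
  obtain ⟨θ₁, hθ₁, hP⟩ := hpkg (ε / 4) (α / 4) (by positivity) (by positivity)
  obtain ⟨θ₂, hθ₂, hEnv⟩ := sps_env_images prod b hb (α / 4) (by positivity) j t ht
  obtain ⟨θ₃, hθ₃, hCR⟩ := hcru α' (ε / 4) hα' (by positivity)
  obtain ⟨θ₄, hθ₄, hab1⟩ := spl_absorb K₁ (ε / 4) (by positivity)
  obtain ⟨θ₅, hθ₅, hab2⟩ := spl_absorb (K₂ / α') (ε / 4) (by positivity)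
  set θ := min (min θ₁ θ₂) (min θ₃ (min θ₄ θ₅)) with hθdef
  have hθ : 0 < θ := lt_min (lt_min hθ₁ hθ₂) (lt_min hθ₃ (lt_min hθ₄ hθ₅))
  have hle1 : θ ≤ θ₁ := (min_le_left _ _).trans (min_le_left _ _)
  have hle2 : θ ≤ θ₂ := (min_le_left _ _).trans (min_le_right _ _)
  have hle3 : θ ≤ θ₃ := (min_le_right _ _).trans (min_le_left _ _)
  have hle4 : θ ≤ θ₄ := (min_le_right _ _).trans ((min_le_right _ _).trans (min_le_left _ _))
  have hle5 : θ ≤ θ₅ := (min_le_right _ _).trans ((min_le_right _ _).trans (min_le_right _ _))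
  refine ⟨θ, hθ, fun D X Y s htwo Γ hΓ hoff hdense => ?_⟩
  have hs := spl_s_pos hθ htwo.okX
  have hB := spl_B_pos hθ htwo.okX
  have hnx := spb_pts_pos (by omega) hθ htwo.okX
  have hny := spb_pts_pos (by omega) hθ htwo.okY
  obtain ⟨asg₁, asg₂, G, pkg⟩ := hP D X Y s (htwo.mono hθ hle1)
  -- the good pairs
  set Γ₂ := (Γ ∩ G).filter (fun z => spsImg asg₁ asg₂ z ⊆
    Env (spLab (Γ : Set (SpC d × SpC d))) ⌊prfT D.B s t⌋₊) with hΓ₂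
  set Λb := Γ.filter (fun z => ¬ spsImg asg₁ asg₂ z ⊆
    Env (spLab (Γ : Set (SpC d × SpC d))) ⌊prfT D.B s t⌋₊) with hΛb
  have hb1 : (Λb.card : ℝ) ≤ α / 4 * X.pts.card * Y.pts.card :=
    hEnv D X Y s (htwo.mono hθ hle2) asg₁ asg₂ pkg.ok₁ pkg.ok₂ Γ hΓ Λb (Finset.filter_subset _ _)
      (fun z hz => (Finset.mem_filter.mp hz).2)
  have hb2 : ((Γ \ G).card : ℝ) ≤ α / 4 * X.pts.card * Y.pts.card := by
    refine le_trans ?_ pkg.bad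
    exact_mod_cast Finset.card_le_card (Finset.sdiff_subset_sdiff hΓ le_rfl)
  have hcover : Γ ⊆ Γ₂ ∪ ((Γ \ G) ∪ Λb) := by
    intro z hz
    by_cases hzG : z ∈ G
    · by_cases hzE : spsImg asg₁ asg₂ z ⊆
          Env (spLab (Γ : Set (SpC d × SpC d))) ⌊prfT D.B s t⌋₊
      · exact Finset.mem_union_left _ (Finset.mem_filter.mpr ⟨Finset.mem_inter.mpr ⟨hz, hzG⟩, hzE⟩)
      · exact Finset.mem_union_right _ (Finset.mem_union_right _ (Finset.mem_filter.mpr ⟨hz, hzE⟩))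
    · exact Finset.mem_union_right _ (Finset.mem_union_left _ (Finset.mem_sdiff.mpr ⟨hz, hzG⟩))
  have hcard0 : (Γ.card : ℝ) ≤ Γ₂.card + ((Γ \ G).card + Λb.card) := by
    have h3 := (Finset.card_le_card hcover).trans ((Finset.card_union_le _ _).trans
      (Nat.add_le_add_left (Finset.card_union_le _ _) _))
    exact_mod_cast h3
  have hcard : ((2 * d + 1 : ℕ) : ℝ) * (α' * X.pts.card * Y.pts.card) ≤ Γ₂.card := by
    have h4 : ((2 * d + 1 : ℕ) : ℝ) * (α' * X.pts.card * Y.pts.card) =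
        α / 2 * X.pts.card * Y.pts.card := by
      rw [hα'def]
      have : (0 : ℝ) < ((2 * d + 1 : ℕ) : ℝ) := by positivity
      field_simp
    rw [h4]
    linarith
  have hΓ₂Γ : Γ₂ ⊆ Γ := (Finset.filter_subset _ _).trans Finset.inter_subset_left
  have hΓ₂G : Γ₂ ⊆ G := (Finset.filter_subset _ _).trans Finset.inter_subset_right
  have hTu := spl_one_le_T hθ htwo.okX hu1
  have hTT : prfT D.B s u ≤ prfT D.B s t := spl_T_mono hB.le hs.le (by linarith)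
  have hgrow := spn_rk_growth b j hj.le u (b (j - 1)) t D.B s hB hs.le hu2 hβt.le
    (fun i hi => hb.mono i (j - 1) (by omega) (by omega)) (fun i hi hid => (ht.2.2 i hi hid).le)
  have hres := sps_core b D.B X Y s j h1 hj (M D.B s) (ε / 4) (α / 4) asg₁ asg₂ G pkg t u α'
    (Real.exp (-(ε / 4 * s))) (Real.exp (2 * d * (b (j - 1) - u) * s)) Γ Γ₂ hΓ₂G
    (fun z hz => (Finset.mem_filter.mp hz).2) hcard
    (fun Λ' hΛ' hd' => hCR D X Y s (htwo.mono hθ hle3) Λ' ((hΛ'.trans hΓ₂Γ).trans hΓ)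
      (fun z hz => hoff z (hΓ₂Γ (hΛ' hz))) hd')
    hTu hTT hgrow (hMpos _ _ hB) (hRkM _ _ hB hs.le) (sps_rk_nonneg _ _ hB _ _) hα'.le
    (Real.exp_pos _).le (Real.exp_pos _).le hnx hny
  -- the final numerics
  set E := Real.exp (ε / 4 * s) with hE
  have hE1 : 1 ≤ E := Real.one_le_exp (by positivity)
  have hE4 : Real.exp (-(ε * s)) = (E ^ 4)⁻¹ := by
    rw [hE, ← Real.exp_nat_mul, ← Real.exp_neg]
    congr 1
    push_cast
    ring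
  have hEinv : Real.exp (-(ε / 4 * s)) = E⁻¹ := by rw [hE, Real.exp_neg]
  rw [hE4]
  rcases hres with hres | hres
  · rw [hEinv] at hres
    refine sps_fin1 _ _ _ K₁ E hE1 (Nat.cast_nonneg _) (Real.exp_pos _).le ?_
      (hab1 θ s hθ hle4 htwo.okX.s_ge) hres
    rw [hE]
    apply Real.exp_le_exp.mpr
    have h5 : 2 * d * (b (j - 1) - u) ≤ ε / 4 := by
      have : 2 * d * (b (j - 1) - u) ≤ 2 * d * (ε / (8 * d)) := by gcongr
      have h6 : 2 * d * (ε / (8 * d)) = ε / 4 := by field_simp; ring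
      linarith
    exact mul_le_mul_of_nonneg_right h5 hs.le
  · exact sps_fin2 _ _ K₂ α' E hE1 (Nat.cast_nonneg _) hα' (hab2 θ s hθ hle5 htwo.okX.s_ge) hres

/-! ### the package from sc:retained-products (`j ≥ 2`) -/

theorem sps_sdiff_card {α : Type*} [DecidableEq α] {S X : Finset α} (h : S ⊆ X) {η : ℝ}
    (hl : (1 - η) * (X.card : ℝ) ≤ S.card) : ((X \ S).card : ℝ) ≤ η * X.card := by
  rw [Finset.cast_card_sdiff h]
  linarith

theorem sps_pkg_rp (rp : SpRPStmt d) (b : ℕ → ℝ) (hb : SpAdm d b) (j : ℕ) (t : ℝ)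
    (h2 : 2 ≤ j) (hj : j < d) (ht : SpPlat d b j t) (ht1 : -1 ≤ t) :
    SpsPkgStmt d b j (fun B s => spE B s b j ^ 2) := by
  classical
  intro ε η hε hη
  set η' := min (ε / 2) (η / 3) with hη'
  have hη'pos : 0 < η' := lt_min (by positivity) (by positivity)
  have hη'1 : η' ≤ ε / 2 := min_le_left _ _
  have hη'2 : η' ≤ η / 3 := min_le_right _ _
  obtain ⟨θ, hθ, h⟩ := rp b hb j t h2 hj ht ht1 (ε / 2) η' (by positivity) hη'pos
  refine ⟨θ, hθ, fun D X Y s htwo => ?_⟩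
  obtain ⟨ρ, hρ⟩ := h D X Y s htwo
  have hs := spl_s_pos hθ htwo.okX
  have hc1 : (ρ.S₁.card : ℝ) ≤ X.pts.card := by exact_mod_cast Finset.card_le_card hρ.sub₁
  have hc2 : (ρ.S₂.card : ℝ) ≤ Y.pts.card := by exact_mod_cast Finset.card_le_card hρ.sub₂
  refine ⟨ρ.asg₁, ρ.asg₂, (ρ.S₁ ×ˢ ρ.S₂).filter (fun z => (ρ.asg₁ z.1, ρ.asg₂ z.2) ∈ ρ.R), ?_⟩
  refine ⟨hρ.asg₁, hρ.asg₂, (Finset.filter_subset _ _).trans
    (Finset.product_subset_product hρ.sub₁ hρ.sub₂), ?_, ?_, ?_⟩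
  · -- bad pairs
    have hcover : (X.pts ×ˢ Y.pts) \
        (ρ.S₁ ×ˢ ρ.S₂).filter (fun z => (ρ.asg₁ z.1, ρ.asg₂ z.2) ∈ ρ.R) ⊆
        ((X.pts \ ρ.S₁) ×ˢ Y.pts) ∪ ((X.pts ×ˢ (Y.pts \ ρ.S₂)) ∪
          (ρ.S₁ ×ˢ ρ.S₂).filter (fun z => (ρ.asg₁ z.1, ρ.asg₂ z.2) ∉ ρ.R)) := by
      intro z hz
      obtain ⟨hzXY, hzG⟩ := Finset.mem_sdiff.mp hz
      obtain ⟨hz1, hz2⟩ := Finset.mem_product.mp hzXY
      by_cases h1 : z.1 ∈ ρ.S₁
      · by_cases h2 : z.2 ∈ ρ.S₂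
        · refine Finset.mem_union_right _ (Finset.mem_union_right _ (Finset.mem_filter.mpr
            ⟨Finset.mem_product.mpr ⟨h1, h2⟩, fun hR => hzG (Finset.mem_filter.mpr
              ⟨Finset.mem_product.mpr ⟨h1, h2⟩, hR⟩)⟩))
        · exact Finset.mem_union_right _ (Finset.mem_union_left _ (Finset.mem_product.mpr
            ⟨hz1, Finset.mem_sdiff.mpr ⟨hz2, h2⟩⟩))
      · exact Finset.mem_union_left _ (Finset.mem_product.mpr
          ⟨Finset.mem_sdiff.mpr ⟨hz1, h1⟩, hz2⟩)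
    have e1 : ((((X.pts \ ρ.S₁) ×ˢ Y.pts).card : ℕ) : ℝ) ≤ η' * X.pts.card * Y.pts.card := by
      rw [Finset.card_product]
      push_cast
      exact mul_le_mul_of_nonneg_right (sps_sdiff_card hρ.sub₁ hρ.loss₁) (Nat.cast_nonneg _)
    have e2 : (((X.pts ×ˢ (Y.pts \ ρ.S₂)).card : ℕ) : ℝ) ≤ η' * X.pts.card * Y.pts.card := by
      rw [Finset.card_product]
      push_cast
      have := mul_le_mul_of_nonneg_left (sps_sdiff_card hρ.sub₂ hρ.loss₂)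
        (Nat.cast_nonneg (α := ℝ) X.pts.card)
      linarith
    have e3 : ((((ρ.S₁ ×ˢ ρ.S₂).filter (fun z => (ρ.asg₁ z.1, ρ.asg₂ z.2) ∉ ρ.R)).card : ℕ) : ℝ)
        ≤ η' * X.pts.card * Y.pts.card := by
      refine (hρ.R_loss _ (Finset.filter_subset _ _)
        (fun z hz => (Finset.mem_filter.mp hz).2)).trans ?_
      gcongr
    have e4 := (Finset.card_le_card hcover).trans ((Finset.card_union_le _ _).trans
      (Nat.add_le_add_left (Finset.card_union_le _ _) _))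
    have e5 : ((((X.pts ×ˢ Y.pts) \
        (ρ.S₁ ×ˢ ρ.S₂).filter (fun z => (ρ.asg₁ z.1, ρ.asg₂ z.2) ∈ ρ.R)).card : ℕ) : ℝ) ≤
        (((X.pts \ ρ.S₁) ×ˢ Y.pts).card : ℕ) + (((X.pts ×ˢ (Y.pts \ ρ.S₂)).card : ℕ) +
          (((ρ.S₁ ×ˢ ρ.S₂).filter (fun z => (ρ.asg₁ z.1, ρ.asg₂ z.2) ∉ ρ.R)).card : ℕ)) := by
      exact_mod_cast e4
    have e6 : 3 * (η' * X.pts.card * Y.pts.card) ≤ η * X.pts.card * Y.pts.card := by
      have : 3 * η' ≤ η := by linarith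
      have hP : (0 : ℝ) ≤ (X.pts.card : ℝ) * Y.pts.card := by positivity
      nlinarith
    linarith
  · intro z hz
    exact hρ.dim _ (Finset.mem_filter.mp hz).2
  · intro 𝒥 Λ hΛ hz
    refine (hρ.mass 𝒥 Λ (hΛ.trans (Finset.filter_subset _ _))
      (fun z hzΛ => ⟨(Finset.mem_filter.mp (hΛ hzΛ)).2, hz z hzΛ⟩)).trans ?_
    have hexp : Real.exp ((ε / 2 + η') * s) ≤ Real.exp (ε * s) := by
      apply Real.exp_le_exp.mpr
      apply mul_le_mul_of_nonneg_right _ hs.le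
      linarith
    have hq : 0 ≤ ((∑ Z ∈ 𝒥, vdeg Z : ℕ) : ℝ) / spE D.B s b j ^ 2 := by positivity
    gcongr

/-! ### the package for hypersurface carriers (`j = 1`) -/

theorem sps_prod_univ_inj {V V' : Set (SpC d)}
    (h : prodSet V (Set.univ : Set (SpC d)) = prodSet V' (Set.univ : Set (SpC d))) : V = V' := by
  ext x
  have h1 : ∀ W : Set (SpC d), x ∈ W ↔
      (Sum.elim x 0 : Fin d ⊕ Fin d → ℂ) ∈ prodSet W (Set.univ : Set (SpC d)) := by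
    intro W
    constructor
    · intro hx
      exact ⟨hx, Set.mem_univ _⟩
    · intro hx
      exact hx.1
  rw [h1 V, h1 V', h]

theorem sps_pkg_tang (hd : 3 ≤ d) (mass : SpMassStmt d) (tang : SpTangStmt d) (b : ℕ → ℝ)
    (hb : SpAdm d b) : SpsPkgStmt d b 1 (fun B s => spE B s b 1) := by
  classical
  intro ε η hε hη
  obtain ⟨θ₁, hθ₁, hT⟩ := tang η hη
  obtain ⟨θ₂, hθ₂, hM⟩ := mass b hb (ε / 2) (by positivity)
  set θ := min θ₁ (min θ₂ (ε / 2)) with hθdef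
  have hθ : 0 < θ := lt_min hθ₁ (lt_min hθ₂ (by positivity))
  have hle1 : θ ≤ θ₁ := min_le_left _ _
  have hle2 : θ ≤ θ₂ := (min_le_right _ _).trans (min_le_left _ _)
  have hle3 : θ ≤ ε / 2 := (min_le_right _ _).trans (min_le_right _ _)
  refine ⟨θ, hθ, fun D X Y s htwo => ?_⟩
  have hs := spl_s_pos hθ htwo.okX
  have hB := spl_B_pos hθ htwo.okX
  obtain ⟨asg₁, h₁⟩ := spl_asg_exists htwo.okX (j := 1) (by omega)
  obtain ⟨asg₂, h₂⟩ := spl_asg_exists htwo.okY (j := 1) (by omega)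
  have htwo1 := htwo.mono hθ hle1
  have hXsub : X.pts ⊆ D.pts := Finset.biUnion_subset.mpr htwo.okX.sub
  have hYsub : Y.pts ⊆ D.pts := Finset.biUnion_subset.mpr htwo.okY.sub
  obtain ⟨a₀, ha₀⟩ := htwo.okX.ne
  have hmem : ((X.π a₀).S.card : ℝ) ≤ X.pts.card := by
    exact_mod_cast Finset.card_le_card (Finset.subset_biUnion_of_mem (fun a => (X.π a).S) ha₀)
  obtain ⟨R, hR1, hR2⟩ := hT D s htwo1.reg htwo1.okX.s_ge htwo1.okX.s_le X.pts Y.pts asg₁ asg₂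
    hXsub hYsub ((htwo1.okX.size a₀ ha₀).trans hmem)
    (fun x hx => ⟨(sps_mem_asg h₁ hx).2.1, (sps_mem_asg h₁ hx).2.2⟩)
    (fun y hy => ⟨(sps_mem_asg h₂ hy).2.1,
      (spl_carr_prime_dim htwo.okY (by omega) (sps_mem_asg h₂ hy).1).2, (sps_mem_asg h₂ hy).2.2⟩)
  have himg : ∀ z ∈ (X.pts ×ˢ Y.pts).filter (fun z => (asg₁ z.1, asg₂ z.2) ∈ R),
      spsImg asg₁ asg₂ z = prodSet (spZ (asg₁ z.1)) Set.univ := fun z hz =>
    hR2 _ (Finset.mem_filter.mp hz).2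
  refine ⟨asg₁, asg₂, (X.pts ×ˢ Y.pts).filter (fun z => (asg₁ z.1, asg₂ z.2) ∈ R), ?_⟩
  refine ⟨h₁, h₂, Finset.filter_subset _ _, ?_, ?_, ?_⟩
  · refine hR1 _ Finset.sdiff_subset fun z hz => ?_
    obtain ⟨hz1, hz2⟩ := Finset.mem_sdiff.mp hz
    exact fun hR => hz2 (Finset.mem_filter.mpr ⟨hz1, hR⟩)
  · intro z hz
    have hz1 := (Finset.mem_product.mp (Finset.mem_filter.mp hz).1).1
    rw [himg z hz, (sp_img_prod ⟨_, (sps_mem_asg h₁ hz1).2.1, rfl⟩).2.1,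
      (spl_carr_prime_dim htwo.okX (by omega) (sps_mem_asg h₁ hz1).1).2]
    omega
  · intro 𝒥 Λ hΛ hz
    set S' := Λ.image Prod.fst with hS'
    set 𝒜 := S'.image asg₁ with h𝒜
    have hS'X : ∀ x ∈ S', x ∈ X.pts := by
      intro x hx
      obtain ⟨z, hzΛ, rfl⟩ := Finset.mem_image.mp hx
      exact (Finset.mem_product.mp (Finset.mem_filter.mp (hΛ hzΛ)).1).1
    have hΛsub : Λ ⊆ S' ×ˢ Y.pts := by
      intro z hzΛ
      exact Finset.mem_product.mpr ⟨Finset.mem_image_of_mem _ hzΛ,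
        (Finset.mem_product.mp (Finset.mem_filter.mp (hΛ hzΛ)).1).2⟩
    have hc1 : (Λ.card : ℝ) ≤ (S'.card : ℝ) * Y.pts.card := by
      have := Finset.card_le_card hΛsub
      rw [Finset.card_product] at this
      exact_mod_cast this
    have hc2 : (S'.card : ℝ) ≤ prfDeg 𝒜 * (D.N / spE D.B s b 1) * Real.exp (ε / 2 * s) := by
      refine hM D X s (htwo.mono hθ hle2).reg (htwo.mono hθ hle2).okX 1 (by omega) 𝒜 S' ?_
      intro x hx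
      obtain ⟨a, ha, hxa⟩ := Finset.mem_biUnion.mp (hS'X x hx)
      exact ⟨a, ha, hxa, asg₁ x, Finset.mem_image_of_mem _ hx, ⟨x, hxa, h₁ a ha x hxa⟩,
        (h₁ a ha x hxa).2⟩
    have hc3 : prfDeg 𝒜 ≤ ∑ Z ∈ 𝒥, vdeg Z := by
      unfold prfDeg
      have hprime : ∀ p ∈ 𝒜, p.IsPrime := by
        intro p hp
        obtain ⟨x, hx, rfl⟩ := Finset.mem_image.mp hp
        exact (sps_mem_asg h₁ (hS'X x hx)).2.1
      have hinj : Set.InjOn (fun p : Ideal (PrfPol d) =>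
          prodSet (spZ p) (Set.univ : Set (SpC d))) (𝒜 : Set (Ideal (PrfPol d))) := by
        intro p hp q hq hpq
        exact ph_zeroLocus_inj (hprime p hp) (hprime q hq) (sps_prod_univ_inj hpq)
      calc ∑ p ∈ 𝒜, vdeg (zeroLocus ℂ p)
          = ∑ p ∈ 𝒜, vdeg (prodSet (spZ p) (Set.univ : Set (SpC d))) :=
            Finset.sum_congr rfl fun p hp => ((sp_img_prod ⟨p, hprime p hp, rfl⟩).2.2).symm
        _ = ∑ Z ∈ 𝒜.image (fun p : Ideal (PrfPol d) =>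
              prodSet (spZ p) (Set.univ : Set (SpC d))), vdeg Z :=
            (Finset.sum_image hinj).symm
        _ ≤ ∑ Z ∈ 𝒥, vdeg Z := by
            refine Finset.sum_le_sum_of_subset ?_
            intro Z hZ
            obtain ⟨p, hp, rfl⟩ := Finset.mem_image.mp hZ
            obtain ⟨x, hx, rfl⟩ := Finset.mem_image.mp hp
            obtain ⟨z, hzΛ, rfl⟩ := Finset.mem_image.mp hx
            have := hz z hzΛ
            rwa [himg z (hΛ hzΛ)] at this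
    have hc4 : D.N ≤ (X.pts.card : ℝ) * Real.exp (ε / 2 * s) := by
      refine (spl_N_le_member htwo.okX ha₀).trans ?_
      have : Real.exp (θ * s) ≤ Real.exp (ε / 2 * s) :=
        Real.exp_le_exp.mpr (mul_le_mul_of_nonneg_right hle3 hs.le)
      gcongr
    have hE := spn_E_pos hB s b 1
    have hc3' : (prfDeg 𝒜 : ℝ) ≤ ((∑ Z ∈ 𝒥, vdeg Z : ℕ) : ℝ) := by exact_mod_cast hc3
    have hN0 : 0 ≤ D.N / spE D.B s b 1 := div_nonneg (Nat.cast_nonneg _) hE.le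
    have hexp : Real.exp (ε * s) = Real.exp (ε / 2 * s) * Real.exp (ε / 2 * s) := by
      rw [← Real.exp_add]
      congr 1
      ring
    calc (Λ.card : ℝ) ≤ (S'.card : ℝ) * Y.pts.card := hc1
      _ ≤ (prfDeg 𝒜 * (D.N / spE D.B s b 1) * Real.exp (ε / 2 * s)) * Y.pts.card := by gcongr
      _ ≤ (((∑ Z ∈ 𝒥, vdeg Z : ℕ) : ℝ) * ((X.pts.card : ℝ) * Real.exp (ε / 2 * s) / spE D.B s b 1) *
            Real.exp (ε / 2 * s)) * Y.pts.card := by gcongr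
      _ = ((∑ Z ∈ 𝒥, vdeg Z : ℕ) : ℝ) / spE D.B s b 1 * Real.exp (ε * s) * X.pts.card *
            Y.pts.card := by
          rw [hexp]
          field_simp

/-- **THE PLATEAU STEP** -/
theorem sps_cr_step (hd : 3 ≤ d) (lim : SpLimStmt d) (rp : SpRPStmt d) (tang : SpTangStmt d)
    (b : ℕ → ℝ) (hb : SpAdm d b) (j : ℕ) (t : ℝ) (h1 : 1 ≤ j) (hj : j < d) (ht : SpPlat d b j t)
    (hbor : ∀ ξ : ℝ, 0 < ξ → ∃ u : ℝ, -1 ≤ u ∧ u ≤ b (j - 1) ∧ b (j - 1) - u ≤ ξ ∧ SpCRAt d b u) :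
    SpCRAt d b t := by
  have hβt : b (j - 1) < t := ht.2.1 (j - 1) (by omega)
  have hβ1 : -1 ≤ b (j - 1) := hb.lo.trans (hb.mono 0 (j - 1) (Nat.zero_le _) (by omega))
  rcases h1.eq_or_lt with h | h
  · subst h
    refine sps_step hd lim.prod b hb 1 t le_rfl hj ht (fun B s => spE B s b 1)
      (sps_pkg_tang hd lim.mass tang b hb) (fun B s hB => spn_E_pos hB s b 1)
      (fun B s hB hs => ?_) hbor
    have := spn_rk_le_one hd b hb t B s hB hs hβt.le (ht.2.2 1 le_rfl hj).le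
    rwa [show 2 * d - 1 = 2 * (d - 1) + 1 by omega] at this
  · exact sps_step hd lim.prod b hb j t h1 hj ht (fun B s => spE B s b j ^ 2)
      (sps_pkg_rp rp b hb j t h hj ht (by linarith)) (fun B s hB => pow_pos (spn_E_pos hB s b j) 2)
      (fun B s hB hs => spn_rk_le b j hj.le t B s hB hs (fun i hi => (ht.2.1 i hi).le)
        (fun i hi hid => (ht.2.2 i hi hid).le)) hbor

end Claimed.Agent.R273
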