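import Claimed.Agent.R273.SpImg
import Claimed.Agent.R273.SpNum
import Claimed.Agent.R273.SpNC
import Claimed.Agent.R273.SpBD
import Claimed.Agent.R273.SpStep
import Claimed.Agent.R273.SpRP

/-!
# Row 273, SPARSE, S6a: the theta-level glue of the common window.  Architect helper37.

NOTATION.  `T_u = prfT B s u = B e^{u s}`, `D_i = spD B s b i`, `e_j = spE B s b j`, `σ = spSigma`, `Rk(u) = spRk d B s b u = σ(u)² T_u min(1, T_u/(D_0 D_1))`, `n_x = |X.pts|`, `n_y = |Y.pts|`, `k = d - j`.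
In every proof: take the minimum of the finitely many `θ`'s returned by the consumed statements (`SpTwo.mono`), and `θ` so small that `e^{η s} ≥ e^{η/θ}` beats the constants `C_d`.
Useful: `N e^{-θ s} ≤ n_x ≤ N`; `T_u ≥ 1` for `u ≥ -1` (`s ≤ log B`); `(T+1)^h / h! ≤ binom(T+h,h) ≤ (T+h)^h`, `⌊T⌋₊ + 1 ≥ T`.

LEAF S6A-ENV (`sp_env_images`): `SpProdStmt` for the system `𝒢 = {spPull lam H | lam : ℂ, deg H ≤ ⌊T_t⌋, H = 0 on spLab Γ}` (`sp_pull_degree`, `sp_eval_pull`, `sp_img_subset_iff`; `Env L T = Zl {..}` by definition).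
LEAF S6A-NUM (`sp_rk_*`): pure real analysis.
LEAF S6A-BD (`sp_cr_bd`, `sp_cr_zero`).
LEAF S6A-STEP (`sp_cr_step`): see its docstring.
LEAF S6A-CR (`sp_cr`): induction over the plateaux.
LEAF S6A-RP (`sp_rp`): see its docstring.
LEAF S6A-NC (`sp_noCommon`): see its docstring.
-/

set_option autoImplicit false

namespace Claimed.Agent.R273

open MvPolynomial Module

variable {d : ℕ}

/-- PRODUCT TESTING FORCES THE COMPLETE IMAGES INTO THE ENVELOPE. -/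
theorem sp_env_images (hprod : SpProdStmt d) (b : ℕ → ℝ) (hb : SpAdm d b) (ε : ℝ) (hε : 0 < ε)
    (j : ℕ) (t : ℝ) (ht : SpPlat d b j t) :
    ∃ θ : ℝ, 0 < θ ∧ ∀ (D : SpData d) (X Y : SpPool d) (s : ℝ), SpTwo D X Y s θ b →
      ∀ asg₁ asg₂ : SpC d → Ideal (PrfPol d), SpAsg X j asg₁ → SpAsg Y j asg₂ →
      ∀ Γ ⊆ X.pts ×ˢ Y.pts, ∀ Λ ⊆ Γ,
        (∀ z ∈ Λ, ¬ spImgP (asg₁ z.1, asg₂ z.2) ⊆
          Env (spLab (Γ : Set (SpC d × SpC d))) ⌊prfT D.B s t⌋₊) →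
        (Λ.card : ℝ) ≤ ε * X.pts.card * Y.pts.card := by
  obtain ⟨θ, hθ, h⟩ := hprod b hb ε hε j t ht
  refine ⟨θ, hθ, fun D X Y s htwo asg₁ asg₂ h1 h2 Γ hΓ Λ hΛ hz => ?_⟩
  have hT0 : 0 ≤ prfT D.B s t :=
    mul_nonneg (Real.rpow_nonneg (Nat.cast_nonneg _) _) (Real.exp_pos _).le
  refine h D X Y s htwo asg₁ asg₂ h1 h2
    {G | ∃ (lam : ℂ) (H : MvPolynomial (Fin d ⊕ Fin d) ℂ), H.totalDegree ≤ ⌊prfT D.B s t⌋₊ ∧
      (∀ w ∈ spLab (Γ : Set (SpC d × SpC d)), eval w H = 0) ∧ G = spPull lam H} ?_ Λ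
    (hΛ.trans hΓ) ?_
  · rintro G ⟨lam, H, hH, _, rfl⟩
    have h3 : ((spPull lam H).totalDegree : ℝ) ≤ (⌊prfT D.B s t⌋₊ : ℝ) := by
      exact_mod_cast (sp_pull_degree lam H).trans hH
    exact h3.trans (Nat.floor_le hT0)
  · intro z hzΛ
    refine ⟨?_, ?_⟩
    · rintro G ⟨lam, H, _, hH, rfl⟩
      rw [sp_eval_pull]
      exact hH _ ⟨z, Finset.mem_coe.mpr (hΛ hzΛ), lam, rfl⟩
    · have h4 := hz z hzΛ
      unfold spImgP Env at h4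
      rw [sp_img_subset_iff] at h4
      push Not at h4
      obtain ⟨H, ⟨hH1, hH2⟩, lam, h5⟩ := h4
      exact ⟨spPull lam H, ⟨lam, H, hH1, hH2, rfl⟩, h5⟩

/-! ### S6A-NUM -/

/-- on the closed plateau: `σ(u) = e_j T_u^{d-j}` -/
theorem sp_sigma_plateau (b : ℕ → ℝ) (j : ℕ) (hj : j ≤ d) (u B s : ℝ) (hB : 0 < B) (hs : 0 ≤ s)
    (h1 : ∀ i < j, b i ≤ u) (h2 : ∀ i, j ≤ i → i < d → u ≤ b i) :
    spSigma d B s b u = spE B s b j * prfT B s u ^ (d - j) := by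
  exact spn_sigma_plateau b j hj u B s hB hs h1 h2

/-- balance: `e_d = N`, i.e. `e_j ∏_{j ≤ i < d} D_i = B^d` -/
theorem sp_E_top (b : ℕ → ℝ) (hb : SpAdm d b) (B s : ℝ) (hB : 0 < B) : spE B s b d = B ^ d := by
  exact spn_E_top b hb B s

/-- growth of the required rank: for `u ≤ β ≤ t`, `t` on the closed plateau after `j` cuts starting at `β`:
`Rk(t) ≤ Rk(u) (T_t/T_u)^{2(d-j)+2} e^{2 d (β-u) s}`. -/
theorem sp_rk_growth (b : ℕ → ℝ) (hb : SpAdm d b) (j : ℕ) (hj : j ≤ d) (u β t B s : ℝ)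
    (hB : 0 < B) (hs : 0 ≤ s) (hu : u ≤ β) (hβ : β ≤ t) (h1 : ∀ i < j, b i ≤ β)
    (h2 : ∀ i, j ≤ i → i < d → t ≤ b i) :
    spRk d B s b t ≤ spRk d B s b u * (prfT B s t / prfT B s u) ^ (2 * (d - j) + 2) *
      Real.exp (2 * d * (β - u) * s) := by
  exact spn_rk_growth b j hj u β t B s hB hs hu hβ h1 h2

/-- `Rk(t) ≤ e_j² T^{2k+1}` on the plateau, and `Rk(t) ≤ e_1 T^{2d-1}` on the plateau after one cut, `Rk(t) ≤ T^{2d}` before the first cut (also at `t = -1`). -/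
theorem sp_rk_le (b : ℕ → ℝ) (hb : SpAdm d b) (j : ℕ) (hj : j ≤ d) (t B s : ℝ) (hB : 0 < B)
    (hs : 0 ≤ s) (h1 : ∀ i < j, b i ≤ t) (h2 : ∀ i, j ≤ i → i < d → t ≤ b i) :
    spRk d B s b t ≤ spE B s b j ^ 2 * prfT B s t ^ (2 * (d - j) + 1) := by
  exact spn_rk_le b j hj t B s hB hs h1 h2

theorem sp_rk_le_one (hd : 3 ≤ d) (b : ℕ → ℝ) (hb : SpAdm d b) (t B s : ℝ) (hB : 0 < B)
    (hs : 0 ≤ s) (h1 : b 0 ≤ t) (h2 : t ≤ b 1) :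
    spRk d B s b t ≤ spE B s b 1 * prfT B s t ^ (2 * d - 1) := by
  exact spn_rk_le_one hd b hb t B s hB hs h1 h2

theorem sp_rk_le_zero (hd : 3 ≤ d) (b : ℕ → ℝ) (hb : SpAdm d b) (t B s : ℝ) (hB : 0 < B)
    (hs : 0 ≤ s) (h2 : t ≤ b 0) : spRk d B s b t ≤ prfT B s t ^ (2 * d) := by
  exact spn_rk_le_zero hd b hb t B s hB hs h2

/-- margins of an admissible profile -/
theorem sp_adm_margins (hd : 3 ≤ d) (b : ℕ → ℝ) (hb : SpAdm d b) :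
    b 0 + b 1 < 0 ∧ b 0 < 0 ∧ 0 < b (d - 1) := by
  exact spn_adm_margins hd b hb

/-! ### sc:common-rank -/

/-- BOUNDARY `t = -1`.  `Rk(-1) ≤ T^{2d}` (`sp_rk_le_zero`, `-1 ≤ b 0`), `T = T_s(-1) ≥ 1`.  If `T = 1` (outermost window): `Γ ≠ ∅`, rank `≥ 1`.  If `1 < T`: no nonzero `H` of degree `≤ ⌊T⌋` vanishes on `spLab Γ`:
otherwise choose `lam` with `spPull lam H ≠ 0` (the substitution `(x,y) ↦ (x, lam (y-x))` is invertible for `lam ≠ 0`), it vanishes on `Γ`, `SpLowStmt` with `ε' = α/2` contradicts the density.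
So `hA = binom(⌊T⌋+2d, 2d) ≥ T^{2d}/(2d)!` (`rk`-lemma: `hA` of a set on which no nonzero polynomial of degree `≤ D` vanishes is `binom(D+n,n)`). -/
theorem sp_cr_bd (hd : 3 ≤ d) (lim : SpLimStmt d) (b : ℕ → ℝ) (hb : SpAdm d b) :
    SpCRAt d b (-1) := by
  exact spb_cr_bd hd lim b hb

/-- THE FULL-DIMENSIONAL INTERVAL `-1 ≤ t < b 0`: as `sp_cr_bd`, with `SpProdStmt` at `j = 0` (the only carrier is `⊥`; `SpAsg X 0 (fun _ => ⊥)`; `¬ PrfVanProd G ⊥ ⊥` iff `G ≠ 0`). -/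
theorem sp_cr_zero (hd : 3 ≤ d) (lim : SpLimStmt d) (b : ℕ → ℝ) (hb : SpAdm d b) (t : ℝ)
    (ht : SpPlat d b 0 t) (h1 : -1 ≤ t) : SpCRAt d b t := by
  exact spb_cr_zero hd lim b hb t ht h1

/-- **THE PLATEAU STEP.**  `1 ≤ j < d`, `k = d - j`, `β = b (j-1) < t`, `T = T_t`.  Given `α, ε`.  Constants: `c_d` depends on `d` only.
1. `k < d-1` (`j ≥ 2`): `ρ` from `SpRPStmt` at `(j, τ = (β+t)/2, ε/4, η)`, `η = min(α/16, ε/8)`.   `k = d-1` (`j = 1`): any own-path assignments (`sp_asg_exists`, unit S5L), `S₁ = X.pts`, `S₂ = Y.pts`, `R` from `SpTangStmt` (`η`).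
2. `Γ₁` := pairs of `Γ` in `S₁ × S₂` with carrier pair in `R`; `Γ₂` := those whose image lies in `Env (spLab Γ) ⌊T⌋` (`sp_env_images`, `η`).  `|Γ₂| ≥ (α/2) n_x n_y`.
3. `sp_env_core` with `L = spLab Γ`, `Λ = Γ₂`, `lab z = spLab {z}`, `img z = spImgP (asg z)`, `m = 2k+1`: `h, a, Λ'`, `|Λ'| ≥ α/(2(2d+1)) n_x n_y`;  `⋃ lab z = spLab Λ'`.
4. `h ≥ 2k+2`: borrow `SpCRAt d b u` (`u ≤ β`, `β - u ≤ ξ := ε/(8d)`) for `Λ'` with density `α/(2(2d+1))` and tolerance `ε/4`: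
   `Rk(u) e^{-ε s/4} ≤ H_{Λ'}(⌊T_u⌋) ≤ a binom(⌊T_u⌋+h,h)` and `a binom(⌊T⌋+h,h) ≤ (2d+1)^{2d} H_Γ(⌊T⌋)`, so `H_Γ(⌊T⌋) ≥ c_d Rk(u) e^{-ε s/4} (T/T_u)^h`, `T/T_u ≥ 1`, `h ≥ 2k+2`; `sp_rk_growth`.
5. `h = 2k+1`, `j ≥ 2`: `𝒥` := the set of images of `Λ'`; `ρ.mass`: `|Λ'| ≤ (a/e_j²) e^{(ε/4+η) s} n_x n_y`, so `a ≥ c e_j² e^{-(ε/4+η)s}`; (1) of the core; `sp_rk_le`.
6. `h = 2k+1 = 2d-1`, `j = 1`: images `= Z(𝔵) × ℂ^d`, `vdeg = vdeg 𝔵` (`sp_img_prod`), distinct `𝔵` give distinct images: `prfDeg 𝒜 ≤ a` for `𝒜` = sources of `Λ'`; `Λ'.image fst` has `≥ |Λ'|/n_y` points, all assigned to `𝒜`: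
   `SpMassStmt`: `≤ prfDeg 𝒜 (N/e_1) e^{η s}`; so `a ≥ c e_1 e^{-2η s}`; `sp_rk_le_one`. -/
theorem sp_cr_step (hd : 3 ≤ d) (lim : SpLimStmt d) (rp : SpRPStmt d) (tang : SpTangStmt d)
    (b : ℕ → ℝ) (hb : SpAdm d b) (j : ℕ) (t : ℝ) (h1 : 1 ≤ j) (hj : j < d) (ht : SpPlat d b j t)
    (hbor : ∀ ξ : ℝ, 0 < ξ → ∃ u : ℝ, -1 ≤ u ∧ u ≤ b (j - 1) ∧ b (j - 1) - u ≤ ξ ∧ SpCRAt d b u) :
    SpCRAt d b t := by
  exact sps_cr_step hd lim rp tang b hb j t h1 hj ht hbor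

/-- **(CR)**  Strong induction on `j`.  `j = 0`: `sp_cr_zero`.  `j ≥ 1`: `β = b (j-1) ≥ -1`.  If `β = -1`: `u = -1`, `sp_cr_bd`.  If `β > -1`: `j' := #{i < d | b i < β} < j`; every `u < β` close to `β` (`u > b (j'-1)`, `u ≥ -1`) has
`SpPlat d b j' u`; induction hypothesis. -/
theorem sp_cr (hd : 3 ≤ d) (lim : SpLimStmt d) (rp : SpRPStmt d) (tang : SpTangStmt d) :
    SpCRStmt d := by
  intro b hb
  have key : ∀ j, j < d → ∀ t, SpPlat d b j t → -1 ≤ t → SpCRAt d b t := by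
    intro j
    induction j using Nat.strong_induction_on with
    | _ j ih =>
      intro hj t ht h1
      rcases Nat.eq_zero_or_pos j with h0 | h0
      · subst h0; exact sp_cr_zero hd lim b hb t ht h1
      · refine sp_cr_step hd lim rp tang b hb j t h0 hj ht fun ξ hξ => ?_
        exact spn_borrow b hb j h0 hj.le _ (sp_cr_bd hd lim b hb)
          (fun j' hj' u hu hu1 => ih j' hj' (by omega) u hu hu1) ξ hξ
  intro α ε hα hε j t hj ht h1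
  exact key j hj t ht h1 α ε hα hε

/-- the borrowing clause of `sp_cr_step`, from the final statement (same case distinction as in `sp_cr`; consumed again by sc:outer-regularity) -/
theorem sp_cr_borrow (hd : 3 ≤ d) (lim : SpLimStmt d) (cr : SpCRStmt d) (b : ℕ → ℝ) (hb : SpAdm d b)
    (j : ℕ) (h1 : 1 ≤ j) (hj : j < d) (ξ : ℝ) (hξ : 0 < ξ) :
    ∃ u : ℝ, -1 ≤ u ∧ u ≤ b (j - 1) ∧ b (j - 1) - u ≤ ξ ∧ SpCRAt d b u := by
  exact spn_borrow b hb j h1 hj.le _ (sp_cr_bd hd lim b hb)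
    (fun j' hj' u hu hu1 α ε hα hε => cr b hb α ε hα hε j' u (by omega) hu hu1) ξ hξ

/-! ### sc:retained-products -/

/-- **(RP)**  `k = d - j`, `θ_G` := the `θ` of `SpDepthStmt` at `(k, ε, η/2)`, `ε₁ := min(η/8, θ_G/4)`.
1. `F, g` from `SpRegStmt` at `(j, τ, η/4)`.  `S₁ := {x ∈ X.pts | g x ≠ 0, no member of spCarr2 X Y j through x is SpNonreal}`, `S₂` likewise in `Y.pts` (so `X = Y → S₁ = S₂`); losses: `SpRegStmt`, `SpNonrealStmt` (`η/4` each).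
2. `asg₁ := A X`, `asg₂ := A Y` for ONE choice function `A : SpPool d → (SpC d → Ideal _)` of own-path assignments (`sp_asg_exists`), so `X = Y → asg₁ = asg₂`.
3. `SpFamOk D k s θ_G S_i asg_i` (`prf_pure`: prime of dimension `k`; size `(1-η) N e^{-θ s} ≥ N e^{-θ_G s}`), `SpFlatOk e_j s θ_G S_i asg_i` (`SpDegStmt`: a family of flats has `card = prfDeg ≤ e_j e^{ε₁ s}`; `SpMassStmt`: `≤ (N/e_j) e^{ε₁ s}` points).
4. `R₀` from `SpDepthStmt`, `R := R₀.filter (both members are values of the assignments on S₁, S₂)`.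
5. `deg_up`: pick one `r ∈ R` for each `Z ∈ 𝒥` (injective); `sp_img_vdeg_le`; `∑ ≤ 2^{2k+1} (∑_𝔵 vdeg)(∑_𝔶 vdeg) ≤ 2^{2k+1} e_j² e^{2ε₁ s}` (`SpDegStmt`).
6. `mass`: `|Λ| ≤ ∑_{r ∈ R, img r ∈ 𝒥} n_{r.1} n_{r.2} ≤ (N/e_j)² e^{2ε₁ s} ∑_r vdeg r.1 vdeg r.2 ≤ (N/e_j)² e^{2ε₁ s} ∑_{Z ∈ 𝒥} 2 vdeg Z #{r | img r = Z}`, and `#{r ∈ R | img r = Z} ≤ e^{ε s}` (`sp_img_src`: one source; depth bound);
   `N² ≤ 4 e^{2θ s} |S₁||S₂|`. -/
theorem sp_rp (hd : 3 ≤ d) (lim : SpLimStmt d) (gd : SpDepthStmt d) : SpRPStmt d := by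
  exact spr_rp lim gd

/-! ### the contradiction in a common window -/

/-- **(NC)**  Let `b, α`.  If `¬ SpAdm d b`: `SpAdmStmt`.  Otherwise `μ₁ := -(b 0 + b 1) > 0` (`sp_adm_margins`), `β_d := b (d-1) > 0`, `j := #{i < d | b i < β_d} < d`, `k = d - j`,
`μ₂ := 1/2` and, if `β_d < 1`, also `μ₂' := 1 - β_d`; `μ := min(μ₁, 1/2, 1 - β_d or 1/2)`; `ξ > 0` with `2 d ξ ≤ μ/8`, `t := β_d - ξ` in the open plateau `j` and `t ≥ -1`; `ε := μ/8`; `θ` from `SpCRStmt`.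
`SpTwo D X Y s θ b` from `Ok` + `Common`.  Lower bound: `Rk(t) e^{-ε s}`, `σ(t) = e_j T^k = N e^{-k ξ s}` (`sp_sigma_plateau`, `sp_E_top`, `B^d = N`).  Upper bound `SpUpperStmt`: `≤ N E binom(⌊T⌋+2,2) ≤ N (δ N / B²) 3 T²` (`dA = B²`, `T ≥ 1`).
Hence `e^{-(2kξ+ε)s} min(1, T/(D_0 D_1)) ≤ 3 δ T / B²`.  Case `min = 1`: `T/B² = e^{t s}/B ≤ e^{-s}` if `2 s ≤ log B`, `≤ e^{-(1-β_d) s}` if `s ≤ log B`.  Case `min = T/(D_0D_1)`: `B²/(D_0D_1) = e^{μ₁ s} ≤ 3 δ e^{(2kξ+ε)s}`.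
Both contradict `δ ≤ 1`, `e^{μ s/2} ≥ e^{μ/(2θ)} > 3`. -/
theorem sp_noCommon (hd : 3 ≤ d) (adm : SpAdmStmt d) (cr : SpCRStmt d) (up : SpUpperStmt d) :
    SpNoCommon d := by
  exact spn_noCommon hd adm cr up

/-- the unit contract of S6a -/
theorem sp_noCommon_of_parts (hd : 3 ≤ d) (lim : SpLimStmt d) (gd : SpDepthStmt d)
    (tang : SpTangStmt d) : SpNoCommon d :=
  sp_noCommon hd lim.adm (sp_cr hd lim (sp_rp hd lim gd) tang) (sp_upper d)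

end Claimed.Agent.R273
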