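-- KEEP
import Claimed.Agent.R273.SpComA
import Claimed.Agent.R273.DepDefs

/-!
# Row 273, SPARSE, unit SCO = the outermost endpoint (sparse-cones.tex l.340-657): definitions, the two unit contracts, `SpNoOuter d` from them.
Architect helper37 (cut in cone form worked out with helper177: `git show origin/helper177:notes/r273_outer.md`).  Prefix `sco` / `Sco`.

Situation: `𝔠.Ok b α θ`, `𝔠.Outer b`: ONE pool `X = Y`, `s = log B`, `b (d-1) = 1`, `n = |X.pts| ≥ N √δ`.  `j = scoJ d b = #{i < d | b i < 1}`, `k = d - j`, `1 ≤ k < d - 1`, `β = b (j-1) < 1`, `e_j = B^{d-2k}`, `T_s(t) = B^{1+t}`.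

* `ScoGood F ℱ j p q`: the regularity of an (arbitrary complex) pair `(p,q)` with respect to the physical equations `F` and the label equations `ℱ`; all conditions are Zariski-open.
* `ScoSys`, `ScoSys.Ok`: the output of the set-up and of sc:outer-regularity.
* `ScoRegStmt d` (sparse-cones.tex l.340-560): a good system exists.      `ScoFinStmt d` (l.561-657: Bezout for the components outside the label equations, lift, one root, degree, count): a good system does not exist.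
-/

set_option autoImplicit false

namespace Claimed.Agent.R273

open MvPolynomial Module

variable {d : ℕ}

/-- label polynomials -/
abbrev SpLPol (d : ℕ) := MvPolynomial (Fin d ⊕ Fin d) ℂ

/-- the number of cuts before the final plateau of an outer profile -/
noncomputable def scoJ (d : ℕ) (b : ℕ → ℝ) : ℕ := ((Finset.range d).filter fun i => b i < 1).card

/-- the tangent space of a system at a point -/
noncomputable abbrev scoT {ι : Type*} [Fintype ι] (F : Set (MvPolynomial ι ℂ)) (x : ι → ℂ) : Submodule ℂ (ι → ℂ) :=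
  tanSp (Ideal.span F) x

/-- REGULAR PAIRS.  (At zeros of the systems `scoT F x` is the kernel of the Jacobian: `ph_mem_tanSp_span`.) -/
structure ScoGood (F : Set (PrfPol d)) (ℱ : Set (SpLPol d)) (j : ℕ) (p q : SpC d) : Prop where
  /-- full Jacobian rank of the physical equations at both endpoints -/
  tan_p : finrank ℂ (scoT F p) ≤ d - j
  tan_q : finrank ℂ (scoT F q) ≤ d - j
  /-- full Jacobian rank of the label equations at SOME point `≠ (p,0)` of the label line -/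
  lab : ∃ lam : ℂ, lam ≠ 0 ∧ finrank ℂ (scoT ℱ (Sum.elim p (lam • (q - p)))) ≤ 2 * (d - j) + 1
  /-- transversality at both endpoints -/
  tr_p : q - p ∉ scoT F p
  tr_q : q - p ∉ scoT F q
  /-- the projected tangent spaces are unequal (`k ≥ 2`) -/
  neq : 2 ≤ d - j → scoT F p ⊔ Submodule.span ℂ {q - p} ≠ scoT F q ⊔ Submodule.span ℂ {q - p}

/-- the data produced by the set-up and by sc:outer-regularity -/
structure ScoSys (d : ℕ) where
  asg : SpC d → Ideal (PrfPol d)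
  F : Finset (PrfPol d)
  ℱ : Finset (SpLPol d)
  R : Finset (Ideal (PrfPol d) × Ideal (PrfPol d))
  Γ : Finset (SpC d × SpC d)

structure ScoSys.Ok (σ : ScoSys d) (𝔠 : SpCfg d) (j : ℕ) (t₂ α' : ℝ) : Prop where
  asg : SpAsg 𝔠.X j σ.asg
  F_van : ∀ f ∈ σ.F, ∀ p ∈ 𝔠.X.carriers j, f ∈ p
  sub : σ.Γ ⊆ 𝔠.Γ
  dense : α' * (𝔠.X.pts.card : ℝ) ^ 2 ≤ (σ.Γ.card : ℝ)
  R_mem : ∀ z ∈ σ.Γ, (σ.asg z.1, σ.asg z.2) ∈ σ.R
  lab_deg : ∀ H ∈ σ.ℱ, (H.totalDegree : ℝ) ≤ prfT 𝔠.D.B 𝔠.s t₂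
  lab_van : ∀ r ∈ σ.R, spImgP r ⊆ Zl (σ.ℱ : Set (SpLPol d))
  good : ∀ z ∈ σ.Γ, ScoGood (σ.F : Set (PrfPol d)) (σ.ℱ : Set (SpLPol d)) j z.1 z.2

/-- **(SCO-REG)** set-up + sc:outer-regularity. -/
def ScoRegStmt (d : ℕ) : Prop :=
  ∀ b : ℕ → ℝ, SpAdm d b → b (d - 1) = 1 → ∀ α : ℝ, 0 < α → ∃ t₂ θ : ℝ, t₂ < 1 ∧ 0 < θ ∧
    ∀ 𝔠 : SpCfg d, 𝔠.Ok b α θ → 𝔠.Outer b → ∃ σ : ScoSys d, σ.Ok 𝔠 (scoJ d b) t₂ (α / 2)

/-- **(SCO-FIN)** Bezout, lift, one root, degree, count. -/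
def ScoFinStmt (d : ℕ) : Prop :=
  ∀ b : ℕ → ℝ, SpAdm d b → b (d - 1) = 1 → ∀ α α' t₂ : ℝ, 0 < α → 0 < α' → t₂ < 1 →
    ∃ θ : ℝ, 0 < θ ∧ ∀ 𝔠 : SpCfg d, 𝔠.Ok b α θ → 𝔠.Outer b →
      ∀ σ : ScoSys d, ¬ σ.Ok 𝔠 (scoJ d b) t₂ α'

/-- the unit contract -/
theorem sco_noOuter (adm : SpAdmStmt d) (hreg : ScoRegStmt d) (hfin : ScoFinStmt d) :
    SpNoOuter d := by
  intro b α hα
  by_cases hb : SpAdm d b
  · by_cases h1 : b (d - 1) = 1
    · obtain ⟨t₂, θ₁, ht₂, hθ₁, H1⟩ := hreg b hb h1 α hα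
      obtain ⟨θ₂, hθ₂, H2⟩ := hfin b hb h1 α (α / 2) t₂ hα (by positivity) ht₂
      refine ⟨min (min θ₁ θ₂) 1, lt_min (lt_min hθ₁ hθ₂) one_pos, ?_⟩
      intro 𝔠 hok hout
      have h0 : 0 < min (min θ₁ θ₂) 1 := lt_min (lt_min hθ₁ hθ₂) one_pos
      obtain ⟨σ, hσ⟩ := H1 𝔠 (hok.mono h0 ((min_le_left _ _).trans (min_le_left _ _))
        (min_le_right _ _)) hout
      exact H2 𝔠 (hok.mono h0 ((min_le_left _ _).trans (min_le_right _ _)) (min_le_right _ _))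
        hout σ hσ
    · exact ⟨1, one_pos, fun 𝔠 _ hout => h1 hout.2.2.2.1⟩
  · obtain ⟨θ, hθ, H⟩ := adm b hb
    exact ⟨θ, hθ, fun 𝔠 hok _ => H 𝔠.D 𝔠.X 𝔠.v hok.reg hok.okX⟩

end Claimed.Agent.R273
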