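import Claimed.Agent.R273.ScoReg
import Claimed.Agent.R273.ScoFin

/-!
# Row 273, SPARSE, unit SCO: the unit theorem.  Architect helper37.
-/

set_option autoImplicit false

namespace Claimed.Agent.R273

variable {d : ℕ}

/-- `SpNoOuter d` from the contracts of the other units: S5L (`SpLimStmt`), S6a (`SpRPStmt`, `SpCRStmt`), S3 (`SpRegLabStmt`, `ScoProjStmt`), S4 (`ScoSecStmt`). -/
theorem sco_noOuter_of_parts (hd : 3 ≤ d) (lim : SpLimStmt d) (rp : SpRPStmt d) (cr : SpCRStmt d)
    (reg : SpRegLabStmt d) (sec : ScoSecStmt d) (proj : ScoProjStmt d) : SpNoOuter d :=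
  sco_noOuter lim.adm
    (sco_reg hd (sco_setup hd lim rp)
      (sco_lab hd lim (sco_big hd lim fun b hb j h1 hj ξ hξ => sp_cr_borrow hd lim cr b hb j h1 hj ξ hξ)
        reg)
      (sco_test hd lim sec))
    (sco_fin hd lim proj)

end Claimed.Agent.R273
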