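import Claimed.Agent.R273.SplBasic

/-!
# Row 273, SPARSE, unit S5L (chief helper161): (ADM), (DEG), (MASS), (RANK) of `SpLim.lean` from the finite forms `PrfBudget.lean`.

Use the lemmas of `SplBasic.lean` (sorried or not) as black boxes, and `prf_balance`, `prf_carrier_deg`, `prf_mass`, `prf_rank`.   `hX : X.Ok D s θ b`, `T(u) = prfT D.B s u`, `D_i = spD`, `e_j = spE`.

LEAF SPL-adm (`spl_adm`).  Prove `(∀ θ > 0, ∃ D X s, X.Ok D s θ b) → SpAdm d b` and contrapose (`by_contra`, `push_neg`).  Fix `η > 0`, take a pool for a suitable `θ`, and ONE member `a ∈ X.I` (`hX.ne`), `τ = (X.π a).τ`, `|τ i - b i| ≤ θ`.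
 * `mono`: `b i ≤ τ i + θ ≤ τ j + θ ≤ b j + 2θ` (`Ok.mono`); `le_of_forall_pos_le_add`.     * `lo`, `hi`: `-1 ≤ τ 0`, `τ (d-1) ≤ top ≤ 1 + θ` (`spl_tau_mem`).
 * `bal`: `(C, κ₀) := prf_balance d`, `θ ≤ κ₀`.  `∏_{i<d} T(τ_i) = B^d e^{s ∑ τ_i} = N e^{s ∑ τ_i}`.   `N e^{-θ s} ≤ |S| ≤ N e^{s ∑ τ}` gives `∑ τ_i ≥ -θ`;   `N e^{s ∑ τ} ≤ C |S| e^{2 d² θ s} ≤ C N e^{2 d² θ s}` gives
   `∑ τ_i ≤ log C / s + 2 d² θ ≤ (|log C| + 2 d²) θ` (`1/s ≤ θ`).   `|∑ τ_i - ∑ b_i| ≤ d θ`.  So `|∑ b_i| ≤ (|log C| + 2 d² + d + 1) θ`, for every small `θ`.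
   (hypotheses of `prf_balance`: `hX.piece a ha`, `hX.grid`, `spl_s_pos`, `1 ≤ T(-1)` = `spl_one_le_T`, `S ≠ ∅` = `spl_member_pos`.)
 * `imb`: if `-1/2 < b 0` and `b (d-1) < 1/2` take `θ < min ((b 0 + 1/2)/2) (1/2 - b (d-1))`: both alternatives of `hX.imb` fail.
LEAF SPL-degmass (`spl_deg`, `spl_mass`).   `θ := ε/(d+1)`.
 * `spl_deg`: choose for `p ∈ 𝒜` a member `a(p)`; `prfDeg 𝒜 = ∑_{a ∈ I} prfDeg (𝒜.filter (a(·) = a))` (`Finset.sum_fiberwise_of_maps_to`) `≤ ∑_a degLo_a j` (`prf_carrier_deg`, `PrfPiece.degLo`) `≤ |I| e_j e^{d θ s} ≤ e_j e^{(d+1) θ s}`.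
 * `spl_mass`: `S'_a := S'.filter (x ∈ S_a ∧ ∃ p ∈ 𝒜, p ∈ carriers_a j ∧ x ∈ Z(p))`, `S' ⊆ ⋃_a S'_a` (`Finset.card_biUnion_le`); `𝒜_a := 𝒜.filter (· ∈ carriers_a j)`, `prfDeg 𝒜_a ≤ prfDeg 𝒜`;
   `prf_mass`: `|S'_a| ≤ prfDeg 𝒜_a degHi_a j ≤ prfDeg 𝒜 (N/e_j) e^{d θ s}`; sum: factor `|I| ≤ e^{θ s}`.
LEAF SPL-rank (`spl_rank`).   `(c, κ₀) := prf_rank d α`; `θ₁ := spl_absorb (1/c) (ε/2)`; `θ := min κ₀ (min θ₁ (ε/(2 (d² + d) + 1)))`.
 Pigeonhole: some `a ∈ I` has `α |S_a| ≤ |S' ∩ S_a|` (otherwise sum, `spl_split`, `spl_pts_card`); `S'' := S' ∩ S_a ≠ ∅`.   `t' ∈ grid`, `t - θ ≤ t' ≤ t` (`spl_grid_le`, `t ≤ 1 ≤ top`).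
 `c σ_a(t') e^{-d² θ s} ≤ hA S'' ⌊T(t')⌋ ≤ hA S' ⌊T(t)⌋` (`rk_hA_mono_set`, `rk_hA_mono_deg`, `Nat.floor_mono`);   `σ_a(t') = ∏ min (T t') (T τ_i) ≥ ∏ min (T t) D_i e^{-θ s} = σ_b(t) e^{-d θ s}` (`spl_T_add`, `spl_T_tau_ge`, `min_le_min`).
-/

set_option autoImplicit false

namespace Claimed.Agent.R273

open MvPolynomial Module

variable {d : ℕ}

theorem spl_adm (hd : 1 ≤ d) : SpAdmStmt d := by
  classical
  intro b hb
  by_contra hcon
  push Not at hcon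
  apply hb
  -- one member of a good pool
  have key : ∀ θ : ℝ, 0 < θ → ∃ (D : SpData d) (X : SpPool d) (s : ℝ) (a : ℕ),
      X.Ok D s θ b ∧ a ∈ X.I := by
    intro θ hθ
    obtain ⟨D, X, s, -, hX⟩ := hcon θ hθ
    obtain ⟨a, ha⟩ := hX.ne
    exact ⟨D, X, s, a, hX, ha⟩
  have hd0 : 0 < d := hd
  have hd1 : d - 1 < d := by omega
  obtain ⟨C, κ₀, hC, hκ₀, Hbal⟩ := prf_balance d
  refine ⟨?_, ?_, ?_, ?_, ?_⟩
  · intro i j hij hj
    apply le_of_forall_pos_le_add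
    intro ε hε
    obtain ⟨D, X, s, a, hX, ha⟩ := key (ε / 2) (by positivity)
    have h1 := abs_le.1 (hX.prof a ha i (lt_of_le_of_lt hij hj))
    have h2 := abs_le.1 (hX.prof a ha j hj)
    have h3 := (hX.piece a ha).mono i j hij hj
    linarith [h1.1, h2.2]
  · have : ∀ ε : ℝ, 0 < ε → -1 ≤ b 0 + ε := by
      intro ε hε
      obtain ⟨D, X, s, a, hX, ha⟩ := key ε hε
      have h1 := abs_le.1 (hX.prof a ha 0 hd0)
      have h2 := (spl_tau_mem hX ha hd0).1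
      linarith [h1.2]
    exact le_of_forall_pos_le_add this
  · have : ∀ ε : ℝ, 0 < ε → b (d - 1) ≤ 1 + ε := by
      intro ε hε
      obtain ⟨D, X, s, a, hX, ha⟩ := key (ε / 2) (by positivity)
      have h1 := abs_le.1 (hX.prof a ha (d - 1) hd1)
      have h2 := (spl_tau_mem hX ha hd1).2
      have h3 := hX.top_le
      linarith [h1.1]
    exact le_of_forall_pos_le_add this
  · -- balance
    have hmain : ∀ η : ℝ, 0 < η → |∑ i ∈ Finset.range d, b i| ≤ (2 * (d : ℝ) ^ 2 + d + 1) * η := by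
      intro η hη
      obtain ⟨θ₀, hθ₀, Habs⟩ := spl_absorb C η hη
      obtain ⟨θ, hθd⟩ : ∃ θ : ℝ, θ = min κ₀ (min θ₀ η) := ⟨_, rfl⟩
      have hθ : 0 < θ := by rw [hθd]; positivity
      have hθa : θ ≤ κ₀ := hθd ▸ min_le_left _ _
      have hθb : θ ≤ θ₀ := hθd ▸ (min_le_right _ _).trans (min_le_left _ _)
      have hθc : θ ≤ η := hθd ▸ (min_le_right _ _).trans (min_le_right _ _)
      obtain ⟨D, X, s, a, hX, ha⟩ := key θ hθ
      have hs := spl_s_pos hθ hX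
      have hN := spl_N_pos hd hθ hX
      have hne : (X.π a).S.Nonempty := by
        rw [← Finset.card_pos]
        exact_mod_cast spl_member_pos hd hθ hX ha
      obtain ⟨hb1, hb2⟩ := Hbal (X.π a) D.B s θ θ X.top X.grid (hX.piece a ha) hX.grid hs hθ.le hθa
        (spl_one_le_T hθ hX le_rfl) hne
      have hprod : ∏ i ∈ Finset.range d, prfT D.B s ((X.π a).τ i)
          = D.N * Real.exp ((∑ i ∈ Finset.range d, (X.π a).τ i) * s) := by
        rw [spl_N_eq hd]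
        unfold prfT
        rw [Finset.prod_mul_distrib, ← Real.exp_sum, ← Finset.sum_mul]
        simp
      rw [hprod] at hb1 hb2
      obtain ⟨sT, hsT⟩ : ∃ sT : ℝ, sT = ∑ i ∈ Finset.range d, (X.π a).τ i := ⟨_, rfl⟩
      rw [← hsT] at hb1 hb2
      -- lower bound
      have hlow : -θ ≤ sT := by
        have h1 : D.N * Real.exp (-(θ * s)) ≤ D.N * Real.exp (sT * s) := (hX.size a ha).trans hb1
        have h2 : Real.exp (-(θ * s)) ≤ Real.exp (sT * s) := le_of_mul_le_mul_left h1 hN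
        have h3 := Real.exp_le_exp.1 h2
        nlinarith
      -- upper bound
      have hup : sT ≤ η + 2 * (d : ℝ) ^ 2 * θ := by
        have h0 : ((X.π a).S.card : ℝ) ≤ D.N := by
          have h1 : (X.π a).S.card ≤ D.pts.card := Finset.card_le_card (hX.sub a ha)
          have h2 : D.pts.card ≤ D.P.card := Finset.card_image_le
          unfold SpData.N
          exact_mod_cast h1.trans h2
        have h1 : D.N * Real.exp (sT * s)
            ≤ D.N * (Real.exp (η * s) * Real.exp (2 * (d : ℝ) ^ 2 * θ * s)) := by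
          calc D.N * Real.exp (sT * s)
              ≤ C * ((X.π a).S.card : ℝ) * Real.exp (2 * (d : ℝ) ^ 2 * θ * s) := hb2
            _ ≤ Real.exp (η * s) * D.N * Real.exp (2 * (d : ℝ) ^ 2 * θ * s) := by
                have := Habs θ s hθ hθb hX.s_ge
                gcongr
            _ = D.N * (Real.exp (η * s) * Real.exp (2 * (d : ℝ) ^ 2 * θ * s)) := by ring
        have h2 := le_of_mul_le_mul_left h1 hN
        rw [← Real.exp_add] at h2
        have h3 := Real.exp_le_exp.1 h2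
        nlinarith
      have hdiff : |sT - ∑ i ∈ Finset.range d, b i| ≤ d * θ := by
        rw [hsT, ← Finset.sum_sub_distrib]
        calc |∑ i ∈ Finset.range d, ((X.π a).τ i - b i)|
            ≤ ∑ i ∈ Finset.range d, |(X.π a).τ i - b i| := Finset.abs_sum_le_sum_abs _ _
          _ ≤ ∑ _i ∈ Finset.range d, θ :=
              Finset.sum_le_sum fun i hi => hX.prof a ha i (Finset.mem_range.1 hi)
          _ = d * θ := by rw [Finset.sum_const, Finset.card_range, nsmul_eq_mul]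
      have hdiff' := abs_le.1 hdiff
      have hdθ : (d : ℝ) * θ ≤ d * η := by gcongr
      have hd2θ : 2 * (d : ℝ) ^ 2 * θ ≤ 2 * (d : ℝ) ^ 2 * η := by gcongr
      rw [abs_le]
      constructor
      · nlinarith [hdiff'.1, hdiff'.2]
      · nlinarith [hdiff'.1, hdiff'.2]
    by_contra hne
    have hpos : 0 < |∑ i ∈ Finset.range d, b i| := abs_pos.2 hne
    have hK : (0 : ℝ) < 2 * (d : ℝ) ^ 2 + d + 1 := by positivity
    have := hmain (|∑ i ∈ Finset.range d, b i| / (2 * (2 * (d : ℝ) ^ 2 + d + 1))) (by positivity)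
    have e : (2 * (d : ℝ) ^ 2 + d + 1) * (|∑ i ∈ Finset.range d, b i| / (2 * (2 * (d : ℝ) ^ 2 + d + 1)))
        = |∑ i ∈ Finset.range d, b i| / 2 := by field_simp
    rw [e] at this
    linarith
  · by_contra hcon2
    push Not at hcon2
    obtain ⟨h1, h2⟩ := hcon2
    obtain ⟨θ, hθd⟩ : ∃ θ : ℝ, θ = min ((b 0 + 1 / 2) / 3) (1 / 2 - b (d - 1)) := ⟨_, rfl⟩
    have hθ : 0 < θ := by
      rw [hθd]
      apply lt_min <;> linarith
    have hθa : θ ≤ (b 0 + 1 / 2) / 3 := hθd ▸ min_le_left _ _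
    have hθb : θ ≤ 1 / 2 - b (d - 1) := hθd ▸ min_le_right _ _
    obtain ⟨D, X, s, a, hX, ha⟩ := key θ hθ
    have h3 := abs_le.1 (hX.prof a ha 0 hd0)
    have h4 := abs_le.1 (hX.prof a ha (d - 1) hd1)
    rcases hX.imb a ha with h5 | h5
    · linarith [h3.1]
    · linarith [h4.2]

theorem spl_deg (hd : 1 ≤ d) : SpDegStmt d := by
  classical
  intro b hb ε hε
  obtain ⟨θ, hθd⟩ : ∃ θ : ℝ, θ = ε / (d + 1) := ⟨_, rfl⟩
  have hθ : 0 < θ := by rw [hθd]; positivity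
  have hθε : (d + 1) * θ = ε := by rw [hθd]; field_simp
  refine ⟨θ, hθ, ?_⟩
  intro D X s hD hX j hj 𝒜 h𝒜
  have hch : ∀ p ∈ 𝒜, ∃ a ∈ X.I, p ∈ (X.π a).carriers j := fun p hp => h𝒜 hp
  choose! a ha using hch
  have h1 : prfDeg 𝒜 = ∑ c ∈ X.I, prfDeg (𝒜.filter (fun p => a p = c)) := by
    unfold prfDeg
    exact (Finset.sum_fiberwise_of_maps_to (fun p hp => (ha p hp).1) _).symm
  have h2 : ∀ c ∈ X.I, (prfDeg (𝒜.filter (fun p => a p = c)) : ℝ)
      ≤ spE D.B s b j * Real.exp (d * θ * s) := by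
    intro c hc
    have h3 := prf_carrier_deg (X.π c) (hX.piece c hc).path j hj (𝒜.filter (fun p => a p = c)) (by
      intro p hp
      obtain ⟨hp1, hp2⟩ := Finset.mem_filter.1 (Finset.mem_coe.1 hp)
      exact hp2 ▸ (ha p hp1).2)
    have h4 : (prfDeg (𝒜.filter (fun p => a p = c)) : ℝ) ≤ ((X.π c).degLo j : ℝ) := by
      exact_mod_cast h3
    exact h4.trans (spl_degLo_le hθ hX hc hj)
  have hE := spl_spE_pos hθ hX j
  rw [h1, Nat.cast_sum]
  calc ∑ c ∈ X.I, (prfDeg (𝒜.filter (fun p => a p = c)) : ℝ)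
      ≤ ∑ _c ∈ X.I, spE D.B s b j * Real.exp (d * θ * s) := Finset.sum_le_sum h2
    _ = (X.I.card : ℝ) * (spE D.B s b j * Real.exp (d * θ * s)) := by
        rw [Finset.sum_const, nsmul_eq_mul]
    _ ≤ Real.exp (θ * s) * (spE D.B s b j * Real.exp (d * θ * s)) := by
        have := spl_card_I hd hθ hX
        gcongr
    _ = spE D.B s b j * (Real.exp (θ * s) * Real.exp (d * θ * s)) := by ring
    _ = spE D.B s b j * Real.exp (ε * s) := by
        rw [← Real.exp_add, ← hθε]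
        congr 2
        ring

theorem spl_mass (hd : 1 ≤ d) : SpMassStmt d := by
  classical
  intro b hb ε hε
  obtain ⟨θ, hθd⟩ : ∃ θ : ℝ, θ = ε / (d + 1) := ⟨_, rfl⟩
  have hθ : 0 < θ := by rw [hθd]; positivity
  have hθε : (d + 1) * θ = ε := by rw [hθd]; field_simp
  refine ⟨θ, hθ, ?_⟩
  intro D X s hD hX j hj 𝒜 S' hS'
  obtain ⟨Sa, hSa⟩ : ∃ Sa : ℕ → Finset (SpC d), Sa = fun a => S'.filter (fun x => x ∈ (X.π a).S ∧
      ∃ p ∈ 𝒜, p ∈ (X.π a).carriers j ∧ x ∈ zeroLocus ℂ p) := ⟨_, rfl⟩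
  have hcov : S' ⊆ X.I.biUnion Sa := by
    intro x hx
    obtain ⟨a, ha, h1, h2⟩ := hS' x hx
    rw [Finset.mem_biUnion]
    refine ⟨a, ha, ?_⟩
    rw [hSa]
    exact Finset.mem_filter.2 ⟨hx, h1, h2⟩
  have h1 : S'.card ≤ ∑ a ∈ X.I, (Sa a).card :=
    (Finset.card_le_card hcov).trans Finset.card_biUnion_le
  have hE := spl_spE_pos hθ hX j
  have hN := spl_N_pos hd hθ hX
  have h2 : ∀ a ∈ X.I, ((Sa a).card : ℝ)
      ≤ (prfDeg 𝒜 : ℝ) * (D.N / spE D.B s b j * Real.exp (d * θ * s)) := by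
    intro a ha
    have h3 := prf_mass (X.π a) (hX.piece a ha).path j hj
      (𝒜.filter (fun p => p ∈ (X.π a).carriers j)) (by
        intro p hp
        exact (Finset.mem_filter.1 (Finset.mem_coe.1 hp)).2) (Sa a) (by
        intro x hx
        rw [hSa] at hx
        exact (Finset.mem_filter.1 hx).2.1) (by
        intro x hx
        rw [hSa] at hx
        obtain ⟨p, hp1, hp2, hp3⟩ := (Finset.mem_filter.1 hx).2.2
        unfold prfUn
        simp only [Set.mem_iUnion]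
        exact ⟨p, Finset.mem_filter.2 ⟨hp1, hp2⟩, hp3⟩)
    have h4 : prfDeg (𝒜.filter (fun p => p ∈ (X.π a).carriers j)) ≤ prfDeg 𝒜 := by
      unfold prfDeg
      exact Finset.sum_le_sum_of_subset (Finset.filter_subset _ _)
    have h5 : (Sa a).card ≤ prfDeg 𝒜 * (X.π a).degHi j :=
      h3.trans (Nat.mul_le_mul_right _ h4)
    have h6 : ((Sa a).card : ℝ) ≤ (prfDeg 𝒜 : ℝ) * ((X.π a).degHi j : ℝ) := by exact_mod_cast h5
    refine h6.trans ?_
    have := spl_degHi_le hd hb hθ hX ha hj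
    gcongr
  have h7 : (S'.card : ℝ) ≤ ∑ a ∈ X.I, ((Sa a).card : ℝ) := by exact_mod_cast h1
  calc (S'.card : ℝ) ≤ ∑ a ∈ X.I, ((Sa a).card : ℝ) := h7
    _ ≤ ∑ _a ∈ X.I, (prfDeg 𝒜 : ℝ) * (D.N / spE D.B s b j * Real.exp (d * θ * s)) :=
        Finset.sum_le_sum h2
    _ = (X.I.card : ℝ) * ((prfDeg 𝒜 : ℝ) * (D.N / spE D.B s b j * Real.exp (d * θ * s))) := by
        rw [Finset.sum_const, nsmul_eq_mul]
    _ ≤ Real.exp (θ * s) * ((prfDeg 𝒜 : ℝ) * (D.N / spE D.B s b j * Real.exp (d * θ * s))) := by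
        have := spl_card_I hd hθ hX
        gcongr
    _ = (prfDeg 𝒜 : ℝ) * (D.N / spE D.B s b j) * (Real.exp (θ * s) * Real.exp (d * θ * s)) := by
        ring
    _ = (prfDeg 𝒜 : ℝ) * (D.N / spE D.B s b j) * Real.exp (ε * s) := by
        rw [← Real.exp_add, ← hθε]
        congr 2
        ring

theorem spl_rank (hd : 1 ≤ d) : SpRankStmt d := by
  classical
  intro b hb α ε hα hε
  obtain ⟨c, κ₀, hc, hκ₀, H⟩ := prf_rank d α hα
  obtain ⟨θ₁, hθ₁, Habs⟩ := spl_absorb (1 / c) (ε / 2) (by positivity)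
  obtain ⟨θ, hθd⟩ : ∃ θ : ℝ, θ = min κ₀ (min θ₁ (ε / (2 * ((d : ℝ) ^ 2 + d) + 1))) := ⟨_, rfl⟩
  have hθ : 0 < θ := by rw [hθd]; positivity
  have hθa : θ ≤ κ₀ := hθd ▸ min_le_left _ _
  have hθb : θ ≤ θ₁ := hθd ▸ (min_le_right _ _).trans (min_le_left _ _)
  have hθc : θ ≤ ε / (2 * ((d : ℝ) ^ 2 + d) + 1) := hθd ▸ (min_le_right _ _).trans (min_le_right _ _)
  refine ⟨θ, hθ, ?_⟩
  intro D X s hD hX t ht1 ht2 S' hS' hdense
  have hs := spl_s_pos hθ hX
  have hB := spl_B_pos hθ hX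
  -- pigeonhole
  obtain ⟨a, ha, hpa⟩ : ∃ a ∈ X.I, α * ((X.π a).S.card : ℝ) ≤ ((S' ∩ (X.π a).S).card : ℝ) := by
    by_contra hcon
    push Not at hcon
    have h1 : ∑ a ∈ X.I, ((S' ∩ (X.π a).S).card : ℝ) < ∑ a ∈ X.I, α * ((X.π a).S.card : ℝ) :=
      Finset.sum_lt_sum_of_nonempty hX.ne hcon
    rw [← spl_split hX S' hS', ← Finset.mul_sum, ← spl_pts_card hX] at h1
    linarith
  have hSa := spl_member_pos hd hθ hX ha
  have hne : (S' ∩ (X.π a).S).Nonempty := by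
    rw [← Finset.card_pos]
    have : (0 : ℝ) < ((S' ∩ (X.π a).S).card : ℝ) := lt_of_lt_of_le (by positivity) hpa
    exact_mod_cast this
  obtain ⟨t', ht', h1t, h2t⟩ := spl_grid_le hX.grid hθ.le ht1 (ht2.trans hX.top_ge)
  have h3 := H (X.π a) D.B s θ θ X.top X.grid (hX.piece a ha) hX.grid hs hθ.le hθa
    (spl_one_le_T hθ hX le_rfl) (S' ∩ (X.π a).S) Finset.inter_subset_right hpa hne t' ht'
  have h4 : hA ((S' ∩ (X.π a).S : Finset (SpC d)) : Set (SpC d)) ⌊prfT D.B s t'⌋₊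
      ≤ hA (S' : Set (SpC d)) ⌊prfT D.B s t⌋₊ := by
    refine (rk_hA_mono_set _ ?_).trans (rk_hA_mono_deg _ ?_)
    · intro x hx
      exact Finset.mem_coe.2 (Finset.mem_inter.1 (Finset.mem_coe.1 hx)).1
    · exact Nat.floor_mono (spl_T_mono hB.le hs.le h2t)
  have h5 : spSigma d D.B s b t * Real.exp (-(d * θ * s)) ≤ (X.π a).sigma D.B s t' := by
    unfold spSigma PrfPiece.sigma
    have e1 : Real.exp (-(d * θ * s)) = ∏ _i ∈ Finset.range d, Real.exp (-(θ * s)) := by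
      rw [Finset.prod_const, Finset.card_range, ← Real.exp_nat_mul]
      congr 1
      ring
    rw [e1, ← Finset.prod_mul_distrib]
    apply Finset.prod_le_prod
    · intro i _
      have h6 : 0 < prfT D.B s t := mul_pos hB (Real.exp_pos _)
      have h7 : 0 < spD D.B s b i := mul_pos hB (Real.exp_pos _)
      have := lt_min h6 h7
      positivity
    · intro i hi
      have hid := Finset.mem_range.1 hi
      rw [min_mul_of_nonneg _ _ (Real.exp_pos _).le]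
      apply min_le_min
      · rw [show -(θ * s) = (-θ) * s by ring, ← spl_T_add]
        exact spl_T_mono hB.le hs.le (by linarith)
      · exact spl_T_tau_ge hθ hX ha hid
  have h8 : (1 : ℝ) / c ≤ Real.exp (ε / 2 * s) := Habs θ s hθ hθb hX.s_ge
  have h9 : ((d : ℝ) ^ 2 + d) * θ ≤ ε / 2 := by
    have hpos : (0 : ℝ) < 2 * ((d : ℝ) ^ 2 + d) + 1 := by positivity
    rw [le_div_iff₀ hpos] at hθc
    nlinarith
  have hσ : 0 ≤ spSigma d D.B s b t := by
    unfold spSigma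
    apply Finset.prod_nonneg
    intro i _
    exact le_min (mul_pos hB (Real.exp_pos _)).le (mul_pos hB (Real.exp_pos _)).le
  have h10 : Real.exp (-(ε * s)) ≤ c * (Real.exp (-(d * θ * s)) * Real.exp (-(d : ℝ) ^ 2 * θ * s)) := by
    have e2 : Real.exp (-(ε / 2 * s)) ≤ c := by
      rw [Real.exp_neg]
      rw [one_div] at h8
      exact inv_le_of_inv_le₀ hc h8
    have e3 : Real.exp (-(ε / 2 * s)) ≤ Real.exp (-(d * θ * s)) * Real.exp (-(d : ℝ) ^ 2 * θ * s) := by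
      rw [← Real.exp_add]
      apply Real.exp_le_exp.2
      nlinarith
    calc Real.exp (-(ε * s)) = Real.exp (-(ε / 2 * s)) * Real.exp (-(ε / 2 * s)) := by
          rw [← Real.exp_add]
          congr 1
          ring
      _ ≤ c * (Real.exp (-(d * θ * s)) * Real.exp (-(d : ℝ) ^ 2 * θ * s)) := by
          gcongr
  calc spSigma d D.B s b t * Real.exp (-(ε * s))
      ≤ spSigma d D.B s b t * (c * (Real.exp (-(d * θ * s)) * Real.exp (-(d : ℝ) ^ 2 * θ * s))) := by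
        gcongr
    _ = c * (spSigma d D.B s b t * Real.exp (-(d * θ * s))) * Real.exp (-(d : ℝ) ^ 2 * θ * s) := by
        ring
    _ ≤ c * (X.π a).sigma D.B s t' * Real.exp (-(d : ℝ) ^ 2 * θ * s) := by gcongr
    _ ≤ (hA ((S' ∩ (X.π a).S : Finset (SpC d)) : Set (SpC d)) ⌊prfT D.B s t'⌋₊ : ℝ) := h3
    _ ≤ (hA (S' : Set (SpC d)) ⌊prfT D.B s t⌋₊ : ℝ) := by exact_mod_cast h4

end Claimed.Agent.R273
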