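import Claimed.Agent.R273.ScsDefs
import Claimed.Agent.R273.SplBudget

/-!
# Row 273, S6b: elementary facts on admissible profiles, non-admissible profiles, the initial interval.  Architect helper177.

* LEAF SCS-ADM0 (`scs_adm_neg`, `scs_adm_pos`, `scs_adm_two`, `scs_adm_le`, `scs_adm_ge`): (prof:balance) from `SpAdm` and `3 ≤ d`.  If `0 ≤ b 0` all `b i ≥ 0`, the sum is `0`, so all vanish, contradicting `imb`; same for `b (d-1) ≤ 0`.
   If `0 ≤ b 0 + b 1` then `b 1 > 0`, `∑ = (b 0 + b 1) + ∑_{2 ≤ i < d} b i ≥ b 2 ≥ b 1 > 0`.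
* LEAF SCS-ADM1 (`scs_not_adm`): a profile which is not admissible has no `θ`-good configuration.  `okY : 𝔠.Y.Ok 𝔠.D 𝔠.s θ b`, a piece `π = 𝔠.Y.π a`:  `|τ_i - b_i| ≤ θ`.  `mono`: `PrfPiece.Ok.mono`, so `b i ≤ b j + 2θ`.  `lo/hi`: `τ_i ∈ grid ⊆ [-1, top]`, `top ≤ 1 + θ`.
   `imb`: `SpPool.Ok.imb`.  `bal`: `prf_balance` (constants `C, κ₀`): `N e^{-θ s} ≤ |S| ≤ ∏ T_s(τ_i) = N e^{s ∑ τ_i}` and `∏ T_s(τ_i) ≤ C |S| e^{2 d² θ s} ≤ C N e^{2 d² θ s}` (`|S| ≤ N`: `sub`, `Finset.card_image_le`), `s ≥ 1/θ`: `|∑ b_i| ≤ (d + 1 + 2 d² + log C) θ`.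
   (`D.B ^ d = D.N`: `Real.rpow_natCast`, `Real.rpow_mul`; `d ≥ 1`, `N ≥ 1`.)  Choose `θ` smaller than the violation.  If helper37's SpLim.lean already has this statement, use it.
* LEAF SCS-BASE (`scs_base`): the initial interval.  `Del = ∅`.  `θ < ρ`, `θ < (b 0 - t)/2` in the first case.  `π = 𝔠.Y.π a` the target piece.  If `F ≠ 0`, `deg F ≤ ⌊T⌋`, vanishes on `spCone p S'`, then `G := F(· - p)` (`aeval (X i - C (p i))`, same degree, `≠ 0`) vanishes on `S'`.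
   Case `t < b 0`: grid time `t₁ ∈ [t, t + θ]`, `t₁ < τ_0`; `nocap` with `j = 0` (`prfSys f 0 = ∅`, `span ∅ = ⊥`, the only carrier is `⊥`, `G ∉ ⊥`): `|S'| ≤ θ |S| < ρ |S|`.  Case `t = -1`: `low` (`1 < T_s(-1) = B e^{-s}` since `s ≤ θ log B`, `B > 1`).
   So the restriction map is injective: `hA = binom(⌊T⌋ + d, d) ≥ ⌊T⌋^d / d! ≥ T^d / (2^d d!)`.  `σ(t) = T^d` (`t ≤ b i`), `T² / B² = e^{2ts} ≤ e^{2 b_0 s}`; so it suffices that `e^{-(-b 0) s} ≤ 1/(2^d d!)`: `s ≥ 1/θ`.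
-/

set_option autoImplicit false

namespace Claimed.Agent.R273

open MvPolynomial Module

variable {d : ℕ}

theorem scs_adm_neg (hd : 3 ≤ d) {b : ℕ → ℝ} (hb : SpAdm d b) : b 0 < 0 := by
  by_contra hcon
  have h0 : 0 ≤ b 0 := not_lt.mp hcon
  have hnn : ∀ i ∈ Finset.range d, 0 ≤ b i := fun i hi =>
    h0.trans (hb.mono 0 i (Nat.zero_le _) (Finset.mem_range.mp hi))
  have hz := (Finset.sum_eq_zero_iff_of_nonneg hnn).mp hb.bal
  have z0 := hz 0 (Finset.mem_range.mpr (by omega))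
  have z1 := hz (d - 1) (Finset.mem_range.mpr (by omega))
  rcases hb.imb with h | h
  · rw [z0] at h; norm_num at h
  · rw [z1] at h; norm_num at h

theorem scs_adm_pos (hd : 3 ≤ d) {b : ℕ → ℝ} (hb : SpAdm d b) : 0 < b (d - 1) := by
  by_contra hcon
  have h0 : b (d - 1) ≤ 0 := not_lt.mp hcon
  have hnn : ∀ i ∈ Finset.range d, b i ≤ 0 := fun i hi =>
    (hb.mono i (d - 1) (by have := Finset.mem_range.mp hi; omega) (by omega)).trans h0
  have hz := (Finset.sum_eq_zero_iff_of_nonpos hnn).mp hb.bal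
  have z0 := hz 0 (Finset.mem_range.mpr (by omega))
  have z1 := hz (d - 1) (Finset.mem_range.mpr (by omega))
  rcases hb.imb with h | h
  · rw [z0] at h; norm_num at h
  · rw [z1] at h; norm_num at h

theorem scs_adm_two (hd : 3 ≤ d) {b : ℕ → ℝ} (hb : SpAdm d b) : b 0 + b 1 < 0 := by
  by_contra hcon
  have h0 : 0 ≤ b 0 + b 1 := not_lt.mp hcon
  have hneg := scs_adm_neg hd hb
  have h1 : 0 < b 1 := by linarith
  have hsplit : ∑ i ∈ Finset.range d, b i
      = ∑ i ∈ Finset.range 2, b i + ∑ i ∈ Finset.Ico 2 d, b i :=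
    (Finset.sum_range_add_sum_Ico b (by omega)).symm
  have hpos : 0 < ∑ i ∈ Finset.Ico 2 d, b i := by
    apply Finset.sum_pos
    · intro i hi
      rw [Finset.mem_Ico] at hi
      exact h1.trans_le (hb.mono 1 i (by omega) hi.2)
    · exact ⟨2, Finset.mem_Ico.mpr ⟨le_refl _, by omega⟩⟩
  have h2 : ∑ i ∈ Finset.range 2, b i = b 0 + b 1 := by
    simp [Finset.sum_range_succ]
  have := hb.bal
  rw [hsplit, h2] at this
  linarith

theorem scs_adm_le {b : ℕ → ℝ} (hb : SpAdm d b) {i : ℕ} (hi : i < d) : b i ≤ 1 :=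
  (hb.mono i (d - 1) (by omega) (by omega)).trans hb.hi

theorem scs_adm_ge {b : ℕ → ℝ} (hb : SpAdm d b) {i : ℕ} (hi : i < d) : -1 ≤ b i :=
  hb.lo.trans (hb.mono 0 i (by omega) hi)

theorem scs_not_adm (hd : 3 ≤ d) (b : ℕ → ℝ) (hb : ¬ SpAdm d b) :
    ∃ θ : ℝ, 0 < θ ∧ ∀ (𝔠 : SpCfg d) (α : ℝ), ¬ 𝔠.Ok b α θ := by
  obtain ⟨θ, hθ, h⟩ := spl_adm (by omega : 1 ≤ d) b hb
  exact ⟨θ, hθ, fun 𝔠 α hok => h 𝔠.D 𝔠.Y 𝔠.s hok.reg hok.okY⟩

/-- full rank when no nonzero polynomial of degree `≤ D` vanishes -/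
theorem scsb_full {n : ℕ} (T : Set (Fin n → ℂ)) (D : ℕ)
    (h : ∀ F : PrfPol n, F ≠ 0 → F.totalDegree ≤ D → ¬ ∀ x ∈ T, eval x F = 0) :
    (n + D).choose D ≤ hA T D := by
  by_contra hlt
  push Not at hlt
  have h1 : rkOn (restrictTotalDegree (Fin n) ℂ D) T <
      finrank ℂ (restrictTotalDegree (Fin n) ℂ D) := by
    rw [rk_finrank_restrict, Fintype.card_fin]
    exact hlt
  obtain ⟨f, hf, hf0, hv⟩ := rk_exists_vanishing _ _ h1
  exact h f hf0 ((mem_restrictTotalDegree _ _ _).1 hf) hv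

/-- translation of a polynomial -/
theorem scsb_shift {n : ℕ} (p : Fin n → ℂ) (F : PrfPol n) (hF : F ≠ 0) :
    ∃ G : PrfPol n, G ≠ 0 ∧ G.totalDegree ≤ F.totalDegree ∧ ∀ y, eval y G = eval (y - p) F := by
  have hev : ∀ y, eval y (aeval (fun i => (X i - C (p i) : PrfPol n)) F) = eval (y - p) F := by
    intro y
    rw [pmb_eval_aeval]
    congr 2
    funext i
    simp
  refine ⟨aeval (fun i => (X i - C (p i) : PrfPol n)) F, ?_, ?_, hev⟩
  · intro h0
    apply hF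
    apply MvPolynomial.funext
    intro z
    have := hev (z + p)
    rw [h0, add_sub_cancel_right] at this
    simpa using this.symm
  · refine rk_totalDegree_aeval_le _ (fun i => ?_) F
    exact (totalDegree_sub_C_le _ _).trans (by rw [totalDegree_X])

/-- the rank inequality on the initial interval, given that nothing of degree `≤ T` vanishes on `S'` -/
theorem scsb_ineq {b : ℕ → ℝ} (hb : SpAdm d b) {B s t : ℝ} (hB : 0 < B) (hs : 0 ≤ s)
    (ht : t ≤ b 0) (hfac : (d.factorial : ℝ) ≤ Real.exp (-b 0 * s))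
    (p : SpC d) (S' : Set (SpC d))
    (hno : ∀ G : PrfPol d, G ≠ 0 → (G.totalDegree : ℝ) ≤ prfT B s t → ¬ ∀ x ∈ S', eval x G = 0) :
    spSigma d B s b t * prfT B s t ^ 2 / B ^ 2 * Real.exp (-b 0 * s)
      ≤ (hA (spCone p S') ⌊prfT B s t⌋₊ : ℝ) := by
  have hT0 : 0 < prfT B s t := by unfold prfT; positivity
  have hsig : spSigma d B s b t = prfT B s t ^ d := by
    unfold spSigma
    rw [← Finset.card_range d, ← Finset.prod_const, Finset.card_range]
    refine Finset.prod_congr rfl fun i hi => ?_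
    refine min_eq_left ?_
    unfold spD prfT
    refine mul_le_mul_of_nonneg_left (Real.exp_le_exp.2 ?_) hB.le
    have : b 0 ≤ b i := hb.mono 0 i (Nat.zero_le _) (Finset.mem_range.1 hi)
    exact mul_le_mul_of_nonneg_right (ht.trans this) hs
  have hfull : (d + ⌊prfT B s t⌋₊).choose ⌊prfT B s t⌋₊ ≤ hA (spCone p S') ⌊prfT B s t⌋₊ := by
    refine scsb_full _ _ ?_
    intro F hF hdeg hvan
    obtain ⟨G, hG0, hGd, hGe⟩ := scsb_shift p F hF
    refine hno G hG0 ?_ ?_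
    · have h1 : (G.totalDegree : ℝ) ≤ (⌊prfT B s t⌋₊ : ℝ) := by exact_mod_cast hGd.trans hdeg
      exact h1.trans (Nat.floor_le hT0.le)
    · intro y hy
      rw [hGe]
      exact hvan _ ⟨y, hy, 1, (one_smul _ _).symm⟩
  have hch : prfT B s t ^ d / (d.factorial : ℝ) ≤
      ((d + ⌊prfT B s t⌋₊).choose ⌊prfT B s t⌋₊ : ℝ) := by
    have h1 := Nat.pow_le_choose (α := ℝ) d (d + ⌊prfT B s t⌋₊)
    rw [Nat.choose_symm_add] at h1
    refine le_trans ?_ h1
    have h2 : d + ⌊prfT B s t⌋₊ + 1 - d = ⌊prfT B s t⌋₊ + 1 := by omega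
    rw [h2]
    have h3 : prfT B s t ≤ ((⌊prfT B s t⌋₊ + 1 : ℕ) : ℝ) := by
      push_cast
      exact (Nat.lt_floor_add_one _).le
    exact div_le_div_of_nonneg_right (pow_le_pow_left₀ hT0.le h3 d) (by positivity)
  have hfac0 : (0 : ℝ) < d.factorial := by positivity
  have hexp : prfT B s t ^ 2 / B ^ 2 * Real.exp (-b 0 * s) ≤ 1 / (d.factorial : ℝ) := by
    have e1 : prfT B s t ^ 2 / B ^ 2 = Real.exp (2 * t * s) := by
      unfold prfT
      rw [mul_pow, mul_div_cancel_left₀ _ (pow_ne_zero 2 hB.ne'), ← Real.exp_nat_mul]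
      congr 1
      push_cast
      ring
    rw [e1, ← Real.exp_add]
    have e2 : 2 * t * s + -b 0 * s ≤ -(-b 0 * s) := by nlinarith
    refine (Real.exp_le_exp.2 e2).trans ?_
    rw [Real.exp_neg, one_div]
    exact inv_anti₀ hfac0 hfac
  calc spSigma d B s b t * prfT B s t ^ 2 / B ^ 2 * Real.exp (-b 0 * s)
      = prfT B s t ^ d * (prfT B s t ^ 2 / B ^ 2 * Real.exp (-b 0 * s)) := by rw [hsig]; ring
    _ ≤ prfT B s t ^ d * (1 / (d.factorial : ℝ)) :=
        mul_le_mul_of_nonneg_left hexp (by positivity)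
    _ = prfT B s t ^ d / (d.factorial : ℝ) := by ring
    _ ≤ _ := hch
    _ ≤ _ := by exact_mod_cast hfull

theorem scs_base (hd : 3 ≤ d) (wide : Bool) (b : ℕ → ℝ) (hb : SpAdm d b) (t : ℝ) (ht1 : -1 ≤ t)
    (ht : t < b 0 ∨ t = -1) : ScsRank d wide b (-b 0) t := by
  intro ρ hρ
  have hb0 : b 0 < 0 := scs_adm_neg hd hb
  have hfac0 : (0 : ℝ) < d.factorial := by positivity
  set gap : ℝ := if t < b 0 then (b 0 - t) / 3 else 1 with hgap
  have hgap0 : 0 < gap := by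
    rw [hgap]
    split_ifs with h
    · linarith
    · norm_num
  set θ : ℝ := min (min (ρ / 2) (1 / 2)) (min (-b 0 / d.factorial) gap) with hθ
  have hθ0 : 0 < θ :=
    lt_min (lt_min (by linarith) (by norm_num)) (lt_min (div_pos (by linarith) hfac0) hgap0)
  have hθ1 : θ ≤ ρ / 2 := (min_le_left _ _).trans (min_le_left _ _)
  have hθ2 : θ ≤ 1 / 2 := (min_le_left _ _).trans (min_le_right _ _)
  have hθ3 : θ ≤ -b 0 / d.factorial := (min_le_right _ _).trans (min_le_left _ _)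
  have hθ4 : θ ≤ gap := (min_le_right _ _).trans (min_le_right _ _)
  refine ⟨θ, hθ0, ?_⟩
  intro 𝔠 α hok hsep _
  refine ⟨(∅ : Finset (SpC d × SpC d)), ?_, ?_⟩
  · rw [Finset.card_empty, Nat.cast_zero]
    exact mul_nonneg (mul_nonneg hρ.le (Nat.cast_nonneg _)) (Nat.cast_nonneg _)
  intro p _ S' hS' hcard _
  obtain ⟨-, -, hsθ, -, a, ha⟩ := hsep
  have hY := hok.okY
  have haI : a ∈ 𝔠.Y.I := by rw [ha]; exact Finset.mem_singleton_self a
  have hpts : 𝔠.Y.pts = (𝔠.Y.π a).S := by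
    unfold SpPool.pts
    rw [ha]
    simp
  have hπ := hY.piece a haI
  have hs1 : 1 / θ ≤ 𝔠.s := hY.s_ge
  have hs0 : 0 < 𝔠.s := lt_of_lt_of_le (by positivity) hs1
  have hB1 : 1 ≤ 𝔠.D.B := hok.reg.one_le_B (by linarith)
  have hB0 : 0 < 𝔠.D.B := by linarith
  have hN1 : 1 ≤ 𝔠.D.N := hok.reg.one_le_N (by linarith)
  have hScard : 0 < ((𝔠.Y.π a).S.card : ℝ) :=
    lt_of_lt_of_le (by positivity) (hY.size a haI)
  have htb : t ≤ b 0 := by
    rcases ht with h | h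
    · exact h.le
    · rw [h]; exact hb.lo
  have hθs : 1 ≤ θ * 𝔠.s := by rwa [div_le_iff₀' hθ0] at hs1
  have hfac : (d.factorial : ℝ) ≤ Real.exp (-b 0 * 𝔠.s) := by
    have h1 : (d.factorial : ℝ) * θ ≤ -b 0 := by rwa [le_div_iff₀' hfac0] at hθ3
    have h2 : (d.factorial : ℝ) ≤ -b 0 * 𝔠.s := by nlinarith
    have h3 := Real.add_one_le_exp (-b 0 * 𝔠.s)
    linarith
  rw [hpts] at hS' hcard
  refine scsb_ineq hb hB0 hs0.le htb hfac p _ ?_
  intro G hG0 hGd hvan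
  have hkey : (S'.card : ℝ) ≤ θ * (𝔠.Y.π a).S.card := by
    rcases ht with h | h
    · obtain ⟨t₁, ht₁, h1, h2⟩ := hY.grid.mesh t ht1 (by linarith [hY.top_ge])
      have hg : gap = (b 0 - t) / 3 := by rw [hgap, if_pos h]
      have hτ0 : t₁ < (𝔠.Y.π a).τ 0 := by
        have := hY.prof a haI 0 (by omega)
        rw [abs_le] at this
        linarith [this.1]
      refine hπ.nocap t₁ ht₁ 0 (Nat.zero_le _) (fun i hi => absurd hi (Nat.not_lt_zero _))
        (fun i _ hi => lt_of_lt_of_le hτ0 (hπ.mono 0 i (Nat.zero_le _) hi)) G ?_ S' hS' ?_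
      · refine hGd.trans ?_
        unfold prfT
        exact mul_le_mul_of_nonneg_left
          (Real.exp_le_exp.2 (mul_le_mul_of_nonneg_right h1 hs0.le)) hB0.le
      · intro x hx
        exact prft_proper_zero _ G hG0 x (hvan x (Finset.mem_coe.2 hx))
    · subst h
      refine hπ.low ?_ G hG0 hGd S' hS' (fun x hx => hvan x (Finset.mem_coe.2 hx))
      have hlog : 𝔠.s < Real.log 𝔠.D.B := by
        have h5 : 0 < Real.log 𝔠.D.B := by
          by_contra hneg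
          push Not at hneg
          nlinarith
        nlinarith
      have h6 : Real.exp 𝔠.s < 𝔠.D.B := (Real.lt_log_iff_exp_lt hB0).1 hlog
      unfold prfT
      have h7 : Real.exp 𝔠.s * Real.exp (-1 * 𝔠.s) = 1 := by
        rw [← Real.exp_add]
        simp
      calc (1 : ℝ) = Real.exp 𝔠.s * Real.exp (-1 * 𝔠.s) := h7.symm
        _ < 𝔠.D.B * Real.exp (-1 * 𝔠.s) := mul_lt_mul_of_pos_right h6 (Real.exp_pos _)
  nlinarith

end Claimed.Agent.R273
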