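import Claimed.Agent.R273.ScsDefs
import Claimed.Agent.R273.PhDim
import Claimed.Agent.R273.PhMap
import Claimed.Agent.R273.RkFlat
import Claimed.Agent.R273.RkMap
import Claimed.Agent.R273.RkCurve
import Claimed.Agent.R273.PmbChart

/-!
# Row 273, package BP-SCS-CONES (helper5): irreducible hypersurfaces, linear images, cones over plane curves.  Prefix `scn_`.

* `scn_zset_eq`, `scn_zset_isVar`: `zset μ = zeroLocus (span {μ})` is an irreducible variety for an irreducible `μ`.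
* `scn_hA_zset_le`: `hA (zset g) D ≤ t binom(D + k, k)` in `k + 1` variables, `deg g ≤ t`.
* `scn_vdeg_zset_le`: `vdeg (zset μ) ≤ t`.
* `scn_image_isVar`, `scn_image_vdim`, `scn_image_vdeg`: images by injective linear maps.
* `scn_cone_list`, `scn_cone_curve`, `scn_cone_family`: the decomposition.
-/

set_option autoImplicit false

namespace Claimed.Agent.R273

open MvPolynomial Module

section hyp

variable {κ : Type*}

theorem scn_zset_eq (μ : MvPolynomial κ ℂ) : zset μ = zeroLocus ℂ (Ideal.span {μ}) := by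
  rw [← ph_Zl_eq_zeroLocus]
  ext x
  simp [zset, Zl]

theorem scn_zset_isVar (μ : MvPolynomial κ ℂ) (hμ : Irreducible μ) : IsVar (zset μ) :=
  ⟨Ideal.span {μ}, (Ideal.span_singleton_prime hμ.ne_zero).mpr hμ.prime, scn_zset_eq μ⟩

variable [Fintype κ]

theorem scn_hA_zset_le {k : ℕ} (hk : Fintype.card κ = k + 1) (g : MvPolynomial κ ℂ) (hg : g ≠ 0) {t : ℕ}
    (ht : g.totalDegree ≤ t) (D : ℕ) : hA (zset g) D ≤ t * (D + k).choose k := by
  rcases le_or_gt t D with htD | htD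
  · have h1 := rk_hA_zset_le g hg ht htD
    have h2 := ph_choose_diff D k t htD
    rw [hk, add_comm (k + 1) (D - t), add_comm (k + 1) D, Nat.choose_symm_add, Nat.choose_symm_add] at h1
    omega
  · have h1 := ph_hA_le_choose (zset g) D
    have h2 := ph_choose_diff D k D le_rfl
    rw [hk, one_mul] at h1
    rw [Nat.sub_self, Nat.zero_add, Nat.choose_self] at h2
    have h3 : 1 ≤ (D + k).choose k := Nat.choose_pos (Nat.le_add_left _ _)
    calc hA (zset g) D ≤ 1 + D * (D + k).choose k := h1.trans h2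
      _ ≤ (D + 1) * (D + k).choose k := by rw [add_mul, one_mul]; omega
      _ ≤ t * (D + k).choose k := Nat.mul_le_mul_right _ htD

theorem scn_vdim_zset {k : ℕ} (hk : Fintype.card κ = k + 1) (μ : MvPolynomial κ ℂ) (hμ : Irreducible μ) :
    vdim (zset μ) = k := by
  rw [scn_zset_eq]
  exact ph_vdim_hypersurface hk μ hμ.prime

theorem scn_vdeg_zset_le {k : ℕ} (hk : Fintype.card κ = k + 1) (μ : MvPolynomial κ ℂ) (hμ : Irreducible μ)
    {t : ℕ} (ht : μ.totalDegree ≤ t) : vdeg (zset μ) ≤ t := by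
  apply Nat.sInf_le
  intro D
  rw [scn_vdim_zset hk μ hμ]
  exact scn_hA_zset_le hk μ hμ.ne_zero ht D

end hyp

section img

variable {ι κ : Type*} [Fintype ι] [Fintype κ]

theorem scn_image_hA (L : (ι → ℂ) →ₗ[ℂ] (κ → ℂ)) (hL : Function.Injective L) (T : Set (ι → ℂ)) :
    hA (L '' T) = hA T := by
  funext D
  have h := rk_hA_map_eq L hL 0 T D
  simpa using h

theorem scn_image_vdim (L : (ι → ℂ) →ₗ[ℂ] (κ → ℂ)) (hL : Function.Injective L) (T : Set (ι → ℂ)) :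
    vdim (L '' T) = vdim T := by
  unfold vdim
  rw [scn_image_hA L hL T]

theorem scn_image_vdeg (L : (ι → ℂ) →ₗ[ℂ] (κ → ℂ)) (hL : Function.Injective L) (T : Set (ι → ℂ)) :
    vdeg (L '' T) = vdeg T := by
  unfold vdeg
  rw [scn_image_vdim L hL T, scn_image_hA L hL T]

theorem scn_image_isVar (L : (ι → ℂ) →ₗ[ℂ] (κ → ℂ)) (hL : Function.Injective L) {V : Set (ι → ℂ)}
    (hV : IsVar V) : IsVar (L '' V) := by
  classical
  obtain ⟨L', hL'⟩ := LinearMap.exists_leftInverse_of_injective L (LinearMap.ker_eq_bot.mpr hL)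
  have hinv : ∀ x, L' (L x) = x := fun x => congrArg (fun φ : (ι → ℂ) →ₗ[ℂ] (ι → ℂ) => φ x) hL'
  have hpm : pmap (affPoly L 0) = L := by
    funext x
    funext j
    simp [pmap, rk_eval_affPoly]
  have h1 := ph_isVar_zcl_image hV (affPoly L 0)
  rw [hpm] at h1
  have h2 : zcl (L '' V) = L '' V := by
    apply Set.Subset.antisymm _ (ph_subset_zcl _)
    intro y hy
    rw [ph_mem_zcl] at hy
    -- `y = L (L' y)`
    have hy1 : L (L' y) = y := by
      funext j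
      have := hy (aeval (affPoly L' 0) (affPoly L 0 j) - X j) (by
        rintro _ ⟨x, _, rfl⟩
        rw [map_sub, rk_eval_aeval_affPoly, rk_eval_affPoly, eval_X]
        simp [hinv])
      rw [map_sub, rk_eval_aeval_affPoly, rk_eval_affPoly, eval_X] at this
      simpa [sub_eq_zero] using this
    refine ⟨L' y, ?_, hy1⟩
    rw [← ph_zcl_of_isVar hV, ph_mem_zcl]
    intro f hf
    have := hy (aeval (affPoly L' 0) f) (by
      rintro _ ⟨x, hx, rfl⟩
      rw [rk_eval_aeval_affPoly]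
      simpa [hinv] using hf x hx)
    rw [rk_eval_aeval_affPoly] at this
    simpa using this
  rwa [h2] at h1

end img

section cone

variable {d : ℕ}

/-- the good families of cones -/
def ScnFam (𝒦 : Finset (Set (SpC d))) : Prop :=
  ∀ γ ∈ 𝒦, IsVar γ ∧ vdim γ = 2 ∧ ∀ w ∈ γ, ∀ a : ℂ, a • w ∈ γ

theorem scn_sum_union_le (f : Set (SpC d) → ℕ) (A B : Finset (Set (SpC d))) [DecidableEq (Set (SpC d))] :
    ∑ γ ∈ A ∪ B, f γ ≤ ∑ γ ∈ A, f γ + ∑ γ ∈ B, f γ := by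
  rw [← Finset.sum_union_inter]
  exact Nat.le_add_right _ _

theorem scn_cone_one (φ : (Fin 3 → ℂ) →ₗ[ℂ] (Fin d → ℂ)) (hφ : Function.Injective φ)
    (μ : MvPolynomial (Fin 3) ℂ) (e : ℕ) (hμ : Irreducible μ) (he : μ.IsHomogeneous e) :
    (IsVar (φ '' zset μ) ∧ vdim (φ '' zset μ) = 2 ∧ ∀ w ∈ φ '' zset μ, ∀ a : ℂ, a • w ∈ φ '' zset μ) ∧
      vdeg (φ '' zset μ) ≤ e := by
  have hc : Fintype.card (Fin 3) = 2 + 1 := by simp
  refine ⟨⟨scn_image_isVar φ hφ (scn_zset_isVar μ hμ), ?_, ?_⟩, ?_⟩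
  · rw [scn_image_vdim φ hφ, scn_vdim_zset hc μ hμ]
  · rintro _ ⟨x, hx, rfl⟩ a
    refine ⟨a • x, ?_, map_smul φ a x⟩
    change eval (a • x) μ = 0
    rw [pmb_homog_eval_smul he, (hx : eval x μ = 0), mul_zero]
  · rw [scn_image_vdeg φ hφ]
    exact scn_vdeg_zset_le hc μ hμ he.totalDegree_le

theorem scn_cone_list (φ : (Fin 3 → ℂ) →ₗ[ℂ] (Fin d → ℂ)) (hφ : Function.Injective φ)
    (l : List (MvPolynomial (Fin 3) ℂ × ℕ)) (hl : ∀ p ∈ l, Irreducible p.1 ∧ p.1.IsHomogeneous p.2) :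
    ∃ 𝒦 : Finset (Set (SpC d)), ScnFam 𝒦 ∧
      (∀ w : SpC d, (∃ x, φ x = w ∧ ∃ p ∈ l, eval x p.1 = 0) ↔ ∃ γ ∈ 𝒦, w ∈ γ) ∧
      ∑ γ ∈ 𝒦, vdeg γ ≤ (l.map Prod.snd).sum := by
  classical
  induction l with
  | nil => exact ⟨∅, fun γ hγ => absurd hγ (Finset.notMem_empty γ), fun w => by simp, by simp⟩
  | cons p l ih =>
    obtain ⟨𝒦, h1, h2, h3⟩ := ih fun q hq => hl q (List.mem_cons_of_mem _ hq)
    obtain ⟨hp1, hp2⟩ := hl p List.mem_cons_self
    obtain ⟨g1, g2⟩ := scn_cone_one φ hφ p.1 p.2 hp1 hp2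
    refine ⟨{φ '' zset p.1} ∪ 𝒦, ?_, ?_, ?_⟩
    · intro γ hγ
      rcases Finset.mem_union.mp hγ with h | h
      · rw [Finset.mem_singleton.mp h]; exact g1
      · exact h1 γ h
    · intro w
      constructor
      · rintro ⟨x, hx, q, hq, hq0⟩
        rcases List.mem_cons.mp hq with rfl | hq
        · exact ⟨_, Finset.mem_union_left _ (Finset.mem_singleton_self _), x, hq0, hx⟩
        · obtain ⟨γ, hγ, hw⟩ := (h2 w).mp ⟨x, hx, q, hq, hq0⟩
          exact ⟨γ, Finset.mem_union_right _ hγ, hw⟩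
      · rintro ⟨γ, hγ, hw⟩
        rcases Finset.mem_union.mp hγ with h | h
        · rw [Finset.mem_singleton.mp h] at hw
          obtain ⟨x, hx, hxw⟩ := hw
          exact ⟨x, hxw, p, List.mem_cons_self, hx⟩
        · obtain ⟨x, hx, q, hq, hq0⟩ := (h2 w).mpr ⟨γ, h, hw⟩
          exact ⟨x, hx, q, List.mem_cons_of_mem _ hq, hq0⟩
    · refine (scn_sum_union_le vdeg _ _).trans ?_
      rw [Finset.sum_singleton, List.map_cons, List.sum_cons]
      exact Nat.add_le_add g2 h3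

theorem scn_cone_curve (c : PCurve d) :
    ∃ 𝒦 : Finset (Set (SpC d)), ScnFam 𝒦 ∧ (∀ w : SpC d, c.Mem w ↔ ∃ γ ∈ 𝒦, w ∈ γ) ∧
      ∑ γ ∈ 𝒦, vdeg γ ≤ c.deg := by
  obtain ⟨l, a, ha, hl, hF, hs⟩ := rk_exists_irred_factors c.hom c.ne
  obtain ⟨𝒦, h1, h2, h3⟩ := scn_cone_list c.φ c.inj l hl
  refine ⟨𝒦, h1, fun w => ?_, hs ▸ h3⟩
  rw [← h2 w]
  unfold PCurve.Mem
  refine exists_congr fun x => and_congr_right fun _ => ?_
  rw [hF, map_mul, eval_C, mul_eq_zero, or_iff_right ha, map_list_prod, List.prod_eq_zero_iff, List.map_map,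
    List.mem_map]
  constructor
  · rintro ⟨p, hp, hp0⟩
    exact ⟨p, hp, hp0⟩
  · rintro ⟨p, hp, hp0⟩
    exact ⟨p, hp, hp0⟩

theorem scn_cone_family (L : List (PCurve d)) :
    ∃ 𝒦 : Finset (Set (SpC d)), ScnFam 𝒦 ∧ (∀ w : SpC d, (∃ c ∈ L, c.Mem w) ↔ ∃ γ ∈ 𝒦, w ∈ γ) ∧
      ∑ γ ∈ 𝒦, vdeg γ ≤ (L.map PCurve.deg).sum := by
  classical
  induction L with
  | nil => exact ⟨∅, fun γ hγ => absurd hγ (Finset.notMem_empty γ), fun w => by simp, by simp⟩
  | cons c L ih =>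
    obtain ⟨𝒦, h1, h2, h3⟩ := ih
    obtain ⟨𝒦', g1, g2, g3⟩ := scn_cone_curve c
    refine ⟨𝒦' ∪ 𝒦, ?_, ?_, ?_⟩
    · intro γ hγ
      rcases Finset.mem_union.mp hγ with h | h
      · exact g1 γ h
      · exact h1 γ h
    · intro w
      constructor
      · rintro ⟨q, hq, hq0⟩
        rcases List.mem_cons.mp hq with rfl | hq
        · obtain ⟨γ, hγ, hw⟩ := (g2 w).mp hq0
          exact ⟨γ, Finset.mem_union_left _ hγ, hw⟩
        · obtain ⟨γ, hγ, hw⟩ := (h2 w).mp ⟨q, hq, hq0⟩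
          exact ⟨γ, Finset.mem_union_right _ hγ, hw⟩
      · rintro ⟨γ, hγ, hw⟩
        rcases Finset.mem_union.mp hγ with h | h
        · exact ⟨c, List.mem_cons_self, (g2 w).mpr ⟨γ, h, hw⟩⟩
        · obtain ⟨q, hq, hq0⟩ := (h2 w).mpr ⟨γ, h, hw⟩
          exact ⟨q, List.mem_cons_of_mem _ hq, hq0⟩
    · refine (scn_sum_union_le vdeg _ _).trans ?_
      rw [List.map_cons, List.sum_cons]
      exact Nat.add_le_add g3 h3

end cone

end Claimed.Agent.R273
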