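-- KEEP
import Claimed.Agent.R273.DepTop

/-!
# Row 273, S6b = sparse-cones.tex l.658-941 (separated windows): DEFINITIONS.  Architect helper177.  Prefix `scs_` / `Scs`.

`ScsRank d wide b c t` = Lemma sc:separated-rank at the fixed time `t` with margin `c`, THETA-FORM, cone normalisation:
for every density `ρ` there is `θ` such that in every `θ`-good separated configuration of the given orientation, after deleting a set `Del` of `≤ ρ |X| |Y|` pairs, for EVERY centre `p` and EVERY set `S'` of `≥ ρ |Y|` retained targets of its row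
  `hA (spCone p S') ⌊T⌋ ≥ σ(t) T² / A · e^{c s}`,  `T = T_s(t)`          (paper: `H_{π_p S'}(T) ≥ σ(t) T / A · e^{c s}`; the affine cone has one more factor `T`).
No "typical centres": a discarded centre has its whole row in `Del`.
`ScsBorrow d wide b j`: the strict rank bound is available, with ONE margin `c`, at times `t' ≤ b_{j-1}` arbitrarily close to `b_{j-1}` ("borrow from just before the cut starting the plateau after `j` cuts").
`ScsOn d wide b j`: the strict rank bound holds with one margin on the whole plateau after `j` cuts.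
-/

set_option autoImplicit false

namespace Claimed.Agent.R273

open MvPolynomial Module

/-- sc:separated-rank at time `t`, margin `c` -/
def ScsRank (d : ℕ) (wide : Bool) (b : ℕ → ℝ) (c t : ℝ) : Prop :=
  ∀ ρ : ℝ, 0 < ρ → ∃ θ : ℝ, 0 < θ ∧ ∀ (𝔠 : SpCfg d) (α : ℝ), 𝔠.Ok b α θ → 𝔠.Sep θ →
    ScOr wide 𝔠 θ →
    ∃ Del : Finset (SpC d × SpC d),
      (Del.card : ℝ) ≤ ρ * (𝔠.X.pts.card : ℝ) * (𝔠.Y.pts.card : ℝ) ∧
      ∀ p ∈ 𝔠.X.pts, ∀ S' ⊆ 𝔠.Y.pts, ρ * (𝔠.Y.pts.card : ℝ) ≤ (S'.card : ℝ) →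
        (∀ q ∈ S', (p, q) ∉ Del) →
        spSigma d 𝔠.D.B 𝔠.s b t * prfT 𝔠.D.B 𝔠.s t ^ 2 / 𝔠.D.B ^ 2 * Real.exp (c * 𝔠.s)
          ≤ (hA (spCone p (S' : Set (SpC d))) ⌊prfT 𝔠.D.B 𝔠.s t⌋₊ : ℝ)

def ScsBorrow (d : ℕ) (wide : Bool) (b : ℕ → ℝ) (j : ℕ) : Prop :=
  ∃ c : ℝ, 0 < c ∧ ∀ ε : ℝ, 0 < ε → ∃ t' : ℝ, -1 ≤ t' ∧ t' ≤ b (j - 1) ∧ b (j - 1) - t' ≤ ε ∧
    ScsRank d wide b c t'

def ScsOn (d : ℕ) (wide : Bool) (b : ℕ → ℝ) (j : ℕ) : Prop :=
  ∃ c : ℝ, 0 < c ∧ ∀ t : ℝ, SpPlat d b j t → ScsRank d wide b c t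

/-- no `θ`-good separated configuration of the given orientation -/
def ScsNone (d : ℕ) (wide : Bool) (b : ℕ → ℝ) (α : ℝ) : Prop :=
  ∃ θ : ℝ, 0 < θ ∧ ∀ 𝔠 : SpCfg d, 𝔠.Ok b α θ → 𝔠.Sep θ → ¬ ScOr wide 𝔠 θ

end Claimed.Agent.R273
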