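-- KEEP
import Claimed.Agent.R273.ScsDefs
import Claimed.Agent.R273.ScsCone

/-!
# Row 273, S6b: PACKAGE BP-SCS-CONES (`scs_cone_decomp`).  Architect helper177; owner of this file: helper5.  (Split off from `ScsLast.lean` by helper161, statement verbatim.)

The directional family `{w | ∃ c ∈ D.C (spRe x), c.Mem w}` is the union of finitely many irreducible `2`-dimensional closed cones of total degree `≤ ∑ deg`.
  For `c` with `deg ≥ 1`: `c.F = ∏ F_i` (irreducible factors, UFD `MvPolynomial (Fin 3) ℂ`), `Z(F_i) ⊆ ℂ³` is `IsVar` (`span {F_i}` prime), `vdim = 2`, `vdeg = deg F_i` (hypersurface: `hA (zset F) D = binom(D+3,3) - binom(D-e+3,3)`, `rk_hA_residual`-type exact formula; Nullstellensatz for the radical ideal `(F_i)`);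
  transport by the injective linear map `c.φ` (`rk_hA_map_eq`: `hA`, hence `vdim`, `vdeg`, are preserved; the image is closed and irreducible: `ph_isVar_zcl_image` + image of a linear injective map is `Zl` of linear equations and pulled back equations).  `deg = 0`: `F` is a nonzero constant, no member.
-/

set_option autoImplicit false

namespace Claimed.Agent.R273

open MvPolynomial Module

variable {d : ℕ}

theorem scs_cone_decomp (D : SpData d) (x : SpC d) :
    ∃ 𝒦 : Finset (Set (SpC d)), (∀ γ ∈ 𝒦, IsVar γ ∧ vdim γ = 2 ∧ ∀ w ∈ γ, ∀ a : ℂ, a • w ∈ γ) ∧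
      (∀ w : SpC d, (∃ c ∈ D.C (spRe x), c.Mem w) ↔ ∃ γ ∈ 𝒦, w ∈ γ) ∧
      ∑ γ ∈ 𝒦, vdeg γ ≤ ((D.C (spRe x)).map PCurve.deg).sum :=
  scn_cone_family (D.C (spRe x))

end Claimed.Agent.R273
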