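import Claimed.Agent.R273.ScsDefs
import Claimed.Agent.R273.RkFlat
import Claimed.Agent.R273.RkMap

/-!
# Row 273, S6b: the row upper bound (sc:row-upper) and the contradiction when the strict margin reaches the last endpoint.  Architect helper177.

* LEAF SCS-UP (`scs_row_up`).  `spCone x S' ⊆ ⋃_c M_c`, `M_c := c.φ '' Z(c.F)` (if `q - x = φ u`, `F(u) = 0` then `λ (q - x) = φ (λ u)`, `F(λ u) = λ^{deg} F(u) = 0`).  `hA M_c T ≤ hA (zset c.F) T` (`rk_hA_map_le`), `≤ binom(T+3,3) - binom(T-e+3,3) ≤ e binom(T+2,2)` (`rk_hA_zset_le`; for `T < e` use `rk_hA_le_choose`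
   and `binom(T+3,3) ≤ (T+1) binom(T+2,2)`); compare `prf_core`.  Subadditivity: `rk_rkOn_biUnion_le` / `rk_hA_union_le`, induction on the list.
* LEAF SCS-STRICT (`scs_strict_final`).  `c` from `ScsBorrow d wide b d`; `t'` with `b_{d-1} - t' ≤ c/(4d)`; `ρ := α/4`; `θ ≤ θ_rank`, small.  `|Γ \ Del| ≥ (3α/4)|X||Y|`, so some row `p` has `S' := {q | (p,q) ∈ Γ \ Del}` with `|S'| ≥ (3α/4)|Y|` (pigeonhole over `p ∈ X.pts`).
   Lower bound `σ(t') T²/B² e^{cs}`, `σ(t') ≥ ∏ T_s(b_i) e^{-(c/4) s} = N e^{-(c/4)s}` (`SpAdm.bal`).  Upper bound `scs_row_up` + `SpData.Reg.deg`: `≤ E binom(⌊T⌋+2, 2) ≤ δ (N/B²) (T+2)²`, `dA P = B²`, `δ ≤ 1`, `T ≥ 1` (`T_s(-1) ≥ 1`): `(T+2)² ≤ 9 T²`.  Contradiction as soon as `e^{(3c/4) s} > 9`.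
-/

set_option autoImplicit false

namespace Claimed.Agent.R273

open MvPolynomial Module

variable {d : ℕ}

/-- telescoping of binomial coefficients -/
theorem scs_choose_tel (T e : ℕ) (he : e ≤ T) :
    (3 + T).choose T ≤ (3 + (T - e)).choose (T - e) + e * (T + 2).choose 2 := by
  have key : ∀ n : ℕ, (3 + (n + 1)).choose (n + 1) = (3 + n).choose n + (n + 3).choose 2 := by
    intro n
    have h1 : (3 + (n + 1)).choose (n + 1) = (n + 4).choose 3 := by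
      rw [show 3 + (n + 1) = n + 4 by ring]
      exact Nat.choose_symm_of_eq_add (by ring)
    have h2 : (3 + n).choose n = (n + 3).choose 3 := by
      rw [show 3 + n = n + 3 by ring]
      exact Nat.choose_symm_of_eq_add (by ring)
    rw [h1, h2, Nat.choose_succ_succ' (n + 3) 2, add_comm]
  induction e with
  | zero => simp
  | succ e ih =>
    have h1 := ih (by omega)
    obtain ⟨n, hn⟩ : ∃ n, T - e = n + 1 := ⟨T - e - 1, by omega⟩
    have h2 : T - (e + 1) = n := by omega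
    rw [hn, key n] at h1
    rw [h2]
    have h3 : (n + 3).choose 2 ≤ (T + 2).choose 2 := Nat.choose_le_choose 2 (by omega)
    nlinarith

theorem scs_zset_le (F : MvPolynomial (Fin 3) ℂ) (hF : F ≠ 0) (e : ℕ) (he : F.totalDegree ≤ e) (T : ℕ) :
    hA (zset F) T ≤ e * (T + 2).choose 2 := by
  rcases le_or_gt e T with h | h
  · have h1 := rk_hA_zset_le F hF he h
    have h2 := scs_choose_tel T e h
    simp only [Fintype.card_fin] at h1
    omega
  · have h1 := rk_hA_le_choose (zset F) T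
    have h2 := scs_choose_tel T T le_rfl
    simp only [Fintype.card_fin] at h1
    simp only [Nat.sub_self, Nat.choose_zero_right] at h2
    have h3 : 1 ≤ (T + 2).choose 2 := Nat.choose_pos (by omega)
    have h4 : (T + 1) * (T + 2).choose 2 ≤ e * (T + 2).choose 2 := Nat.mul_le_mul_right _ h
    nlinarith

theorem scs_curve_le (c : PCurve d) (T : ℕ) :
    hA (c.φ '' zset c.F) T ≤ c.deg * (T + 2).choose 2 := by
  have h1 := rk_hA_map_le c.φ 0 (zset c.F) T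
  simp only [add_zero] at h1
  exact h1.trans (scs_zset_le c.F c.ne c.deg c.hom.totalDegree_le T)

theorem scs_list_le (l : List (PCurve d)) (T : ℕ) :
    hA {w : SpC d | ∃ c ∈ l, w ∈ c.φ '' zset c.F} T ≤ (l.map PCurve.deg).sum * (T + 2).choose 2 := by
  induction l with
  | nil =>
    have : {w : SpC d | ∃ c ∈ ([] : List (PCurve d)), w ∈ c.φ '' zset c.F} = ∅ := by
      ext w; simp
    rw [this]
    simp [hA, rk_rkOn_empty]
  | cons c l ih =>
    have : {w : SpC d | ∃ c' ∈ c :: l, w ∈ c'.φ '' zset c'.F}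
        = (c.φ '' zset c.F) ∪ {w : SpC d | ∃ c' ∈ l, w ∈ c'.φ '' zset c'.F} := by
      ext w
      simp only [List.mem_cons, exists_eq_or_imp, Set.mem_union]
      rfl
    rw [this, List.map_cons, List.sum_cons, add_mul]
    exact (rk_hA_union_le _ _ _).trans (add_le_add (scs_curve_le c T) ih)

/-- (sc:row-upper), cone form -/
theorem scs_row_up (D : SpData d) (x : SpC d) (S' : Set (SpC d)) (h : ∀ q ∈ S', D.Cov x q)
    (T : ℕ) :
    hA (spCone x S') T ≤ ((D.C (spRe x)).map PCurve.deg).sum * (T + 2).choose 2 := by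
  refine (rk_hA_mono_set T ?_).trans (scs_list_le (D.C (spRe x)) T)
  rintro w ⟨y, hy, lam, rfl⟩
  obtain ⟨c, hc, u, hu, hF⟩ := h y hy
  refine ⟨c, hc, lam • u, ?_, ?_⟩
  · change eval (lam • u) c.F = 0
    rw [pmb_homog_eval_smul c.hom, hF, mul_zero]
  · rw [map_smul, hu]

open scoped Classical in
/-- pigeonhole over the rows of a dense graph -/
theorem scs_pigeon_row {α β : Type*} (X : Finset α) (Y : Finset β) (G : Finset (α × β))
    (hG : G ⊆ X ×ˢ Y) (ρ : ℝ) (h : ρ * X.card * Y.card < G.card) :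
    ∃ p ∈ X, ∃ S' ⊆ Y, (∀ q ∈ S', (p, q) ∈ G) ∧ ρ * Y.card ≤ (S'.card : ℝ) := by
  suffices hs : ∃ p ∈ X, ρ * Y.card ≤ ((Y.filter fun q => (p, q) ∈ G).card : ℝ) by
    obtain ⟨p, hp, h1⟩ := hs
    exact ⟨p, hp, _, Finset.filter_subset _ _, fun q hq => (Finset.mem_filter.1 hq).2, h1⟩
  by_contra hcon
  push Not at hcon
  have hsub : G ⊆ X.biUnion fun p => (Y.filter fun q => (p, q) ∈ G).image (Prod.mk p) := by
    intro z hz
    have h1 := Finset.mem_product.1 (hG hz)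
    refine Finset.mem_biUnion.2 ⟨z.1, h1.1, Finset.mem_image.2 ⟨z.2, ?_, rfl⟩⟩
    exact Finset.mem_filter.2 ⟨h1.2, hz⟩
  have h1 : G.card ≤ ∑ p ∈ X, (Y.filter fun q => (p, q) ∈ G).card :=
    (Finset.card_le_card hsub).trans (Finset.card_biUnion_le.trans
      (Finset.sum_le_sum fun p _ => Finset.card_image_le))
  have h2 : (G.card : ℝ) ≤ ∑ p ∈ X, ((Y.filter fun q => (p, q) ∈ G).card : ℝ) := by
    exact_mod_cast h1
  have h3 : ∑ p ∈ X, ((Y.filter fun q => (p, q) ∈ G).card : ℝ) ≤ ∑ _p ∈ X, ρ * Y.card :=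
    Finset.sum_le_sum fun p hp => (hcon p hp).le
  rw [Finset.sum_const, nsmul_eq_mul] at h3
  nlinarith

/-- `σ(t') ≥ B^d e^{-d κ s}` when all `b_i ≤ t' + κ` -/
theorem scs_sigma_ge (b : ℕ → ℝ) (hbal : ∑ i ∈ Finset.range d, b i = 0) (B s t' κ : ℝ)
    (hB : 0 < B) (hs : 0 ≤ s) (hκ : 0 ≤ κ) (hb : ∀ i < d, b i - t' ≤ κ) :
    B ^ d * Real.exp (-(κ * s)) ^ d ≤ spSigma d B s b t' := by
  have h1 : B ^ d * Real.exp (-(κ * s)) ^ d
      = ∏ i ∈ Finset.range d, prfT B s (b i) * Real.exp (-(κ * s)) := by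
    rw [Finset.prod_mul_distrib, Finset.prod_const, Finset.card_range]
    congr 1
    unfold prfT
    rw [Finset.prod_mul_distrib, Finset.prod_const, Finset.card_range, ← Real.exp_sum,
      ← Finset.sum_mul, hbal, zero_mul, Real.exp_zero, mul_one]
  rw [h1]
  unfold spSigma
  apply Finset.prod_le_prod
  · intro i _
    unfold prfT; positivity
  · intro i hi
    have hid : i < d := Finset.mem_range.1 hi
    apply le_min
    · unfold prfT
      rw [mul_assoc, ← Real.exp_add]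
      apply mul_le_mul_of_nonneg_left _ hB.le
      apply Real.exp_le_exp.2
      have := hb i hid
      nlinarith
    · unfold spD prfT
      rw [mul_assoc, ← Real.exp_add]
      apply mul_le_mul_of_nonneg_left _ hB.le
      apply Real.exp_le_exp.2
      have : 0 ≤ κ * s := by positivity
      linarith

theorem scs_choose_le (T : ℝ) (hT : 1 ≤ T) : (((⌊T⌋₊ + 2).choose 2 : ℕ) : ℝ) ≤ 9 * T ^ 2 := by
  rw [Nat.cast_choose_two]
  have h1 : ((⌊T⌋₊ : ℕ) : ℝ) ≤ T := Nat.floor_le (by linarith)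
  have h0 : (0 : ℝ) ≤ ((⌊T⌋₊ : ℕ) : ℝ) := Nat.cast_nonneg _
  push_cast
  nlinarith

/-- the final numerical contradiction -/
theorem scs_final_num {N σ T B H Sd Ch δ c s : ℝ} (hN : 0 < N) (hB : 0 < B) (hT : 0 < T)
    (hσ : N * Real.exp (-(c / 4 * s)) ≤ σ) (hlow : σ * T ^ 2 / B ^ 2 * Real.exp (c * s) ≤ H)
    (hup : H ≤ Sd * Ch) (hSd : Sd ≤ δ * N / B ^ 2) (hCh0 : 0 ≤ Ch) (hCh : Ch ≤ 9 * T ^ 2)
    (hδ0 : 0 < δ) (hδ : δ ≤ 1) (hs : 9 ≤ 3 * c / 4 * s) : False := by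
  have hW : 0 < N * T ^ 2 / B ^ 2 := by positivity
  have h1 : N * Real.exp (-(c / 4 * s)) * T ^ 2 / B ^ 2 * Real.exp (c * s)
      ≤ σ * T ^ 2 / B ^ 2 * Real.exp (c * s) := by gcongr
  have h2 : N * Real.exp (-(c / 4 * s)) * T ^ 2 / B ^ 2 * Real.exp (c * s)
      = N * T ^ 2 / B ^ 2 * Real.exp (3 * c / 4 * s) := by
    have : Real.exp (3 * c / 4 * s) = Real.exp (-(c / 4 * s)) * Real.exp (c * s) := by
      rw [← Real.exp_add]; congr 1; ring
    rw [this]; ring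
  have h3 : Sd * Ch ≤ (δ * N / B ^ 2) * (9 * T ^ 2) :=
    mul_le_mul hSd hCh hCh0 (by positivity)
  have h4 : (δ * N / B ^ 2) * (9 * T ^ 2) ≤ N * T ^ 2 / B ^ 2 * 9 := by
    have : (δ * N / B ^ 2) * (9 * T ^ 2) = δ * (N * T ^ 2 / B ^ 2 * 9) := by ring
    rw [this]
    have h5 : 0 ≤ N * T ^ 2 / B ^ 2 * 9 := by positivity
    nlinarith
  have h6 : N * T ^ 2 / B ^ 2 * Real.exp (3 * c / 4 * s) ≤ N * T ^ 2 / B ^ 2 * 9 := by
    rw [← h2]
    exact h1.trans (hlow.trans (hup.trans (h3.trans h4)))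
  have h7 : Real.exp (3 * c / 4 * s) ≤ 9 := le_of_mul_le_mul_left h6 hW
  have := Real.add_one_le_exp (3 * c / 4 * s)
  linarith

theorem scs_strict_final (hd : 3 ≤ d) (wide : Bool) (b : ℕ → ℝ) (hb : SpAdm d b)
    (hbor : ScsBorrow d wide b d) (α : ℝ) (hα : 0 < α) : ScsNone d wide b α := by
  classical
  obtain ⟨c, hc, hbor⟩ := hbor
  have hd0 : (0 : ℝ) < d := by
    have : 0 < d := by omega
    exact_mod_cast this
  obtain ⟨t', ht1, ht2, ht3, hrank⟩ := hbor (c / (4 * d)) (by positivity)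
  obtain ⟨θ₀, hθ₀, hrank⟩ := hrank (α / 4) (by positivity)
  set θ : ℝ := min θ₀ (min 1 (c / 12)) with hθdef
  have hθ : 0 < θ := by rw [hθdef]; positivity
  have hθθ₀ : θ ≤ θ₀ := min_le_left _ _
  have hθ1 : θ ≤ 1 := (min_le_right _ _).trans (min_le_left _ _)
  have hθc : θ ≤ c / 12 := (min_le_right _ _).trans (min_le_right _ _)
  refine ⟨θ, hθ, ?_⟩
  intro 𝔠 hok hsep hor
  have hv0 : 0 ≤ 𝔠.v := le_trans (by positivity) hok.okX.s_ge
  have hs0 : 0 < 𝔠.s := lt_of_lt_of_le (by positivity) hok.okY.s_ge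
  have hor' : ScOr wide 𝔠 θ₀ :=
    ⟨fun hw => (hor.1 hw).trans (mul_le_mul_of_nonneg_right hθθ₀ hv0),
      fun hw => (hor.2 hw).trans (mul_le_mul_of_nonneg_right hθθ₀ hs0.le)⟩
  obtain ⟨Del, hDel, hlow⟩ := hrank 𝔠 α (hok.mono hθ hθθ₀ hθ1) (hsep.mono hok hθ hθθ₀) hor'
  have hN1 : 1 ≤ 𝔠.D.N := hok.reg.one_le_N hθ1
  have hN0 : 0 < 𝔠.D.N := by linarith
  have hB1 : 1 ≤ 𝔠.D.B := hok.reg.one_le_B hθ1
  have hB0 : 0 < 𝔠.D.B := by linarith
  -- the pools are not empty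
  have hpos : ∀ (X : SpPool d) (s : ℝ), X.Ok 𝔠.D s θ b → (0 : ℝ) < X.pts.card := by
    intro X s hX
    obtain ⟨a, ha⟩ := hX.ne
    have h1 : (0 : ℝ) < ((X.π a).S.card : ℝ) :=
      lt_of_lt_of_le (by positivity) (hX.size a ha)
    have h2 : (X.π a).S ⊆ X.pts := by
      unfold SpPool.pts
      exact Finset.subset_biUnion_of_mem (fun a => (X.π a).S) ha
    have h3 : ((X.π a).S.card : ℝ) ≤ X.pts.card := by exact_mod_cast Finset.card_le_card h2
    linarith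
  have hXpos := hpos 𝔠.X 𝔠.v hok.okX
  have hYpos := hpos 𝔠.Y 𝔠.s hok.okY
  -- a dense row
  have hcard : (𝔠.Γ.card : ℝ) ≤ ((𝔠.Γ \ Del).card : ℝ) + Del.card := by
    have := Finset.card_le_card_sdiff_add_card (s := 𝔠.Γ) (t := Del)
    exact_mod_cast this
  have hdense : α / 4 * (𝔠.X.pts.card : ℝ) * (𝔠.Y.pts.card : ℝ) < ((𝔠.Γ \ Del).card : ℝ) := by
    have h1 := hok.dense
    have h2 : 0 < α * (𝔠.X.pts.card : ℝ) * (𝔠.Y.pts.card : ℝ) := by positivity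
    nlinarith
  obtain ⟨p, hp, S', hS'Y, hS'G, hrow⟩ := scs_pigeon_row 𝔠.X.pts 𝔠.Y.pts (𝔠.Γ \ Del)
    (Finset.sdiff_subset.trans hok.sub) (α / 4) hdense
  have hlow' := hlow p hp S' hS'Y hrow (fun q hq => (Finset.mem_sdiff.1 (hS'G q hq)).2)
  have hup := scs_row_up 𝔠.D p (S' : Set (SpC d))
    (fun q hq => hok.cov (p, q) (Finset.mem_sdiff.1 (hS'G q (Finset.mem_coe.1 hq))).1)
    ⌊prfT 𝔠.D.B 𝔠.s t'⌋₊
  have hupR : (hA (spCone p (S' : Set (SpC d))) ⌊prfT 𝔠.D.B 𝔠.s t'⌋₊ : ℝ)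
      ≤ ((((𝔠.D.C (spRe p)).map PCurve.deg).sum : ℕ) : ℝ)
        * (((⌊prfT 𝔠.D.B 𝔠.s t'⌋₊ + 2).choose 2 : ℕ) : ℝ) := by
    exact_mod_cast hup
  -- the centre is a sample point
  have hpP : spRe p ∈ 𝔠.D.P := by
    obtain ⟨a, ha, hpa⟩ := Finset.mem_biUnion.1 hp
    have := hok.okX.sub a ha hpa
    obtain ⟨p₀, hp₀, rfl⟩ := Finset.mem_image.1 this
    rw [sp_re_pt]; exact hp₀
  have hA2 : dA 𝔠.D.P = 𝔠.D.B ^ 2 := by
    unfold dA SpData.B SpData.N
    rw [← Real.rpow_natCast, ← Real.rpow_mul (by positivity)]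
    congr 1
    push_cast; ring
  have hSd : ((((𝔠.D.C (spRe p)).map PCurve.deg).sum : ℕ) : ℝ) ≤ 𝔠.D.δ * 𝔠.D.N / 𝔠.D.B ^ 2 := by
    have := hok.reg.deg (spRe p) hpP
    unfold SpData.E at this
    rwa [hA2] at this
  have hNB : 𝔠.D.B ^ d = 𝔠.D.N := by
    unfold SpData.B
    rw [one_div, Real.rpow_inv_natCast_pow (by unfold SpData.N; positivity) (by omega)]
  -- `T ≥ 1`
  have hT1 : 1 ≤ prfT 𝔠.D.B 𝔠.s t' := by
    unfold prfT
    have h1 : 𝔠.D.B = Real.exp (Real.log 𝔠.D.B) := (Real.exp_log hB0).symm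
    rw [h1, ← Real.exp_add]
    apply Real.one_le_exp
    have := hok.okY.s_le
    nlinarith
  have hσ : 𝔠.D.N * Real.exp (-(c / 4 * 𝔠.s)) ≤ spSigma d 𝔠.D.B 𝔠.s b t' := by
    have h1 := scs_sigma_ge b hb.bal 𝔠.D.B 𝔠.s t' (c / (4 * d)) hB0 hs0.le (by positivity)
      (fun i hi => by
        have := hb.mono i (d - 1) (by omega) (by omega)
        linarith)
    rw [hNB, ← Real.exp_nat_mul] at h1
    have h2 : (d : ℝ) * -(c / (4 * d) * 𝔠.s) = -(c / 4 * 𝔠.s) := by field_simp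
    rwa [h2] at h1
  have hs9 : 9 ≤ 3 * c / 4 * 𝔠.s := by
    have h1 : 1 ≤ θ * 𝔠.s := by
      have := hok.okY.s_ge
      rw [div_le_iff₀ hθ] at this; linarith
    have h2 : θ * 𝔠.s ≤ c / 12 * 𝔠.s := mul_le_mul_of_nonneg_right hθc hs0.le
    linarith
  exact scs_final_num hN0 hB0 (by linarith) hσ hlow' hupR hSd (Nat.cast_nonneg _)
    (scs_choose_le _ hT1) hok.reg.pos (hok.reg.le.trans hθ1) hs9

end Claimed.Agent.R273
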