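import Claimed.Agent.R273.ScsCones
import Claimed.Agent.R273.PrfFacts
import Claimed.Agent.R273.SpImg

/-!
# Row 273, S6b, BP-SCS-LAST, part A: the FINITE algebraic geometry of one row (no `θ`, no sample).  Architect helper161.  Prefix `scsl_` / `Scsl`.

`K ⊆ ℂ^d` a cone (the directional family of one centre), `scslSys K T` the system of its degree-`T` envelope, `scslFam K T m` ALL components of dimension `m` of that system.
* `scsl_hom_mem`     : the system is closed under homogeneous components;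
* `scsl_comp_cone`   : the components of the envelope of a cone are cones (minimal primes of a homogeneous ideal are homogeneous: `Ideal.IsPrime.homogeneousCore`);
* `scsl_pull`        : a polynomial `F` which does not vanish on `spCone p Z(𝔶)` has a homogeneous component `F_k` with `F_k(· - p) ∉ 𝔶`;
* `scsl_env_cut`     : (L3) individual cuts for the carriers whose cone is not in the envelope;
* `scsl_test_cut`    : (L7) individual cuts for the test polynomial `g`;
* `scsl_large_hA`    : (L1) Hilbert bounds for the group of dimension `m`;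
* `scsl_family_deg`  : (L2) `deg 𝓕 ≤ (d+1)^d E₀`;
* `scsl_in_fam`      : (L4) an irreducible `2`-dimensional subset of the envelope through a point which is not large is a member of `𝓕`;
* `scsl_survivor`    : (L8) uniqueness of the member of `𝓕` through a point of full Jacobian rank.
-/

set_option autoImplicit false

namespace Claimed.Agent.R273

open MvPolynomial Module

variable {d : ℕ}

/-- a cone with apex `0` -/
def ScslCone (K : Set (SpC d)) : Prop := ∀ w ∈ K, ∀ a : ℂ, a • w ∈ K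

/-- the system of the degree-`T` envelope -/
def scslSys (K : Set (SpC d)) (T : ℕ) : Set (PrfPol d) :=
  {f | f.totalDegree ≤ T ∧ ∀ x ∈ K, eval x f = 0}

theorem scsl_env_eq (K : Set (SpC d)) (T : ℕ) : Env K T = Zl (scslSys K T) := rfl

theorem scsl_sys_deg (K : Set (SpC d)) (T : ℕ) : ∀ g ∈ scslSys K T, g.totalDegree ≤ T :=
  fun _ hg => hg.1

/-- ALL components of dimension `m` of the envelope -/
noncomputable def scslFam (K : Set (SpC d)) (T m : ℕ) : Finset (Set (SpC d)) := by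
  classical exact (ph_comps_finite (scslSys K T)).toFinset.filter fun W => vdim W = m

theorem scsl_mem_fam {K : Set (SpC d)} {T m : ℕ} {W : Set (SpC d)} :
    W ∈ scslFam K T m ↔ IsCompOf W (scslSys K T) ∧ vdim W = m := by
  classical
  simp [scslFam]

theorem scsl_cone_eq {K : Set (SpC d)} (hK : ScslCone K) : spCone 0 K = K := by
  ext w
  constructor
  · rintro ⟨y, hy, lam, rfl⟩
    rw [sub_zero]
    exact hK y hy lam
  · intro hw
    exact ⟨w, hw, 1, by simp⟩

theorem scsl_cone_biUnion (𝒦 : Finset (Set (SpC d))) (h : ∀ γ ∈ 𝒦, ScslCone γ) :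
    ScslCone (⋃ γ ∈ 𝒦, γ) := by
  intro w hw a
  simp only [Set.mem_iUnion, exists_prop] at hw ⊢
  obtain ⟨γ, hγ, hwγ⟩ := hw
  exact ⟨γ, hγ, h γ hγ w hwγ a⟩

theorem scsl_dcone_cone (p : SpC d) (Y : Set (SpC d)) : ScslCone (dcone p Y) :=
  fun _ hw a => dep_dcone_smul p Y hw a

theorem scsl_homComp_deg (F : PrfPol d) (k : ℕ) :
    (homogeneousComponent k F).totalDegree ≤ F.totalDegree := by
  by_cases hk : F.totalDegree < k
  · rw [homogeneousComponent_eq_zero k F hk]
    simp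
  · exact ((homogeneousComponent_isHomogeneous k F).totalDegree_le).trans (not_lt.mp hk)

/-- the system of the envelope of a cone is closed under homogeneous components -/
theorem scsl_hom_mem {K : Set (SpC d)} (hK : ScslCone K) {T : ℕ} {F : PrfPol d}
    (hF : F ∈ scslSys K T) (k : ℕ) : homogeneousComponent k F ∈ scslSys K T := by
  refine ⟨(scsl_homComp_deg F k).trans hF.1, ?_⟩
  have := dep_dcone_hom 0 K F (by rw [scsl_cone_eq hK]; exact hF.2) k
  rwa [scsl_cone_eq hK] at this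

/-! ### components of the envelope of a cone are cones -/
attribute [local instance] MvPolynomial.gradedAlgebra

theorem scsl_span_hom {K : Set (SpC d)} (hK : ScslCone K) (T : ℕ) :
    (Ideal.span (scslSys K T)).IsHomogeneous (homogeneousSubmodule (Fin d) ℂ) := by
  have h : Ideal.span (scslSys K T) =
      Ideal.span {f | f ∈ scslSys K T ∧ ∃ k, f.IsHomogeneous k} := by
    apply le_antisymm
    · rw [Ideal.span_le]
      intro F hF
      rw [← sum_homogeneousComponent F]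
      exact Ideal.sum_mem _ fun k _ => Ideal.subset_span
        ⟨scsl_hom_mem hK hF k, k, homogeneousComponent_isHomogeneous k F⟩
    · exact Ideal.span_mono fun f hf => hf.1
  rw [h]
  apply Ideal.homogeneous_span
  rintro f ⟨-, k, hk⟩
  exact ⟨k, hk⟩

theorem scsl_zero_cone {I : Ideal (PrfPol d)}
    (hI : I.IsHomogeneous (homogeneousSubmodule (Fin d) ℂ)) : ScslCone (zeroLocus ℂ I) := by
  intro w hw a
  rw [ph_mem_zeroLocus] at hw ⊢
  intro f hf
  rw [← sum_homogeneousComponent f, map_sum]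
  apply Finset.sum_eq_zero
  intro k _
  have h1 : homogeneousComponent k f ∈ I := by
    have := hI k hf
    rwa [show ((DirectSum.decompose (homogeneousSubmodule (Fin d) ℂ) f k : _) : PrfPol d)
      = homogeneousComponent k f from decomposition.decompose'_apply f k] at this
  rw [pmb_homog_eval_smul (homogeneousComponent_isHomogeneous k f) a w, hw _ h1, mul_zero]

theorem scsl_comp_cone {K : Set (SpC d)} (hK : ScslCone K) (T : ℕ) {W : Set (SpC d)}
    (hW : IsCompOf W (scslSys K T)) : ScslCone W := by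
  obtain ⟨p, hp, rfl⟩ := hW
  apply scsl_zero_cone
  have hI := scsl_span_hom hK T
  have hpr : (p.homogeneousCore (homogeneousSubmodule (Fin d) ℂ)).toIdeal.IsPrime :=
    Ideal.IsPrime.homogeneousCore hp.1.1
  have hle : Ideal.span (scslSys K T) ≤
      (p.homogeneousCore (homogeneousSubmodule (Fin d) ℂ)).toIdeal :=
    hI.toIdeal_homogeneousCore_eq_self.symm.trans_le (Ideal.homogeneousCore_mono _ hp.1.2)
  have h2 := hp.2 ⟨hpr, hle⟩ (Ideal.toIdeal_homogeneousCore_le _ p)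
  have h3 : (p.homogeneousCore (homogeneousSubmodule (Fin d) ℂ)).toIdeal = p :=
    le_antisymm (Ideal.toIdeal_homogeneousCore_le _ p) h2
  rw [← h3]
  exact (p.homogeneousCore (homogeneousSubmodule (Fin d) ℂ)).isHomogeneous

/-! ### individual cuts -/

/-- the pull back `F(· - p)` -/
noncomputable def scslSh (p : SpC d) (F : PrfPol d) : PrfPol d :=
  aeval (fun i => C 1 * (X i - C (p i)) : Fin d → PrfPol d) F

theorem scsl_eval_sh (p q : SpC d) (F : PrfPol d) : eval q (scslSh p F) = eval (q - p) F := by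
  unfold scslSh
  rw [dep_eval_scale, one_smul]

theorem scsl_sh_deg (p : SpC d) (F : PrfPol d) : (scslSh p F).totalDegree ≤ F.totalDegree := by
  unfold scslSh
  have := ph_totalDegree_aeval_le_mul (fun i => C 1 * (X i - C (p i)) : Fin d → PrfPol d) 1
    (fun i => by
      refine (totalDegree_mul _ _).trans ?_
      rw [totalDegree_C, zero_add]
      refine (totalDegree_sub _ _).trans ?_
      rw [totalDegree_C]
      simp [totalDegree_X]) F
  simpa using this

/-- a polynomial which does not vanish on the cone over `Z(𝔶)` has a homogeneous component whose pull back is not in `𝔶` -/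
theorem scsl_pull (p : SpC d) (𝔶 : Ideal (PrfPol d)) (F : PrfPol d)
    (h : ∃ w ∈ dcone p (zeroLocus ℂ 𝔶), eval w F ≠ 0) :
    ∃ k : ℕ, scslSh p (homogeneousComponent k F) ∉ 𝔶 := by
  have h1 : ∃ w ∈ spCone p (zeroLocus ℂ 𝔶), eval w F ≠ 0 := by
    by_contra hcon
    push Not at hcon
    obtain ⟨w, hw, hwF⟩ := h
    unfold dcone at hw
    rw [ph_mem_zcl] at hw
    exact hwF (hw F hcon)
  obtain ⟨w, ⟨y, hy, lam, rfl⟩, hwF⟩ := h1
  have h2 : ∃ k, eval (lam • (y - p)) (homogeneousComponent k F) ≠ 0 := by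
    by_contra hcon
    push Not at hcon
    apply hwF
    rw [← sum_homogeneousComponent F, map_sum]
    exact Finset.sum_eq_zero fun k _ => hcon k
  obtain ⟨k, hk⟩ := h2
  refine ⟨k, fun hmem => hk ?_⟩
  rw [pmb_homog_eval_smul (homogeneousComponent_isHomogeneous k F), ← scsl_eval_sh,
    (ph_mem_zeroLocus 𝔶 y).mp hy _ hmem, mul_zero]

/-- (L3) individual cuts: carriers whose cone is not contained in the envelope -/
theorem scsl_env_cut {K : Set (SpC d)} (hK : ScslCone K) (T : ℕ) (p : SpC d) :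
    ∃ h : Ideal (PrfPol d) → PrfPol d,
      (∀ 𝔶 : Ideal (PrfPol d), 𝔶.IsPrime → h 𝔶 ∉ 𝔶 ∧ (h 𝔶).totalDegree ≤ T) ∧
      ∀ 𝔶 : Ideal (PrfPol d), ¬ dcone p (zeroLocus ℂ 𝔶) ⊆ Env K T →
        ∀ q : SpC d, q - p ∈ K → eval q (h 𝔶) = 0 := by
  classical
  have key : ∀ 𝔶 : Ideal (PrfPol d), ∃ h : PrfPol d,
      (𝔶.IsPrime → h ∉ 𝔶 ∧ h.totalDegree ≤ T) ∧
      (¬ dcone p (zeroLocus ℂ 𝔶) ⊆ Env K T → ∀ q : SpC d, q - p ∈ K → eval q h = 0) := by
    intro 𝔶
    by_cases hsub : dcone p (zeroLocus ℂ 𝔶) ⊆ Env K T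
    · refine ⟨1, fun hp => ⟨fun h1 => hp.ne_top ((Ideal.eq_top_iff_one _).mpr h1), by simp⟩,
        fun h => absurd hsub h⟩
    · obtain ⟨w, hw, hwE⟩ := Set.not_subset.mp hsub
      have : ∃ F ∈ scslSys K T, eval w F ≠ 0 := by
        by_contra hcon
        push Not at hcon
        exact hwE hcon
      obtain ⟨F, hF, hwF⟩ := this
      obtain ⟨k, hk⟩ := scsl_pull p 𝔶 F ⟨w, hw, hwF⟩
      have hFk := scsl_hom_mem hK hF k
      refine ⟨scslSh p (homogeneousComponent k F),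
        fun _ => ⟨hk, (scsl_sh_deg p _).trans hFk.1⟩, fun _ q hq => ?_⟩
      rw [scsl_eval_sh]
      exact hFk.2 _ hq
  choose h hh using key
  exact ⟨h, fun 𝔶 hp => (hh 𝔶).1 hp, fun 𝔶 => (hh 𝔶).2⟩

/-- (L7) individual cuts for a test polynomial `g` -/
theorem scsl_test_cut (g : PrfPol d) (p : SpC d) :
    ∃ h : Ideal (PrfPol d) → PrfPol d,
      (∀ 𝔶 : Ideal (PrfPol d), 𝔶.IsPrime → h 𝔶 ∉ 𝔶 ∧ (h 𝔶).totalDegree ≤ g.totalDegree) ∧
      ∀ 𝔶 : Ideal (PrfPol d), (∃ w ∈ dcone p (zeroLocus ℂ 𝔶), eval w g ≠ 0) →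
        ∀ q : SpC d, eval q (h 𝔶) ≠ 0 → ∃ lam : ℂ, eval (lam • (q - p)) g ≠ 0 := by
  classical
  have key : ∀ 𝔶 : Ideal (PrfPol d), ∃ h : PrfPol d,
      (𝔶.IsPrime → h ∉ 𝔶 ∧ h.totalDegree ≤ g.totalDegree) ∧
      ((∃ w ∈ dcone p (zeroLocus ℂ 𝔶), eval w g ≠ 0) →
        ∀ q : SpC d, eval q h ≠ 0 → ∃ lam : ℂ, eval (lam • (q - p)) g ≠ 0) := by
    intro 𝔶
    by_cases hne : ∃ w ∈ dcone p (zeroLocus ℂ 𝔶), eval w g ≠ 0
    · obtain ⟨k, hk⟩ := scsl_pull p 𝔶 g hne
      refine ⟨scslSh p (homogeneousComponent k g),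
        fun _ => ⟨hk, (scsl_sh_deg p _).trans (scsl_homComp_deg g k)⟩, fun _ q hq => ?_⟩
      by_contra hcon
      push Not at hcon
      apply hq
      rw [scsl_eval_sh]
      have := dep_dcone_hom p {q} g (by
        rintro w ⟨y, hy, lam, rfl⟩
        rw [Set.mem_singleton_iff.mp hy]
        exact hcon lam) k (q - p) ⟨q, rfl, 1, by simp⟩
      exact this
    · exact ⟨1, fun hp => ⟨fun h1 => hp.ne_top ((Ideal.eq_top_iff_one _).mpr h1), by simp⟩,
        fun h => absurd h hne⟩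
  choose h hh using key
  exact ⟨h, fun 𝔶 hp => (hh 𝔶).1 hp, fun 𝔶 => (hh 𝔶).2⟩

/-! ### Hilbert bounds, membership, uniqueness -/

theorem scsl_fam_sub (K : Set (SpC d)) (T m : ℕ) : (⋃ W ∈ scslFam K T m, W) ⊆ Env K T := by
  intro x hx
  simp only [Set.mem_iUnion, exists_prop] at hx
  obtain ⟨W, hW, hxW⟩ := hx
  exact ph_isCompOf_subset (scsl_mem_fam.mp hW).1 hxW

/-- the degree of the group of dimension `m` -/
theorem scsl_fam_deg (K : Set (SpC d)) (T m : ℕ) :
    (∑ W ∈ scslFam K T m, vdeg W) * (T + m).choose m ≤ (d + 1) ^ d * hA K T := by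
  have h1 := ph_hilbert_at (scslSys K T) T (scsl_sys_deg K T) (scslFam K T m)
    (fun V hV => (scsl_mem_fam.mp hV).1) m (fun V hV => (scsl_mem_fam.mp hV).2)
  rw [Fintype.card_fin] at h1
  refine h1.trans (Nat.mul_le_mul_left _ ?_)
  rw [← ph_hA_env K T]
  exact rk_hA_mono_set T (scsl_fam_sub K T m)

/-- (L1) -/
theorem scsl_large_hA {K : Set (SpC d)} (hK : ScslCone K) (T₀ T' m E₀ : ℕ)
    (hKE : hA K T₀ ≤ E₀ * (T₀ + 2).choose 2) (p : SpC d) (S : Set (SpC d))
    (hS : ∀ q ∈ S, ∃ W ∈ scslFam K T₀ m, q - p ∈ W) :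
    hA (spCone p S) T' * (T₀ + m).choose m ≤
      (d + 1) ^ d * E₀ * (T₀ + 2).choose 2 * (T' + m).choose m := by
  have hsub : spCone p S ⊆ ⋃ W ∈ scslFam K T₀ m, W := by
    rintro w ⟨q, hq, lam, rfl⟩
    obtain ⟨W, hW, hqW⟩ := hS q hq
    simp only [Set.mem_iUnion, exists_prop]
    exact ⟨W, hW, scsl_comp_cone hK T₀ (scsl_mem_fam.mp hW).1 _ hqW lam⟩
  have h1 : hA (spCone p S) T' ≤ (∑ W ∈ scslFam K T₀ m, vdeg W) * (T' + m).choose m :=
    (rk_hA_mono_set T' hsub).trans (ph_hilbert_up_family _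
      (fun V hV => ph_isCompOf_isVar (scsl_mem_fam.mp hV).1) m
      (fun V hV => (scsl_mem_fam.mp hV).2) T')
  have h2 := scsl_fam_deg K T₀ m
  calc hA (spCone p S) T' * (T₀ + m).choose m
      ≤ (∑ W ∈ scslFam K T₀ m, vdeg W) * (T' + m).choose m * (T₀ + m).choose m :=
        Nat.mul_le_mul_right _ h1
    _ = (∑ W ∈ scslFam K T₀ m, vdeg W) * (T₀ + m).choose m * (T' + m).choose m := by ring
    _ ≤ (d + 1) ^ d * hA K T₀ * (T' + m).choose m := Nat.mul_le_mul_right _ h2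
    _ ≤ (d + 1) ^ d * (E₀ * (T₀ + 2).choose 2) * (T' + m).choose m :=
        Nat.mul_le_mul_right _ (Nat.mul_le_mul_left _ hKE)
    _ = (d + 1) ^ d * E₀ * (T₀ + 2).choose 2 * (T' + m).choose m := by ring

/-- (L2) -/
theorem scsl_family_deg (K : Set (SpC d)) (T₀ E₀ : ℕ) (hKE : hA K T₀ ≤ E₀ * (T₀ + 2).choose 2) :
    ∑ W ∈ scslFam K T₀ 2, vdeg W ≤ (d + 1) ^ d * E₀ := by
  have h2 := scsl_fam_deg K T₀ 2
  have hpos : 0 < (T₀ + 2).choose 2 := Nat.choose_pos (by omega)
  refine Nat.le_of_mul_le_mul_right ?_ hpos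
  calc (∑ W ∈ scslFam K T₀ 2, vdeg W) * (T₀ + 2).choose 2 ≤ (d + 1) ^ d * hA K T₀ := h2
    _ ≤ (d + 1) ^ d * (E₀ * (T₀ + 2).choose 2) := Nat.mul_le_mul_left _ hKE
    _ = (d + 1) ^ d * E₀ * (T₀ + 2).choose 2 := by ring

/-- the Hilbert function of the union of the covering cones -/
theorem scsl_hA_K (𝒦 : Finset (Set (SpC d))) (h𝒦 : ∀ γ ∈ 𝒦, IsVar γ ∧ vdim γ = 2) (T : ℕ) :
    hA (⋃ γ ∈ 𝒦, γ) T ≤ (∑ γ ∈ 𝒦, vdeg γ) * (T + 2).choose 2 :=
  ph_hilbert_up_family 𝒦 (fun V hV => (h𝒦 V hV).1) 2 (fun V hV => (h𝒦 V hV).2) T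

/-- (L4) an irreducible `2`-dimensional subset of the envelope through a point `u` which lies on no larger component is a member of the family -/
theorem scsl_in_fam {K : Set (SpC d)} {T : ℕ} {Z : Set (SpC d)} (hZ : IsVar Z) (hZ2 : vdim Z = 2)
    (hZE : Z ⊆ Env K T) {u : SpC d} (hu : u ∈ Z)
    (hsmall : ∀ m, 3 ≤ m → ∀ W ∈ scslFam K T m, u ∉ W) : Z ∈ scslFam K T 2 := by
  obtain ⟨W, hW, hZW⟩ := ph_isVar_subset_comp hZ hZE
  have h1 : vdim W ≤ 2 := by
    by_contra hcon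
    exact hsmall (vdim W) (by omega) W (scsl_mem_fam.mpr ⟨hW, rfl⟩) (hZW hu)
  have h2 : Z = W := sp_isVar_eq_of_vdim (ph_isCompOf_isVar hW) hZ hZW (by omega)
  rw [h2]
  refine scsl_mem_fam.mpr ⟨hW, ?_⟩
  rw [← h2, hZ2]

/-- (L8) two members of a family of `2`-dimensional varieties through a point where the common equations have Jacobian rank `≥ d - 2` coincide -/
theorem scsl_unique (ℱ : Set (PrfPol d)) {Z Z' : Set (SpC d)} (hZ : IsVar Z) (hZ' : IsVar Z')
    (h2 : vdim Z = 2) (h2' : vdim Z' = 2) (hF : ∀ f ∈ ℱ, ∀ x ∈ Z, eval x f = 0)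
    (hF' : ∀ f ∈ ℱ, ∀ x ∈ Z', eval x f = 0) {w : SpC d} (hw : w ∈ Z) (hw' : w ∈ Z')
    (hrk : d - 2 ≤ prfrRk ℱ w) : Z = Z' := by
  obtain ⟨P, hP, rfl⟩ := hZ
  obtain ⟨P', hP', rfl⟩ := hZ'
  have hmem : ∀ (Q : Ideal (PrfPol d)), Q.IsPrime → (∀ f ∈ ℱ, ∀ x ∈ zeroLocus ℂ Q, eval x f = 0) →
      ∀ f ∈ ℱ, f ∈ Q := by
    intro Q hQ h f hf
    rw [← ph_vanishing_prime Q hQ, ph_mem_vanishingIdeal]
    exact h f hf
  have := (prf_jac (k := 2) ℱ w hrk P' hP' h2' (hmem P' hP' hF') hw').1 P hP h2 (hmem P hP hF) hw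
  rw [this]

end Claimed.Agent.R273
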