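import Claimed.Agent.R273.ScsDefs
import Claimed.Agent.R273.SplMain
import Claimed.Agent.R273.SpNum

/-!
# Row 273, S6b: Lemma sc:separated-rank, THE PLATEAU STEP.  Architect helper177.  PACKAGE BP-SCS-STEP.

* LEAF SCS-ENV (`scs_env_step`), finite form, one centre, one target piece; `T` a degree, `V := Env (spCone p S') T`, defined by the system `𝒮 := {F | deg F ≤ T, F = 0 on spCone p S'}`.
   For a carrier `𝔶` with `dcone p Z(𝔶) ⊄ V` choose `F ∈ 𝒮` not vanishing on `spCone p Z(𝔶)`, then a homogeneous component `F_k` with the same property; `F_k ∈ 𝒮` (`dep_dcone_hom`), `h 𝔶 := F_k(· - p)`: `∉ 𝔶` (Nullstellensatz: it does not vanish on `Z(𝔶)`, because a form vanishing on `Z(𝔶) - p` vanishes on the cone),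
   degree `≤ T`, zero at every `q ∈ S'`.  For the other carriers `h 𝔶 := 1`.  `Bad := {q ∈ S' | dcone p Z(asg q) ⊄ V}`.
   For `q ∈ S' \ Bad` the irreducible `dcone p Z(asg q)` (`dep_dcone_isVar`) lies in a component `W(q)` of `𝒮` (`ph_isVar_subset_comp`).  Pigeonhole on `m = vdim W(q) ∈ [0, d]`: `S''`.  `𝒢` := ALL components of `𝒮` of dimension `m` (`ph_comps_finite`).
   `ph_hilbert_at` (system `𝒮`, `L = T`), `rk_hA_mono_set` (`⋃ 𝒢 ⊆ V`), `ph_hA_env`.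
* PACKAGE (`scs_step`).  Let `c'` be the margin of `ScsBorrow`, `m₀ := -(r + b j) > 0`, `c := min (c'/2) (m₀/2)`, `l = d - j`.  Fix `t` in the plateau and `ρ`.  `ρ' := ρ / (4 (d+1))`.
   Choose `t'` from `ScsBorrow` with `ε = c'/(4d)`: `∑_{i<j} max(0, b_i - t') ≤ c'/4`, `t' ≤ b_{j-1} < t`.  `θ ≤` the `θ`'s of: `ScsRank c' t'` at density `ρ'`; `DepStmt` at `(ε, ρ) = (m₀/4, ρ/2)`; individual cuts on the plateau at degree `T_s(t)` with loss `ρ/4`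
   (`prf_indiv` at a grid time `t₁ ∈ (t, b_j - θ)`, `L' = ⌊T_s(t)⌋`, error `≤ θ + C e^{-(t₁ - t) s} e^{C θ s}`; theta-form in SpLim).
   `Del := Del_rank ∪ Del_dep` (card `≤ (ρ' + ρ/2)|X||Y|`).  `asg` := any assignment after `j` cuts (`prf_carr_lift` inductively; `ScAsg`).
   Given `p`, `S'`: `scs_env_step` with `T = ⌊T_s(t)⌋`; `|Bad| ≤ (ρ/4)|Y|`; `|S''| ≥ ρ'|Y|·3`.  `vdim (dcone p Z(asg q)) = l + 1` (DepMass), so `m ≥ l + 1` (`ph_vdim_mono`).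
   CASE `m = l + 1`: `dcone p Z(asg q) = W ∈ 𝒢` (`ph_vdim_lt_of_ssubset`); DepMass: `|S''| ≤ K a |Y|`, `a = ∑_𝒢 vdeg`, `K = (R/e_j) e^{m₀ s/4}`; so `hA ≥ (d+1)^{-d} a binom(T+l+1, l+1) ≥ c_d ρ' (e_j/R) e^{-m₀ s/4} T^{l+1}`; required: `σ(t) T²/A e^{cs} = e_j T^{l+2} e^{cs}/B²`;
     ratio `B²/(R T) = e^{-(r+t)s} ≥ e^{m₀ s}`.
   CASE `m ≥ l + 2`: `hA (spCone p S'') T' ≤ a binom(T'+m, m)` (`ph_hilbert_up_family`, `T' = ⌊T_s(t')⌋`), `ScsRank c' t'` for `S''`; `hA (spCone p S') T ≥ (d+1)^{-d} hA (spCone p S'') T' binom(T+m,m)/binom(T'+m,m) ≥ c_d (T/T')^{l+2} σ(t') T'²/A e^{c' s}`,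
     `σ(t) ≤ σ(t') (T_s(t)/T_s(t'))^{l} e^{(c'/4) s}`.
   Constants are absorbed by `s ≥ 1/θ`.
-/

set_option autoImplicit false

namespace Claimed.Agent.R273

open MvPolynomial Module

variable {d : ℕ}

/-- the individual cut of one carrier: a form of degree `≤ T` vanishing on the cone over `S'` but not on the carrier -/
theorem scs_env_cut (p : SpC d) (T : ℕ) (L : Set (SpC d)) (hL : ∃ S : Set (SpC d), L = spCone p S)
    (𝔶 : Ideal (PrfPol d))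
    (hn : ¬ dcone p (zeroLocus ℂ 𝔶) ⊆ Env L T) :
    ∃ h : PrfPol d, h ∉ 𝔶 ∧ h.totalDegree ≤ T ∧ ∀ x : SpC d, x - p ∈ L → eval x h = 0 := by
  obtain ⟨S, rfl⟩ := hL
  rw [Set.not_subset] at hn
  obtain ⟨w, hw, hwV⟩ := hn
  have hex : ∃ F : PrfPol d, (F.totalDegree ≤ T ∧ ∀ x ∈ spCone p S, eval x F = 0) ∧ eval w F ≠ 0 := by
    by_contra hcon
    push Not at hcon
    exact hwV fun F hF => hcon F hF
  obtain ⟨F, ⟨hFd, hF0⟩, hFw⟩ := hex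
  -- `F` does not vanish on the cone over the carrier
  have hex2 : ∃ w' ∈ spCone p (zeroLocus ℂ 𝔶), eval w' F ≠ 0 := by
    by_contra hcon
    push Not at hcon
    unfold dcone at hw
    rw [ph_mem_zcl] at hw
    exact hFw (hw F hcon)
  obtain ⟨w', ⟨y, hy, lam, rfl⟩, hFw'⟩ := hex2
  -- a homogeneous component
  have hex3 : ∃ k ∈ Finset.range (F.totalDegree + 1),
      eval (lam • (y - p)) (homogeneousComponent k F) ≠ 0 := by
    by_contra hcon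
    push Not at hcon
    apply hFw'
    rw [← sum_homogeneousComponent F, map_sum]
    exact Finset.sum_eq_zero hcon
  obtain ⟨k, hk, hFk⟩ := hex3
  rw [pmb_homog_eval_smul (homogeneousComponent_isHomogeneous k F)] at hFk
  have hFk' : eval (y - p) (homogeneousComponent k F) ≠ 0 := right_ne_zero_of_mul hFk
  have hkd : (homogeneousComponent k F).totalDegree ≤ T := by
    refine le_trans ?_ hFd
    refine ((homogeneousComponent_isHomogeneous k F).totalDegree_le).trans ?_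
    exact Nat.lt_succ_iff.mp (Finset.mem_range.mp hk)
  refine ⟨aeval (fun i => C 1 * (X i - C (p i)) : Fin d → PrfPol d) (homogeneousComponent k F),
    ?_, ?_, ?_⟩
  · intro hmem
    have h0 := (ph_mem_zeroLocus 𝔶 y).mp hy _ hmem
    rw [dep_eval_scale, one_smul] at h0
    exact hFk' h0
  · refine (ph_totalDegree_aeval_le_mul _ 1 (fun i => ?_) _).trans (by rw [one_mul]; exact hkd)
    refine (totalDegree_mul _ _).trans ?_
    rw [totalDegree_C, zero_add]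
    refine (totalDegree_sub _ _).trans (max_le (totalDegree_X _).le ?_)
    rw [totalDegree_C]
    exact Nat.zero_le _
  · intro x hx
    rw [dep_eval_scale, one_smul]
    exact dep_dcone_hom p S F hF0 k _ hx

theorem scs_env_step (π : PrfPiece d) (j : ℕ) (asg : SpC d → Ideal (PrfPol d))
    (hasg : ∀ y ∈ π.S, asg y ∈ prfCarr (prfSys π.f j) y) (p : SpC d) (T : ℕ)
    (S' : Finset (SpC d)) (hS' : S' ⊆ π.S) :
    ∃ (h : Ideal (PrfPol d) → PrfPol d) (Bad S'' : Finset (SpC d)) (m : ℕ)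
      (𝒢 : Finset (Set (SpC d))),
      (∀ 𝔶 ∈ π.carriers j, h 𝔶 ∉ 𝔶 ∧ (h 𝔶).totalDegree ≤ T) ∧
      Bad ⊆ S' ∧ (∀ x ∈ Bad, eval x (h (asg x)) = 0) ∧
      S'' ⊆ S' \ Bad ∧ (S' \ Bad).card ≤ (d + 1) * S''.card ∧
      (∀ W ∈ 𝒢, IsVar W ∧ vdim W = m) ∧
      (∑ W ∈ 𝒢, vdeg W) * (T + m).choose m ≤ (d + 1) ^ d * hA (spCone p (S' : Set (SpC d))) T ∧
      ∀ q ∈ S'', ∃ W ∈ 𝒢, dcone p (zeroLocus ℂ (asg q)) ⊆ W := by
  classical
  set L : Set (SpC d) := spCone p (S' : Set (SpC d)) with hLdef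
  set 𝒮 : Set (PrfPol d) := {f | f.totalDegree ≤ T ∧ ∀ x ∈ L, eval x f = 0} with h𝒮
  -- the cuts
  have hcut : ∀ 𝔶 : Ideal (PrfPol d), ∃ h : PrfPol d,
      (¬ dcone p (zeroLocus ℂ 𝔶) ⊆ Env L T →
        h ∉ 𝔶 ∧ h.totalDegree ≤ T ∧ ∀ x : SpC d, x - p ∈ L → eval x h = 0) ∧
      (dcone p (zeroLocus ℂ 𝔶) ⊆ Env L T → h = 1) := by
    intro 𝔶
    by_cases hc : dcone p (zeroLocus ℂ 𝔶) ⊆ Env L T
    · exact ⟨1, fun h => absurd hc h, fun _ => rfl⟩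
    · obtain ⟨h, hh⟩ := scs_env_cut p T L ⟨_, rfl⟩ 𝔶 hc
      exact ⟨h, fun _ => hh, fun h' => absurd h' hc⟩
  choose h hh1 hh2 using hcut
  set Bad : Finset (SpC d) := S'.filter fun q => ¬ dcone p (zeroLocus ℂ (asg q)) ⊆ Env L T with hBad
  set Λ : Finset (SpC d) := S' \ Bad with hΛ
  have hΛmem : ∀ q ∈ Λ, q ∈ S' ∧ dcone p (zeroLocus ℂ (asg q)) ⊆ Env L T := by
    intro q hq
    rw [hΛ, Finset.mem_sdiff] at hq
    refine ⟨hq.1, ?_⟩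
    by_contra hc
    exact hq.2 (Finset.mem_filter.mpr ⟨hq.1, hc⟩)
  have hprime : ∀ q ∈ S', (asg q).IsPrime := fun q hq => (hasg q (hS' hq)).1.1.1
  -- the components
  have hW : ∀ q, ∃ W, q ∈ Λ → IsCompOf W 𝒮 ∧ dcone p (zeroLocus ℂ (asg q)) ⊆ W := by
    intro q
    by_cases hq : q ∈ Λ
    · obtain ⟨W, hW1, hW2⟩ := ph_isVar_subset_comp
        (dep_dcone_isVar p ⟨asg q, hprime q (hΛmem q hq).1, rfl⟩) (hΛmem q hq).2
      exact ⟨W, fun _ => ⟨hW1, hW2⟩⟩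
    · exact ⟨∅, fun h => absurd h hq⟩
  choose W hW using hW
  let 𝒱 : ℕ → Finset (Set (SpC d)) := fun m =>
    (ph_comps_finite 𝒮).toFinset.filter fun V => vdim V = m
  have h𝒱 : ∀ m V, V ∈ 𝒱 m ↔ IsCompOf V 𝒮 ∧ vdim V = m := by
    intro m V
    simp [𝒱]
  let Λf : ℕ → Finset (SpC d) := fun m => Λ.filter fun z => vdim (W z) = m
  obtain ⟨m, hcard⟩ : ∃ m, Λ.card ≤ (d + 1) * (Λf m).card := by
    have hmaps : ∀ z ∈ Λ, vdim (W z) ∈ Finset.range (d + 1) := fun z _ =>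
      Finset.mem_range.mpr (Nat.lt_succ_of_le (by simpa using ph_vdim_le (W z)))
    have hsum : Λ.card = ∑ m ∈ Finset.range (d + 1), (Λf m).card :=
      Finset.card_eq_sum_card_fiberwise hmaps
    obtain ⟨m, -, hmax⟩ := Finset.exists_max_image (Finset.range (d + 1)) (fun m => (Λf m).card)
      ⟨0, Finset.mem_range.mpr (Nat.succ_pos _)⟩
    refine ⟨m, ?_⟩
    rw [hsum]
    calc ∑ h' ∈ Finset.range (d + 1), (Λf h').card
        ≤ ∑ _h' ∈ Finset.range (d + 1), (Λf m).card := Finset.sum_le_sum hmax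
      _ = (d + 1) * (Λf m).card := by simp
  refine ⟨h, Bad, Λf m, m, 𝒱 m, ?_, Finset.filter_subset _ _, ?_, Finset.filter_subset _ _, hcard,
    ?_, ?_, ?_⟩
  · rintro 𝔶 ⟨x, hx, h𝔶⟩
    by_cases hc : dcone p (zeroLocus ℂ 𝔶) ⊆ Env L T
    · rw [hh2 𝔶 hc]
      refine ⟨?_, by simp⟩
      intro h1
      exact h𝔶.1.1.1.ne_top ((Ideal.eq_top_iff_one _).mpr h1)
    · exact ⟨(hh1 𝔶 hc).1, (hh1 𝔶 hc).2.1⟩
  · intro x hx
    obtain ⟨hxS, hxc⟩ := Finset.mem_filter.mp hx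
    exact (hh1 _ hxc).2.2 x ⟨x, hxS, 1, (one_smul _ _).symm⟩
  · intro V hV
    exact ⟨ph_isCompOf_isVar ((h𝒱 m V).mp hV).1, ((h𝒱 m V).mp hV).2⟩
  · have h0 := ph_hilbert_at 𝒮 T (fun g hg => hg.1) (𝒱 m) (fun V hV => ((h𝒱 m V).mp hV).1) m
      (fun V hV => ((h𝒱 m V).mp hV).2)
    rw [Fintype.card_fin] at h0
    refine h0.trans (Nat.mul_le_mul_left _ ?_)
    rw [← ph_hA_env L T]
    refine rk_hA_mono_set T ?_
    intro x hx
    simp only [Set.mem_iUnion] at hx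
    obtain ⟨V, hV, hxV⟩ := hx
    exact ph_isCompOf_subset ((h𝒱 m V).mp hV).1 hxV
  · intro q hq
    obtain ⟨hqΛ, hqd⟩ := Finset.mem_filter.mp hq
    exact ⟨W q, (h𝒱 m _).mpr ⟨(hW q hqΛ).1, hqd⟩, (hW q hqΛ).2⟩

/-- irreducible closed sets: inclusion + equal dimension = equality -/
theorem scst_isVar_eq {V W : Set (SpC d)} (hV : IsVar V) (hW : IsVar W) (hVW : V ⊆ W)
    (hd : vdim W ≤ vdim V) : V = W := by
  by_contra hne
  have hex : ∃ x ∈ W, x ∉ V := by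
    by_contra hcon
    push Not at hcon
    exact hne (Set.Subset.antisymm hVW hcon)
  obtain ⟨x, hxW, hxV⟩ := hex
  obtain ⟨p, hp, rfl⟩ := hV
  rw [ph_mem_zeroLocus] at hxV
  push Not at hxV
  obtain ⟨g, hg, hgx⟩ := hxV
  have := ph_vdim_lt_of_ssubset hW hVW g (fun y hy => (ph_mem_zeroLocus _ _).mp hy g hg) ⟨x, hxW, hgx⟩
    (ph_isVar_nonempty _ ⟨p, hp, rfl⟩)
  omega

/-- FINITE CORE of the plateau step: one centre, one target piece. -/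
theorem scst_core (π : PrfPiece d) (j : ℕ) (asg : SpC d → Ideal (PrfPol d))
    (hasg : ∀ y ∈ π.S, asg y ∈ prfCarr (prfSys π.f j) y) (p : SpC d) (T T' : ℕ)
    (S' : Finset (SpC d)) (hS' : S' ⊆ π.S) (β K Rk n₀ : ℝ)
    (hind : ∀ h : Ideal (PrfPol d) → PrfPol d,
      (∀ 𝔶 ∈ π.carriers j, h 𝔶 ∉ 𝔶 ∧ (h 𝔶).totalDegree ≤ T) →
      ∀ Bad ⊆ S', (∀ x ∈ Bad, eval x (h (asg x)) = 0) → (Bad.card : ℝ) ≤ β)
    (hdim : ∀ q ∈ S', vdim (dcone p (zeroLocus ℂ (asg q))) = d - j + 1)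
    (hmass : ∀ 𝒢 : Finset (Set (SpC d)), (∀ W ∈ 𝒢, IsVar W ∧ vdim W = d - j + 1) →
      ∀ S₁ ⊆ S', (∀ q ∈ S₁, dcone p (zeroLocus ℂ (asg q)) ∈ 𝒢) →
        (S₁.card : ℝ) ≤ K * ((∑ W ∈ 𝒢, vdeg W : ℕ) : ℝ))
    (hrank : ∀ S₁ ⊆ S', n₀ ≤ (S₁.card : ℝ) → Rk ≤ (hA (spCone p (S₁ : Set (SpC d))) T' : ℝ))
    (hn₀ : 0 < n₀) (hbig : ((d : ℝ) + 1) * n₀ + β ≤ S'.card) (hK : 0 ≤ K) :
    n₀ * ((T + (d - j + 1)).choose (d - j + 1) : ℝ)
        ≤ K * (((d : ℝ) + 1) ^ d * (hA (spCone p (S' : Set (SpC d))) T : ℝ)) ∨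
    ∃ m, d - j + 2 ≤ m ∧ m ≤ d ∧
      Rk * ((T + m).choose m : ℝ)
        ≤ ((T' + m).choose m : ℝ) * (((d : ℝ) + 1) ^ d * (hA (spCone p (S' : Set (SpC d))) T : ℝ)) := by
  obtain ⟨h, Bad, S'', m, 𝒢, hh, hBad, hBad0, hS'', hcard, h𝒢, hH, hcov⟩ :=
    scs_env_step π j asg hasg p T S' hS'
  have hβ := hind h hh Bad hBad hBad0
  have hsd : ((S' \ Bad).card : ℝ) = (S'.card : ℝ) - (Bad.card : ℝ) := by
    rw [Finset.card_sdiff_of_subset hBad, Nat.cast_sub (Finset.card_le_card hBad)]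
  have hcard' : ((S' \ Bad).card : ℝ) ≤ ((d : ℝ) + 1) * (S''.card : ℝ) := by exact_mod_cast hcard
  have hd1 : (0 : ℝ) < (d : ℝ) + 1 := by positivity
  have hn : n₀ ≤ (S''.card : ℝ) := by
    have : ((d : ℝ) + 1) * n₀ ≤ ((d : ℝ) + 1) * (S''.card : ℝ) := by linarith
    exact le_of_mul_le_mul_left this hd1
  have hsub : S'' ⊆ S' := hS''.trans Finset.sdiff_subset
  have hne : S''.Nonempty := by
    rw [← Finset.card_pos]
    have : (0 : ℝ) < (S''.card : ℝ) := lt_of_lt_of_le hn₀ hn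
    exact_mod_cast this
  have hH' : ((∑ W ∈ 𝒢, vdeg W : ℕ) : ℝ) * ((T + m).choose m : ℝ)
      ≤ ((d : ℝ) + 1) ^ d * (hA (spCone p (S' : Set (SpC d))) T : ℝ) := by exact_mod_cast hH
  obtain ⟨q₀, hq₀⟩ := hne
  obtain ⟨W₀, hW₀, hsub₀⟩ := hcov q₀ hq₀
  have hm1 : d - j + 1 ≤ m := by
    rw [← hdim q₀ (hsub hq₀), ← (h𝒢 W₀ hW₀).2]
    exact ph_vdim_mono hsub₀
  have hm2 : m ≤ d := by
    rw [← (h𝒢 W₀ hW₀).2]
    simpa using ph_vdim_le W₀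
  rcases hm1.eq_or_lt with hm | hm
  · left
    subst hm
    have hmem : ∀ q ∈ S'', dcone p (zeroLocus ℂ (asg q)) ∈ 𝒢 := by
      intro q hq
      obtain ⟨W, hW, hqW⟩ := hcov q hq
      have hV : IsVar (dcone p (zeroLocus ℂ (asg q))) :=
        dep_dcone_isVar p ⟨asg q, prf_carr_prime (hasg q (hS' (hsub hq))), rfl⟩
      have := scst_isVar_eq hV (h𝒢 W hW).1 hqW (by rw [(h𝒢 W hW).2, hdim q (hsub hq)])
      rw [this]
      exact hW
    have h1 := hmass 𝒢 h𝒢 S'' hsub hmem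
    have hC0 : (0 : ℝ) ≤ ((T + (d - j + 1)).choose (d - j + 1) : ℝ) := Nat.cast_nonneg _
    calc n₀ * ((T + (d - j + 1)).choose (d - j + 1) : ℝ)
        ≤ (K * ((∑ W ∈ 𝒢, vdeg W : ℕ) : ℝ)) * ((T + (d - j + 1)).choose (d - j + 1) : ℝ) :=
          mul_le_mul_of_nonneg_right (hn.trans h1) hC0
      _ = K * (((∑ W ∈ 𝒢, vdeg W : ℕ) : ℝ) * ((T + (d - j + 1)).choose (d - j + 1) : ℝ)) := by ring
      _ ≤ _ := mul_le_mul_of_nonneg_left hH' hK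
  · right
    refine ⟨m, hm, hm2, ?_⟩
    have h1 := hrank S'' hsub hn
    have hincl : spCone p (S'' : Set (SpC d)) ⊆ ⋃ W ∈ 𝒢, W := by
      rintro w ⟨y, hy, lam, rfl⟩
      have hy' : y ∈ S'' := hy
      obtain ⟨W, hW, hqW⟩ := hcov y hy'
      refine Set.mem_biUnion hW (hqW ?_)
      exact dep_sub_dcone p _ (hasg y (hS' (hsub hy'))).2 lam
    have h2 : hA (spCone p (S'' : Set (SpC d))) T' ≤ (∑ W ∈ 𝒢, vdeg W) * (T' + m).choose m :=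
      (rk_hA_mono_set T' hincl).trans
        (ph_hilbert_up_family 𝒢 (fun W hW => (h𝒢 W hW).1) m (fun W hW => (h𝒢 W hW).2) T')
    have h2' : (hA (spCone p (S'' : Set (SpC d))) T' : ℝ)
        ≤ ((∑ W ∈ 𝒢, vdeg W : ℕ) : ℝ) * ((T' + m).choose m : ℝ) := by exact_mod_cast h2
    have hC0 : (0 : ℝ) ≤ ((T + m).choose m : ℝ) := Nat.cast_nonneg _
    have hC0' : (0 : ℝ) ≤ ((T' + m).choose m : ℝ) := Nat.cast_nonneg _
    calc Rk * ((T + m).choose m : ℝ)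
        ≤ (((∑ W ∈ 𝒢, vdeg W : ℕ) : ℝ) * ((T' + m).choose m : ℝ)) * ((T + m).choose m : ℝ) :=
          mul_le_mul_of_nonneg_right (h1.trans h2') hC0
      _ = ((T' + m).choose m : ℝ) * (((∑ W ∈ 𝒢, vdeg W : ℕ) : ℝ) * ((T + m).choose m : ℝ)) := by ring
      _ ≤ _ := mul_le_mul_of_nonneg_left hH' hC0'

theorem scst_choose_ge (x : ℝ) (hx : 0 ≤ x) (k : ℕ) :
    x ^ k / (k.factorial : ℝ) ≤ ((⌊x⌋₊ + k).choose k : ℝ) := by
  have h1 := Nat.pow_le_choose (α := ℝ) k (⌊x⌋₊ + k)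
  have e : ⌊x⌋₊ + k + 1 - k = ⌊x⌋₊ + 1 := by omega
  rw [e] at h1
  refine le_trans ?_ h1
  have h2 : x ≤ ((⌊x⌋₊ + 1 : ℕ) : ℝ) := by
    push_cast
    exact (Nat.lt_floor_add_one x).le
  gcongr

theorem scst_choose_le (x : ℝ) (hx : 1 ≤ x) (k : ℕ) :
    ((⌊x⌋₊ + k).choose k : ℝ) ≤ (((k : ℝ) + 1) * x) ^ k / (k.factorial : ℝ) := by
  have h1 := Nat.choose_le_pow_div (α := ℝ) k (⌊x⌋₊ + k)
  refine le_trans h1 ?_
  have h2 : ((⌊x⌋₊ + k : ℕ) : ℝ) ≤ ((k : ℝ) + 1) * x := by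
    push_cast
    have := Nat.floor_le (by linarith : (0 : ℝ) ≤ x)
    have hk : (0 : ℝ) ≤ k := Nat.cast_nonneg _
    nlinarith
  gcongr

/-- arithmetic of the case `m = l + 1` -/
theorem scst_numA (l : ℕ) (hl : l + 1 ≤ d) (B s e r t c m₀ ρ' H : ℝ) (hB : 0 < B) (he : 0 < e)
    (hs : 0 ≤ s) (hρ : 0 < ρ') (hrt : r + t ≤ -m₀) (hc : c ≤ m₀ / 2)
    (habs : ((d : ℝ) + 1) ^ d * (d.factorial : ℝ) / ρ' ≤ Real.exp (m₀ / 4 * s))
    (h : ρ' * ((⌊prfT B s t⌋₊ + (l + 1)).choose (l + 1) : ℝ)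
      ≤ prfT B s r / e * Real.exp (m₀ / 4 * s) * (((d : ℝ) + 1) ^ d * H)) :
    e * prfT B s t ^ l * prfT B s t ^ 2 / B ^ 2 * Real.exp (c * s) ≤ H := by
  set x := prfT B s t with hx
  set R := prfT B s r with hR
  set E4 := Real.exp (m₀ / 4 * s) with hE4
  have hx0 : 0 < x := spn_T_pos hB s t
  have hR0 : 0 < R := spn_T_pos hB s r
  have hE0 : 0 < E4 := Real.exp_pos _
  have hd0 : (0 : ℝ) < ((d : ℝ) + 1) ^ d := by positivity
  have hf0 : (0 : ℝ) < ((l + 1).factorial : ℝ) := by positivity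
  -- (1)
  have h1 : x * R * Real.exp (c * s) * E4 * E4 ≤ B ^ 2 := by
    have e1 : x * R * Real.exp (c * s) * E4 * E4
        = B ^ 2 * Real.exp (t * s + r * s + c * s + m₀ / 4 * s + m₀ / 4 * s) := by
      rw [hx, hR, hE4]
      unfold prfT
      rw [Real.exp_add, Real.exp_add, Real.exp_add, Real.exp_add]
      ring
    rw [e1]
    have : Real.exp (t * s + r * s + c * s + m₀ / 4 * s + m₀ / 4 * s) ≤ 1 := by
      rw [Real.exp_le_one_iff]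
      have : t * s + r * s + c * s + m₀ / 4 * s + m₀ / 4 * s = (r + t + c + m₀ / 2) * s := by ring
      rw [this]
      exact mul_nonpos_of_nonpos_of_nonneg (by linarith) hs
    calc B ^ 2 * _ ≤ B ^ 2 * 1 := mul_le_mul_of_nonneg_left this (by positivity)
      _ = B ^ 2 := mul_one _
  -- (2)
  have h2 : ((d : ℝ) + 1) ^ d * ((l + 1).factorial : ℝ) ≤ ρ' * E4 := by
    rw [div_le_iff₀ hρ] at habs
    have : ((l + 1).factorial : ℝ) ≤ (d.factorial : ℝ) := by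
      exact_mod_cast Nat.factorial_le hl
    calc ((d : ℝ) + 1) ^ d * ((l + 1).factorial : ℝ) ≤ ((d : ℝ) + 1) ^ d * (d.factorial : ℝ) :=
          mul_le_mul_of_nonneg_left this hd0.le
      _ ≤ E4 * ρ' := habs
      _ = ρ' * E4 := mul_comm _ _
  -- (3)
  have h3 := scst_choose_ge x hx0.le (l + 1)
  have h4 : ρ' * (x ^ (l + 1) / ((l + 1).factorial : ℝ)) ≤ R / e * E4 * (((d : ℝ) + 1) ^ d * H) :=
    (mul_le_mul_of_nonneg_left h3 hρ.le).trans h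
  have hH : 0 ≤ H := by
    by_contra hcon
    push Not at hcon
    have : R / e * E4 * (((d : ℝ) + 1) ^ d * H) < 0 :=
      mul_neg_of_pos_of_neg (by positivity) (mul_neg_of_pos_of_neg hd0 hcon)
    have h5 : 0 ≤ ρ' * (x ^ (l + 1) / ((l + 1).factorial : ℝ)) := by positivity
    linarith
  have h5 : ρ' * (x ^ (l + 1) * e) ≤ ρ' * (E4 * E4 * R * H) := by
    have h6 : ρ' * x ^ (l + 1) * e ≤ (((d : ℝ) + 1) ^ d * ((l + 1).factorial : ℝ)) * (R * E4 * H) := by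
      have := mul_le_mul_of_nonneg_right h4 (mul_pos he hf0).le
      calc ρ' * x ^ (l + 1) * e = ρ' * (x ^ (l + 1) / ((l + 1).factorial : ℝ)) * (e * ((l + 1).factorial : ℝ)) := by
            field_simp
        _ ≤ R / e * E4 * (((d : ℝ) + 1) ^ d * H) * (e * ((l + 1).factorial : ℝ)) := this
        _ = _ := by field_simp
    calc ρ' * (x ^ (l + 1) * e) = ρ' * x ^ (l + 1) * e := by ring
      _ ≤ (((d : ℝ) + 1) ^ d * ((l + 1).factorial : ℝ)) * (R * E4 * H) := h6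
      _ ≤ (ρ' * E4) * (R * E4 * H) := mul_le_mul_of_nonneg_right h2 (by positivity)
      _ = _ := by ring
  have h6 : x ^ (l + 1) * e ≤ E4 * E4 * R * H := le_of_mul_le_mul_left h5 hρ
  rw [div_mul_eq_mul_div, div_le_iff₀ (by positivity)]
  calc e * x ^ l * x ^ 2 * Real.exp (c * s) = (x ^ (l + 1) * e) * (x * Real.exp (c * s)) := by ring
    _ ≤ (E4 * E4 * R * H) * (x * Real.exp (c * s)) :=
        mul_le_mul_of_nonneg_right h6 (by positivity)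
    _ = (x * R * Real.exp (c * s) * E4 * E4) * H := by ring
    _ ≤ B ^ 2 * H := mul_le_mul_of_nonneg_right h1 hH
    _ = H * B ^ 2 := mul_comm _ _

/-- arithmetic of the case `m ≥ l + 2` -/
theorem scst_numB (l m : ℕ) (hlm : l + 2 ≤ m) (hm : m ≤ d) (B s t t' c c' σ σ' H : ℝ) (hB : 0 < B)
    (hs : 0 ≤ s) (htt : t' ≤ t) (hx' : 1 ≤ prfT B s t') (hσ' : 0 < σ')
    (hσ : σ ≤ σ' * (prfT B s t / prfT B s t') ^ l * Real.exp (c' / 4 * s))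
    (hc : c ≤ c' / 2) (habs : ((d : ℝ) + 1) ^ (2 * d) ≤ Real.exp (c' / 4 * s))
    (h : σ' * prfT B s t' ^ 2 / B ^ 2 * Real.exp (c' * s) * ((⌊prfT B s t⌋₊ + m).choose m : ℝ)
      ≤ ((⌊prfT B s t'⌋₊ + m).choose m : ℝ) * (((d : ℝ) + 1) ^ d * H)) :
    σ * prfT B s t ^ 2 / B ^ 2 * Real.exp (c * s) ≤ H := by
  have hxx : prfT B s t' ≤ prfT B s t := spn_T_mono hB hs htt
  set x := prfT B s t with hx
  set y := prfT B s t' with hy
  set E4 := Real.exp (c' / 4 * s) with hE4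
  have hy0 : 0 < y := by linarith
  have hx0 : 0 < x := by linarith
  have hE0 : 0 < E4 := Real.exp_pos _
  have hd0 : (0 : ℝ) < ((d : ℝ) + 1) ^ d := by positivity
  have hf0 : (0 : ℝ) < (m.factorial : ℝ) := by positivity
  set A := σ' * y ^ 2 / B ^ 2 * Real.exp (c' * s) with hA
  have hA0 : 0 < A := by positivity
  have h1 := scst_choose_ge x hx0.le m
  have h2 := scst_choose_le y hx' m
  have hH : 0 ≤ H := by
    by_contra hcon
    push Not at hcon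
    have h3 : ((⌊y⌋₊ + m).choose m : ℝ) * (((d : ℝ) + 1) ^ d * H) ≤ 0 :=
      mul_nonpos_of_nonneg_of_nonpos (Nat.cast_nonneg _) (mul_neg_of_pos_of_neg hd0 hcon).le
    have h4 : 0 < A * ((⌊x⌋₊ + m).choose m : ℝ) := by
      refine mul_pos hA0 (lt_of_lt_of_le ?_ h1)
      positivity
    linarith
  have h3 : (((m : ℝ) + 1) * y) ^ m ≤ ((d : ℝ) + 1) ^ d * y ^ m := by
    rw [mul_pow]
    refine mul_le_mul_of_nonneg_right ?_ (by positivity)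
    have hmd : (m : ℝ) ≤ d := by exact_mod_cast hm
    calc ((m : ℝ) + 1) ^ m ≤ ((d : ℝ) + 1) ^ m := by gcongr
      _ ≤ ((d : ℝ) + 1) ^ d := pow_le_pow_right₀ (by linarith [Nat.cast_nonneg (α := ℝ) d]) hm
  -- main inequality without binomials
  have h4 : A * x ^ m ≤ ((d : ℝ) + 1) ^ (2 * d) * y ^ m * H := by
    have h5 : A * (x ^ m / (m.factorial : ℝ))
        ≤ (((d : ℝ) + 1) ^ d * y ^ m / (m.factorial : ℝ)) * (((d : ℝ) + 1) ^ d * H) := by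
      calc A * (x ^ m / (m.factorial : ℝ)) ≤ A * ((⌊x⌋₊ + m).choose m : ℝ) :=
            mul_le_mul_of_nonneg_left h1 hA0.le
        _ ≤ ((⌊y⌋₊ + m).choose m : ℝ) * (((d : ℝ) + 1) ^ d * H) := h
        _ ≤ _ := by
            refine mul_le_mul_of_nonneg_right (h2.trans ?_) (by positivity)
            gcongr
    have := mul_le_mul_of_nonneg_right h5 hf0.le
    calc A * x ^ m = A * (x ^ m / (m.factorial : ℝ)) * (m.factorial : ℝ) := by field_simp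
      _ ≤ (((d : ℝ) + 1) ^ d * y ^ m / (m.factorial : ℝ)) * (((d : ℝ) + 1) ^ d * H) * (m.factorial : ℝ) := this
      _ = _ := by
          rw [two_mul, pow_add]
          field_simp
  have h5 : A * (x / y) ^ m ≤ E4 * H := by
    rw [div_pow, mul_div_assoc', div_le_iff₀ (by positivity)]
    calc A * x ^ m ≤ ((d : ℝ) + 1) ^ (2 * d) * y ^ m * H := h4
      _ = ((d : ℝ) + 1) ^ (2 * d) * (H * y ^ m) := by ring
      _ ≤ E4 * (H * y ^ m) := mul_le_mul_of_nonneg_right habs (by positivity)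
      _ = _ := by ring
  have hq : 1 ≤ x / y := by rwa [one_le_div hy0]
  have h6 : A * (x / y) ^ (l + 2) ≤ E4 * H :=
    (mul_le_mul_of_nonneg_left (pow_le_pow_right₀ hq hlm) hA0.le).trans h5
  have h7 : Real.exp (c * s) * E4 * E4 ≤ Real.exp (c' * s) := by
    rw [hE4, ← Real.exp_add, ← Real.exp_add, Real.exp_le_exp]
    have : c * s + c' / 4 * s + c' / 4 * s = (c + c' / 2) * s := by ring
    rw [this]
    exact mul_le_mul_of_nonneg_right (by linarith) hs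
  have h8 : (σ * x ^ 2 / B ^ 2 * Real.exp (c * s)) * E4 ≤ H * E4 := by
    calc (σ * x ^ 2 / B ^ 2 * Real.exp (c * s)) * E4
        ≤ ((σ' * (x / y) ^ l * E4) * x ^ 2 / B ^ 2 * Real.exp (c * s)) * E4 := by gcongr
      _ = (σ' * (x / y) ^ l * x ^ 2 / B ^ 2) * (Real.exp (c * s) * E4 * E4) := by ring
      _ ≤ (σ' * (x / y) ^ l * x ^ 2 / B ^ 2) * Real.exp (c' * s) :=
          mul_le_mul_of_nonneg_left h7 (by positivity)
      _ = A * (x / y) ^ (l + 2) := by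
          rw [hA, pow_add (x / y) l 2, div_pow x y 2]
          field_simp
      _ ≤ E4 * H := h6
      _ = H * E4 := mul_comm _ _
  exact le_of_mul_le_mul_right h8 hE0

theorem scst_or_mono {wide : Bool} {𝔠 : SpCfg d} {θ θ' : ℝ} (hv : 0 ≤ 𝔠.v) (hs : 0 ≤ 𝔠.s)
    (h : ScOr wide 𝔠 θ) (hθ : θ ≤ θ') : ScOr wide 𝔠 θ' :=
  ⟨fun e => (h.1 e).trans (mul_le_mul_of_nonneg_right hθ hv),
    fun e => (h.2 e).trans (mul_le_mul_of_nonneg_right hθ hs)⟩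

theorem scst_adm_ge {b : ℕ → ℝ} (hb : SpAdm d b) {i : ℕ} (hi : i < d) : -1 ≤ b i :=
  hb.lo.trans (hb.mono 0 i (Nat.zero_le _) hi)

theorem scs_step (hd : 3 ≤ d) (wide : Bool) (b : ℕ → ℝ) (hb : SpAdm d b) (j : ℕ) (hj1 : 1 ≤ j)
    (hjd : j < d) (r : ℝ) (hdep : DepStmt d wide b j r) (hr : r + b j < 0)
    (hbor : ScsBorrow d wide b j) : ScsOn d wide b j := by
  obtain ⟨c', hc', hbor⟩ := hbor
  set m₀ := -(r + b j) with hm₀
  have hm₀pos : 0 < m₀ := by rw [hm₀]; linarith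
  have hdpos : (0 : ℝ) < d := by
    have : 0 < d := by omega
    exact_mod_cast this
  obtain ⟨t', ht'1, ht'2, ht'3, hrank⟩ := hbor (c' / (4 * d)) (by positivity)
  refine ⟨min (c' / 2) (m₀ / 2), lt_min (by positivity) (by positivity), fun t ht ρ hρ => ?_⟩
  set c := min (c' / 2) (m₀ / 2) with hc
  set ρ' := ρ / (4 * ((d : ℝ) + 1)) with hρ'
  have hρ'pos : 0 < ρ' := by positivity
  have hρ'eq : ((d : ℝ) + 1) * ρ' = ρ / 4 := by
    rw [hρ']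
    field_simp
  obtain ⟨θ₁, hθ₁, H₁⟩ := hrank ρ' hρ'pos
  obtain ⟨θ₂, hθ₂, H₂⟩ := hdep (m₀ / 4) (ρ / 2) (by positivity) (by positivity)
  obtain ⟨θ₃, hθ₃, H₃⟩ := (sp_lim (by omega : 1 ≤ d)).indiv b hb (ρ / 4) (by positivity) j t ht
  obtain ⟨θ₄, hθ₄, H₄⟩ := spl_absorb (((d : ℝ) + 1) ^ d * (d.factorial : ℝ) / ρ') (m₀ / 4) (by positivity)
  obtain ⟨θ₅, hθ₅, H₅⟩ := spl_absorb (((d : ℝ) + 1) ^ (2 * d)) (c' / 4) (by positivity)
  set θ := min (min (min θ₁ θ₂) (min θ₃ θ₄)) (min θ₅ 1) with hθ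
  have hθpos : 0 < θ := lt_min (lt_min (lt_min hθ₁ hθ₂) (lt_min hθ₃ hθ₄)) (lt_min hθ₅ one_pos)
  have hle₁ : θ ≤ θ₁ := ((min_le_left _ _).trans (min_le_left _ _)).trans (min_le_left _ _)
  have hle₂ : θ ≤ θ₂ := ((min_le_left _ _).trans (min_le_left _ _)).trans (min_le_right _ _)
  have hle₃ : θ ≤ θ₃ := ((min_le_left _ _).trans (min_le_right _ _)).trans (min_le_left _ _)
  have hle₄ : θ ≤ θ₄ := ((min_le_left _ _).trans (min_le_right _ _)).trans (min_le_right _ _)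
  have hle₅ : θ ≤ θ₅ := (min_le_right _ _).trans (min_le_left _ _)
  have hle1 : θ ≤ 1 := (min_le_right _ _).trans (min_le_right _ _)
  refine ⟨θ, hθpos, fun 𝔠 α hok hsep hor => ?_⟩
  have hv : 0 ≤ 𝔠.v := le_trans (by positivity) hok.okX.s_ge
  have hs : 0 ≤ 𝔠.s := le_trans (by positivity) hok.okY.s_ge
  have hB : 0 < 𝔠.D.B := spl_B_pos hθpos hok.okY
  obtain ⟨a, ha⟩ := hsep.2.2.2.2
  have hpts : 𝔠.Y.pts = (𝔠.Y.π a).S := by
    unfold SpPool.pts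
    rw [ha, Finset.singleton_biUnion]
  have haI : a ∈ 𝔠.Y.I := by rw [ha]; exact Finset.mem_singleton_self a
  have hπok := hok.okY.piece a haI
  have hex : ∀ y : SpC d, ∃ 𝔶 : Ideal (PrfPol d),
      y ∈ (𝔠.Y.π a).S → 𝔶 ∈ prfCarr (prfSys (𝔠.Y.π a).f j) y := by
    intro y
    by_cases hy : y ∈ (𝔠.Y.π a).S
    · obtain ⟨𝔶, h𝔶⟩ := prf_own_carrier (𝔠.Y.π a) hπok.path j hjd.le hy
      exact ⟨𝔶, fun _ => h𝔶⟩
    · exact ⟨⊥, fun h => absurd h hy⟩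
  choose asg hasg using hex
  have hAsg : ScAsg 𝔠.Y j asg := by
    intro a' ha' y hy
    rw [ha, Finset.mem_singleton] at ha'
    subst ha'
    exact hasg y hy
  obtain ⟨Del₁, hDel₁, R₁⟩ := H₁ 𝔠 α (hok.mono hθpos hle₁ hle1) (hsep.mono hok hθpos hle₁)
    (scst_or_mono hv hs hor hle₁)
  obtain ⟨Del₂, hDel₂, R₂⟩ := H₂ 𝔠 α (hok.mono hθpos hle₂ hle1) (hsep.mono hok hθpos hle₂)
    (scst_or_mono hv hs hor hle₂) asg hAsg
  have hnY : 0 < (𝔠.Y.pts.card : ℝ) := by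
    rw [hpts]
    exact spl_member_pos (by omega) hθpos hok.okY haI
  refine ⟨Del₁ ∪ Del₂, ?_, fun p hp S' hS' hcard hdel => ?_⟩
  · have h1 : ((Del₁ ∪ Del₂).card : ℝ) ≤ (Del₁.card : ℝ) + (Del₂.card : ℝ) := by
      exact_mod_cast Finset.card_union_le _ _
    have h2 : ρ' ≤ ρ / 2 := by
      have : ρ' ≤ ((d : ℝ) + 1) * ρ' := le_mul_of_one_le_left hρ'pos.le (by linarith)
      linarith
    have h3 : 0 ≤ (𝔠.X.pts.card : ℝ) * (𝔠.Y.pts.card : ℝ) := by positivity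
    calc ((Del₁ ∪ Del₂).card : ℝ) ≤ ρ' * (𝔠.X.pts.card : ℝ) * (𝔠.Y.pts.card : ℝ)
          + ρ / 2 * (𝔠.X.pts.card : ℝ) * (𝔠.Y.pts.card : ℝ) := by linarith
      _ = (ρ' + ρ / 2) * ((𝔠.X.pts.card : ℝ) * (𝔠.Y.pts.card : ℝ)) := by ring
      _ ≤ ρ * ((𝔠.X.pts.card : ℝ) * (𝔠.Y.pts.card : ℝ)) :=
          mul_le_mul_of_nonneg_right (by linarith) h3
      _ = _ := by ring
  · have hS'π : S' ⊆ (𝔠.Y.π a).S := hpts ▸ hS'
    have hd1 : ∀ q ∈ S', (p, q) ∉ Del₁ := fun q hq h => hdel q hq (Finset.mem_union_left _ h)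
    have hd2 : ∀ q ∈ S', (p, q) ∉ Del₂ := fun q hq h => hdel q hq (Finset.mem_union_right _ h)
    have htm1 : -1 ≤ t := by
      have h1 := ht.2.1 (j - 1) (by omega)
      have h2 := scst_adm_ge hb (i := j - 1) (by omega)
      linarith
    have hT1 : 1 ≤ prfT 𝔠.D.B 𝔠.s t := spl_one_le_T hθpos hok.okY htm1
    have hT'1 : 1 ≤ prfT 𝔠.D.B 𝔠.s t' := spl_one_le_T hθpos hok.okY ht'1
    set nY := (𝔠.Y.pts.card : ℝ) with hnYdef
    set K := prfT 𝔠.D.B 𝔠.s r / spE 𝔠.D.B 𝔠.s b j * Real.exp (m₀ / 4 * 𝔠.s) with hK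
    set Rk := spSigma d 𝔠.D.B 𝔠.s b t' * prfT 𝔠.D.B 𝔠.s t' ^ 2 / 𝔠.D.B ^ 2 * Real.exp (c' * 𝔠.s) with hRk
    have hE0 : 0 < spE 𝔠.D.B 𝔠.s b j := spn_E_pos hB _ _ _
    have hK0 : 0 < K := by
      have := spn_T_pos hB 𝔠.s r
      positivity
    have hind : ∀ h : Ideal (PrfPol d) → PrfPol d,
        (∀ 𝔶 ∈ (𝔠.Y.π a).carriers j, h 𝔶 ∉ 𝔶 ∧ (h 𝔶).totalDegree ≤ ⌊prfT 𝔠.D.B 𝔠.s t⌋₊) →
        ∀ Bad ⊆ S', (∀ x ∈ Bad, eval x (h (asg x)) = 0) → (Bad.card : ℝ) ≤ ρ / 4 * nY := by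
      intro h hh Bad hBad hBad0
      have hok₃ := hok.mono hθpos hle₃ hle1
      refine H₃ 𝔠.D 𝔠.Y 𝔠.Y 𝔠.s (SpTwo.self hok₃.reg hok₃.okY) h ?_ Bad (hBad.trans hS') ?_
      · intro 𝔶 h𝔶
        have h𝔶' : 𝔶 ∈ (𝔠.Y.π a).carriers j := by
          rcases h𝔶 with ⟨a', ha', h1⟩ | ⟨a', ha', h1⟩
          · rw [ha, Finset.mem_singleton] at ha'
            subst ha'
            exact h1
          · rw [ha, Finset.mem_singleton] at ha'
            subst ha'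
            exact h1
        refine ⟨(hh 𝔶 h𝔶').1, ?_⟩
        calc (((h 𝔶).totalDegree : ℕ) : ℝ) ≤ (⌊prfT 𝔠.D.B 𝔠.s t⌋₊ : ℝ) := by
              exact_mod_cast (hh 𝔶 h𝔶').2
          _ ≤ prfT 𝔠.D.B 𝔠.s t := Nat.floor_le (by linarith)
      · intro x hx
        have hxS : x ∈ (𝔠.Y.π a).S := hS'π (hBad hx)
        exact ⟨asg x, Or.inl ⟨a, haI, x, hxS, hasg x hxS⟩, (hasg x hxS).2, hBad0 x hx⟩
    have hdim : ∀ q ∈ S', vdim (dcone p (zeroLocus ℂ (asg q))) = d - j + 1 :=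
      fun q hq => (R₂ p hp).1 q (hS' hq) (hd2 q hq)
    have hmass : ∀ 𝒢 : Finset (Set (SpC d)), (∀ W ∈ 𝒢, IsVar W ∧ vdim W = d - j + 1) →
        ∀ S₁ ⊆ S', (∀ q ∈ S₁, dcone p (zeroLocus ℂ (asg q)) ∈ 𝒢) →
          (S₁.card : ℝ) ≤ (K * nY) * ((∑ W ∈ 𝒢, vdeg W : ℕ) : ℝ) := by
      intro 𝒢 h𝒢 S₁ hS₁ hmem
      have := (R₂ p hp).2 𝒢 h𝒢 S₁ (hS₁.trans hS') (fun q hq => ⟨hd2 q (hS₁ hq), hmem q hq⟩)
      calc (S₁.card : ℝ) ≤ K * ((∑ W ∈ 𝒢, vdeg W : ℕ) : ℝ) * nY := this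
        _ = _ := by ring
    have hrk : ∀ S₁ ⊆ S', ρ' * nY ≤ (S₁.card : ℝ) →
        Rk ≤ (hA (spCone p (S₁ : Set (SpC d))) ⌊prfT 𝔠.D.B 𝔠.s t'⌋₊ : ℝ) :=
      fun S₁ hS₁ hc₁ => R₁ p hp S₁ (hS₁.trans hS') hc₁ (fun q hq => hd1 q (hS₁ hq))
    have hbig : ((d : ℝ) + 1) * (ρ' * nY) + ρ / 4 * nY ≤ (S'.card : ℝ) := by
      have : ((d : ℝ) + 1) * (ρ' * nY) = ρ / 4 * nY := by rw [← mul_assoc, hρ'eq]
      rw [this]
      have : ρ / 4 * nY + ρ / 4 * nY ≤ ρ * nY := by nlinarith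
      linarith
    have hσt : spSigma d 𝔠.D.B 𝔠.s b t = spE 𝔠.D.B 𝔠.s b j * prfT 𝔠.D.B 𝔠.s t ^ (d - j) :=
      spn_sigma_plateau b j hjd.le t 𝔠.D.B 𝔠.s hB hs (fun i hi => (ht.2.1 i hi).le)
        (fun i hi hid => (ht.2.2 i hi hid).le)
    rcases scst_core (𝔠.Y.π a) j asg hasg p ⌊prfT 𝔠.D.B 𝔠.s t⌋₊ ⌊prfT 𝔠.D.B 𝔠.s t'⌋₊ S' hS'π
      (ρ / 4 * nY) (K * nY) Rk (ρ' * nY) hind hdim hmass hrk (by positivity) hbig (by positivity)
      with hA | ⟨m, hm1, hm2, hB'⟩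
    · rw [hσt]
      refine scst_numA (d := d) (d - j) (by omega) 𝔠.D.B 𝔠.s _ r t c m₀ ρ' _ hB hE0 hs hρ'pos ?_
        (min_le_right _ _) (H₄ θ 𝔠.s hθpos hle₄ hok.okY.s_ge) ?_
      · have := ht.2.2 j le_rfl hjd
        rw [hm₀]
        linarith
      · have h1 : nY * (ρ' * ((⌊prfT 𝔠.D.B 𝔠.s t⌋₊ + (d - j + 1)).choose (d - j + 1) : ℝ))
            ≤ nY * (K * (((d : ℝ) + 1) ^ d *
              (Claimed.Agent.R273.hA (spCone p (S' : Set (SpC d))) ⌊prfT 𝔠.D.B 𝔠.s t⌋₊ : ℝ))) := by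
          calc _ = ρ' * nY * ((⌊prfT 𝔠.D.B 𝔠.s t⌋₊ + (d - j + 1)).choose (d - j + 1) : ℝ) := by ring
            _ ≤ _ := hA
            _ = _ := by ring
        exact le_of_mul_le_mul_left h1 hnY
    · have hβt : b (j - 1) ≤ t := (ht.2.1 (j - 1) (by omega)).le
      refine scst_numB (d := d) (d - j) m hm1 hm2 𝔠.D.B 𝔠.s t t' c c' _ (spSigma d 𝔠.D.B 𝔠.s b t') _ hB hs
        (ht'2.trans hβt) hT'1 (spn_sigma_pos hB _ _ _) ?_ (min_le_left _ _)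
        (H₅ θ 𝔠.s hθpos hle₅ hok.okY.s_ge) hB'
      refine (spn_sigma_growth b j hjd.le t' (b (j - 1)) t 𝔠.D.B 𝔠.s hB hs ht'2 hβt
        (fun i hi => hb.mono i (j - 1) (by omega) (by omega))
        (fun i hi hid => (ht.2.2 i hi hid).le)).trans ?_
      refine mul_le_mul_of_nonneg_left ?_ ?_
      · rw [← Real.exp_nat_mul, Real.exp_le_exp]
        have hjd' : (j : ℝ) ≤ d := by exact_mod_cast hjd.le
        have h0 : 0 ≤ b (j - 1) - t' := by linarith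
        have h1 : (j : ℝ) * (b (j - 1) - t') ≤ c' / 4 := by
          calc (j : ℝ) * (b (j - 1) - t') ≤ d * (c' / (4 * d)) := mul_le_mul hjd' ht'3 h0 hdpos.le
            _ = c' / 4 := by field_simp
        calc (j : ℝ) * ((b (j - 1) - t') * 𝔠.s) = ((j : ℝ) * (b (j - 1) - t')) * 𝔠.s := by ring
          _ ≤ c' / 4 * 𝔠.s := mul_le_mul_of_nonneg_right h1 hs
      · have h1 := spn_sigma_pos (d := d) hB 𝔠.s b t'
        have h2 := spn_T_pos hB 𝔠.s t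
        have h3 := spn_T_pos hB 𝔠.s t'
        positivity

end Claimed.Agent.R273
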