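-- KEEP
import Claimed.Agent.R273.ScsBase
import Claimed.Agent.R273.ScsStep
import Claimed.Agent.R273.ScsFinal
import Claimed.Agent.R273.ScsLast

/-!
# Row 273, S6b/c: `SpNoSep d` FROM THE PARTS (rank propagation through the plateaux, case exhaustion).  Architect helper177.
-/

set_option autoImplicit false

namespace Claimed.Agent.R273

variable {d : ℕ}

/-- start of the propagation -/
theorem scs_borrow_one (hd : 3 ≤ d) (wide : Bool) (b : ℕ → ℝ) (hb : SpAdm d b) :
    ScsBorrow d wide b 1 := by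
  have h0 := scs_adm_neg hd hb
  refine ⟨-b 0, by linarith, fun ε hε => ?_⟩
  rcases eq_or_lt_of_le hb.lo with h | h
  · exact ⟨-1, le_rfl, by simpa using hb.lo, by simp only [Nat.sub_self]; linarith,
      scs_base hd wide b hb (-1) le_rfl (Or.inr rfl)⟩
  · refine ⟨max (-1) (b 0 - ε), le_max_left _ _, ?_, ?_, ?_⟩
    · simp only [Nat.sub_self]; exact max_le hb.lo (by linarith)
    · simp only [Nat.sub_self]; linarith [le_max_right (-1) (b 0 - ε)]
    · exact scs_base hd wide b hb _ (le_max_left _ _) (Or.inl (max_lt h (by linarith)))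

/-- from a plateau to the next cut -/
theorem scs_borrow_succ (wide : Bool) (b : ℕ → ℝ) (hb : SpAdm d b) (j : ℕ) (hj1 : 1 ≤ j)
    (hjd : j < d) (hpl : b (j - 1) < b j) (hon : ScsOn d wide b j) : ScsBorrow d wide b (j + 1) := by
  obtain ⟨c, hc, h⟩ := hon
  refine ⟨c, hc, fun ε hε => ?_⟩
  set κ := min ε ((b j - b (j - 1)) / 2) with hκ
  have hκ0 : 0 < κ := lt_min hε (by linarith)
  have hκ1 : κ ≤ ε := min_le_left _ _
  have hκ2 : κ ≤ (b j - b (j - 1)) / 2 := min_le_right _ _
  have hlo : -1 ≤ b (j - 1) := scs_adm_ge hb (by omega)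
  refine ⟨b j - κ, by linarith, by simp only [Nat.add_sub_cancel]; linarith,
    by simp only [Nat.add_sub_cancel]; linarith, h _ ⟨hjd.le, fun i hi => ?_, fun i hi hid => ?_⟩⟩
  · have := hb.mono i (j - 1) (by omega) (by omega)
    linarith
  · have := hb.mono j i hi hid
    linarith

/-- propagation: if on every nonempty plateau after `1 ≤ j < J` cuts a depth denominator with strict margin is available -/
theorem scs_borrow_all (hd : 3 ≤ d) (wide : Bool) (b : ℕ → ℝ) (hb : SpAdm d b) (J : ℕ) (hJ : J ≤ d)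
    (hdep : ∀ j, 1 ≤ j → j < J → b (j - 1) < b j → ∃ r : ℝ, DepStmt d wide b j r ∧ r + b j < 0) :
    ∀ j, 1 ≤ j → j ≤ J → ScsBorrow d wide b j := by
  intro j hj1
  induction j, hj1 using Nat.le_induction with
  | base => exact fun _ => scs_borrow_one hd wide b hb
  | succ j hj1 ih =>
    intro hjJ
    have hbor := ih (by omega)
    rcases eq_or_lt_of_le (hb.mono (j - 1) j (by omega) (by omega)) with h | h
    · obtain ⟨c, hc, hh⟩ := hbor
      refine ⟨c, hc, fun ε hε => ?_⟩
      obtain ⟨t', h1, h2, h3, h4⟩ := hh ε hε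
      exact ⟨t', h1, by simp only [Nat.add_sub_cancel]; linarith,
        by simp only [Nat.add_sub_cancel]; linarith, h4⟩
    · obtain ⟨r, hr1, hr2⟩ := hdep j hj1 (by omega) h
      exact scs_borrow_succ wide b hb j hj1 (by omega) h
        (scs_step hd wide b hb j hj1 (by omega) r hr1 hr2 hbor)

/-- the first-cut denominator has a strict margin on the hypersurface plateau and whenever `b j ≤ 0` -/
theorem scs_margin_first (hd : 3 ≤ d) (wide : Bool) (b : ℕ → ℝ) (hb : SpAdm d b) (j : ℕ)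
    (hj1 : 1 ≤ j) (hjd : j < d) (hpl : b (j - 1) < b j) (h : j = 1 ∨ b j ≤ 0) :
    ∃ r : ℝ, DepStmt d wide b j r ∧ r + b j < 0 := by
  refine ⟨b 0, dep_first hd wide b hb j hj1 hjd hpl, ?_⟩
  rcases h with rfl | h
  · exact scs_adm_two hd hb
  · linarith [scs_adm_neg hd hb]

/-- WIDER CENTRES -/
theorem scs_none_wide (hd : 3 ≤ d) (b : ℕ → ℝ) (hb : SpAdm d b) (α : ℝ) (hα : 0 < α) :
    ScsNone d true b α := by
  refine scs_strict_final hd true b hb (scs_borrow_all hd true b hb d le_rfl ?_ d (by omega) le_rfl)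
    α hα
  intro j hj1 hjd hpl
  by_cases h : j = 1 ∨ b j ≤ 0
  · exact scs_margin_first hd true b hb j hj1 hjd hpl h
  · push Not at h
    exact ⟨-2, dep_wide hd b hb j (by omega) hjd hpl h.2, by linarith [scs_adm_le hb hjd]⟩

/-- NARROWER CENTRES -/
theorem scs_none_narrow (hd : 3 ≤ d) (b : ℕ → ℝ) (hb : SpAdm d b) (α : ℝ) (hα : 0 < α) :
    ScsNone d false b α := by
  have hbor : ScsBorrow d false b (d - 1) := by
    refine scs_borrow_all hd false b hb (d - 1) (by omega) ?_ (d - 1) (by omega) le_rfl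
    intro j hj1 hjd hpl
    by_cases h : j = 1 ∨ b j ≤ 0
    · exact scs_margin_first hd false b hb j hj1 (by omega) hpl h
    · push Not at h
      refine ⟨_, dep_narrow hd b hb j hj1 (by omega), ?_⟩
      have h1 : ∑ i ∈ Finset.Ico j d, b i = b j + ∑ i ∈ Finset.Ico (j + 1) d, b i :=
        Finset.sum_eq_sum_Ico_succ_bot (by omega) _
      have h2 : 0 < ∑ i ∈ Finset.Ico (j + 1) d, b i := by
        refine Finset.sum_pos (fun i hi => ?_) ⟨j + 1, Finset.mem_Ico.mpr ⟨le_rfl, by omega⟩⟩
        have hi' := Finset.mem_Ico.mp hi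
        exact lt_of_lt_of_le h.2 (hb.mono j i (by omega) hi'.2)
      linarith
  rcases eq_or_lt_of_le (hb.mono (d - 2) (d - 1) (by omega) (by omega)) with h | h
  · refine scs_strict_final hd false b hb ?_ α hα
    obtain ⟨c, hc, hh⟩ := hbor
    refine ⟨c, hc, fun ε hε => ?_⟩
    obtain ⟨t', h1, h2, h3, h4⟩ := hh ε hε
    have e : d - 1 - 1 = d - 2 := by omega
    rw [e] at h2 h3
    exact ⟨t', h1, by linarith, by linarith, h4⟩
  · exact scs_last hd b hb h hbor (dep_narrow hd b hb (d - 1) (by omega) (by omega)) α hα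

/-- **No configuration in separated windows.** -/
theorem scs_noSep (hd : 3 ≤ d) : SpNoSep d := by
  intro b α hα
  by_cases hb : SpAdm d b
  · obtain ⟨θw, hθw, hw⟩ := scs_none_wide hd b hb α hα
    obtain ⟨θn, hθn, hn⟩ := scs_none_narrow hd b hb α hα
    refine ⟨min (min θw θn) 1, lt_min (lt_min hθw hθn) one_pos, fun 𝔠 hok hsep => ?_⟩
    have h0 : 0 < min (min θw θn) 1 := lt_min (lt_min hθw hθn) one_pos
    have h1 : min (min θw θn) 1 ≤ 1 := min_le_right _ _
    have hlw : min (min θw θn) 1 ≤ θw := (min_le_left _ _).trans (min_le_left _ _)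
    have hln : min (min θw θn) 1 ≤ θn := (min_le_left _ _).trans (min_le_right _ _)
    have hsw := hsep.mono hok h0 hlw
    have hsn := hsep.mono hok h0 hln
    have hv : 0 ≤ 𝔠.v := le_trans (by positivity) hok.okX.s_ge
    have hs : 0 ≤ 𝔠.s := le_trans (by positivity) hok.okY.s_ge
    rcases hsep.1 with h | h
    · exact hn 𝔠 (hok.mono h0 hln h1) hsn
        ⟨fun e => by simp at e, fun _ => h.trans (mul_le_mul_of_nonneg_right hln hs)⟩
    · exact hw 𝔠 (hok.mono h0 hlw h1) hsw
        ⟨fun _ => h.trans (mul_le_mul_of_nonneg_right hlw hv), fun e => by simp at e⟩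
  · obtain ⟨θ, hθ, h⟩ := scs_not_adm hd b hb
    exact ⟨θ, hθ, fun 𝔠 hok _ => h 𝔠 α hok⟩

end Claimed.Agent.R273
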