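/-
LIB-ST (row273): point-circle incidences by polynomial partitioning, the planar distinct distance
bound `n^{3/4}` and the plane cap.  This REPLACES the second half of Appendix B (two-rich points,
ruled surfaces, Guth-Katz `n / log n`): the body of the paper only needs an exponent `> 2/3`.
-/
import Claimed.Agent.R273.StPlane
import Claimed.Agent.R273.Defs

set_option autoImplicit false

namespace Claimed.Agent.R273

open scoped Classical
open Claims.C0444

/-- `x` lies on the circle with centre `(c.1, c.2.1)` and SQUARED radius `c.2.2`. -/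
def stOnCircle (c : ℝ × ℝ × ℝ) (x : Fin 2 → ℝ) : Prop :=
  (x 0 - c.1) ^ 2 + (x 1 - c.2.1) ^ 2 = c.2.2

/-- **ST-7a** rational curves: for polynomials `X i`, `W` of degree `≤ e` and `p` of total degree `D` the
function `W(t)^D p(X(t)/W(t))` is a polynomial of degree `≤ e D`. -/
theorem st_ratcurve {n : ℕ} (e : ℕ) (X : Fin n → Polynomial ℝ) (W : Polynomial ℝ)
    (hX : ∀ i, (X i).natDegree ≤ e) (hW : W.natDegree ≤ e) (p : MvPolynomial (Fin n) ℝ) :
    ∃ q : Polynomial ℝ, q.natDegree ≤ e * p.totalDegree ∧ ∀ t : ℝ, W.eval t ≠ 0 →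
      q.eval t = (W.eval t) ^ p.totalDegree *
        MvPolynomial.eval (fun i => (X i).eval t / W.eval t) p := by
  have hdeg : ∀ d ∈ p.support, ∑ i, d i ≤ p.totalDegree := by
    intro d hd
    have := MvPolynomial.le_totalDegree hd
    rwa [Finsupp.sum_fintype _ _ (fun _ => rfl)] at this
  refine ⟨∑ d ∈ p.support, Polynomial.C (MvPolynomial.coeff d p) * ((∏ i, X i ^ d i) *
    W ^ (p.totalDegree - ∑ i, d i)), ?_, ?_⟩
  · apply Polynomial.natDegree_sum_le_of_forall_le
    intro d hd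
    have h1 : (∏ i, X i ^ d i).natDegree ≤ e * ∑ i, d i := by
      calc (∏ i, X i ^ d i).natDegree ≤ ∑ i, (X i ^ d i).natDegree := Polynomial.natDegree_prod_le _ _
        _ ≤ ∑ i, e * d i := by
            apply Finset.sum_le_sum
            intro i _
            calc (X i ^ d i).natDegree ≤ d i * (X i).natDegree := Polynomial.natDegree_pow_le
              _ ≤ d i * e := Nat.mul_le_mul_left _ (hX i)
              _ = e * d i := Nat.mul_comm _ _
        _ = e * ∑ i, d i := by rw [Finset.mul_sum]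
    have h2 : (W ^ (p.totalDegree - ∑ i, d i)).natDegree ≤ e * (p.totalDegree - ∑ i, d i) := by
      calc (W ^ (p.totalDegree - ∑ i, d i)).natDegree ≤ (p.totalDegree - ∑ i, d i) * W.natDegree :=
            Polynomial.natDegree_pow_le
        _ ≤ (p.totalDegree - ∑ i, d i) * e := Nat.mul_le_mul_left _ hW
        _ = _ := Nat.mul_comm _ _
    calc (Polynomial.C (MvPolynomial.coeff d p) * ((∏ i, X i ^ d i) *
          W ^ (p.totalDegree - ∑ i, d i))).natDegree
        ≤ ((∏ i, X i ^ d i) * W ^ (p.totalDegree - ∑ i, d i)).natDegree :=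
          Polynomial.natDegree_C_mul_le _ _
      _ ≤ (∏ i, X i ^ d i).natDegree + (W ^ (p.totalDegree - ∑ i, d i)).natDegree :=
          Polynomial.natDegree_mul_le
      _ ≤ e * ∑ i, d i + e * (p.totalDegree - ∑ i, d i) := Nat.add_le_add h1 h2
      _ = e * p.totalDegree := by
          rw [← Nat.mul_add, Nat.add_sub_cancel' (hdeg d hd)]
  · intro t ht
    rw [Polynomial.eval_finsetSum, MvPolynomial.eval_eq', Finset.mul_sum]
    refine Finset.sum_congr rfl fun d hd => ?_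
    rw [Polynomial.eval_mul, Polynomial.eval_C, Polynomial.eval_mul, Polynomial.eval_pow,
      Polynomial.eval_prod]
    simp only [Polynomial.eval_pow, div_pow]
    rw [Finset.prod_div_distrib, Finset.prod_pow_eq_pow_sum]
    have h3 : W.eval t ^ p.totalDegree
        = W.eval t ^ (p.totalDegree - ∑ i, d i) * W.eval t ^ (∑ i, d i) := by
      rw [← pow_add, Nat.sub_add_cancel (hdeg d hd)]
    rw [h3]
    have h4 : W.eval t ^ (∑ i, d i) ≠ 0 := pow_ne_zero _ ht
    field_simp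

/-- **ST-7b** the rational parametrisation of a circle: every point except `(a - ρ, b)`. -/
theorem st_circle_param (a b ρ : ℝ) (hρ : 0 < ρ) (x : Fin 2 → ℝ) :
    stOnCircle (a, b, ρ ^ 2) x ↔ (x 0 = a - ρ ∧ x 1 = b) ∨
      ∃ t : ℝ, x 0 = (a * (1 + t ^ 2) + ρ * (1 - t ^ 2)) / (1 + t ^ 2) ∧
        x 1 = (b * (1 + t ^ 2) + ρ * (2 * t)) / (1 + t ^ 2) := by
  unfold stOnCircle
  simp only
  constructor
  · intro h
    by_cases h0 : x 0 - a + ρ = 0
    · left
      have h1 : x 0 = a - ρ := by linarith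
      refine ⟨h1, ?_⟩
      rw [h1] at h
      have : (x 1 - b) ^ 2 = 0 := by nlinarith
      have := pow_eq_zero_iff (two_ne_zero) |>.1 this
      linarith
    · right
      refine ⟨(x 1 - b) / (x 0 - a + ρ), ?_⟩
      have h2 : (x 0 - a + ρ) ^ 2 + (x 1 - b) ^ 2 = 2 * ρ * (x 0 - a + ρ) := by nlinarith
      have h5 : 0 < (x 0 - a + ρ) ^ 2 := by positivity
      have h3 : 1 + ((x 1 - b) / (x 0 - a + ρ)) ^ 2 = 2 * ρ / (x 0 - a + ρ) := by
        field_simp
        linarith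
      have h4 : 2 * ρ / (x 0 - a + ρ) ≠ 0 := by
        apply div_ne_zero _ h0
        positivity
      constructor
      · rw [eq_div_iff (by rw [h3]; exact h4)]
        have : (1 - ((x 1 - b) / (x 0 - a + ρ)) ^ 2) = 2 - 2 * ρ / (x 0 - a + ρ) := by linarith
        rw [this, h3]
        field_simp
        ring
      · rw [eq_div_iff (by rw [h3]; exact h4), h3]
        field_simp
        ring
  · rintro (⟨h0, h1⟩ | ⟨t, h0, h1⟩)
    · rw [h0, h1]; ring
    · have : (1 + t ^ 2) ≠ 0 := by positivity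
      rw [h0, h1]
      field_simp
      ring


/-- the rational parametrisation of the circle -/
noncomputable def stcPt (a b ρ t : ℝ) : Fin 2 → ℝ :=
  ![(a * (1 + t ^ 2) + ρ * (1 - t ^ 2)) / (1 + t ^ 2), (b * (1 + t ^ 2) + ρ * (2 * t)) / (1 + t ^ 2)]

theorem stc_tendsto (a b ρ : ℝ) :
    Filter.Tendsto (stcPt a b ρ) Filter.atTop (nhds ![a - ρ, b]) := by
  have hsq : Filter.Tendsto (fun t : ℝ => 1 + t ^ 2) Filter.atTop Filter.atTop :=
    Filter.tendsto_atTop_add_const_left _ _ (Filter.tendsto_pow_atTop two_ne_zero)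
  have h1 : Filter.Tendsto (fun t : ℝ => (1 + t ^ 2)⁻¹) Filter.atTop (nhds 0) :=
    tendsto_inv_atTop_zero.comp hsq
  have h2 : Filter.Tendsto (fun t : ℝ => t * (1 + t ^ 2)⁻¹) Filter.atTop (nhds 0) := by
    refine squeeze_zero' ?_ ?_ tendsto_inv_atTop_zero
    · filter_upwards [Filter.eventually_ge_atTop (0 : ℝ)] with t ht
      positivity
    · filter_upwards [Filter.eventually_gt_atTop (0 : ℝ)] with t ht
      rw [← div_eq_mul_inv, div_le_iff₀ (by positivity)]
      field_simp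
      nlinarith
  rw [tendsto_pi_nhds]
  intro i
  fin_cases i
  · have h3 : Filter.Tendsto (fun t : ℝ => a - ρ + 2 * ρ * (1 + t ^ 2)⁻¹) Filter.atTop
        (nhds (a - ρ + 2 * ρ * 0)) := tendsto_const_nhds.add (h1.const_mul _)
    rw [mul_zero, add_zero] at h3
    refine h3.congr fun t => ?_
    have : (1 + t ^ 2) ≠ 0 := by positivity
    simp only [stcPt, Fin.zero_eta, Matrix.cons_val_zero]
    field_simp
    ring
  · have h3 : Filter.Tendsto (fun t : ℝ => b + 2 * ρ * (t * (1 + t ^ 2)⁻¹)) Filter.atTop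
        (nhds (b + 2 * ρ * 0)) := tendsto_const_nhds.add (h2.const_mul _)
    rw [mul_zero, add_zero] at h3
    refine h3.congr fun t => ?_
    have : (1 + t ^ 2) ≠ 0 := by positivity
    simp only [stcPt, Fin.mk_one, Matrix.cons_val_one, Matrix.cons_val_zero]
    field_simp

theorem stc_exc (a b ρ : ℝ) (f : MvPolynomial (Fin 2) ℝ)
    (h : ∀ t, MvPolynomial.eval (stcPt a b ρ t) f = 0) : MvPolynomial.eval ![a - ρ, b] f = 0 := by
  have h1 : Filter.Tendsto (fun t => MvPolynomial.eval (stcPt a b ρ t) f) Filter.atTop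
      (nhds (MvPolynomial.eval ![a - ρ, b] f)) :=
    ((MvPolynomial.continuous_eval f).tendsto _).comp (stc_tendsto a b ρ)
  simp only [h] at h1
  exact tendsto_nhds_unique h1 tendsto_const_nhds

theorem stc_on_iff (a b ρ : ℝ) (hρ : 0 < ρ) (x : Fin 2 → ℝ) :
    stOnCircle (a, b, ρ ^ 2) x ↔ x = ![a - ρ, b] ∨ ∃ t, x = stcPt a b ρ t := by
  rw [st_circle_param a b ρ hρ]
  constructor
  · rintro (⟨h0, h1⟩ | ⟨t, h0, h1⟩)
    · left
      funext i
      fin_cases i
      · simpa using h0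
      · simpa using h1
    · right
      refine ⟨t, ?_⟩
      funext i
      fin_cases i
      · simpa [stcPt] using h0
      · simpa [stcPt] using h1
  · rintro (rfl | ⟨t, rfl⟩)
    · left; simp
    · right; exact ⟨t, by simp [stcPt], by simp [stcPt]⟩

theorem stc_sgn_mul {σ : Bool} {w v : ℝ} (hw : 0 < w) : buSgn σ (w * v) ↔ buSgn σ v := by
  unfold buSgn
  cases σ
  · simp only [Bool.false_eq_true, if_false]
    constructor
    · intro h; by_contra h'; push Not at h'; nlinarith [mul_nonneg hw.le h']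
    · intro h; exact mul_neg_of_pos_of_neg hw h
  · simp only [if_true]
    exact mul_pos_iff_of_pos_left hw

/-- the univariate polynomials attached to a circle -/
theorem stc_polys {J : ℕ} (f : Fin J → MvPolynomial (Fin 2) ℝ) (a b ρ : ℝ) (hρ : 0 < ρ)
    (hne : ∀ j, ∃ x, stOnCircle (a, b, ρ ^ 2) x ∧ MvPolynomial.eval x (f j) ≠ 0) :
    ∃ g : Fin J → Polynomial ℝ, (∀ j, g j ≠ 0) ∧ (∀ j, (g j).natDegree ≤ 2 * (f j).totalDegree) ∧
      ∀ j t, ∃ w : ℝ, 0 < w ∧ (g j).eval t = w * MvPolynomial.eval (stcPt a b ρ t) (f j) := by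
  set W : Polynomial ℝ := 1 + Polynomial.X ^ 2 with hW
  set Xs : Fin 2 → Polynomial ℝ := ![Polynomial.C a * (1 + Polynomial.X ^ 2) +
    Polynomial.C ρ * (1 - Polynomial.X ^ 2), Polynomial.C b * (1 + Polynomial.X ^ 2) +
    Polynomial.C ρ * (2 * Polynomial.X)] with hXs
  have hWd : W.natDegree ≤ 2 := by rw [hW]; compute_degree
  have hXd : ∀ i, (Xs i).natDegree ≤ 2 := by
    intro i
    fin_cases i
    · simp only [hXs, Fin.zero_eta, Matrix.cons_val_zero]; compute_degree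
    · simp only [hXs, Fin.mk_one, Matrix.cons_val_one, Matrix.cons_val_zero]; compute_degree
  have hWe : ∀ t : ℝ, W.eval t = 1 + t ^ 2 := by intro t; simp [hW]
  have hWpos : ∀ t : ℝ, 0 < W.eval t := by intro t; rw [hWe]; positivity
  have hpt : ∀ t : ℝ, (fun i => (Xs i).eval t / W.eval t) = stcPt a b ρ t := by
    intro t
    funext i
    fin_cases i
    · simp [hXs, hWe, stcPt]
    · simp [hXs, hWe, stcPt]
  choose g hg1 hg2 using fun j => st_ratcurve 2 Xs W hXd hWd (f j)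
  have hg3 : ∀ j t, (g j).eval t = W.eval t ^ (f j).totalDegree *
      MvPolynomial.eval (stcPt a b ρ t) (f j) := by
    intro j t
    rw [hg2 j t (hWpos t).ne', hpt]
  refine ⟨g, fun j h0 => ?_, hg1, fun j t => ⟨_, pow_pos (hWpos t) _, hg3 j t⟩⟩
  have hz : ∀ t, MvPolynomial.eval (stcPt a b ρ t) (f j) = 0 := by
    intro t
    have := hg3 j t
    rw [h0, Polynomial.eval_zero] at this
    rcases mul_eq_zero.1 this.symm with h | h
    · exact absurd h (pow_pos (hWpos t) _).ne'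
    · exact h
  obtain ⟨x, hx, hxf⟩ := hne j
  rcases (stc_on_iff a b ρ hρ x).1 hx with rfl | ⟨t, rfl⟩
  · exact hxf (stc_exc a b ρ (f j) hz)
  · exact hxf (hz t)

/-- **ST-7c** a circle on which no `f j` vanishes identically meets at most `2 D + 2` sign classes and
contains at most `2 D + 1` zeros of `∏ f j`, `D = ∑ deg f j`.  (`st_ratcurve`, `st_circle_param`,
`bu_sign_classes`.) -/
theorem st_circle_cells {J : ℕ} (f : Fin J → MvPolynomial (Fin 2) ℝ) (c : ℝ × ℝ × ℝ)
    (hc : 0 < c.2.2) (hne : ∀ j, ∃ x, stOnCircle c x ∧ MvPolynomial.eval x (f j) ≠ 0) :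
    (Finset.univ.filter (fun σ : Fin J → Bool => ∃ x, stOnCircle c x ∧
      ∀ j, buSgn (σ j) (MvPolynomial.eval x (f j)))).card ≤ 2 * ∑ j, (f j).totalDegree + 2 ∧
    ∀ T : Finset (Fin 2 → ℝ), (∀ x ∈ T, stOnCircle c x ∧ ∃ j, MvPolynomial.eval x (f j) = 0) →
      T.card ≤ 2 * ∑ j, (f j).totalDegree + 1 := by
  obtain ⟨a, b, s⟩ := c
  simp only at hc
  obtain ⟨ρ, hρ, rfl⟩ : ∃ ρ : ℝ, 0 < ρ ∧ s = ρ ^ 2 :=
    ⟨Real.sqrt s, Real.sqrt_pos.2 hc, (Real.sq_sqrt hc.le).symm⟩
  obtain ⟨g, hg0, hgd, hge⟩ := stc_polys f a b ρ hρ hne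
  have hsum : ∑ j, (g j).natDegree ≤ 2 * ∑ j, (f j).totalDegree := by
    rw [Finset.mul_sum]
    exact Finset.sum_le_sum fun j _ => hgd j
  constructor
  · have h1 := bu_sign_classes g hg0
    have hsub : (Finset.univ.filter (fun σ : Fin J → Bool => ∃ x, stOnCircle (a, b, ρ ^ 2) x ∧
        ∀ j, buSgn (σ j) (MvPolynomial.eval x (f j)))) ⊆
        insert (fun j => decide (0 < MvPolynomial.eval ![a - ρ, b] (f j)))
          (Finset.univ.filter (fun σ : Fin J → Bool => ∃ t : ℝ, ∀ j, buSgn (σ j) ((g j).eval t))) := by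
      intro σ hσ
      obtain ⟨x, hx, hs⟩ := (Finset.mem_filter.1 hσ).2
      rcases (stc_on_iff a b ρ hρ x).1 hx with rfl | ⟨t, rfl⟩
      · apply Finset.mem_insert.2
        left
        funext j
        have := hs j
        unfold buSgn at this
        cases h3 : σ j
        · simp only [h3, Bool.false_eq_true, if_false] at this
          simp [this.le]
        · simp only [h3, if_true] at this
          simp [this]
      · apply Finset.mem_insert_of_mem
        refine Finset.mem_filter.2 ⟨Finset.mem_univ _, t, fun j => ?_⟩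
        obtain ⟨w, hw, he⟩ := hge j t
        rw [he, stc_sgn_mul hw]
        exact hs j
    refine (Finset.card_le_card hsub).trans ((Finset.card_insert_le _ _).trans ?_)
    omega
  · intro T hT
    set G : Polynomial ℝ := ∏ j, g j with hG
    have hG0 : G ≠ 0 := Finset.prod_ne_zero_iff.2 fun j _ => hg0 j
    have hsub : T ⊆ insert ![a - ρ, b] (G.roots.toFinset.image (stcPt a b ρ)) := by
      intro x hx
      obtain ⟨hxc, j, hj⟩ := hT x hx
      rcases (stc_on_iff a b ρ hρ x).1 hxc with rfl | ⟨t, rfl⟩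
      · exact Finset.mem_insert_self _ _
      · apply Finset.mem_insert_of_mem
        refine Finset.mem_image.2 ⟨t, ?_, rfl⟩
        rw [Multiset.mem_toFinset, Polynomial.mem_roots hG0, Polynomial.IsRoot.def, hG,
          Polynomial.eval_prod]
        refine Finset.prod_eq_zero (Finset.mem_univ j) ?_
        obtain ⟨w, hw, he⟩ := hge j t
        rw [he, hj, mul_zero]
    have hR : G.roots.toFinset.card ≤ ∑ j, (g j).natDegree := by
      calc G.roots.toFinset.card ≤ Multiset.card G.roots := Multiset.toFinset_card_le _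
        _ ≤ G.natDegree := Polynomial.card_roots' G
        _ = ∑ j, (g j).natDegree := Polynomial.natDegree_prod _ _ (fun j _ => hg0 j)
    have h2 := (Finset.card_le_card hsub).trans (Finset.card_insert_le _ _)
    have h3 : (G.roots.toFinset.image (stcPt a b ρ)).card ≤ G.roots.toFinset.card :=
      Finset.card_image_le
    omega

theorem stc_aff_ne_zero (w : Fin 2 → ℝ) (β : ℝ) (hw : w ≠ 0) : pkAff w β ≠ 0 := by
  intro h0
  apply hw
  have h1 := pk_aff_eval w β w
  have h2 := pk_aff_eval w β 0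
  rw [h0, map_zero] at h1 h2
  simp only [Pi.zero_apply, mul_zero, Finset.sum_const_zero, zero_add] at h2
  rw [← h2, add_zero] at h1
  funext j
  have h3 : ∀ j ∈ Finset.univ, 0 ≤ w j * w j := fun j _ => mul_self_nonneg _
  have h4 := (Finset.sum_eq_zero_iff_of_nonneg h3).1 h1.symm j (Finset.mem_univ _)
  exact mul_self_eq_zero.1 h4

/-- **ST-7d** a point lies on at most `deg F` circles contained in `Z(F)`, `F ≠ 0`.

Proof.  Let `c_1..c_q` be distinct circles through `x` inside `Z(F)`.  Choose `z` with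
`F z ≠ 0`, `z` not on the tangent line of any `c_i` at `x`, and not on the line through `x` and the second
common point of `c_i, c_j` (`pk_common_ne`: a product of `F` and of linear forms).  The line through
`x` and `z` meets every `c_i` in a second point `≠ x`, these `q` points are distinct: `q + 1 ≤ deg F`. -/
theorem st_circles_through (F : MvPolynomial (Fin 2) ℝ) (hF : F ≠ 0) (x : Fin 2 → ℝ)
    (K : Finset (ℝ × ℝ × ℝ))
    (hK : ∀ c ∈ K, 0 < c.2.2 ∧ stOnCircle c x ∧ ∀ y, stOnCircle c y → MvPolynomial.eval y F = 0) :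
    K.card ≤ F.totalDegree := by
  rcases K.eq_empty_or_nonempty with rfl | ⟨c0, hc0⟩
  · simp
  have hFx : MvPolynomial.eval x F = 0 := (hK c0 hc0).2.2 x (hK c0 hc0).2.1
  -- the difference of the centres
  set dw : (ℝ × ℝ × ℝ) × (ℝ × ℝ × ℝ) → Fin 2 → ℝ := fun y => ![y.1.1 - y.2.1, y.1.2.1 - y.2.2.1]
    with hdw
  have hdw0 : ∀ c ∈ K, ∀ c' ∈ K, c ≠ c' → dw (c, c') ≠ 0 := by
    intro c hc c' hc' hne h0
    apply hne
    have e0 := congrFun h0 0
    have e1 := congrFun h0 1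
    simp only [hdw, Matrix.cons_val_zero, Matrix.cons_val_one, Pi.zero_apply] at e0 e1
    have h1 := (hK c hc).2.1
    have h2 := (hK c' hc').2.1
    unfold stOnCircle at h1 h2
    have e0' : c.1 = c'.1 := by linarith
    have e1' : c.2.1 = c'.2.1 := by linarith
    have e2' : c.2.2 = c'.2.2 := by rw [← h1, ← h2, e0', e1']
    exact Prod.ext e0' (Prod.ext e1' e2')
  set T : Finset (MvPolynomial (Fin 2) ℝ) := insert F
    (((K ×ˢ K).filter (fun y => y.1 ≠ y.2)).image (fun y => pkAff (dw y) (-(∑ i, dw y i * x i))))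
    with hT
  obtain ⟨z, hz⟩ := pk_common_ne T id (by
    intro p hp
    rcases Finset.mem_insert.1 hp with rfl | hp
    · exact hF
    · obtain ⟨⟨c, c'⟩, hy, rfl⟩ := Finset.mem_image.1 hp
      obtain ⟨hy1, hne⟩ := Finset.mem_filter.1 hy
      obtain ⟨hc, hc'⟩ := Finset.mem_product.1 hy1
      exact stc_aff_ne_zero _ _ (hdw0 c hc c' hc' hne))
  have hzF : MvPolynomial.eval z F ≠ 0 := hz F (Finset.mem_insert_self _ _)
  set v : Fin 2 → ℝ := z - x with hv
  have hpair : ∀ c ∈ K, ∀ c' ∈ K, c ≠ c' →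
      (c.1 - c'.1) * v 0 + (c.2.1 - c'.2.1) * v 1 ≠ 0 := by
    intro c hc c' hc' hne
    have := hz (pkAff (dw (c, c')) (-(∑ i, dw (c, c') i * x i))) (Finset.mem_insert_of_mem
      (Finset.mem_image.2 ⟨(c, c'), Finset.mem_filter.2 ⟨Finset.mem_product.2 ⟨hc, hc'⟩, hne⟩, rfl⟩))
    simp only [id, pk_aff_eval, Fin.sum_univ_two, hdw, Matrix.cons_val_zero, Matrix.cons_val_one] at this
    intro h0
    apply this
    simp only [hv, Pi.sub_apply] at h0
    linarith
  have hvv : 0 < v 0 ^ 2 + v 1 ^ 2 := by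
    by_contra hcon
    have h0 : v 0 ^ 2 + v 1 ^ 2 = 0 := le_antisymm (not_lt.1 hcon) (by positivity)
    have a0 : v 0 = 0 := by nlinarith [sq_nonneg (v 0), sq_nonneg (v 1)]
    have a1 : v 1 = 0 := by nlinarith [sq_nonneg (v 0), sq_nonneg (v 1)]
    apply hzF
    have : z = x := by
      funext i
      fin_cases i
      · simp only [hv, Pi.sub_apply] at a0; simpa using (by linarith : z 0 = x 0)
      · simp only [hv, Pi.sub_apply] at a1; simpa using (by linarith : z 1 = x 1)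
    rw [this]; exact hFx
  -- the second intersection point
  set τ : ℝ × ℝ × ℝ → ℝ := fun c => -2 * ((x 0 - c.1) * v 0 + (x 1 - c.2.1) * v 1) / (v 0 ^ 2 + v 1 ^ 2)
    with hτ
  have hinj : Set.InjOn τ (K : Set (ℝ × ℝ × ℝ)) := by
    intro c hc c' hc' h
    by_contra hne
    apply hpair c hc c' hc' hne
    simp only [hτ] at h
    rw [div_left_inj' hvv.ne'] at h
    linarith
  rw [← Finset.card_image_of_injOn hinj]
  apply pk_line_zeros F x v
  · refine ⟨1, ?_⟩
    have : x + (1 : ℝ) • v = z := by rw [one_smul, hv]; abel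
    rw [this]; exact hzF
  · intro t ht
    obtain ⟨c, hc, rfl⟩ := Finset.mem_image.1 ht
    apply (hK c hc).2.2
    have h1 := (hK c hc).2.1
    unfold stOnCircle at h1 ⊢
    simp only [Pi.add_apply, Pi.smul_apply, smul_eq_mul]
    have e : τ c * (v 0 ^ 2 + v 1 ^ 2) = -2 * ((x 0 - c.1) * v 0 + (x 1 - c.2.1) * v 1) := by
      simp only [hτ]
      field_simp
    rw [← h1]
    linear_combination (τ c) * e

theorem stc_sq_pos {a b : ℝ} (h : ¬ (a = 0 ∧ b = 0)) : 0 < a ^ 2 + b ^ 2 := by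
  by_contra hcon
  have h0 : a ^ 2 + b ^ 2 = 0 := le_antisymm (not_lt.1 hcon) (by positivity)
  have a0 : a ^ 2 = 0 := by nlinarith [sq_nonneg a, sq_nonneg b]
  have a1 : b ^ 2 = 0 := by nlinarith [sq_nonneg a, sq_nonneg b]
  exact h ⟨pow_eq_zero_iff two_ne_zero |>.1 a0, pow_eq_zero_iff two_ne_zero |>.1 a1⟩

/-- three distinct points lie on at most one circle -/
theorem stc_three (c c' : ℝ × ℝ × ℝ) (p q r : Fin 2 → ℝ) (hpq : p ≠ q) (hpr : p ≠ r) (hqr : q ≠ r)
    (h1 : stOnCircle c p) (h2 : stOnCircle c q) (h3 : stOnCircle c r)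
    (h1' : stOnCircle c' p) (h2' : stOnCircle c' q) (h3' : stOnCircle c' r) : c = c' := by
  unfold stOnCircle at *
  have hext : ∀ a b : Fin 2 → ℝ, a 0 = b 0 → a 1 = b 1 → a = b := by
    intro a b e0 e1
    funext i
    fin_cases i
    · exact e0
    · exact e1
  set u0 := q 0 - p 0 with hu0
  set u1 := q 1 - p 1 with hu1
  set v0 := r 0 - p 0 with hv0
  set v1 := r 1 - p 1 with hv1
  set e0 := p 0 - c.1 with he0
  set e1 := p 1 - c.2.1 with he1
  set e0' := p 0 - c'.1 with he0'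
  set e1' := p 1 - c'.2.1 with he1'
  have g1 : 2 * (u0 * e0 + u1 * e1) + (u0 ^ 2 + u1 ^ 2) = 0 := by
    simp only [hu0, hu1, he0, he1]; linear_combination h2 - h1
  have g2 : 2 * (v0 * e0 + v1 * e1) + (v0 ^ 2 + v1 ^ 2) = 0 := by
    simp only [hv0, hv1, he0, he1]; linear_combination h3 - h1
  have g1' : 2 * (u0 * e0' + u1 * e1') + (u0 ^ 2 + u1 ^ 2) = 0 := by
    simp only [hu0, hu1, he0', he1']; linear_combination h2' - h1'
  have g2' : 2 * (v0 * e0' + v1 * e1') + (v0 ^ 2 + v1 ^ 2) = 0 := by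
    simp only [hv0, hv1, he0', he1']; linear_combination h3' - h1'
  have hU : 0 < u0 ^ 2 + u1 ^ 2 := by
    apply stc_sq_pos
    rintro ⟨a0, a1⟩
    exact hpq (hext _ _ (by simp only [hu0] at a0; linarith) (by simp only [hu1] at a1; linarith))
  have hV : 0 < v0 ^ 2 + v1 ^ 2 := by
    apply stc_sq_pos
    rintro ⟨a0, a1⟩
    exact hpr (hext _ _ (by simp only [hv0] at a0; linarith) (by simp only [hv1] at a1; linarith))
  by_cases hdet : u0 * v1 - u1 * v0 = 0
  · exfalso
    have k0 : (u0 ^ 2 + u1 ^ 2) * v0 = (v0 ^ 2 + v1 ^ 2) * u0 := by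
      linear_combination v0 * g1 - u0 * g2 + 2 * e1 * hdet
    have k1 : (u0 ^ 2 + u1 ^ 2) * v1 = (v0 ^ 2 + v1 ^ 2) * u1 := by
      linear_combination v1 * g1 - u1 * g2 - 2 * e0 * hdet
    have k2 : (u0 ^ 2 + u1 ^ 2) * (v0 ^ 2 + v1 ^ 2) * ((u0 ^ 2 + u1 ^ 2) - (v0 ^ 2 + v1 ^ 2)) = 0 := by
      linear_combination ((u0 ^ 2 + u1 ^ 2) * v0 + (v0 ^ 2 + v1 ^ 2) * u0) * k0 +
        ((u0 ^ 2 + u1 ^ 2) * v1 + (v0 ^ 2 + v1 ^ 2) * u1) * k1
    have k3 : (u0 ^ 2 + u1 ^ 2) = (v0 ^ 2 + v1 ^ 2) := by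
      rcases mul_eq_zero.1 k2 with h | h
      · exact absurd h (mul_pos hU hV).ne'
      · linarith
    rw [← k3] at k0 k1
    have m0 : v0 = u0 := mul_left_cancel₀ hU.ne' k0
    have m1 : v1 = u1 := mul_left_cancel₀ hU.ne' k1
    exact hqr (hext _ _ (by simp only [hu0, hv0] at m0; linarith) (by simp only [hu1, hv1] at m1; linarith))
  · have d0 : (u0 * v1 - u1 * v0) * (e0 - e0') = 0 := by
      linear_combination (v1 / 2) * (g1 - g1') - (u1 / 2) * (g2 - g2')
    have d1 : (u0 * v1 - u1 * v0) * (e1 - e1') = 0 := by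
      linear_combination (u0 / 2) * (g2 - g2') - (v0 / 2) * (g1 - g1')
    have f0 : e0 - e0' = 0 := (mul_eq_zero.1 d0).resolve_left hdet
    have f1 : e1 - e1' = 0 := (mul_eq_zero.1 d1).resolve_left hdet
    have a0 : c.1 = c'.1 := by simp only [he0, he0'] at f0; linarith
    have a1 : c.2.1 = c'.2.1 := by simp only [he1, he1'] at f1; linarith
    have a2 : c.2.2 = c'.2.2 := by
      rw [← h1, ← h1', sub_eq_zero.1 f0, sub_eq_zero.1 f1]
    exact Prod.ext a0 (Prod.ext a1 a2)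

/-- abstract form of the trivial bound: two of the sets `A i` share at most two elements -/
theorem stc_triv_abs {ι α : Type} (I : Finset ι) (S : Finset α) (A : ι → Finset α)
    (hA : ∀ i ∈ I, A i ⊆ S)
    (h3 : ∀ i ∈ I, ∀ j ∈ I, ∀ x y z, x ≠ y → x ≠ z → y ≠ z → x ∈ A i → y ∈ A i → z ∈ A i →
      x ∈ A j → y ∈ A j → z ∈ A j → i = j) :
    ∑ i ∈ I, (A i).card ≤ S.card ^ 3 + 2 * I.card := by
  set B : ι → Finset (α × α × α) := fun i => ((A i) ×ˢ (A i) ×ˢ (A i)).filter
    (fun t => t.1 ≠ t.2.1 ∧ t.1 ≠ t.2.2 ∧ t.2.1 ≠ t.2.2) with hB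
  have h1 : ∑ i ∈ I, (B i).card ≤ S.card ^ 3 := by
    rw [← Finset.card_biUnion]
    · have : S.card ^ 3 = (S ×ˢ S ×ˢ S).card := by
        rw [Finset.card_product, Finset.card_product]; ring
      rw [this]
      apply Finset.card_le_card
      intro z hz
      obtain ⟨i, hi, hzi⟩ := Finset.mem_biUnion.1 hz
      obtain ⟨hz1, -⟩ := Finset.mem_filter.1 hzi
      obtain ⟨a, hz2⟩ := Finset.mem_product.1 hz1
      obtain ⟨b, c⟩ := Finset.mem_product.1 hz2
      exact Finset.mem_product.2 ⟨hA i hi a, Finset.mem_product.2 ⟨hA i hi b, hA i hi c⟩⟩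
    · intro i hi j hj hij
      show Disjoint (B i) (B j)
      rw [Finset.disjoint_left]
      intro z hz hz'
      obtain ⟨hz1, n1, n2, n3⟩ := Finset.mem_filter.1 hz
      obtain ⟨a, hz2⟩ := Finset.mem_product.1 hz1
      obtain ⟨b, c⟩ := Finset.mem_product.1 hz2
      obtain ⟨hz1', -⟩ := Finset.mem_filter.1 hz'
      obtain ⟨a', hz2'⟩ := Finset.mem_product.1 hz1'
      obtain ⟨b', c'⟩ := Finset.mem_product.1 hz2'
      exact hij (h3 i hi j hj _ _ _ n1 n2 n3 a b c a' b' c')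
  have h2 : ∀ i, (A i).card ≤ (B i).card + 2 := by
    intro i
    by_cases hc : (A i).card ≤ 1
    · omega
    · obtain ⟨u, hu, v, hv, huv⟩ := Finset.one_lt_card.1 (not_le.1 hc)
      have h4 : (((A i).erase u).erase v).card ≤ (B i).card := by
        apply Finset.card_le_card_of_injOn (fun w => (u, v, w))
        · intro w hw
          have hw1 := Finset.mem_erase.1 (Finset.mem_coe.1 hw)
          have hw2 := Finset.mem_erase.1 hw1.2
          exact Finset.mem_coe.2 (Finset.mem_filter.2 ⟨Finset.mem_product.2 ⟨hu, Finset.mem_product.2 ⟨hv, hw2.2⟩⟩,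
            huv, hw2.1.symm, hw1.1.symm⟩)
        · intro w _ w' _ h
          exact (Prod.ext_iff.1 (Prod.ext_iff.1 h).2).2
      have h5 : (((A i).erase u).erase v).card = (A i).card - 1 - 1 := by
        rw [Finset.card_erase_of_mem (Finset.mem_erase.2 ⟨huv.symm, hv⟩), Finset.card_erase_of_mem hu]
      omega
  calc ∑ i ∈ I, (A i).card ≤ ∑ i ∈ I, ((B i).card + 2) := Finset.sum_le_sum fun i _ => h2 i
    _ = ∑ i ∈ I, (B i).card + 2 * I.card := by
        rw [Finset.sum_add_distrib, Finset.sum_const, smul_eq_mul, mul_comm]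
    _ ≤ _ := Nat.add_le_add_right h1 _

/-- **ST-7e** trivial bound: `I ≤ n³ + 2 m` (three points lie on at most one circle). -/
theorem st_circ_triv (P : Finset (Fin 2 → ℝ)) (K : Finset (ℝ × ℝ × ℝ))
    (hK : ∀ c ∈ K, 0 < c.2.2) :
    ∑ c ∈ K, (P.filter (stOnCircle c)).card ≤ P.card ^ 3 + 2 * K.card := by
  refine stc_triv_abs K P (fun c => P.filter (stOnCircle c)) (fun c _ => Finset.filter_subset _ _) ?_
  intro c _ c' _ x y z hxy hxz hyz hx hy hz hx' hy' hz'
  exact stc_three c c' x y z hxy hxz hyz (Finset.mem_filter.1 hx).2 (Finset.mem_filter.1 hy).2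
    (Finset.mem_filter.1 hz).2 (Finset.mem_filter.1 hx').2 (Finset.mem_filter.1 hy').2
    (Finset.mem_filter.1 hz').2

open Finset in
/-- the combinatorial core of the partitioning argument for circles -/
theorem stc_core {J : ℕ} (f : Fin J → MvPolynomial (Fin 2) ℝ) (hf : ∀ j, f j ≠ 0)
    (P : Finset (Fin 2 → ℝ)) (K : Finset (ℝ × ℝ × ℝ)) (hK : ∀ c ∈ K, 0 < c.2.2) :
    ∑ c ∈ K, (P.filter (stOnCircle c)).card ≤
      P.card * (∑ j, (f j).totalDegree) + K.card * (2 * (∑ j, (f j).totalDegree) + 1) +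
      (∑ σ : Fin J → Bool, (buCell f P σ).card ^ 3 +
        2 * (K.card * (2 * (∑ j, (f j).totalDegree) + 2))) := by
  set D : ℕ := ∑ j, (f j).totalDegree with hD
  set Kin := K.filter (fun c => ∃ j, ∀ x, stOnCircle c x → MvPolynomial.eval x (f j) = 0) with hKin
  set Kout := K.filter (fun c => ¬ ∃ j, ∀ x, stOnCircle c x → MvPolynomial.eval x (f j) = 0)
    with hKout
  have hsplit : ∑ c ∈ K, (P.filter (stOnCircle c)).card =
      ∑ c ∈ Kin, (P.filter (stOnCircle c)).card + ∑ c ∈ Kout, (P.filter (stOnCircle c)).card := by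
    rw [hKin, hKout, sum_filter_add_sum_filter_not]
  have hKoutc : Kout.card ≤ K.card := card_le_card (filter_subset _ _)
  have hKoutpos : ∀ c ∈ Kout, 0 < c.2.2 := fun c hc => hK c (mem_filter.1 hc).1
  have hKoutne : ∀ c ∈ Kout, ∀ j, ∃ x, stOnCircle c x ∧ MvPolynomial.eval x (f j) ≠ 0 := by
    intro c hc j
    have := (mem_filter.1 hc).2
    push Not at this
    exact this j
  -- circles inside the zero set
  have hF : (∏ j, f j) ≠ 0 := prod_ne_zero_iff.2 fun j _ => hf j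
  have h1 : ∑ c ∈ Kin, (P.filter (stOnCircle c)).card ≤ P.card * D := by
    have e : ∑ c ∈ Kin, (P.filter (stOnCircle c)).card =
        ∑ x ∈ P, (Kin.filter (fun c => stOnCircle c x)).card := by
      simp only [card_filter]
      rw [sum_comm]
    rw [e, ← smul_eq_mul, ← sum_const]
    refine sum_le_sum fun x _ => ?_
    refine (st_circles_through (∏ j, f j) hF x _ ?_).trans (MvPolynomial.totalDegree_finsetProd _ _)
    intro c hc
    obtain ⟨hc1, hcx⟩ := mem_filter.1 hc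
    obtain ⟨hcK, j, hj⟩ := mem_filter.1 hc1
    refine ⟨hK c hcK, hcx, fun y hy => ?_⟩
    rw [map_prod]
    exact prod_eq_zero (mem_univ j) (hj y hy)
  -- the other circles: pointwise split
  have h2 : ∀ c ∈ Kout, (P.filter (stOnCircle c)).card ≤
      (2 * D + 1) + ∑ σ : Fin J → Bool, ((buCell f P σ).filter (stOnCircle c)).card := by
    intro c hc
    have hsub : P.filter (stOnCircle c) ⊆
        (P.filter (fun x => stOnCircle c x ∧ ∃ j, MvPolynomial.eval x (f j) = 0)) ∪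
        (univ.biUnion fun σ : Fin J → Bool => (buCell f P σ).filter (stOnCircle c)) := by
      intro x hx
      obtain ⟨hxP, hxl⟩ := mem_filter.1 hx
      by_cases hz : ∃ j, MvPolynomial.eval x (f j) = 0
      · exact mem_union_left _ (mem_filter.2 ⟨hxP, hxl, hz⟩)
      · push Not at hz
        refine mem_union_right _ (mem_biUnion.2
          ⟨fun j => decide (0 < MvPolynomial.eval x (f j)), mem_univ _, mem_filter.2
            ⟨mem_filter.2 ⟨hxP, fun j => ?_⟩, hxl⟩⟩)
        unfold buSgn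
        by_cases hp : 0 < MvPolynomial.eval x (f j)
        · simp [hp]
        · simp only [hp, decide_false, Bool.false_eq_true, if_false]
          exact lt_of_le_of_ne (not_lt.1 hp) (hz j)
    refine (card_le_card hsub).trans ((card_union_le _ _).trans (Nat.add_le_add ?_ card_biUnion_le))
    exact (st_circle_cells f c (hKoutpos c hc) (hKoutne c hc)).2 _ fun x hx => (mem_filter.1 hx).2
  have h3 : ∑ c ∈ Kout, (P.filter (stOnCircle c)).card ≤ Kout.card * (2 * D + 1) +
      ∑ σ : Fin J → Bool, ∑ c ∈ Kout, ((buCell f P σ).filter (stOnCircle c)).card := by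
    rw [sum_comm]
    calc ∑ c ∈ Kout, (P.filter (stOnCircle c)).card
        ≤ ∑ c ∈ Kout, ((2 * D + 1) +
            ∑ σ : Fin J → Bool, ((buCell f P σ).filter (stOnCircle c)).card) := sum_le_sum h2
      _ = _ := by rw [sum_add_distrib, sum_const, smul_eq_mul]
  -- each cell
  have h4 : ∀ σ : Fin J → Bool, ∑ c ∈ Kout, ((buCell f P σ).filter (stOnCircle c)).card ≤
      (buCell f P σ).card ^ 3 + 2 * (Kout.filter (fun c => ∃ x, stOnCircle c x ∧
        ∀ j, buSgn (σ j) (MvPolynomial.eval x (f j)))).card := by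
    intro σ
    have he : ∑ c ∈ Kout, ((buCell f P σ).filter (stOnCircle c)).card =
        ∑ c ∈ Kout.filter (fun c => ∃ x, stOnCircle c x ∧
          ∀ j, buSgn (σ j) (MvPolynomial.eval x (f j))),
          ((buCell f P σ).filter (stOnCircle c)).card := by
      refine (sum_subset (filter_subset _ _) fun c hc hnot => ?_).symm
      rw [card_eq_zero, filter_eq_empty_iff]
      intro x hx hxl
      exact hnot (mem_filter.2 ⟨hc, x, hxl, (mem_filter.1 hx).2⟩)
    rw [he]
    exact st_circ_triv _ _ fun c hc => hKoutpos c (mem_filter.1 hc).1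
  have h5 : ∑ σ : Fin J → Bool, (Kout.filter (fun c => ∃ x, stOnCircle c x ∧
      ∀ j, buSgn (σ j) (MvPolynomial.eval x (f j)))).card ≤ Kout.card * (2 * D + 2) := by
    have e : ∑ σ : Fin J → Bool, (Kout.filter (fun c => ∃ x, stOnCircle c x ∧
        ∀ j, buSgn (σ j) (MvPolynomial.eval x (f j)))).card =
        ∑ c ∈ Kout, (univ.filter (fun σ : Fin J → Bool => ∃ x, stOnCircle c x ∧
          ∀ j, buSgn (σ j) (MvPolynomial.eval x (f j)))).card := by
      simp only [card_filter]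
      rw [sum_comm]
    rw [e, ← smul_eq_mul, ← sum_const]
    exact sum_le_sum fun c hc => (st_circle_cells f c (hKoutpos c hc) (hKoutne c hc)).1
  have h6 : ∑ σ : Fin J → Bool, ∑ c ∈ Kout, ((buCell f P σ).filter (stOnCircle c)).card ≤
      ∑ σ : Fin J → Bool, (buCell f P σ).card ^ 3 + 2 * (Kout.card * (2 * D + 2)) := by
    refine (sum_le_sum fun σ _ => h4 σ).trans ?_
    rw [sum_add_distrib, ← mul_sum]
    exact Nat.add_le_add_left (Nat.mul_le_mul_left _ h5) _
  have h7 : Kout.card * (2 * D + 1) ≤ K.card * (2 * D + 1) := Nat.mul_le_mul_right _ hKoutc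
  have h8 : Kout.card * (2 * D + 2) ≤ K.card * (2 * D + 2) := Nat.mul_le_mul_right _ hKoutc
  rw [hsplit]
  omega

open Finset in
/-- **ST-7** point-circle incidences, parametric form: `I ≤ C (n³/r⁴ + r m + r n)` for every `r ≥ 1`.

Proof: as `st_plane_param`.  Cells: `∑ (n_σ³ + 2 m_σ) ≤ (4n/r²)² n + 2 (2D+2) m`; circles not inside `Z`:
`≤ 2D+1` points of `Z` each; circles inside `Z(f j)` for some `j`: every point is on at most `D` of them
(`st_circles_through` for `F = ∏ f j`): `≤ n D`.  `D ≤ 8 r`. -/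
theorem st_circ_param : ∃ C : ℝ, 0 < C ∧ ∀ (P : Finset (Fin 2 → ℝ)) (K : Finset (ℝ × ℝ × ℝ)),
    (∀ c ∈ K, 0 < c.2.2) → ∀ r : ℝ, 1 ≤ r →
    ((∑ c ∈ K, (P.filter (stOnCircle c)).card : ℕ) : ℝ) ≤
      C * ((P.card : ℝ) ^ 3 / r ^ 4 + r * K.card + r * P.card) := by
  refine ⟨64, by norm_num, fun P K hK r hr => ?_⟩
  obtain ⟨J, f, hf, hD, -, hcell⟩ := bu_partition_real 2 P r hr
  have hcore := stc_core f hf P K hK
  set D : ℕ := ∑ j, (f j).totalDegree with hDdef
  have hr0 : 0 < r := by linarith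
  have hD' : (D : ℝ) ≤ 8 * r := by
    have h := hD
    norm_num at h
    linarith
  have hD0 : (0 : ℝ) ≤ D := Nat.cast_nonneg _
  have hsum : (∑ σ : Fin J → Bool, ((buCell f P σ).card : ℝ)) ≤ (P.card : ℝ) := by
    have := stp_cell_disj f P
    exact_mod_cast this
  have hcoreR : ((∑ c ∈ K, (P.filter (stOnCircle c)).card : ℕ) : ℝ) ≤
      (P.card : ℝ) * D + (K.card : ℝ) * (2 * (D : ℝ) + 1) +
      (∑ σ : Fin J → Bool, ((buCell f P σ).card : ℝ) ^ 3 + 2 * ((K.card : ℝ) * (2 * (D : ℝ) + 2))) := by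
    exact_mod_cast hcore
  set n : ℝ := (P.card : ℝ) with hn
  set m : ℝ := (K.card : ℝ) with hm
  have hn0 : 0 ≤ n := Nat.cast_nonneg _
  have hm0 : 0 ≤ m := Nat.cast_nonneg _
  have hq0 : 0 ≤ 2 ^ 2 * n / r ^ 2 := by positivity
  have hcu : (∑ σ : Fin J → Bool, ((buCell f P σ).card : ℝ) ^ 3) ≤ 16 * (n ^ 3 / r ^ 4) := by
    calc (∑ σ : Fin J → Bool, ((buCell f P σ).card : ℝ) ^ 3)
        ≤ ∑ σ : Fin J → Bool, (2 ^ 2 * n / r ^ 2) ^ 2 * ((buCell f P σ).card : ℝ) := by
          refine sum_le_sum fun σ _ => ?_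
          have h0 : (0 : ℝ) ≤ ((buCell f P σ).card : ℝ) := Nat.cast_nonneg _
          have h1 : ((buCell f P σ).card : ℝ) ^ 2 ≤ (2 ^ 2 * n / r ^ 2) ^ 2 :=
            pow_le_pow_left₀ h0 (hcell σ) 2
          calc ((buCell f P σ).card : ℝ) ^ 3 = ((buCell f P σ).card : ℝ) ^ 2 * ((buCell f P σ).card : ℝ) := by ring
            _ ≤ _ := mul_le_mul_of_nonneg_right h1 h0
      _ = (2 ^ 2 * n / r ^ 2) ^ 2 * ∑ σ : Fin J → Bool, ((buCell f P σ).card : ℝ) := by
          rw [mul_sum]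
      _ ≤ (2 ^ 2 * n / r ^ 2) ^ 2 * n := mul_le_mul_of_nonneg_left hsum (by positivity)
      _ = 16 * (n ^ 3 / r ^ 4) := by
          field_simp
          ring
  have h1 : n * D ≤ 8 * (r * n) := by nlinarith
  have h2 : m * D ≤ 8 * (r * m) := by nlinarith
  have h3 : m ≤ r * m := by nlinarith
  have h4 : 0 ≤ n ^ 3 / r ^ 4 := by positivity
  have h5 : 0 ≤ r * m := by positivity
  have h6 : 0 ≤ r * n := by positivity
  nlinarith

theorem stc_mem_dd {d : ℕ} {P : Finset (Pt d)} {δ : ℝ} :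
    δ ∈ distinctDistances P ↔ ∃ p ∈ P, ∃ q ∈ P, p ≠ q ∧ dist p q = δ := by
  unfold distinctDistances
  simp only [Finset.mem_image, Finset.mem_filter, Finset.mem_product, Prod.exists]
  constructor
  · rintro ⟨p, q, ⟨⟨hp, hq⟩, hne⟩, rfl⟩
    exact ⟨p, hp, q, hq, hne, rfl⟩
  · rintro ⟨p, hp, q, hq, hne, rfl⟩
    exact ⟨p, q, ⟨⟨hp, hq⟩, hne⟩, rfl⟩

theorem stc_dist_sq (p q : Pt 2) : (q 0 - p 0) ^ 2 + (q 1 - p 1) ^ 2 = dist p q ^ 2 := by
  rw [EuclideanSpace.dist_eq, Real.sq_sqrt (Finset.sum_nonneg fun i _ => sq_nonneg _),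
    Fin.sum_univ_two, Real.dist_eq, Real.dist_eq, sq_abs, sq_abs]
  ring

/-- the incidence inequality behind the planar distance bound -/
theorem stc_dist_inc (C : ℝ) (hC : ∀ (P : Finset (Fin 2 → ℝ)) (K : Finset (ℝ × ℝ × ℝ)),
    (∀ c ∈ K, 0 < c.2.2) → ∀ r : ℝ, 1 ≤ r →
    ((∑ c ∈ K, (P.filter (stOnCircle c)).card : ℕ) : ℝ) ≤
      C * ((P.card : ℝ) ^ 3 / r ^ 4 + r * K.card + r * P.card)) (hC0 : 0 < C)
    (Q : Finset (Pt 2)) (r : ℝ) (hr : 1 ≤ r) :
    (Q.card : ℝ) * ((Q.card : ℝ) - 1) ≤ C * ((Q.card : ℝ) ^ 3 / r ^ 4 +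
      r * ((Q.card : ℝ) * ((distinctDistances Q).card : ℝ)) + r * Q.card) := by
  set ι : Pt 2 → (Fin 2 → ℝ) := fun q i => q i with hι
  have hιinj : Function.Injective ι := by
    intro p q h
    ext i
    exact congrFun h i
  set P : Finset (Fin 2 → ℝ) := Q.image ι with hP
  have hPc : P.card = Q.card := Finset.card_image_of_injective _ hιinj
  set K : Finset (ℝ × ℝ × ℝ) := (Q ×ˢ distinctDistances Q).image (fun y => (y.1 0, y.1 1, y.2 ^ 2))
    with hKdef
  have hKc : K.card ≤ Q.card * (distinctDistances Q).card := by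
    rw [← Finset.card_product]
    exact Finset.card_image_le
  have hKpos : ∀ c ∈ K, 0 < c.2.2 := by
    intro c hc
    obtain ⟨⟨p, δ⟩, hy, rfl⟩ := Finset.mem_image.1 hc
    obtain ⟨-, hδ⟩ := Finset.mem_product.1 hy
    obtain ⟨a, -, b, -, hab, rfl⟩ := stc_mem_dd.1 hδ
    have : 0 < dist a b := dist_pos.2 hab
    show 0 < dist a b ^ 2
    positivity
  have hlow : Q.offDiag.card ≤ ∑ c ∈ K, (P.filter (stOnCircle c)).card := by
    rw [← Finset.card_sigma]
    apply Finset.card_le_card_of_injOn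
      (fun y : Pt 2 × Pt 2 => (⟨(y.1 0, y.1 1, dist y.1 y.2 ^ 2), ι y.2⟩ : (_ : ℝ × ℝ × ℝ) × (Fin 2 → ℝ)))
    · rintro ⟨p, q⟩ hy
      obtain ⟨hp, hq, hne⟩ := Finset.mem_offDiag.1 (Finset.mem_coe.1 hy)
      simp only at hp hq hne
      apply Finset.mem_coe.2
      rw [Finset.mem_sigma]
      refine ⟨Finset.mem_image.2 ⟨(p, dist p q), Finset.mem_product.2 ⟨hp,
        stc_mem_dd.2 ⟨p, hp, q, hq, hne, rfl⟩⟩, rfl⟩, Finset.mem_filter.2
        ⟨Finset.mem_image_of_mem _ hq, ?_⟩⟩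
      exact stc_dist_sq p q
    · rintro ⟨p, q⟩ _ ⟨p', q'⟩ _ h
      simp only [Sigma.mk.injEq, Prod.mk.injEq] at h
      obtain ⟨⟨h0, h1, -⟩, h2⟩ := h
      have e1 : p = p' := by
        ext i
        fin_cases i
        · exact h0
        · exact h1
      have e2 : q = q' := hιinj (eq_of_heq h2)
      rw [e1, e2]
  have h1 := hC P K hKpos r hr
  rw [hPc] at h1
  have h2 : ((Q.offDiag.card : ℕ) : ℝ) = (Q.card : ℝ) * ((Q.card : ℝ) - 1) := by
    rw [Finset.offDiag_card, Nat.cast_sub (Nat.le_mul_self _)]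
    push_cast
    ring
  have h3 : ((Q.offDiag.card : ℕ) : ℝ) ≤ ((∑ c ∈ K, (P.filter (stOnCircle c)).card : ℕ) : ℝ) := by
    exact_mod_cast hlow
  have h4 : (K.card : ℝ) ≤ (Q.card : ℝ) * ((distinctDistances Q).card : ℝ) := by
    exact_mod_cast hKc
  rw [← h2]
  refine h3.trans (h1.trans (mul_le_mul_of_nonneg_left ?_ hC0.le))
  have hr0 : 0 ≤ r := by linarith
  have := mul_le_mul_of_nonneg_left h4 hr0
  linarith

/-- **ST-8** planar distinct distances with exponent `3/4`.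

Proof.  `n = |Q|`, `t = |Δ(Q)| ≥ 1`.  Circles `(p, δ²)`, `p ∈ Q`, `δ ∈ Δ(Q)`: `m = n t`, `I = n (n - 1)`.
`st_circ_param` with `r = (n²/t)^{1/5} ≥ 1` (`t ≤ n²`): `n²/2 ≤ n(n-1) ≤ C (2 r n t + r n) ≤ 3 C r n t`, i.e.
`n ≤ 6 C n^{2/5} t^{4/5}`. -/
theorem st_planar_distances : ∃ c : ℝ, 0 < c ∧ ∀ Q : Finset (Pt 2), 2 ≤ Q.card →
    c * (Q.card : ℝ) ^ ((3 : ℝ) / 4) ≤ ((distinctDistances Q).card : ℝ) := by
  obtain ⟨C, hC0, hC⟩ := st_circ_param
  set B : ℝ := (6 * C) ^ 5 with hB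
  have hB0 : 0 < B := by positivity
  refine ⟨(B ^ ((1 : ℝ) / 4))⁻¹, by positivity, fun Q hQ => ?_⟩
  set N : ℝ := (Q.card : ℝ) with hN
  set T : ℝ := ((distinctDistances Q).card : ℝ) with hT
  have hN2 : 2 ≤ N := by rw [hN]; exact_mod_cast hQ
  have hT1 : 1 ≤ T := by
    obtain ⟨p, hp, q, hq, hne⟩ := Finset.one_lt_card.1 (show 1 < Q.card by omega)
    have : 0 < (distinctDistances Q).card :=
      Finset.card_pos.2 ⟨dist p q, stc_mem_dd.2 ⟨p, hp, q, hq, hne, rfl⟩⟩
    rw [hT]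
    exact_mod_cast this
  have hTN : T ≤ N ^ 2 := by
    have : (distinctDistances Q).card ≤ Q.card ^ 2 := by
      unfold distinctDistances
      refine Finset.card_image_le.trans ((Finset.card_le_card (Finset.filter_subset _ _)).trans ?_)
      rw [Finset.card_product, sq]
    rw [hT, hN]
    exact_mod_cast this
  have hT0 : 0 < T := by linarith
  have hN0 : 0 < N := by linarith
  set r : ℝ := (N ^ 2 / T) ^ ((1 : ℝ) / 5) with hr
  have hq1 : 1 ≤ N ^ 2 / T := by rwa [one_le_div hT0]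
  have hr1 : 1 ≤ r := Real.one_le_rpow hq1 (by norm_num)
  have hr0 : 0 < r := by linarith
  have hr5 : r ^ 5 = N ^ 2 / T := by
    rw [hr, ← Real.rpow_natCast, ← Real.rpow_mul (by positivity)]
    norm_num
  have h1 := stc_dist_inc C hC hC0 Q r hr1
  rw [← hN, ← hT] at h1
  have h2 : N ^ 3 / r ^ 4 = r * (N * T) := by
    have : N ^ 3 / r ^ 4 = N ^ 3 * r / r ^ 5 := by
      field_simp
    rw [this, hr5]
    field_simp
  rw [h2] at h1
  have h3 : N * (N / 2) ≤ N * (N - 1) := mul_le_mul_of_nonneg_left (by linarith) hN0.le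
  have h4 : r * N ≤ r * (N * T) := by
    apply mul_le_mul_of_nonneg_left _ hr0.le
    nlinarith
  have h5 : N * (N / 2) ≤ N * (3 * C * r * T) := by
    calc N * (N / 2) ≤ C * (r * (N * T) + r * (N * T) + r * N) := h3.trans h1
      _ ≤ C * (r * (N * T) + r * (N * T) + r * (N * T)) :=
          mul_le_mul_of_nonneg_left (by linarith) hC0.le
      _ = N * (3 * C * r * T) := by ring
  have h6 : N ≤ 6 * C * r * T := by
    have := le_of_mul_le_mul_left h5 hN0
    linarith
  have h7 : N ^ 5 ≤ B * (N ^ 2 * T ^ 4) := by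
    calc N ^ 5 ≤ (6 * C * r * T) ^ 5 := pow_le_pow_left₀ hN0.le h6 5
      _ = (6 * C) ^ 5 * (r ^ 5 * T ^ 5) := by ring
      _ = B * (N ^ 2 * T ^ 4) := by
          rw [hr5, hB]
          field_simp
  have h8 : N ^ 3 ≤ B * T ^ 4 := by
    have h9 : N ^ 2 * N ^ 3 ≤ N ^ 2 * (B * T ^ 4) := by
      calc N ^ 2 * N ^ 3 = N ^ 5 := by ring
        _ ≤ B * (N ^ 2 * T ^ 4) := h7
        _ = _ := by ring
    exact le_of_mul_le_mul_left h9 (by positivity)
  have h10 : N ^ ((3 : ℝ) / 4) ≤ B ^ ((1 : ℝ) / 4) * T := by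
    calc N ^ ((3 : ℝ) / 4) = (N ^ 3) ^ ((1 : ℝ) / 4) := by
          rw [← Real.rpow_natCast, ← Real.rpow_mul hN0.le]
          norm_num
      _ ≤ (B * T ^ 4) ^ ((1 : ℝ) / 4) := Real.rpow_le_rpow (by positivity) h8 (by norm_num)
      _ = B ^ ((1 : ℝ) / 4) * T := by
          rw [Real.mul_rpow hB0.le (by positivity), ← Real.rpow_natCast T 4, ← Real.rpow_mul hT0.le]
          norm_num
  rw [inv_mul_le_iff₀ (by positivity)]
  exact h10

/-- **ST-9a** transfer to flats: the points of `P` in a `u`-dimensional affine subspace are isometric to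
a subset of `ℝ^u`. -/
theorem st_flat_transfer (d u : ℕ) (P : Finset (Pt d)) (H : AffineSubspace ℝ (Pt d))
    (hH : Module.finrank ℝ H.direction = u) :
    ∃ Q : Finset (Pt u), Q.card = (P.filter (fun x => x ∈ H)).card ∧
      distinctDistances Q ⊆ distinctDistances P := by
  subst hH
  rcases (P.filter (fun x => x ∈ H)).eq_empty_or_nonempty with he | ⟨p0, hp0⟩
  · refine ⟨∅, by rw [he, Finset.card_empty, Finset.card_empty], ?_⟩
    intro δ hδ
    obtain ⟨p, hp, -⟩ := stc_mem_dd.1 hδ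
    exact absurd hp (Finset.notMem_empty _)
  have hp0H : p0 ∈ H := (Finset.mem_filter.1 hp0).2
  set φ := (stdOrthonormalBasis ℝ H.direction).repr with hφ
  set g : Pt d → Pt (Module.finrank ℝ H.direction) := fun x =>
    if h : x ∈ H then φ ⟨x -ᵥ p0, AffineSubspace.vsub_mem_direction h hp0H⟩ else 0 with hg
  have hiso : ∀ x ∈ H, ∀ y ∈ H, dist (g x) (g y) = dist x y := by
    intro x hx y hy
    simp only [hg, dif_pos hx, dif_pos hy]
    rw [φ.dist_map, Subtype.dist_eq]
    exact dist_vsub_cancel_right x y p0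
  have hinj : Set.InjOn g (P.filter (fun x => x ∈ H) : Finset (Pt d)) := by
    intro x hx y hy h
    have hx' := (Finset.mem_filter.1 (Finset.mem_coe.1 hx)).2
    have hy' := (Finset.mem_filter.1 (Finset.mem_coe.1 hy)).2
    have := hiso x hx' y hy'
    rw [h, dist_self] at this
    exact dist_eq_zero.1 this.symm
  refine ⟨(P.filter (fun x => x ∈ H)).image g, Finset.card_image_of_injOn hinj, ?_⟩
  intro δ hδ
  obtain ⟨a, ha, b, hb, hab, rfl⟩ := stc_mem_dd.1 hδ
  obtain ⟨x, hx, rfl⟩ := Finset.mem_image.1 ha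
  obtain ⟨y, hy, rfl⟩ := Finset.mem_image.1 hb
  obtain ⟨hxP, hxH⟩ := Finset.mem_filter.1 hx
  obtain ⟨hyP, hyH⟩ := Finset.mem_filter.1 hy
  rw [hiso x hxH y hyH]
  exact stc_mem_dd.2 ⟨x, hxP, y, hyP, fun h => hab (by rw [h]), rfl⟩

/-- **ST-9** the plane cap `C M^{4/3}` (replaces `C M log (2M)` of red:flat-caps). -/
theorem st_plane_cap : ∃ C : ℝ, 0 < C ∧ ∀ (d : ℕ) (P : Finset (Pt d)) (H : AffineSubspace ℝ (Pt d)),
    Module.finrank ℝ H.direction = 2 →
    ((P.filter (fun x => x ∈ H)).card : ℝ) ≤ C * (dM P : ℝ) ^ ((4 : ℝ) / 3) := by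
  obtain ⟨c, hc0, hc⟩ := st_planar_distances
  refine ⟨1 + (c⁻¹) ^ ((4 : ℝ) / 3), by positivity, fun d P H hH => ?_⟩
  obtain ⟨Q, hQc, hQd⟩ := st_flat_transfer d 2 P H hH
  rw [← hQc]
  have hM1 : (1 : ℝ) ≤ (dM P : ℝ) := by
    unfold dM
    push_cast
    have : (0 : ℝ) ≤ ((distinctDistances P).card : ℝ) := Nat.cast_nonneg _
    linarith
  have hM43 : (1 : ℝ) ≤ (dM P : ℝ) ^ ((4 : ℝ) / 3) := Real.one_le_rpow hM1 (by norm_num)
  have hc43 : 0 ≤ (c⁻¹) ^ ((4 : ℝ) / 3) := by positivity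
  by_cases hQ2 : 2 ≤ Q.card
  · have h1 := hc Q hQ2
    have h2 : ((distinctDistances Q).card : ℝ) ≤ (dM P : ℝ) := by
      have : (distinctDistances Q).card ≤ dM P := by
        unfold dM
        have := Finset.card_le_card hQd
        omega
      exact_mod_cast this
    have h3 : (Q.card : ℝ) ^ ((3 : ℝ) / 4) ≤ c⁻¹ * (dM P : ℝ) := by
      rw [← div_eq_inv_mul, le_div_iff₀ hc0]
      linarith
    have hQ0 : (0 : ℝ) ≤ (Q.card : ℝ) := Nat.cast_nonneg _
    have h4 : (Q.card : ℝ) = ((Q.card : ℝ) ^ ((3 : ℝ) / 4)) ^ ((4 : ℝ) / 3) := by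
      rw [← Real.rpow_mul hQ0]
      norm_num
    calc (Q.card : ℝ) = ((Q.card : ℝ) ^ ((3 : ℝ) / 4)) ^ ((4 : ℝ) / 3) := h4
      _ ≤ (c⁻¹ * (dM P : ℝ)) ^ ((4 : ℝ) / 3) :=
          Real.rpow_le_rpow (Real.rpow_nonneg hQ0 _) h3 (by positivity)
      _ = (c⁻¹) ^ ((4 : ℝ) / 3) * (dM P : ℝ) ^ ((4 : ℝ) / 3) :=
          Real.mul_rpow (by positivity) (by linarith)
      _ ≤ (1 + (c⁻¹) ^ ((4 : ℝ) / 3)) * (dM P : ℝ) ^ ((4 : ℝ) / 3) := by
          apply mul_le_mul_of_nonneg_right _ (by linarith)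
          linarith
  · have h1 : (Q.card : ℝ) ≤ 1 := by
      have : Q.card ≤ 1 := by omega
      exact_mod_cast this
    calc (Q.card : ℝ) ≤ 1 := h1
      _ ≤ (dM P : ℝ) ^ ((4 : ℝ) / 3) := hM43
      _ ≤ (1 + (c⁻¹) ^ ((4 : ℝ) / 3)) * (dM P : ℝ) ^ ((4 : ℝ) / 3) := by
          nlinarith

end Claimed.Agent.R273
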