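import Claimed.Agent.R273.SpTop
import Claimed.Agent.R273.DirCaps
import Claimed.Agent.R273.StCirc

/-!
# Row 273, SPARSE: `SpCapStmt d` (red:flat-caps in complex form).  Architect helper191.  Prefix `spcap_`.

LEAF SP-CAP = this whole file (~350 lines).  Black boxes (other leaves, use them as they are): `dirc_line`, `dirc_flat` (DirCaps), `st_plane_cap` (StCirc).

* `spcap_pull`: `T ⊆ P.image prfPt` is `T'.image prfPt`, `T' = P.filter (prfPt · ∈ T)`; `prfPt` is injective (`sp_pt_injective`).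
* `spcap_real`: `W' := span_ℝ {x - y | x, y ∈ T'}`.  Take a basis of `W'` out of the spanning set (`exists_linearIndependent` / `Basis.ofSpan`..): real vectors `v_1..v_r`, linearly independent over `ℝ`.
  Their complexifications `fun i => ((v_k i : ℝ) : ℂ)` lie in `W` (`prfPt x - prfPt y`, `Complex.ofReal_sub`) and are linearly independent over `ℂ`: from `∑ c_k v_k = 0` take real and imaginary parts coordinatewise.
  Hence `r ≤ finrank ℂ W ≤ u` (`LinearIndependent.fintype_card_le_finrank` in `W`).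
* `spcap_A`: `dA P = B ^ 2`, `B = N^{1/d}` (`Real.rpow_natCast`, `← Real.rpow_mul`).
* `sp_cap`: `δ₀ := min 1 (min (C₂^{-1}) (min_u C_u^{-1}))` or any smaller number; for `δ ≤ δ₀`, `M ≤ δ B²`:
  - line: `W'` of finrank `≤ 1` ⇒ `Collinear ℝ T'` (`collinear_iff_of_mem` with a spanning vector of `W'`), `dirc_line`: `|T| ≤ 2M ≤ 2 δ B²`;
  - plane: enlarge `W'` to `W''` with finrank exactly `2` (`Submodule.exists_le_finrank_eq`-type lemma or add basis vectors; `2 ≤ d`), `H := AffineSubspace.mk' x0 W''` (`T' = ∅` trivial),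
    `st_plane_cap`: `|T| ≤ C₂ M^{4/3} ≤ C₂ δ^{4/3} B^{8/3} ≤ B^{8/3}`   (`δ^{4/3} ≤ δ ≤ 1/C₂`);
  - `u`-flat, `3 ≤ u < d`: `dirc_flat` for `MainStmt u = IH u`: `|T| ≤ C_u M^{u/2} ≤ C_u δ^{u/2} B^u ≤ B^u`   (`δ^{u/2} ≤ δ ≤ 1/C_u`).  The constants `C_u`, `3 ≤ u < d`, are finitely many:
    use `Finset.exists_le` / a max over `Finset.range d` of `Classical.choose`.
-/

set_option autoImplicit false

namespace Claimed.Agent.R273

open Module

variable {d : ℕ}

theorem spcap_pull (P : Finset (Pt d)) (T : Finset (SpC d)) (hT : T ⊆ P.image prfPt) :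
    ∃ T' ⊆ P, T = T'.image prfPt ∧ T'.card = T.card := by
  classical
  have h1 : T = (P.filter (fun x => prfPt x ∈ T)).image prfPt := by
    ext z
    simp only [Finset.mem_image, Finset.mem_filter]
    constructor
    · intro hz
      obtain ⟨x, hx, rfl⟩ := Finset.mem_image.1 (hT hz)
      exact ⟨x, ⟨hx, hz⟩, rfl⟩
    · rintro ⟨x, ⟨-, hx⟩, rfl⟩
      exact hx
  refine ⟨P.filter (fun x => prfPt x ∈ T), Finset.filter_subset _ _, h1, ?_⟩
  conv_rhs => rw [h1]
  rw [Finset.card_image_of_injective _ sp_pt_injective]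

/-- complexifications of `ℝ`-independent real vectors are `ℂ`-independent. -/
theorem spcap_linInd {ι : Type*} [Fintype ι] (v : ι → Pt d) (hv : LinearIndependent ℝ v) :
    LinearIndependent ℂ (fun k => (prfPt (v k) : SpC d)) := by
  rw [Fintype.linearIndependent_iff] at hv ⊢
  intro c hc
  have hco : ∀ i : Fin d, ∑ k, c k * ((v k i : ℝ) : ℂ) = 0 := by
    intro i
    have := congrFun hc i
    simpa [prfPt, Finset.sum_apply] using this
  have hre : ∀ k, (c k).re = 0 := by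
    apply hv (fun k => (c k).re)
    ext i
    have := congrArg Complex.re (hco i)
    simpa [Complex.re_sum] using this
  have him : ∀ k, (c k).im = 0 := by
    apply hv (fun k => (c k).im)
    ext i
    have := congrArg Complex.im (hco i)
    simpa [Complex.im_sum] using this
  intro k
  exact Complex.ext (hre k) (him k)

theorem spcap_pt_sub (x y : Pt d) : prfPt (x - y) = prfPt x - prfPt y := by
  funext i
  simp [prfPt]

theorem spcap_pt_add (x y : Pt d) : prfPt (x + y) = prfPt x + prfPt y := by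
  funext i
  simp [prfPt]

theorem spcap_pt_smul (r : ℝ) (x : Pt d) : prfPt (r • x) = (r : ℂ) • prfPt x := by
  funext i
  simp [prfPt]

theorem spcap_real {u : ℕ} (W : Submodule ℂ (SpC d)) (hW : finrank ℂ W ≤ u) (T' : Finset (Pt d))
    (h : ∀ x ∈ T', ∀ y ∈ T', prfPt x - prfPt y ∈ W) :
    ∃ W' : Submodule ℝ (Pt d), finrank ℝ W' ≤ u ∧ ∀ x ∈ T', ∀ y ∈ T', x - y ∈ W' := by
  -- the real points whose complexification lies in `W`
  let W' : Submodule ℝ (Pt d) :=
    { carrier := {x | prfPt x ∈ W}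
      add_mem' := by
        intro a b ha hb
        show prfPt (a + b) ∈ W
        rw [spcap_pt_add]
        exact W.add_mem ha hb
      zero_mem' := by
        show prfPt (0 : Pt d) ∈ W
        have : prfPt (0 : Pt d) = 0 := by funext i; simp [prfPt]
        rw [this]
        exact W.zero_mem
      smul_mem' := by
        intro r a ha
        show prfPt (r • a) ∈ W
        rw [spcap_pt_smul]
        exact W.smul_mem _ ha }
  refine ⟨W', ?_, ?_⟩
  · refine le_trans ?_ hW
    let b := Module.finBasis ℝ W'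
    have hb : LinearIndependent ℝ (fun k => ((b k : W') : Pt d)) :=
      b.linearIndependent.map' W'.subtype (Submodule.ker_subtype _)
    have hc := spcap_linInd _ hb
    have hmem : ∀ k, prfPt ((b k : W') : Pt d) ∈ W := fun k => (b k).2
    have hc' : LinearIndependent ℂ (fun k => (⟨prfPt ((b k : W') : Pt d), hmem k⟩ : W)) := by
      apply LinearIndependent.of_comp W.subtype
      exact hc
    have := hc'.fintype_card_le_finrank
    simpa using this
  · intro x hx y hy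
    show prfPt (x - y) ∈ W
    rw [spcap_pt_sub]
    exact h x hx y hy

theorem spcap_A (hd : 1 ≤ d) (P : Finset (Pt d)) :
    dA P = ((P.card : ℝ) ^ ((1 : ℝ) / d)) ^ 2 := by
  unfold dA
  rw [← Real.rpow_natCast, ← Real.rpow_mul (Nat.cast_nonneg _)]
  congr 1
  push_cast
  ring

/-- enlarge a subspace to a prescribed dimension. -/
theorem spcap_enlarge (W : Submodule ℝ (Pt d)) (n : ℕ) (h1 : finrank ℝ W ≤ n) (h2 : n ≤ d) :
    ∃ W'' : Submodule ℝ (Pt d), W ≤ W'' ∧ finrank ℝ W'' = n := by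
  obtain ⟨k, rfl⟩ := Nat.exists_eq_add_of_le h1
  induction k generalizing W with
  | zero => exact ⟨W, le_rfl, rfl⟩
  | succ k ih =>
    have hlt : W < ⊤ := by
      rw [lt_top_iff_ne_top]
      rintro rfl
      rw [finrank_top, finrank_euclideanSpace_fin] at h2
      omega
    obtain ⟨v, -, hv⟩ := SetLike.exists_of_lt hlt
    have hf := Submodule.finrank_sup_span_singleton (K := ℝ) hv
    obtain ⟨W'', hle, hfr⟩ := ih (W ⊔ Submodule.span ℝ {v}) (by omega) (by omega)
    exact ⟨W'', le_sup_left.trans hle, by omega⟩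

/-- the numerics of a cap: `C M^a ≤ B^{2a}` if `M ≤ δ B²`, `δ ≤ 1`, `C δ ≤ 1`, `a ≥ 1`. -/
theorem spcap_num {C M B δ a : ℝ} (hC : 0 ≤ C) (hM : 0 ≤ M) (hB : 0 ≤ B) (hδ : 0 < δ) (hδ1 : δ ≤ 1)
    (hCδ : C * δ ≤ 1) (ha : 1 ≤ a) (h : M ≤ δ * B ^ 2) : C * M ^ a ≤ B ^ (2 * a) := by
  have h1 : M ^ a ≤ (δ * B ^ 2) ^ a := Real.rpow_le_rpow hM h (by linarith)
  have h2 : (δ * B ^ 2) ^ a = δ ^ a * B ^ (2 * a) := by
    rw [Real.mul_rpow hδ.le (by positivity), ← Real.rpow_natCast B 2, ← Real.rpow_mul hB]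
    norm_num
  have h3 : δ ^ a ≤ δ := by
    calc δ ^ a ≤ δ ^ (1 : ℝ) := Real.rpow_le_rpow_of_exponent_ge hδ hδ1 ha
      _ = δ := Real.rpow_one δ
  have hBa : 0 ≤ B ^ (2 * a) := Real.rpow_nonneg hB _
  calc C * M ^ a ≤ C * (δ ^ a * B ^ (2 * a)) := by
        rw [← h2]; exact mul_le_mul_of_nonneg_left h1 hC
    _ ≤ C * (δ * B ^ (2 * a)) :=
        mul_le_mul_of_nonneg_left (mul_le_mul_of_nonneg_right h3 hBa) hC
    _ = (C * δ) * B ^ (2 * a) := by ring
    _ ≤ 1 * B ^ (2 * a) := mul_le_mul_of_nonneg_right hCδ hBa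
    _ = B ^ (2 * a) := one_mul _

/-- **(CAP)** -/
theorem sp_cap (hd : 3 ≤ d) : SpCapStmt d := by
  classical
  intro IH
  obtain ⟨C₂, hC₂, hplane⟩ := st_plane_cap
  -- the constants of the `u`-flats
  have hex : ∀ u : ℕ, ∃ C : ℝ, 1 ≤ C ∧ (3 ≤ u → u < d → ∀ (P T : Finset (Pt d)), T ⊆ P →
      ∀ W : Submodule ℝ (Pt d), finrank ℝ W ≤ u → (∀ x ∈ T, ∀ y ∈ T, x - y ∈ W) →
      (T.card : ℝ) ≤ C * (dM P : ℝ) ^ ((u : ℝ) / 2)) := by
    intro u
    by_cases hu : 3 ≤ u ∧ u < d
    · obtain ⟨C, hC, h⟩ := dirc_flat (d := d) (u := u) (by omega) (by omega) (IH u hu.1 hu.2)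
      exact ⟨C, hC, fun _ _ => h⟩
    · exact ⟨1, le_rfl, fun h1 h2 => absurd ⟨h1, h2⟩ hu⟩
  choose Cf hCf1 hCf using hex
  set S : ℝ := ∑ u ∈ Finset.range d, Cf u with hS
  have hS0 : 0 ≤ S := Finset.sum_nonneg fun u _ => by linarith [hCf1 u]
  have hCfS : ∀ u, u < d → Cf u ≤ S := fun u hu =>
    Finset.single_le_sum (f := Cf) (fun v _ => by linarith [hCf1 v]) (Finset.mem_range.2 hu)
  set K : ℝ := C₂ + S + 1 with hK
  have hK0 : 0 < K := by positivity
  refine ⟨K⁻¹, inv_pos.2 hK0, ?_⟩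
  intro P δ hδ hδ0 hN hM
  have hKδ : K * δ ≤ 1 := by
    calc K * δ ≤ K * K⁻¹ := mul_le_mul_of_nonneg_left hδ0 hK0.le
      _ = 1 := mul_inv_cancel₀ hK0.ne'
  have hδ1 : δ ≤ 1 := by nlinarith
  set B : ℝ := (P.card : ℝ) ^ ((1 : ℝ) / d) with hB
  have hB0 : 0 ≤ B := Real.rpow_nonneg (Nat.cast_nonneg _) _
  rw [spcap_A (by omega) P, ← hB] at hM
  have hM0 : (0 : ℝ) ≤ (dM P : ℝ) := Nat.cast_nonneg _
  refine ⟨?_, ?_, ?_⟩
  · -- lines
    intro W hW T hT hTW
    obtain ⟨T', hT'P, rfl, hcard⟩ := spcap_pull P T hT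
    obtain ⟨W', hW', hdiff⟩ := spcap_real W hW T' (fun x hx y hy =>
      hTW _ (Finset.mem_image_of_mem _ hx) _ (Finset.mem_image_of_mem _ hy))
    have hcol : Collinear ℝ (T' : Set (Pt d)) := by
      rw [collinear_iff_finrank_le_one]
      refine le_trans (Submodule.finrank_mono ?_) hW'
      rw [vectorSpan_def, Submodule.span_le]
      rintro _ ⟨x, hx, y, hy, rfl⟩
      exact hdiff x hx y hy
    have h1 := dirc_line hT'P hcol
    have h2 : (T'.card : ℝ) ≤ 2 * (dM P : ℝ) := by exact_mod_cast h1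
    rw [← hcard]
    nlinarith
  · -- planes
    intro W hW T hT hTW
    obtain ⟨T', hT'P, rfl, hcard⟩ := spcap_pull P T hT
    obtain ⟨W', hW', hdiff⟩ := spcap_real W hW T' (fun x hx y hy =>
      hTW _ (Finset.mem_image_of_mem _ hx) _ (Finset.mem_image_of_mem _ hy))
    rw [← hcard]
    rcases T'.eq_empty_or_nonempty with rfl | ⟨x0, hx0⟩
    · simpa using Real.rpow_nonneg hB0 _
    obtain ⟨W'', hle, hfr⟩ := spcap_enlarge W' 2 hW' (by omega)
    have h1 := hplane d P (AffineSubspace.mk' x0 W'') (by rw [AffineSubspace.direction_mk']; exact hfr)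
    have h2 : T' ⊆ P.filter (fun x => x ∈ AffineSubspace.mk' x0 W'') := by
      intro x hx
      rw [Finset.mem_filter]
      refine ⟨hT'P hx, ?_⟩
      rw [AffineSubspace.mem_mk']
      exact hle (hdiff x hx x0 hx0)
    have h3 : (T'.card : ℝ) ≤ ((P.filter (fun x => x ∈ AffineSubspace.mk' x0 W'')).card : ℝ) := by
      exact_mod_cast Finset.card_le_card h2
    have h4 := spcap_num (C := C₂) (a := 4 / 3) hC₂.le hM0 hB0 hδ hδ1 (by nlinarith) (by norm_num) hM
    have h5 : (2 : ℝ) * (4 / 3) = 8 / 3 := by norm_num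
    rw [h5] at h4
    linarith
  · -- `u`-flats
    intro u hu3 hud W hW T hT hTW
    obtain ⟨T', hT'P, rfl, hcard⟩ := spcap_pull P T hT
    obtain ⟨W', hW', hdiff⟩ := spcap_real W hW T' (fun x hx y hy =>
      hTW _ (Finset.mem_image_of_mem _ hx) _ (Finset.mem_image_of_mem _ hy))
    rw [← hcard]
    have h1 := hCf u hu3 hud P T' hT'P W' hW' hdiff
    have hu3' : (3 : ℝ) ≤ (u : ℝ) := by exact_mod_cast hu3
    have hCu := hCfS u hud
    have h4 := spcap_num (C := Cf u) (a := (u : ℝ) / 2) (by linarith [hCf1 u]) hM0 hB0 hδ hδ1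
      (by nlinarith) (by linarith) hM
    have h5 : (2 : ℝ) * ((u : ℝ) / 2) = (u : ℝ) := by ring
    rw [h5, Real.rpow_natCast] at h4
    linarith

end Claimed.Agent.R273
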