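-- KEEP
import Claimed.Agent.R273.SpFrame

/-!
# Row 273, SPARSE, unit S5L: the S5-LIMIT statements (profiles.tex, prof:budget, prof:regularity, prof:product-testing) in THETA-FORM.
Statements: helper37 (as consumer: S6a, S6b, depth).  Every statement is a `def .. : Prop`; the unit S5L proves them from the finite forms `Prf*.lean`.

Common recipe of all proofs: the fixed real times (`t`, and auxiliary times in the same OPEN plateau of the fixed profile `b`) are replaced by grid times within `θ` (`PrfGrid.mesh`);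
since `|τ_i - b_i| ≤ θ`, a grid time at distance `> 2θ` from all `b_i` lies on the plateau `PrfPlateau (π a) j t'` of EVERY member; degrees: `deg f_i ≤ T_s(τ_i) ≤ T_s(b_i) e^{θ s}`;
number of members `|I| ≤ e^{θ s}` (`disj`, `size`, `sub`); `|S_a| ≥ N e^{-θ s}`; constants `C_d` are absorbed by `e^{η s}`, `s ≥ 1/θ`.
`∏_{i<d} T_s(b_i) = N` for admissible `b` (`B^d = N`, `∑ b_i = 0`).

* `SpAdmStmt`    prof:balance + trivialities: a non-admissible reference profile has no θ-good pool.   (`prf_balance`)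
* `SpDegStmt`    carrier degree `≤ e_j e^{ε s}`.                                                        (`prf_carrier_deg`)
* `SpMassStmt`   mass budget: members of total degree `a` touch `≤ a (N/e_j) e^{ε s}` points, each point being counted for carriers OF ITS OWN PIECE.  (`prf_mass`)
* `SpRankStmt`   rank budget `H_{S'}(T_s(t)) ≥ σ(t) e^{-ε s}`, uniformly in `t ∈ [-1,1]`.                (`prf_rank`)
* `SpIndivStmt`  individual proper cuts of degree `≤ T_s(t)` capture `≤ ε n` points (two pools).         (`prf_indiv`)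
* `SpRegStmt`    common equations + one test polynomial `g`, degrees `≤ T_s(t)`.                        (`prf_regular`)
* `sp_unique`    unique smooth carrier in the union of two pools (finite form).                         (`prf_unique`)
* `SpNonrealStmt` carriers whose real points lie in a hyperplane section carry `≤ ε n` points.          (`SpIndivStmt`)
* `SpProdStmt`   product testing for SYSTEMS of polynomials in `(x,y)` (contains the one-polynomial form and the rank-test form).  (pooled `prf_prod`, `ph_avoid`)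
-/

set_option autoImplicit false

namespace Claimed.Agent.R273

open MvPolynomial Module

variable {d : ℕ}

/-- two `θ`-good pools of ONE window (possibly the same pool) -/
structure SpTwo (D : SpData d) (X Y : SpPool d) (s θ : ℝ) (b : ℕ → ℝ) : Prop where
  reg : D.Reg θ
  okX : X.Ok D s θ b
  okY : Y.Ok D s θ b
  grid : X.grid = Y.grid
  top : X.top = Y.top

theorem SpTwo.mono {D : SpData d} {X Y : SpPool d} {s θ θ' : ℝ} {b : ℕ → ℝ}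
    (h : SpTwo D X Y s θ b) (h0 : 0 < θ) (hθ : θ ≤ θ') : SpTwo D X Y s θ' b :=
  ⟨h.reg.mono hθ, h.okX.mono h0 hθ, h.okY.mono h0 hθ, h.grid, h.top⟩

theorem SpTwo.symm {D : SpData d} {X Y : SpPool d} {s θ : ℝ} {b : ℕ → ℝ}
    (h : SpTwo D X Y s θ b) : SpTwo D Y X s θ b :=
  ⟨h.reg, h.okY, h.okX, h.grid.symm, h.top.symm⟩

theorem SpTwo.self {D : SpData d} {X : SpPool d} {s θ : ℝ} {b : ℕ → ℝ} (hD : D.Reg θ)
    (h : X.Ok D s θ b) : SpTwo D X X s θ b := ⟨hD, h, h, rfl, rfl⟩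

/-- the carriers after `j` cuts of the union of two pools -/
def spCarr2 (X Y : SpPool d) (j : ℕ) : Set (Ideal (PrfPol d)) := X.carriers j ∪ Y.carriers j

/-- an OWN-PATH ASSIGNMENT after `j` cuts: every point of every member is assigned to one local carrier of the path of ITS member -/
def SpAsg (X : SpPool d) (j : ℕ) (asg : SpC d → Ideal (PrfPol d)) : Prop :=
  ∀ a ∈ X.I, ∀ x ∈ (X.π a).S, asg x ∈ prfCarr (prfSys (X.π a).f j) x

/-- the real points of `Z(𝔭)` lie in a proper hyperplane section (for a flat: "not defined over `ℝ`") -/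
def SpNonreal (𝔭 : Ideal (PrfPol d)) : Prop :=
  ∃ l : PrfPol d, l.totalDegree ≤ 1 ∧ l ∉ 𝔭 ∧ ∀ x ∈ zeroLocus ℂ 𝔭, SpReal x → eval x l = 0

/-- (ADM) -/
def SpAdmStmt (d : ℕ) : Prop :=
  ∀ b : ℕ → ℝ, ¬ SpAdm d b → ∃ θ : ℝ, 0 < θ ∧ ∀ (D : SpData d) (X : SpPool d) (s : ℝ),
    D.Reg θ → ¬ X.Ok D s θ b

/-- (DEG) -/
def SpDegStmt (d : ℕ) : Prop :=
  ∀ b : ℕ → ℝ, SpAdm d b → ∀ ε : ℝ, 0 < ε → ∃ θ : ℝ, 0 < θ ∧
    ∀ (D : SpData d) (X : SpPool d) (s : ℝ), D.Reg θ → X.Ok D s θ b →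
      ∀ j ≤ d, ∀ 𝒜 : Finset (Ideal (PrfPol d)), (𝒜 : Set (Ideal (PrfPol d))) ⊆ X.carriers j →
        (prfDeg 𝒜 : ℝ) ≤ spE D.B s b j * Real.exp (ε * s)

/-- (MASS) -/
def SpMassStmt (d : ℕ) : Prop :=
  ∀ b : ℕ → ℝ, SpAdm d b → ∀ ε : ℝ, 0 < ε → ∃ θ : ℝ, 0 < θ ∧
    ∀ (D : SpData d) (X : SpPool d) (s : ℝ), D.Reg θ → X.Ok D s θ b →
      ∀ j ≤ d, ∀ (𝒜 : Finset (Ideal (PrfPol d))) (S' : Finset (SpC d)),
        (∀ x ∈ S', ∃ a ∈ X.I, x ∈ (X.π a).S ∧ ∃ p ∈ 𝒜, p ∈ (X.π a).carriers j ∧ x ∈ zeroLocus ℂ p) →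
        (S'.card : ℝ) ≤ prfDeg 𝒜 * (D.N / spE D.B s b j) * Real.exp (ε * s)

/-- (RANK) -/
def SpRankStmt (d : ℕ) : Prop :=
  ∀ b : ℕ → ℝ, SpAdm d b → ∀ α ε : ℝ, 0 < α → 0 < ε → ∃ θ : ℝ, 0 < θ ∧
    ∀ (D : SpData d) (X : SpPool d) (s : ℝ), D.Reg θ → X.Ok D s θ b →
      ∀ t : ℝ, -1 ≤ t → t ≤ 1 → ∀ S' ⊆ X.pts, α * (X.pts.card : ℝ) ≤ S'.card →
        spSigma d D.B s b t * Real.exp (-(ε * s)) ≤
          (hA (S' : Set (SpC d)) ⌊prfT D.B s t⌋₊ : ℝ)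

/-- (INDIV) -/
def SpIndivStmt (d : ℕ) : Prop :=
  ∀ b : ℕ → ℝ, SpAdm d b → ∀ ε : ℝ, 0 < ε → ∀ (j : ℕ) (t : ℝ), SpPlat d b j t →
    ∃ θ : ℝ, 0 < θ ∧ ∀ (D : SpData d) (X Y : SpPool d) (s : ℝ), SpTwo D X Y s θ b →
      ∀ h : Ideal (PrfPol d) → PrfPol d,
        (∀ p ∈ spCarr2 X Y j, h p ∉ p ∧ ((h p).totalDegree : ℝ) ≤ prfT D.B s t) →
        ∀ S' ⊆ X.pts, (∀ x ∈ S', ∃ p ∈ spCarr2 X Y j, x ∈ zeroLocus ℂ p ∧ eval x (h p) = 0) →
          (S'.card : ℝ) ≤ ε * X.pts.card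

/-- (REG) -/
def SpRegStmt (d : ℕ) : Prop :=
  ∀ b : ℕ → ℝ, SpAdm d b → ∀ ε : ℝ, 0 < ε → ∀ (j : ℕ) (t : ℝ), SpPlat d b j t →
    ∃ θ : ℝ, 0 < θ ∧ ∀ (D : SpData d) (X Y : SpPool d) (s : ℝ), SpTwo D X Y s θ b →
      ∃ (F : Finset (PrfPol d)) (g : PrfPol d),
        (∀ f ∈ F, (f.totalDegree : ℝ) ≤ prfT D.B s t ∧ ∀ p ∈ spCarr2 X Y j, f ∈ p) ∧
        (g.totalDegree : ℝ) ≤ prfT D.B s t ∧
        (∀ x, eval x g ≠ 0 → j ≤ prfJacRk (F : Set (PrfPol d)) x) ∧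
        (∀ S' ⊆ X.pts, (∀ x ∈ S', eval x g = 0) → (S'.card : ℝ) ≤ ε * X.pts.card) ∧
        ∀ S' ⊆ Y.pts, (∀ x ∈ S', eval x g = 0) → (S'.card : ℝ) ≤ ε * Y.pts.card

/-- (UNIQUE) unique smooth carrier in the union of two pools -/
def SpUniqueStmt (d : ℕ) : Prop :=
  ∀ (X Y : SpPool d), (∀ a ∈ X.I, (X.π a).Path) → (∀ a ∈ Y.I, (Y.π a).Path) →
    ∀ j ≤ d, ∀ F : Set (PrfPol d), (∀ f ∈ F, ∀ p ∈ spCarr2 X Y j, f ∈ p) →
      ∀ x : SpC d, j ≤ prfJacRk F x → ∀ p ∈ spCarr2 X Y j, ∀ q ∈ spCarr2 X Y j,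
        x ∈ zeroLocus ℂ p → x ∈ zeroLocus ℂ q →
          p = q ∧ ∀ f ∈ p, prfGrad f x ∈ Submodule.span ℂ ((fun f => prfGrad f x) '' F)

/-- (NONREAL) -/
def SpNonrealStmt (d : ℕ) : Prop :=
  ∀ b : ℕ → ℝ, SpAdm d b → ∀ ε : ℝ, 0 < ε → ∀ (j : ℕ) (t : ℝ), SpPlat d b j t → -1 ≤ t →
    ∃ θ : ℝ, 0 < θ ∧ ∀ (D : SpData d) (X Y : SpPool d) (s : ℝ), SpTwo D X Y s θ b →
      ∀ S' ⊆ X.pts, (∀ x ∈ S', ∃ p ∈ spCarr2 X Y j, x ∈ zeroLocus ℂ p ∧ SpNonreal p) →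
        (S'.card : ℝ) ≤ ε * X.pts.card

/-- (PROD) product testing for systems -/
def SpProdStmt (d : ℕ) : Prop :=
  ∀ b : ℕ → ℝ, SpAdm d b → ∀ ε : ℝ, 0 < ε → ∀ (j : ℕ) (t : ℝ), SpPlat d b j t →
    ∃ θ : ℝ, 0 < θ ∧ ∀ (D : SpData d) (X Y : SpPool d) (s : ℝ), SpTwo D X Y s θ b →
      ∀ asgX asgY : SpC d → Ideal (PrfPol d), SpAsg X j asgX → SpAsg Y j asgY →
      ∀ 𝒢 : Set (MvPolynomial (Fin d ⊕ Fin d) ℂ), (∀ G ∈ 𝒢, (G.totalDegree : ℝ) ≤ prfT D.B s t) →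
      ∀ Γ ⊆ X.pts ×ˢ Y.pts,
        (∀ z ∈ Γ, (∀ G ∈ 𝒢, eval (Sum.elim z.1 z.2) G = 0) ∧
          ∃ G ∈ 𝒢, ¬ PrfVanProd G (asgX z.1) (asgY z.2)) →
        (Γ.card : ℝ) ≤ ε * X.pts.card * Y.pts.card

/-- (LOW) the lower boundary `t = -1` of a window which is not outermost (`1 < T_s(-1)`): a nonzero polynomial in `(x,y)` of degree `≤ T_s(-1)` vanishes on `≤ ε n_x n_y` pairs.
Two successive uses of `PrfPiece.Ok.low`: for `x` with `G(x,·) ≠ 0` in the members of `Y`; the other `x` are zeros of one nonzero coefficient polynomial of `G`: `low` in the members of `X`.  `θ = ε/2`. -/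
def SpLowStmt (d : ℕ) : Prop :=
  ∀ b : ℕ → ℝ, SpAdm d b → ∀ ε : ℝ, 0 < ε →
    ∃ θ : ℝ, 0 < θ ∧ ∀ (D : SpData d) (X Y : SpPool d) (s : ℝ), SpTwo D X Y s θ b →
      1 < prfT D.B s (-1) →
      ∀ G : MvPolynomial (Fin d ⊕ Fin d) ℂ, G ≠ 0 → (G.totalDegree : ℝ) ≤ prfT D.B s (-1) →
      ∀ Γ ⊆ X.pts ×ˢ Y.pts, (∀ z ∈ Γ, eval (Sum.elim z.1 z.2) G = 0) →
        (Γ.card : ℝ) ≤ ε * X.pts.card * Y.pts.card

/-- All S5-limit statements. -/
structure SpLimStmt (d : ℕ) : Prop where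
  adm : SpAdmStmt d
  deg : SpDegStmt d
  mass : SpMassStmt d
  rank : SpRankStmt d
  indiv : SpIndivStmt d
  regular : SpRegStmt d
  unique : SpUniqueStmt d
  nonreal : SpNonrealStmt d
  prod : SpProdStmt d
  low : SpLowStmt d

end Claimed.Agent.R273
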