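-- KEEP
import Claimed.Agent.R273.SpLim
import Claimed.Agent.R273.SpTop

/-!
# Row 273, SPARSE, unit S6a: product images and rank in a common window (sparse-cones.tex l.43-345).  Architect helper37.

CONE FORM of the labels (see `SpFrame.lean`): `k = d - j`, product images `spImg V W ⊆ ℂ^{d ⊕ d}` have dimension `2k + 1`, label ranks have one more factor `T`.

Contracts of this file (Props) and the glue:
* `SpDepthStmt d`  (consumed from S4 = geo:generic-depth + geo:secants + point projection + mixed sections; `1 ≤ k < d - 1`)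
* `SpTangStmt d`   (consumed from S4: hypersurface carriers, `k = d - 1`; only the tangency deletion)
* `SpRPStmt d`     sc:retained-products
* `SpCRStmt d`     sc:common-rank
* `SpUpperStmt d`  (sc:common-upper)
* `sp_noCommon`    `SpNoCommon d` from `SpAdmStmt`, `SpCRStmt`, `SpUpperStmt` (numerics (sc:common-ratio)).
-/

set_option autoImplicit false

namespace Claimed.Agent.R273

open MvPolynomial Module

variable {d : ℕ}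

/-- zero locus, short -/
abbrev spZ (𝔭 : Ideal (PrfPol d)) : Set (SpC d) := zeroLocus ℂ 𝔭

/-- GENERIC TRANSVERSALITY of a carrier pair: at one (hence at a general) pair the connecting direction lies in neither Zariski tangent space.
(The failure sets are closed in the irreducible product.) -/
def SpTransv (𝔵 𝔶 : Ideal (PrfPol d)) : Prop :=
  ∃ x ∈ spZ 𝔵, ∃ y ∈ spZ 𝔶, y - x ∉ tanSp 𝔵 x ∧ y - x ∉ tanSp 𝔶 y

/-- A weighted family of carriers of dimension `k`: points `S ⊆ P` with an assignment to primes through them, real in the sense `¬ SpNonreal`. -/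
structure SpFamOk (D : SpData d) (k : ℕ) (w θ : ℝ) (S : Finset (SpC d))
    (asg : SpC d → Ideal (PrfPol d)) : Prop where
  sub : S ⊆ D.pts
  size : D.N * Real.exp (-(θ * w)) ≤ (S.card : ℝ)
  prime : ∀ x ∈ S, (asg x).IsPrime
  dim : ∀ x ∈ S, vdim (spZ (asg x)) = k
  mem : ∀ x ∈ S, x ∈ spZ (asg x)
  real : ∀ x ∈ S, ¬ SpNonreal (asg x)

/-- the flat members are `≤ e e^{θ w}` in number and each has normalised weight `≤ e^{-1} e^{θ w}` -/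
structure SpFlatOk (e w θ : ℝ) (S : Finset (SpC d)) (asg : SpC d → Ideal (PrfPol d)) : Prop where
  num : ∀ 𝒜 : Finset (Ideal (PrfPol d)), (∀ p ∈ 𝒜, vdeg (spZ p) = 1 ∧ ∃ x ∈ S, asg x = p) →
    (𝒜.card : ℝ) ≤ e * Real.exp (θ * w)
  wt : ∀ p : Ideal (PrfPol d), vdeg (spZ p) = 1 → ∀ S' ⊆ S, (∀ x ∈ S', asg x = p) →
    (S'.card : ℝ) ≤ (S.card : ℝ) / e * Real.exp (θ * w)

/-- **(GD+)** geo:generic-depth for `k = l`, together with its consequences for the product images (geo:secants, point projection formula, mixed sections), exactly as consumed by sc:retained-products: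
after removing carrier pairs of product mass `≤ η n_x n_y`, every retained pair `r = (𝔵, 𝔶)` is generically transverse, its image has dimension `2k+1` and degree `≥ deg 𝔵 deg 𝔶 / 2`,
and at most `e^{ε w}` retained targets of `𝔵` have the same image.
(Paper: no third moving root [then `t_x(Y) = 1`, ONE target per image, `deg Y - mult_x Y = d_Z`, `deg Z ≥ deg X d_Z`], or `𝔵, 𝔶` flats in a common `(k+1)`-flat `H` [image `= X × H₀`, degree one, `≤ e^{ε w}` listed flats in `H`].) -/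
def SpDepthStmt (d : ℕ) : Prop :=
  ∀ k : ℕ, 1 ≤ k → k + 1 < d → ∀ ε η : ℝ, 0 < ε → 0 < η → ∃ θ : ℝ, 0 < θ ∧
    ∀ (D : SpData d) (w e : ℝ), D.Reg θ → 1 / θ ≤ w → w ≤ Real.log D.B → 0 < e →
    ∀ (S₁ S₂ : Finset (SpC d)) (asg₁ asg₂ : SpC d → Ideal (PrfPol d)),
      SpFamOk D k w θ S₁ asg₁ → SpFamOk D k w θ S₂ asg₂ →
      SpFlatOk e w θ S₁ asg₁ → SpFlatOk e w θ S₂ asg₂ →
      ∃ R : Finset (Ideal (PrfPol d) × Ideal (PrfPol d)),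
        (∀ Λ ⊆ S₁ ×ˢ S₂, (∀ z ∈ Λ, (asg₁ z.1, asg₂ z.2) ∉ R) →
          (Λ.card : ℝ) ≤ η * S₁.card * S₂.card) ∧
        ∀ r ∈ R, SpTransv r.1 r.2 ∧ vdim (spImg (spZ r.1) (spZ r.2)) = 2 * k + 1 ∧
          vdeg (spZ r.1) * vdeg (spZ r.2) ≤ 2 * vdeg (spImg (spZ r.1) (spZ r.2)) ∧
          ∀ 𝒴 : Finset (Ideal (PrfPol d)),
            (∀ q ∈ 𝒴, (r.1, q) ∈ R ∧ spImg (spZ r.1) (spZ q) = spImg (spZ r.1) (spZ r.2)) →
            (𝒴.card : ℝ) ≤ Real.exp (ε * w)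

/-- **(TANG)** hypersurface carriers (`k = d - 1`): after removing pairs of product mass `≤ η n_x n_y` (targets generically tangent to the connecting lines: the sources lie in the hyperplane
`y + T_yY`, flat cap) the cone from a general source point over the target is dense, i.e. the image is `Z(𝔵) × ℂ^d`. -/
def SpTangStmt (d : ℕ) : Prop :=
  ∀ η : ℝ, 0 < η → ∃ θ : ℝ, 0 < θ ∧
    ∀ (D : SpData d) (w : ℝ), D.Reg θ → 1 / θ ≤ w → w ≤ Real.log D.B →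
    ∀ (S₁ S₂ : Finset (SpC d)) (asg₁ asg₂ : SpC d → Ideal (PrfPol d)),
      S₁ ⊆ D.pts → S₂ ⊆ D.pts → D.N * Real.exp (-(θ * w)) ≤ (S₁.card : ℝ) →
      (∀ x ∈ S₁, (asg₁ x).IsPrime ∧ x ∈ spZ (asg₁ x)) →
      (∀ y ∈ S₂, (asg₂ y).IsPrime ∧ vdim (spZ (asg₂ y)) = d - 1 ∧ y ∈ spZ (asg₂ y)) →
      ∃ R : Finset (Ideal (PrfPol d) × Ideal (PrfPol d)),
        (∀ Λ ⊆ S₁ ×ˢ S₂, (∀ z ∈ Λ, (asg₁ z.1, asg₂ z.2) ∉ R) →
          (Λ.card : ℝ) ≤ η * S₁.card * S₂.card) ∧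
        ∀ r ∈ R, spImg (spZ r.1) (spZ r.2) = prodSet (spZ r.1) Set.univ

/-! ## sc:retained-products -/

/-- the data returned by sc:retained-products -/
structure SpRet (d : ℕ) where
  S₁ : Finset (SpC d)
  S₂ : Finset (SpC d)
  asg₁ : SpC d → Ideal (PrfPol d)
  asg₂ : SpC d → Ideal (PrfPol d)
  F : Finset (PrfPol d)
  g : PrfPol d
  R : Finset (Ideal (PrfPol d) × Ideal (PrfPol d))

/-- the image of a carrier pair -/
def spImgP (r : Ideal (PrfPol d) × Ideal (PrfPol d)) : Set (Fin d ⊕ Fin d → ℂ) :=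
  spImg (spZ r.1) (spZ r.2)

/-- the conclusions of sc:retained-products; `ε` = depth tolerance, `η` = all the `o(1)` fractions and `o(s)` exponents -/
structure SpRet.Ok (ρ : SpRet d) (D : SpData d) (X Y : SpPool d) (s : ℝ) (b : ℕ → ℝ) (j : ℕ)
    (τ ε η : ℝ) : Prop where
  sub₁ : ρ.S₁ ⊆ X.pts
  sub₂ : ρ.S₂ ⊆ Y.pts
  loss₁ : (1 - η) * (X.pts.card : ℝ) ≤ ρ.S₁.card
  loss₂ : (1 - η) * (Y.pts.card : ℝ) ≤ ρ.S₂.card
  /-- own-path assignments of ALL points (the supported extension) -/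
  asg₁ : SpAsg X j ρ.asg₁
  asg₂ : SpAsg Y j ρ.asg₂
  same : X = Y → ρ.S₁ = ρ.S₂ ∧ ρ.asg₁ = ρ.asg₂
  F_deg : ∀ f ∈ ρ.F, (f.totalDegree : ℝ) ≤ prfT D.B s τ
  F_van : ∀ f ∈ ρ.F, ∀ p ∈ spCarr2 X Y j, f ∈ p
  g_deg : (ρ.g.totalDegree : ℝ) ≤ prfT D.B s τ
  g_rank : ∀ x, eval x ρ.g ≠ 0 → j ≤ prfJacRk (ρ.F : Set (PrfPol d)) x
  g_ne₁ : ∀ x ∈ ρ.S₁, eval x ρ.g ≠ 0
  g_ne₂ : ∀ x ∈ ρ.S₂, eval x ρ.g ≠ 0
  real₁ : ∀ x ∈ ρ.S₁, ¬ SpNonreal (ρ.asg₁ x)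
  real₂ : ∀ x ∈ ρ.S₂, ¬ SpNonreal (ρ.asg₂ x)
  R_sub : ∀ r ∈ ρ.R, (∃ x ∈ ρ.S₁, ρ.asg₁ x = r.1) ∧ ∃ y ∈ ρ.S₂, ρ.asg₂ y = r.2
  R_loss : ∀ Λ ⊆ ρ.S₁ ×ˢ ρ.S₂, (∀ z ∈ Λ, (ρ.asg₁ z.1, ρ.asg₂ z.2) ∉ ρ.R) →
    (Λ.card : ℝ) ≤ η * ρ.S₁.card * ρ.S₂.card
  dim : ∀ r ∈ ρ.R, vdim (spImgP r) = 2 * (d - j) + 1
  transv : ∀ r ∈ ρ.R, SpTransv r.1 r.2
  /-- (sc:retained-image-upper) -/
  deg_up : ∀ 𝒥 : Finset (Set (Fin d ⊕ Fin d → ℂ)), (∀ Z ∈ 𝒥, ∃ r ∈ ρ.R, Z = spImgP r) →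
    ((∑ Z ∈ 𝒥, vdeg Z : ℕ) : ℝ) ≤ spE D.B s b j ^ 2 * Real.exp (η * s)
  /-- (sc:retained-image-mass), for EVERY subfamily of images -/
  mass : ∀ 𝒥 : Finset (Set (Fin d ⊕ Fin d → ℂ)), ∀ Λ ⊆ ρ.S₁ ×ˢ ρ.S₂,
    (∀ z ∈ Λ, (ρ.asg₁ z.1, ρ.asg₂ z.2) ∈ ρ.R ∧ spImgP (ρ.asg₁ z.1, ρ.asg₂ z.2) ∈ 𝒥) →
    (Λ.card : ℝ) ≤ ((∑ Z ∈ 𝒥, vdeg Z : ℕ) : ℝ) / spE D.B s b j ^ 2 *
      Real.exp ((ε + η) * s) * ρ.S₁.card * ρ.S₂.card

theorem SpRet.Ok.mono_eta {ρ : SpRet d} {D : SpData d} {X Y : SpPool d} {s : ℝ} {b : ℕ → ℝ} {j : ℕ}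
    {τ ε η η' : ℝ} (h : ρ.Ok D X Y s b j τ ε η) (hη : η ≤ η') (hs : 0 ≤ s) :
    ρ.Ok D X Y s b j τ ε η' :=
  { h with
    loss₁ := le_trans (mul_le_mul_of_nonneg_right (by linarith) (Nat.cast_nonneg _)) h.loss₁
    loss₂ := le_trans (mul_le_mul_of_nonneg_right (by linarith) (Nat.cast_nonneg _)) h.loss₂
    R_loss := fun Λ hΛ hz => (h.R_loss Λ hΛ hz).trans (by gcongr)
    deg_up := fun 𝒥 h𝒥 => (h.deg_up 𝒥 h𝒥).trans (by gcongr)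
    mass := fun 𝒥 Λ hΛ hz => (h.mass 𝒥 Λ hΛ hz).trans (by gcongr) }

/-- **(RP)** sc:retained-products, theta-form. -/
def SpRPStmt (d : ℕ) : Prop :=
  ∀ b : ℕ → ℝ, SpAdm d b → ∀ (j : ℕ) (τ : ℝ), 2 ≤ j → j < d → SpPlat d b j τ → -1 ≤ τ →
    ∀ ε η : ℝ, 0 < ε → 0 < η → ∃ θ : ℝ, 0 < θ ∧
      ∀ (D : SpData d) (X Y : SpPool d) (s : ℝ), SpTwo D X Y s θ b →
        ∃ ρ : SpRet d, ρ.Ok D X Y s b j τ ε η

/-! ## sc:common-rank, (sc:common-upper) -/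

/-- the required right side of (sc:label-rank), cone form: `σ(t)² T min(1, T/(D_1 D_2))` -/
noncomputable def spRk (d : ℕ) (B s : ℝ) (b : ℕ → ℝ) (t : ℝ) : ℝ :=
  spSigma d B s b t ^ 2 * prfT B s t * min 1 (prfT B s t / (spD B s b 0 * spD B s b 1))

/-- **(CR)** sc:common-rank, theta-form: ARBITRARY dense off-diagonal graphs on two pools of one window, `t` in an open plateau before the last cut. -/
def SpCRStmt (d : ℕ) : Prop :=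
  ∀ b : ℕ → ℝ, SpAdm d b → ∀ α ε : ℝ, 0 < α → 0 < ε → ∀ (j : ℕ) (t : ℝ), j < d → SpPlat d b j t →
    -1 ≤ t → ∃ θ : ℝ, 0 < θ ∧ ∀ (D : SpData d) (X Y : SpPool d) (s : ℝ), SpTwo D X Y s θ b →
      ∀ Γ ⊆ X.pts ×ˢ Y.pts, (∀ z ∈ Γ, z.1 ≠ z.2) →
        α * (X.pts.card : ℝ) * (Y.pts.card : ℝ) ≤ (Γ.card : ℝ) →
        spRk d D.B s b t * Real.exp (-(ε * s)) ≤
          (hA (spLab (Γ : Set (SpC d × SpC d))) ⌊prfT D.B s t⌋₊ : ℝ)

/-- **(UP)** (sc:common-upper), cone form: `H(T) ≤ #centres · E · binom(T+2,2)`. -/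
def SpUpperStmt (d : ℕ) : Prop :=
  ∀ (D : SpData d) (Γ : Finset (SpC d × SpC d)) (T : ℕ),
    (∀ p ∈ D.P, ((((D.C p).map PCurve.deg).sum : ℕ) : ℝ) ≤ D.E) →
    (∀ z ∈ Γ, z.1 ∈ D.pts ∧ D.Cov z.1 z.2) →
    (hA (spLab (Γ : Set (SpC d × SpC d))) T : ℝ) ≤
      ((Γ.image Prod.fst).card : ℝ) * D.E * ((T + 2).choose 2 : ℝ)

/-- the common-rank assertion at the time `t` -/
def SpCRAt (d : ℕ) (b : ℕ → ℝ) (t : ℝ) : Prop :=
  ∀ α ε : ℝ, 0 < α → 0 < ε → ∃ θ : ℝ, 0 < θ ∧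
    ∀ (D : SpData d) (X Y : SpPool d) (s : ℝ), SpTwo D X Y s θ b →
      ∀ Γ ⊆ X.pts ×ˢ Y.pts, (∀ z ∈ Γ, z.1 ≠ z.2) →
        α * (X.pts.card : ℝ) * (Y.pts.card : ℝ) ≤ (Γ.card : ℝ) →
        spRk d D.B s b t * Real.exp (-(ε * s)) ≤
          (hA (spLab (Γ : Set (SpC d × SpC d))) ⌊prfT D.B s t⌋₊ : ℝ)

end Claimed.Agent.R273
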