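import Claimed.Agent.R273.SpTop
import Claimed.Agent.R273.HomFac

/-!
# Row 273, SPARSE: (FAC) the directional curves may be taken irreducible   (helper230)

`sp_factor d : SpFactorStmt d`, from `homfac_exists_eval` (`R273/HomFac.lean`).
-/

set_option autoImplicit false

namespace Claimed.Agent.R273

open MvPolynomial

theorem sp_factor (d : ℕ) : SpFactorStmt d := by
  intro c
  obtain ⟨l, h1, h2, h3⟩ := homfac_exists_eval c.hom c.ne
  refine ⟨l.attach.map (fun p => ⟨c.φ, p.1.1, p.1.2, c.inj, (h1 p.1 p.2).2.1, (h1 p.1 p.2).1.ne_zero⟩),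
    ?_, ?_, ?_⟩
  · intro c' hc'
    obtain ⟨p, _, rfl⟩ := List.mem_map.1 hc'
    exact (h1 p.1 p.2).1
  · rw [List.map_map]
    have e : (List.map (PCurve.deg ∘ fun p : {x // x ∈ l} =>
        (⟨c.φ, p.1.1, p.1.2, c.inj, (h1 p.1 p.2).2.1, (h1 p.1 p.2).1.ne_zero⟩ : PCurve d)) l.attach)
        = l.map Prod.snd := by
      conv_rhs => rw [← List.attach_map_subtype_val l, List.map_map]
      rfl
    rw [e, h2]
  · rintro w ⟨x, hx, hx0⟩
    obtain ⟨p, hp, hp0⟩ := h3 x hx0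
    exact ⟨_, List.mem_map.2 ⟨⟨p, hp⟩, List.mem_attach _ _, rfl⟩, x, hx, hp0⟩

end Claimed.Agent.R273
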