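import Claimed.Agent.R273.SpSelA
import Claimed.Agent.R273.PrfBudget

/-!
# Row 273, SPARSE, unit SEL, part B: THE PREPARATION (`SpSelPrep d`).  Architect helper191.  Prefix `spsel_`.

Notation: `N = D.N`, `B = D.B = N^{1/d}`, `A = dA D.P = B²`, `M = dM D.P ≤ δ A`, `E = D.E = δ N / A`, `R = 𝔭.R`.  Every leaf has the form "∃ δ₁ > 0, ∀ D, D.Reg δ₁ → ..": the numerics stay inside the leaf
(use `spsel_B_large`: `B` is as large as we please; `D.Reg` is monotone: `SpData.Reg.mono`).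

LEAF SEL-B1 (`spsel_err`, `spsel_tame_part`, ~300 lines).  `spsel_err`: four `Filter.Tendsto .. atTop (𝓝 0)` give eventual bounds (`Filter.Tendsto.eventually_lt` / `eventually_le_nhds`, `Filter.eventually_atTop`), `ρ s / s ≤ θ` ⇒ `ρ s ≤ θ s` for `s > 0`.
  `spsel_tame_part`: `κ μ ρ ω s₀` from `SpPartStmt`; `s₁` from `spsel_err θ'` (with `ω ≤ 1/4`: apply `spsel_err` to `min θ' (1/4)`); `sst := max (max s₀ s₁) 0`; `δ₁ := min (1/4)` (the `δ₁` of `spsel_B_large` for `B₀ = max 2 (exp (4 sst))`).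
  Then `sst ≤ log B / 4`; `2M + 1 ≤ 2 δ B² + 1 ≤ B²/2 + 1 ≤ B²` (`spsel_A`, `B ≥ 2`).  Apply the partition to `P = D.P`, `B = D.B` (`rfl`).  All widths are `≥ sst ≥ s₁`.  `D.pts = D.P.image prfPt` by `rfl`, `spsel_card_pts`, `spsel_card_R`.
LEAF SEL-B2 (`spsel_core`, ~300 lines).  `L := ⌊B e^{3 sst}⌋₊`.  For `x ∈ K`: `{y ∈ K : D.Cov x y} ⊆ ⋃_{c ∈ D.C (spRe x)} {y ∈ K : c.Mem (y - x)}`, each of size `≤ c.deg * binom(L+2,2)` (`prf_core`, `p := x`), so `≤ (∑ deg) binom(L+2,2) ≤ E binom(L+2,2)`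
  (`D.Reg.deg` at `spRe x ∈ D.P`: `x = prfPt p`, `sp_re_pt`).  Every ordered pair of distinct points of `K` is in `U`, or covered from its first point, or from its second: `|K|(|K|-1) ≤ |U| + 2 |K| E binom(L+2,2)`.
  `binom(L+2,2) ≤ (L+2)² / 2 ≤ (3 B e^{3 sst})²/2`, `E B² = δ N` (`spsel_A`): `|K|(|K|-1) ≤ δ₁ N² + 9 δ₁ e^{6 sst} N²`.  If `|K| > N/4` and `N ≥ 8`: `|K|(|K|-1) ≥ N²/32`.  `δ₁ := min (1/8) (1 / (64 (1 + 9 e^{6 sst})))`.
LEAF SEL-B3 (`spsel_cho`, ~200 lines).  `y ∈ (π a).S`: the path is proper at `y` (`(Tame.piece ..).path`), so `f i (y) = 0` for `i < d - 1`; `span (prfSys f (d-1)) ≤ 𝔪_y := ` kernel of `eval y` (prime), `Ideal.exists_minimalPrimes_le` gives a minimal prime `p ≤ 𝔪_y`, i.e. `y ∈ zeroLocus ℂ p`.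
  Choose (`Classical.choose`) for `y ∈ R` the piece `a` with `y ∈ (π a).S` (unique by `disj`) and such a prime.  `vdim = d - (d-1) = 1` by `prf_pure`.
LEAF SEL-B4 (`spsel_thin`, ~450 lines).  Fix a piece `π = 𝔭.π a`, `s = 𝔭.w B a ≤ log B`, `S = π.S`.  `Th_a := {y ∈ S : SpThin (cho y)}`; `cho` is injective on `Th_a` (two REAL points on a thin line coincide; `spsel_real_pts`), so
  `|Th_a| = |cho '' Th_a| ≤ prfDeg (cho '' Th_a)` (every `vdeg = 1`) `≤ ∏_{i<d-1} deg f_i` (`prf_carrier_deg`, `j = d-1`) `≤ ∏_{i<d-1} T_s(τ_i)` (`Ok.deg`).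
  `prf_balance` (constants `C, κ₀`): `|S| ≤ ∏_{i<d} T_s(τ_i) ≤ C |S| e^{2 d² θ₁ s}`.  Monotone times: `T_s(τ_{d-1})^d ≥ ∏_{i<d} T_s(τ_i) ≥ |S| ≥ N e^{-θ₁ s}`, so `T_s(τ_{d-1}) ≥ B e^{-θ₁ s / d}`.
  Hence `|Th_a| ≤ C |S| e^{(2d² + 1) θ₁ s} / B ≤ C |S| B^{(2d²+1) θ₁ - 1} ≤ C |S| B^{-1/2}` for `θ₁ := min κ₀ (1 / (2 (2d²+1)))`.  Sum over `a` (`∑ |S_a| ≤ N`), `B ≥ (C/η)²` by `spsel_B_large`.
  (`1 ≤ prfT B s (-1)` since `s ≤ log B`; `0 < s` from `w_ge`.)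
LEAF SEL-B5 (`spsel_heavy`, ~350 lines).  `C` from `dir_rich hR`; `H₀ := ⌈2C/η⌉₊ + 1`, `H := H₀`; `𝓗 := (richPairs D.P H₀).image (prfPt × prfPt)`; `|𝓗| ≤ C (N²/H₀ + N M) ≤ (η/2) N² + C δ₁ N²` (`M ≤ δ A ≤ δ N`, `spsel_A_le_N`), `δ₁ := min 1 (η / (2C))`.
  If `x = prfPt p`, `y = prfPt q`, `(x,y) ∉ 𝓗`, `T ⊆ D.pts` on the complex line: `T = T'.image prfPt`, every `t ∈ T'` satisfies `cdir p t = c • cdir p q` (`sp_cdir`), so `Collinear ℝ {p, q, t}` (`dir_collinear`): `T' ⊆ onLine D.P (p,q)`, which has `≤ H₀` points.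
LEAF SEL-B6 (`spsel_prep`, glue, ~450 lines).  Given `θ, Kb`.  `θ₁` from `spsel_thin`; `θ' := min (θ/2) θ₁`; `sst, δa` from `spsel_tame_part θ'`; `δb` from `spsel_core sst`; `η := 1 / (1024 Kb)`; `δc` from `spsel_thin η`; `H, δd` from `spsel_heavy η`; `δe` from `SpTermStmt η`;
  `δf` from `spsel_B_large (max 2 (max H 1)^{1/θ})`; `δ₁ := min` of all these, of `θ`, of `η` and of `1/(16 Kb²)`.
  `Th := R.filter (SpThin (cho ·))`, `Q := R \ Th`, `Γ_T := (D.pts ×ˢ Q).filter (fun z => z.1 ≠ z.2 ∧ SpTerm D z.1 (cho z.2))` (classical), `|Γ_T| ≤ η N²`;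
  `Bad := U ∪ Γ_T ∪ Γ_T.image swap ∪ Th ×ˢ D.pts ∪ D.pts ×ˢ Th ∪ 𝓗 ∪ 𝓗.image swap`, `|Bad| ≤ 7 η N²`.  `|R| ≥ N - N/4 - N/4 = N/2`: `16 Kb |Bad| ≤ 112 N²/1024 ≤ N²/4 ≤ |R|²`.
  `BadOk`: `(x,y) ∉ Bad`, `x ≠ y ∈ R`: `x, y ∈ Q`; not terminal in both orientations; light in both orientations; `(x,y) ∉ U` gives `Cov x y` or `Cov y x`.
  `N √δ 2Kb ≤ N/2`: `√δ ≤ 1/(4Kb)`.  `|S_a| ≥ N e^{-θ' w} ≥ N e^{-log B} = N/B = B^{d-1} ≥ 4`.  `H ≤ B^θ`: `B ≥ H^{1/θ}`.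
-/

set_option autoImplicit false

namespace Claimed.Agent.R273

open MvPolynomial Module

variable {d : ℕ}

/-- LEAF SEL-B1 -/
theorem spsel_err {κ μ ρ ω : ℝ → ℝ} (h : PrfErr κ μ ρ ω) (θ : ℝ) (hθ : 0 < θ) :
    ∃ s₁ : ℝ, ∀ s, s₁ ≤ s → κ s ≤ θ ∧ μ s ≤ θ ∧ ρ s ≤ θ * s ∧ ω s ≤ θ ∧ 1 / θ ≤ s := by
  have e1 := h.kap.eventually_le_const hθ
  have e2 := h.mu.eventually_le_const hθ
  have e3 := h.rho.eventually_le_const hθ
  have e4 := h.om.eventually_le_const hθ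
  have e5 : ∀ᶠ s : ℝ in Filter.atTop, 1 / θ ≤ s := Filter.eventually_ge_atTop _
  obtain ⟨s₁, hs₁⟩ := Filter.eventually_atTop.1 (e1.and (e2.and (e3.and (e4.and e5))))
  refine ⟨s₁, fun s hs => ?_⟩
  obtain ⟨a1, a2, a3, a4, a5⟩ := hs₁ s hs
  have hs0 : 0 < s := lt_of_lt_of_le (by positivity) a5
  exact ⟨a1, a2, (div_le_iff₀ hs0).1 a3, a4, a5⟩

/-- LEAF SEL-B1: the partition with all tolerances `≤ θ'`; `sst` is a CONSTANT. -/
theorem spsel_tame_part (hd : 1 ≤ d) (hpart : SpPartStmt d) (θ' : ℝ) (hθ' : 0 < θ') :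
    ∃ sst δ₁ : ℝ, 0 ≤ sst ∧ 0 < δ₁ ∧ ∀ D : SpData d, D.Reg δ₁ →
      ∃ 𝔭 : SpPart d, 𝔭.Tame D θ' ∧ 𝔭.K ⊆ D.pts ∧
        (∀ z ∈ 𝔭.K, ∃ σ : PrfPol d, (σ.totalDegree : ℝ) ≤ D.B * Real.exp (3 * sst) ∧ eval z σ = 1 ∧
          ∀ y ∈ 𝔭.K, y ≠ z → eval y σ = 0) ∧
        D.N - 𝔭.K.card - 𝔭.R.card ≤ D.N / 4 := by
  obtain ⟨κ, μ, ρ, ω, s₀, herr, hP⟩ := hpart
  have hmin0 : 0 < min θ' (1 / 4) := lt_min hθ' (by norm_num)
  obtain ⟨s₁, hs₁⟩ := spsel_err herr (min θ' (1 / 4)) hmin0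
  set sst : ℝ := max (max s₀ s₁) 0 with hsst
  have hs₀ : s₀ ≤ sst := (le_max_left _ _).trans (le_max_left _ _)
  have hs₁' : s₁ ≤ sst := (le_max_right _ _).trans (le_max_left _ _)
  obtain ⟨δ₂, hδ₂, _, hBl⟩ := spsel_B_large hd (max 2 (Real.exp (4 * sst)))
  refine ⟨sst, min (1 / 4) δ₂, le_max_right _ _, lt_min (by norm_num) hδ₂, fun D hD => ?_⟩
  have hB := hBl D (hD.mono (min_le_right _ _))
  have hB2 : 2 ≤ D.B := (le_max_left _ _).trans hB
  have hBe : Real.exp (4 * sst) ≤ D.B := (le_max_right _ _).trans hB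
  have hBpos : 0 < D.B := by linarith
  have hlog : sst ≤ Real.log D.B / 4 := by
    have := (Real.le_log_iff_exp_le hBpos).2 hBe
    linarith
  have hδ4 : D.δ ≤ 1 / 4 := hD.le.trans (min_le_left _ _)
  have hM : 2 * (dM D.P : ℝ) + 1 ≤ D.B ^ 2 := by
    have h1 := hD.dist
    rw [spsel_A hd] at h1
    have h2 : D.δ * D.B ^ 2 ≤ 1 / 4 * D.B ^ 2 := mul_le_mul_of_nonneg_right hδ4 (by positivity)
    nlinarith
  obtain ⟨𝔭, hok⟩ := hP D.P D.B sst rfl hs₀ hlog hM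
  have hc : ((D.P.image prfPt).card : ℝ) = D.N := spsel_card_pts D
  have hN0 : 0 ≤ D.N := by unfold SpData.N; positivity
  have hw : ∀ a ∈ 𝔭.I, s₁ ≤ 𝔭.w D.B a := fun a ha => hs₁'.trans (hok.w_ge a ha)
  have hml : min θ' (1 / 4) ≤ θ' := min_le_left _ _
  refine ⟨𝔭, ?_, hok.subK, hok.sep, ?_⟩
  · exact
      { sub := hok.sub
        disj := hok.disj
        w_ge := fun a ha => (one_div_le_one_div_of_le hmin0 hml).trans (hs₁ _ (hw a ha)).2.2.2.2
        piece := fun a ha => (hok.piece a ha).mono_kappa ((hs₁ _ (hw a ha)).1.trans hml)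
        grid := fun a ha => (hok.grid a ha).mono_mu ((hs₁ _ (hw a ha)).2.1.trans hml)
        top_ge := hok.top_ge
        top_le := fun a ha => by
          have h1 := hok.top_le a ha
          have h2 := (hs₁ _ (hw a ha)).2.1.trans hml
          linarith
        size := fun a ha => by
          have h1 := hok.size a ha
          rw [hc] at h1
          refine le_trans ?_ h1
          refine mul_le_mul_of_nonneg_left ?_ hN0
          have h2 := (hs₁ _ (hw a ha)).2.2.1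
          have h3 : 0 ≤ 𝔭.w D.B a := le_trans (by positivity) (hs₁ _ (hw a ha)).2.2.2.2
          have h4 : min θ' (1 / 4) * 𝔭.w D.B a ≤ θ' * 𝔭.w D.B a := mul_le_mul_of_nonneg_right hml h3
          exact Real.exp_le_exp.mpr (by linarith)
        imb := fun a ha => (hok.imb a ha).imp (fun h' => by
          have h2 := (hs₁ _ (hw a ha)).2.1.trans hml
          linarith) id }
  · have h1 := hok.most
    rw [hc] at h1
    have h2 : ω sst ≤ 1 / 4 := (hs₁ sst hs₁').2.2.2.1.trans (min_le_right _ _)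
    have h3 : (𝔭.R.card : ℝ) = ∑ a ∈ 𝔭.I, ((𝔭.π a).S.card : ℝ) := by
      rw [spsel_card_R 𝔭 hok.disj]
      push_cast
      rfl
    rw [h3]
    have h4 : ω sst * D.N ≤ 1 / 4 * D.N := mul_le_mul_of_nonneg_right h2 hN0
    linarith

open Classical in
/-- the points of `K` covered from `x` by a list of curves -/
theorem spsel_core_list (K : Finset (SpC d)) (L : ℕ)
    (hK : ∀ z ∈ K, ∃ σ : PrfPol d, σ.totalDegree ≤ L ∧ eval z σ = 1 ∧ ∀ y ∈ K, y ≠ z → eval y σ = 0)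
    (x : SpC d) (l : List (PCurve d)) :
    (K.filter fun y => ∃ c ∈ l, c.Mem (y - x)).card ≤ (l.map PCurve.deg).sum * (L + 2).choose 2 := by
  induction l with
  | nil => simp
  | cons c l ih =>
    have hsub : (K.filter fun y => ∃ c' ∈ c :: l, c'.Mem (y - x))
        ⊆ (K.filter fun y => c.Mem (y - x)) ∪ (K.filter fun y => ∃ c' ∈ l, c'.Mem (y - x)) := by
      intro y hy
      obtain ⟨hyK, c', hc', hm⟩ := Finset.mem_filter.1 hy
      rcases List.mem_cons.1 hc' with rfl | h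
      · exact Finset.mem_union_left _ (Finset.mem_filter.2 ⟨hyK, hm⟩)
      · exact Finset.mem_union_right _ (Finset.mem_filter.2 ⟨hyK, c', h, hm⟩)
    have h1 : (K.filter fun y => c.Mem (y - x)).card ≤ c.deg * (L + 2).choose 2 :=
      prf_core K L hK c x _ (Finset.filter_subset _ _) (fun z hz => (Finset.mem_filter.1 hz).2)
    calc _ ≤ _ := Finset.card_le_card hsub
      _ ≤ _ := Finset.card_union_le _ _
      _ ≤ c.deg * (L + 2).choose 2 + (l.map PCurve.deg).sum * (L + 2).choose 2 := add_le_add h1 ih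
      _ = _ := by rw [List.map_cons, List.sum_cons, add_mul]

/-- LEAF SEL-B2: the core alternative. -/
theorem spsel_core (hd : 3 ≤ d) (sst : ℝ) (hs : 0 ≤ sst) :
    ∃ δ₁ : ℝ, 0 < δ₁ ∧ ∀ D : SpData d, D.Reg δ₁ → ∀ U : Finset (SpC d × SpC d), D.AlmostCov U →
      (U.card : ℝ) ≤ δ₁ * D.N ^ 2 → ∀ K : Finset (SpC d), K ⊆ D.pts →
      (∀ z ∈ K, ∃ σ : PrfPol d, (σ.totalDegree : ℝ) ≤ D.B * Real.exp (3 * sst) ∧ eval z σ = 1 ∧
          ∀ y ∈ K, y ≠ z → eval y σ = 0) →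
      (K.card : ℝ) ≤ D.N / 4 := by
  classical
  set e6 : ℝ := Real.exp (6 * sst) with he6
  have he6pos : 0 < e6 := Real.exp_pos _
  refine ⟨min (1 / 8) (1 / (64 * (1 + 9 * e6))), lt_min (by norm_num) (by positivity), ?_⟩
  intro D hD U hU hUc K hKsub hKsep
  set δ₁ : ℝ := min (1 / 8) (1 / (64 * (1 + 9 * e6))) with hδ₁
  have hδ8 : δ₁ ≤ 1 / 8 := min_le_left _ _
  have hδe : δ₁ * (64 * (1 + 9 * e6)) ≤ 1 := by
    have h1 : δ₁ ≤ 1 / (64 * (1 + 9 * e6)) := min_le_right _ _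
    rwa [le_div_iff₀ (by positivity)] at h1
  have hδ1 : δ₁ ≤ 1 := hδ8.trans (by norm_num)
  have hB1 : 1 ≤ D.B := hD.one_le_B hδ1
  have hN0 : 0 ≤ D.N := by unfold SpData.N; positivity
  have hN8 : 8 ≤ D.N := by
    have h1 := hD.big
    have h2 := hD.le.trans hδ8
    nlinarith [hD.pos]
  set Y : ℝ := D.B * Real.exp (3 * sst) with hY
  have hY1 : 1 ≤ Y := by
    have : 1 ≤ Real.exp (3 * sst) := Real.one_le_exp (by positivity)
    nlinarith
  have hY2 : Y ^ 2 = D.B ^ 2 * e6 := by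
    rw [hY, mul_pow, he6, ← Real.exp_nat_mul]
    congr 2
    push_cast
    ring
  set L : ℕ := ⌊Y⌋₊ with hL
  have hLY : (L : ℝ) ≤ Y := Nat.floor_le (by linarith)
  have hKsep' : ∀ z ∈ K, ∃ σ : PrfPol d, σ.totalDegree ≤ L ∧ eval z σ = 1 ∧
      ∀ y ∈ K, y ≠ z → eval y σ = 0 := by
    intro z hz
    obtain ⟨σ, h1, h2, h3⟩ := hKsep z hz
    exact ⟨σ, Nat.le_floor h1, h2, h3⟩
  set bn : ℝ := (((L + 2).choose 2 : ℕ) : ℝ) with hbn
  have hbn0 : 0 ≤ bn := Nat.cast_nonneg _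
  have hbnle : bn ≤ 9 / 2 * Y ^ 2 := by
    rw [hbn, Nat.cast_choose_two]
    push_cast
    have hL0 : (0 : ℝ) ≤ (L : ℝ) := Nat.cast_nonneg _
    nlinarith
  have hE0 : 0 ≤ D.E := by
    unfold SpData.E
    have := hD.pos
    have hA : 0 ≤ dA D.P := by unfold dA; positivity
    positivity
  have hEbn : D.E * bn ≤ 9 / 2 * D.δ * D.N * e6 := by
    have hB2 : 0 < D.B ^ 2 := by positivity
    have h1 : D.E * (9 / 2 * Y ^ 2) = 9 / 2 * D.δ * D.N * e6 := by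
      unfold SpData.E
      rw [spsel_A (by omega), hY2]
      field_simp
    calc D.E * bn ≤ D.E * (9 / 2 * Y ^ 2) := mul_le_mul_of_nonneg_left hbnle hE0
      _ = _ := h1
  -- covered points from one centre
  have hCx : ∀ x ∈ K, ((K.filter fun y => D.Cov x y).card : ℝ) ≤ D.E * bn := by
    intro x hx
    obtain ⟨p, hp, rfl⟩ := Finset.mem_image.1 (hKsub hx)
    have h1 := spsel_core_list K L hKsep' (prfPt p) (D.C (spRe (prfPt p)))
    have h2 := hD.deg p hp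
    rw [sp_re_pt] at h1
    have h3 : ((K.filter fun y => D.Cov (prfPt p) y).card : ℝ)
        ≤ ((((D.C p).map PCurve.deg).sum : ℕ) : ℝ) * bn := by
      have h4 : (K.filter fun y => D.Cov (prfPt p) y) = K.filter fun y => ∃ c ∈ D.C p, c.Mem (y - prfPt p) := by
        refine Finset.filter_congr fun y _ => ?_
        unfold SpData.Cov
        rw [sp_re_pt]
      rw [h4, hbn]
      exact_mod_cast h1
    exact h3.trans (mul_le_mul_of_nonneg_right h2 hbn0)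
  set k : ℝ := (K.card : ℝ) with hk
  have hk0 : 0 ≤ k := Nat.cast_nonneg _
  have hkN : k ≤ D.N := by
    rw [← spsel_card_pts D, hk]
    exact_mod_cast Finset.card_le_card hKsub
  set G1 : Finset (SpC d × SpC d) := (K ×ˢ K).filter fun z => D.Cov z.1 z.2 with hG1
  set G2 : Finset (SpC d × SpC d) := (K ×ˢ K).filter fun z => D.Cov z.2 z.1 with hG2
  have hG1c : (G1.card : ℝ) ≤ k * (D.E * bn) := by
    have hsub : G1 ⊆ K.biUnion fun x => (K.filter fun y => D.Cov x y).image fun y => (x, y) := by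
      rintro ⟨x, y⟩ hz
      obtain ⟨h1, h2⟩ := Finset.mem_filter.1 hz
      obtain ⟨hx, hy⟩ := Finset.mem_product.1 h1
      exact Finset.mem_biUnion.2 ⟨x, hx, Finset.mem_image.2 ⟨y, Finset.mem_filter.2 ⟨hy, h2⟩, rfl⟩⟩
    have h1 : G1.card ≤ ∑ x ∈ K, (K.filter fun y => D.Cov x y).card :=
      (Finset.card_le_card hsub).trans (Finset.card_biUnion_le.trans
        (Finset.sum_le_sum fun x _ => Finset.card_image_le))
    have h2 : (G1.card : ℝ) ≤ ∑ x ∈ K, ((K.filter fun y => D.Cov x y).card : ℝ) := by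
      exact_mod_cast h1
    calc (G1.card : ℝ) ≤ ∑ x ∈ K, ((K.filter fun y => D.Cov x y).card : ℝ) := h2
      _ ≤ ∑ _x ∈ K, D.E * bn := Finset.sum_le_sum hCx
      _ = k * (D.E * bn) := by rw [Finset.sum_const, nsmul_eq_mul]
  have hG2c : G2.card ≤ G1.card := by
    refine Finset.card_le_card_of_injOn Prod.swap ?_ Prod.swap_injective.injOn
    intro z hz
    obtain ⟨h1, h2⟩ := Finset.mem_filter.1 hz
    obtain ⟨hx, hy⟩ := Finset.mem_product.1 h1
    exact Finset.mem_filter.2 ⟨Finset.mem_product.2 ⟨hy, hx⟩, h2⟩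
  have hoff : K.offDiag ⊆ (U ∪ G1) ∪ G2 := by
    rintro ⟨x, y⟩ hz
    obtain ⟨hx, hy, hne⟩ := Finset.mem_offDiag.1 hz
    rcases hU x (hKsub hx) y (hKsub hy) hne with h | h | h
    · exact Finset.mem_union_left _ (Finset.mem_union_left _ h)
    · exact Finset.mem_union_left _ (Finset.mem_union_right _
        (Finset.mem_filter.2 ⟨Finset.mem_product.2 ⟨hx, hy⟩, h⟩))
    · exact Finset.mem_union_right _ (Finset.mem_filter.2 ⟨Finset.mem_product.2 ⟨hx, hy⟩, h⟩)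
  have hcount : k * k - k ≤ (U.card : ℝ) + 2 * (k * (D.E * bn)) := by
    have h1 : K.offDiag.card ≤ U.card + G1.card + G2.card :=
      (Finset.card_le_card hoff).trans ((Finset.card_union_le _ _).trans
        (Nat.add_le_add_right (Finset.card_union_le _ _) _))
    rw [Finset.offDiag_card] at h1
    have h2 : K.card * K.card ≤ U.card + G1.card + G1.card + K.card := by omega
    have h3 : k * k ≤ (U.card : ℝ) + (G1.card : ℝ) + (G1.card : ℝ) + k := by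
      rw [hk]
      exact_mod_cast h2
    linarith
  by_contra hcon
  rw [not_le] at hcon
  have hδδ : D.δ ≤ δ₁ := hD.le
  have h5 : k * (D.E * bn) ≤ D.N * (9 / 2 * δ₁ * D.N * e6) := by
    have h6 : 9 / 2 * D.δ * D.N * e6 ≤ 9 / 2 * δ₁ * D.N * e6 := by
      have : 0 ≤ 9 / 2 * D.N * e6 := by positivity
      nlinarith
    exact mul_le_mul hkN (hEbn.trans h6) (by positivity) hN0
  have h7 : k * k - k ≤ δ₁ * (1 + 9 * e6) * D.N ^ 2 := by
    calc k * k - k ≤ (U.card : ℝ) + 2 * (k * (D.E * bn)) := hcount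
      _ ≤ δ₁ * D.N ^ 2 + 2 * (D.N * (9 / 2 * δ₁ * D.N * e6)) := by linarith
      _ = _ := by ring
  have h8 : δ₁ * (1 + 9 * e6) * D.N ^ 2 ≤ D.N ^ 2 / 64 := by
    have : 0 ≤ D.N ^ 2 := by positivity
    nlinarith
  have h9 : D.N ^ 2 / 32 < k * k - k := by
    have h10 : D.N / 8 ≤ k - 1 := by linarith
    have h11 : D.N / 4 * (D.N / 8) < k * (k - 1) := by
      have : 0 < D.N / 8 := by linarith
      nlinarith
    nlinarith
  have : 0 < D.N ^ 2 := by positivity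
  linarith

/-- LEAF SEL-B3: the terminal assignment. -/
theorem spsel_cho (hd : 1 ≤ d) (D : SpData d) (𝔭 : SpPart d) (θ : ℝ) (h : 𝔭.Tame D θ) :
    ∃ cho : SpC d → Ideal (PrfPol d), 𝔭.Cho cho ∧
      ∀ y ∈ 𝔭.R, (cho y).IsPrime ∧ vdim (zeroLocus ℂ (cho y)) = 1 ∧ y ∈ zeroLocus ℂ (cho y) := by
  have hpath : ∀ a ∈ 𝔭.I, ∀ y ∈ (𝔭.π a).S, ∀ j < d,
      PrfProperAt (prfSys (𝔭.π a).f j) ((𝔭.π a).f j) y :=
    fun a ha y hy j hj => (h.piece a ha).path y hy j hj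
  have key : ∀ y : SpC d, ∃ p : Ideal (PrfPol d), ∀ a ∈ 𝔭.I, y ∈ (𝔭.π a).S →
      p ∈ prfCarr (prfSys (𝔭.π a).f (d - 1)) y := by
    intro y
    by_cases hex : ∃ a ∈ 𝔭.I, y ∈ (𝔭.π a).S
    · obtain ⟨a₀, ha₀, hy₀⟩ := hex
      obtain ⟨p, hp⟩ := prf_carr_exists (prfSys (𝔭.π a₀).f (d - 1)) y (by
        rintro g ⟨i, hi, rfl⟩
        exact (hpath a₀ ha₀ y hy₀ i (by have : i < d - 1 := hi; omega)).1)
      refine ⟨p, fun a ha hy => ?_⟩
      have : a = a₀ := by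
        by_contra hne
        exact Finset.disjoint_left.1 (h.disj a ha a₀ ha₀ hne) hy hy₀
      rw [this]
      exact hp
    · exact ⟨⊥, fun a ha hy => absurd ⟨a, ha, hy⟩ hex⟩
  choose cho hcho using key
  refine ⟨cho, fun a ha y hy => hcho y a ha hy, fun y hy => ?_⟩
  obtain ⟨a, ha, hya⟩ := Finset.mem_biUnion.1 hy
  have hc := hcho y a ha hya
  refine ⟨prf_carr_prime hc, ?_, hc.2⟩
  have h1 := (prf_pure (𝔭.π a).f (d - 1) y (fun i hi => hpath a ha y hya i (by omega))).2 _ hc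
  rw [h1]
  omega

open Classical in
/-- one piece: the points assigned to nonreal lines -/
theorem spsel_thin_piece (hd : 1 ≤ d) {C κ₀ θ₁ : ℝ} (hC : 0 < C)
    (hbal : ∀ (π : PrfPiece d) (B s κ μ top : ℝ) (grid : Finset ℝ), π.Ok B s κ grid →
      PrfGrid grid μ top → 0 < s → 0 ≤ μ → κ ≤ κ₀ → 1 ≤ prfT B s (-1) → π.S.Nonempty →
      (π.S.card : ℝ) ≤ ∏ i ∈ Finset.range d, prfT B s (π.τ i) ∧
      ∏ i ∈ Finset.range d, prfT B s (π.τ i) ≤
        C * (π.S.card : ℝ) * Real.exp (2 * (d : ℝ) ^ 2 * μ * s))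
    (hθ0 : 0 < θ₁) (hθκ : θ₁ ≤ κ₀) (hθd : (2 * (d : ℝ) ^ 2 + 1) * θ₁ ≤ 1 / 2)
    (D : SpData d) (hB : 1 ≤ D.B) (hN : 1 ≤ D.N) (𝔭 : SpPart d) (ht : 𝔭.Tame D θ₁)
    (cho : SpC d → Ideal (PrfPol d)) (hcho : 𝔭.Cho cho) (a : ℕ) (ha : a ∈ 𝔭.I) :
    (((𝔭.π a).S.filter fun y => SpThin (cho y)).card : ℝ) * Real.exp (Real.log D.B / 2)
      ≤ C * ((𝔭.π a).S.card : ℝ) := by
  set π : PrfPiece d := 𝔭.π a with hπ
  set s : ℝ := 𝔭.w D.B a with hs
  set T : ℕ → ℝ := fun i => prfT D.B s (π.τ i) with hT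
  have hBpos : 0 < D.B := by linarith
  have hlog : 0 ≤ Real.log D.B := Real.log_nonneg hB
  have hs_pos : 0 < s := lt_of_lt_of_le (by positivity) (ht.w_ge a ha)
  have hs_le : s ≤ Real.log D.B := by
    rw [hs]
    unfold SpPart.w
    exact div_le_self hlog (one_le_pow₀ (by norm_num))
  have hT1 : 1 ≤ prfT D.B s (-1) := by
    unfold prfT
    have h1 : Real.exp (-Real.log D.B) ≤ Real.exp (-1 * s) := Real.exp_le_exp.2 (by linarith)
    rw [Real.exp_neg, Real.exp_log hBpos] at h1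
    calc (1 : ℝ) = D.B * D.B⁻¹ := (mul_inv_cancel₀ hBpos.ne').symm
      _ ≤ _ := mul_le_mul_of_nonneg_left h1 hBpos.le
  set x : ℝ := Real.exp (-(θ₁ * s)) with hx
  have hx0 : 0 < x := Real.exp_pos _
  have hx1 : x ≤ 1 := Real.exp_le_one_iff.2 (by
    have : 0 ≤ θ₁ * s := by positivity
    linarith)
  have hsize : D.N * x ≤ (π.S.card : ℝ) := ht.size a ha
  have hSne : π.S.Nonempty := by
    rw [← Finset.card_pos]
    have : (0 : ℝ) < (π.S.card : ℝ) := lt_of_lt_of_le (by positivity) hsize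
    exact_mod_cast this
  obtain ⟨hb1, hb2⟩ := hbal π D.B s θ₁ θ₁ _ _ (ht.piece a ha) (ht.grid a ha) hs_pos hθ0.le hθκ hT1 hSne
  have hTpos : ∀ i, 0 < T i := fun i => mul_pos hBpos (Real.exp_pos _)
  have hsplit : ∏ i ∈ Finset.range d, T i = (∏ i ∈ Finset.range (d - 1), T i) * T (d - 1) := by
    have h1 : ∏ i ∈ Finset.range d, T i = ∏ i ∈ Finset.range (d - 1 + 1), T i := by
      rw [Nat.sub_add_cancel hd]
    rw [h1, Finset.prod_range_succ]
  have hTmono : ∀ i ∈ Finset.range d, T i ≤ T (d - 1) := by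
    intro i hi
    have hi' : i < d := Finset.mem_range.1 hi
    have h1 := (ht.piece a ha).mono i (d - 1) (by omega) (by omega)
    exact mul_le_mul_of_nonneg_left (Real.exp_le_exp.2 (mul_le_mul_of_nonneg_right h1 hs_pos.le))
      hBpos.le
  have hTtop : D.B * x ≤ T (d - 1) := by
    have h1 : ∏ i ∈ Finset.range d, T i ≤ T (d - 1) ^ d := by
      calc ∏ i ∈ Finset.range d, T i ≤ ∏ _i ∈ Finset.range d, T (d - 1) :=
            Finset.prod_le_prod (fun i _ => (hTpos i).le) hTmono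
        _ = T (d - 1) ^ d := by rw [Finset.prod_const, Finset.card_range]
    have h2 : (D.B * x) ^ d ≤ T (d - 1) ^ d := by
      calc (D.B * x) ^ d = D.B ^ d * x ^ d := mul_pow _ _ _
        _ ≤ D.B ^ d * x := mul_le_mul_of_nonneg_left (pow_le_of_le_one hx0.le hx1 (by omega))
            (by positivity)
        _ = D.N * x := by rw [← spsel_N hd D]
        _ ≤ (π.S.card : ℝ) := hsize
        _ ≤ _ := hb1
        _ ≤ _ := h1
    exact le_of_pow_le_pow_left₀ (by omega) (hTpos _).le h2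
  -- the count
  set Th : Finset (SpC d) := π.S.filter fun y => SpThin (cho y) with hTh
  set Q : ℝ := ∏ i ∈ Finset.range (d - 1), T i with hQ
  have hQ0 : 0 ≤ Q := Finset.prod_nonneg fun i _ => (hTpos i).le
  have hcount : (Th.card : ℝ) ≤ Q := by
    have hinj : Set.InjOn cho (Th : Set (SpC d)) := by
      intro y hy y' hy' he
      have hy1 := Finset.mem_filter.1 (Finset.mem_coe.1 hy)
      have hy2 := Finset.mem_filter.1 (Finset.mem_coe.1 hy')
      have z1 : y ∈ zeroLocus ℂ (cho y) := (hcho a ha y hy1.1).2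
      have z2 : y' ∈ zeroLocus ℂ (cho y) := by rw [he]; exact (hcho a ha y' hy2.1).2
      exact hy1.2.2.2 y z1 y' z2 (spsel_real_pts D y (ht.sub a ha hy1.1))
        (spsel_real_pts D y' (ht.sub a ha hy2.1))
    have hcard : (Th.image cho).card = Th.card := Finset.card_image_of_injOn hinj
    have hdeg : prfDeg (Th.image cho) = (Th.image cho).card := by
      unfold prfDeg
      rw [Finset.card_eq_sum_ones]
      refine Finset.sum_congr rfl fun p hp => ?_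
      obtain ⟨y, hy, rfl⟩ := Finset.mem_image.1 hp
      exact (Finset.mem_filter.1 hy).2.1
    have hsub : ((Th.image cho : Finset (Ideal (PrfPol d))) : Set (Ideal (PrfPol d)))
        ⊆ π.carriers (d - 1) := by
      intro p hp
      obtain ⟨y, hy, rfl⟩ := Finset.mem_image.1 (Finset.mem_coe.1 hp)
      exact ⟨y, (Finset.mem_filter.1 hy).1, hcho a ha y (Finset.mem_filter.1 hy).1⟩
    have h1 := prf_carrier_deg π (ht.piece a ha).path (d - 1) (Nat.sub_le d 1) _ hsub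
    rw [hdeg, hcard] at h1
    have h2 : (Th.card : ℝ) ≤ ∏ i ∈ Finset.range (d - 1), ((π.f i).totalDegree : ℝ) := by
      exact_mod_cast h1
    refine h2.trans (Finset.prod_le_prod (fun i _ => Nat.cast_nonneg _) fun i hi => ?_)
    exact (ht.piece a ha).deg i (by have := Finset.mem_range.1 hi; omega)
  set u : ℝ := Real.exp (Real.log D.B / 2) with hu
  have hu0 : 0 < u := Real.exp_pos _
  have huu : u * u = D.B := by
    rw [hu, ← Real.exp_add, add_halves, Real.exp_log hBpos]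
  have hS0 : (0 : ℝ) ≤ (π.S.card : ℝ) := Nat.cast_nonneg _
  have h3 : Q * (D.B * x) ≤ C * (π.S.card : ℝ) * Real.exp (2 * (d : ℝ) ^ 2 * θ₁ * s) :=
    calc Q * (D.B * x) ≤ Q * T (d - 1) := mul_le_mul_of_nonneg_left hTtop hQ0
      _ = ∏ i ∈ Finset.range d, T i := hsplit.symm
      _ ≤ _ := hb2
  have h4 : Q * D.B ≤ C * (π.S.card : ℝ) * u := by
    have e1 : x * Real.exp (θ₁ * s) = 1 := by rw [hx, ← Real.exp_add]; simp
    have e2 : Real.exp (2 * (d : ℝ) ^ 2 * θ₁ * s) * Real.exp (θ₁ * s) ≤ u := by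
      rw [← Real.exp_add, hu]
      refine Real.exp_le_exp.2 ?_
      have h5 : (2 * (d : ℝ) ^ 2 + 1) * θ₁ * s ≤ 1 / 2 * s := mul_le_mul_of_nonneg_right hθd hs_pos.le
      nlinarith
    calc Q * D.B = Q * (D.B * x) * Real.exp (θ₁ * s) := by
          rw [mul_assoc, mul_assoc, e1, mul_one]
      _ ≤ C * (π.S.card : ℝ) * Real.exp (2 * (d : ℝ) ^ 2 * θ₁ * s) * Real.exp (θ₁ * s) :=
          mul_le_mul_of_nonneg_right h3 (Real.exp_pos _).le
      _ = C * (π.S.card : ℝ) * (Real.exp (2 * (d : ℝ) ^ 2 * θ₁ * s) * Real.exp (θ₁ * s)) := by ring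
      _ ≤ _ := mul_le_mul_of_nonneg_left e2 (by positivity)
  have h6 : Q * u ≤ C * (π.S.card : ℝ) := by
    rw [← huu] at h4
    have : Q * u * u ≤ C * (π.S.card : ℝ) * u := by linarith
    exact le_of_mul_le_mul_right this hu0
  exact (mul_le_mul_of_nonneg_right hcount hu0.le).trans h6

open Classical in
/-- LEAF SEL-B4: few points are assigned to nonreal lines. -/
theorem spsel_thin (hd : 1 ≤ d) : ∃ θ₁ : ℝ, 0 < θ₁ ∧ ∀ η : ℝ, 0 < η → ∃ δ₁ : ℝ, 0 < δ₁ ∧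
    ∀ D : SpData d, D.Reg δ₁ → ∀ 𝔭 : SpPart d, 𝔭.Tame D θ₁ →
      ∀ cho : SpC d → Ideal (PrfPol d), 𝔭.Cho cho →
        ((𝔭.R.filter fun y => SpThin (cho y)).card : ℝ) ≤ η * D.N := by
  obtain ⟨C, κ₀, hC, hκ₀, hbal⟩ := prf_balance d
  have hden : (0 : ℝ) < 2 * (2 * (d : ℝ) ^ 2 + 1) := by positivity
  refine ⟨min κ₀ (1 / (2 * (2 * (d : ℝ) ^ 2 + 1))), lt_min hκ₀ (by positivity), ?_⟩
  set θ₁ : ℝ := min κ₀ (1 / (2 * (2 * (d : ℝ) ^ 2 + 1))) with hθ₁
  have hθ0 : 0 < θ₁ := lt_min hκ₀ (by positivity)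
  have hθd : (2 * (d : ℝ) ^ 2 + 1) * θ₁ ≤ 1 / 2 := by
    have h1 : θ₁ ≤ 1 / (2 * (2 * (d : ℝ) ^ 2 + 1)) := min_le_right _ _
    rw [le_div_iff₀ hden] at h1
    linarith
  intro η hη
  obtain ⟨δ₁, hδ₁, hδ₁1, hBl⟩ := spsel_B_large hd (max 1 ((C / η) ^ 2))
  refine ⟨δ₁, hδ₁, fun D hD 𝔭 ht cho hcho => ?_⟩
  have hB := hBl D hD
  have hB1 : 1 ≤ D.B := (le_max_left _ _).trans hB
  have hB2 : (C / η) ^ 2 ≤ D.B := (le_max_right _ _).trans hB
  have hN1 : 1 ≤ D.N := hD.one_le_N hδ₁1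
  have hBpos : 0 < D.B := by linarith
  set u : ℝ := Real.exp (Real.log D.B / 2) with hu
  have hu0 : 0 < u := Real.exp_pos _
  have huu : u * u = D.B := by
    rw [hu, ← Real.exp_add, add_halves, Real.exp_log hBpos]
  have huC : C / η ≤ u := by
    by_contra hcon
    rw [not_le] at hcon
    nlinarith
  have hpiece := fun a ha => spsel_thin_piece hd hC hbal hθ0 (min_le_left _ _) hθd D hB1 hN1 𝔭 ht cho
    hcho a ha
  have hsub : (𝔭.R.filter fun y => SpThin (cho y))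
      ⊆ 𝔭.I.biUnion fun a => (𝔭.π a).S.filter fun y => SpThin (cho y) := by
    intro y hy
    obtain ⟨hyR, hth⟩ := Finset.mem_filter.1 hy
    obtain ⟨a, ha, hya⟩ := Finset.mem_biUnion.1 hyR
    exact Finset.mem_biUnion.2 ⟨a, ha, Finset.mem_filter.2 ⟨hya, hth⟩⟩
  have h1 : ((𝔭.R.filter fun y => SpThin (cho y)).card : ℝ)
      ≤ ∑ a ∈ 𝔭.I, (((𝔭.π a).S.filter fun y => SpThin (cho y)).card : ℝ) := by
    exact_mod_cast (Finset.card_le_card hsub).trans Finset.card_biUnion_le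
  have hRN : (𝔭.R.card : ℝ) ≤ D.N := by
    rw [← spsel_card_pts D]
    have : 𝔭.R ⊆ D.pts := Finset.biUnion_subset.2 ht.sub
    exact_mod_cast Finset.card_le_card this
  have hRs : (𝔭.R.card : ℝ) = ∑ a ∈ 𝔭.I, ((𝔭.π a).S.card : ℝ) := by
    rw [spsel_card_R 𝔭 ht.disj]
    push_cast
    rfl
  have h2 : ((𝔭.R.filter fun y => SpThin (cho y)).card : ℝ) * u ≤ C * D.N := by
    calc ((𝔭.R.filter fun y => SpThin (cho y)).card : ℝ) * u
        ≤ (∑ a ∈ 𝔭.I, (((𝔭.π a).S.filter fun y => SpThin (cho y)).card : ℝ)) * u :=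
          mul_le_mul_of_nonneg_right h1 hu0.le
      _ = ∑ a ∈ 𝔭.I, (((𝔭.π a).S.filter fun y => SpThin (cho y)).card : ℝ) * u := Finset.sum_mul _ _ _
      _ ≤ ∑ a ∈ 𝔭.I, C * ((𝔭.π a).S.card : ℝ) := Finset.sum_le_sum hpiece
      _ = C * (𝔭.R.card : ℝ) := by rw [hRs, Finset.mul_sum]
      _ ≤ C * D.N := mul_le_mul_of_nonneg_left hRN hC.le
  have h3 : C ≤ η * u := by
    rwa [div_le_iff₀ hη, mul_comm] at huC
  have h4 : ((𝔭.R.filter fun y => SpThin (cho y)).card : ℝ) * u ≤ η * D.N * u := by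
    have : C * D.N ≤ η * u * D.N := mul_le_mul_of_nonneg_right h3 (by linarith)
    linarith
  exact le_of_mul_le_mul_right h4 hu0

/-- LEAF SEL-B5: heavy lines. -/
theorem spsel_heavy (hd : 3 ≤ d) (hR : RichLinesStmt d) (η : ℝ) (hη : 0 < η) :
    ∃ H δ₁ : ℝ, 0 < δ₁ ∧ ∀ D : SpData d, D.Reg δ₁ →
      ∃ 𝓗 : Finset (SpC d × SpC d), (𝓗.card : ℝ) ≤ η * D.N ^ 2 ∧
        ∀ x ∈ D.pts, ∀ y ∈ D.pts, x ≠ y → (x, y) ∉ 𝓗 →
          ∀ T ⊆ D.pts, (∀ w ∈ T, ∃ c : ℂ, w - x = c • (y - x)) → (T.card : ℝ) ≤ H := by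
  classical
  obtain ⟨C, hC1, hrich⟩ := dir_rich hR
  have hC0 : 0 < C := by linarith
  set H₀ : ℕ := ⌈2 * C / η⌉₊ + 1 with hH₀
  have hH₀1 : 1 ≤ H₀ := by omega
  have hH₀r : 2 * C / η ≤ (H₀ : ℝ) := by
    rw [hH₀]
    push_cast
    have := Nat.le_ceil (2 * C / η)
    linarith
  have hH₀pos : (0 : ℝ) < (H₀ : ℝ) := by exact_mod_cast hH₀1
  refine ⟨(H₀ : ℝ), min 1 (η / (2 * C)), lt_min one_pos (by positivity), fun D hD => ?_⟩
  have hδ1 : D.δ ≤ 1 := hD.le.trans (min_le_left _ _)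
  have hδη : D.δ ≤ η / (2 * C) := hD.le.trans (min_le_right _ _)
  have hN1 : 1 ≤ D.N := hD.one_le_N (min_le_left _ _)
  have hN0 : 0 ≤ D.N := by linarith
  refine ⟨(richPairs D.P H₀).image (Prod.map prfPt prfPt), ?_, ?_⟩
  · have h1 : (((richPairs D.P H₀).image (Prod.map prfPt prfPt)).card : ℝ)
        ≤ ((richPairs D.P H₀).card : ℝ) := by exact_mod_cast Finset.card_image_le
    have h2 : ((richPairs D.P H₀).card : ℝ) ≤ C * (D.N ^ 2 / H₀ + D.N * dM D.P) := hrich D.P H₀ hH₀1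
    have h3 : C * (D.N ^ 2 / H₀) ≤ η / 2 * D.N ^ 2 := by
      have h4 : C / H₀ ≤ η / 2 := by
        rw [div_le_iff₀ hH₀pos]
        rw [div_le_iff₀ hη] at hH₀r
        linarith
      calc C * (D.N ^ 2 / H₀) = C / H₀ * D.N ^ 2 := by ring
        _ ≤ _ := mul_le_mul_of_nonneg_right h4 (by positivity)
    have h5 : (dM D.P : ℝ) ≤ D.δ * D.N :=
      hD.dist.trans (mul_le_mul_of_nonneg_left (spsel_A_le_N (by omega) D hN1) hD.pos.le)
    have h6 : C * (D.N * dM D.P) ≤ η / 2 * D.N ^ 2 := by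
      have h7 : C * D.δ ≤ η / 2 := by
        rw [le_div_iff₀ (by positivity)] at hδη
        linarith
      calc C * (D.N * dM D.P) ≤ C * (D.N * (D.δ * D.N)) :=
            mul_le_mul_of_nonneg_left (mul_le_mul_of_nonneg_left h5 hN0) hC0.le
        _ = C * D.δ * D.N ^ 2 := by ring
        _ ≤ _ := mul_le_mul_of_nonneg_right h7 (by positivity)
    calc _ ≤ _ := h1
      _ ≤ _ := h2
      _ = C * (D.N ^ 2 / H₀) + C * (D.N * dM D.P) := by ring
      _ ≤ η / 2 * D.N ^ 2 + η / 2 * D.N ^ 2 := add_le_add h3 h6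
      _ = _ := by ring
  · intro x hx y hy hxy hnot T hT hline
    obtain ⟨p, hp, rfl⟩ := Finset.mem_image.1 hx
    obtain ⟨q, hq, rfl⟩ := Finset.mem_image.1 hy
    have hpq : p ≠ q := fun h => hxy (by rw [h])
    have hle : (onLine D.P (p, q)).card ≤ H₀ := by
      by_contra hcon
      rw [not_le] at hcon
      apply hnot
      refine Finset.mem_image.2 ⟨(p, q), ?_, rfl⟩
      unfold richPairs
      rw [Finset.mem_filter, Finset.mem_product]
      exact ⟨⟨hp, hq⟩, hpq, hcon⟩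
    have hcard : T.card ≤ (onLine D.P (p, q)).card := by
      refine Finset.card_le_card_of_injOn spRe ?_ ?_
      · intro w hw
        obtain ⟨t, ht, rfl⟩ := Finset.mem_image.1 (hT hw)
        rw [sp_re_pt]
        unfold onLine
        rw [Finset.mem_coe, Finset.mem_filter]
        refine ⟨ht, dir_collinear hpq.symm ?_⟩
        obtain ⟨c, hc⟩ := hline _ hw
        exact ⟨c, by rw [sp_cdir, sp_cdir]; exact hc⟩
      · intro w hw w' hw' he
        obtain ⟨t, _, rfl⟩ := Finset.mem_image.1 (hT hw)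
        obtain ⟨t', _, rfl⟩ := Finset.mem_image.1 (hT hw')
        rw [sp_re_pt, sp_re_pt] at he
        rw [he]
    exact_mod_cast hcard.trans hle

/-- LEAF SEL-B6 (glue): **the preparation**. -/
theorem spsel_prep (hd : 3 ≤ d) (hpart : SpPartStmt d) (hterm : SpTermStmt d)
    (hR : RichLinesStmt d) : SpSelPrep d := by
  classical
  have hd1 : 1 ≤ d := by omega
  intro θ hθ0 hθ1 Kb hKb
  have hKbR : (1 : ℝ) ≤ (Kb : ℝ) := by exact_mod_cast hKb
  have hKb0 : (0 : ℝ) < (Kb : ℝ) := by linarith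
  obtain ⟨θ₁, hθ₁, hthin⟩ := spsel_thin hd1
  set θ' : ℝ := min (θ / 2) θ₁ with hθ'
  have hθ'0 : 0 < θ' := lt_min (by positivity) hθ₁
  have hθ'2 : θ' ≤ θ / 2 := min_le_left _ _
  have hθ'1 : θ' ≤ θ₁ := min_le_right _ _
  obtain ⟨sst, δa, hsst, hδa, hpartD⟩ := spsel_tame_part hd1 hpart θ' hθ'0
  obtain ⟨δb, hδb, hcoreD⟩ := spsel_core hd sst hsst
  set η : ℝ := 1 / (1024 * (Kb : ℝ)) with hη
  have hη0 : 0 < η := by positivity
  obtain ⟨δc, hδc, hthinD⟩ := hthin η hη0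
  obtain ⟨H, δd, hδd, hheavyD⟩ := spsel_heavy hd hR η hη0
  obtain ⟨δe, hδe, htermD⟩ := hterm η hη0
  obtain ⟨δf, hδf, hδf1, hBl⟩ := spsel_B_large hd1 (max 2 ((max H 1) ^ (1 / θ)))
  set δ₁ : ℝ := min δa (min δb (min δc (min δd (min δe (min δf (min θ (min η
    (1 / (16 * (Kb : ℝ) ^ 2))))))))) with hδ₁
  have hδ₁0 : 0 < δ₁ := lt_min hδa (lt_min hδb (lt_min hδc (lt_min hδd (lt_min hδe (lt_min hδf
    (lt_min hθ0 (lt_min hη0 (by positivity))))))))
  have ma : δ₁ ≤ δa := min_le_left _ _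
  have ra := min_le_right δa (min δb (min δc (min δd (min δe (min δf (min θ (min η
    (1 / (16 * (Kb : ℝ) ^ 2)))))))))
  have mb : δ₁ ≤ δb := ra.trans (min_le_left _ _)
  have rb := ra.trans (min_le_right _ _)
  have mc : δ₁ ≤ δc := rb.trans (min_le_left _ _)
  have rc := rb.trans (min_le_right _ _)
  have md : δ₁ ≤ δd := rc.trans (min_le_left _ _)
  have rd := rc.trans (min_le_right _ _)
  have me : δ₁ ≤ δe := rd.trans (min_le_left _ _)
  have re := rd.trans (min_le_right _ _)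
  have mf : δ₁ ≤ δf := re.trans (min_le_left _ _)
  have rf := re.trans (min_le_right _ _)
  have mθ : δ₁ ≤ θ := rf.trans (min_le_left _ _)
  have rθ := rf.trans (min_le_right _ _)
  have mη : δ₁ ≤ η := rθ.trans (min_le_left _ _)
  have mK : δ₁ ≤ 1 / (16 * (Kb : ℝ) ^ 2) := rθ.trans (min_le_right _ _)
  refine ⟨δ₁, hδ₁0, mθ, fun D hD U hU hUc => ?_⟩
  -- sizes
  have hB := hBl D (hD.mono mf)
  have hB2 : 2 ≤ D.B := (le_max_left _ _).trans hB
  have hBH : (max H 1) ^ (1 / θ) ≤ D.B := (le_max_right _ _).trans hB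
  have hBpos : 0 < D.B := by linarith
  have hN1 : 1 ≤ D.N := hD.one_le_N (mθ.trans hθ1)
  have hN0 : 0 ≤ D.N := by linarith
  have hN2 : 0 ≤ D.N ^ 2 := by positivity
  -- the partition
  obtain ⟨𝔭, htame, hKsub, hKsep, hmost⟩ := hpartD D (hD.mono ma)
  have hKc : (𝔭.K.card : ℝ) ≤ D.N / 4 :=
    hcoreD D (hD.mono mb) U hU (hUc.trans (mul_le_mul_of_nonneg_right mb hN2)) 𝔭.K hKsub hKsep
  have hRN : D.N / 2 ≤ (𝔭.R.card : ℝ) := by linarith
  have hRsub : 𝔭.R ⊆ D.pts := Finset.biUnion_subset.2 htame.sub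
  obtain ⟨cho, hcho, hchoR⟩ := spsel_cho hd1 D 𝔭 θ' htame
  -- the exceptional sets
  set Th : Finset (SpC d) := 𝔭.R.filter fun y => SpThin (cho y) with hTh
  have hThc : (Th.card : ℝ) ≤ η * D.N := hthinD D (hD.mono mc) 𝔭 (htame.mono hθ'0 hθ'1) cho hcho
  set Q : Finset (SpC d) := 𝔭.R \ Th with hQ
  have hQsub : Q ⊆ D.pts := Finset.sdiff_subset.trans hRsub
  have hQmem : ∀ y ∈ 𝔭.R, y ∉ Th → y ∈ Q := fun y hy hy' => Finset.mem_sdiff.2 ⟨hy, hy'⟩
  have hQthin : ∀ y ∈ Q, ¬ SpThin (cho y) := by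
    intro y hy hth
    obtain ⟨h1, h2⟩ := Finset.mem_sdiff.1 hy
    exact h2 (Finset.mem_filter.2 ⟨h1, hth⟩)
  set ΓT : Finset (SpC d × SpC d) :=
    (D.pts ×ˢ Q).filter fun z => z.1 ≠ z.2 ∧ SpTerm D z.1 (cho z.2) with hΓT
  have hΓTc : (ΓT.card : ℝ) ≤ η * D.N ^ 2 :=
    htermD D (hD.mono me) cho Q hQsub
      (fun y hy => by
        obtain ⟨h1, h2, h3⟩ := hchoR y (Finset.mem_sdiff.1 hy).1
        exact ⟨h1, h2, h3, hQthin y hy⟩)
      ΓT (Finset.filter_subset _ _) (fun z hz => (Finset.mem_filter.1 hz).2)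
  obtain ⟨𝓗, h𝓗c, h𝓗⟩ := hheavyD D (hD.mono md)
  set Bad : Finset (SpC d × SpC d) :=
    U ∪ ΓT ∪ ΓT.image Prod.swap ∪ Th ×ˢ D.pts ∪ D.pts ×ˢ Th ∪ 𝓗 ∪ 𝓗.image Prod.swap with hBad
  have hBadc : (Bad.card : ℝ) ≤ 7 * η * D.N ^ 2 := by
    have h1 : Bad.card ≤ U.card + ΓT.card + ΓT.card + Th.card * D.pts.card + D.pts.card * Th.card
        + 𝓗.card + 𝓗.card := by
      have e1 := Finset.card_union_le (U ∪ ΓT ∪ ΓT.image Prod.swap ∪ Th ×ˢ D.pts ∪ D.pts ×ˢ Th ∪ 𝓗)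
        (𝓗.image Prod.swap)
      have e2 := Finset.card_union_le (U ∪ ΓT ∪ ΓT.image Prod.swap ∪ Th ×ˢ D.pts ∪ D.pts ×ˢ Th) 𝓗
      have e3 := Finset.card_union_le (U ∪ ΓT ∪ ΓT.image Prod.swap ∪ Th ×ˢ D.pts) (D.pts ×ˢ Th)
      have e4 := Finset.card_union_le (U ∪ ΓT ∪ ΓT.image Prod.swap) (Th ×ˢ D.pts)
      have e5 := Finset.card_union_le (U ∪ ΓT) (ΓT.image Prod.swap)
      have e6 := Finset.card_union_le U ΓT
      have e7 : (ΓT.image Prod.swap).card ≤ ΓT.card := Finset.card_image_le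
      have e8 : (𝓗.image Prod.swap).card ≤ 𝓗.card := Finset.card_image_le
      have e9 : (Th ×ˢ D.pts).card = Th.card * D.pts.card := Finset.card_product _ _
      have e10 : (D.pts ×ˢ Th).card = D.pts.card * Th.card := Finset.card_product _ _
      have e0 : Bad.card = (U ∪ ΓT ∪ ΓT.image Prod.swap ∪ Th ×ˢ D.pts ∪ D.pts ×ˢ Th ∪ 𝓗
        ∪ 𝓗.image Prod.swap).card := rfl
      omega
    have h2 : (Bad.card : ℝ) ≤ (U.card : ℝ) + ΓT.card + ΓT.card + Th.card * D.N + D.N * Th.card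
        + 𝓗.card + 𝓗.card := by
      rw [← spsel_card_pts D]
      exact_mod_cast h1
    have h3 : (U.card : ℝ) ≤ η * D.N ^ 2 := hUc.trans (mul_le_mul_of_nonneg_right mη hN2)
    have h4 : (Th.card : ℝ) * D.N ≤ η * D.N ^ 2 := by
      calc (Th.card : ℝ) * D.N ≤ η * D.N * D.N := mul_le_mul_of_nonneg_right hThc hN0
        _ = _ := by ring
    linarith
  refine ⟨𝔭, cho, H, Bad, htame.mono hθ'0 hθ'2, hcho, ?_, ?_, ?_, ?_, ?_, ?_⟩
  · -- `H ≤ B^θ`
    have h1 : ((max H 1) ^ (1 / θ)) ^ θ ≤ D.B ^ θ :=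
      Real.rpow_le_rpow (by positivity) hBH hθ0.le
    rw [← Real.rpow_mul (by positivity), one_div, inv_mul_cancel₀ hθ0.ne', Real.rpow_one] at h1
    exact (le_max_left _ _).trans h1
  · -- `BadOk`
    intro x hx y hy hxy hnot
    have n1 : (x, y) ∉ U := fun h => hnot (Finset.mem_union_left _ (Finset.mem_union_left _ (Finset.mem_union_left _ (Finset.mem_union_left _ (Finset.mem_union_left _ (Finset.mem_union_left _ h))))))
    have n2 : (x, y) ∉ ΓT := fun h => hnot (Finset.mem_union_left _ (Finset.mem_union_left _ (Finset.mem_union_left _ (Finset.mem_union_left _ (Finset.mem_union_left _ (Finset.mem_union_right _ h))))))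
    have n3 : (x, y) ∉ ΓT.image Prod.swap := fun h => hnot (Finset.mem_union_left _ (Finset.mem_union_left _ (Finset.mem_union_left _ (Finset.mem_union_left _ (Finset.mem_union_right _ h)))))
    have n4 : (x, y) ∉ Th ×ˢ D.pts := fun h => hnot (Finset.mem_union_left _ (Finset.mem_union_left _ (Finset.mem_union_left _ (Finset.mem_union_right _ h))))
    have n5 : (x, y) ∉ D.pts ×ˢ Th := fun h => hnot (Finset.mem_union_left _ (Finset.mem_union_left _ (Finset.mem_union_right _ h)))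
    have n6 : (x, y) ∉ 𝓗 := fun h => hnot (Finset.mem_union_left _ (Finset.mem_union_right _ h))
    have n7 : (x, y) ∉ 𝓗.image Prod.swap := fun h => hnot (Finset.mem_union_right _ h)
    have hxP := hRsub hx
    have hyP := hRsub hy
    have hxQ : x ∈ Q := hQmem x hx fun h => n4 (Finset.mem_product.2 ⟨h, hyP⟩)
    have hyQ : y ∈ Q := hQmem y hy fun h => n5 (Finset.mem_product.2 ⟨hxP, h⟩)
    have t1 : ¬ SpTerm D x (cho y) := fun h =>
      n2 (Finset.mem_filter.2 ⟨Finset.mem_product.2 ⟨hxP, hyQ⟩, hxy, h⟩)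
    have t2 : ¬ SpTerm D y (cho x) := fun h =>
      n3 (Finset.mem_image.2 ⟨(y, x), Finset.mem_filter.2 ⟨Finset.mem_product.2 ⟨hyP, hxQ⟩,
        hxy.symm, h⟩, rfl⟩)
    have l1 := h𝓗 x hxP y hyP hxy n6
    have l2 := h𝓗 y hyP x hxP hxy.symm fun h => n7 (Finset.mem_image.2 ⟨(y, x), h, rfl⟩)
    rcases hU x hxP y hyP hxy with h | h | h
    · exact absurd h n1
    · exact Or.inl ⟨hxy, h, t1, hQthin y hyQ, l1⟩
    · exact Or.inr ⟨hxy.symm, h, t2, hQthin x hxQ, l2⟩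
  · -- few bad pairs
    have h1 : 16 * (Kb : ℝ) * (Bad.card : ℝ) ≤ 16 * (Kb : ℝ) * (7 * η * D.N ^ 2) :=
      mul_le_mul_of_nonneg_left hBadc (by positivity)
    have h2 : 16 * (Kb : ℝ) * (7 * η * D.N ^ 2) = 112 / 1024 * D.N ^ 2 := by
      rw [hη]; field_simp; ring
    have h3 : (D.N / 2) ^ 2 ≤ (𝔭.R.card : ℝ) ^ 2 := pow_le_pow_left₀ (by positivity) hRN 2
    nlinarith
  · have : (0 : ℝ) < (𝔭.R.card : ℝ) := by linarith
    exact_mod_cast this
  · -- `N √δ 2Kb ≤ |R|`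
    have h1 : Real.sqrt D.δ ≤ 1 / (4 * (Kb : ℝ)) := by
      rw [Real.sqrt_le_left (by positivity)]
      calc D.δ ≤ 1 / (16 * (Kb : ℝ) ^ 2) := hD.le.trans mK
        _ = (1 / (4 * (Kb : ℝ))) ^ 2 := by rw [div_pow, mul_pow]; norm_num
    have h2 : D.N * Real.sqrt D.δ * (2 * (Kb : ℝ)) ≤ D.N * (1 / (4 * (Kb : ℝ))) * (2 * (Kb : ℝ)) :=
      mul_le_mul_of_nonneg_right (mul_le_mul_of_nonneg_left h1 hN0) (by positivity)
    have h3 : D.N * (1 / (4 * (Kb : ℝ))) * (2 * (Kb : ℝ)) = D.N / 2 := by field_simp; ring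
    linarith
  · -- every piece has at least four points
    intro a ha
    have hlog : 0 ≤ Real.log D.B := Real.log_nonneg (by linarith)
    have hw_le : 𝔭.w D.B a ≤ Real.log D.B := by
      unfold SpPart.w
      exact div_le_self hlog (one_le_pow₀ (by norm_num))
    have hw0 : 0 ≤ 𝔭.w D.B a := by unfold SpPart.w; positivity
    have hθ'le1 : θ' ≤ 1 := by linarith
    have h1 : Real.exp (-Real.log D.B) ≤ Real.exp (-(θ' * 𝔭.w D.B a)) := by
      refine Real.exp_le_exp.2 ?_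
      have : θ' * 𝔭.w D.B a ≤ 1 * 𝔭.w D.B a := mul_le_mul_of_nonneg_right hθ'le1 hw0
      linarith
    rw [Real.exp_neg, Real.exp_log hBpos] at h1
    have h2 : D.N * D.B⁻¹ ≤ ((𝔭.π a).S.card : ℝ) :=
      (mul_le_mul_of_nonneg_left h1 hN0).trans (htame.size a ha)
    have h3 : D.N * D.B⁻¹ = D.B ^ (d - 1) := by
      rw [spsel_N hd1 D]
      have : D.B ^ d = D.B ^ (d - 1) * D.B := by rw [← pow_succ, Nat.sub_add_cancel hd1]
      rw [this, mul_assoc, mul_inv_cancel₀ hBpos.ne', mul_one]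
    have h4 : (4 : ℝ) ≤ D.B ^ (d - 1) := by
      calc (4 : ℝ) = 2 ^ 2 := by norm_num
        _ ≤ D.B ^ 2 := pow_le_pow_left₀ (by norm_num) hB2 2
        _ ≤ D.B ^ (d - 1) := pow_le_pow_right₀ (by linarith) (by omega)
    have h5 : (4 : ℝ) ≤ ((𝔭.π a).S.card : ℝ) := by linarith
    exact_mod_cast h5

end Claimed.Agent.R273
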