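import Claimed.Agent.R273.SpSelA

/-!
# Row 273, SPARSE, unit SEL, part C: PIGEONHOLE AND CONSTRUCTION OF THE CONFIGURATION (`SpSelPick d`).  Architect helper191.  Prefix `spsel_`.

LEAF SEL-C1 (`spsel_pigeon`, `spsel_pigeon_pair`, `spsel_orient`; pure finite combinatorics, ~450 lines).
  `spsel_pigeon`: `W_k := |R_k|`, `R_k := (I.filter (bin · = k)).biUnion S`; the `R_k`, `k ∈ 𝔅`, are disjoint with union `R`, so `∑_k W_k = |R|` and (Cauchy-Schwarz, `sq_sum_le_card_mul_sum_sq`) `|R|² ≤ Kb ∑_k W_k²`.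
   LIGHT bins (`2 Kb W_k < |R|`): `∑_light W_k² ≤ (|R|/(2Kb)) ∑ W_k ≤ |R|²/(2Kb)`; so `∑_heavy W_k² ≥ |R|²/(2Kb)`.  The sets `Bad ∩ (R_k × R_k)` are disjoint subsets of `Bad`: `∑_heavy bad_k ≤ |Bad| ≤ |R|²/(16Kb) ≤ (1/8) ∑_heavy W_k²`.
   Hence some heavy `k` has `8 bad_k ≤ W_k²` (otherwise sum the strict inequalities; the heavy family is nonempty because `∑_heavy W_k² > 0`).
  `spsel_pigeon_pair`: `|RJ|² = ∑_{a,a' ∈ J} |S a||S a'|`, `|Bad ∩ RJ×RJ| = ∑_{a,a'} |Bad ∩ S a × S a'|`; if `8 bad_{aa'} > |S a||S a'|` for all pairs with both nonempty (pairs with an empty factor contribute `0 = 0`), sum: contradiction with `0 < |RJ|`.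
  `spsel_orient`: `X ×ˢ Y = diag ∪ bad ∪ G₁ ∪ G₂'`, `|diag| ≤ min |X| |Y| ≤ |X||Y|/4`, `|bad| ≤ |X||Y|/8`, `G₂' ≃ G₂` by `Prod.swap`; so `|G₁| + |G₂| ≥ (5/8)|X||Y|`.
LEAF SEL-C2 (`spsel_pool_ok`, `spsel_pool_pts`, `spsel_cfg`; ~350 lines): check the fields one by one.  `s_le`: `log B / 2^m ≤ log B` (`0 ≤ log B`).  All tolerances by monotonicity (`mono_kappa`, `mono_mu`, as in `SpPart.Tame.mono`); `𝔭.w D.B a = log B / 2^m₀` by `hm`.
  `spsel_cfg`: `Γ := (X.pts ×ˢ Y.pts).filter (SpGood D cho H)`; `light`: `≤ H ≤ B^θ ≤ B^{θ'}`.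
LEAF SEL-C3 (`spsel_pick`, glue, ~500 lines).  `1 ≤ B` (`SpData.Reg.one_le_B`).  For `a ∈ I`: the times `τ i` (`i < d`) lie in the grid, so in `[-1, top] ⊆ [-1, 1 + θ/2]`; `clamp τ i := min (τ i) 1 ∈ [-1,1]`, `|τ i - clamp τ i| ≤ θ/2`;
  choose `β a ∈ bs` with `|clamp τ i - β a i| ≤ Θ(β a)/2`; so `|τ i - β a i| ≤ θ/2 + Θ/2 ≤ Θ (β a)`.
  `cls n := if n < h then n else h + n % h` (`< 2h`); `bin a := (β a, cls (𝔭.m a))`, `𝔅 := bs ×ˢ Finset.range (2h)`, `|𝔅| = |bs| · 2h =: Kb`.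
  `spsel_pigeon` gives a heavy bin `k = (b, c)`, `J := I.filter (bin · = k)`, `RJ`.
  CASE `c = 0`: then `𝔭.m a = 0` for all `a ∈ J` (`h ≥ 1`: `cls n = 0 ↔ n = 0`).  `X = Y := 𝔭.pool J 0`, `v = s = log B / 2^0 = log B`.  `spsel_orient` with `X = Y = RJ` (`|RJ| ≥ 4`): density `1/4`.  If `b (d-1) < 1`: `Common`; else `b (d-1) = 1`: `Outer`, `N √δ ≤ |R|/(2Kb) ≤ |RJ|`.
  CASE `c ≠ 0`: `spsel_pigeon_pair` gives `a, a' ∈ J`; `spsel_orient` for `S a, S a'`; after possibly exchanging `a, a'`: `X := pool {a} (m a)`, `Y := pool {a'} (m a')`.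
   If `m a = m a'`: `m a ≥ 1` (else `c = 0`), so `2 s ≤ log B`: `Common`.  Otherwise `cls (m a) = cls (m a')` forces `m a, m a' ≥ h` and `h ∣ m a - m a'`, so the widths have ratio `≥ 2^h ≥ 1/θ` and both are `≤ 2^{-h} log B ≤ θ log B ≤ Θ b log B`: `Sep (Θ b)`.
-/

set_option autoImplicit false

namespace Claimed.Agent.R273

open MvPolynomial Module

variable {d : ℕ}

/-! ### SEL-C1: combinatorics -/

/-- a heavy bin with few bad pairs -/
theorem spsel_pigeon {α β : Type*} [DecidableEq α] [DecidableEq β] (I : Finset ℕ) (S : ℕ → Finset α)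
    (hdisj : ∀ a ∈ I, ∀ a' ∈ I, a ≠ a' → Disjoint (S a) (S a'))
    (bin : ℕ → β) (𝔅 : Finset β) (hbin : ∀ a ∈ I, bin a ∈ 𝔅) (Kb : ℕ) (hKb : 𝔅.card ≤ Kb)
    (Bad : Finset (α × α))
    (hBad : 16 * (Kb : ℝ) * (Bad.card : ℝ) ≤ ((I.biUnion S).card : ℝ) ^ 2)
    (hR : 0 < (I.biUnion S).card) :
    ∃ k ∈ 𝔅, ((I.biUnion S).card : ℝ) ≤ 2 * (Kb : ℝ) * (((I.filter fun a => bin a = k).biUnion S).card : ℝ) ∧
      8 * ((Bad ∩ (((I.filter fun a => bin a = k).biUnion S) ×ˢ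
          ((I.filter fun a => bin a = k).biUnion S))).card : ℝ)
        ≤ (((I.filter fun a => bin a = k).biUnion S).card : ℝ) ^ 2 := by
  set Rk : β → Finset α := fun k => (I.filter fun a => bin a = k).biUnion S with hRk
  set R : Finset α := I.biUnion S with hRd
  have hRkdis : ∀ k k' : β, k ≠ k' → Disjoint (Rk k) (Rk k') := by
    intro k k' hkk
    rw [Finset.disjoint_left]
    intro x hx hx'
    obtain ⟨a, ha, hxa⟩ := Finset.mem_biUnion.1 hx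
    obtain ⟨a', ha', hxa'⟩ := Finset.mem_biUnion.1 hx'
    have h1 := Finset.mem_filter.1 ha
    have h2 := Finset.mem_filter.1 ha'
    have hne : a ≠ a' := by
      rintro rfl
      exact hkk (h1.2.symm.trans h2.2)
    exact Finset.disjoint_left.1 (hdisj a h1.1 a' h2.1 hne) hxa hxa'
  have hRun : R = 𝔅.biUnion Rk := by
    ext x
    constructor
    · intro hx
      obtain ⟨a, ha, hxa⟩ := Finset.mem_biUnion.1 hx
      exact Finset.mem_biUnion.2 ⟨bin a, hbin a ha,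
        Finset.mem_biUnion.2 ⟨a, Finset.mem_filter.2 ⟨ha, rfl⟩, hxa⟩⟩
    · intro hx
      obtain ⟨k, _, hxk⟩ := Finset.mem_biUnion.1 hx
      obtain ⟨a, ha, hxa⟩ := Finset.mem_biUnion.1 hxk
      exact Finset.mem_biUnion.2 ⟨a, (Finset.mem_filter.1 ha).1, hxa⟩
  have hsumW : (R.card : ℝ) = ∑ k ∈ 𝔅, ((Rk k).card : ℝ) := by
    rw [hRun, Finset.card_biUnion (fun k _ k' _ h => hRkdis k k' h)]
    push_cast
    rfl
  have hbad : ∑ k ∈ 𝔅, ((Bad ∩ (Rk k ×ˢ Rk k)).card : ℝ) ≤ (Bad.card : ℝ) := by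
    have h1 : ∑ k ∈ 𝔅, (Bad ∩ (Rk k ×ˢ Rk k)).card ≤ Bad.card := by
      rw [← Finset.card_biUnion]
      · refine Finset.card_le_card ?_
        intro z hz
        obtain ⟨k, _, hzk⟩ := Finset.mem_biUnion.1 hz
        exact (Finset.mem_inter.1 hzk).1
      · intro k _ k' _ hkk
        show Disjoint (Bad ∩ (Rk k ×ˢ Rk k)) (Bad ∩ (Rk k' ×ˢ Rk k'))
        rw [Finset.disjoint_left]
        intro z hz hz'
        exact Finset.disjoint_left.1 (hRkdis k k' hkk)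
          (Finset.mem_product.1 (Finset.mem_inter.1 hz).2).1
          (Finset.mem_product.1 (Finset.mem_inter.1 hz').2).1
    exact_mod_cast h1
  have hRpos : (0 : ℝ) < (R.card : ℝ) := by exact_mod_cast hR
  have hBne : 𝔅.Nonempty := by
    obtain ⟨x, hx⟩ := Finset.card_pos.1 hR
    obtain ⟨a, ha, _⟩ := Finset.mem_biUnion.1 hx
    exact ⟨bin a, hbin a ha⟩
  have hKpos : (0 : ℝ) < (Kb : ℝ) := by
    have : 0 < Kb := lt_of_lt_of_le (Finset.card_pos.2 hBne) hKb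
    exact_mod_cast this
  have hCS : (R.card : ℝ) ^ 2 ≤ (Kb : ℝ) * ∑ k ∈ 𝔅, ((Rk k).card : ℝ) ^ 2 := by
    rw [hsumW]
    have h1 := sq_sum_le_card_mul_sum_sq (s := 𝔅) (f := fun k => ((Rk k).card : ℝ))
    refine h1.trans ?_
    have h2 : ((𝔅.card : ℕ) : ℝ) ≤ (Kb : ℝ) := by exact_mod_cast hKb
    exact mul_le_mul_of_nonneg_right h2 (Finset.sum_nonneg fun k _ => by positivity)
  by_contra hcon
  have hcon' : ∀ k ∈ 𝔅, 2 * (Kb : ℝ) * ((Rk k).card : ℝ) < (R.card : ℝ) ∨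
      ((Rk k).card : ℝ) ^ 2 < 8 * ((Bad ∩ (Rk k ×ˢ Rk k)).card : ℝ) := by
    intro k hk
    by_contra h
    rw [not_or, not_lt, not_lt] at h
    exact hcon ⟨k, hk, h.1, h.2⟩
  have hle : ∀ k ∈ 𝔅, 2 * (Kb : ℝ) * ((Rk k).card : ℝ) ^ 2
      ≤ (R.card : ℝ) * ((Rk k).card : ℝ) + 16 * (Kb : ℝ) * ((Bad ∩ (Rk k ×ˢ Rk k)).card : ℝ) := by
    intro k hk
    have w0 : (0 : ℝ) ≤ ((Rk k).card : ℝ) := Nat.cast_nonneg _
    have b0 : (0 : ℝ) ≤ ((Bad ∩ (Rk k ×ˢ Rk k)).card : ℝ) := Nat.cast_nonneg _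
    rcases hcon' k hk with h | h
    · have := mul_le_mul_of_nonneg_right h.le w0
      have h3 : 0 ≤ 16 * (Kb : ℝ) * ((Bad ∩ (Rk k ×ˢ Rk k)).card : ℝ) := by positivity
      nlinarith
    · have := mul_le_mul_of_nonneg_left h.le (by positivity : (0 : ℝ) ≤ 2 * (Kb : ℝ))
      have h3 : 0 ≤ (R.card : ℝ) * ((Rk k).card : ℝ) := by positivity
      nlinarith
  have hlt : ∃ k ∈ 𝔅, 2 * (Kb : ℝ) * ((Rk k).card : ℝ) ^ 2
      < (R.card : ℝ) * ((Rk k).card : ℝ) + 16 * (Kb : ℝ) * ((Bad ∩ (Rk k ×ˢ Rk k)).card : ℝ) := by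
    have : ∃ k ∈ 𝔅, (0 : ℝ) < ((Rk k).card : ℝ) := by
      by_contra hno
      have hz : ∀ k ∈ 𝔅, ((Rk k).card : ℝ) = 0 := by
        intro k hk
        by_contra hne
        exact hno ⟨k, hk, lt_of_le_of_ne (Nat.cast_nonneg _) (Ne.symm hne)⟩
      rw [hsumW, Finset.sum_eq_zero hz] at hRpos
      exact lt_irrefl _ hRpos
    obtain ⟨k, hk, w0⟩ := this
    refine ⟨k, hk, ?_⟩
    have b0 : (0 : ℝ) ≤ ((Bad ∩ (Rk k ×ˢ Rk k)).card : ℝ) := Nat.cast_nonneg _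
    rcases hcon' k hk with h | h
    · have := mul_lt_mul_of_pos_right h w0
      have h3 : 0 ≤ 16 * (Kb : ℝ) * ((Bad ∩ (Rk k ×ˢ Rk k)).card : ℝ) := by positivity
      nlinarith
    · have := mul_lt_mul_of_pos_left h (by positivity : (0 : ℝ) < 2 * (Kb : ℝ))
      have h3 : 0 ≤ (R.card : ℝ) * ((Rk k).card : ℝ) := by positivity
      nlinarith
  have hsum := Finset.sum_lt_sum hle hlt
  rw [← Finset.mul_sum, Finset.sum_add_distrib, ← Finset.mul_sum, ← Finset.mul_sum, ← hsumW] at hsum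
  have h5 : 16 * (Kb : ℝ) * ∑ k ∈ 𝔅, ((Bad ∩ (Rk k ×ˢ Rk k)).card : ℝ) ≤ 16 * (Kb : ℝ) * (Bad.card : ℝ) :=
    mul_le_mul_of_nonneg_left hbad (by positivity)
  nlinarith

/-- a pair of members with few bad pairs -/
theorem spsel_pigeon_pair {α : Type*} [DecidableEq α] (J : Finset ℕ) (S : ℕ → Finset α)
    (hdisj : ∀ a ∈ J, ∀ a' ∈ J, a ≠ a' → Disjoint (S a) (S a'))
    (Bad : Finset (α × α))
    (hBad : 8 * ((Bad ∩ ((J.biUnion S) ×ˢ (J.biUnion S))).card : ℝ) ≤ ((J.biUnion S).card : ℝ) ^ 2)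
    (hR : 0 < (J.biUnion S).card) :
    ∃ a ∈ J, ∃ a' ∈ J, 8 * ((Bad ∩ (S a ×ˢ S a')).card : ℝ) ≤ ((S a).card : ℝ) * ((S a').card : ℝ) := by
  by_contra hcon
  have hcon' : ∀ p ∈ J ×ˢ J, ((S p.1).card : ℝ) * ((S p.2).card : ℝ)
      < 8 * ((Bad ∩ (S p.1 ×ˢ S p.2)).card : ℝ) := by
    intro p hp
    by_contra h
    exact hcon ⟨p.1, (Finset.mem_product.1 hp).1, p.2, (Finset.mem_product.1 hp).2, not_lt.1 h⟩
  have hJne : (J ×ˢ J).Nonempty := by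
    obtain ⟨x, hx⟩ := Finset.card_pos.1 hR
    obtain ⟨a, ha, _⟩ := Finset.mem_biUnion.1 hx
    exact ⟨(a, a), Finset.mem_product.2 ⟨ha, ha⟩⟩
  have hsum := Finset.sum_lt_sum_of_nonempty hJne hcon'
  have hcR : ((J.biUnion S).card : ℝ) = ∑ a ∈ J, ((S a).card : ℝ) := by
    rw [Finset.card_biUnion hdisj]; push_cast; rfl
  have h1 : ∑ p ∈ J ×ˢ J, ((S p.1).card : ℝ) * ((S p.2).card : ℝ) = ((J.biUnion S).card : ℝ) ^ 2 := by
    rw [hcR, sq, Finset.sum_mul_sum, Finset.sum_product]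
  have h2 : ∑ p ∈ J ×ˢ J, (Bad ∩ (S p.1 ×ˢ S p.2)).card
      ≤ (Bad ∩ ((J.biUnion S) ×ˢ (J.biUnion S))).card := by
    rw [← Finset.card_biUnion]
    · refine Finset.card_le_card ?_
      intro z hz
      obtain ⟨p, hp, hzp⟩ := Finset.mem_biUnion.1 hz
      have hz1 := Finset.mem_inter.1 hzp
      have hz2 := Finset.mem_product.1 hz1.2
      have hp' := Finset.mem_product.1 hp
      exact Finset.mem_inter.2 ⟨hz1.1, Finset.mem_product.2
        ⟨Finset.mem_biUnion.2 ⟨p.1, hp'.1, hz2.1⟩, Finset.mem_biUnion.2 ⟨p.2, hp'.2, hz2.2⟩⟩⟩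
    · intro p hp q hq hpq
      show Disjoint (Bad ∩ S p.1 ×ˢ S p.2) (Bad ∩ S q.1 ×ˢ S q.2)
      rw [Finset.disjoint_left]
      intro z hzp hzq
      have a1 := Finset.mem_product.1 (Finset.mem_inter.1 hzp).2
      have a2 := Finset.mem_product.1 (Finset.mem_inter.1 hzq).2
      have hp' := Finset.mem_product.1 (Finset.mem_coe.1 hp)
      have hq' := Finset.mem_product.1 (Finset.mem_coe.1 hq)
      apply hpq
      refine Prod.ext ?_ ?_
      · by_contra hne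
        exact Finset.disjoint_left.1 (hdisj _ hp'.1 _ hq'.1 hne) a1.1 a2.1
      · by_contra hne
        exact Finset.disjoint_left.1 (hdisj _ hp'.2 _ hq'.2 hne) a1.2 a2.2
  have h2' : ∑ p ∈ J ×ˢ J, ((Bad ∩ (S p.1 ×ˢ S p.2)).card : ℝ)
      ≤ ((Bad ∩ ((J.biUnion S) ×ˢ (J.biUnion S))).card : ℝ) := by
    exact_mod_cast h2
  rw [h1, ← Finset.mul_sum] at hsum
  linarith

open Classical in
/-- one of the two orientations has density `1/4` -/
theorem spsel_orient {α : Type*} [DecidableEq α] (X Y : Finset α) (good : α × α → Prop)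
    (Bad : Finset (α × α))
    (hB : ∀ x ∈ X, ∀ y ∈ Y, x ≠ y → (x, y) ∉ Bad → good (x, y) ∨ good (y, x))
    (hc : 8 * ((Bad ∩ (X ×ˢ Y)).card : ℝ) ≤ (X.card : ℝ) * (Y.card : ℝ))
    (hX : 4 ≤ X.card) (hY : 4 ≤ Y.card) :
    1 / 4 * (X.card : ℝ) * (Y.card : ℝ) ≤ (((X ×ˢ Y).filter good).card : ℝ) ∨
      1 / 4 * (Y.card : ℝ) * (X.card : ℝ) ≤ (((Y ×ˢ X).filter good).card : ℝ) := by
  set dg : Finset (α × α) := (X ×ˢ Y).filter (fun p => p.1 = p.2) with hdg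
  set G1 : Finset (α × α) := (X ×ˢ Y).filter good with hG1
  set G2 : Finset (α × α) := (Y ×ˢ X).filter good with hG2
  set G2' : Finset (α × α) := (X ×ˢ Y).filter (fun p => good p.swap) with hG2'
  have hsub : X ×ˢ Y ⊆ ((dg ∪ (Bad ∩ (X ×ˢ Y))) ∪ G1) ∪ G2' := by
    rintro ⟨x, y⟩ hxy
    have hx := (Finset.mem_product.1 hxy).1
    have hy := (Finset.mem_product.1 hxy).2
    simp only [Finset.mem_union, hdg, hG1, hG2', Finset.mem_filter, Finset.mem_inter, hxy, true_and,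
      and_true, Prod.swap_prod_mk]
    by_cases h1 : x = y
    · exact Or.inl (Or.inl (Or.inl h1))
    · by_cases h2 : (x, y) ∈ Bad
      · exact Or.inl (Or.inl (Or.inr h2))
      · rcases hB x hx y hy h1 h2 with h3 | h3
        · exact Or.inl (Or.inr h3)
        · exact Or.inr h3
  have hcard : (X ×ˢ Y).card ≤ dg.card + (Bad ∩ (X ×ˢ Y)).card + G1.card + G2'.card := by
    calc (X ×ˢ Y).card ≤ (((dg ∪ (Bad ∩ (X ×ˢ Y))) ∪ G1) ∪ G2').card := Finset.card_le_card hsub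
      _ ≤ ((dg ∪ (Bad ∩ (X ×ˢ Y))) ∪ G1).card + G2'.card := Finset.card_union_le _ _
      _ ≤ (dg ∪ (Bad ∩ (X ×ˢ Y))).card + G1.card + G2'.card := by
          gcongr; exact Finset.card_union_le _ _
      _ ≤ dg.card + (Bad ∩ (X ×ˢ Y)).card + G1.card + G2'.card := by
          gcongr; exact Finset.card_union_le _ _
  have hdgc : dg.card ≤ X.card := by
    refine Finset.card_le_card_of_injOn Prod.fst ?_ ?_
    · intro p hp
      exact (Finset.mem_product.1 (Finset.mem_filter.1 hp).1).1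
    · intro p hp q hq hpq
      have h1 : p.1 = p.2 := (Finset.mem_filter.1 hp).2
      have h2 : q.1 = q.2 := (Finset.mem_filter.1 hq).2
      exact Prod.ext hpq (by rw [← h1, ← h2]; exact hpq)
  have hG2c : G2'.card ≤ G2.card := by
    refine Finset.card_le_card_of_injOn Prod.swap ?_ (Prod.swap_injective.injOn)
    intro p hp
    have h1 := Finset.mem_filter.1 hp
    have h2 := Finset.mem_product.1 h1.1
    exact Finset.mem_filter.2 ⟨Finset.mem_product.2 ⟨h2.2, h2.1⟩, h1.2⟩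
  have hcardR : (X.card : ℝ) * (Y.card : ℝ)
      ≤ (X.card : ℝ) + ((Bad ∩ (X ×ˢ Y)).card : ℝ) + (G1.card : ℝ) + (G2.card : ℝ) := by
    have h1 : (X ×ˢ Y).card ≤ X.card + (Bad ∩ (X ×ˢ Y)).card + G1.card + G2.card := by omega
    rw [Finset.card_product] at h1
    exact_mod_cast h1
  have hY' : (4 : ℝ) ≤ (Y.card : ℝ) := by exact_mod_cast hY
  have hX0 : (0 : ℝ) ≤ (X.card : ℝ) := Nat.cast_nonneg _
  have h4 : 4 * (X.card : ℝ) ≤ (X.card : ℝ) * (Y.card : ℝ) := by nlinarith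
  by_contra hcon
  rw [not_or, not_le, not_le] at hcon
  obtain ⟨c1, c2⟩ := hcon
  nlinarith

/-! ### SEL-C2: pools and configurations -/

/-- the pool of the pieces `a ∈ J` of the window `m₀` -/
def SpPart.pool (𝔭 : SpPart d) (J : Finset ℕ) (m₀ : ℕ) : SpPool d := ⟨J, 𝔭.π, 𝔭.grid m₀, 𝔭.top m₀⟩

theorem spsel_pool_pts (𝔭 : SpPart d) (J : Finset ℕ) (m₀ : ℕ) :
    (𝔭.pool J m₀).pts = J.biUnion fun a => (𝔭.π a).S := rfl

theorem spsel_pool_ok (D : SpData d) (hB : 1 ≤ D.B) (𝔭 : SpPart d) {θ θ' : ℝ} (ht : 𝔭.Tame D θ)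
    (h0 : 0 < θ) (hθ : θ ≤ θ') (J : Finset ℕ) (hJ : J ⊆ 𝔭.I) (hne : J.Nonempty) (m₀ : ℕ)
    (hm : ∀ a ∈ J, 𝔭.m a = m₀) (b : ℕ → ℝ)
    (hprof : ∀ a ∈ J, ∀ i < d, |(𝔭.π a).τ i - b i| ≤ θ') :
    (𝔭.pool J m₀).Ok D (Real.log D.B / 2 ^ m₀) θ' b := by
  have hlog : 0 ≤ Real.log D.B := Real.log_nonneg hB
  have hw : ∀ a ∈ J, 𝔭.w D.B a = Real.log D.B / 2 ^ m₀ := fun a ha => by
    unfold SpPart.w
    rw [hm a ha]
  have hs0 : 0 ≤ Real.log D.B / 2 ^ m₀ := by positivity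
  obtain ⟨a₀, ha₀⟩ := hne
  exact
    { s_ge := by
        have h1 := ht.w_ge a₀ (hJ ha₀)
        rw [hw a₀ ha₀] at h1
        exact (one_div_le_one_div_of_le h0 hθ).trans h1
      s_le := div_le_self hlog (one_le_pow₀ (by norm_num))
      ne := ⟨a₀, ha₀⟩
      piece := fun a ha => by
        have h1 := ht.piece a (hJ ha)
        rw [hw a ha, hm a ha] at h1
        exact h1.mono_kappa hθ
      grid := by
        have h1 := ht.grid a₀ (hJ ha₀)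
        rw [hm a₀ ha₀] at h1
        exact h1.mono_mu hθ
      top_ge := by
        have h1 := ht.top_ge a₀ (hJ ha₀)
        rwa [hm a₀ ha₀] at h1
      top_le := by
        have h1 := ht.top_le a₀ (hJ ha₀)
        rw [hm a₀ ha₀] at h1
        show 𝔭.top m₀ ≤ 1 + θ'
        linarith
      sub := fun a ha => ht.sub a (hJ ha)
      disj := fun a ha a' ha' hne => ht.disj a (hJ ha) a' (hJ ha') hne
      size := fun a ha => by
        have h1 := ht.size a (hJ ha)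
        rw [hw a ha] at h1
        refine le_trans ?_ h1
        refine mul_le_mul_of_nonneg_left ?_ (by unfold SpData.N; positivity)
        exact Real.exp_le_exp.mpr (by nlinarith)
      prof := hprof
      imb := fun a ha => (ht.imb a (hJ ha)).imp
        (fun h' => by
          show (𝔭.π a).τ 0 ≤ -1 / 2 + θ'
          linarith) id }

open Classical in
/-- the configuration built from two pools -/
noncomputable def SpPart.cfg (𝔭 : SpPart d) (D : SpData d) (cho : SpC d → Ideal (PrfPol d)) (H : ℝ)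
    (J₁ J₂ : Finset ℕ) (m₁ m₂ : ℕ) : SpCfg d where
  D := D
  X := 𝔭.pool J₁ m₁
  Y := 𝔭.pool J₂ m₂
  v := Real.log D.B / 2 ^ m₁
  s := Real.log D.B / 2 ^ m₂
  Γ := ((𝔭.pool J₁ m₁).pts ×ˢ (𝔭.pool J₂ m₂).pts).filter (SpGood D cho H)
  cho := cho

open Classical in
theorem spsel_cfg (D : SpData d) {θ θ' : ℝ} (hreg : D.Reg θ') (hθ'1 : θ ≤ 1) (h0 : 0 < θ) (hθ : θ ≤ θ')
    (hregθ : D.Reg θ) (𝔭 : SpPart d) (cho : SpC d → Ideal (PrfPol d)) (hcho : 𝔭.Cho cho) (H : ℝ)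
    (hH : H ≤ D.B ^ θ) (J₁ J₂ : Finset ℕ) (hJ₂ : J₂ ⊆ 𝔭.I) (m₁ m₂ : ℕ) (b : ℕ → ℝ)
    (hX : (𝔭.pool J₁ m₁).Ok D (Real.log D.B / 2 ^ m₁) θ' b)
    (hY : (𝔭.pool J₂ m₂).Ok D (Real.log D.B / 2 ^ m₂) θ' b)
    (hdens : 1 / 4 * ((𝔭.pool J₁ m₁).pts.card : ℝ) * ((𝔭.pool J₂ m₂).pts.card : ℝ) ≤
      ((((𝔭.pool J₁ m₁).pts ×ˢ (𝔭.pool J₂ m₂).pts).filter (SpGood D cho H)).card : ℝ)) :
    (𝔭.cfg D cho H J₁ J₂ m₁ m₂).Ok b (1 / 4) θ' where
  reg := hreg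
  okX := hX
  okY := hY
  sub := Finset.filter_subset _ _
  off := fun _ hz => (Finset.mem_filter.1 hz).2.1
  cov := fun _ hz => (Finset.mem_filter.1 hz).2.2.1
  dense := hdens
  cho_mem := fun a ha y hy => hcho a (hJ₂ ha) y hy
  term := fun _ hz => (Finset.mem_filter.1 hz).2.2.2.1
  thick := fun _ hz => (Finset.mem_filter.1 hz).2.2.2.2.1
  light := fun _ hz T hT hw => ((Finset.mem_filter.1 hz).2.2.2.2.2 T hT hw).trans
    (hH.trans (Real.rpow_le_rpow_of_exponent_le (hregθ.one_le_B hθ'1) hθ))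

/-! ### SEL-C3: glue -/

/-- the class of a dyadic index: `n` itself below `h`, then the residue modulo `h` -/
theorem spsel_cls_lt {h : ℕ} (hh : 1 ≤ h) (n : ℕ) : (if n < h then n else h + n % h) < 2 * h := by
  split_ifs with h1
  · omega
  · have := Nat.mod_lt n (show 0 < h by omega)
    omega

theorem spsel_cls_zero {h : ℕ} (hh : 1 ≤ h) {n : ℕ} (h0 : (if n < h then n else h + n % h) = 0) :
    n = 0 := by
  split_ifs at h0 with h1
  · exact h0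
  · omega

theorem spsel_cls_eq {h n n' : ℕ} (hh : 1 ≤ h)
    (he : (if n < h then n else h + n % h) = (if n' < h then n' else h + n' % h)) (hne : n ≠ n') :
    h ≤ n ∧ h ≤ n' ∧ (n + h ≤ n' ∨ n' + h ≤ n) := by
  have hm := Nat.mod_lt n (show 0 < h by omega)
  have hm' := Nat.mod_lt n' (show 0 < h by omega)
  split_ifs at he with h1 h2 h2
  · exact absurd he hne
  · omega
  · omega
  · have he' : n % h = n' % h := by omega
    refine ⟨by omega, by omega, ?_⟩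
    rcases Nat.lt_or_gt_of_ne hne with hlt | hlt
    · left
      have hdvd : h ∣ n' - n := (Nat.modEq_iff_dvd' hlt.le).1 he'
      have := Nat.le_of_dvd (by omega) hdvd
      omega
    · right
      have hdvd : h ∣ n - n' := (Nat.modEq_iff_dvd' hlt.le).1 he'.symm
      have := Nat.le_of_dvd (by omega) hdvd
      omega

/-- widths of windows whose dyadic indices differ by at least `h` -/
theorem spsel_width {L θ θ' : ℝ} {h m₁ m₂ : ℕ} (hL : 0 ≤ L) (hh : (1 / 2 : ℝ) ^ h ≤ θ) (hθ : θ ≤ θ')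
    (hm : m₂ + h ≤ m₁) : L / 2 ^ m₁ ≤ θ' * (L / 2 ^ m₂) := by
  have h1 : L / 2 ^ m₁ = (1 / 2 : ℝ) ^ (m₁ - m₂) * (L / 2 ^ m₂) := by
    have : m₁ = (m₁ - m₂) + m₂ := by omega
    conv_lhs => rw [this, pow_add]
    rw [one_div, inv_pow]
    field_simp
  have h2 : (1 / 2 : ℝ) ^ (m₁ - m₂) ≤ (1 / 2 : ℝ) ^ h :=
    pow_le_pow_of_le_one (by norm_num) (by norm_num) (by omega)
  rw [h1]
  exact mul_le_mul_of_nonneg_right (h2.trans (hh.trans hθ)) (by positivity)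

open Classical in
/-- the configuration of two single pieces of one bin -/
theorem spsel_pick_pair {Θb θ : ℝ} {h : ℕ} (hθ0 : 0 < θ) (hθ1 : θ ≤ 1) (hΘ : θ ≤ Θb) (hh1 : 1 ≤ h)
    (hh2 : (1 / 2 : ℝ) ^ h ≤ θ) (D : SpData d) (hreg : D.Reg θ) (𝔭 : SpPart d)
    (cho : SpC d → Ideal (PrfPol d)) (H : ℝ) (htame : 𝔭.Tame D (θ / 2)) (hcho : 𝔭.Cho cho)
    (hH : H ≤ D.B ^ θ) (b : ℕ → ℝ) {a₁ a₂ : ℕ} (h₁ : a₁ ∈ 𝔭.I) (h₂ : a₂ ∈ 𝔭.I)
    (hp₁ : ∀ i < d, |(𝔭.π a₁).τ i - b i| ≤ Θb) (hp₂ : ∀ i < d, |(𝔭.π a₂).τ i - b i| ≤ Θb)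
    (hcls : (if 𝔭.m a₁ < h then 𝔭.m a₁ else h + 𝔭.m a₁ % h)
      = (if 𝔭.m a₂ < h then 𝔭.m a₂ else h + 𝔭.m a₂ % h))
    (hc0 : (if 𝔭.m a₁ < h then 𝔭.m a₁ else h + 𝔭.m a₁ % h) ≠ 0)
    (hdens : 1 / 4 * ((𝔭.π a₁).S.card : ℝ) * ((𝔭.π a₂).S.card : ℝ)
      ≤ ((((𝔭.π a₁).S ×ˢ (𝔭.π a₂).S).filter (SpGood D cho H)).card : ℝ)) :
    ∃ 𝔠 : SpCfg d, 𝔠.Ok b (1 / 4) Θb ∧ (𝔠.Common b ∨ 𝔠.Outer b ∨ 𝔠.Sep Θb) := by
  have hB : 1 ≤ D.B := hreg.one_le_B hθ1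
  have hlog : 0 ≤ Real.log D.B := Real.log_nonneg hB
  have hpts : ∀ a m, (𝔭.pool {a} m).pts = (𝔭.π a).S := fun a m => by
    rw [spsel_pool_pts, Finset.singleton_biUnion]
  have hX : (𝔭.pool {a₁} (𝔭.m a₁)).Ok D (Real.log D.B / 2 ^ (𝔭.m a₁)) Θb b :=
    spsel_pool_ok D hB 𝔭 htame (by positivity) (by linarith) {a₁}
      (Finset.singleton_subset_iff.2 h₁) (Finset.singleton_nonempty _) _
      (fun a ha => by rw [Finset.mem_singleton.1 ha]) b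
      (fun a ha => by rw [Finset.mem_singleton.1 ha]; exact hp₁)
  have hY : (𝔭.pool {a₂} (𝔭.m a₂)).Ok D (Real.log D.B / 2 ^ (𝔭.m a₂)) Θb b :=
    spsel_pool_ok D hB 𝔭 htame (by positivity) (by linarith) {a₂}
      (Finset.singleton_subset_iff.2 h₂) (Finset.singleton_nonempty _) _
      (fun a ha => by rw [Finset.mem_singleton.1 ha]) b
      (fun a ha => by rw [Finset.mem_singleton.1 ha]; exact hp₂)
  refine ⟨𝔭.cfg D cho H {a₁} {a₂} (𝔭.m a₁) (𝔭.m a₂),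
    spsel_cfg D (hreg.mono hΘ) hθ1 hθ0 hΘ hreg 𝔭 cho hcho H hH {a₁} {a₂}
      (Finset.singleton_subset_iff.2 h₂) _ _ b hX hY (by rw [hpts, hpts]; exact hdens), ?_⟩
  by_cases hm : 𝔭.m a₁ = 𝔭.m a₂
  · left
    refine ⟨?_, ?_, ?_, Or.inl ?_⟩
    · show Real.log D.B / 2 ^ (𝔭.m a₁) = Real.log D.B / 2 ^ (𝔭.m a₂)
      rw [hm]
    · show 𝔭.grid (𝔭.m a₁) = 𝔭.grid (𝔭.m a₂)
      rw [hm]
    · show 𝔭.top (𝔭.m a₁) = 𝔭.top (𝔭.m a₂)
      rw [hm]
    · show 2 * (Real.log D.B / 2 ^ (𝔭.m a₂)) ≤ Real.log D.B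
      have hm1 : 1 ≤ 𝔭.m a₂ := by
        rw [← hm]
        by_contra hcon
        have h0 : 𝔭.m a₁ = 0 := by omega
        apply hc0
        rw [h0, if_pos (by omega)]
      have h2 : (2 : ℝ) ≤ 2 ^ (𝔭.m a₂) := by
        calc (2 : ℝ) = 2 ^ 1 := by norm_num
          _ ≤ 2 ^ (𝔭.m a₂) := pow_le_pow_right₀ (by norm_num) hm1
      rw [← mul_div_assoc, div_le_iff₀ (by positivity)]
      nlinarith
  · right; right
    obtain ⟨g1, g2, g3⟩ := spsel_cls_eq hh1 hcls hm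
    have w0 : ∀ m, h ≤ m → Real.log D.B / 2 ^ m ≤ Θb * Real.log D.B := by
      intro m hm'
      have := spsel_width (m₁ := m) (m₂ := 0) hlog hh2 hΘ (by omega)
      simpa using this
    refine ⟨?_, w0 _ g1, w0 _ g2, ⟨a₁, rfl⟩, ⟨a₂, rfl⟩⟩
    rcases g3 with g | g
    · right
      exact spsel_width hlog hh2 hΘ g
    · left
      exact spsel_width hlog hh2 hΘ g

open Classical in
/-- LEAF SEL-C3 (glue): **the pigeonhole and the configuration**. -/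
theorem spsel_pick (hd : 1 ≤ d) : SpSelPick d := by
  intro Θ bs θ h hθ0 hθ1 hΘ hb1 hcov hh1 hh2 D hreg 𝔭 cho H Bad htame hcho hH hbad hBadc hRpos hNR hS4
  have hB : 1 ≤ D.B := hreg.one_le_B hθ1
  have hlog : 0 ≤ Real.log D.B := Real.log_nonneg hB
  -- the reference profile of a piece
  have hβ : ∀ a ∈ 𝔭.I, ∃ b ∈ bs, ∀ i < d, |(𝔭.π a).τ i - b i| ≤ Θ b := by
    intro a ha
    have hrange : ∀ i < d, -1 ≤ (𝔭.π a).τ i ∧ (𝔭.π a).τ i ≤ 1 + θ / 2 := by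
      intro i hi
      have h1 := (htame.grid a ha).range _ ((htame.piece a ha).mem i hi)
      exact ⟨h1.1, h1.2.trans (htame.top_le a ha)⟩
    obtain ⟨b, hb, hbi⟩ := hcov (fun i => min ((𝔭.π a).τ i) 1)
      (fun i hi => ⟨le_min (hrange i hi).1 (by norm_num), min_le_right _ _⟩)
    refine ⟨b, hb, fun i hi => ?_⟩
    have h2 : |min ((𝔭.π a).τ i) 1 - b i| ≤ Θ b / 2 := hbi i hi
    have h3 : |(𝔭.π a).τ i - min ((𝔭.π a).τ i) 1| ≤ θ / 2 := by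
      rcases le_total ((𝔭.π a).τ i) 1 with h | h
      · rw [min_eq_left h, sub_self, abs_zero]; positivity
      · rw [min_eq_right h, abs_of_nonneg (by linarith)]; linarith [(hrange i hi).2]
    have h4 := hΘ b hb
    calc |(𝔭.π a).τ i - b i|
        ≤ |(𝔭.π a).τ i - min ((𝔭.π a).τ i) 1| + |min ((𝔭.π a).τ i) 1 - b i| := abs_sub_le _ _ _
      _ ≤ θ / 2 + Θ b / 2 := add_le_add h3 h2
      _ ≤ Θ b := by linarith
  choose! β hβbs hβp using hβ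
  obtain ⟨k, hk, hheavy, hfew⟩ := spsel_pigeon 𝔭.I (fun a => (𝔭.π a).S) htame.disj
    (fun a => (β a, (if 𝔭.m a < h then 𝔭.m a else h + 𝔭.m a % h)))
    (bs ×ˢ Finset.range (2 * h))
    (fun a ha => Finset.mem_product.2 ⟨hβbs a ha, Finset.mem_range.2 (spsel_cls_lt hh1 _)⟩)
    (bs.card * (2 * h)) (by rw [Finset.card_product, Finset.card_range]) Bad hBadc hRpos
  set J : Finset ℕ := 𝔭.I.filter
    (fun a => (β a, (if 𝔭.m a < h then 𝔭.m a else h + 𝔭.m a % h)) = k) with hJ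
  set RJ : Finset (SpC d) := J.biUnion fun a => (𝔭.π a).S with hRJ
  obtain ⟨b, c⟩ := k
  have hb : b ∈ bs := (Finset.mem_product.1 hk).1
  have hJI : J ⊆ 𝔭.I := Finset.filter_subset _ _
  have hJb : ∀ a ∈ J, β a = b := fun a ha => congrArg Prod.fst (Finset.mem_filter.1 ha).2
  have hJc : ∀ a ∈ J, (if 𝔭.m a < h then 𝔭.m a else h + 𝔭.m a % h) = c :=
    fun a ha => congrArg Prod.snd (Finset.mem_filter.1 ha).2
  have hJp : ∀ a ∈ J, ∀ i < d, |(𝔭.π a).τ i - b i| ≤ Θ b := by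
    intro a ha i hi
    have := hβp a (hJI ha) i hi
    rwa [hJb a ha] at this
  have hRposR : (0 : ℝ) < (𝔭.R.card : ℝ) := by exact_mod_cast hRpos
  have hKpos : (0 : ℝ) < ((bs.card * (2 * h) : ℕ) : ℝ) := by
    have : 0 < bs.card * (2 * h) := Nat.mul_pos (Finset.card_pos.2 ⟨b, hb⟩) (by omega)
    exact_mod_cast this
  have hheavy' : (𝔭.R.card : ℝ) ≤ 2 * ((bs.card * (2 * h) : ℕ) : ℝ) * (RJ.card : ℝ) := hheavy
  have hRJpos : 0 < RJ.card := by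
    by_contra hcon
    have h0 : RJ.card = 0 := by omega
    rw [h0, Nat.cast_zero, mul_zero] at hheavy'
    linarith
  have hRJR : RJ ⊆ 𝔭.R := Finset.biUnion_subset_biUnion_of_subset_left _ hJI
  have hJne : J.Nonempty := by
    obtain ⟨x, hx⟩ := Finset.card_pos.1 hRJpos
    obtain ⟨a, ha, _⟩ := Finset.mem_biUnion.1 hx
    exact ⟨a, ha⟩
  by_cases hc : c = 0
  · -- the outermost window
    have hm0 : ∀ a ∈ J, 𝔭.m a = 0 := fun a ha => spsel_cls_zero hh1 ((hJc a ha).trans hc)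
    have hR4 : 4 ≤ RJ.card := by
      obtain ⟨a, ha⟩ := hJne
      exact (hS4 a (hJI ha)).trans (Finset.card_le_card
        (Finset.subset_biUnion_of_mem (fun a => (𝔭.π a).S) ha))
    have hdens : 1 / 4 * (RJ.card : ℝ) * (RJ.card : ℝ)
        ≤ (((RJ ×ˢ RJ).filter (SpGood D cho H)).card : ℝ) := by
      have := spsel_orient RJ RJ (SpGood D cho H) Bad
        (fun x hx y hy hxy hB' => hbad x (hRJR hx) y (hRJR hy) hxy hB')
        (by rw [← sq]; exact hfew) hR4 hR4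
      exact this.elim id id
    have hX : (𝔭.pool J 0).Ok D (Real.log D.B / 2 ^ 0) (Θ b) b :=
      spsel_pool_ok D hB 𝔭 htame (by positivity) (by linarith [hΘ b hb]) J hJI hJne 0 hm0 b hJp
    refine ⟨b, 𝔭.cfg D cho H J J 0 0,
      spsel_cfg D (hreg.mono (hΘ b hb)) hθ1 hθ0 (hΘ b hb) hreg 𝔭 cho hcho H hH J J hJI 0 0 b hX hX
        hdens, ?_⟩
    rcases lt_or_eq_of_le (hb1 b hb) with hlt | heq
    · exact Or.inl ⟨rfl, rfl, rfl, Or.inr hlt⟩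
    · refine Or.inr (Or.inl ⟨rfl, rfl, ?_, heq, ?_⟩)
      · show Real.log D.B / 2 ^ 0 = Real.log D.B
        simp
      · show D.N * Real.sqrt D.δ ≤ (RJ.card : ℝ)
        have h1 : D.N * Real.sqrt D.δ * (2 * ((bs.card * (2 * h) : ℕ) : ℝ))
            ≤ (RJ.card : ℝ) * (2 * ((bs.card * (2 * h) : ℕ) : ℝ)) := by
          calc _ ≤ (𝔭.R.card : ℝ) := hNR
            _ ≤ _ := by rw [mul_comm]; exact hheavy'
        exact le_of_mul_le_mul_right h1 (by positivity)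
  · -- two single pieces
    obtain ⟨a, ha, a', ha', hpair⟩ := spsel_pigeon_pair J (fun a => (𝔭.π a).S)
      (fun a ha a' ha' hne => htame.disj a (hJI ha) a' (hJI ha') hne) Bad hfew hRJpos
    have hSR : ∀ a ∈ J, (𝔭.π a).S ⊆ 𝔭.R := fun a ha =>
      (Finset.subset_biUnion_of_mem (fun a => (𝔭.π a).S) ha).trans hRJR
    rcases spsel_orient (𝔭.π a).S (𝔭.π a').S (SpGood D cho H) Bad
      (fun x hx y hy hxy hB' => hbad x (hSR a ha hx) y (hSR a' ha' hy) hxy hB') hpair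
      (hS4 a (hJI ha)) (hS4 a' (hJI ha')) with hdens | hdens
    · obtain ⟨𝔠, h1, h2⟩ := spsel_pick_pair hθ0 hθ1 (hΘ b hb) hh1 hh2 D hreg 𝔭 cho H htame hcho hH b
        (hJI ha) (hJI ha') (hJp a ha) (hJp a' ha') ((hJc a ha).trans (hJc a' ha').symm)
        (by rw [hJc a ha]; exact hc) hdens
      exact ⟨b, 𝔠, h1, h2⟩
    · obtain ⟨𝔠, h1, h2⟩ := spsel_pick_pair hθ0 hθ1 (hΘ b hb) hh1 hh2 D hreg 𝔭 cho H htame hcho hH b
        (hJI ha') (hJI ha) (hJp a' ha') (hJp a ha) ((hJc a' ha').trans (hJc a ha).symm)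
        (by rw [hJc a' ha']; exact hc) hdens
      exact ⟨b, 𝔠, h1, h2⟩

end Claimed.Agent.R273
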