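-- KEEP
import Claimed.Agent.R273.SpSelB
import Claimed.Agent.R273.SpSelC
import Claimed.Agent.R273.StRich

/-!
# Row 273, SPARSE, unit SEL: `sp_sel : SpTermStmt d → SpSelStmt d`  (architect helper191).
-/

set_option autoImplicit false

namespace Claimed.Agent.R273

/-- **(SEL)** prof:pair-selection, gauge form, from geo:terminal. -/
theorem sp_sel {d : ℕ} (hd : 3 ≤ d) (hterm : SpTermStmt d) : SpSelStmt d :=
  sp_sel_of_parts (spsel_cover (by omega))
    (spsel_prep hd (spsel_part (by omega)) hterm (st_richLinesStmt d)) (spsel_pick (by omega))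

end Claimed.Agent.R273
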