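-- KEEP
import Claimed.Agent.R273.ScoTop
import Claimed.Agent.R273.ScsTop
import Claimed.Agent.R273.SplMain
import Claimed.Agent.R273.SpSel
import Claimed.Agent.R273.SpCap

/-!
# Row 273, SPARSE: `SparseStmt d` from the unit theorems.  Chief architect helper37.

Units and their exported theorems:
* S5L   `sp_lim : SpLimStmt d`                                  (helper161, `Spl*.lean`)
* SEL   `sp_sel : SpTermStmt d → SpSelStmt d`, CAP `sp_cap`      (helper191, `SpSel*.lean`, `SpCap.lean`)
* S6a   `sp_noCommon_of_parts`, `sp_rp`, `sp_cr`                (helper37, `SpCom*.lean`, `SpImg.lean`)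
* SCO   `sco_noOuter_of_parts`                                  (helper37, `Sco*.lean`)
* S6b/c `scs_noSep : SpNoSep d`                                 (helper177, `Scs*.lean`, `Dep*.lean`)
STILL HYPOTHESES (to be replaced by the exported theorems of their units):
* `SpFactorStmt d` (leaf SP-FAC), `SpTermStmt d` (S4, helper26), `SpDepthStmt d`, `SpTangStmt d` (GD, helper60), `SpRegLabStmt d` (bridge from `prf_reg`), `ScoSecStmt d` (S4), `ScoProjStmt d` (S3, helper299).
-/

set_option autoImplicit false

namespace Claimed.Agent.R273

theorem sparse_main {d : ℕ} (hd : 3 ≤ d) (fac : SpFactorStmt d) (term : SpTermStmt d)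
    (gd : SpDepthStmt d) (tang : SpTangStmt d) (reg : SpRegLabStmt d) (sec : ScoSecStmt d)
    (proj : ScoProjStmt d) : SparseStmt d := by
  have lim : SpLimStmt d := sp_lim (by omega)
  have rp : SpRPStmt d := sp_rp hd lim gd
  have cr : SpCRStmt d := sp_cr hd lim rp tang
  exact sparse_of_parts fac (sp_cap hd) (sp_sel hd term) (sp_noCommon hd lim.adm cr (sp_upper d))
    (sco_noOuter_of_parts hd lim rp cr reg sec proj) (scs_noSep hd)

end Claimed.Agent.R273
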