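import Claimed.Agent.R273.ScoReg

/-!
# Row 273: (REG-LAB) `SpRegLabStmt d` = `prfr_reg_tan (Fin d ⊕ Fin d)` (helper161): `poly:regularity` holds for any finite index type, no reindexing.
-/

set_option autoImplicit false

namespace Claimed.Agent.R273

theorem sp_regLab (d : ℕ) : SpRegLabStmt d := prfr_reg_tan (Fin d ⊕ Fin d)

end Claimed.Agent.R273
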