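-- KEEP
import Claimed.Agent.R273.GeoTop
import Claimed.Agent.R273.GeoLin
import Claimed.Agent.R273.DepAG
import Claimed.Agent.R273.PjTop
import Claimed.Agent.R273.ScsCone

/-!
# Row 273, TERM: common algebraic geometry of TP and T3 (blueprint: header of TmComb.lean, section COMMON).  Architect helper191.  Prefix `tm_`.

`Cone(c) = {w | c.Mem w}`.  Mass bound `n_i ≤ 2 M d_i` = `sep_count_curve` (PrfSep.lean, sorry-free).  All `ph_*`, `geo_*`, `dep_*`, `pj_*`, `rk_*` statements are black boxes.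

LEAF TM-BASE-A (`tm_zl_inj`, `tm_var_eq`, `tm_curve_finite`, `tm_gen_cofinite`, `tm_gen_of_cofinite`, `tm_curve_inter`), ~250 lines.
* `tm_zl_inj`: `vanishingIdeal_zeroLocus_eq_radical`, `Ideal.IsPrime.radical`.
* `tm_var_eq`: if `V ≠ V'` take `x ∈ V' \ V`; `V = zeroLocus p` closed: some `g ∈ p` has `g x ≠ 0`; `ph_vdim_lt_of_ssubset` (`ph_isVar_nonempty`).
* `tm_curve_finite`: `G₀ := (p : Set _)`, `Zl G₀ = Y`; `{y ∈ Y | g y = 0} = Zl (insert g G₀) = ⋃ components` (`ph_Zl_eq_iUnion_comps`), finitely many (`ph_comps_finite`), each of dimension `0` (`ph_pit`), i.e. a point (`ph_point_of_vdim_zero`, `ph_isCompOf_isVar`).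
* `tm_gen_of_cofinite`: for `s` in the finite exceptional set choose `i` and `y ∈ Y` with `y i ≠ s i` (`Y ≠ {s}`: `ph_point`, `vdim`), factor `X i - C (s i)`; the product does not vanish identically on `Y` (`ph_isVar_mul`, induction; or `geo_gen_finset` + `geo_gen_ne`).
* `tm_curve_inter`: `Y ≠ Y'` irreducible curves: `Y ⊄ Y'` (`tm_var_eq`), so some `g ∈ I(Y')` is not `≡ 0` on `Y`; `tm_curve_finite`.
LEAF TM-BASE-B (`tm_affine_image`, `tm_cone_var`), ~300 lines.
* `tm_affine_image`: `A x = L x + b` is `pmap ψ`, `ψ k = ∑ i, C (L (Pi.single i 1) k) * X i + C (b k)`.  `zcl (A '' V)` is `IsVar` (`ph_isVar_zcl_image`).  `A '' V` is closed: `ψ'` a linear left inverse of `L` (`LinearMap.exists_leftInverse_of_injective`);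
  `y ∈ A '' V ↔ L (ψ' (y - b)) + b = y ∧ ψ' (y - b) ∈ V`: a zero set `Zl G` (`ph_zcl_Zl`).  `hA (A '' V) D = hA V D` (`rk_hA_map_eq`), so `vdim`, `vdeg` agree (unfold the definitions: they only depend on the function `hA _`).
* `tm_cone_var`: `Z := zset c.F ⊆ ℂ³` is `IsVar` (`pj_zset_isVar`); with `V = univ`, `G₀ = ∅` (`ph_univ`: `vdim = 3`, `vdeg = 1`): `Z` is the only component of `Zl {F}` (`ph_isCompOf_iff`), `ph_pit`: `vdim Z + 1 = 3`; `ph_bezout_cut`: `vdeg Z ≤ totalDegree F ≤ c.deg` (`IsHomogeneous.totalDegree_le`).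
  `{w | c.Mem w} = c.φ '' Z`; `tm_affine_image` with `b = 0`.
LEAF TM-BASE-C (`tm_not_line`, `tm_dcone_dim`, `tm_cone_eq`, `tm_cone_dense`), ~300 lines.
* `tm_dcone_dim`: `Y' := (· - x) '' Y` is `IsVar` of dimension `1` (`tm_affine_image`, `L = id`, `b = -x`), `Y' ⊆ dcone x Y` (`dep_sub_dcone`, `c = 1`), `dcone x Y` is `IsVar` of dimension `≤ 2` (`dep_dcone_isVar`, `dep_dcone_vdim_le`).
  If `vdim (dcone x Y) ≤ 1` then `Y' = dcone x Y` (`tm_var_eq`), so `Y'` is stable under scalars (`dep_dcone_smul`); take `y ∈ Y`, `y ≠ x` (`Y ≠ {x}`), `v = y - x`: the line `geoFlat 0 (span {v}) ⊆ Y'`, both irreducible of dimension `1` (`geo_flat_isVar`): equal (`tm_var_eq`): contradiction with `hnl`.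
* `tm_cone_eq`: `spCone x Y ⊆ Cone(c)` (`geo_cone_smul`), `Cone(c)` closed (`tm_cone_var`, `ph_zcl_of_isVar`, `ph_zcl_mono`): `dcone x Y ⊆ Cone(c)`; dimensions `2 ≤ 2`: `tm_var_eq`.
-/

set_option autoImplicit false

namespace Claimed.Agent.R273

open MvPolynomial Module

/-! ### TM-BASE-A -/

section gen

variable {ι : Type*} [Fintype ι]

theorem tm_zl_inj (p q : Ideal (MvPolynomial ι ℂ)) (hp : p.IsPrime) (hq : q.IsPrime)
    (h : zeroLocus ℂ p = zeroLocus ℂ q) : p = q := by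
  exact ph_zeroLocus_inj hp hq h

theorem tm_gen_notMem {Y W : Set (ι → ℂ)} (hW : IsVar W) (h : ¬ Y ⊆ W) :
    GenOn Y fun y => y ∉ W := by
  rw [Set.not_subset] at h
  obtain ⟨y₀, hy₀, hyW⟩ := h
  rw [← ph_zcl_of_isVar hW, ph_mem_zcl] at hyW
  push Not at hyW
  obtain ⟨f, hf, hfy⟩ := hyW
  exact ⟨f, ⟨y₀, hy₀, hfy⟩, fun y _ hy hyW => hy (hf y hyW)⟩

theorem tm_var_eq {V V' : Set (ι → ℂ)} (hV : IsVar V) (hV' : IsVar V') (h : V ⊆ V')
    (hd : vdim V' ≤ vdim V) : V = V' := by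
  by_contra hne
  have hns : ¬ V' ⊆ V := fun h' => hne (Set.Subset.antisymm h h')
  obtain ⟨g, ⟨x, hx, hgx⟩, hg⟩ := tm_gen_notMem hV hns
  have := ph_vdim_lt_of_ssubset hV' h g (fun z hz => by
    by_contra hz0
    exact hg z (h hz) hz0 hz) ⟨x, hx, hgx⟩ (ph_isVar_nonempty _ hV)
  omega

theorem tm_curve_finite {Y : Set (ι → ℂ)} (hY : IsVar Y) (h1 : vdim Y = 1) (g : MvPolynomial ι ℂ)
    (hg : ∃ y ∈ Y, eval y g ≠ 0) : {y | y ∈ Y ∧ eval y g = 0}.Finite := by
  obtain ⟨p, hp, hYp⟩ := id hY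
  have hG₀ : Zl (p : Set (MvPolynomial ι ℂ)) = Y := by
    rw [hYp]
    ext x
    rw [ph_mem_zeroLocus]
    rfl
  have h2 : {y | y ∈ Y ∧ eval y g = 0} = Zl (insert g (p : Set (MvPolynomial ι ℂ))) := by
    ext x
    rw [← hG₀]
    constructor
    · rintro ⟨hx, hgx⟩ f hf
      rcases Set.mem_insert_iff.1 hf with rfl | hf
      · exact hgx
      · exact hx f hf
    · intro hx
      exact ⟨fun f hf => hx f (Set.mem_insert_of_mem _ hf), hx g (Set.mem_insert _ _)⟩
  rw [h2, ph_Zl_eq_iUnion_comps]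
  apply Set.Finite.biUnion (ph_comps_finite _)
  intro W hW
  have h3 := ph_pit Y hY _ hG₀ g hg W hW
  obtain ⟨x, rfl⟩ := ph_point_of_vdim_zero W (ph_isCompOf_isVar hW) (by omega)
  exact Set.finite_singleton x

theorem tm_gen_cofinite {Y : Set (ι → ℂ)} (hY : IsVar Y) (h1 : vdim Y = 1) {P : (ι → ℂ) → Prop}
    (h : GenOn Y P) : {y | y ∈ Y ∧ ¬ P y}.Finite := by
  obtain ⟨g, hg, hP⟩ := h
  apply (tm_curve_finite hY h1 g hg).subset
  rintro y ⟨hy, hnP⟩
  refine ⟨hy, ?_⟩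
  by_contra h0
  exact hnP (hP y hy h0)

theorem tm_gen_of_cofinite {Y : Set (ι → ℂ)} (hY : IsVar Y) (h1 : vdim Y = 1)
    {P : (ι → ℂ) → Prop} (h : {y | y ∈ Y ∧ ¬ P y}.Finite) : GenOn Y P := by
  have g1 : GenOn Y fun y => ∀ s ∈ h.toFinset, y ∉ ({s} : Set (ι → ℂ)) := by
    apply geo_gen_finset hY
    intro s _
    apply tm_gen_notMem (ph_point s).1
    intro hsub
    have h2 := ph_vdim_mono hsub
    rw [(ph_point s).2.1, h1] at h2
    omega
  refine geo_gen_mono g1 ?_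
  intro y hy hall
  by_contra hnP
  exact hall y (by rw [Set.Finite.mem_toFinset]; exact ⟨hy, hnP⟩) rfl

theorem tm_curve_inter {Y Y' : Set (ι → ℂ)} (hY : IsVar Y) (h1 : vdim Y = 1) (hY' : IsVar Y')
    (h1' : vdim Y' = 1) (hne : Y ≠ Y') : (Y ∩ Y').Finite := by
  have hns : ¬ Y ⊆ Y' := fun h => hne (tm_var_eq hY hY' h (by omega))
  apply (tm_gen_cofinite hY h1 (tm_gen_notMem hY' hns)).subset
  rintro y ⟨hy, hy'⟩
  exact ⟨hy, fun h => h hy'⟩

/-! ### TM-BASE-B -/

theorem tm_affine_image {κ : Type*} [Fintype κ] (L : (ι → ℂ) →ₗ[ℂ] (κ → ℂ))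
    (hL : Function.Injective L) (b : κ → ℂ) (V : Set (ι → ℂ)) (hV : IsVar V) :
    IsVar ((fun x => L x + b) '' V) ∧ vdim ((fun x => L x + b) '' V) = vdim V ∧
      vdeg ((fun x => L x + b) '' V) = vdeg V := by
  classical
  have hh : hA ((fun x => L x + b) '' V) = hA V := funext fun D => rk_hA_map_eq L hL b V D
  have hdim : vdim ((fun x => L x + b) '' V) = vdim V := by
    unfold vdim
    rw [hh]
  refine ⟨?_, hdim, ?_⟩
  · obtain ⟨L', hL'⟩ := LinearMap.exists_leftInverse_of_injective L (LinearMap.ker_eq_bot.mpr hL)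
    have hinv : ∀ x, L' (L x) = x := fun x => congrArg (fun φ : (ι → ℂ) →ₗ[ℂ] (ι → ℂ) => φ x) hL'
    have hpm : pmap (affPoly L b) = fun x => L x + b := by
      funext x
      funext j
      simp [pmap, rk_eval_affPoly]
    have h1 := ph_isVar_zcl_image hV (affPoly L b)
    rw [hpm] at h1
    have h2 : zcl ((fun x => L x + b) '' V) = (fun x => L x + b) '' V := by
      apply Set.Subset.antisymm _ (ph_subset_zcl _)
      intro y hy
      rw [ph_mem_zcl] at hy
      have hy1 : L (L' y + -(L' b)) + b = y := by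
        funext j
        have := hy (aeval (affPoly L' (-(L' b))) (affPoly L b j) - X j) (by
          rintro _ ⟨x, _, rfl⟩
          rw [map_sub, rk_eval_aeval_affPoly, rk_eval_affPoly, eval_X]
          simp [hinv])
        rw [map_sub, rk_eval_aeval_affPoly, rk_eval_affPoly, eval_X] at this
        exact sub_eq_zero.mp this
      refine ⟨L' y + -(L' b), ?_, hy1⟩
      rw [← ph_zcl_of_isVar hV, ph_mem_zcl]
      intro f hf
      have := hy (aeval (affPoly L' (-(L' b))) f) (by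
        rintro _ ⟨x, hx, rfl⟩
        rw [rk_eval_aeval_affPoly]
        simpa [hinv] using hf x hx)
      rwa [rk_eval_aeval_affPoly] at this
    rwa [h2] at h1
  · unfold vdeg
    rw [hdim, hh]

end gen

variable {d : ℕ}

/-- the cone over an irreducible planar directional curve is an irreducible surface of degree `≤ deg` -/
theorem tm_cone_var (c : PCurve d) (hirr : Irreducible c.F) :
    IsVar {w | c.Mem w} ∧ vdim {w | c.Mem w} = 2 ∧ vdeg {w | c.Mem w} ≤ c.deg := by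
  have h : {w | c.Mem w} = c.φ '' zset c.F := by
    ext w
    constructor
    · rintro ⟨x, hx, hx0⟩
      exact ⟨x, hx0, hx⟩
    · rintro ⟨x, hx0, hx⟩
      exact ⟨x, hx, hx0⟩
  rw [h]
  obtain ⟨⟨h1, h2, _⟩, h3⟩ := scn_cone_one c.φ c.inj c.F c.deg hirr c.hom
  exact ⟨h1, h2, h3⟩

/-! ### TM-BASE-C -/

theorem tm_exists_ne {Y : Set (SpC d)} (h1 : vdim Y = 1) (x : SpC d) :
    ∃ y ∈ Y, y ≠ x := by
  by_contra hall
  push Not at hall
  have h2 := ph_vdim_mono (show Y ⊆ {x} from fun y hy => hall y hy)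
  rw [(ph_point x).2.1, h1] at h2
  omega

/-- a curve whose span does not contain `x`, or whose span has dimension `≥ 2`, does not lie in a line through `x` -/
theorem tm_not_line {Y : Set (SpC d)} (hY : IsVar Y) (h1 : vdim Y = 1) (x : SpC d)
    (h : ¬ InSpan x Y ∨ 2 ≤ finrank ℂ (dirSpan Y)) :
    ¬ ∃ v : SpC d, ∀ y ∈ Y, ∃ t : ℂ, y - x = t • v := by
  rintro ⟨v, hv⟩
  rcases h with h | h
  · apply h
    obtain ⟨y, hy⟩ := ph_isVar_nonempty _ hY
    obtain ⟨y', hy', hne⟩ := tm_exists_ne h1 y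
    obtain ⟨t, ht⟩ := hv y hy
    obtain ⟨t', ht'⟩ := hv y' hy'
    have h2 : y' - y = (t' - t) • v := by
      rw [sub_smul, ← ht, ← ht']; abel
    have h3 : t' - t ≠ 0 := by
      intro h0
      rw [h0, zero_smul, sub_eq_zero] at h2
      exact hne h2
    have h4 : y' - y ∈ dirSpan Y := Submodule.subset_span ⟨y', hy', y, hy, rfl⟩
    have h5 : v ∈ dirSpan Y := by
      have : v = (t' - t)⁻¹ • (y' - y) := by
        rw [h2, smul_smul, inv_mul_cancel₀ h3, one_smul]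
      rw [this]
      exact Submodule.smul_mem _ _ h4
    refine ⟨y, hy, ?_⟩
    have : x - y = (-t) • v := by
      rw [neg_smul, ← ht]; abel
    rw [this]
    exact Submodule.smul_mem _ _ h5
  · have h2 : dirSpan Y ≤ Submodule.span ℂ {v} := by
      unfold dirSpan
      rw [Submodule.span_le]
      rintro _ ⟨y, hy, y', hy', rfl⟩
      obtain ⟨t, ht⟩ := hv y hy
      obtain ⟨t', ht'⟩ := hv y' hy'
      have : y - y' = (t - t') • v := by
        rw [sub_smul, ← ht, ← ht']; abel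
      rw [this]
      exact Submodule.smul_mem _ _ (Submodule.mem_span_singleton_self v)
    have h3 := Submodule.finrank_mono h2
    have h4 := finrank_span_le_card (R := ℂ) ({v} : Set (SpC d))
    simp only [Set.toFinset_singleton, Finset.card_singleton] at h4
    have h5 := h.trans (h3.trans h4)
    omega

theorem tm_dcone_dim {Y : Set (SpC d)} (hY : IsVar Y) (h1 : vdim Y = 1) (x : SpC d)
    (hnl : ¬ ∃ v : SpC d, ∀ y ∈ Y, ∃ t : ℂ, y - x = t • v) : vdim (dcone x Y) = 2 := by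
  have hA := tm_affine_image (LinearMap.id : SpC d →ₗ[ℂ] SpC d) Function.injective_id (-x) Y hY
  set Y' : Set (SpC d) := (fun y => (LinearMap.id : SpC d →ₗ[ℂ] SpC d) y + -x) '' Y with hY'
  have hsub : Y' ⊆ dcone x Y := by
    rintro _ ⟨y, hy, rfl⟩
    have := dep_sub_dcone x Y hy 1
    rw [one_smul] at this
    simpa [sub_eq_add_neg] using this
  have hle := dep_dcone_vdim_le x hY
  by_contra hne
  have heq : Y' = dcone x Y := tm_var_eq hA.1 (dep_dcone_isVar x hY) hsub (by rw [hA.2.1]; omega)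
  obtain ⟨y, hy, hyx⟩ := tm_exists_ne h1 x
  have hv : y - x ≠ 0 := sub_ne_zero.2 hyx
  have hF := geo_flat_isVar (0 : SpC d) (Submodule.span ℂ {y - x})
  rw [finrank_span_singleton hv] at hF
  have hsub2 : geoFlat (0 : SpC d) (Submodule.span ℂ {y - x}) ⊆ Y' := by
    intro w hw
    have hw' : w ∈ Submodule.span ℂ {y - x} := by simpa [geoFlat] using hw
    obtain ⟨t, rfl⟩ := Submodule.mem_span_singleton.1 hw'
    rw [heq]
    exact dep_sub_dcone x Y hy t
  have heq2 := tm_var_eq hF.1 hA.1 hsub2 (by rw [hA.2.1, hF.2.1, h1])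
  apply hnl
  refine ⟨y - x, fun z hz => ?_⟩
  have hz' : z - x ∈ geoFlat (0 : SpC d) (Submodule.span ℂ {y - x}) := by
    rw [heq2]
    exact ⟨z, hz, by simp [sub_eq_add_neg]⟩
  have hz'' : z - x ∈ Submodule.span ℂ {y - x} := by simpa [geoFlat] using hz'
  obtain ⟨t, ht⟩ := Submodule.mem_span_singleton.1 hz''
  exact ⟨t, ht.symm⟩

/-- **the cone over a terminal curve IS the directional cone** -/
theorem tm_cone_eq (c : PCurve d) (hirr : Irreducible c.F) {Y : Set (SpC d)} (hY : IsVar Y)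
    (h1 : vdim Y = 1) (x : SpC d) (hYc : ∀ y ∈ Y, c.Mem (y - x))
    (hnl : ¬ ∃ v : SpC d, ∀ y ∈ Y, ∃ t : ℂ, y - x = t • v) : dcone x Y = {w | c.Mem w} := by
  have hC := tm_cone_var c hirr
  have hsub : dcone x Y ⊆ {w | c.Mem w} := by
    rw [← ph_zcl_of_isVar hC.1]
    apply ph_zcl_mono
    rintro _ ⟨y, hy, t, rfl⟩
    exact geo_cone_smul c (hYc y hy) t
  exact tm_var_eq (dep_dcone_isVar x hY) hC.1 hsub (by rw [hC.2.1, tm_dcone_dim hY h1 x hnl])

/-- density form: a polynomial vanishing on the cone over `Y` vanishes on `Cone(c)` -/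
theorem tm_cone_dense (c : PCurve d) (hirr : Irreducible c.F) {Y : Set (SpC d)} (hY : IsVar Y)
    (h1 : vdim Y = 1) (x : SpC d) (hYc : ∀ y ∈ Y, c.Mem (y - x))
    (hnl : ¬ ∃ v : SpC d, ∀ y ∈ Y, ∃ t : ℂ, y - x = t • v) (g : PrfPol d)
    (hg : ∀ y ∈ Y, ∀ t : ℂ, eval (t • (y - x)) g = 0) : ∀ w, c.Mem w → eval w g = 0 := by
  intro w hw
  have hw' : w ∈ dcone x Y := by rw [tm_cone_eq c hirr hY h1 x hYc hnl]; exact hw
  unfold dcone at hw'
  rw [ph_mem_zcl] at hw'
  apply hw' g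
  rintro _ ⟨y, hy, t, rfl⟩
  exact hg y hy t

end Claimed.Agent.R273
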