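-- KEEP
import Mathlib

/-!
# Row 273, TERM: BLUEPRINT of TF / TP / T3 (below) and the three MATHLIB-ONLY leaves of TP, T3.  Architect helper191.  Prefix `tm_`.

* LEAF TM-STAB (`tm_stab`): the stabiliser bound.  `τ_w u := u + ℓ u • w`.  PROOF.
  (0) SEMI-INVARIANCE: `F_w := F ∘ τ_w` (`aeval (fun i => X i + C (w i) * L) F`, `L = ∑ C (ℓ e_j) X_j`) is a form of degree `e`, nonzero (`τ_w` is invertible: inverse `τ_{-w/(1+ℓ w)}`), vanishing on `Z(F)`; Nullstellensatz (`MvPolynomial.vanishingIdeal_zeroLocus_eq_radical`, `span {F}` is prime since `F` is prime in the UFD):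
      `F ∣ F_w`; equal degrees: `F_w = C a * F`, `a ≠ 0`.  So `𝒲 := {w | 1 + ℓ w ≠ 0 ∧ ∃ a ≠ 0, F ∘ τ_w = a F}` contains `S` and is closed under `w * w' := w' + w + ℓ w' • w` (`τ_w τ_w' = τ_{w * w'}`, `1 + ℓ (w * w') = (1 + ℓ w)(1 + ℓ w')`) and inverses.
  (1) a 2-dimensional subspace is not contained in `Z(F)`: if `F = 0` on `ker m`, `m ≠ 0` linear, then `m ∣ F` (Nullstellensatz for the prime `span {m}`, or a linear change of coordinates), so `F` is associated to `m`, `e = 1`.  Consequently `Z(F) ⊄ ker m₁ ∪ ker m₂` for nonzero linear forms (`F ∣ (m₁ m₂)^k`, `F` prime).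
  (2) NO TRANSVECTIONS: `w ∈ 𝒲`, `ℓ w = 0` ⇒ `w = 0`.  Take `u ∈ Z(F)` with `ℓ u ≠ 0` (1).  `τ_w^n u = u + n ℓ u • w ∈ Z(F)` for all `n`, so the polynomial `s ↦ F(u + s • w)` vanishes identically; by homogeneity `F = 0` on `span {u, w}`, 2-dimensional if `w ≠ 0`: contradiction with (1).
  (3) COMMUTATIVITY: for `w, w' ∈ 𝒲` the commutator is `τ_{w''}` with `1 + ℓ w'' = 1`, so `w'' = 0` by (2): `w * w' = w' * w`, i.e. `ℓ w' • w = ℓ w • w'`.  For nonzero `w, w' ∈ 𝒲`: `ℓ w, ℓ w' ≠ 0` by (2), so `w' ∈ ℂ w`.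
  (4) COUNT: if `S ⊆ {0}` done (`e ≥ 2`).  Otherwise fix `w₀ ∈ S`, `w₀ ≠ 0`; every `w ∈ S` is `s_w • w₀`.  Take `u ∈ Z(F)` with `ℓ u ≠ 0` and `u ∉ ℂ w₀` ((1) with `m₁ = ℓ`, `m₂` a form with `m₂ w₀ = 0`..; or: `Z(F) ⊆ ker ℓ ∪ ℂ w₀ ⊆ ker ℓ ∪ ker m₂`).
      `p(s) := F(u + s ℓ u • w₀)` is a polynomial of degree `≤ e` in `s`, not identically zero ((1) again), with the roots `s_w`, `w ∈ S`, pairwise distinct.
* LEAF TM-PAIR (`tm_sum_le_list`, `tm_pair_count`).  Groups at `x`: `𝒢_x := image (grp x) {i | (x,i) ∈ V}`, `W_{x,g} := ∑ n i` over the group.  `∑_V n = ∑_x ∑_{g ∈ 𝒢_x} W`.  LIGHT `W ≤ 2 K₀ e`: total `≤ 2 K₀ E N` (`hbud`).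
  HEAVY: `∑_i n_i² ≤ K₀ e W < W²/2`, so `∑_{i ≠ j in the group} n_i n_j ≥ W²/2`;  `∑_{heavy} W²/(2e) ≤ ∑_{i ≠ j} n_i n_j ∑_{x : same group} 1/e ≤ N²` (`hcen`);  Cauchy-Schwarz (`Finset.sum_mul_sq_le_sq_mul_sq` / `Finset.inner_mul_le_norm_mul_norm`): `(∑_{heavy} W)² ≤ (∑ W²/e)(∑ e) ≤ 2 N² · E N`.
* LEAF TM-TRIPLE (`tm_triple_count`).  The same with triples.  LIGHT `W ≤ 24 K₀ e`.  HEAVY: a triple of the group which is not admissible repeats an index `i` with `Dg i ≤ 4 e`, so `n i ≤ 4 K₀ e`; weight of these triples `≤ 3 · 4 K₀ e W² < W³/2`; admissible weight `≥ W³/2`;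
  `∑_{heavy} W³/(2 e²) ≤ ∑_{i,j,k} n_i n_j n_k ∑_x 1/e² ≤ C₀ N³`;  Hoelder `p = 3`, `q = 3/2` (`Real.inner_le_Lp_mul_Lq`): `∑ W = ∑ (W e^{-2/3}) e^{2/3} ≤ (∑ W³/e²)^{1/3} (∑ e)^{2/3}`.

=====================================================================================================================================
# Row 273, TERM = SpTermStmt d: blueprint of TF, TP, T3 (helper191, 12:00Z).  TL: helper28 + TmLReal.lean.
Frame: GeoTop.lean (GeoTermOn d K, GeoTFStmt, GeoTLStmt, GeoTPStmt, GeoT3Stmt, glue geo_term_of_parts PROVED).  Vocabulary: GeoDefs (GenOn, dirSpan, InSpan, InFlat, ConeIn), GeoGen (GenOn calculus, geo_dich), GeoLin (geoFlat, geo_flat_isVar,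
geo_var_eq_flat), GeoTri (geo_tri), DepDefs/DepAG (dcone, depRoots, DepRootLE, DepHalfGood, dep_dcone_*), Ph* (IsVar, vdim, vdeg, ph_*), SpFrame (SpData, Reg, SpTerm, SpThin).  PCurve: Dir.lean.
Notation: N = D.N, M = dM D.P <= δ A, A = dA D.P = B², E = D.E = δ N / A, Y_y = zeroLocus (cho y), n(𝔶) = #{y ∈ Q | cho y = 𝔶}, Cone(c) = {w | c.Mem w}.

## COMMON (file TmBase.lean; architect of TP states them, T3 imports)
 B1 geo_cone_closed / geo_cone_smul / geo_cone_one (GeoTop.lean, on main soon): Cone(c) = Zl G; c.Mem w -> c.Mem (t • w) (all t); IsVar Y, vdim Y = 1, ConeIn L a Y -> ∃ c ∈ L, ∀ y ∈ Y, c.Mem (y - a).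
 B2 tm_zl_inj: p, q prime, zeroLocus p = zeroLocus q -> p = q (Nullstellensatz).
 B3 tm_sep, tm_mass: z ∈ P.image prfPt has σ, deg σ <= 2 dM P, σ z = 1, σ = 0 on the other sample points (σ = Π_ρ (|x - z|² - ρ²)/(-ρ²), see prft_iso_init plan in PrfTreeAlg.lean);
    T ⊆ P.image prfPt, T ⊆ Y, IsVar Y, vdim Y = 1 -> |T| <= vdeg Y (2 dM P + 1)   (rk_card_le_rkOn_of_sep, ph_up_var).
 B4 tm_affine_image: x ↦ L x + b, L injective linear ℂ^ι -> ℂ^κ, V IsVar: image IsVar (closed: left inverse; irreducible: ph_isVar_zcl_image), same vdim, vdeg (rk_hA_map_eq: hA is the same function).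
 B5 tm_cone_var: Irreducible c.F -> IsVar Cone(c), vdim = 2, vdeg <= c.deg.   (Z(F) ⊆ ℂ³: span{F} prime (UFD), ph_pit / ph_bezout_cut with V = univ, ph_univ; then B4 with L = c.φ.)
 B6 tm_cone_eq: Irreducible c.F, IsVar Y, vdim Y = 1, ∀ y ∈ Y, c.Mem (y - x), Y not contained in a line through x (¬ ∃ v, ∀ y ∈ Y, ∃ t, y - x = t • v) -> dcone x Y = Cone(c).
    (dcone IsVar (dep_dcone_isVar), ⊆ Cone(c) (closed), vdim dcone >= 2: Y - x ⊆ dcone irreducible closed; if equal, Y - x is a cone, contains a whole line ℂ(y - x), equals it (geo_var_eq_flat); so proper, ph_vdim_lt_of_ssubset. Then dcone = Cone(c) by ph_vdim_lt_of_ssubset again.)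
 B7 tm_curve_finite: IsVar Y, vdim Y = 1, g not ≡ 0 on Y -> {y ∈ Y | g y = 0} finite (ph_pit, ph_point_of_vdim_zero, ph_comps_finite, ph_Zl_eq_iUnion_comps); conversely GenOn Y (· ∉ S) for S finite.
 B8 tm_var_eq: V ⊆ V' IsVar, vdim V' <= vdim V -> V = V'.

## TF (ONE LEAF, ~200 lines): geo_TF (hd : 3 <= d) : GeoTFStmt d.
 For fixed y the centres x with (x,y) ∈ Γ satisfy x - y₁ ∈ W := dirSpan Y_y for some y₁ ∈ Y_y, so pairwise differences lie in W (y₁ - y₁' ∈ W); r = finrank W < d.  Caps (D.Reg.caps): r <= 1: 2 δ B²; r = 2: B^{8/3}; 3 <= r < d: B^r <= B^{d-1}.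
 All <= B^{d - 1/3} (B >= 1, δ <= 1/2).  N = B^d.  |Γ| <= N B^{d-1/3} = N² B^{-1/3}, B^{-1/3} = N^{-1/(3d)} <= δ^{1/(3d)} <= ε for δ₀ := min(1/2, ε^{3d}).

## TP (all d >= 3): geo_TP (hd : 3 <= d) : GeoTPStmt d.   Y planar nonlinear (finrank dirSpan = 2), x outside the plane.
 P1 tm_plane_sec: Irreducible c.F, IsVar Y, vdim Y = 1, ∀ y ∈ Y, c.Mem (y - x), ¬ InSpan x Y.  Then ∀ z, InSpan z Y -> c.Mem (z - x) -> z ∈ Y.   (i.e. Y = span(Y) ∩ (x + Cone c).)
    PROOF. g ∈ I(Y); linear functional λ on ℂ^d, λ = 0 on W = dirSpan Y, λ(y₀ - x) = 1 (y₀ - x ∉ W).  G := Σ_{k<=D} λ^{D-k} · homogeneousComponent k (g(x + ·)), homogeneous of degree D, G(w) = g(x + w) if λ w = 1.  G vanishes on spCone x Y, hence on dcone x Y = Cone(c) (B6; "not in a line through x" follows from ¬ InSpan), so g(z) = G(z - x) = 0.  z ∈ zeroLocus (vanishingIdeal Y) = Y.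
 P2 tm_plane_deg: moreover finrank dirSpan Y = 2 -> vdeg Y <= c.deg and 2 <= c.deg.
    (Π = geoFlat y₀ W: IsVar, vdim 2, vdeg 1.  g₀(y) := F(ψ(y - x)), ψ a linear left inverse of c.φ, deg <= c.deg; Π - x ⊆ range c.φ; g₀ ≢ 0 on Π (else Π ⊆ Y by P1, dimension).  Y ⊆ Π ∩ Z(g₀), Y is a component (ph_isVar_subset_comp, ph_pit, B8), ph_bezout_cut.  c.deg = 1: F linear, Cone(c) is a 2-dim subspace containing Y - x, so W + ℂ(y₀ - x) (dim 3) ⊆ it: contradiction.)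
 P3 tm_stab (LEAF, Mathlib only; TmComb.lean ON MAIN): F ∈ ℂ[x₀,x₁,x₂] irreducible form of degree e >= 2, ℓ ≠ 0 linear form, S finite set of w ∈ ℂ³ with 1 + ℓ w ≠ 0 and (F u = 0 -> F (u + ℓ u • w) = 0): |S| <= e.
 P4 tm_centres: Y ≠ Y' planar nonlinear irreducible curves, S finite set of centres, c x (x ∈ S) irreducible, x outside both planes, Y ∪ Y' ⊆ x + Cone(c x).  Then ∀ x₀ ∈ S, |S| <= (c x₀).deg.
    PROOF. F = (c x₀).F, φ = (c x₀).φ, R = range φ (dim 3).  Y - x₀, Y' - x₀ ⊆ R.  λ, λ' : R -> ℂ linear with λ = 1 on Y - x₀ (λ = 0 on dirSpan Y, λ(y₀ - x₀) = 1), λ' = 1 on Y' - x₀.  λ ≠ λ' (else the planes agree and Y = Π ∩ (x₀ + Cone) = Y' by P1).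
    dirSpan Y + dirSpan Y' + ℂ(y₀' - y₀) has dim >= 3 and lies in R and in range (c x).φ: these ranges coincide; so ξ := x - x₀ ∈ R.  λ ξ ≠ 1, λ' ξ ≠ 1 (x outside the planes).
    T_ξ u := (1 - λ' ξ) u + (λ' u - λ u) ξ.  CLAIM F(T_ξ u) = 0 whenever F u = 0.  For u = y - x₀, y ∈ Y, λ' u ≠ λ' ξ: z := x + t (y - x), t = (1 - λ' ξ)/(λ' u - λ' ξ) lies in the plane of Y' and in x + Cone(c x) (geo_cone_smul), so z ∈ Y' (P1 at x) ⊆ x₀ + Cone(c x₀), and T_ξ u = (λ' u - λ' ξ)(z - x₀).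
    λ' u - λ' ξ ≢ 0 on Y - x₀ (else Y lies in a line, or λ' ∝ λ and λ ξ = 1).  ph_isVar_mul: F ∘ T_ξ = 0 on Y - x₀, by homogeneity on spCone x₀ Y, hence on Cone(c x₀) (B6).
    ℓ := λ' - λ, w(ξ) := ξ/(1 - λ' ξ): T_ξ = (1 - λ' ξ)(id + ℓ ⊗ w), 1 + ℓ w = (1 - λ ξ)/(1 - λ' ξ) ≠ 0; ξ ↦ w(ξ) injective (ξ = w/(1 + λ' w)).  Transport to ℂ³ by φ; P3 (e >= 2 by P2).
 P5 tm_pair_count (LEAF, Mathlib only; TmComb.lean ON MAIN): abstract Cauchy-Schwarz count.
 GLUE geo_TP: I := Q.image cho, V := Γ.image (x, cho y), grp x 𝔶 := the c of B1 (Classical.choose), e := deg; mass n(𝔶) <= (2M+1) vdeg <= (2M+1) e (B3, P2); Σ_{groups at x} e <= E (distinct members of the list D.C x; Reg.deg);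
    centres: for 𝔶 ≠ 𝔶' (B2: different sets) S := common valid centres with the same c: |S| <= min deg, so Σ_{x ∈ S} 1/e <= 1.   |Γ| <= Σ_V n <= 2 (2M+1) E N + sqrt(2 E N³) <= 6 δ² N² + sqrt(2δ) N²   (M E = δ... : M <= δ A, E = δ N/A, E/N = δ/A <= δ).

## T3 (d = 3, finrank dirSpan Y = 3): geo_T3 : GeoT3Stmt.
 R1 tm_ray: IsVar Y, vdim Y = 1, vdim (dcone x Y) = 2 -> ∃ t >= 1, ∃ h, (∃ w ∈ dcone x Y, h w ≠ 0) ∧ ∀ w ∈ dcone x Y, h w ≠ 0 -> {z ∈ Y | z ≠ x ∧ ∃ s : ℂ, z - x = s • w} is finite with ncard = t.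
    (ph_gen_fib for V = prodSet Y univ ⊆ ℂ^{3 ⊕ 1}, ψ(y,s) = s (y - x); fibre over w ≠ 0 <-> points of Y \ {x} on ℂ w.)
    R1' transfer: Y' IsVar with dcone x Y' = dcone x Y -> GenOn Y' (fun v => (depRoots x v Y).ncard = t, finite)   (pick (v₀,s₀) with h(s₀ (v₀ - x)) ≠ 0, polynomial v ↦ h(s₀ (v - x))).  With Y' = Y: DepRootLE x Y Y t, so DepHalfGood x Y gives vdeg Y <= 2 t vdeg(dcone) <= 2 t c.deg (B5, B6).
 R2 pj_bad_unique (helper299): IsVar Y, vdim 1, 2 <= finrank dirSpan Y, p₁ ≠ p₂ -> DepHalfGood p₁ Y ∨ DepHalfGood p₂ Y.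
 R3 tm_trisec: Yi, Yj, Yk ⊆ ℂ³ irreducible curves with finrank dirSpan = 3:  GenOn Yi (fun v => ∀ S : Finset (SpC 3 × SpC 3), (∀ z ∈ S, z.1 ∈ Yj ∧ z.2 ∈ Yk ∧ z.1 ≠ v ∧ z.2 ≠ v ∧ (Yj = Yk -> z.1 ≠ z.2) ∧ ∃ c : ℂ, z.2 - v = c • (z.1 - v)) -> S.card <= 4 vdeg Yj vdeg Yk).
    PROOF. GeoTr Yi Yj, GeoTr Yi Yk (geo_not_tr + geo_tan_pin: otherwise a curve lies in a line).  geo_tri: non-planarity excludes the flat alternative, so GenOn (Yi × Yj) (GeoNoRoot Yk); geo_gen_prod_left: for general v, for all but finitely many y ∈ Yj (B7) the line v y contains no point of Yk except v, y.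
    So T_v := {(y,y')} as above is finite (fibres over y finite: Yk is not a line; pairs (y,y), y ∈ Yj ∩ Yk finite if Yj ≠ Yk).  T_v = Z(G_v) ∩ open, G_v = I(Yj)(y) ∪ I(Yk)(y') ∪ 2×2 minors of (y - v, y' - v) (degree 2): a component of Z(G_v) through a point of T_v meets the open set in a dense subset, which is finite: the component is a point: IsoZero (ph_isoZero_iff_comp).  ph_bezout_iso on prodSet Yj Yk (ph_prod_isVar, ph_prod_vdim = 2, ph_prod_vdeg), L = 2.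
 R4 tm_triple_centres: Yi, Yj, Yk as in R3, S finite set of centres, c x irreducible, all three curves ⊆ x + Cone(c x), DepHalfGood x Yj, x Yk;  ADMISSIBLE: (Yi = Yj -> 4 deg < vdeg Yi), (Yi = Yk -> ..), (Yj = Yk -> 4 deg < vdeg Yj).  Then Σ_{x ∈ S} 1/(c x).deg² <= 72.
    PROOF. t_j(x), t_k(x) from R1; vdeg Y_j <= 2 t_j e.  Choose v ∈ Yi general (geo_gen_finset): R1' for (x, Yj), (x, Yk), all x ∈ S; v ∉ S; v on no line through two points of S; v ∉ Yj if Yj ≠ Yi, v ∉ Yk if Yk ≠ Yi; R3.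
    A_x := {(y,y') | y ∈ depRoots x v Yj \ {v}, y' ∈ depRoots x v Yk \ {v}, (Yj = Yk -> y ≠ y')}: collinear with v; A_x pairwise disjoint (a common y ≠ v puts x, x', v on a line).  r_j = t_j - [i=j], r_k = t_k - [i=k]; |A_x| = r_j r_k (j ≠ k) or r_j (r_j - 1).
    admissible => a repeated index has 2 t e >= vdeg > 4 e, t >= 3.  In all five cases |A_x| >= (2/9) t_j t_k >= vdeg Yj vdeg Yk/(18 e²).  Σ_x |A_x| <= 4 vdeg Yj vdeg Yk.
 R5 tm_triple_count (LEAF, Mathlib only; TmComb.lean ON MAIN): abstract Hoelder count.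
 GLUE geo_T3: Γ_bad := {z | ¬ DepHalfGood z.1 Y_{z.2}}: z ↦ z.2 injective on it (R2): <= N <= δ N².  Γ_good: R5 with K₀ = 2M+1, Dg = vdeg, C₀ = 72: <= 24 (2M+1) E N + (144)^{1/3} E^{2/3} N^{5/3};  d = 3: E = δ N^{1/3}, so E^{2/3} N^{5/3} = δ^{2/3} N^{17/9} <= δ^{2/3} N².
-/

set_option autoImplicit false

namespace Claimed.Agent.R273

open scoped Classical
open MvPolynomial

/-! ### TM-STAB -/

theorem tm_eval_smul {F : MvPolynomial (Fin 3) ℂ} {a : ℕ} (hF : F.IsHomogeneous a) (t : ℂ)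
    (v : Fin 3 → ℂ) : eval (t • v) F = t ^ a * eval v F := by
  rw [eval_eq', eval_eq', Finset.mul_sum]
  refine Finset.sum_congr rfl fun d hd => ?_
  have hdeg : ∑ i, d i = a := by
    have := hF (mem_support_iff.mp hd)
    rw [← Finsupp.degree_eq_sum, Finsupp.degree_eq_weight_one]
    exact this
  simp only [Pi.smul_apply, smul_eq_mul, mul_pow, Finset.prod_mul_distrib,
    Finset.prod_pow_eq_pow_sum, hdeg]
  ring

/-- Nullstellensatz for the principal ideal of an irreducible polynomial -/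
theorem tm_null {P G : MvPolynomial (Fin 3) ℂ} (hP : Irreducible P)
    (h : ∀ u : Fin 3 → ℂ, eval u P = 0 → eval u G = 0) : P ∣ G := by
  have hprime : (Ideal.span {P}).IsPrime := (Ideal.span_singleton_prime hP.ne_zero).2 hP.prime
  have h1 : G ∈ vanishingIdeal ℂ (zeroLocus ℂ (Ideal.span {P})) := by
    rw [mem_vanishingIdeal_iff]
    intro x hx
    have h2 := hx P (Ideal.mem_span_singleton_self P)
    rw [aeval_eq_eval] at h2 ⊢
    exact h x h2
  rw [IsPrime.vanishingIdeal_zeroLocus] at h1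
  exact Ideal.mem_span_singleton.1 h1

theorem tm_deg_le_of_dvd {P G : MvPolynomial (Fin 3) ℂ} (h : P ∣ G) (hG : G ≠ 0) :
    P.totalDegree ≤ G.totalDegree := by
  obtain ⟨H, rfl⟩ := h
  rw [totalDegree_mul_of_isDomain (left_ne_zero_of_mul hG) (right_ne_zero_of_mul hG)]
  exact Nat.le_add_right _ _

theorem tm_isUnit_of_deg_zero {a : MvPolynomial (Fin 3) ℂ} (ha : a ≠ 0) (h : a.totalDegree = 0) :
    IsUnit a := by
  rw [isUnit_iff_totalDegree_of_isReduced]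
  refine ⟨isUnit_iff_ne_zero.2 fun h0 => ha ?_, h⟩
  rw [totalDegree_eq_zero_iff_eq_C] at h
  rw [h, h0, map_zero]

/-- a linear form as a polynomial -/
noncomputable def tmLin (m : (Fin 3 → ℂ) →ₗ[ℂ] ℂ) : MvPolynomial (Fin 3) ℂ :=
  ∑ j, C (m fun i => if j = i then 1 else 0) * X j

theorem tm_eval_lin (m : (Fin 3 → ℂ) →ₗ[ℂ] ℂ) (u : Fin 3 → ℂ) : eval u (tmLin m) = m u := by
  rw [LinearMap.pi_apply_eq_sum_univ m u]
  simp [tmLin, mul_comm]

theorem tm_lin_hom (m : (Fin 3 → ℂ) →ₗ[ℂ] ℂ) : (tmLin m).IsHomogeneous 1 :=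
  IsHomogeneous.sum _ _ _ fun _ _ => isHomogeneous_C_mul_X _ _

theorem tm_lin_ne_zero {m : (Fin 3 → ℂ) →ₗ[ℂ] ℂ} (hm : m ≠ 0) : tmLin m ≠ 0 := by
  intro h
  apply hm
  refine LinearMap.ext fun u => ?_
  rw [← tm_eval_lin, h]
  simp

theorem tm_lin_deg {m : (Fin 3 → ℂ) →ₗ[ℂ] ℂ} (hm : m ≠ 0) : (tmLin m).totalDegree = 1 :=
  (tm_lin_hom m).totalDegree (tm_lin_ne_zero hm)

theorem tm_lin_irr {m : (Fin 3 → ℂ) →ₗ[ℂ] ℂ} (hm : m ≠ 0) : Irreducible (tmLin m) := by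
  have hdeg := tm_lin_deg hm
  refine ⟨fun hu => ?_, fun a b hab => ?_⟩
  · rw [isUnit_iff_totalDegree_of_isReduced] at hu
    omega
  · have h0 := tm_lin_ne_zero hm
    rw [hab] at h0 hdeg
    have ha := left_ne_zero_of_mul h0
    have hb := right_ne_zero_of_mul h0
    rw [totalDegree_mul_of_isDomain ha hb] at hdeg
    rcases Nat.eq_zero_or_pos a.totalDegree with h | h
    · exact Or.inl (tm_isUnit_of_deg_zero ha h)
    · exact Or.inr (tm_isUnit_of_deg_zero hb (by omega))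

section stab

variable {F : MvPolynomial (Fin 3) ℂ} {e : ℕ}

/-- the curve is not contained in the union of two lines -/
theorem tm_exists_pt (hF : F.IsHomogeneous e) (hirr : Irreducible F) (he : 2 ≤ e)
    {m₁ m₂ : (Fin 3 → ℂ) →ₗ[ℂ] ℂ} (h1 : m₁ ≠ 0) (h2 : m₂ ≠ 0) :
    ∃ u : Fin 3 → ℂ, eval u F = 0 ∧ m₁ u ≠ 0 ∧ m₂ u ≠ 0 := by
  by_contra hcon
  push Not at hcon
  have hd : F ∣ tmLin m₁ * tmLin m₂ := tm_null hirr fun u hu => by
    rw [map_mul, tm_eval_lin, tm_eval_lin]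
    by_cases h : m₁ u = 0
    · rw [h, zero_mul]
    · rw [hcon u hu h, mul_zero]
  have hdF := hF.totalDegree hirr.ne_zero
  rcases hirr.prime.dvd_or_dvd hd with h | h
  · have := tm_deg_le_of_dvd h (tm_lin_ne_zero h1)
    rw [hdF, tm_lin_deg h1] at this
    omega
  · have := tm_deg_le_of_dvd h (tm_lin_ne_zero h2)
    rw [hdF, tm_lin_deg h2] at this
    omega

/-- the curve contains no line (the cone contains no plane) -/
theorem tm_no_plane (hF : F.IsHomogeneous e) (hirr : Irreducible F) (he : 2 ≤ e)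
    {u w : Fin 3 → ℂ} (hli : LinearIndependent ℂ ![u, w]) :
    ¬ ∀ s t : ℂ, eval (s • u + t • w) F = 0 := by
  intro hall
  have hfr : Module.finrank ℂ (Submodule.span ℂ (Set.range ![u, w])) = 2 := by
    rw [finrank_span_eq_card hli]
    simp
  have hlt : Submodule.span ℂ (Set.range ![u, w]) < ⊤ := by
    rw [lt_top_iff_ne_top]
    intro h
    rw [h, finrank_top, Module.finrank_fin_fun] at hfr
    omega
  obtain ⟨m, hm, hle⟩ := Submodule.exists_le_ker_of_lt_top _ hlt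
  have hk := Module.Dual.finrank_ker_add_one_of_ne_zero (f := m) hm
  rw [Module.finrank_fin_fun] at hk
  have heq : Submodule.span ℂ (Set.range ![u, w]) = LinearMap.ker m :=
    Submodule.eq_of_le_of_finrank_le hle (by omega)
  have hd : tmLin m ∣ F := tm_null (tm_lin_irr hm) fun x hx => by
    rw [tm_eval_lin] at hx
    have hx' : x ∈ Submodule.span ℂ (Set.range ![u, w]) := by
      rw [heq]
      exact hx
    rw [Matrix.range_cons, Matrix.range_cons, Matrix.range_empty, Set.union_empty,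
      Set.singleton_union, Submodule.mem_span_pair] at hx'
    obtain ⟨s, t, rfl⟩ := hx'
    exact hall s t
  obtain ⟨H, hH⟩ := hd
  have hdF := hF.totalDegree hirr.ne_zero
  rcases hirr.isUnit_or_isUnit hH with h | h
  · exact (tm_lin_irr hm).not_isUnit h
  · rw [isUnit_iff_totalDegree_of_isReduced] at h
    have h0 := hirr.ne_zero
    rw [hH] at h0 hdF
    rw [totalDegree_mul_of_isDomain (left_ne_zero_of_mul h0) (right_ne_zero_of_mul h0),
      tm_lin_deg hm, h.2] at hdF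
    omega

/-- restriction of `F` to the affine line `a + s b` -/
noncomputable def tmLine (F : MvPolynomial (Fin 3) ℂ) (a b : Fin 3 → ℂ) : Polynomial ℂ :=
  aeval (fun i => Polynomial.C (a i) + Polynomial.C (b i) * Polynomial.X) F

theorem tm_line_eval (F : MvPolynomial (Fin 3) ℂ) (a b : Fin 3 → ℂ) (s : ℂ) :
    (tmLine F a b).eval s = eval (a + s • b) F := by
  have h := comp_aeval_apply (R := ℂ)
    (f := fun i : Fin 3 => Polynomial.C (a i) + Polynomial.C (b i) * Polynomial.X)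
    (Polynomial.aeval s : Polynomial ℂ →ₐ[ℂ] ℂ) F
  rw [Polynomial.coe_aeval_eq_eval] at h
  rw [tmLine, h, aeval_eq_eval]
  congr 2
  funext i
  rw [Polynomial.eval_add, Polynomial.eval_C, Polynomial.eval_mul, Polynomial.eval_C,
    Polynomial.eval_X, Pi.add_apply, Pi.smul_apply, smul_eq_mul, mul_comm]

theorem tm_line_deg (hF : F.IsHomogeneous e) (a b : Fin 3 → ℂ) : (tmLine F a b).natDegree ≤ e := by
  have h := aeval_natDegree_le (m := e) (n := 1) F hF.totalDegree_le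
    (fun i => Polynomial.C (a i) + Polynomial.C (b i) * Polynomial.X) fun i => by
      compute_degree
  rw [mul_one] at h
  exact h

theorem tm_line_zero (F : MvPolynomial (Fin 3) ℂ) (a b : Fin 3 → ℂ) (T : Set ℂ) (hT : T.Infinite)
    (h : ∀ s ∈ T, eval (a + s • b) F = 0) (s : ℂ) : eval (a + s • b) F = 0 := by
  have h0 : tmLine F a b = 0 := by
    refine Polynomial.eq_zero_of_infinite_isRoot _ (hT.mono fun s hs => ?_)
    change (tmLine F a b).eval s = 0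
    rw [tm_line_eval]
    exact h s hs
  rw [← tm_line_eval, h0, Polynomial.eval_zero]

/-- a line in the cone spans a plane in the cone -/
theorem tm_plane_of_line (hF : F.IsHomogeneous e) {u w : Fin 3 → ℂ}
    (h : ∀ s : ℂ, eval (u + s • w) F = 0) (s t : ℂ) : eval (s • u + t • w) F = 0 := by
  have h1 : ∀ r : ℂ, r ≠ 0 → ∀ t : ℂ, eval (t • w + r • u) F = 0 := by
    intro r hr t
    have : t • w + r • u = r • (u + (t / r) • w) := by
      rw [smul_add, smul_smul, mul_div_cancel₀ _ hr, add_comm]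
    rw [this, tm_eval_smul hF, h, mul_zero]
  rw [add_comm]
  refine tm_line_zero F (t • w) u {0}ᶜ (Set.Finite.infinite_compl (Set.finite_singleton 0)) ?_ s
  intro r hr
  exact h1 r hr t

/-- `u ↦ u + ℓ u • w` is invertible and preserves the curve in both directions -/
def TmStab (F : MvPolynomial (Fin 3) ℂ) (ℓ : (Fin 3 → ℂ) →ₗ[ℂ] ℂ) (w : Fin 3 → ℂ) : Prop :=
  1 + ℓ w ≠ 0 ∧ ∀ u : Fin 3 → ℂ, eval (u + ℓ u • w) F = 0 ↔ eval u F = 0

variable {ℓ : (Fin 3 → ℂ) →ₗ[ℂ] ℂ}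

theorem tm_tau_inv {w : Fin 3 → ℂ} (hw : 1 + ℓ w ≠ 0) (u : Fin 3 → ℂ) :
    (u + ℓ u • (-(1 + ℓ w)⁻¹ • w)) + ℓ (u + ℓ u • (-(1 + ℓ w)⁻¹ • w)) • w = u := by
  have h1 : ℓ (u + ℓ u • (-(1 + ℓ w)⁻¹ • w)) = ℓ u * (1 + ℓ w)⁻¹ := by
    simp only [map_add, map_smul, smul_eq_mul]
    field_simp
    ring
  rw [h1, add_assoc, smul_smul, ← add_smul]
  have : ℓ u * -(1 + ℓ w)⁻¹ + ℓ u * (1 + ℓ w)⁻¹ = 0 := by ring
  rw [this, zero_smul, add_zero]

/-- semi-invariance -/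
theorem tm_semi (hF : F.IsHomogeneous e) (hirr : Irreducible F) {w : Fin 3 → ℂ}
    (hw : 1 + ℓ w ≠ 0) (h : ∀ u : Fin 3 → ℂ, eval u F = 0 → eval (u + ℓ u • w) F = 0) :
    TmStab F ℓ w := by
  set G : MvPolynomial (Fin 3) ℂ := aeval (fun i => X i + C (w i) * tmLin ℓ) F with hG
  have hev : ∀ u, eval u G = eval (u + ℓ u • w) F := by
    intro u
    have h := comp_aeval_apply (R := ℂ) (f := fun i : Fin 3 => X i + C (w i) * tmLin ℓ)
      (aeval u : MvPolynomial (Fin 3) ℂ →ₐ[ℂ] ℂ) F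
    rw [aeval_eq_eval] at h
    rw [hG, h, aeval_eq_eval]
    congr 2
    funext i
    simp [tm_eval_lin, mul_comm]
  have hGh : G.IsHomogeneous e := by
    have := hF.aeval (S := ℂ) (n := 1) (fun i => X i + C (w i) * tmLin ℓ) fun i => by
      refine (isHomogeneous_X ℂ i).add ?_
      have := (isHomogeneous_C (Fin 3) (w i)).mul (tm_lin_hom ℓ)
      simpa using this
    rw [one_mul] at this
    exact this
  have hG0 : G ≠ 0 := by
    intro h0
    apply hirr.ne_zero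
    refine MvPolynomial.funext fun u => ?_
    rw [← tm_tau_inv hw u, ← hev, h0]
    simp
  obtain ⟨H, hH⟩ : F ∣ G := tm_null hirr fun u hu => by
    rw [hev]
    exact h u hu
  have hH0 : H ≠ 0 := by
    rintro rfl
    exact hG0 (by rw [hH, mul_zero])
  have hdeg : H.totalDegree = 0 := by
    have h1 := hGh.totalDegree hG0
    rw [hH, totalDegree_mul_of_isDomain hirr.ne_zero hH0, hF.totalDegree hirr.ne_zero] at h1
    omega
  rw [totalDegree_eq_zero_iff_eq_C] at hdeg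
  have hc : coeff 0 H ≠ 0 := by
    intro h0
    apply hH0
    rw [hdeg, h0, map_zero]
  refine ⟨hw, fun u => ?_⟩
  rw [← hev, hH, hdeg, map_mul, eval_C, mul_eq_zero, or_iff_left hc]

theorem TmStab.mul {w w' : Fin 3 → ℂ} (h : TmStab F ℓ w) (h' : TmStab F ℓ w') :
    TmStab F ℓ (w' + (1 + ℓ w') • w) := by
  refine ⟨?_, fun u => ?_⟩
  · have : 1 + ℓ (w' + (1 + ℓ w') • w) = (1 + ℓ w') * (1 + ℓ w) := by
      simp only [map_add, map_smul, smul_eq_mul]
      ring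
    rw [this]
    exact mul_ne_zero h'.1 h.1
  · rw [← h'.2 u, ← h.2 (u + ℓ u • w')]
    have : u + ℓ u • (w' + (1 + ℓ w') • w) = u + ℓ u • w' + ℓ (u + ℓ u • w') • w := by
      simp only [map_add, map_smul, smul_eq_mul, smul_add, smul_smul, add_smul, one_smul]
      abel
    rw [this]

theorem TmStab.inv {w : Fin 3 → ℂ} (h : TmStab F ℓ w) : TmStab F ℓ (-(1 + ℓ w)⁻¹ • w) := by
  refine ⟨?_, fun u => ?_⟩
  · have : 1 + ℓ (-(1 + ℓ w)⁻¹ • w) = (1 + ℓ w)⁻¹ := by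
      have := h.1
      simp only [map_smul, smul_eq_mul]
      field_simp
      ring
    rw [this]
    exact inv_ne_zero h.1
  · rw [← h.2 (u + ℓ u • (-(1 + ℓ w)⁻¹ • w)), tm_tau_inv h.1]

/-- no transvections -/
theorem tm_no_transvection (hF : F.IsHomogeneous e) (hirr : Irreducible F) (he : 2 ≤ e)
    (hℓ : ℓ ≠ 0) {w : Fin 3 → ℂ} (h : TmStab F ℓ w) (hw : ℓ w = 0) : w = 0 := by
  by_contra hw0
  obtain ⟨u, hu, hlu, -⟩ := tm_exists_pt hF hirr he hℓ hℓ
  have hn : ∀ n : ℕ, eval (u + ((n : ℂ) * ℓ u) • w) F = 0 := by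
    intro n
    induction n with
    | zero => simpa using hu
    | succ n ih =>
      have h1 := (h.2 _).2 ih
      have h2 : u + ((n : ℂ) * ℓ u) • w + ℓ (u + ((n : ℂ) * ℓ u) • w) • w
          = u + (((n + 1 : ℕ) : ℂ) * ℓ u) • w := by
        simp only [map_add, map_smul, smul_eq_mul, hw, mul_zero, add_zero]
        rw [add_assoc, ← add_smul]
        push_cast
        ring_nf
      rwa [h2] at h1
  have hline : ∀ s : ℂ, eval (u + s • w) F = 0 := by
    refine tm_line_zero F u w (Set.range fun n : ℕ => (n : ℂ) * ℓ u) ?_ ?_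
    · refine Set.infinite_range_of_injective fun a b hab => ?_
      have := mul_right_cancel₀ hlu hab
      exact_mod_cast this
    · rintro _ ⟨n, rfl⟩
      exact hn n
  refine tm_no_plane hF hirr he ?_ (tm_plane_of_line hF hline)
  rw [LinearIndependent.pair_iff]
  intro s t hst
  have h1 := congrArg ℓ hst
  simp only [map_add, map_smul, smul_eq_mul, hw, mul_zero, add_zero, map_zero] at h1
  have hs : s = 0 := (mul_eq_zero.1 h1).resolve_right hlu
  rw [hs, zero_smul, zero_add] at hst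
  exact ⟨hs, (smul_eq_zero.1 hst).resolve_right hw0⟩

/-- commutativity -/
theorem tm_comm (hF : F.IsHomogeneous e) (hirr : Irreducible F) (he : 2 ≤ e)
    (hℓ : ℓ ≠ 0) {w w' : Fin 3 → ℂ} (h : TmStab F ℓ w) (h' : TmStab F ℓ w') :
    ℓ w' • w = ℓ w • w' := by
  have ha := h.mul h'
  have hb := h'.mul h
  set a := w' + (1 + ℓ w') • w with hadef
  set b := w + (1 + ℓ w) • w' with hbdef
  have hab : ℓ a = ℓ b := by
    simp only [hadef, hbdef, map_add, map_smul, smul_eq_mul]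
    ring
  have hd := ha.mul hb.inv
  have hb1 := hb.1
  have h1 : 1 + ℓ (-(1 + ℓ b)⁻¹ • b) = (1 + ℓ b)⁻¹ := by
    simp only [map_smul, smul_eq_mul]
    field_simp
    ring
  rw [h1] at hd
  have h2 : -(1 + ℓ b)⁻¹ • b + (1 + ℓ b)⁻¹ • a = (1 + ℓ b)⁻¹ • (a - b) := by
    rw [smul_sub, neg_smul]
    abel
  rw [h2] at hd
  have h3 := tm_no_transvection hF hirr he hℓ hd (by
    simp only [map_smul, map_sub, hab, sub_self, smul_eq_mul, mul_zero])
  have h4 : a - b = 0 := (smul_eq_zero.1 h3).resolve_left (inv_ne_zero hb1)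
  have h5 : a - b = ℓ w' • w - ℓ w • w' := by
    simp only [hadef, hbdef, add_smul, one_smul]
    abel
  rw [h5] at h4
  exact sub_eq_zero.1 h4

end stab

/-- **stabiliser bound**: at most `e` maps `u ↦ u + ℓ(u) w` (axis `ker ℓ`) preserve an irreducible plane curve of degree `e ≥ 2` -/
theorem tm_stab (F : MvPolynomial (Fin 3) ℂ) (e : ℕ) (hF : F.IsHomogeneous e) (hirr : Irreducible F)
    (he : 2 ≤ e) (ℓ : (Fin 3 → ℂ) →ₗ[ℂ] ℂ) (hℓ : ℓ ≠ 0) (S : Finset (Fin 3 → ℂ))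
    (hS : ∀ w ∈ S, 1 + ℓ w ≠ 0 ∧ ∀ u : Fin 3 → ℂ, eval u F = 0 → eval (u + ℓ u • w) F = 0) :
    S.card ≤ e := by
  have hst : ∀ w ∈ S, TmStab F ℓ w := fun w hw => tm_semi hF hirr (hS w hw).1 (hS w hw).2
  by_cases hall : ∀ w ∈ S, w = 0
  · have : S ⊆ {0} := fun w hw => Finset.mem_singleton.2 (hall w hw)
    have := Finset.card_le_card this
    rw [Finset.card_singleton] at this
    omega
  push Not at hall
  obtain ⟨w₀, hw₀S, hw₀⟩ := hall
  have hl0 : ℓ w₀ ≠ 0 := fun h => hw₀ (tm_no_transvection hF hirr he hℓ (hst w₀ hw₀S) h)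
  have hprop : ∀ w ∈ S, w = (ℓ w / ℓ w₀) • w₀ := by
    intro w hw
    have := tm_comm hF hirr he hℓ (hst w hw) (hst w₀ hw₀S)
    rw [div_eq_inv_mul, ← smul_smul, ← this, smul_smul, inv_mul_cancel₀ hl0, one_smul]
  have hlt : Submodule.span ℂ {w₀} < ⊤ := by
    rw [lt_top_iff_ne_top]
    intro h
    have h1 := finrank_span_singleton (K := ℂ) hw₀
    rw [h, finrank_top, Module.finrank_fin_fun] at h1
    omega
  obtain ⟨m, hm, hle⟩ := Submodule.exists_le_ker_of_lt_top _ hlt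
  have hmw : m w₀ = 0 := hle (Submodule.mem_span_singleton_self w₀)
  obtain ⟨u, hu, hlu, hmu⟩ := tm_exists_pt hF hirr he hℓ hm
  have hp0 : tmLine F u (ℓ u • w₀) ≠ 0 := by
    intro h0
    have hline : ∀ s : ℂ, eval (u + s • (ℓ u • w₀)) F = 0 := by
      intro s
      rw [← tm_line_eval, h0, Polynomial.eval_zero]
    refine tm_no_plane hF hirr he ?_ (tm_plane_of_line hF hline)
    rw [LinearIndependent.pair_iff]
    intro s t hst'
    have h1 := congrArg m hst'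
    simp only [map_add, map_smul, smul_eq_mul, hmw, mul_zero, add_zero, map_zero] at h1
    have hs : s = 0 := (mul_eq_zero.1 h1).resolve_right hmu
    rw [hs, zero_smul, zero_add] at hst'
    exact ⟨hs, (smul_eq_zero.1 hst').resolve_right (smul_ne_zero hlu hw₀)⟩
  calc S.card ≤ (tmLine F u (ℓ u • w₀)).roots.toFinset.card := by
        refine Finset.card_le_card_of_injOn (fun w => ℓ w / ℓ w₀) ?_ ?_
        · intro w hw
          rw [Finset.mem_coe, Multiset.mem_toFinset, Polynomial.mem_roots hp0, Polynomial.IsRoot.def,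
            tm_line_eval, smul_comm, ← hprop w hw]
          exact ((hst w hw).2 u).2 hu
        · intro w hw w' hw' hww
          rw [hprop w hw, hprop w' hw']
          exact congrArg (· • w₀) hww
    _ ≤ Multiset.card (tmLine F u (ℓ u • w₀)).roots := Multiset.toFinset_card_le _
    _ ≤ (tmLine F u (ℓ u • w₀)).natDegree := Polynomial.card_roots' _
    _ ≤ e := tm_line_deg hF _ _

/-! ### TM-PAIR -/

/-- the sum over distinct members of a list is at most the sum over the list -/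
theorem tm_sum_le_list {γ : Type} (l : List γ) (f : γ → ℕ) (G : Finset γ) (hG : ∀ g ∈ G, g ∈ l) :
    ∑ g ∈ G, f g ≤ (l.map f).sum := by
  induction l generalizing G with
  | nil =>
    have : G = ∅ := Finset.eq_empty_of_forall_notMem fun g hg => by simpa using hG g hg
    simp [this]
  | cons a t ih =>
    rw [List.map_cons, List.sum_cons]
    by_cases ha : a ∈ G
    · rw [← Finset.add_sum_erase G f ha]
      refine Nat.add_le_add_left (ih (G.erase a) fun g hg => ?_) _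
      have h1 := hG g (Finset.mem_of_mem_erase hg)
      rcases List.mem_cons.1 h1 with h2 | h2
      · exact absurd h2 (Finset.ne_of_mem_erase hg)
      · exact h2
    · refine le_trans (ih G fun g hg => ?_) (Nat.le_add_left _ _)
      rcases List.mem_cons.1 (hG g hg) with h2 | h2
      · exact absurd (h2 ▸ hg) ha
      · exact h2

section groups

variable {α β γ : Type}

/-- the members at `x` -/
noncomputable def tmIx (I : Finset β) (V : Finset (α × β)) (x : α) : Finset β :=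
  I.filter fun i => (x, i) ∈ V

/-- the groups at `x` -/
noncomputable def tmGx (I : Finset β) (V : Finset (α × β)) (grp : α → β → γ) (x : α) : Finset γ :=
  (tmIx I V x).image (grp x)

/-- the members of the group `g` at `x` -/
noncomputable def tmM (I : Finset β) (V : Finset (α × β)) (grp : α → β → γ) (x : α) (g : γ) :
    Finset β :=
  (tmIx I V x).filter fun i => grp x i = g

variable {X : Finset α} {I : Finset β} {V : Finset (α × β)} {grp : α → β → γ}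

theorem tm_mem_M {x : α} {g : γ} {i : β} :
    i ∈ tmM I V grp x g ↔ i ∈ I ∧ (x, i) ∈ V ∧ grp x i = g := by
  simp [tmM, tmIx, and_assoc]

theorem tm_mem_Gx {x : α} {g : γ} : g ∈ tmGx I V grp x ↔ ∃ i ∈ I, (x, i) ∈ V ∧ grp x i = g := by
  simp [tmGx, tmIx, and_assoc]

theorem tm_sum_Ix (x : α) (f : β → ℝ) :
    ∑ i ∈ tmIx I V x, f i = ∑ i ∈ I, if (x, i) ∈ V then f i else 0 := by
  rw [tmIx, Finset.sum_filter]

theorem tm_sum_M (x : α) (g : γ) (f : β → ℝ) :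
    ∑ i ∈ tmM I V grp x g, f i = ∑ i ∈ I, if ((x, i) ∈ V ∧ grp x i = g) then f i else 0 := by
  rw [tmM, tmIx, Finset.filter_filter, Finset.sum_filter]

/-- sums over `V` as iterated sums -/
theorem tm_sum_V (hV : V ⊆ X ×ˢ I) (f : α → β → ℝ) :
    ∑ z ∈ V, f z.1 z.2 = ∑ x ∈ X, ∑ i ∈ tmIx I V x, f x i := by
  have h1 : V = (X ×ˢ I).filter fun z => z ∈ V := by
    ext z
    simp only [Finset.mem_filter]
    exact ⟨fun h => ⟨hV h, h⟩, fun h => h.2⟩
  conv_lhs => rw [h1]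
  rw [Finset.sum_filter, Finset.sum_product]
  exact Finset.sum_congr rfl fun x _ => (tm_sum_Ix x _).symm

/-- a sum over the groups and their members is a sum over the members -/
theorem tm_collapse (x : α) (H : γ → β → ℝ) :
    ∑ g ∈ tmGx I V grp x, ∑ i ∈ tmM I V grp x g, H g i = ∑ i ∈ tmIx I V x, H (grp x i) i := by
  rw [← Finset.sum_fiberwise_of_maps_to (s := tmIx I V x) (t := tmGx I V grp x) (g := grp x)
    (fun i hi => Finset.mem_image_of_mem _ hi)]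
  refine Finset.sum_congr rfl fun g _ => ?_
  refine Finset.sum_congr rfl fun i hi => ?_
  rw [(Finset.mem_filter.1 hi).2]

theorem tm_sum_groups (hV : V ⊆ X ×ˢ I) (n : β → ℝ) :
    ∑ z ∈ V, n z.2 = ∑ x ∈ X, ∑ g ∈ tmGx I V grp x, ∑ i ∈ tmM I V grp x g, n i := by
  rw [tm_sum_V hV fun _ i => n i]
  exact Finset.sum_congr rfl fun x _ => (tm_collapse x fun _ i => n i).symm

theorem tm_regroup2 (F : α → γ → β → β → ℝ) :
    ∑ x ∈ X, ∑ g ∈ tmGx I V grp x, ∑ i ∈ tmM I V grp x g, ∑ j ∈ tmM I V grp x g, F x g i j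
      = ∑ i ∈ I, ∑ j ∈ I,
          ∑ x ∈ X.filter (fun x => (x, i) ∈ V ∧ (x, j) ∈ V ∧ grp x i = grp x j),
            F x (grp x i) i j := by
  have h1 : ∀ x, ∑ g ∈ tmGx I V grp x, ∑ i ∈ tmM I V grp x g, ∑ j ∈ tmM I V grp x g, F x g i j
      = ∑ i ∈ I, ∑ j ∈ I, if ((x, i) ∈ V ∧ (x, j) ∈ V ∧ grp x i = grp x j)
          then F x (grp x i) i j else 0 := by
    intro x
    rw [tm_collapse x fun g i => ∑ j ∈ tmM I V grp x g, F x g i j, tm_sum_Ix]
    refine Finset.sum_congr rfl fun i _ => ?_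
    rw [tm_sum_M]
    by_cases hi : (x, i) ∈ V
    · rw [if_pos hi]
      refine Finset.sum_congr rfl fun j _ => ?_
      simp only [hi, true_and, eq_comm]
    · rw [if_neg hi]
      symm
      refine Finset.sum_eq_zero fun j _ => ?_
      rw [if_neg]
      tauto
  simp only [h1]
  rw [Finset.sum_comm]
  refine Finset.sum_congr rfl fun i _ => ?_
  rw [Finset.sum_comm]
  refine Finset.sum_congr rfl fun j _ => ?_
  rw [Finset.sum_filter]

theorem tm_regroup3 (F : α → γ → β → β → β → ℝ) :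
    ∑ x ∈ X, ∑ g ∈ tmGx I V grp x, ∑ i ∈ tmM I V grp x g, ∑ j ∈ tmM I V grp x g,
        ∑ k ∈ tmM I V grp x g, F x g i j k
      = ∑ i ∈ I, ∑ j ∈ I, ∑ k ∈ I,
          ∑ x ∈ X.filter (fun x => (x, i) ∈ V ∧ (x, j) ∈ V ∧ (x, k) ∈ V ∧ grp x i = grp x j ∧
            grp x i = grp x k), F x (grp x i) i j k := by
  have h1 : ∀ x, ∑ g ∈ tmGx I V grp x, ∑ i ∈ tmM I V grp x g, ∑ j ∈ tmM I V grp x g,
        ∑ k ∈ tmM I V grp x g, F x g i j k
      = ∑ i ∈ I, ∑ j ∈ I, ∑ k ∈ I, if ((x, i) ∈ V ∧ (x, j) ∈ V ∧ (x, k) ∈ V ∧ grp x i = grp x j ∧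
            grp x i = grp x k) then F x (grp x i) i j k else 0 := by
    intro x
    rw [tm_collapse x fun g i => ∑ j ∈ tmM I V grp x g, ∑ k ∈ tmM I V grp x g, F x g i j k,
      tm_sum_Ix]
    refine Finset.sum_congr rfl fun i _ => ?_
    rw [tm_sum_M]
    by_cases hi : (x, i) ∈ V
    · rw [if_pos hi]
      refine Finset.sum_congr rfl fun j _ => ?_
      rw [tm_sum_M]
      by_cases hj : (x, j) ∈ V ∧ grp x j = grp x i
      · rw [if_pos hj]
        refine Finset.sum_congr rfl fun k _ => ?_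
        simp only [hi, hj.1, hj.2, true_and, eq_comm]
      · rw [if_neg hj]
        symm
        refine Finset.sum_eq_zero fun k _ => ?_
        rw [if_neg]
        intro h
        exact hj ⟨h.2.1, h.2.2.2.1.symm⟩
    · rw [if_neg hi]
      symm
      refine Finset.sum_eq_zero fun j _ => Finset.sum_eq_zero fun k _ => ?_
      rw [if_neg]
      tauto
  simp only [h1]
  rw [Finset.sum_comm]
  refine Finset.sum_congr rfl fun i _ => ?_
  rw [Finset.sum_comm]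
  refine Finset.sum_congr rfl fun j _ => ?_
  rw [Finset.sum_comm]
  refine Finset.sum_congr rfl fun k _ => ?_
  rw [Finset.sum_filter]

/-- the budget of all groups -/
theorem tm_budget (e : α → γ → ℝ) {N E : ℝ} (hX : (X.card : ℝ) ≤ N) (hE : 0 ≤ E)
    (hbud : ∀ x ∈ X, ∀ G : Finset γ, (∀ g ∈ G, ∃ i, (x, i) ∈ V ∧ grp x i = g) →
      ∑ g ∈ G, e x g ≤ E) :
    ∑ x ∈ X, ∑ g ∈ tmGx I V grp x, e x g ≤ E * N := by
  calc ∑ x ∈ X, ∑ g ∈ tmGx I V grp x, e x g ≤ ∑ _x ∈ X, E :=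
        Finset.sum_le_sum fun x hx => hbud x hx _ fun g hg => by
          obtain ⟨i, -, h1, h2⟩ := tm_mem_Gx.1 hg
          exact ⟨i, h1, h2⟩
    _ = X.card * E := by rw [Finset.sum_const, nsmul_eq_mul]
    _ ≤ E * N := by
        rw [mul_comm]
        exact mul_le_mul_of_nonneg_left hX hE

end groups

/-- abstract Cauchy-Schwarz count over groups -/
theorem tm_cs_groups {ι : Type} (P : Finset ι) (W e Q : ι → ℝ) (K₀ B N : ℝ) (hK : 0 ≤ K₀)
    (he : ∀ p ∈ P, 1 ≤ e p) (hB : ∑ p ∈ P, e p ≤ B)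
    (hQ0 : ∀ p ∈ P, 0 ≤ Q p) (hQ : ∀ p ∈ P, 2 * K₀ * e p < W p → W p ^ 2 / 2 ≤ Q p)
    (hQs : ∑ p ∈ P, Q p / e p ≤ N ^ 2) :
    ∑ p ∈ P, W p ≤ 2 * K₀ * B + Real.sqrt (2 * B * N ^ 2) := by
  have he0 : ∀ p ∈ P, 0 < e p := fun p hp => lt_of_lt_of_le one_pos (he p hp)
  rw [← Finset.sum_filter_add_sum_filter_not P (fun p => W p ≤ 2 * K₀ * e p)]
  refine add_le_add ?_ ?_
  · calc ∑ p ∈ P.filter (fun p => W p ≤ 2 * K₀ * e p), W p
        ≤ ∑ p ∈ P.filter (fun p => W p ≤ 2 * K₀ * e p), 2 * K₀ * e p :=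
          Finset.sum_le_sum fun p hp => (Finset.mem_filter.1 hp).2
      _ ≤ ∑ p ∈ P, 2 * K₀ * e p :=
          Finset.sum_le_sum_of_subset_of_nonneg (Finset.filter_subset _ _) fun p hp _ =>
            mul_nonneg (mul_nonneg zero_le_two hK) (he0 p hp).le
      _ = 2 * K₀ * ∑ p ∈ P, e p := by rw [Finset.mul_sum]
      _ ≤ 2 * K₀ * B := mul_le_mul_of_nonneg_left hB (mul_nonneg zero_le_two hK)
  · set H := P.filter (fun p => ¬ W p ≤ 2 * K₀ * e p) with hH
    have hHP : H ⊆ P := Finset.filter_subset _ _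
    refine le_trans (le_abs_self _) (Real.abs_le_sqrt ?_)
    have hcs := Finset.sum_mul_sq_le_sq_mul_sq H (fun p => W p / Real.sqrt (e p))
      (fun p => Real.sqrt (e p))
    have e1 : ∑ p ∈ H, W p / Real.sqrt (e p) * Real.sqrt (e p) = ∑ p ∈ H, W p :=
      Finset.sum_congr rfl fun p hp =>
        div_mul_cancel₀ _ (Real.sqrt_pos.2 (he0 p (hHP hp))).ne'
    have e2 : ∑ p ∈ H, (W p / Real.sqrt (e p)) ^ 2 = ∑ p ∈ H, W p ^ 2 / e p :=
      Finset.sum_congr rfl fun p hp => by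
        rw [div_pow, Real.sq_sqrt (he0 p (hHP hp)).le]
    have e3 : ∑ p ∈ H, Real.sqrt (e p) ^ 2 = ∑ p ∈ H, e p :=
      Finset.sum_congr rfl fun p hp => Real.sq_sqrt (he0 p (hHP hp)).le
    rw [e1, e2, e3] at hcs
    have h1 : ∑ p ∈ H, W p ^ 2 / e p ≤ 2 * N ^ 2 := by
      calc ∑ p ∈ H, W p ^ 2 / e p ≤ ∑ p ∈ H, 2 * (Q p / e p) :=
            Finset.sum_le_sum fun p hp => by
              have hp' := Finset.mem_filter.1 hp
              have h2 := hQ p hp'.1 (not_le.1 hp'.2)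
              rw [← mul_div_assoc]
              exact div_le_div_of_nonneg_right (by linarith) (he0 p hp'.1).le
        _ ≤ ∑ p ∈ P, 2 * (Q p / e p) :=
            Finset.sum_le_sum_of_subset_of_nonneg hHP fun p hp _ =>
              mul_nonneg zero_le_two (div_nonneg (hQ0 p hp) (he0 p hp).le)
        _ = 2 * ∑ p ∈ P, Q p / e p := by rw [Finset.mul_sum]
        _ ≤ 2 * N ^ 2 := by linarith
    have h2 : ∑ p ∈ H, e p ≤ B :=
      le_trans (Finset.sum_le_sum_of_subset_of_nonneg hHP fun p hp _ => (he0 p hp).le) hB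
    have h3 : 0 ≤ ∑ p ∈ H, e p := Finset.sum_nonneg fun p hp => (he0 p (hHP hp)).le
    calc (∑ p ∈ H, W p) ^ 2 ≤ (∑ p ∈ H, W p ^ 2 / e p) * ∑ p ∈ H, e p := hcs
      _ ≤ (2 * N ^ 2) * B := mul_le_mul h1 h2 h3 (by positivity)
      _ = 2 * B * N ^ 2 := by ring

/-- in a heavy group the off-diagonal pairs carry half of the weight -/
theorem tm_heavy2 {β : Type} (M : Finset β) (n : β → ℝ) (c : ℝ) (hn0 : ∀ i ∈ M, 0 ≤ n i)
    (hc : ∀ i ∈ M, n i ≤ c) (hW : 2 * c < ∑ i ∈ M, n i) :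
    (∑ i ∈ M, n i) ^ 2 / 2 ≤ ∑ i ∈ M, ∑ j ∈ M, if i ≠ j then n i * n j else 0 := by
  set W := ∑ i ∈ M, n i with hWdef
  have hW0 : 0 ≤ W := Finset.sum_nonneg hn0
  have h1 : W ^ 2 = (∑ i ∈ M, ∑ j ∈ M, if i ≠ j then n i * n j else 0) + ∑ i ∈ M, n i ^ 2 := by
    rw [sq, hWdef, Finset.sum_mul_sum, ← Finset.sum_add_distrib]
    refine Finset.sum_congr rfl fun i hi => ?_
    have h2 : n i ^ 2 = ∑ j ∈ M, if i = j then n i * n j else 0 := by
      rw [Finset.sum_ite_eq, if_pos hi, sq]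
    rw [h2, ← Finset.sum_add_distrib]
    refine Finset.sum_congr rfl fun j _ => ?_
    by_cases hij : i = j
    · simp [hij]
    · simp [hij]
  have h2 : ∑ i ∈ M, n i ^ 2 ≤ c * W := by
    rw [hWdef, Finset.mul_sum]
    refine Finset.sum_le_sum fun i hi => ?_
    rw [sq]
    exact mul_le_mul_of_nonneg_right (hc i hi) (hn0 i hi)
  nlinarith

/-- **pair count** (nonlinear planar curves) -/
theorem tm_pair_count {α β γ : Type} (X : Finset α) (I : Finset β) (V : Finset (α × β)) (n : β → ℝ)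
    (grp : α → β → γ) (e : α → γ → ℝ) (N K₀ E : ℝ) (hV : V ⊆ X ×ˢ I) (hX : (X.card : ℝ) ≤ N)
    (hn0 : ∀ i ∈ I, 0 ≤ n i) (hn : ∑ i ∈ I, n i ≤ N) (hK : 0 ≤ K₀) (hE : 0 ≤ E)
    (he : ∀ z ∈ V, 1 ≤ e z.1 (grp z.1 z.2))
    (hbud : ∀ x ∈ X, ∀ G : Finset γ, (∀ g ∈ G, ∃ i, (x, i) ∈ V ∧ grp x i = g) →
      ∑ g ∈ G, e x g ≤ E)
    (hmass : ∀ z ∈ V, n z.2 ≤ K₀ * e z.1 (grp z.1 z.2))
    (hcen : ∀ i ∈ I, ∀ j ∈ I, i ≠ j →
      ∑ x ∈ X.filter (fun x => (x, i) ∈ V ∧ (x, j) ∈ V ∧ grp x i = grp x j),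
        1 / e x (grp x i) ≤ 1) :
    ∑ z ∈ V, n z.2 ≤ 2 * K₀ * E * N + Real.sqrt (2 * E * N ^ 3) := by
  have hN : 0 ≤ N := le_trans (Nat.cast_nonneg _) hX
  have hS0 : 0 ≤ ∑ i ∈ I, n i := Finset.sum_nonneg hn0
  have hMI : ∀ (x : α) (g : γ), ∀ i ∈ tmM I V grp x g, 0 ≤ n i := fun x g i hi =>
    hn0 i (tm_mem_M.1 hi).1
  have key := tm_cs_groups (X.sigma fun x => tmGx I V grp x)
    (fun p => ∑ i ∈ tmM I V grp p.1 p.2, n i) (fun p => e p.1 p.2)
    (fun p => ∑ i ∈ tmM I V grp p.1 p.2, ∑ j ∈ tmM I V grp p.1 p.2,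
      if i ≠ j then n i * n j else 0) K₀ (E * N) N hK ?_ ?_ ?_ ?_ ?_
  · rw [tm_sum_groups (X := X) (grp := grp) hV n, Finset.sum_sigma']
    refine key.trans (le_of_eq ?_)
    congr 1
    · ring
    · congr 1
      ring
  · rintro ⟨x, g⟩ hp
    obtain ⟨i, -, h1, h2⟩ := tm_mem_Gx.1 (Finset.mem_sigma.1 hp).2
    have := he (x, i) h1
    simp only [] at this h2 ⊢
    rwa [h2] at this
  · rw [← Finset.sum_sigma' X (fun x => tmGx I V grp x) fun x g => e x g]
    exact tm_budget e hX hE hbud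
  · rintro ⟨x, g⟩ -
    refine Finset.sum_nonneg fun i hi => Finset.sum_nonneg fun j hj => ?_
    split_ifs
    · exact mul_nonneg (hMI x g i hi) (hMI x g j hj)
    · exact le_rfl
  · rintro ⟨x, g⟩ - hW
    refine tm_heavy2 _ n (K₀ * e x g) (hMI x g) (fun i hi => ?_) (by simpa [mul_assoc] using hW)
    obtain ⟨-, h1, h2⟩ := tm_mem_M.1 hi
    have := hmass (x, i) h1
    simp only [] at this
    rwa [h2] at this
  · rw [← Finset.sum_sigma' X (fun x => tmGx I V grp x) fun x g =>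
      (∑ i ∈ tmM I V grp x g, ∑ j ∈ tmM I V grp x g, if i ≠ j then n i * n j else 0) / e x g]
    have e1 : ∀ (x : α) (g : γ),
        (∑ i ∈ tmM I V grp x g, ∑ j ∈ tmM I V grp x g, if i ≠ j then n i * n j else 0) / e x g =
        ∑ i ∈ tmM I V grp x g, ∑ j ∈ tmM I V grp x g,
          (if i ≠ j then n i * n j else 0) * (1 / e x g) := by
      intro x g
      rw [div_eq_mul_one_div, Finset.sum_mul]
      exact Finset.sum_congr rfl fun i _ => Finset.sum_mul _ _ _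
    simp only [e1]
    rw [tm_regroup2 fun x g i j => (if i ≠ j then n i * n j else 0) * (1 / e x g)]
    calc ∑ i ∈ I, ∑ j ∈ I,
          ∑ x ∈ X.filter (fun x => (x, i) ∈ V ∧ (x, j) ∈ V ∧ grp x i = grp x j),
            (if i ≠ j then n i * n j else 0) * (1 / e x (grp x i))
        ≤ ∑ i ∈ I, ∑ j ∈ I, n i * n j := by
          refine Finset.sum_le_sum fun i hi => Finset.sum_le_sum fun j hj => ?_
          rw [← Finset.mul_sum]
          by_cases hij : i = j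
          · rw [if_neg (not_not.2 hij), zero_mul]
            exact mul_nonneg (hn0 i hi) (hn0 j hj)
          · rw [if_pos hij]
            calc n i * n j * _ ≤ n i * n j * 1 :=
                  mul_le_mul_of_nonneg_left (hcen i hi j hj hij)
                    (mul_nonneg (hn0 i hi) (hn0 j hj))
              _ = n i * n j := mul_one _
      _ = (∑ i ∈ I, n i) ^ 2 := by rw [sq, Finset.sum_mul_sum]
      _ ≤ N ^ 2 := pow_le_pow_left₀ hS0 hn 2

/-! ### TM-TRIPLE -/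

/-- abstract Hoelder count over groups -/
theorem tm_holder_groups {ι : Type} (P : Finset ι) (W e Q : ι → ℝ) (K₁ B M : ℝ) (hK : 0 ≤ K₁)
    (he : ∀ p ∈ P, 1 ≤ e p) (hB : ∑ p ∈ P, e p ≤ B)
    (hQ0 : ∀ p ∈ P, 0 ≤ Q p) (hQ : ∀ p ∈ P, K₁ * e p < W p → W p ^ 3 / 2 ≤ Q p)
    (hQs : ∑ p ∈ P, Q p / e p ^ 2 ≤ M) :
    ∑ p ∈ P, W p ≤ K₁ * B + (2 * M) ^ ((1 : ℝ) / 3) * B ^ ((2 : ℝ) / 3) := by
  have he0 : ∀ p ∈ P, 0 < e p := fun p hp => lt_of_lt_of_le one_pos (he p hp)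
  rw [← Finset.sum_filter_add_sum_filter_not P (fun p => W p ≤ K₁ * e p)]
  refine add_le_add ?_ ?_
  · calc ∑ p ∈ P.filter (fun p => W p ≤ K₁ * e p), W p
        ≤ ∑ p ∈ P.filter (fun p => W p ≤ K₁ * e p), K₁ * e p :=
          Finset.sum_le_sum fun p hp => (Finset.mem_filter.1 hp).2
      _ ≤ ∑ p ∈ P, K₁ * e p :=
          Finset.sum_le_sum_of_subset_of_nonneg (Finset.filter_subset _ _) fun p hp _ =>
            mul_nonneg hK (he0 p hp).le
      _ = K₁ * ∑ p ∈ P, e p := by rw [Finset.mul_sum]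
      _ ≤ K₁ * B := mul_le_mul_of_nonneg_left hB hK
  · set H := P.filter (fun p => ¬ W p ≤ K₁ * e p) with hH
    have hHP : H ⊆ P := Finset.filter_subset _ _
    have hW0 : ∀ p ∈ H, 0 < W p := fun p hp => by
      have hp' := Finset.mem_filter.1 hp
      exact lt_of_le_of_lt (mul_nonneg hK (he0 p hp'.1).le) (not_le.1 hp'.2)
    have hpq : (3 : ℝ).HolderConjugate (3 / 2) := by
      rw [Real.holderConjugate_iff]
      norm_num
    have hh := Real.inner_le_Lp_mul_Lq_of_nonneg H hpq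
      (f := fun p => W p * e p ^ (-((2 : ℝ) / 3))) (g := fun p => e p ^ ((2 : ℝ) / 3))
      (fun p hp => mul_nonneg (hW0 p hp).le (Real.rpow_nonneg (he0 p (hHP hp)).le _))
      (fun p hp => Real.rpow_nonneg (he0 p (hHP hp)).le _)
    have e1 : ∑ p ∈ H, W p * e p ^ (-((2 : ℝ) / 3)) * e p ^ ((2 : ℝ) / 3) = ∑ p ∈ H, W p :=
      Finset.sum_congr rfl fun p hp => by
        rw [mul_assoc, ← Real.rpow_add (he0 p (hHP hp))]
        simp
    have e2 : ∑ p ∈ H, (W p * e p ^ (-((2 : ℝ) / 3))) ^ (3 : ℝ) = ∑ p ∈ H, W p ^ 3 / e p ^ 2 :=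
      Finset.sum_congr rfl fun p hp => by
        have h0 := he0 p (hHP hp)
        rw [Real.mul_rpow (hW0 p hp).le (Real.rpow_nonneg h0.le _), ← Real.rpow_mul h0.le]
        have a1 : W p ^ (3 : ℝ) = W p ^ 3 := by
          rw [← Real.rpow_natCast]
          norm_num
        have a2 : e p ^ (-((2 : ℝ) / 3) * 3) = (e p ^ 2)⁻¹ := by
          rw [← Real.rpow_natCast, ← Real.rpow_neg h0.le]
          norm_num
        rw [a1, a2, div_eq_mul_inv]
    have e3 : ∑ p ∈ H, (e p ^ ((2 : ℝ) / 3)) ^ ((3 : ℝ) / 2) = ∑ p ∈ H, e p :=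
      Finset.sum_congr rfl fun p hp => by
        rw [← Real.rpow_mul (he0 p (hHP hp)).le]
        norm_num
    rw [e1, e2, e3] at hh
    have h1 : ∑ p ∈ H, W p ^ 3 / e p ^ 2 ≤ 2 * M := by
      calc ∑ p ∈ H, W p ^ 3 / e p ^ 2 ≤ ∑ p ∈ H, 2 * (Q p / e p ^ 2) :=
            Finset.sum_le_sum fun p hp => by
              have hp' := Finset.mem_filter.1 hp
              have h2 := hQ p hp'.1 (not_le.1 hp'.2)
              rw [← mul_div_assoc]
              exact div_le_div_of_nonneg_right (by linarith) (pow_pos (he0 p hp'.1) 2).le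
        _ ≤ ∑ p ∈ P, 2 * (Q p / e p ^ 2) :=
            Finset.sum_le_sum_of_subset_of_nonneg hHP fun p hp _ =>
              mul_nonneg zero_le_two (div_nonneg (hQ0 p hp) (pow_pos (he0 p hp) 2).le)
        _ = 2 * ∑ p ∈ P, Q p / e p ^ 2 := by rw [Finset.mul_sum]
        _ ≤ 2 * M := by linarith
    have h2 : ∑ p ∈ H, e p ≤ B :=
      le_trans (Finset.sum_le_sum_of_subset_of_nonneg hHP fun p hp _ => (he0 p hp).le) hB
    have h3 : 0 ≤ ∑ p ∈ H, e p := Finset.sum_nonneg fun p hp => (he0 p (hHP hp)).le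
    have h4 : 0 ≤ ∑ p ∈ H, W p ^ 3 / e p ^ 2 := Finset.sum_nonneg fun p hp =>
      div_nonneg (pow_pos (hW0 p hp) 3).le (pow_pos (he0 p (hHP hp)) 2).le
    have e4 : (1 : ℝ) / (3 / 2) = 2 / 3 := by norm_num
    rw [e4] at hh
    refine hh.trans (mul_le_mul (Real.rpow_le_rpow h4 h1 (by norm_num))
      (Real.rpow_le_rpow h3 h2 (by norm_num)) (Real.rpow_nonneg h3 _)
      (Real.rpow_nonneg (h4.trans h1) _))

theorem tm_sum_cube {β : Type} (M : Finset β) (n : β → ℝ) :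
    (∑ i ∈ M, n i) ^ 3 = ∑ i ∈ M, ∑ j ∈ M, ∑ k ∈ M, n i * n j * n k := by
  rw [pow_succ, sq, Finset.sum_mul_sum, Finset.sum_mul]
  refine Finset.sum_congr rfl fun i _ => ?_
  rw [Finset.sum_mul]
  refine Finset.sum_congr rfl fun j _ => ?_
  rw [Finset.mul_sum]

theorem tm_sum_diag {β : Type} (M : Finset β) {a : β} (ha : a ∈ M) (p : Prop) (F : β → ℝ) :
    ∑ b ∈ M, (if (a = b ∧ p) then F b else 0) = if p then F a else 0 := by
  by_cases hp : p
  · simp [hp, ha]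
  · simp [hp]

/-- in a heavy group the admissible triples carry half of the weight -/
theorem tm_heavy3 {β : Type} (M : Finset β) (n Dg : β → ℝ) (c θ : ℝ) (hc0 : 0 ≤ c)
    (hn0 : ∀ i ∈ M, 0 ≤ n i) (hc : ∀ i ∈ M, Dg i ≤ θ → n i ≤ c) (hW : 6 * c < ∑ i ∈ M, n i) :
    (∑ i ∈ M, n i) ^ 3 / 2 ≤ ∑ i ∈ M, ∑ j ∈ M, ∑ k ∈ M,
      if ((i = j → θ < Dg i) ∧ (i = k → θ < Dg i) ∧ (j = k → θ < Dg j))
        then n i * n j * n k else 0 := by
  set W := ∑ i ∈ M, n i with hWdef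
  have hW0 : 0 ≤ W := Finset.sum_nonneg hn0
  have hsq : ∑ i ∈ M, ∑ j ∈ M, c * (n i * n j) = c * W ^ 2 := by
    rw [sq, hWdef, Finset.sum_mul_sum, Finset.mul_sum]
    exact Finset.sum_congr rfl fun i _ => (Finset.mul_sum _ _ _).symm
  -- the three bad families
  have b1 : ∑ i ∈ M, ∑ j ∈ M, ∑ k ∈ M, (if (i = j ∧ Dg i ≤ θ) then n i * n j * n k else 0)
      ≤ c * W ^ 2 := by
    rw [← hsq]
    refine Finset.sum_le_sum fun i hi => ?_
    rw [Finset.sum_comm]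
    refine Finset.sum_le_sum fun k hk => ?_
    rw [tm_sum_diag M hi (Dg i ≤ θ) fun j => n i * n j * n k]
    split_ifs with h
    · calc n i * n i * n k = n i * (n i * n k) := by ring
        _ ≤ c * (n i * n k) :=
          mul_le_mul_of_nonneg_right (hc i hi h) (mul_nonneg (hn0 i hi) (hn0 k hk))
    · exact mul_nonneg hc0 (mul_nonneg (hn0 i hi) (hn0 k hk))
  have b2 : ∑ i ∈ M, ∑ j ∈ M, ∑ k ∈ M, (if (i = k ∧ Dg i ≤ θ) then n i * n j * n k else 0)
      ≤ c * W ^ 2 := by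
    rw [← hsq]
    refine Finset.sum_le_sum fun i hi => Finset.sum_le_sum fun j hj => ?_
    rw [tm_sum_diag M hi (Dg i ≤ θ) fun k => n i * n j * n k]
    split_ifs with h
    · calc n i * n j * n i = n i * (n i * n j) := by ring
        _ ≤ c * (n i * n j) :=
          mul_le_mul_of_nonneg_right (hc i hi h) (mul_nonneg (hn0 i hi) (hn0 j hj))
    · exact mul_nonneg hc0 (mul_nonneg (hn0 i hi) (hn0 j hj))
  have b3 : ∑ i ∈ M, ∑ j ∈ M, ∑ k ∈ M, (if (j = k ∧ Dg j ≤ θ) then n i * n j * n k else 0)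
      ≤ c * W ^ 2 := by
    rw [← hsq]
    refine Finset.sum_le_sum fun i hi => Finset.sum_le_sum fun j hj => ?_
    rw [tm_sum_diag M hj (Dg j ≤ θ) fun k => n i * n j * n k]
    split_ifs with h
    · calc n i * n j * n j = n j * (n i * n j) := by ring
        _ ≤ c * (n i * n j) :=
          mul_le_mul_of_nonneg_right (hc j hj h) (mul_nonneg (hn0 i hi) (hn0 j hj))
    · exact mul_nonneg hc0 (mul_nonneg (hn0 i hi) (hn0 j hj))
  have hsplit : W ^ 3 ≤ (∑ i ∈ M, ∑ j ∈ M, ∑ k ∈ M,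
      if ((i = j → θ < Dg i) ∧ (i = k → θ < Dg i) ∧ (j = k → θ < Dg j))
        then n i * n j * n k else 0)
      + (∑ i ∈ M, ∑ j ∈ M, ∑ k ∈ M, (if (i = j ∧ Dg i ≤ θ) then n i * n j * n k else 0))
      + (∑ i ∈ M, ∑ j ∈ M, ∑ k ∈ M, (if (i = k ∧ Dg i ≤ θ) then n i * n j * n k else 0))
      + (∑ i ∈ M, ∑ j ∈ M, ∑ k ∈ M, (if (j = k ∧ Dg j ≤ θ) then n i * n j * n k else 0)) := by
    rw [hWdef, tm_sum_cube]
    simp only [← Finset.sum_add_distrib]
    refine Finset.sum_le_sum fun i hi => Finset.sum_le_sum fun j hj =>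
      Finset.sum_le_sum fun k hk => ?_
    have hT : 0 ≤ n i * n j * n k := mul_nonneg (mul_nonneg (hn0 i hi) (hn0 j hj)) (hn0 k hk)
    split_ifs with h1 h2 h3 h4 h4 h3 h4 h4 h2 h3 h4 h4 h3 h4 h4 <;>
      first
        | linarith
        | (exfalso
           exact h1 ⟨fun e => not_le.1 fun h => h2 ⟨e, h⟩, fun e => not_le.1 fun h => h3 ⟨e, h⟩,
             fun e => not_le.1 fun h => h4 ⟨e, h⟩⟩)
  have h5 : 3 * (c * W ^ 2) ≤ W ^ 3 / 2 := by
    have : 3 * c * W ^ 2 ≤ W / 2 * W ^ 2 :=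
      mul_le_mul_of_nonneg_right (by linarith) (sq_nonneg W)
    calc 3 * (c * W ^ 2) = 3 * c * W ^ 2 := by ring
      _ ≤ W / 2 * W ^ 2 := this
      _ = W ^ 3 / 2 := by ring
  linarith

/-- **triple count** (space curves, `d = 3`) -/
theorem tm_triple_count {α β γ : Type} (X : Finset α) (I : Finset β) (V : Finset (α × β))
    (n Dg : β → ℝ) (grp : α → β → γ) (e : α → γ → ℝ) (N K₀ E C₀ : ℝ) (hV : V ⊆ X ×ˢ I)
    (hX : (X.card : ℝ) ≤ N) (hn0 : ∀ i ∈ I, 0 ≤ n i) (hn : ∑ i ∈ I, n i ≤ N) (hK : 0 ≤ K₀)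
    (hE : 0 ≤ E) (hC : 0 ≤ C₀) (he : ∀ z ∈ V, 1 ≤ e z.1 (grp z.1 z.2))
    (hbud : ∀ x ∈ X, ∀ G : Finset γ, (∀ g ∈ G, ∃ i, (x, i) ∈ V ∧ grp x i = g) →
      ∑ g ∈ G, e x g ≤ E)
    (hmass : ∀ i ∈ I, n i ≤ K₀ * Dg i)
    (hcen : ∀ i ∈ I, ∀ j ∈ I, ∀ k ∈ I,
      ∑ x ∈ X.filter (fun x => (x, i) ∈ V ∧ (x, j) ∈ V ∧ (x, k) ∈ V ∧ grp x i = grp x j ∧
          grp x i = grp x k ∧ (i = j → 4 * e x (grp x i) < Dg i) ∧
          (i = k → 4 * e x (grp x i) < Dg i) ∧ (j = k → 4 * e x (grp x i) < Dg j)),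
        1 / e x (grp x i) ^ 2 ≤ C₀) :
    ∑ z ∈ V, n z.2
      ≤ 24 * K₀ * E * N + (2 * C₀ * N ^ 3) ^ ((1 : ℝ) / 3) * (E * N) ^ ((2 : ℝ) / 3) := by
  have hN : 0 ≤ N := le_trans (Nat.cast_nonneg _) hX
  have hS0 : 0 ≤ ∑ i ∈ I, n i := Finset.sum_nonneg hn0
  have hMI : ∀ (x : α) (g : γ), ∀ i ∈ tmM I V grp x g, 0 ≤ n i := fun x g i hi =>
    hn0 i (tm_mem_M.1 hi).1
  have hePos : ∀ (x : α) (g : γ), g ∈ tmGx I V grp x → 1 ≤ e x g := by
    intro x g hg
    obtain ⟨i, -, h1, h2⟩ := tm_mem_Gx.1 hg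
    have := he (x, i) h1
    simp only [] at this
    rwa [h2] at this
  have key := tm_holder_groups (X.sigma fun x => tmGx I V grp x)
    (fun p => ∑ i ∈ tmM I V grp p.1 p.2, n i) (fun p => e p.1 p.2)
    (fun p => ∑ i ∈ tmM I V grp p.1 p.2, ∑ j ∈ tmM I V grp p.1 p.2, ∑ k ∈ tmM I V grp p.1 p.2,
      if ((i = j → 4 * e p.1 p.2 < Dg i) ∧ (i = k → 4 * e p.1 p.2 < Dg i) ∧
        (j = k → 4 * e p.1 p.2 < Dg j)) then n i * n j * n k else 0)
    (24 * K₀) (E * N) (C₀ * N ^ 3) (by positivity) ?_ ?_ ?_ ?_ ?_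
  · rw [tm_sum_groups (X := X) (grp := grp) hV n, Finset.sum_sigma']
    refine key.trans (le_of_eq ?_)
    congr 1
    · ring
    · congr 2
      ring
  · rintro ⟨x, g⟩ hp
    exact hePos x g (Finset.mem_sigma.1 hp).2
  · rw [← Finset.sum_sigma' X (fun x => tmGx I V grp x) fun x g => e x g]
    exact tm_budget e hX hE hbud
  · rintro ⟨x, g⟩ -
    refine Finset.sum_nonneg fun i hi => Finset.sum_nonneg fun j hj =>
      Finset.sum_nonneg fun k hk => ?_
    split_ifs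
    · exact mul_nonneg (mul_nonneg (hMI x g i hi) (hMI x g j hj)) (hMI x g k hk)
    · exact le_rfl
  · rintro ⟨x, g⟩ hp hW
    have hg := hePos x g (Finset.mem_sigma.1 hp).2
    refine tm_heavy3 _ n Dg (4 * K₀ * e x g) (4 * e x g) (by positivity) (hMI x g)
      (fun i hi h => ?_) ?_
    · calc n i ≤ K₀ * Dg i := hmass i (tm_mem_M.1 hi).1
        _ ≤ K₀ * (4 * e x g) := mul_le_mul_of_nonneg_left h hK
        _ = 4 * K₀ * e x g := by ring
    · calc 6 * (4 * K₀ * e x g) = 24 * K₀ * e x g := by ring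
        _ < _ := hW
  · rw [← Finset.sum_sigma' X (fun x => tmGx I V grp x) fun x g =>
      (∑ i ∈ tmM I V grp x g, ∑ j ∈ tmM I V grp x g, ∑ k ∈ tmM I V grp x g,
        if ((i = j → 4 * e x g < Dg i) ∧ (i = k → 4 * e x g < Dg i) ∧
          (j = k → 4 * e x g < Dg j)) then n i * n j * n k else 0) / e x g ^ 2]
    have e1 : ∀ (x : α) (g : γ),
        (∑ i ∈ tmM I V grp x g, ∑ j ∈ tmM I V grp x g, ∑ k ∈ tmM I V grp x g,
          if ((i = j → 4 * e x g < Dg i) ∧ (i = k → 4 * e x g < Dg i) ∧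
            (j = k → 4 * e x g < Dg j)) then n i * n j * n k else 0) / e x g ^ 2 =
        ∑ i ∈ tmM I V grp x g, ∑ j ∈ tmM I V grp x g, ∑ k ∈ tmM I V grp x g,
          if ((i = j → 4 * e x g < Dg i) ∧ (i = k → 4 * e x g < Dg i) ∧
            (j = k → 4 * e x g < Dg j)) then n i * n j * n k * (1 / e x g ^ 2) else 0 := by
      intro x g
      rw [div_eq_mul_one_div, Finset.sum_mul]
      refine Finset.sum_congr rfl fun i _ => ?_
      rw [Finset.sum_mul]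
      refine Finset.sum_congr rfl fun j _ => ?_
      rw [Finset.sum_mul]
      refine Finset.sum_congr rfl fun k _ => ?_
      rw [ite_mul, zero_mul]
    simp only [e1]
    rw [tm_regroup3 fun x g i j k => if ((i = j → 4 * e x g < Dg i) ∧ (i = k → 4 * e x g < Dg i) ∧
            (j = k → 4 * e x g < Dg j)) then n i * n j * n k * (1 / e x g ^ 2) else 0]
    calc _ ≤ ∑ i ∈ I, ∑ j ∈ I, ∑ k ∈ I, n i * n j * n k * C₀ := by
          refine Finset.sum_le_sum fun i hi => Finset.sum_le_sum fun j hj =>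
            Finset.sum_le_sum fun k hk => ?_
          rw [← Finset.sum_filter, Finset.filter_filter, ← Finset.mul_sum]
          refine mul_le_mul_of_nonneg_left ?_
            (mul_nonneg (mul_nonneg (hn0 i hi) (hn0 j hj)) (hn0 k hk))
          refine le_trans (le_of_eq ?_) (hcen i hi j hj k hk)
          congr 1
          refine Finset.filter_congr fun x _ => ?_
          simp only [and_assoc]
      _ = C₀ * (∑ i ∈ I, n i) ^ 3 := by
          rw [tm_sum_cube, Finset.mul_sum]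
          refine Finset.sum_congr rfl fun i _ => ?_
          rw [Finset.mul_sum]
          refine Finset.sum_congr rfl fun j _ => ?_
          rw [Finset.mul_sum]
          exact Finset.sum_congr rfl fun k _ => mul_comm _ _
      _ ≤ C₀ * N ^ 3 := mul_le_mul_of_nonneg_left (pow_le_pow_left₀ hS0 hn 3) hC

end Claimed.Agent.R273
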