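-- KEEP
import Claimed.Agent.R273.TmBase
import Claimed.Agent.R273.TmComb
import Claimed.Agent.R273.GeoTri

/-!
# Row 273, TERM / T3: non-planar terminal curves in `ℂ³` (secants.tex l.395-513).  Architect helper191.  Prefix `tm3_`.

Blueprint: header of TmComb.lean, section T3.  NO multiplicities, NO normalisation, NO polar curves, NO exact map degrees in the statements:
"valid triple" of the paper is replaced by ADMISSIBLE: a repeated curve `Y` must have `vdeg Y > 4 e` (`e` = degree of the directional curve of the group).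
Black boxes: `ph_*`, `geo_*`, `dep_*`, `pj_dep_two`, `tm_*` (TmBase, TmComb), `sep_count_curve`.

LEAF T3-RAY (`tm3_deg_pos`, `tm3_ray`, `tm3_bad_unique`, `tm3_half`), ~350 lines.
* `tm3_deg_pos`: a nonzero form of degree `0` is a nonzero constant.
* `tm3_ray`: `V := prodSet Y univ ⊆ ℂ^(Fin d ⊕ Unit)`, `ψ i := X (inr ()) * (X (inl i) - C (x i))`; `pmap ψ '' V = spCone x Y`, so `zcl (..) = dcone x Y`; `vdim V = 1 + 1` (`ph_prod_vdim`, `ph_univ`), `IsVar V` (`ph_prod_isVar`).  `ph_gen_fib`: `t ≥ 1`, `h'`.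
  For `w` with `h' w ≠ 0`: `w ≠ 0` (the fibre over `0` contains all `(y, 0)`, `y ∈ Y`, an infinite set: `Y` is infinite because `vdim Y = 1`; or use `t ≥ 1` and..), and `(y, s) ↦ y` is a bijection from the fibre `{(y,s) | y ∈ Y, s (y - x) = w}` onto `depRoots x (x + w) Y` (`s ≠ 0`, `y - x = s⁻¹ w`).
  Transfer to `Y'`: `h'` does not vanish identically on `dcone x Y = dcone x Y' = zcl (spCone x Y')`, so `h' (s₀ • (v₀ - x)) ≠ 0` for some `v₀ ∈ Y'`, `s₀` (a polynomial vanishing on `spCone` vanishes on its `zcl`: `ph_zcl_subset_iff`); `s₀ ≠ 0`;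
  `h(v) := h'(s₀ (v - x))` (`aeval`); for `h v ≠ 0`: `depRoots x v Y = depRoots x (x + s₀ • (v - x)) Y`.
* `tm3_bad_unique`: `pj_dep_two`; if both fail: `2 t₁ e₁ < a`, `2 t₂ e₂ < a`, `a ≤ t₁ e₁ + t₂ e₂`.  `hnl` of `pj_dep_two`: a curve in a line has `finrank dirSpan ≤ 1`.
* `tm3_half`: `tm3_ray` with `Y' = Y` is `DepRootLE x Y Y t` (same shape as `GenOn`; weaken `=` to `≤`); `DepHalfGood`; `tm_cone_eq`, `tm_cone_var`: `vdeg (dcone x Y) ≤ c.deg`.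
LEAF T3-TRISEC (`tm3_cover`, `tm3_tr`, `tm3_fin`, `tm3_trisec`), ~600 lines (strong prover; may be split: `tm3_fin` / `tm3_trisec`).
* `tm3_cover`: induction on `s`; if `C ⊄ Zl (G a)` pick `g ∈ G a`, `x₁ ∈ C`, `g x₁ ≠ 0`; for every `g'` in the union-system of the rest.. (`ph_isVar_mul`); cf. `geo_cone_one`.
* `tm3_tr`: `geo_not_tr` + `geo_tan_pin`: otherwise one of the curves lies in a flat of dimension `≤ 1`, so `finrank dirSpan ≤ 1`.
* `tm3_fin`: `geo_tri` for `(X, Y, Y') = (Yi, Yj, Yk)`: the flat alternative gives `InFlat Yi 2`, `finrank dirSpan Yi ≤ 2`: excluded.  `geo_gen_prod_left`: for general `v`: `GenOn Yj (fun y => GeoNoRoot Yk (Sum.elim v y))`; bad `y`: finite (`tm_gen_cofinite`).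
  A pair `(y, y') ∈ T_v` with `y` good has `y' = y` (`GeoNoRoot`), so `Yj ≠ Yk` and `y ∈ Yj ∩ Yk` (finite: `tm_curve_inter`).  For a fixed `y ≠ v` the `y' ∈ Yk` on the line `v y` are finitely many (a polynomial of degree `1` vanishing on the line, not on `Yk`; `tm_curve_finite`).
* `tm3_trisec`: `v` as in `tm3_fin`.  `V := prodSet Yj Yk` (`ph_prod_isVar`, `vdim = 2`, `vdeg = vdeg Yj * vdeg Yk`), `G₀` := pull-backs of the two ideals, `G` := the `2 × 2` minors of `(y - v, y' - v)` (degree `≤ 2`); `Zl (G₀ ∪ G) ∩ {y ≠ v} = {collinear pairs}`.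
  A point `z ∈ T_v`: a component `C ∋ z` of `Zl (G₀ ∪ G)` (`ph_Zl_eq_iUnion_comps`) is covered by the finite set `T_v` (points are closed) and the three closed sets `{y = v}`, `{y' = v}`, `{y = y'}` (the last only if `Yj = Yk`; if `Yj ≠ Yk` it is not needed); `tm3_cover`: `C` is one point; `ph_isoZero_iff_comp`; `ph_bezout_iso` with `L = 2`.
LEAF T3-CENTRES (`tm3_centres`), ~600 lines (strong prover).  PROOF.  `e_x := (c x).deg`, `a_j = vdeg Yj`, `a_k = vdeg Yk`.  For `x ∈ S`: `dcone x Yi = dcone x Yj = dcone x Yk = Cone(c x)` (`tm_cone_eq`, `tm_not_line`), `t_j(x), t_k(x)` from `tm3_ray`; `a_j ≤ 2 t_j e_x`, `a_k ≤ 2 t_k e_x` (`tm3_half`).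
  Choose `v ∈ Yi` (`geo_gen_finset`, `geo_gen_and`, `geo_gen_exists`) with: (1) `#depRoots x v Yj = t_j(x)`, `#depRoots x v Yk = t_k(x)` for all `x ∈ S`; (2) `v ∉ S`; (3) `v` on no line through two distinct points of `S`; (4) `v ∉ Yj` if `Yj ≠ Yi`, `v ∉ Yk` if `Yk ≠ Yi`; (5) the bound of `tm3_trisec`.
  ((2)-(4) exclude finitely many points of `Yi`: `tm_gen_of_cofinite`, `tm_curve_inter`, `tm_curve_finite`.)
  `A_x := {(y, y') | y ∈ depRoots x v Yj, y ≠ v, y' ∈ depRoots x v Yk, y' ≠ v, (Yj = Yk → y ≠ y')}` (a Finset via `Set.Finite.toFinset`).  Its members are collinear with `v`: `y - x = α (v - x)`, `α ≠ 1`, `y' - x = α' (v - x)`: `y' - v = ((α' - 1)/(α - 1)) (y - v)`.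
  `A_x ∩ A_x' = ∅` for `x ≠ x'`: a common `y ≠ v` lies on the lines `x v` and `x' v`, so these lines agree and `v` lies on the line `x x'`.   `∑_x |A_x| ≤ 4 a_j a_k` by (5) for `⋃ A_x`.
  `r_j := t_j - [Yi = Yj]`, `r_k := t_k - [Yi = Yk]` = numbers of admissible `y`, `y'` ((4): `v ∈ depRoots x v Yj ↔ v ∈ Yj ↔ Yj = Yi`).  `|A_x| = r_j r_k` if `Yj ≠ Yk`, `= r_j (r_j - 1)` if `Yj = Yk`.
  ADMISSIBILITY: a repeated curve has `4 e < a ≤ 2 t e`, so `t ≥ 3`.  Five cases (all distinct; `i=j≠k`; `i=k≠j`; `j=k≠i`; `i=j=k`): `|A_x| ≥ (2/9) t_j t_k ≥ a_j a_k / (18 e_x²)`.   So `∑_x 1/e_x² ≤ 72` (`a_j, a_k ≥ 1`: `ph_vdeg_pos`).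
LEAF T3-COUNT (`tm3_count`), ~450 lines.  `Y 𝔶 := zeroLocus ℂ 𝔶`.  `Γb := Γ.filter (¬ DepHalfGood z.1 (Y (cho z.2)))`: `z ↦ z.2` is injective on it (`tm3_bad_unique`), so `|Γb| ≤ |Q| ≤ N`.  `Γg` := the rest.
  `tm_triple_count` with `α = SpC 3`, `β = Ideal (PrfPol 3)`, `γ = PCurve 3`, `X = D.pts`, `I = Q.image cho`, `V = Γg.image (fun z => (z.1, cho z.2))`, `n 𝔶 = #{y ∈ Q | cho y = 𝔶}`, `Dg 𝔶 = vdeg (Y 𝔶)`,
  `grp x 𝔶` := a `c ∈ D.C (spRe x)` with `∀ y ∈ Y 𝔶, c.Mem (y - x)` if there is one (`geo_cone_one`; `SpTerm D x 𝔶` is `ConeIn (D.C (spRe x)) x (Y 𝔶)` by unfolding), `e x c = c.deg`, `K₀ = 2 M`, `E = D.E`, `C₀ = 72`.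
  `he`: `tm3_deg_pos`; `hbud`: `tm_sum_le_list` + `Reg.deg` (`spRe x ∈ D.P`: `x = prfPt p`, `sp_re_pt`); `hmass`: `sep_count_curve`; `hcen`: `tm3_centres` (`Reg.irr`; `tm_zl_inj` turns `Y 𝔶 = Y 𝔶'` into `𝔶 = 𝔶'`); `∑ n = |Q|` (`Finset.card_eq_sum_card_image`); `|Γg| ≤ ∑_V n`.
LEAF T3-NUM (`tm3_num`), ~150 lines.  `d = 3`: `A = N^{2/3}`, `E = δ N / A`, `M ≤ δ A`, `1 ≤ δ N`, `δ ≤ 1`: `N ≤ δ N²`; `48 M E N ≤ 48 δ² N²`; `(144 N³)^{1/3} (E N)^{2/3} = 144^{1/3} δ^{2/3} N^{17/9} ≤ 6 δ^{2/3} N²`.  `δ₀ := min 1 ((ε/55)^{3/2})`.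
-/

set_option autoImplicit false

namespace Claimed.Agent.R273

open scoped Classical
open MvPolynomial Module

variable {d : ℕ}

/-! ### T3-RAY -/

theorem tm3_deg_pos (c : PCurve d) {w : SpC d} (h : c.Mem w) : 1 ≤ c.deg := by
  by_contra hcon
  have h0 : c.deg = 0 := by omega
  obtain ⟨x, _, hx⟩ := h
  have h1 := c.hom.totalDegree c.ne
  rw [h0, totalDegree_eq_zero_iff_eq_C] at h1
  rw [h1, eval_C] at hx
  apply c.ne
  rw [h1, hx, C_0]

theorem tm3_infinite {Y : Set (SpC d)} (hY : IsVar Y) (h1 : vdim Y = 1) : Y.Infinite := by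
  intro hfin
  have h2 : GenOn Y fun _ => False :=
    tm_gen_of_cofinite hY h1 (hfin.subset fun y hy => hy.1)
  obtain ⟨y, _, hy⟩ := geo_gen_exists h2
  exact hy

/-- the fibre of the cone map over `w ≠ 0` is in bijection with the roots on the ray -/
theorem tm3_ray_fib (Y : Set (SpC d)) (x w : SpC d) (hw : w ≠ 0)
    (F : Set (Fin d ⊕ Unit → ℂ))
    (hF : ∀ z, z ∈ F ↔ prL z ∈ Y ∧ z (Sum.inr ()) • (prL z - x) = w) :
    prL '' F = depRoots x (x + w) Y ∧ Set.InjOn prL F := by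
  constructor
  · ext y
    constructor
    · rintro ⟨z, hz, rfl⟩
      obtain ⟨hzY, hzw⟩ := (hF z).1 hz
      have hs : z (Sum.inr ()) ≠ 0 := by
        intro h0
        rw [h0, zero_smul] at hzw
        exact hw hzw.symm
      refine ⟨hzY, ?_, (z (Sum.inr ()))⁻¹, ?_⟩
      · intro h0
        rw [h0, sub_self, smul_zero] at hzw
        exact hw hzw.symm
      · rw [add_sub_cancel_left, ← hzw, smul_smul, inv_mul_cancel₀ hs, one_smul]
    · rintro ⟨hy, hyx, c, hc⟩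
      rw [add_sub_cancel_left] at hc
      have hc0 : c ≠ 0 := by
        intro h0
        rw [h0, zero_smul, sub_eq_zero] at hc
        exact hyx hc
      refine ⟨Sum.elim y (fun _ => c⁻¹), (hF _).2 ⟨hy, ?_⟩, rfl⟩
      show c⁻¹ • (y - x) = w
      rw [hc, smul_smul, inv_mul_cancel₀ hc0, one_smul]
  · intro z hz z' hz' hzz
    obtain ⟨_, hzw⟩ := (hF z).1 hz
    obtain ⟨_, hzw'⟩ := (hF z').1 hz'
    rw [← hzz, ← hzw] at hzw'
    have hne : prL z - x ≠ 0 := by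
      intro h0
      rw [h0, smul_zero] at hzw
      exact hw hzw.symm
    have hs : z' (Sum.inr ()) = z (Sum.inr ()) := smul_left_injective ℂ hne hzw'
    funext i
    rcases i with i | i
    · exact congrFun hzz i
    · exact hs.symm

/-- **the number of points of `Y` on the general ray of its cone is a constant `t ≥ 1`**, also along any other curve `Y'` with the same cone -/
theorem tm3_ray {Y : Set (SpC d)} (hY : IsVar Y) (h1 : vdim Y = 1) (x : SpC d)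
    (h2 : vdim (dcone x Y) = 2) :
    ∃ t : ℕ, 1 ≤ t ∧ ∀ Y' : Set (SpC d), IsVar Y' → dcone x Y' = dcone x Y →
      GenOn Y' fun v => (depRoots x v Y).Finite ∧ (depRoots x v Y).ncard = t := by
  set V : Set (Fin d ⊕ Unit → ℂ) := prodSet Y (Set.univ : Set (Unit → ℂ)) with hV
  set ψ : Fin d → MvPolynomial (Fin d ⊕ Unit) ℂ :=
    fun i => X (Sum.inr ()) * (X (Sum.inl i) - C (x i)) with hψ
  have hVv : IsVar V := ph_prod_isVar hY ph_univ.1
  have hVd : vdim V = 2 := by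
    rw [hV, ph_prod_vdim hY ph_univ.1, h1, ph_univ.2.1]
    simp
  have hpm : ∀ z : Fin d ⊕ Unit → ℂ, pmap ψ z = z (Sum.inr ()) • (prL z - x) := by
    intro z
    funext i
    simp [pmap, hψ, prL]
  have himg : pmap ψ '' V = spCone x Y := by
    ext w
    constructor
    · rintro ⟨z, hz, rfl⟩
      exact ⟨prL z, hz.1, z (Sum.inr ()), hpm z⟩
    · rintro ⟨y, hy, lam, rfl⟩
      refine ⟨Sum.elim y (fun _ => lam), ⟨hy, trivial⟩, ?_⟩
      rw [hpm]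
      rfl
  obtain ⟨t, h', ht1, ⟨w₀, hw₀, hw₀'⟩, hfib⟩ := ph_gen_fib hVv ψ (by rw [himg, hVd]; exact h2)
  rw [himg] at hw₀ hfib
  have hmemF : ∀ w z, z ∈ {z ∈ V | pmap ψ z = w} ↔ prL z ∈ Y ∧ z (Sum.inr ()) • (prL z - x) = w := by
    intro w z
    constructor
    · rintro ⟨hz, hzw⟩
      exact ⟨hz.1, by rw [← hpm]; exact hzw⟩
    · rintro ⟨hz, hzw⟩
      exact ⟨⟨hz, trivial⟩, by rw [hpm]; exact hzw⟩
  -- the good `w` are nonzero
  have hw0 : ∀ w ∈ dcone x Y, eval w h' ≠ 0 → w ≠ 0 := by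
    intro w hw hw' h0
    have hf := (hfib w hw hw').1
    apply tm3_infinite hY h1
    have hinj : Set.InjOn (fun y : SpC d => (Sum.elim y (fun _ => 0) : Fin d ⊕ Unit → ℂ)) Y := by
      intro y _ y' _ hyy
      funext i
      exact congrFun hyy (Sum.inl i)
    apply Set.Finite.of_finite_image (hf.subset _) hinj
    rintro _ ⟨y, hy, rfl⟩
    rw [hmemF]
    refine ⟨hy, ?_⟩
    rw [h0]
    exact zero_smul _ _
  have hmain : ∀ w ∈ dcone x Y, eval w h' ≠ 0 →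
      (depRoots x (x + w) Y).Finite ∧ (depRoots x (x + w) Y).ncard = t := by
    intro w hw hw'
    obtain ⟨hf, hc⟩ := hfib w hw hw'
    obtain ⟨hi, hj⟩ := tm3_ray_fib Y x w (hw0 w hw hw') _ (hmemF w)
    rw [← hi]
    exact ⟨hf.image _, by rw [hj.ncard_image, hc]⟩
  refine ⟨t, ht1, fun Y' _ hYY => ?_⟩
  have hex : ∃ v₀ ∈ Y', ∃ s₀ : ℂ, eval (s₀ • (v₀ - x)) h' ≠ 0 := by
    by_contra hcon
    push Not at hcon
    apply hw₀'
    have hw₁ : w₀ ∈ zcl (spCone x Y') := by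
      have : w₀ ∈ dcone x Y' := by rw [hYY]; exact hw₀
      exact this
    rw [ph_mem_zcl] at hw₁
    apply hw₁
    rintro _ ⟨y, hy, lam, rfl⟩
    exact hcon y hy lam
  obtain ⟨v₀, hv₀, s₀, hs₀⟩ := hex
  have hin : ∀ v ∈ Y', s₀ • (v - x) ∈ dcone x Y := by
    intro v hv
    rw [← hYY]
    exact ph_subset_zcl _ ⟨v, hv, s₀, rfl⟩
  have hs0 : s₀ ≠ 0 := by
    intro h0
    apply hw0 _ (hin v₀ hv₀) hs₀
    rw [h0, zero_smul]
  set φ : Fin d → MvPolynomial (Fin d) ℂ := fun i => C s₀ * (X i - C (x i)) with hφ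
  have hφv : ∀ v : SpC d, pmap φ v = s₀ • (v - x) := by
    intro v
    funext i
    simp [pmap, hφ]
  refine ⟨aeval φ h', ⟨v₀, hv₀, ?_⟩, fun v hv hv' => ?_⟩
  · rw [← ph_eval_pmap, hφv]
    exact hs₀
  · rw [← ph_eval_pmap, hφv] at hv'
    have h3 := hmain _ (hin v hv) hv'
    have h4 : depRoots x (x + s₀ • (v - x)) Y = depRoots x v Y := by
      ext z
      constructor
      · rintro ⟨hz, hzx, c, hc⟩
        refine ⟨hz, hzx, c * s₀, ?_⟩
        rw [hc, add_sub_cancel_left, smul_smul]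
      · rintro ⟨hz, hzx, c, hc⟩
        refine ⟨hz, hzx, c * s₀⁻¹, ?_⟩
        rw [hc, add_sub_cancel_left, smul_smul, mul_assoc, inv_mul_cancel₀ hs0, mul_one]
    rw [h4] at h3
    exact h3

/-- at most one centre of a nonlinear curve is not half-good -/
theorem tm3_bad_unique {Y : Set (SpC d)} (hY : IsVar Y) (h1 : vdim Y = 1)
    (hnl : 2 ≤ finrank ℂ (dirSpan Y)) (p₁ p₂ : SpC d) (hne : p₁ ≠ p₂) :
    DepHalfGood p₁ Y ∨ DepHalfGood p₂ Y := by
  by_contra hcon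
  rw [not_or] at hcon
  obtain ⟨hc₁, hc₂⟩ := hcon
  unfold DepHalfGood at hc₁ hc₂
  push Not at hc₁ hc₂
  obtain ⟨t₁, ht₁, hlt₁⟩ := hc₁
  obtain ⟨t₂, ht₂, hlt₂⟩ := hc₂
  have hl : ¬ ∃ x₀ v : SpC d, ∀ x ∈ Y, ∃ c : ℂ, x = x₀ + c • v := by
    rintro ⟨x₀, v, hv⟩
    apply tm_not_line hY h1 x₀ (Or.inr hnl)
    refine ⟨v, fun y hy => ?_⟩
    obtain ⟨c, hc⟩ := hv y hy
    exact ⟨c, by rw [hc, add_sub_cancel_left]⟩
  have h := pj_dep_two Y hY h1 hl p₁ p₂ hne t₁ t₂ ht₁ ht₂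
  have e₁ : 2 * t₁ * vdeg (dcone p₁ Y) = 2 * (t₁ * vdeg (dcone p₁ Y)) := by ring
  have e₂ : 2 * t₂ * vdeg (dcone p₂ Y) = 2 * (t₂ * vdeg (dcone p₂ Y)) := by ring
  omega

/-- half-good centre of a terminal curve: `deg Y ≤ 2 t e` -/
theorem tm3_half (c : PCurve d) (hirr : Irreducible c.F) {Y : Set (SpC d)} (hY : IsVar Y)
    (h1 : vdim Y = 1) (hnl : 2 ≤ finrank ℂ (dirSpan Y)) (x : SpC d)
    (hYc : ∀ y ∈ Y, c.Mem (y - x)) (hg : DepHalfGood x Y) (t : ℕ)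
    (ht : GenOn Y fun v => (depRoots x v Y).Finite ∧ (depRoots x v Y).ncard = t) :
    vdeg Y ≤ 2 * t * c.deg := by
  have h2 : DepRootLE x Y Y t := by
    obtain ⟨h, hh, hall⟩ := ht
    exact ⟨h, hh, fun y hy hy' => ⟨(hall y hy hy').1, (hall y hy hy').2.le⟩⟩
  have h3 := hg t h2
  rw [tm_cone_eq c hirr hY h1 x hYc (tm_not_line hY h1 x (Or.inr hnl))] at h3
  exact h3.trans (Nat.mul_le_mul_left _ (tm_cone_var c hirr).2.2)

/-! ### T3-TRISEC -/

/-- an irreducible set covered by finitely many closed sets lies in one of them -/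
theorem tm3_cover {ι : Type*} [Fintype ι] {α : Type*} {C : Set (ι → ℂ)} (hC : IsVar C)
    (s : Finset α) (G : α → Set (MvPolynomial ι ℂ)) (h : C ⊆ ⋃ a ∈ s, Zl (G a)) :
    ∃ a ∈ s, C ⊆ Zl (G a) := by
  obtain ⟨p, hp, rfl⟩ := hC
  by_contra hcon
  push Not at hcon
  have h1 : ∀ a, ∃ g : MvPolynomial ι ℂ, a ∈ s → g ∈ G a ∧ ∃ x ∈ zeroLocus ℂ p, eval x g ≠ 0 := by
    intro a
    by_cases ha : a ∈ s
    · have h2 := hcon a ha
      rw [Set.not_subset] at h2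
      obtain ⟨x, hx, hx2⟩ := h2
      have h3 : ¬ ∀ g ∈ G a, eval x g = 0 := hx2
      push Not at h3
      obtain ⟨g, hg, hg0⟩ := h3
      exact ⟨g, fun _ => ⟨hg, x, hx, hg0⟩⟩
    · exact ⟨0, fun h => absurd h ha⟩
  choose g hg using h1
  have h2 : ∏ a ∈ s, g a ∈ p := by
    rw [← ph_vanishing_prime p hp, ph_mem_vanishingIdeal]
    intro x hx
    have h3 := h hx
    simp only [Set.mem_iUnion, exists_prop] at h3
    obtain ⟨a, ha, hxa⟩ := h3
    rw [map_prod]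
    exact Finset.prod_eq_zero ha (hxa (g a) (hg a ha).1)
  obtain ⟨a, ha, hga⟩ := (Ideal.IsPrime.prod_mem_iff (hp := hp)).mp h2
  obtain ⟨_, x, hx, hx0⟩ := hg a ha
  exact hx0 ((ph_mem_zeroLocus p x).mp hx _ hga)

theorem tm3_dirSpan_le {T : Set (SpC d)} (y₀ : SpC d) (W : Submodule ℂ (SpC d))
    (h : ∀ x ∈ T, x - y₀ ∈ W) : dirSpan T ≤ W := by
  unfold dirSpan
  rw [Submodule.span_le]
  rintro _ ⟨y, hy, y', hy', rfl⟩
  have := W.sub_mem (h y hy) (h y' hy')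
  rwa [sub_sub_sub_cancel_right] at this

theorem tm3_tr {X Y : Set (SpC d)} (hX : IsVar X) (hY : IsVar Y) (hX1 : vdim X = 1)
    (hY1 : vdim Y = 1) (hXs : 2 ≤ finrank ℂ (dirSpan X)) (hYs : 2 ≤ finrank ℂ (dirSpan Y)) :
    GeoTr X Y := by
  by_contra hcon
  rcases geo_not_tr hX hY hcon with h | h
  · obtain ⟨x₀, W, hW, hpin⟩ := geo_tan_pin hX
    have h1 : dirSpan Y ≤ W := tm3_dirSpan_le x₀ W fun y hy => hpin y fun x hx => by
      have := (tanAt X x).neg_mem (h x hx y hy)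
      rwa [neg_sub] at this
    have h2 : 2 ≤ vdim X := hYs.trans ((Submodule.finrank_mono h1).trans hW)
    omega
  · obtain ⟨y₀, W, hW, hpin⟩ := geo_tan_pin hY
    have h1 : dirSpan X ≤ W := tm3_dirSpan_le y₀ W fun x hx => hpin x fun y hy => h x hx y hy
    have h2 : 2 ≤ vdim Y := hXs.trans ((Submodule.finrank_mono h1).trans hW)
    omega

/-- the pairs `(y, y') ∈ Yj × Yk` collinear with `v` -/
def tm3T (Yj Yk : Set (SpC d)) (v : SpC d) : Set (SpC d × SpC d) :=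
  {z | z.1 ∈ Yj ∧ z.2 ∈ Yk ∧ z.1 ≠ v ∧ z.2 ≠ v ∧ (Yj = Yk → z.1 ≠ z.2) ∧
    ∃ c : ℂ, z.2 - v = c • (z.1 - v)}

/-- a nonlinear curve meets a line in finitely many points -/
theorem tm3_line_finite {Y : Set (SpC d)} (hY : IsVar Y) (h1 : vdim Y = 1)
    (hs : 2 ≤ finrank ℂ (dirSpan Y)) (v u : SpC d) :
    {y | y ∈ Y ∧ ∃ c : ℂ, y - v = c • u}.Finite := by
  by_cases hu : u = 0
  · refine (Set.finite_singleton v).subset ?_
    rintro y ⟨_, c, hc⟩
    rw [hu, smul_zero, sub_eq_zero] at hc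
    exact hc
  -- a point of `Y` off the line
  obtain ⟨w, hw, hwu⟩ : ∃ w ∈ Y, w - v ∉ Submodule.span ℂ {u} := by
    by_contra hcon
    push Not at hcon
    have h2 := Submodule.finrank_mono (tm3_dirSpan_le v _ hcon)
    have h3 := finrank_span_le_card (R := ℂ) ({u} : Set (SpC d))
    have h4 : 2 ≤ ({u} : Set (SpC d)).toFinset.card := hs.trans (h2.trans h3)
    simp at h4
  obtain ⟨a, b, hab⟩ : ∃ a b : Fin d, (w a - v a) * u b - (w b - v b) * u a ≠ 0 := by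
    by_contra hcon
    push Not at hcon
    obtain ⟨a, ha⟩ : ∃ a, u a ≠ 0 := by
      by_contra h0
      push Not at h0
      exact hu (funext h0)
    apply hwu
    rw [Submodule.mem_span_singleton]
    refine ⟨(w a - v a) / u a, ?_⟩
    funext b
    simp only [Pi.smul_apply, smul_eq_mul, Pi.sub_apply]
    rw [div_mul_eq_mul_div, div_eq_iff ha]
    have := hcon a b
    linear_combination this
  refine (tm_curve_finite hY h1 ((X a - C (v a)) * C (u b) - (X b - C (v b)) * C (u a))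
    ⟨w, hw, by simpa using hab⟩).subset ?_
  rintro y ⟨hy, c, hc⟩
  refine ⟨hy, ?_⟩
  have e1 := congrFun hc a
  have e2 := congrFun hc b
  simp only [Pi.sub_apply, Pi.smul_apply, smul_eq_mul] at e1 e2
  simp only [map_sub, map_mul, eval_X, eval_C]
  rw [e1, e2]
  ring

theorem tm3_fin {Yi Yj Yk : Set (SpC d)} (hi : IsVar Yi) (hj : IsVar Yj) (hk : IsVar Yk)
    (hi1 : vdim Yi = 1) (hj1 : vdim Yj = 1) (hk1 : vdim Yk = 1)
    (his : 3 ≤ finrank ℂ (dirSpan Yi)) (hjs : 2 ≤ finrank ℂ (dirSpan Yj))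
    (hks : 2 ≤ finrank ℂ (dirSpan Yk)) : GenOn Yi fun v => (tm3T Yj Yk v).Finite := by
  have t1 : GeoTr Yi Yj := tm3_tr hi hj hi1 hj1 (by omega) hjs
  have t2 : GeoTr Yi Yk := tm3_tr hi hk hi1 hk1 (by omega) hks
  rcases geo_tri hi hj hk (by rw [hk1, hj1]) (by rw [hj1, hi1]) t1 t2 with h | ⟨_, x₀, W, hW, hfl⟩
  · refine geo_gen_mono (geo_gen_prod_left h) fun v _ hv => ?_
    have hbad := tm_gen_cofinite hj hj1 hv
    set Bd : Set (SpC d) := {y | y ∈ Yj ∧ ¬ GeoNoRoot Yk (Sum.elim v y)} with hBd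
    have hF1 : (⋃ y ∈ Bd, (fun y' => (y, y')) '' {y' | y' ∈ Yk ∧ ∃ c : ℂ, y' - v = c • (y - v)}).Finite :=
      hbad.biUnion fun y _ => (tm3_line_finite hk hk1 hks v (y - v)).image _
    have hF2 : {z : SpC d × SpC d | Yj ≠ Yk ∧ z.1 ∈ Yj ∩ Yk ∧ z.2 = z.1}.Finite := by
      by_cases hjk : Yj = Yk
      · refine Set.Finite.subset Set.finite_empty ?_
        rintro z ⟨h1, _⟩
        exact absurd hjk h1
      · refine ((tm_curve_inter hj hj1 hk hk1 hjk).image fun y => (y, y)).subset ?_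
        rintro ⟨y, y'⟩ ⟨_, h2, h3⟩
        simp only at h2 h3
        exact ⟨y, h2, by rw [h3]⟩
    refine (hF1.union hF2).subset ?_
    rintro ⟨y, y'⟩ ⟨z1, z2, z3, z4, z5, c, z6⟩
    simp only at z1 z2 z3 z4 z5 z6
    by_cases hy : GeoNoRoot Yk (Sum.elim v y)
    · right
      have e : y' = y := hy y' z2 z4 ⟨c, z6⟩
      refine ⟨fun hjk => z5 hjk e.symm, ⟨z1, e ▸ z2⟩, e⟩
    · left
      simp only [Set.mem_iUnion, exists_prop]
      exact ⟨y, ⟨z1, hy⟩, y', ⟨z2, c, z6⟩, rfl⟩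
  · exfalso
    have h1 : dirSpan Yi ≤ W := tm3_dirSpan_le x₀ W fun x hx => hfl x (Or.inl (Or.inl hx))
    have h2 : 3 ≤ vdim Yi + 1 := his.trans ((Submodule.finrank_mono h1).trans hW)
    omega

/-- the `2 × 2` minors of `(y - v, y' - v)` -/
noncomputable def tm3Minor (v : SpC d) (a b : Fin d) : MvPolynomial (Fin d ⊕ Fin d) ℂ :=
  (X (Sum.inl a) - C (v a)) * (X (Sum.inr b) - C (v b)) - (X (Sum.inl b) - C (v b)) * (X (Sum.inr a) - C (v a))

theorem tm3_minor_deg (v : SpC d) (a b : Fin d) : (tm3Minor v a b).totalDegree ≤ 2 := by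
  have h1 : ∀ i : Fin d ⊕ Fin d, ∀ c : ℂ, (X i - C c : MvPolynomial (Fin d ⊕ Fin d) ℂ).totalDegree ≤ 1 := by
    intro i c
    refine (totalDegree_sub _ _).trans ?_
    rw [totalDegree_C]
    exact max_le (by rw [totalDegree_X]) (Nat.zero_le _)
  unfold tm3Minor
  refine (totalDegree_sub _ _).trans (max_le ?_ ?_)
  · exact (totalDegree_mul _ _).trans (Nat.add_le_add (h1 _ _) (h1 _ _))
  · exact (totalDegree_mul _ _).trans (Nat.add_le_add (h1 _ _) (h1 _ _))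

theorem tm3_minor_eval (v : SpC d) (a b : Fin d) (z : Fin d ⊕ Fin d → ℂ) :
    eval z (tm3Minor v a b) = (z (Sum.inl a) - v a) * (z (Sum.inr b) - v b)
      - (z (Sum.inl b) - v b) * (z (Sum.inr a) - v a) := by
  simp [tm3Minor]

/-- the equations of a point -/
noncomputable def tm3Pt {ι : Type*} (t : ι → ℂ) : Set (MvPolynomial ι ℂ) := Set.range fun i => X i - C (t i)

theorem tm3_Zl_pt {ι : Type*} (t : ι → ℂ) : Zl (tm3Pt t) = {t} := by
  ext z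
  constructor
  · intro hz
    rw [Set.mem_singleton_iff]
    funext i
    have := hz _ ⟨i, rfl⟩
    simpa [sub_eq_zero] using this
  · rintro rfl g ⟨i, rfl⟩
    simp

theorem tm3_trisec_aux {Yj Yk : Set (SpC d)} (hj : IsVar Yj) (hk : IsVar Yk)
    (hj1 : vdim Yj = 1) (hk1 : vdim Yk = 1) (v : SpC d) (hfin : (tm3T Yj Yk v).Finite)
    (S : Finset (SpC d × SpC d)) (hS : ∀ z ∈ S, z ∈ tm3T Yj Yk v) :
    S.card ≤ 4 * vdeg Yj * vdeg Yk := by
  have hV : IsVar (prodSet Yj Yk) := ph_prod_isVar hj hk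
  obtain ⟨P, hP, hPV⟩ := hV
  set G₀ : Set (MvPolynomial (Fin d ⊕ Fin d) ℂ) := (P : Set (MvPolynomial (Fin d ⊕ Fin d) ℂ)) with hG₀
  have hG₀V : Zl G₀ = prodSet Yj Yk := by
    rw [ph_Zl_eq_zeroLocus, hG₀, Ideal.span_eq, hPV]
  set G : Set (MvPolynomial (Fin d ⊕ Fin d) ℂ) := Set.range fun ab : Fin d × Fin d => tm3Minor v ab.1 ab.2 with hG
  have hGdeg : ∀ g ∈ G, g.totalDegree ≤ 2 := by
    rintro _ ⟨ab, rfl⟩
    exact tm3_minor_deg v _ _
  -- the closed sets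
  set A₁ : Set (MvPolynomial (Fin d ⊕ Fin d) ℂ) := Set.range fun a : Fin d => X (Sum.inl a) - C (v a) with hA₁
  set A₂ : Set (MvPolynomial (Fin d ⊕ Fin d) ℂ) := Set.range fun a : Fin d => X (Sum.inr a) - C (v a) with hA₂
  set A₃ : Set (MvPolynomial (Fin d ⊕ Fin d) ℂ) :=
    if Yj = Yk then Set.range fun a : Fin d => X (Sum.inl a) - X (Sum.inr a) else {1} with hA₃
  have hZ1 : ∀ z, z ∈ Zl A₁ ↔ (fun a => z (Sum.inl a)) = v := by
    intro z
    constructor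
    · intro hz
      funext a
      have := hz _ ⟨a, rfl⟩
      simpa [sub_eq_zero] using this
    · rintro h g ⟨a, rfl⟩
      have := congrFun h a
      simp [this]
  have hZ2 : ∀ z, z ∈ Zl A₂ ↔ (fun a => z (Sum.inr a)) = v := by
    intro z
    constructor
    · intro hz
      funext a
      have := hz _ ⟨a, rfl⟩
      simpa [sub_eq_zero] using this
    · rintro h g ⟨a, rfl⟩
      have := congrFun h a
      simp [this]
  have hZ3 : ∀ z, z ∈ Zl A₃ ↔ (Yj = Yk ∧ (fun a => z (Sum.inl a)) = fun a => z (Sum.inr a)) := by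
    intro z
    by_cases hjk : Yj = Yk
    · rw [hA₃, if_pos hjk]
      constructor
      · intro hz
        refine ⟨hjk, ?_⟩
        funext a
        have := hz _ ⟨a, rfl⟩
        simpa [sub_eq_zero] using this
      · rintro ⟨_, h⟩ g ⟨a, rfl⟩
        have := congrFun h a
        simp [this]
    · rw [hA₃, if_neg hjk]
      constructor
      · intro hz
        have := hz 1 rfl
        simp at this
      · rintro ⟨h, _⟩
        exact absurd h hjk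
  set 𝒯 : Finset (Set (MvPolynomial (Fin d ⊕ Fin d) ℂ)) :=
    {A₁, A₂, A₃} ∪ hfin.toFinset.image fun t => tm3Pt (Sum.elim t.1 t.2) with h𝒯
  have hcov : Zl (G₀ ∪ G) ⊆ ⋃ a ∈ 𝒯, Zl (id a) := by
    intro z hz
    have hz0 : z ∈ prodSet Yj Yk := by
      rw [← hG₀V]
      exact fun g hg => hz g (Or.inl hg)
    have hzG : ∀ a b, (z (Sum.inl a) - v a) * (z (Sum.inr b) - v b)
        = (z (Sum.inl b) - v b) * (z (Sum.inr a) - v a) := by
      intro a b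
      have := hz _ (Or.inr ⟨(a, b), rfl⟩)
      rw [tm3_minor_eval] at this
      exact sub_eq_zero.mp this
    simp only [Set.mem_iUnion, exists_prop, id]
    by_cases c1 : (fun a => z (Sum.inl a)) = v
    · exact ⟨A₁, by simp [h𝒯], (hZ1 z).mpr c1⟩
    by_cases c2 : (fun a => z (Sum.inr a)) = v
    · exact ⟨A₂, by simp [h𝒯], (hZ2 z).mpr c2⟩
    by_cases c3 : Yj = Yk ∧ (fun a => z (Sum.inl a)) = fun a => z (Sum.inr a)
    · exact ⟨A₃, by simp [h𝒯], (hZ3 z).mpr c3⟩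
    have hmem : ((fun a => z (Sum.inl a)), (fun a => z (Sum.inr a))) ∈ tm3T Yj Yk v := by
      refine ⟨hz0.1, hz0.2, c1, c2, fun h h' => c3 ⟨h, h'⟩, ?_⟩
      obtain ⟨a, ha⟩ : ∃ a, z (Sum.inl a) - v a ≠ 0 := by
        by_contra hcon
        push Not at hcon
        exact c1 (funext fun a => sub_eq_zero.mp (hcon a))
      refine ⟨(z (Sum.inr a) - v a) / (z (Sum.inl a) - v a), ?_⟩
      funext b
      simp only [Pi.sub_apply, Pi.smul_apply, smul_eq_mul]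
      rw [div_mul_eq_mul_div, eq_div_iff ha]
      have := hzG a b
      linear_combination this
    refine ⟨tm3Pt (Sum.elim (fun a => z (Sum.inl a)) (fun a => z (Sum.inr a))), ?_, ?_⟩
    · rw [h𝒯]
      exact Finset.mem_union_right _ (Finset.mem_image.mpr ⟨_, hfin.mem_toFinset.mpr hmem, rfl⟩)
    · rw [tm3_Zl_pt, Set.mem_singleton_iff]
      funext i
      cases i <;> rfl
  have hiso : ∀ t ∈ tm3T Yj Yk v, IsoZero (G₀ ∪ G) (Sum.elim t.1 t.2) := by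
    rintro ⟨y, y'⟩ ⟨t1, t2, t3, t4, t5, c, t6⟩
    simp only at t1 t2 t3 t4 t5 t6
    rw [ph_isoZero_iff_comp]
    have hz : Sum.elim y y' ∈ Zl (G₀ ∪ G) := by
      rintro g (hg | ⟨ab, rfl⟩)
      · have : Sum.elim y y' ∈ Zl G₀ := by
          rw [hG₀V]
          exact ⟨t1, t2⟩
        exact this g hg
      · rw [tm3_minor_eval]
        simp only [Sum.elim_inl, Sum.elim_inr]
        have e1 := congrFun t6 ab.1
        have e2 := congrFun t6 ab.2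
        simp only [Pi.sub_apply, Pi.smul_apply, smul_eq_mul] at e1 e2
        rw [e1, e2]
        ring
    rw [ph_Zl_eq_iUnion_comps] at hz
    simp only [Set.mem_iUnion, exists_prop] at hz
    obtain ⟨Cc, hCc, hzC⟩ := hz
    have hCc' : IsCompOf Cc (G₀ ∪ G) := hCc
    obtain ⟨a, ha, hCa⟩ := tm3_cover (ph_isCompOf_isVar hCc') 𝒯 id ((ph_isCompOf_subset hCc').trans hcov)
    simp only [id] at hCa
    have hza := hCa hzC
    rw [h𝒯, Finset.mem_union] at ha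
    rcases ha with ha | ha
    · simp only [Finset.mem_insert, Finset.mem_singleton] at ha
      rcases ha with rfl | rfl | rfl
      · exact absurd ((hZ1 _).mp hza) t3
      · exact absurd ((hZ2 _).mp hza) t4
      · obtain ⟨e1, e2⟩ := (hZ3 _).mp hza
        exact absurd e2 (t5 e1)
    · obtain ⟨t, _, rfl⟩ := Finset.mem_image.mp ha
      rw [tm3_Zl_pt] at hCa hza
      have e : Cc = {Sum.elim y y'} := by
        apply Set.Subset.antisymm
        · intro w hw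
          rw [Set.mem_singleton_iff] at hza ⊢
          rw [hza]
          exact hCa hw
        · rintro _ rfl
          exact hzC
      rwa [e] at hCc'
  have hinj : Function.Injective fun t : SpC d × SpC d => (Sum.elim t.1 t.2 : Fin d ⊕ Fin d → ℂ) := by
    rintro ⟨a, b⟩ ⟨a', b'⟩ h
    simp only at h
    have h1 : a = a' := funext fun i => congrFun h (Sum.inl i)
    have h2 : b = b' := funext fun i => congrFun h (Sum.inr i)
    rw [h1, h2]
  have hb := ph_bezout_iso (ph_prod_isVar hj hk) G₀ hG₀V G 2 (by norm_num) hGdeg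
    (S.image fun t => Sum.elim t.1 t.2) (by
      intro z hz
      obtain ⟨t, ht, rfl⟩ := Finset.mem_image.mp hz
      exact hiso t (hS t ht))
  rw [Finset.card_image_of_injective _ hinj, ph_prod_vdim hj hk, ph_prod_vdeg hj hk, hj1, hk1] at hb
  calc S.card ≤ vdeg Yj * vdeg Yk * 2 ^ (1 + 1) := hb
    _ = 4 * vdeg Yj * vdeg Yk := by ring

/-- **(TRISEC + BEZ-ISO)** -/
theorem tm3_trisec {Yi Yj Yk : Set (SpC d)} (hi : IsVar Yi) (hj : IsVar Yj) (hk : IsVar Yk)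
    (hi1 : vdim Yi = 1) (hj1 : vdim Yj = 1) (hk1 : vdim Yk = 1)
    (his : 3 ≤ finrank ℂ (dirSpan Yi)) (hjs : 2 ≤ finrank ℂ (dirSpan Yj))
    (hks : 2 ≤ finrank ℂ (dirSpan Yk)) :
    GenOn Yi fun v => ∀ S : Finset (SpC d × SpC d), (∀ z ∈ S, z ∈ tm3T Yj Yk v) →
      S.card ≤ 4 * vdeg Yj * vdeg Yk := by
  obtain ⟨h, hne, hh⟩ := tm3_fin hi hj hk hi1 hj1 hk1 his hjs hks
  exact ⟨h, hne, fun v hv hhv S hS => tm3_trisec_aux hj hk hj1 hk1 v (hh v hv hhv) S hS⟩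

/-! ### T3-CENTRES -/

/-- the pairs counted at the centre `x` -/
noncomputable def tm3cA (Yj Yk : Set (SpC d)) (Rj Rk : Finset (SpC d)) (v : SpC d) :
    Finset (SpC d × SpC d) :=
  ((Rj.erase v) ×ˢ (Rk.erase v)).filter fun z => Yj = Yk → z.1 ≠ z.2

theorem tm3c_num (t r : ℕ) (ht : 3 ≤ t) (hr : t ≤ r + 1) : 2 * t * t ≤ 9 * (r * r - r) := by
  obtain ⟨s, rfl⟩ : ∃ s, r = s + 2 := ⟨r - 2, by omega⟩
  have h1 : (s + 2) * (s + 2) - (s + 2) = (s + 2) * (s + 1) := by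
    have : (s + 2) * (s + 2) = (s + 2) * (s + 1) + (s + 2) := by ring
    omega
  rw [h1]
  have h2 : t ≤ s + 3 := by omega
  have h3 : t * t ≤ (s + 3) * (s + 3) := Nat.mul_le_mul h2 h2
  nlinarith

theorem tm3c_card (Yj Yk : Set (SpC d)) (Rj Rk : Finset (SpC d)) (v : SpC d)
    (hjk : Yj = Yk → Rj = Rk) (hj : 2 * Rj.card ≤ 3 * (Rj.erase v).card)
    (hk : 2 * Rk.card ≤ 3 * (Rk.erase v).card) (h3 : Yj = Yk → 3 ≤ Rj.card) :
    2 * Rj.card * Rk.card ≤ 9 * (tm3cA Yj Yk Rj Rk v).card := by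
  by_cases h : Yj = Yk
  · have hR := hjk h
    subst hR
    have h1 : tm3cA Yj Yk Rj Rj v = (Rj.erase v).offDiag := by
      ext z
      simp only [tm3cA, Finset.mem_filter, Finset.mem_product, Finset.mem_offDiag]
      constructor
      · rintro ⟨⟨a, b⟩, c⟩
        exact ⟨a, b, c h⟩
      · rintro ⟨a, b, c⟩
        exact ⟨⟨a, b⟩, fun _ => c⟩
    rw [h1, Finset.offDiag_card]
    apply tm3c_num _ _ (h3 h)
    have := Finset.pred_card_le_card_erase (s := Rj) (a := v)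
    omega
  · have h1 : tm3cA Yj Yk Rj Rk v = (Rj.erase v) ×ˢ (Rk.erase v) := by
      unfold tm3cA
      apply Finset.filter_true_of_mem
      intro z _ h'
      exact absurd h' h
    rw [h1, Finset.card_product]
    nlinarith [Nat.mul_le_mul hj hk]


theorem tm3c_sub (x v y : SpC d) (α : ℂ) (h : y - x = α • (v - x)) :
    y - v = (α - 1) • (v - x) := by
  rw [sub_smul, one_smul, ← h]; abel

theorem tm3c_mem (Yj Yk : Set (SpC d)) (Rj Rk : Finset (SpC d)) (x v : SpC d)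
    (hRj : ∀ y ∈ Rj, y ∈ depRoots x v Yj) (hRk : ∀ y ∈ Rk, y ∈ depRoots x v Yk)
    (z : SpC d × SpC d) (hz : z ∈ tm3cA Yj Yk Rj Rk v) : z ∈ tm3T Yj Yk v := by
  simp only [tm3cA, Finset.mem_filter, Finset.mem_product, Finset.mem_erase] at hz
  obtain ⟨⟨⟨h1v, h1⟩, h2v, h2⟩, h3⟩ := hz
  obtain ⟨h1Y, _, α, hα⟩ := hRj _ h1
  obtain ⟨h2Y, _, β, hβ⟩ := hRk _ h2
  refine ⟨h1Y, h2Y, h1v, h2v, h3, (β - 1) / (α - 1), ?_⟩
  have e1 := tm3c_sub x v z.1 α hα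
  have e2 := tm3c_sub x v z.2 β hβ
  have hα1 : α - 1 ≠ 0 := by
    intro h0
    rw [h0, zero_smul, sub_eq_zero] at e1
    exact h1v e1
  rw [e1, e2, smul_smul, div_mul_cancel₀ _ hα1]

theorem tm3c_line (Y : Set (SpC d)) (x x' v y : SpC d) (hne : x ≠ x') (hyv : y ≠ v)
    (h : y ∈ depRoots x v Y) (h' : y ∈ depRoots x' v Y) : ∃ s : ℂ, v - x = s • (x' - x) := by
  obtain ⟨_, _, α, hα⟩ := h
  obtain ⟨_, _, β, hβ⟩ := h'
  have e1 := tm3c_sub x v y α hα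
  have e2 := tm3c_sub x' v y β hβ
  have hβ1 : β - 1 ≠ 0 := by
    intro h0
    rw [h0, zero_smul, sub_eq_zero] at e2
    exact hyv e2
  have e3 : v - x' = ((α - 1) / (β - 1)) • (v - x) := by
    rw [div_eq_inv_mul, ← smul_smul, ← e1, e2, smul_smul, inv_mul_cancel₀ hβ1, one_smul]
  have e4 : x' - x = (1 - (α - 1) / (β - 1)) • (v - x) := by
    rw [sub_smul, one_smul, ← e3]; abel
  have h5 : 1 - (α - 1) / (β - 1) ≠ 0 := by
    intro h0
    rw [h0, zero_smul, sub_eq_zero] at e4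
    exact hne e4.symm
  exact ⟨(1 - (α - 1) / (β - 1))⁻¹, by rw [e4, smul_smul, inv_mul_cancel₀ h5, one_smul]⟩


theorem tm3c_data {Yi Yj : Set (SpC d)} (hi : IsVar Yi) (hj : IsVar Yj)
    (hi1 : vdim Yi = 1) (hj1 : vdim Yj = 1)
    (his : 2 ≤ finrank ℂ (dirSpan Yi)) (hjs : 2 ≤ finrank ℂ (dirSpan Yj)) (x : SpC d)
    (c : PCurve d) (hirr : Irreducible c.F) (hci : ∀ y ∈ Yi, c.Mem (y - x))
    (hcj : ∀ y ∈ Yj, c.Mem (y - x)) (hg : DepHalfGood x Yj) :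
    ∃ t : ℕ, vdeg Yj ≤ 2 * t * c.deg ∧
      GenOn Yi fun v => (depRoots x v Yj).Finite ∧ (depRoots x v Yj).ncard = t := by
  have ni := tm_not_line hi hi1 x (Or.inr his)
  have nj := tm_not_line hj hj1 x (Or.inr hjs)
  have ei := tm_cone_eq c hirr hi hi1 x hci ni
  have ej := tm_cone_eq c hirr hj hj1 x hcj nj
  obtain ⟨t, _, ht⟩ := tm3_ray hj hj1 x (tm_dcone_dim hj hj1 x nj)
  exact ⟨t, tm3_half c hirr hj hj1 hjs x hcj hg t (ht Yj hj rfl), ht Yi hi (by rw [ei, ej])⟩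

theorem tm3c_erase (Y : Set (SpC d)) (x v : SpC d) (R : Finset (SpC d))
    (hR : ∀ y, y ∈ R ↔ y ∈ depRoots x v Y) (h : v ∈ Y → 3 ≤ R.card) :
    2 * R.card ≤ 3 * (R.erase v).card := by
  by_cases hv : v ∈ R
  · have h3 := h ((hR v).1 hv).1
    rw [Finset.card_erase_of_mem hv]
    omega
  · rw [Finset.erase_eq_of_notMem hv]
    omega

theorem tm3c_three (a e t : ℕ) (h1 : 4 * e < a) (h2 : a ≤ 2 * t * e) : 3 ≤ t := by
  by_contra h
  have h3 : t ≤ 2 := by omega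
  have : 2 * t * e ≤ 2 * 2 * e := Nat.mul_le_mul_right _ (Nat.mul_le_mul_left _ h3)
  omega

/-- **(geo:triple-center-bound)** -/
theorem tm3_centres {Yi Yj Yk : Set (SpC d)} (hi : IsVar Yi) (hj : IsVar Yj) (hk : IsVar Yk)
    (hi1 : vdim Yi = 1) (hj1 : vdim Yj = 1) (hk1 : vdim Yk = 1)
    (his : 3 ≤ finrank ℂ (dirSpan Yi)) (hjs : 3 ≤ finrank ℂ (dirSpan Yj))
    (hks : 3 ≤ finrank ℂ (dirSpan Yk)) (S : Finset (SpC d)) (c : SpC d → PCurve d)
    (hirr : ∀ x ∈ S, Irreducible (c x).F)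
    (hc : ∀ x ∈ S, (∀ y ∈ Yi, (c x).Mem (y - x)) ∧ (∀ y ∈ Yj, (c x).Mem (y - x)) ∧
      ∀ y ∈ Yk, (c x).Mem (y - x))
    (hg : ∀ x ∈ S, DepHalfGood x Yj ∧ DepHalfGood x Yk)
    (hadm : ∀ x ∈ S, (Yi = Yj → 4 * (c x).deg < vdeg Yi) ∧ (Yi = Yk → 4 * (c x).deg < vdeg Yi) ∧
      (Yj = Yk → 4 * (c x).deg < vdeg Yj)) :
    ∑ x ∈ S, 1 / ((c x).deg : ℝ) ^ 2 ≤ 72 := by
  -- data at the centres
  have dj : ∀ x : SpC d, ∃ t : ℕ, x ∈ S → vdeg Yj ≤ 2 * t * (c x).deg ∧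
      GenOn Yi fun v => (depRoots x v Yj).Finite ∧ (depRoots x v Yj).ncard = t := by
    intro x
    by_cases hx : x ∈ S
    · obtain ⟨t, ht⟩ := tm3c_data hi hj hi1 hj1 (by omega) (by omega) x (c x) (hirr x hx)
        (hc x hx).1 (hc x hx).2.1 (hg x hx).1
      exact ⟨t, fun _ => ht⟩
    · exact ⟨0, fun h => absurd h hx⟩
  have dk : ∀ x : SpC d, ∃ t : ℕ, x ∈ S → vdeg Yk ≤ 2 * t * (c x).deg ∧
      GenOn Yi fun v => (depRoots x v Yk).Finite ∧ (depRoots x v Yk).ncard = t := by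
    intro x
    by_cases hx : x ∈ S
    · obtain ⟨t, ht⟩ := tm3c_data hi hk hi1 hk1 (by omega) (by omega) x (c x) (hirr x hx)
        (hc x hx).1 (hc x hx).2.2 (hg x hx).2
      exact ⟨t, fun _ => ht⟩
    · exact ⟨0, fun h => absurd h hx⟩
  choose tj htj using dj
  choose tk htk using dk
  -- the general point `v`
  have g1 : GenOn Yi fun v => ∀ x ∈ S, (depRoots x v Yj).Finite ∧ (depRoots x v Yj).ncard = tj x :=
    geo_gen_finset hi S _ fun x hx => (htj x hx).2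
  have g1' : GenOn Yi fun v => ∀ x ∈ S, (depRoots x v Yk).Finite ∧ (depRoots x v Yk).ncard = tk x :=
    geo_gen_finset hi S _ fun x hx => (htk x hx).2
  have g3 : GenOn Yi fun v => ∀ x ∈ S, ∀ x' ∈ S, x ≠ x' → ¬ ∃ s : ℂ, v - x = s • (x' - x) := by
    apply geo_gen_finset hi S _ fun x _ => ?_
    apply geo_gen_finset hi S _ fun x' _ => ?_
    have hns : ¬ Yi ⊆ geoFlat x (Submodule.span ℂ {x' - x}) := by
      intro hsub
      apply tm_not_line hi hi1 x (Or.inr (by omega))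
      refine ⟨x' - x, fun y hy => ?_⟩
      obtain ⟨t, ht⟩ := Submodule.mem_span_singleton.1 (hsub hy)
      exact ⟨t, ht.symm⟩
    refine geo_gen_mono (tm_gen_notMem (geo_flat_isVar x _).1 hns) ?_
    rintro v _ hv _ ⟨s, hs⟩
    exact hv (Submodule.mem_span_singleton.2 ⟨s, hs.symm⟩)
  have g4 : ∀ Y : Set (SpC d), IsVar Y → vdim Y = 1 → GenOn Yi fun v => v ∈ Y → Yi = Y := by
    intro Y hY hY1
    by_cases h : Yi = Y
    · exact geo_gen_of_forall (ph_isVar_nonempty _ hi) fun _ _ _ => h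
    · have hns : ¬ Yi ⊆ Y := fun hsub => h (tm_var_eq hi hY hsub (by omega))
      exact geo_gen_mono (tm_gen_notMem hY hns) fun v _ hv hv' => absurd hv' hv
  have g5 := tm3_trisec hi hj hk hi1 hj1 hk1 his (by omega) (by omega)
  obtain ⟨v, _, ⟨⟨⟨⟨⟨p1, p1'⟩, p3⟩, p4⟩, p4'⟩, p5⟩⟩ := geo_gen_exists
    (geo_gen_and hi (geo_gen_and hi (geo_gen_and hi (geo_gen_and hi (geo_gen_and hi g1 g1') g3)
      (g4 Yj hj hj1)) (g4 Yk hk hk1)) g5)
  -- the finite sets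
  set Rj : SpC d → Finset (SpC d) := fun x =>
    if h : (depRoots x v Yj).Finite then h.toFinset else ∅ with hRj
  set Rk : SpC d → Finset (SpC d) := fun x =>
    if h : (depRoots x v Yk).Finite then h.toFinset else ∅ with hRk
  have mj : ∀ x ∈ S, ∀ y, y ∈ Rj x ↔ y ∈ depRoots x v Yj := by
    intro x hx y
    simp only [hRj, dif_pos (p1 x hx).1, Set.Finite.mem_toFinset]
  have mk : ∀ x ∈ S, ∀ y, y ∈ Rk x ↔ y ∈ depRoots x v Yk := by
    intro x hx y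
    simp only [hRk, dif_pos (p1' x hx).1, Set.Finite.mem_toFinset]
  have cj : ∀ x ∈ S, (Rj x).card = tj x := by
    intro x hx
    simp only [hRj, dif_pos (p1 x hx).1]
    rw [← Set.ncard_eq_toFinset_card _ (p1 x hx).1, (p1 x hx).2]
  have ck : ∀ x ∈ S, (Rk x).card = tk x := by
    intro x hx
    simp only [hRk, dif_pos (p1' x hx).1]
    rw [← Set.ncard_eq_toFinset_card _ (p1' x hx).1, (p1' x hx).2]
  set A : SpC d → Finset (SpC d × SpC d) := fun x => tm3cA Yj Yk (Rj x) (Rk x) v with hA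
  have hAT : ∀ x ∈ S, ∀ z ∈ A x, z ∈ tm3T Yj Yk v := fun x hx z hz =>
    tm3c_mem Yj Yk (Rj x) (Rk x) x v (fun y hy => (mj x hx y).1 hy) (fun y hy => (mk x hx y).1 hy)
      z hz
  have hdisj : (S : Set (SpC d)).PairwiseDisjoint A := by
    intro x hx x' hx' hne
    rw [Function.onFun, Finset.disjoint_left]
    intro z hz hz'
    simp only [hA, tm3cA, Finset.mem_filter, Finset.mem_product, Finset.mem_erase] at hz hz'
    exact p3 x hx x' hx' hne (tm3c_line Yj x x' v z.1 hne hz.1.1.1 ((mj x hx _).1 hz.1.1.2)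
      ((mj x' hx' _).1 hz'.1.1.2))
  have htot : ∑ x ∈ S, (A x).card ≤ 4 * vdeg Yj * vdeg Yk := by
    rw [← Finset.card_biUnion hdisj]
    apply p5
    intro z hz
    obtain ⟨x, hx, hz⟩ := Finset.mem_biUnion.1 hz
    exact hAT x hx z hz
  have hcard : ∀ x ∈ S, 2 * tj x * tk x ≤ 9 * (A x).card := by
    intro x hx
    rw [← cj x hx, ← ck x hx]
    apply tm3c_card
    · intro h
      ext y
      rw [mj x hx, mk x hx, h]
    · apply tm3c_erase Yj x v _ (mj x hx)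
      intro hv
      rw [cj x hx]
      have h := p4 hv
      exact tm3c_three _ _ _ ((hadm x hx).1 h) (h ▸ (htj x hx).1)
    · apply tm3c_erase Yk x v _ (mk x hx)
      intro hv
      rw [ck x hx]
      have h := p4' hv
      exact tm3c_three _ _ _ ((hadm x hx).2.1 h) (h ▸ (htk x hx).1)
    · intro h
      rw [cj x hx]
      exact tm3c_three _ _ _ ((hadm x hx).2.2 h) (htj x hx).1
  have aj := ph_vdeg_pos Yj hj
  have ak := ph_vdeg_pos Yk hk
  have hterm : ∀ x ∈ S, 1 / ((c x).deg : ℝ) ^ 2 ≤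
      18 * ((A x).card : ℝ) / ((vdeg Yj : ℝ) * (vdeg Yk : ℝ)) := by
    intro x hx
    have h1 : vdeg Yj * vdeg Yk ≤ 18 * (c x).deg ^ 2 * (A x).card := by
      calc vdeg Yj * vdeg Yk ≤ (2 * tj x * (c x).deg) * (2 * tk x * (c x).deg) :=
            Nat.mul_le_mul (htj x hx).1 (htk x hx).1
        _ = 2 * (c x).deg ^ 2 * (2 * tj x * tk x) := by ring
        _ ≤ 2 * (c x).deg ^ 2 * (9 * (A x).card) := Nat.mul_le_mul_left _ (hcard x hx)
        _ = 18 * (c x).deg ^ 2 * (A x).card := by ring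
    have h1' : (vdeg Yj : ℝ) * (vdeg Yk : ℝ) ≤ 18 * ((c x).deg : ℝ) ^ 2 * ((A x).card : ℝ) := by
      exact_mod_cast h1
    have hpos : (0 : ℝ) < (vdeg Yj : ℝ) * (vdeg Yk : ℝ) := by
      have : (0 : ℝ) < (vdeg Yj : ℝ) := by exact_mod_cast aj
      have : (0 : ℝ) < (vdeg Yk : ℝ) := by exact_mod_cast ak
      positivity
    have he : (0 : ℝ) < ((c x).deg : ℝ) ^ 2 := by
      rcases Nat.eq_zero_or_pos (c x).deg with h0 | h0
      · rw [h0] at h1'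
        norm_num at h1'
        linarith
      · have : (0 : ℝ) < ((c x).deg : ℝ) := by exact_mod_cast h0
        positivity
    rw [div_le_div_iff₀ he hpos]
    linarith
  calc ∑ x ∈ S, 1 / ((c x).deg : ℝ) ^ 2
      ≤ ∑ x ∈ S, 18 * ((A x).card : ℝ) / ((vdeg Yj : ℝ) * (vdeg Yk : ℝ)) := Finset.sum_le_sum hterm
    _ = 18 * ((∑ x ∈ S, (A x).card : ℕ) : ℝ) / ((vdeg Yj : ℝ) * (vdeg Yk : ℝ)) := by
        rw [← Finset.sum_div, ← Finset.mul_sum, Nat.cast_sum]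
    _ ≤ 72 := by
        have hpos : (0 : ℝ) < (vdeg Yj : ℝ) * (vdeg Yk : ℝ) := by
          have : (0 : ℝ) < (vdeg Yj : ℝ) := by exact_mod_cast aj
          have : (0 : ℝ) < (vdeg Yk : ℝ) := by exact_mod_cast ak
          positivity
        rw [div_le_iff₀ hpos]
        have h2 : ((∑ x ∈ S, (A x).card : ℕ) : ℝ) ≤ 4 * (vdeg Yj : ℝ) * (vdeg Yk : ℝ) := by
          exact_mod_cast htot
        linarith

/-! ### T3-COUNT, T3-NUM, glue -/

/-- `Finset.mem_filter` for an arbitrary decidability instance -/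
theorem tm3_mem_filter {α : Type*} {p : α → Prop} {inst : DecidablePred p} {s : Finset α} {a : α}
    (h : a ∈ @Finset.filter α p inst s) : a ∈ s ∧ p a := Finset.mem_filter.1 h

/-- a default curve -/
noncomputable def tm3C0 : PCurve 3 :=
  ⟨LinearMap.id, X 0, 1, Function.injective_id, isHomogeneous_X _ _, X_ne_zero _⟩

/-- the chosen directional curve of the group of `𝔶` at the centre `x` -/
noncomputable def tm3Grp (D : SpData 3) (x : SpC 3) (𝔶 : Ideal (PrfPol 3)) : PCurve 3 :=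
  if h : ∃ c ∈ D.C (spRe x), ∀ y ∈ zeroLocus ℂ 𝔶, c.Mem (y - x) then Classical.choose h else tm3C0

theorem tm3_grp_spec (D : SpData 3) (x : SpC 3) (𝔶 : Ideal (PrfPol 3)) (hp : 𝔶.IsPrime)
    (h1 : vdim (zeroLocus ℂ 𝔶) = 1) (hT : SpTerm D x 𝔶) :
    tm3Grp D x 𝔶 ∈ D.C (spRe x) ∧ ∀ y ∈ zeroLocus ℂ 𝔶, (tm3Grp D x 𝔶).Mem (y - x) := by
  have h := geo_cone_one (D.C (spRe x)) x (zeroLocus ℂ 𝔶) ⟨𝔶, hp, rfl⟩ h1 hT
  unfold tm3Grp
  rw [dif_pos h]
  exact Classical.choose_spec h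

theorem tm3_count (D : SpData 3) (θ : ℝ) (hD : D.Reg θ) (cho : SpC 3 → Ideal (PrfPol 3))
    (Q : Finset (SpC 3)) (hQ : Q ⊆ D.pts)
    (hcho : ∀ y ∈ Q, (cho y).IsPrime ∧ vdim (zeroLocus ℂ (cho y)) = 1 ∧ y ∈ zeroLocus ℂ (cho y))
    (Γ : Finset (SpC 3 × SpC 3)) (hΓ : Γ ⊆ D.pts ×ˢ Q)
    (hT : ∀ z ∈ Γ, SpTerm D z.1 (cho z.2) ∧ finrank ℂ (dirSpan (zeroLocus ℂ (cho z.2))) = 3) :
    (Γ.card : ℝ) ≤ D.N + 48 * (dM D.P : ℝ) * D.E * D.N
      + (144 * D.N ^ 3) ^ ((1 : ℝ) / 3) * (D.E * D.N) ^ ((2 : ℝ) / 3) := by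
  have hptsN : (D.pts.card : ℝ) ≤ D.N := by
    unfold SpData.pts SpData.N
    exact_mod_cast Finset.card_image_le
  have hQN : (Q.card : ℝ) ≤ D.N := le_trans (by exact_mod_cast Finset.card_le_card hQ) hptsN
  have hN0 : 0 ≤ D.N := by
    unfold SpData.N
    positivity
  have hE0 : 0 ≤ D.E := by
    have := hD.pos
    unfold SpData.E dA
    positivity
  set Γb := Γ.filter (fun z => ¬ DepHalfGood z.1 (zeroLocus ℂ (cho z.2))) with hΓb
  set Γg := Γ.filter (fun z => DepHalfGood z.1 (zeroLocus ℂ (cho z.2))) with hΓg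
  have hsplit : Γ.card = Γg.card + Γb.card :=
    (Finset.card_filter_add_card_filter_not _).symm
  have hzQ : ∀ z ∈ Γ, z.1 ∈ D.pts ∧ z.2 ∈ Q := fun z hz => Finset.mem_product.1 (hΓ hz)
  -- the bad pairs
  have hb : (Γb.card : ℝ) ≤ D.N := by
    refine le_trans ?_ hQN
    have : Γb.card ≤ Q.card := by
      refine Finset.card_le_card_of_injOn (fun z => z.2)
        (fun z hz => (hzQ z (Finset.mem_filter.1 hz).1).2) ?_
      intro z hz z' hz' hzz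
      obtain ⟨hz1, hz2⟩ := Finset.mem_filter.1 (Finset.mem_coe.1 hz)
      obtain ⟨hz1', hz2'⟩ := Finset.mem_filter.1 (Finset.mem_coe.1 hz')
      simp only [] at hzz
      by_contra hne
      have hne1 : z.1 ≠ z'.1 := fun h => hne (Prod.ext h hzz)
      obtain ⟨e1, e2, -⟩ := hcho z.2 (hzQ z hz1).2
      rcases tm3_bad_unique ⟨_, e1, rfl⟩ e2 (by rw [(hT z hz1).2]; norm_num) z.1 z'.1 hne1 with h | h
      · exact hz2 h
      · rw [← hzz] at hz2'
        exact hz2' h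
    exact_mod_cast this
  -- the good pairs
  set V : Finset (SpC 3 × Ideal (PrfPol 3)) := Γg.image (fun z => (z.1, cho z.2)) with hV
  set I : Finset (Ideal (PrfPol 3)) := Q.image cho with hI
  set n : Ideal (PrfPol 3) → ℝ := fun 𝔶 => ((Q.filter (fun y => cho y = 𝔶)).card : ℝ) with hn
  have hVmem : ∀ x 𝔶, (x, 𝔶) ∈ V → ∃ y, (x, y) ∈ Γ ∧ cho y = 𝔶 ∧
      DepHalfGood x (zeroLocus ℂ 𝔶) := by
    intro x 𝔶 h
    obtain ⟨z, hz, hzz⟩ := Finset.mem_image.1 h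
    obtain ⟨hz1, hz2⟩ := Finset.mem_filter.1 hz
    obtain ⟨rfl, rfl⟩ := Prod.mk.inj hzz
    exact ⟨z.2, hz1, rfl, hz2⟩
  have hVspec : ∀ x 𝔶, (x, 𝔶) ∈ V → 𝔶.IsPrime ∧ vdim (zeroLocus ℂ 𝔶) = 1 ∧
      finrank ℂ (dirSpan (zeroLocus ℂ 𝔶)) = 3 ∧ tm3Grp D x 𝔶 ∈ D.C (spRe x) ∧
      (∀ y ∈ zeroLocus ℂ 𝔶, (tm3Grp D x 𝔶).Mem (y - x)) ∧ DepHalfGood x (zeroLocus ℂ 𝔶) ∧
      x ∈ D.pts := by
    intro x 𝔶 h
    obtain ⟨y, hy, rfl, hg⟩ := hVmem x 𝔶 h
    obtain ⟨e1, e2, -⟩ := hcho y (hzQ _ hy).2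
    obtain ⟨t1, t2⟩ := hT _ hy
    obtain ⟨s1, s2⟩ := tm3_grp_spec D x (cho y) e1 e2 t1
    exact ⟨e1, e2, t2, s1, s2, hg, (hzQ _ hy).1⟩
  have hre : ∀ x ∈ D.pts, spRe x ∈ D.P := by
    intro x hx
    obtain ⟨p, hp, rfl⟩ := Finset.mem_image.1 hx
    rw [sp_re_pt]
    exact hp
  have hcen : ∀ (i j k : Ideal (PrfPol 3)) (S : Finset (SpC 3)), (∀ x ∈ S, x ∈ D.pts ∧
      (x, i) ∈ V ∧ (x, j) ∈ V ∧ (x, k) ∈ V ∧
      tm3Grp D x i = tm3Grp D x j ∧ tm3Grp D x i = tm3Grp D x k ∧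
      (i = j → 4 * ((tm3Grp D x i).deg : ℝ) < (vdeg (zeroLocus ℂ i) : ℝ)) ∧
      (i = k → 4 * ((tm3Grp D x i).deg : ℝ) < (vdeg (zeroLocus ℂ i) : ℝ)) ∧
      (j = k → 4 * ((tm3Grp D x i).deg : ℝ) < (vdeg (zeroLocus ℂ j) : ℝ))) →
      ∑ x ∈ S, 1 / ((tm3Grp D x i).deg : ℝ) ^ 2 ≤ 72 := by
    intro i j k S hS
    rcases S.eq_empty_or_nonempty with hSe | ⟨x₀, hx₀⟩
    · rw [hSe]
      simp
    obtain ⟨-, a1, a2, a3, -⟩ := hS x₀ hx₀
    obtain ⟨i1, i2, i3, -⟩ := hVspec x₀ i a1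
    obtain ⟨j1, j2, j3, -⟩ := hVspec x₀ j a2
    obtain ⟨k1, k2, k3, -⟩ := hVspec x₀ k a3
    refine tm3_centres ⟨i, i1, rfl⟩ ⟨j, j1, rfl⟩ ⟨k, k1, rfl⟩ i2 j2 k2 i3.ge j3.ge k3.ge S
      (fun x => tm3Grp D x i) ?_ ?_ ?_ ?_
    · intro x hx
      obtain ⟨hxp, b1, -⟩ := hS x hx
      exact hD.irr (spRe x) (hre x hxp) _ (hVspec x i b1).2.2.2.1
    · intro x hx
      obtain ⟨-, b1, b2, b3, g1, g2, -⟩ := hS x hx
      refine ⟨(hVspec x i b1).2.2.2.2.1, ?_, ?_⟩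
      · rw [g1]
        exact (hVspec x j b2).2.2.2.2.1
      · rw [g2]
        exact (hVspec x k b3).2.2.2.2.1
    · intro x hx
      obtain ⟨-, -, b2, b3, -⟩ := hS x hx
      exact ⟨(hVspec x j b2).2.2.2.2.2.1, (hVspec x k b3).2.2.2.2.2.1⟩
    · intro x hx
      obtain ⟨-, -, -, -, -, -, c1, c2, c3⟩ := hS x hx
      refine ⟨fun h => ?_, fun h => ?_, fun h => ?_⟩
      · exact_mod_cast c1 (tm_zl_inj i j i1 j1 h)
      · exact_mod_cast c2 (tm_zl_inj i k i1 k1 h)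
      · exact_mod_cast c3 (tm_zl_inj j k j1 k1 h)
  have hcount := tm_triple_count D.pts I V n (fun 𝔶 => (vdeg (zeroLocus ℂ 𝔶) : ℝ)) (tm3Grp D)
    (fun _ c => (c.deg : ℝ)) D.N (2 * (dM D.P : ℝ)) D.E 72 ?_ hptsN
    (fun _ _ => Nat.cast_nonneg _) ?_ (by positivity) hE0 (by norm_num) ?_ ?_ ?_ ?_
  · -- assembling
    have hg : (Γg.card : ℝ) ≤ ∑ z ∈ V, n z.2 := by
      rw [Finset.card_eq_sum_card_image (fun z : SpC 3 × SpC 3 => (z.1, cho z.2)) Γg]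
      push_cast
      refine Finset.sum_le_sum fun w _ => ?_
      have : (Γg.filter (fun z => (z.1, cho z.2) = w)).card ≤
          (Q.filter (fun y => cho y = w.2)).card := by
        refine Finset.card_le_card_of_injOn (fun z => z.2) ?_ ?_
        · intro z hz
          obtain ⟨hz1, hz2⟩ := Finset.mem_filter.1 (Finset.mem_coe.1 hz)
          refine Finset.mem_coe.2 (Finset.mem_filter.2
            ⟨(hzQ z (Finset.mem_filter.1 hz1).1).2, ?_⟩)
          rw [← hz2]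
        · intro z hz z' hz' hzz
          obtain ⟨-, hz2⟩ := Finset.mem_filter.1 (Finset.mem_coe.1 hz)
          obtain ⟨-, hz2'⟩ := Finset.mem_filter.1 (Finset.mem_coe.1 hz')
          simp only [] at hzz
          refine Prod.ext ?_ hzz
          have := hz2.trans hz2'.symm
          exact (Prod.mk.inj this).1
      simp only [hn]
      exact_mod_cast this
    have h1 : (Γ.card : ℝ) = Γg.card + Γb.card := by exact_mod_cast hsplit
    rw [h1]
    have h2 : 24 * (2 * (dM D.P : ℝ)) * D.E * D.N = 48 * (dM D.P : ℝ) * D.E * D.N := by ring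
    have h3 : (2 * 72 * D.N ^ 3 : ℝ) = 144 * D.N ^ 3 := by ring
    rw [h2, h3] at hcount
    linarith
  · -- V ⊆ X × I
    intro w hw
    obtain ⟨z, hz, rfl⟩ := Finset.mem_image.1 hw
    have := hzQ z (Finset.mem_filter.1 hz).1
    exact Finset.mem_product.2 ⟨this.1, Finset.mem_image_of_mem _ this.2⟩
  · -- ∑ n ≤ N
    refine le_trans (le_of_eq ?_) hQN
    rw [Finset.card_eq_sum_card_image cho Q]
    push_cast
    rfl
  · -- 1 ≤ e
    rintro ⟨x, 𝔶⟩ hz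
    obtain ⟨e1, -, -, -, s2, -, -⟩ := hVspec x 𝔶 hz
    obtain ⟨y, hy⟩ := ph_isVar_nonempty _ (⟨𝔶, e1, rfl⟩ : IsVar (zeroLocus ℂ 𝔶))
    exact_mod_cast tm3_deg_pos _ (s2 y hy)
  · -- budget
    intro x hx G hG
    have h1 := tm_sum_le_list (D.C (spRe x)) PCurve.deg G (fun g hg => by
      obtain ⟨i, hi, rfl⟩ := hG g hg
      exact (hVspec x i hi).2.2.2.1)
    refine le_trans ?_ (hD.deg (spRe x) (hre x hx))
    exact_mod_cast h1
  · -- mass
    intro 𝔶 h𝔶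
    obtain ⟨y₀, hy₀, rfl⟩ := Finset.mem_image.1 h𝔶
    obtain ⟨e1, e2, -⟩ := hcho y₀ hy₀
    have := sep_count_curve D.P (zeroLocus ℂ (cho y₀)) ⟨_, e1, rfl⟩ e2
      (Q.filter (fun y => cho y = cho y₀)) ((Finset.filter_subset _ _).trans hQ) (by
        intro y hy
        obtain ⟨hy1, hy2⟩ := Finset.mem_filter.1 (Finset.mem_coe.1 hy)
        rw [← hy2]
        exact (hcho y hy1).2.2)
    simp only [hn]
    exact_mod_cast this
  · -- centres
    intro i _ j _ k _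
    refine hcen i j k _ (fun x hx => ?_)
    exact tm3_mem_filter hx

theorem tm3_num (ε : ℝ) (hε : 0 < ε) : ∃ δ₀ : ℝ, 0 < δ₀ ∧ ∀ D : SpData 3, D.Reg δ₀ →
    D.N + 48 * (dM D.P : ℝ) * D.E * D.N
      + (144 * D.N ^ 3) ^ ((1 : ℝ) / 3) * (D.E * D.N) ^ ((2 : ℝ) / 3) ≤ ε * D.N ^ 2 := by
  refine ⟨min 1 ((ε / 55) ^ ((3 : ℝ) / 2)), by positivity, fun D hD => ?_⟩
  have hδ0 := hD.pos
  have hδ1 : D.δ ≤ 1 := hD.le.trans (min_le_left _ _)
  have hδ2 : D.δ ≤ (ε / 55) ^ ((3 : ℝ) / 2) := hD.le.trans (min_le_right _ _)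
  have hN1 : 1 ≤ D.N := hD.one_le_N (min_le_left _ _)
  have hN0 : 0 < D.N := by linarith
  obtain ⟨N, hN⟩ : ∃ N : ℝ, N = D.N := ⟨_, rfl⟩
  obtain ⟨δ, hδ⟩ : ∃ δ : ℝ, δ = D.δ := ⟨_, rfl⟩
  have hA : dA D.P = N ^ ((2 : ℝ) / 3) := by
    rw [hN]
    unfold dA SpData.N
    norm_num
  have hA0 : 0 < dA D.P := by
    rw [hA, hN]
    positivity
  have hE : D.E = δ * N / N ^ ((2 : ℝ) / 3) := by
    unfold SpData.E
    rw [hA, hN, hδ]
  have hM : (dM D.P : ℝ) ≤ δ * N ^ ((2 : ℝ) / 3) := by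
    rw [← hA, hδ]
    exact hD.dist
  have hbig : 1 ≤ δ * N := by
    rw [hδ, hN]
    exact hD.big
  rw [← hN] at hN1 hN0 ⊢
  rw [← hδ] at hδ0 hδ1 hδ2
  rw [hE]
  have hP : 0 < N ^ ((2 : ℝ) / 3) := by positivity
  -- the three terms
  have t1 : N ≤ δ * N ^ 2 := by nlinarith
  have t2 : 48 * (dM D.P : ℝ) * (δ * N / N ^ ((2 : ℝ) / 3)) * N ≤ 48 * δ ^ 2 * N ^ 2 := by
    have h1 : (dM D.P : ℝ) * (δ * N / N ^ ((2 : ℝ) / 3)) ≤ δ ^ 2 * N := by
      calc (dM D.P : ℝ) * (δ * N / N ^ ((2 : ℝ) / 3))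
          ≤ δ * N ^ ((2 : ℝ) / 3) * (δ * N / N ^ ((2 : ℝ) / 3)) :=
            mul_le_mul_of_nonneg_right hM (by positivity)
        _ = δ ^ 2 * N := by
            field_simp
    nlinarith
  have t3a : (144 * N ^ 3) ^ ((1 : ℝ) / 3) ≤ 6 * N := by
    calc (144 * N ^ 3) ^ ((1 : ℝ) / 3) ≤ ((6 * N) ^ 3) ^ ((1 : ℝ) / 3) := by
          apply Real.rpow_le_rpow (by positivity) _ (by norm_num)
          nlinarith [pow_pos hN0 3]
      _ = 6 * N := by
          rw [← Real.rpow_natCast, ← Real.rpow_mul (by positivity)]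
          norm_num
  have t3b : (δ * N / N ^ ((2 : ℝ) / 3) * N) ^ ((2 : ℝ) / 3) ≤ δ ^ ((2 : ℝ) / 3) * N := by
    have h1 : δ * N / N ^ ((2 : ℝ) / 3) * N = δ * N ^ ((4 : ℝ) / 3) := by
      have h2 : N ^ ((4 : ℝ) / 3) * N ^ ((2 : ℝ) / 3) = N * N := by
        rw [← Real.rpow_add hN0]
        norm_num
        ring
      field_simp
      linarith
    rw [h1, Real.mul_rpow hδ0.le (by positivity), ← Real.rpow_mul hN0.le]
    refine mul_le_mul_of_nonneg_left ?_ (by positivity)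
    calc N ^ ((4 : ℝ) / 3 * (2 / 3)) ≤ N ^ (1 : ℝ) :=
          Real.rpow_le_rpow_of_exponent_le hN1 (by norm_num)
      _ = N := Real.rpow_one N
  obtain ⟨x, hx⟩ : ∃ x : ℝ, x = δ ^ ((2 : ℝ) / 3) := ⟨_, rfl⟩
  have hx0 : 0 < x := by
    rw [hx]
    positivity
  have hδx : δ ≤ x := by
    rw [hx]
    calc δ = δ ^ (1 : ℝ) := (Real.rpow_one δ).symm
      _ ≤ δ ^ ((2 : ℝ) / 3) := Real.rpow_le_rpow_of_exponent_ge hδ0 hδ1 (by norm_num)
  have hxε : 55 * x ≤ ε := by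
    have : x ≤ ε / 55 := by
      rw [hx]
      calc δ ^ ((2 : ℝ) / 3) ≤ ((ε / 55) ^ ((3 : ℝ) / 2)) ^ ((2 : ℝ) / 3) :=
            Real.rpow_le_rpow hδ0.le hδ2 (by norm_num)
        _ = ε / 55 := by
            rw [← Real.rpow_mul (by positivity)]
            norm_num
    linarith
  rw [← hx] at t3b
  have t3 : (144 * N ^ 3) ^ ((1 : ℝ) / 3) * (δ * N / N ^ ((2 : ℝ) / 3) * N) ^ ((2 : ℝ) / 3)
      ≤ 6 * x * N ^ 2 := by
    calc _ ≤ 6 * N * (x * N) := mul_le_mul t3a t3b (by positivity) (by positivity)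
      _ = 6 * x * N ^ 2 := by ring
  have hδ2x : δ ^ 2 ≤ x := by nlinarith
  have hN2 : 0 < N ^ 2 := by positivity
  calc N + 48 * (dM D.P : ℝ) * (δ * N / N ^ ((2 : ℝ) / 3)) * N
      + (144 * N ^ 3) ^ ((1 : ℝ) / 3) * (δ * N / N ^ ((2 : ℝ) / 3) * N) ^ ((2 : ℝ) / 3)
      ≤ δ * N ^ 2 + 48 * δ ^ 2 * N ^ 2 + 6 * x * N ^ 2 := by linarith
    _ = (δ + 48 * δ ^ 2 + 6 * x) * N ^ 2 := by ring
    _ ≤ ε * N ^ 2 := mul_le_mul_of_nonneg_right (by linarith) hN2.le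

/-- **T3** -/
theorem geo_T3 : GeoT3Stmt := by
  intro ε hε
  obtain ⟨δ₀, hδ₀, h⟩ := tm3_num ε hε
  refine ⟨δ₀, hδ₀, fun D hD cho Q hQ hcho Γ hΓ hT => ?_⟩
  refine (tm3_count D δ₀ hD cho Q hQ (fun y hy => ⟨(hcho y hy).1, (hcho y hy).2.1,
    (hcho y hy).2.2.1⟩) Γ hΓ (fun z hz => ⟨(hT z hz).2.1, (hT z hz).2.2⟩)).trans (h D hD)

end Claimed.Agent.R273
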