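-- KEEP
import Claimed.Agent.R273.GeoTop
import Claimed.Agent.R273.TmBase
import Claimed.Agent.R273.TmComb
import Claimed.Agent.R273.DepAG
import Claimed.Agent.R273.GeoLin
import Claimed.Agent.R273.GeoGen
import Claimed.Agent.R273.PrfSep

/-!
# Row 273, TERM, part TP: `geo_TP (hd : 3 ≤ d) : GeoTPStmt d` (planar nonlinear curves seen from outside their plane).  Architect helper98.  Prefix `tmp_` (exports `tm_plane_sec`, `tm_plane_deg`, `tm_centres`, `geo_TP`).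

Blueprint: header of TmComb.lean, section TP (helper191).  ALL GLUE IS PROVED: `geo_TP` ⟸ `tm_plane_deg` (P2), `tm_centres` (P4), `tm_pair_count`, `tm_sum_le_list` (TmComb), `sep_count_curve` (PrfSep), `geo_cone_one` (GeoTop), `tmp_num`.
`tm_plane_sec` (P1) ⟸ `tmp_fun`, `tmp_homog`, `tm_not_line`, `tm_cone_dense` (TmBase).  `tm_plane_deg` ⟸ `tmp_deg_le`, `tmp_deg_two`.
`tm_centres` ⟸ `tmp_fun`, `tmp_sup_eq`, `tmp_persp_pt`, `tmp_persp_ne`, `tmp_persp_all`, `tmp_count`, P1, P2, `tm_var_eq`.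

Notation: `Cone(c) = {w | c.Mem w} = c.φ '' Z(c.F) ⊆ R := range c.φ` (`finrank R = 3`), `W = dirSpan Y` (`finrank W = 2`), `λ = lam`: `0` on `W`, `1` on `Y - x`.

NINE PROVER LEAVES (each 20-150 lines; black boxes allowed: everything imported, in particular `ph_*`, `geo_*`, `tm_*`, `rk_*`, `pmb_*`, `dep_*`):
* TMP-A  `tmp_sup_eq`, `tmp_fun`            (Mathlib linear algebra)
* TMP-B  `tmp_homog`                        (homogenisation w.r.t. a linear functional)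
* TMP-C1 `tmp_deg_two`                      (a form of degree `≤ 1` cannot carry the cone)
* TMP-C2 `tmp_deg_le`                       (Bezout in the plane of `Y`)
* TMP-D1 `tmp_persp_pt`, `tmp_persp_ne`     (the perspectivity at one point; vector algebra + P1)
* TMP-D2 `tmp_persp_all`                    (density: irreducibility of `Y` + `tm_cone_dense`)
* TMP-D3 `tmp_count`                        (transport to `ℂ³`, `tm_stab`)
Plans: in the docstrings.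
-/

set_option autoImplicit false

namespace Claimed.Agent.R273

open MvPolynomial Module

variable {d : ℕ}

/-! ### TMP-A: linear algebra of a planar curve and a centre outside its plane -/

/-- LEAF TMP-A.  `W ⊔ span {v} ≤ R` (`sup_le`, `Submodule.span_singleton_le_iff_mem`); `W < W ⊔ span {v}` (`v` is in the right side, not in `W`), so `finrank (W ⊔ span {v}) ≥ 3` (`Submodule.finrank_lt_finrank_of_lt`);
`Submodule.eq_of_le_of_finrank_le` (ambient space finite dimensional). -/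
theorem tmp_sup_eq {W R : Submodule ℂ (SpC d)} (hW : finrank ℂ W = 2) (hR : finrank ℂ R = 3)
    (hWR : W ≤ R) {v : SpC d} (hv : v ∈ R) (hvW : v ∉ W) : R = W ⊔ Submodule.span ℂ {v} := by
  have hle : W ⊔ Submodule.span ℂ {v} ≤ R :=
    sup_le hWR ((Submodule.span_singleton_le_iff_mem v R).2 hv)
  have hlt : W < W ⊔ Submodule.span ℂ {v} := by
    refine lt_of_le_of_ne le_sup_left ?_
    intro h
    apply hvW
    rw [h]
    exact Submodule.mem_sup_right (Submodule.mem_span_singleton_self v)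
  have h3 := Submodule.finrank_lt_finrank_of_lt hlt
  symm
  apply Submodule.eq_of_le_of_finrank_le hle
  omega

/-- LEAF TMP-A.  The functional `λ`: `0` on the direction space of `Y`, `1` on `Y - x`.  Fix `y₀ ∈ Y`; `y₀ - x ∉ dirSpan Y` (else `x - y₀ ∈ dirSpan Y`: `InSpan`).  `Submodule.exists_le_ker_of_notMem` (or `Submodule.exists_dual_map_eq_bot_of_notMem`) gives `f` with `f (y₀ - x) ≠ 0`, `dirSpan Y ≤ ker f`;
`lam := (f (y₀ - x))⁻¹ • f`.  For `y ∈ Y`: `y - x = (y - y₀) + (y₀ - x)`, `y - y₀ ∈ dirSpan Y` (`Submodule.subset_span ⟨y, hy, y₀, hy₀, rfl⟩`). -/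
theorem tmp_fun {Y : Set (SpC d)} (hne : Y.Nonempty) (x : SpC d) (hx : ¬ InSpan x Y) :
    ∃ lam : SpC d →ₗ[ℂ] ℂ, (∀ v ∈ dirSpan Y, lam v = 0) ∧ ∀ y ∈ Y, lam (y - x) = 1 := by
  obtain ⟨y₀, hy₀⟩ := hne
  have hn : y₀ - x ∉ dirSpan Y := by
    intro h
    apply hx
    refine ⟨y₀, hy₀, ?_⟩
    have := Submodule.neg_mem _ h
    rwa [neg_sub] at this
  obtain ⟨f, hf, hker⟩ := Submodule.exists_le_ker_of_notMem hn
  refine ⟨(f (y₀ - x))⁻¹ • f, ?_, ?_⟩
  · intro v hv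
    rw [LinearMap.smul_apply, LinearMap.mem_ker.1 (hker hv), smul_zero]
  · intro y hy
    have h1 : y - x = (y - y₀) + (y₀ - x) := by abel
    have h2 : y - y₀ ∈ dirSpan Y := Submodule.subset_span ⟨y, hy, y₀, hy₀, rfl⟩
    rw [h1, map_add, LinearMap.smul_apply, LinearMap.smul_apply, LinearMap.mem_ker.1 (hker h2),
      smul_zero, zero_add, smul_eq_mul, inv_mul_cancel₀ hf]

theorem tmp_mem_range (c : PCurve d) {w : SpC d} (h : c.Mem w) : w ∈ LinearMap.range c.φ := by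
  obtain ⟨u, hu, -⟩ := h
  exact ⟨u, hu⟩

theorem tmp_dir_le (c : PCurve d) (x : SpC d) (Y : Set (SpC d)) (hcone : ∀ y ∈ Y, c.Mem (y - x)) :
    dirSpan Y ≤ LinearMap.range c.φ := by
  refine Submodule.span_le.2 ?_
  rintro v ⟨y, hy, y', hy', rfl⟩
  have h1 := tmp_mem_range c (hcone y hy)
  have h2 := tmp_mem_range c (hcone y' hy')
  have h3 := Submodule.sub_mem _ h1 h2
  rwa [sub_sub_sub_cancel_right] at h3

theorem tmp_finrank_range (c : PCurve d) : finrank ℂ (LinearMap.range c.φ) = 3 := by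
  rw [LinearMap.finrank_range_of_inj c.inj]
  simp

theorem tmp_range (c : PCurve d) (x : SpC d) (Y : Set (SpC d)) (hr : finrank ℂ (dirSpan Y) = 2)
    (hx : ¬ InSpan x Y) (hcone : ∀ y ∈ Y, c.Mem (y - x)) {y₀ : SpC d} (hy₀ : y₀ ∈ Y) :
    LinearMap.range c.φ = dirSpan Y ⊔ Submodule.span ℂ {y₀ - x} := by
  refine tmp_sup_eq hr (tmp_finrank_range c) (tmp_dir_le c x Y hcone)
    (tmp_mem_range c (hcone y₀ hy₀)) ?_
  intro h
  apply hx
  refine ⟨y₀, hy₀, ?_⟩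
  have := Submodule.neg_mem _ h
  rwa [neg_sub] at this

/-- inside `range c.φ` the plane of `Y` is `x + {λ = 1}` -/
theorem tmp_inSpan (c : PCurve d) (x : SpC d) (Y : Set (SpC d)) (hne : Y.Nonempty)
    (hr : finrank ℂ (dirSpan Y) = 2) (hx : ¬ InSpan x Y) (hcone : ∀ y ∈ Y, c.Mem (y - x))
    (lam : SpC d →ₗ[ℂ] ℂ) (h0 : ∀ v ∈ dirSpan Y, lam v = 0) (h1 : ∀ y ∈ Y, lam (y - x) = 1) :
    ∀ v ∈ LinearMap.range c.φ, lam v = 1 → InSpan (x + v) Y := by
  obtain ⟨y₀, hy₀⟩ := hne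
  intro v hv hlv
  rw [tmp_range c x Y hr hx hcone hy₀] at hv
  obtain ⟨w, hw, u, hu, rfl⟩ := Submodule.mem_sup.1 hv
  obtain ⟨t, rfl⟩ := Submodule.mem_span_singleton.1 hu
  rw [map_add, h0 w hw, map_smul, h1 y₀ hy₀, zero_add, smul_eq_mul, mul_one] at hlv
  subst hlv
  refine ⟨y₀, hy₀, ?_⟩
  have : x + (w + (1 : ℂ) • (y₀ - x)) - y₀ = w := by
    rw [one_smul]; abel
  rwa [this]

theorem tmp_fun_of_inSpan {Y : Set (SpC d)} {x z : SpC d} (lam : SpC d →ₗ[ℂ] ℂ)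
    (h0 : ∀ v ∈ dirSpan Y, lam v = 0) (h1 : ∀ y ∈ Y, lam (y - x) = 1) (hz : InSpan z Y) :
    lam (z - x) = 1 := by
  obtain ⟨y, hy, hzy⟩ := hz
  have : z - x = (z - y) + (y - x) := by abel
  rw [this, map_add, h0 _ hzy, h1 y hy, zero_add]

/-! ### TMP-B: P1 -/

/-- LEAF TMP-B.  Homogenisation with respect to a linear functional.  `g' := aeval (affPoly LinearMap.id x) g` (`rk_eval_aeval_affPoly`: `eval w g' = eval (w + x) g`), `D := g'.totalDegree`,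
`Λ := ∑ i, C (lam (Pi.single i 1)) * X i` (homogeneous of degree `1`; `eval w Λ = lam w`: `lam w = ∑ i, w i * lam (Pi.single i 1)`, cf. the proof of `rk_eval_affPoly`; or use `affPoly (LinearMap.pi fun _ : Fin 1 => lam) 0 0`, `rk_map_affPoly_homog`, `rk_eval_affPoly`),
`G := ∑ k ∈ range (D + 1), Λ ^ (D - k) * homogeneousComponent k g'`: homogeneous of degree `D` (`IsHomogeneous.sum`, `.mul`, `.pow`, `homogeneousComponent_isHomogeneous`; `1 * (D - k) + k = D`).  If `lam w = 1`: `eval w G = ∑ k, eval w (homogeneousComponent k g') = eval w g'` (`sum_homogeneousComponent`). -/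
theorem tmp_homog (g : PrfPol d) (x : SpC d) (lam : SpC d →ₗ[ℂ] ℂ) :
    ∃ (G : PrfPol d) (D : ℕ), G.IsHomogeneous D ∧
      ∀ w : SpC d, lam w = 1 → eval w G = eval (x + w) g := by
  obtain ⟨g', hg'⟩ : ∃ g' : PrfPol d, ∀ w, eval w g' = eval (x + w) g :=
    ⟨aeval (affPoly LinearMap.id x) g, fun w => by
      rw [rk_eval_aeval_affPoly, LinearMap.id_apply, add_comm]⟩
  obtain ⟨Λ, hΛh, hΛ⟩ : ∃ Λ : PrfPol d, Λ.IsHomogeneous 1 ∧ ∀ w, eval w Λ = lam w :=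
    ⟨affPoly (LinearMap.pi fun _ : Fin 1 => lam) 0 0, rk_map_affPoly_homog _ _, fun w => by
      rw [rk_eval_affPoly]
      simp⟩
  refine ⟨∑ k ∈ Finset.range (g'.totalDegree + 1),
    Λ ^ (g'.totalDegree - k) * homogeneousComponent k g', g'.totalDegree, ?_, ?_⟩
  · apply IsHomogeneous.sum
    intro k hk
    have hk' : k ≤ g'.totalDegree := Nat.lt_succ_iff.1 (Finset.mem_range.1 hk)
    have := (hΛh.pow (g'.totalDegree - k)).mul (homogeneousComponent_isHomogeneous k g')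
    rwa [one_mul, Nat.sub_add_cancel hk'] at this
  · intro w hw
    rw [map_sum, ← hg' w]
    conv_rhs => rw [← sum_homogeneousComponent g', map_sum]
    refine Finset.sum_congr rfl fun k _ => ?_
    rw [map_mul, map_pow, hΛ, hw, one_pow, one_mul]

/-- **P1**: `Y = span(Y) ∩ (x + Cone c)`. -/
theorem tm_plane_sec (c : PCurve d) (hc : Irreducible c.F) (x : SpC d) (Y : Set (SpC d))
    (hY : IsVar Y) (hdim : vdim Y = 1) (hcone : ∀ y ∈ Y, c.Mem (y - x)) (hx : ¬ InSpan x Y) :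
    ∀ z : SpC d, InSpan z Y → c.Mem (z - x) → z ∈ Y := by
  intro z hz hzc
  obtain ⟨lam, h0, h1⟩ := tmp_fun (ph_isVar_nonempty Y hY) x hx
  have hnl := tm_not_line hY hdim x (Or.inl hx)
  obtain ⟨p, hp, rfl⟩ := hY
  rw [ph_mem_zeroLocus]
  intro g hg
  obtain ⟨G, D, hG, hGg⟩ := tmp_homog g x lam
  have hvan := tm_cone_dense c hc ⟨p, hp, rfl⟩ hdim x hcone hnl G (by
    intro y hy t
    rw [pmb_homog_eval_smul hG, hGg _ (h1 y hy), add_sub_cancel,
      (ph_mem_zeroLocus p y).1 hy g hg, mul_zero])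
  have h2 := hvan _ hzc
  rwa [hGg _ (tmp_fun_of_inSpan lam h0 h1 hz), add_sub_cancel] at h2

/-! ### TMP-C: P2 -/

/-- LEAF TMP-C1.  Suppose `c.deg ≤ 1`.  Then `Z := {u | eval u c.F = 0}` is closed under linear combinations and nonempty: `deg = 0`: `c.F = C a` (`IsHomogeneous` of degree `0`: `totalDegree_eq_zero_iff_eq_C` / `IsHomogeneous.totalDegree`), `a ≠ 0` (`c.ne`), no zero at all, but `hcone y₀` gives one.
`deg = 1`: `u ↦ eval u c.F` is additive and homogeneous (`c.F = ∑ i, C (coeff (single i 1) c.F) * X i`; or: write `c.F` as the sum of its monomials, each of degree one).  So `K := {w | c.Mem w}` is (the carrier of) a submodule `c.φ`-image of `Z`, it contains `y - x` (`y ∈ Y`), hence `dirSpan Y` and `y₀ - x`, hence `range c.φ` (`tmp_range`).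
So every `u` has `c.φ u = c.φ u'`, `eval u' c.F = 0`, `u = u'` (`c.inj`): `c.F` vanishes everywhere, `c.F = 0` (`MvPolynomial.funext`), contradiction with `c.ne`. -/
theorem tmp_deg_two (c : PCurve d) (x : SpC d) (Y : Set (SpC d)) (hne : Y.Nonempty)
    (hr : finrank ℂ (dirSpan Y) = 2) (hx : ¬ InSpan x Y) (hcone : ∀ y ∈ Y, c.Mem (y - x)) :
    2 ≤ c.deg := by
  by_contra hlt
  push Not at hlt
  obtain ⟨y₀, hy₀⟩ := hne
  -- the evaluation is linear
  have hlin : ∃ L : (Fin 3 → ℂ) →ₗ[ℂ] ℂ, ∀ u, eval u c.F = 0 ↔ L u = 0 := by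
    have hcase : c.deg = 0 ∨ c.deg = 1 := by omega
    rcases hcase with h0 | h1
    · exfalso
      have hh := c.hom
      rw [h0] at hh
      have htd : c.F.totalDegree = 0 := by
        have := hh.totalDegree_le
        omega
      rw [totalDegree_eq_zero_iff_eq_C] at htd
      obtain ⟨u, -, hu⟩ := hcone y₀ hy₀
      rw [htd, eval_C] at hu
      apply c.ne
      rw [htd, hu, C_0]
    · have hh := c.hom
      rw [h1] at hh
      refine ⟨{ toFun := fun u => eval u c.F, map_add' := ?_, map_smul' := ?_ }, fun u => Iff.rfl⟩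
      · intro u v
        rw [c.F.as_sum]
        simp only [map_sum]
        rw [← Finset.sum_add_distrib]
        apply Finset.sum_congr rfl
        intro m hm
        have hm1 : m.degree = 1 := by
          have := hh (mem_support_iff.1 hm)
          rw [← this, Finsupp.degree_eq_weight_one]
          rfl
        have hm2 : m ∈ Set.range (fun a : Fin 3 => Finsupp.single a 1) := by
          rw [Finsupp.range_single_one]
          exact hm1
        obtain ⟨a, rfl⟩ := hm2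
        simp only [eval_monomial, Finsupp.prod_single_index, pow_one, pow_zero, Pi.add_apply]
        ring
      · intro t u
        have := pmb_homog_eval_smul hh t u
        simpa using this
  obtain ⟨L, hL⟩ := hlin
  have hK : LinearMap.range c.φ ≤ (LinearMap.ker L).map c.φ := by
    have hmem : ∀ y ∈ Y, y - x ∈ (LinearMap.ker L).map c.φ := by
      intro y hy
      obtain ⟨u, hu, hu0⟩ := hcone y hy
      exact ⟨u, (hL u).1 hu0, hu⟩
    rw [tmp_range c x Y hr hx hcone hy₀]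
    refine sup_le ?_ ?_
    · refine Submodule.span_le.2 ?_
      rintro v ⟨y, hy, y', hy', rfl⟩
      have h3 := Submodule.sub_mem _ (hmem y hy) (hmem y' hy')
      rwa [sub_sub_sub_cancel_right] at h3
    · rw [Submodule.span_singleton_le_iff_mem]
      exact hmem y₀ hy₀
  apply c.ne
  apply MvPolynomial.funext
  intro u
  obtain ⟨u', hu', hu⟩ := hK ⟨u, rfl⟩
  rw [c.inj hu] at hu'
  rw [map_zero]
  exact (hL u).2 hu'

/-- LEAF TMP-C2.  Bezout in the plane.  `y₀ ∈ Y`, `Π := geoFlat y₀ (dirSpan Y)`: `IsVar`, `vdim = 2`, `vdeg = 1` (`geo_flat_isVar`); `Y ⊆ Π`.  `Π = zeroLocus q = Zl (q : Set _)` (`ph_Zl_eq_zeroLocus`, `Ideal.span_eq`): `G₀ := (q : Set _)`.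
`ψ` a linear left inverse of `c.φ` (`LinearMap.exists_leftInverse_of_injective c.φ (LinearMap.ker_eq_bot.2 c.inj)`); `g₀ := aeval (affPoly ψ (-(ψ x))) c.F`: `eval y g₀ = eval (ψ (y - x)) c.F` (`rk_eval_aeval_affPoly`), `g₀.totalDegree ≤ c.F.totalDegree ≤ c.deg` (`rk_totalDegree_aeval_le`, `rk_map_affPoly_degree`, `IsHomogeneous.totalDegree_le`).
`g₀ = 0` on `Y` (`hcone`: `y - x = c.φ u`, `ψ (c.φ u) = u`).  `g₀ ≢ 0` on `Π`: otherwise every `z ∈ Π` has `z - x ∈ range c.φ` (`tmp_range`: `z - x = (z - y₀) + (y₀ - x)`), so `c.Mem (z - x)` (witness `ψ (z - x)`), `InSpan z Y`, so `z ∈ Y` (`tm_plane_sec`): `Π ⊆ Y`, `2 ≤ 1` (`ph_vdim_mono`).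
`Y ⊆ Zl (insert g₀ G₀)`: `ph_isVar_subset_comp` gives a component `V ⊇ Y`, `vdim V + 1 = 2` (`ph_pit`), `Y = V` (`tm_var_eq`, `ph_isCompOf_isVar`).  `ph_bezout_cut` with `𝒲 = {Y}`: `vdeg Y ≤ g₀.totalDegree * 1`. -/
theorem tmp_deg_le (c : PCurve d) (hc : Irreducible c.F) (x : SpC d) (Y : Set (SpC d))
    (hY : IsVar Y) (hdim : vdim Y = 1) (hcone : ∀ y ∈ Y, c.Mem (y - x)) (hx : ¬ InSpan x Y)
    (hr : finrank ℂ (dirSpan Y) = 2) : vdeg Y ≤ c.deg := by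
  classical
  obtain ⟨y₀, hy₀⟩ := ph_isVar_nonempty Y hY
  obtain ⟨hPv, hPd, hPg⟩ := geo_flat_isVar y₀ (dirSpan Y)
  have hYP : Y ⊆ geoFlat y₀ (dirSpan Y) := fun y hy =>
    Submodule.subset_span ⟨y, hy, y₀, hy₀, rfl⟩
  obtain ⟨q, hq, hPq⟩ := id hPv
  have hG₀ : Zl (q : Set (PrfPol d)) = geoFlat y₀ (dirSpan Y) := by
    rw [ph_Zl_eq_zeroLocus, Ideal.span_eq, hPq]
  obtain ⟨ψ, hψ⟩ := LinearMap.exists_leftInverse_of_injective c.φ (LinearMap.ker_eq_bot.2 c.inj)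
  have hψ' : ∀ u, ψ (c.φ u) = u := fun u => by
    have := congrArg (fun f => f u) hψ
    simpa using this
  obtain ⟨g₀, hg₀⟩ : ∃ g₀, g₀ = aeval (affPoly ψ (-(ψ x))) c.F := ⟨_, rfl⟩
  have heval : ∀ y, eval y g₀ = eval (ψ (y - x)) c.F := by
    intro y
    rw [hg₀, rk_eval_aeval_affPoly, map_sub, sub_eq_add_neg]
  have hdeg : g₀.totalDegree ≤ c.deg := by
    rw [hg₀]
    exact (rk_totalDegree_aeval_le _ (fun k => rk_map_affPoly_degree _ _ k) _).trans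
      c.hom.totalDegree_le
  have hgY : ∀ y ∈ Y, eval y g₀ = 0 := by
    intro y hy
    obtain ⟨u, hu, hu0⟩ := hcone y hy
    rw [heval, ← hu, hψ', hu0]
  have hgP : ∃ z ∈ geoFlat y₀ (dirSpan Y), eval z g₀ ≠ 0 := by
    by_contra hcon
    push Not at hcon
    have hsub : geoFlat y₀ (dirSpan Y) ⊆ Y := by
      intro z hz
      have hzr : z - x ∈ LinearMap.range c.φ := by
        rw [tmp_range c x Y hr hx hcone hy₀]
        have : z - x = (z - y₀) + (y₀ - x) := by abel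
        rw [this]
        exact Submodule.add_mem_sup hz (Submodule.mem_span_singleton_self _)
      obtain ⟨u, hu⟩ := hzr
      refine tm_plane_sec c hc x Y hY hdim hcone hx z ⟨y₀, hy₀, hz⟩ ⟨u, hu, ?_⟩
      have := hcon z hz
      rwa [heval, ← hu, hψ'] at this
    have := ph_vdim_mono hsub
    rw [hPd, hr, hdim] at this
    omega
  have hYZ : Y ⊆ Zl (insert g₀ (q : Set (PrfPol d))) := by
    intro y hy g hg
    rcases hg with rfl | hg
    · exact hgY y hy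
    · have : y ∈ Zl (q : Set (PrfPol d)) := by rw [hG₀]; exact hYP hy
      exact this g hg
  obtain ⟨V, hV, hYV⟩ := ph_isVar_subset_comp hY hYZ
  have hVd := ph_pit _ hPv _ hG₀ g₀ hgP V hV
  have hYeq : Y = V := tm_var_eq hY (ph_isCompOf_isVar hV) hYV (by
    rw [hPd, hr] at hVd
    omega)
  have hb := ph_bezout_cut _ hPv _ hG₀ g₀ hgP {Y} (by
    intro W hW
    rw [Finset.mem_singleton] at hW
    rw [hW, hYeq]
    exact hV)
  rw [Finset.sum_singleton, hPg, mul_one] at hb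
  exact hb.trans hdeg

/-- **P2** -/
theorem tm_plane_deg (c : PCurve d) (hc : Irreducible c.F) (x : SpC d) (Y : Set (SpC d))
    (hY : IsVar Y) (hdim : vdim Y = 1) (hcone : ∀ y ∈ Y, c.Mem (y - x)) (hx : ¬ InSpan x Y)
    (hr : finrank ℂ (dirSpan Y) = 2) : vdeg Y ≤ c.deg ∧ 2 ≤ c.deg :=
  ⟨tmp_deg_le c hc x Y hY hdim hcone hx hr,
    tmp_deg_two c x Y (ph_isVar_nonempty Y hY) hr hx hcone⟩

/-! ### TMP-D: P4 -/

/-- `Y` is a planar nonlinear irreducible curve, `x` lies outside its plane, `c` is irreducible and `Y ⊆ x + Cone(c)` -/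
structure TmpCen (c : PCurve d) (x : SpC d) (Y : Set (SpC d)) : Prop where
  irr : Irreducible c.F
  var : IsVar Y
  dim : vdim Y = 1
  rk : finrank ℂ (dirSpan Y) = 2
  out : ¬ InSpan x Y
  cone : ∀ y ∈ Y, c.Mem (y - x)

theorem tmp_off_plane {c : PCurve d} {x : SpC d} {Y Y' : Set (SpC d)} (h : TmpCen c x Y)
    (h' : TmpCen c x Y') (hne : Y ≠ Y') : ∃ y' ∈ Y', ¬ InSpan y' Y := by
  by_contra hcon
  push Not at hcon
  have hsub : Y' ⊆ Y := fun y' hy' =>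
    tm_plane_sec c h.irr x Y h.var h.dim h.cone h.out y' (hcon y' hy') (h'.cone y' hy')
  exact hne (tm_var_eq h'.var h.var hsub (by rw [h.dim, h'.dim])).symm

theorem tmp_range_eq {c c₀ : PCurve d} {x x₀ : SpC d} {Y Y' : Set (SpC d)} (h : TmpCen c x Y)
    (h' : TmpCen c x Y') (h₀ : TmpCen c₀ x₀ Y) (h₀' : TmpCen c₀ x₀ Y') (hne : Y ≠ Y') :
    LinearMap.range c.φ = LinearMap.range c₀.φ := by
  obtain ⟨y', hy', hout⟩ := tmp_off_plane h₀ h₀' hne
  obtain ⟨y₀, hy₀⟩ := ph_isVar_nonempty Y h.var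
  have hv : y' - y₀ ∉ dirSpan Y := fun hv => hout ⟨y₀, hy₀, hv⟩
  have key : ∀ (c₁ : PCurve d) (x₁ : SpC d), TmpCen c₁ x₁ Y → TmpCen c₁ x₁ Y' →
      LinearMap.range c₁.φ = dirSpan Y ⊔ Submodule.span ℂ {y' - y₀} := by
    intro c₁ x₁ h₁ h₁'
    refine tmp_sup_eq h₁.rk (tmp_finrank_range c₁) (tmp_dir_le c₁ x₁ Y h₁.cone) ?_ hv
    have h3 := Submodule.sub_mem _ (tmp_mem_range c₁ (h₁'.cone y' hy'))
      (tmp_mem_range c₁ (h₁.cone y₀ hy₀))
    rwa [sub_sub_sub_cancel_right] at h3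
  rw [key c x h h', key c₀ x₀ h₀ h₀']

theorem tmp_xi_mem {c c₀ : PCurve d} {x x₀ : SpC d} {Y Y' : Set (SpC d)} (h : TmpCen c x Y)
    (h' : TmpCen c x Y') (h₀ : TmpCen c₀ x₀ Y) (h₀' : TmpCen c₀ x₀ Y') (hne : Y ≠ Y') :
    x - x₀ ∈ LinearMap.range c₀.φ := by
  obtain ⟨y₀, hy₀⟩ := ph_isVar_nonempty Y h.var
  have h1 := tmp_mem_range c (h.cone y₀ hy₀)
  rw [tmp_range_eq h h' h₀ h₀' hne] at h1
  have h2 := tmp_mem_range c₀ (h₀.cone y₀ hy₀)
  have h3 := Submodule.sub_mem _ h2 h1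
  rwa [sub_sub_sub_cancel_left] at h3

/-- LEAF TMP-D1.  The perspectivity with centre `x` from the plane of `Y` to the plane of `Y'`, at one point.  `ξ := x - x₀`, `u := y - x₀`, `t := (1 - λ' ξ) / (λ' u - λ' ξ)`, `z := x + t • (y - x)`.  `z - x₀ = ξ + t • (u - ξ) ∈ range c₀.φ` (`hξ`, `tmp_mem_range c₀ (hcY₀ y hy)`), `λ' (z - x₀) = 1`,
so `InSpan z Y'` (`tmp_inSpan c₀ x₀ Y' ..` applied to `v = z - x₀`).  `c.Mem (z - x)` (`geo_cone_smul c (hcY y hy) t`).  `z ∈ Y'` (`tm_plane_sec c h'.irr x Y' ..`), so `c₀.Mem (z - x₀)` (`h₀'.cone`), and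
`(λ' u - λ' ξ) • (z - x₀) = (1 - λ' ξ) • u + (λ' u - 1) • ξ` (`geo_cone_smul`; componentwise `funext i; simp; field_simp; ring`). -/
theorem tmp_persp_pt {c c₀ : PCurve d} {x x₀ : SpC d} {Y Y' : Set (SpC d)}
    (hcY : ∀ y ∈ Y, c.Mem (y - x)) (h' : TmpCen c x Y') (hcY₀ : ∀ y ∈ Y, c₀.Mem (y - x₀))
    (h₀' : TmpCen c₀ x₀ Y') (hξ : x - x₀ ∈ LinearMap.range c₀.φ) (lam' : SpC d →ₗ[ℂ] ℂ)
    (h0' : ∀ v ∈ dirSpan Y', lam' v = 0) (h1' : ∀ y ∈ Y', lam' (y - x₀) = 1) (y : SpC d)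
    (hy : y ∈ Y) (hne : lam' (y - x₀) ≠ lam' (x - x₀)) :
    c₀.Mem ((1 - lam' (x - x₀)) • (y - x₀) + (lam' (y - x₀) - 1) • (x - x₀)) := by
  obtain ⟨a, ha⟩ : ∃ a, a = lam' (x - x₀) := ⟨_, rfl⟩
  obtain ⟨e, he⟩ : ∃ e, e = lam' (y - x₀) := ⟨_, rfl⟩
  rw [← ha, ← he] at hne ⊢
  have hea : e - a ≠ 0 := sub_ne_zero.mpr hne
  obtain ⟨t, ht⟩ : ∃ t, t = (1 - a) / (e - a) := ⟨_, rfl⟩
  obtain ⟨z, hz⟩ : ∃ z, z = x + t • (y - x) := ⟨_, rfl⟩
  have hzx₀ : z - x₀ = (x - x₀) + t • ((y - x₀) - (x - x₀)) := by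
    rw [hz, sub_sub_sub_cancel_right]; abel
  have hzR : z - x₀ ∈ LinearMap.range c₀.φ := by
    rw [hzx₀]
    exact Submodule.add_mem _ hξ (Submodule.smul_mem _ _
      (Submodule.sub_mem _ (tmp_mem_range c₀ (hcY₀ y hy)) hξ))
  have hlz : lam' (z - x₀) = 1 := by
    rw [hzx₀, map_add, map_smul, map_sub (f := lam') (y - x₀) (x - x₀), ← ha, ← he, ht, smul_eq_mul]
    field_simp
    ring
  have hzspan : InSpan z Y' := by
    have := tmp_inSpan c₀ x₀ Y' (ph_isVar_nonempty Y' h₀'.var) h₀'.rk h₀'.out h₀'.cone lam' h0' h1'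
      (z - x₀) hzR hlz
    rwa [add_sub_cancel] at this
  have hzc : c.Mem (z - x) := by
    have := geo_cone_smul c (hcY y hy) t
    rwa [hz, add_sub_cancel_left]
  have hzY' : z ∈ Y' := tm_plane_sec c h'.irr x Y' h'.var h'.dim h'.cone h'.out z hzspan hzc
  have hfin := geo_cone_smul c₀ (h₀'.cone z hzY') (e - a)
  have heq : (e - a) • (z - x₀) = (1 - a) • (y - x₀) + (e - 1) • (x - x₀) := by
    rw [hzx₀, ht]
    funext i
    simp only [Pi.add_apply, Pi.smul_apply, Pi.sub_apply, smul_eq_mul]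
    field_simp
    ring
  rwa [heq] at hfin

/-- LEAF TMP-D1.  Otherwise `λ' (y - x) = 0` for all `y ∈ Y` (`y - x = (y - x₀) - (x - x₀)`), so `λ' = 0` on `dirSpan Y` (`Submodule.span_induction` / `Submodule.span_le` into `ker λ'`) and at `y₀ - x`, hence on `range c.φ` (`tmp_range c x Y h.rk h.out h.cone`) `= range c₀.φ ∋ y' - x₀` (`y' ∈ Y'`, `ph_isVar_nonempty`, `tmp_mem_range`), where `λ' = 1`. -/
theorem tmp_persp_ne {c c₀ : PCurve d} {x x₀ : SpC d} {Y Y' : Set (SpC d)} (h : TmpCen c x Y)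
    (h₀' : TmpCen c₀ x₀ Y') (hR : LinearMap.range c.φ = LinearMap.range c₀.φ)
    (lam' : SpC d →ₗ[ℂ] ℂ) (h1' : ∀ y ∈ Y', lam' (y - x₀) = 1) :
    ∃ y ∈ Y, lam' (y - x₀) ≠ lam' (x - x₀) := by
  by_contra hcon
  push Not at hcon
  have hz : ∀ y ∈ Y, lam' (y - x) = 0 := by
    intro y hy
    have : y - x = (y - x₀) - (x - x₀) := by abel
    rw [this, map_sub, hcon y hy, sub_self]
  obtain ⟨y₀, hy₀⟩ := ph_isVar_nonempty Y h.var
  obtain ⟨y', hy'⟩ := ph_isVar_nonempty Y' h₀'.var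
  have hdir : dirSpan Y ≤ LinearMap.ker lam' := by
    refine Submodule.span_le.2 ?_
    rintro v ⟨y, hy, y₂, hy₂, rfl⟩
    have : y - y₂ = (y - x) - (y₂ - x) := by abel
    rw [SetLike.mem_coe, LinearMap.mem_ker, this, map_sub, hz y hy, hz y₂ hy₂, sub_self]
  have hle : LinearMap.range c.φ ≤ LinearMap.ker lam' := by
    rw [tmp_range c x Y h.rk h.out h.cone hy₀]
    refine sup_le hdir ?_
    rw [Submodule.span_singleton_le_iff_mem, LinearMap.mem_ker]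
    exact hz y₀ hy₀
  have hmem : y' - x₀ ∈ LinearMap.range c.φ := by
    rw [hR]
    exact tmp_mem_range c₀ (h₀'.cone y' hy')
  have := LinearMap.mem_ker.1 (hle hmem)
  rw [h1' y' hy'] at this
  exact one_ne_zero this

/-- LEAF TMP-D2.  Density: a linear map which sends a dense open part of `Y - x₀` into `Cone(c₀)` preserves `Cone(c₀)`.  `geo_cone_closed c₀`: `c₀.Mem w ↔ w ∈ Zl G`.  Fix `g ∈ G`.
(1) `g₁ := aeval (affPoly T (-(T x₀))) g` (`eval y g₁ = eval (T (y - x₀)) g`, `rk_eval_aeval_affPoly`), `f := ∑ i, C (μ (Pi.single i 1)) * (X i - C (x₀ i)) - C a` (`eval y f = μ (y - x₀) - a`).  `f * g₁ = 0` on `Y` (`hT`), `f ≢ 0` on `Y` (`hne`): `ph_isVar_mul h₀.var`: `g₁ = 0` on `Y`.  So `c₀.Mem (T (y - x₀))` for ALL `y ∈ Y`.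
(2) `g₂ := aeval (affPoly T 0) g` (`eval w g₂ = eval (T w) g`).  `eval (t • (y - x₀)) g₂ = 0` because `T (t • (y - x₀)) = t • T (y - x₀)` is in the cone (`geo_cone_smul`).  `tm_cone_dense c₀ h₀.irr h₀.var h₀.dim x₀ h₀.cone (tm_not_line h₀.var h₀.dim x₀ (Or.inl h₀.out)) g₂`. -/
theorem tmp_persp_all {c₀ : PCurve d} {x₀ : SpC d} {Y : Set (SpC d)} (h₀ : TmpCen c₀ x₀ Y)
    (T : SpC d →ₗ[ℂ] SpC d) (μ : SpC d →ₗ[ℂ] ℂ) (a : ℂ) (hne : ∃ y ∈ Y, μ (y - x₀) ≠ a)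
    (hT : ∀ y ∈ Y, μ (y - x₀) ≠ a → c₀.Mem (T (y - x₀))) : ∀ v, c₀.Mem v → c₀.Mem (T v) := by
  obtain ⟨G, hG⟩ := geo_cone_closed c₀
  obtain ⟨f, hf⟩ : ∃ f : PrfPol d, ∀ y, eval y f = μ (y - x₀) - a := by
    refine ⟨affPoly (LinearMap.pi fun _ : Fin 1 => μ) (fun _ => -(μ x₀) - a) 0, fun y => ?_⟩
    rw [rk_eval_affPoly]
    simp only [Pi.add_apply, LinearMap.pi_apply, map_sub]
    ring
  have hall : ∀ y ∈ Y, c₀.Mem (T (y - x₀)) := by
    intro y hy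
    rw [hG]
    intro g hg
    have h1 : ∀ y ∈ Y, eval y (f * aeval (affPoly T (-(T x₀))) g) = 0 := by
      intro y hy
      rw [map_mul, hf, rk_eval_aeval_affPoly]
      by_cases h : μ (y - x₀) = a
      · rw [h, sub_self, zero_mul]
      · have := (hG _).1 (hT y hy h) g hg
        rw [map_sub, sub_eq_add_neg] at this
        rw [this, mul_zero]
    rcases ph_isVar_mul h₀.var _ _ h1 with h2 | h2
    · obtain ⟨y1, hy1, hne1⟩ := hne
      have := h2 y1 hy1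
      rw [hf] at this
      exact absurd (sub_eq_zero.1 this) hne1
    · have := h2 y hy
      rw [rk_eval_aeval_affPoly] at this
      rwa [map_sub, sub_eq_add_neg]
  intro v hv
  rw [hG]
  intro g hg
  have := tm_cone_dense c₀ h₀.irr h₀.var h₀.dim x₀ h₀.cone
    (tm_not_line h₀.var h₀.dim x₀ (Or.inl h₀.out)) (aeval (affPoly T 0) g) (by
      intro y hy t
      rw [rk_eval_aeval_affPoly, add_zero, map_smul]
      exact (hG _).1 (geo_cone_smul c₀ (hall y hy) t) g hg) v hv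
  rwa [rk_eval_aeval_affPoly, add_zero] at this

/-- LEAF TMP-D3.  Transport to `ℂ³` and the stabiliser bound `tm_stab` (TmComb.lean).  `φ := c₀.φ`, `ψ` a linear left inverse (`LinearMap.exists_leftInverse_of_injective`), `φ (ψ v) = v` for `v ∈ range φ`.  `ξ_x := x - x₀`, `ℓ := (lam' - lam) ∘ₗ φ ≠ 0` (`hll`), `w_x := (1 - λ' ξ_x)⁻¹ • ψ ξ_x`, `S' := S.image w`.
* `x ↦ w_x` is injective on `S`: `φ w_x = (1 - λ' ξ)⁻¹ • ξ`, `1 + λ' (φ w_x) = (1 - λ' ξ)⁻¹`, so `ξ = (1 + λ' (φ w_x))⁻¹ • φ w_x`.  `Finset.card_image_of_injOn`.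
* `1 + ℓ w_x = (1 - λ ξ) / (1 - λ' ξ) ≠ 0`.
* `eval u F = 0` ⟹ `c₀.Mem (φ u)` ⟹ `c₀.Mem ((1 - λ' ξ) • φ u + ℓ u • ξ)`, i.e. `∃ u'`, `φ u' = φ ((1 - λ' ξ) • (u + ℓ u • w_x))`, `eval u' F = 0`; `c₀.inj`; `pmb_homog_eval_smul c₀.hom`: `(1 - λ' ξ) ^ deg * eval (u + ℓ u • w_x) F = 0`.
`tm_stab c₀.F c₀.deg c₀.hom hirr he ℓ _ S' _`. -/
theorem tmp_count (c₀ : PCurve d) (hirr : Irreducible c₀.F) (he : 2 ≤ c₀.deg) (x₀ : SpC d)
    (lam lam' : SpC d →ₗ[ℂ] ℂ) (hll : ∃ v ∈ LinearMap.range c₀.φ, lam v ≠ lam' v)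
    (S : Finset (SpC d))
    (hS : ∀ x ∈ S, x - x₀ ∈ LinearMap.range c₀.φ ∧ lam (x - x₀) ≠ 1 ∧ lam' (x - x₀) ≠ 1 ∧
      ∀ v, c₀.Mem v → c₀.Mem ((1 - lam' (x - x₀)) • v + (lam' v - lam v) • (x - x₀))) :
    S.card ≤ c₀.deg := by
  classical
  obtain ⟨ψ, hψ⟩ := LinearMap.exists_leftInverse_of_injective c₀.φ (LinearMap.ker_eq_bot.2 c₀.inj)
  have hψ' : ∀ u, ψ (c₀.φ u) = u := fun u => by
    have := congrArg (fun f : (Fin 3 → ℂ) →ₗ[ℂ] (Fin 3 → ℂ) => f u) hψ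
    simpa using this
  have hφψ : ∀ v ∈ LinearMap.range c₀.φ, c₀.φ (ψ v) = v := by
    rintro _ ⟨u, rfl⟩
    rw [hψ']
  obtain ⟨ℓ, hℓ⟩ : ∃ ℓ : (Fin 3 → ℂ) →ₗ[ℂ] ℂ, ∀ u, ℓ u = lam' (c₀.φ u) - lam (c₀.φ u) :=
    ⟨(lam' - lam) ∘ₗ c₀.φ, fun u => rfl⟩
  have hℓ0 : ℓ ≠ 0 := by
    obtain ⟨_, ⟨u, rfl⟩, hu⟩ := hll
    intro h
    have h1 := hℓ u
    rw [h, LinearMap.zero_apply] at h1
    exact hu (sub_eq_zero.1 h1.symm).symm
  obtain ⟨w, hw⟩ : ∃ w : SpC d → (Fin 3 → ℂ), ∀ x, w x = (1 - lam' (x - x₀))⁻¹ • ψ (x - x₀) :=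
    ⟨_, fun _ => rfl⟩
  have hφw : ∀ x ∈ S, c₀.φ (w x) = (1 - lam' (x - x₀))⁻¹ • (x - x₀) := by
    intro x hx
    rw [hw, map_smul, hφψ _ (hS x hx).1]
  have hinj : Set.InjOn w S := by
    intro x hx y hy hxy
    have key : ∀ x ∈ S, x - x₀ = (1 + lam' (c₀.φ (w x)))⁻¹ • c₀.φ (w x) := by
      intro x hx
      have h1 : 1 - lam' (x - x₀) ≠ 0 := sub_ne_zero.2 (hS x hx).2.2.1.symm
      rw [hφw x hx, map_smul, smul_eq_mul, smul_smul]
      have : (1 + (1 - lam' (x - x₀))⁻¹ * lam' (x - x₀))⁻¹ * (1 - lam' (x - x₀))⁻¹ = 1 := by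
        have h2 : 1 + (1 - lam' (x - x₀))⁻¹ * lam' (x - x₀) = (1 - lam' (x - x₀))⁻¹ := by
          field_simp
          ring
        rw [h2, inv_inv, mul_inv_cancel₀ h1]
      rw [this, one_smul]
    have h1 := key x hx
    have h2 := key y hy
    rw [hxy, ← h2] at h1
    exact sub_left_injective h1
  rw [← Finset.card_image_of_injOn hinj]
  refine tm_stab c₀.F c₀.deg c₀.hom hirr he ℓ hℓ0 _ ?_
  intro w' hw'
  obtain ⟨x, hx, rfl⟩ := Finset.mem_image.1 hw'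
  obtain ⟨hξ, hl, hl', hpres⟩ := hS x hx
  have h1 : 1 - lam' (x - x₀) ≠ 0 := sub_ne_zero.2 hl'.symm
  have h2 : 1 - lam (x - x₀) ≠ 0 := sub_ne_zero.2 hl.symm
  constructor
  · have : 1 + ℓ (w x) = (1 - lam (x - x₀)) / (1 - lam' (x - x₀)) := by
      rw [hℓ, hφw x hx, map_smul, map_smul, smul_eq_mul, smul_eq_mul]
      field_simp
      ring
    rw [this]
    exact div_ne_zero h2 h1
  · intro u hu
    obtain ⟨u', hu', hF⟩ := hpres (c₀.φ u) ⟨u, rfl, hu⟩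
    have : u' = (1 - lam' (x - x₀)) • (u + ℓ u • w x) := by
      apply c₀.inj
      rw [hu', map_smul, map_add, map_smul, hφw x hx, smul_add, smul_smul, smul_smul, hℓ]
      congr 2
      field_simp
    rw [this, pmb_homog_eval_smul c₀.hom] at hF
    exact (mul_eq_zero.1 hF).resolve_left (pow_ne_zero _ h1)

/-- **P4** -/
theorem tm_centres (Y Y' : Set (SpC d)) (hY : IsVar Y) (hY' : IsVar Y') (hdim : vdim Y = 1)
    (hdim' : vdim Y' = 1) (hr : finrank ℂ (dirSpan Y) = 2) (hr' : finrank ℂ (dirSpan Y') = 2)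
    (hne : Y ≠ Y') (S : Finset (SpC d)) (c : SpC d → PCurve d)
    (hirr : ∀ x ∈ S, Irreducible (c x).F) (hx : ∀ x ∈ S, ¬ InSpan x Y ∧ ¬ InSpan x Y')
    (hcone : ∀ x ∈ S, (∀ y ∈ Y, (c x).Mem (y - x)) ∧ ∀ y ∈ Y', (c x).Mem (y - x)) :
    ∀ x₀ ∈ S, S.card ≤ (c x₀).deg := by
  intro x₀ hx₀
  have hc : ∀ x ∈ S, TmpCen (c x) x Y := fun x h =>
    ⟨hirr x h, hY, hdim, hr, (hx x h).1, (hcone x h).1⟩
  have hc' : ∀ x ∈ S, TmpCen (c x) x Y' := fun x h =>
    ⟨hirr x h, hY', hdim', hr', (hx x h).2, (hcone x h).2⟩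
  have h₀ := hc x₀ hx₀
  have h₀' := hc' x₀ hx₀
  obtain ⟨lam, l0, l1⟩ := tmp_fun (ph_isVar_nonempty Y hY) x₀ h₀.out
  obtain ⟨lam', l0', l1'⟩ := tmp_fun (ph_isVar_nonempty Y' hY') x₀ h₀'.out
  have hin := tmp_inSpan (c x₀) x₀ Y (ph_isVar_nonempty Y hY) hr h₀.out h₀.cone lam l0 l1
  have hin' := tmp_inSpan (c x₀) x₀ Y' (ph_isVar_nonempty Y' hY') hr' h₀'.out h₀'.cone lam' l0' l1'
  refine tmp_count (c x₀) h₀.irr
    (tm_plane_deg (c x₀) h₀.irr x₀ Y hY hdim h₀.cone h₀.out hr).2 x₀ lam lam' ?_ S ?_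
  · obtain ⟨y', hy', hout⟩ := tmp_off_plane h₀ h₀' hne
    refine ⟨y' - x₀, tmp_mem_range _ (h₀'.cone y' hy'), ?_⟩
    rw [l1' y' hy']
    intro h1
    apply hout
    have := hin _ (tmp_mem_range _ (h₀'.cone y' hy')) h1
    rwa [add_sub_cancel] at this
  · intro x hxS
    have hξ := tmp_xi_mem (hc x hxS) (hc' x hxS) h₀ h₀' hne
    refine ⟨hξ, ?_, ?_, ?_⟩
    · intro h1
      apply (hc x hxS).out
      have := hin _ hξ h1
      rwa [add_sub_cancel] at this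
    · intro h1
      apply (hc' x hxS).out
      have := hin' _ hξ h1
      rwa [add_sub_cancel] at this
    · have hall := tmp_persp_all h₀
        ((1 - lam' (x - x₀)) • LinearMap.id + (lam' - lam).smulRight (x - x₀)) lam'
        (lam' (x - x₀))
        (tmp_persp_ne (hc x hxS) h₀' (tmp_range_eq (hc x hxS) (hc' x hxS) h₀ h₀' hne) lam' l1')
        (by
          intro y hy hney
          have := tmp_persp_pt (hc x hxS).cone (hc' x hxS) h₀.cone h₀' hξ lam' l0' l1' y hy hney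
          simpa [l1 y hy] using this)
      intro v hv
      simpa using hall v hv

/-- numerics of the glue -/
theorem tmp_num (ε : ℝ) (hε : 0 < ε) (δ N A M E : ℝ) (hδ0 : 0 < δ) (hδ1 : δ ≤ 1)
    (hδ : δ ≤ ε ^ 2 / 64) (hN : 1 ≤ N) (hA : 1 ≤ A) (hM : M ≤ δ * A)
    (hE : E = δ * N / A) :
    2 * (2 * M) * E * N + Real.sqrt (2 * E * N ^ 3) ≤ ε * N ^ 2 := by
  have hA0 : 0 < A := by linarith
  have hE0 : 0 ≤ E := by rw [hE]; positivity
  have hME : M * E ≤ δ ^ 2 * N := by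
    calc M * E ≤ (δ * A) * E := mul_le_mul_of_nonneg_right hM hE0
      _ = δ ^ 2 * N := by rw [hE]; field_simp
  have hEN : E ≤ δ * N := by
    rw [hE]
    exact div_le_self (by positivity) hA
  have hs : Real.sqrt δ ≤ ε / 8 := by
    rw [show ε / 8 = Real.sqrt ((ε / 8) ^ 2) from (Real.sqrt_sq (by positivity)).symm]
    exact Real.sqrt_le_sqrt (by nlinarith)
  have hs0 : 0 ≤ Real.sqrt δ := Real.sqrt_nonneg _
  have hsq : Real.sqrt δ ^ 2 = δ := Real.sq_sqrt hδ0.le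
  have hδs : δ ≤ Real.sqrt δ := by
    have : Real.sqrt δ ≤ 1 := by
      rw [show (1 : ℝ) = Real.sqrt 1 from Real.sqrt_one.symm]
      exact Real.sqrt_le_sqrt hδ1
    nlinarith
  have h1 : 2 * (2 * M) * E * N ≤ 4 * Real.sqrt δ * N ^ 2 := by
    have h2 : δ ^ 2 ≤ Real.sqrt δ := by nlinarith
    have : 2 * (2 * M) * E * N = 4 * (M * E) * N := by ring
    rw [this]
    have h3 : M * E ≤ Real.sqrt δ * N := hME.trans (mul_le_mul_of_nonneg_right h2 (by linarith))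
    nlinarith
  have h2 : Real.sqrt (2 * E * N ^ 3) ≤ 2 * Real.sqrt δ * N ^ 2 := by
    rw [show 2 * Real.sqrt δ * N ^ 2 = Real.sqrt ((2 * Real.sqrt δ * N ^ 2) ^ 2) from
      (Real.sqrt_sq (by positivity)).symm]
    apply Real.sqrt_le_sqrt
    have : (2 * Real.sqrt δ * N ^ 2) ^ 2 = 4 * δ * N ^ 4 := by
      rw [mul_pow, mul_pow, hsq]; ring
    rw [this]
    have h3 : E * N ^ 3 ≤ δ * N * N ^ 3 := mul_le_mul_of_nonneg_right hEN (by positivity)
    nlinarith [show 0 ≤ δ * N ^ 4 by positivity]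
  have h3 : 6 * Real.sqrt δ * N ^ 2 ≤ ε * N ^ 2 := by
    apply mul_le_mul_of_nonneg_right _ (by positivity)
    linarith
  linarith

/-- **GLUE**: planar nonlinear curves seen from outside their plane. -/
theorem geo_TP (d : ℕ) (_hd : 3 ≤ d) : GeoTPStmt d := by
  classical
  intro ε hε
  refine ⟨min 1 (ε ^ 2 / 64), by positivity, ?_⟩
  intro D hD cho Q hQ hcho Γ hΓ hT
  by_cases hΓ0 : Γ = ∅
  · rw [hΓ0]
    simp only [Finset.card_empty, Nat.cast_zero]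
    positivity
  obtain ⟨z₀, hz₀⟩ := Finset.nonempty_iff_ne_empty.mpr hΓ0
  have hδ1 : D.δ ≤ 1 := hD.le.trans (min_le_left _ _)
  have hδ2 : D.δ ≤ ε ^ 2 / 64 := hD.le.trans (min_le_right _ _)
  have hN1 : 1 ≤ D.N := hD.one_le_N (min_le_left _ _)
  have hA1 : 1 ≤ dA D.P := Real.one_le_rpow hN1 (by positivity)
  have hE0 : 0 ≤ D.E := by
    unfold SpData.E
    have := hD.pos
    positivity
  have hre : ∀ x ∈ D.pts, spRe x ∈ D.P := by
    intro x hx
    obtain ⟨p, hp, rfl⟩ := Finset.mem_image.1 hx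
    rwa [sp_re_pt]
  obtain ⟨V, hV⟩ : ∃ V : Finset (SpC d × Ideal (PrfPol d)), V = Γ.image (fun z => (z.1, cho z.2)) :=
    ⟨_, rfl⟩
  obtain ⟨I, hI⟩ : ∃ I : Finset (Ideal (PrfPol d)), I = Q.image cho := ⟨_, rfl⟩
  have hfact : ∀ v ∈ V, v.1 ∈ D.pts ∧ v.2 ∈ I ∧ v.2.IsPrime ∧ vdim (zeroLocus ℂ v.2) = 1 ∧
      finrank ℂ (dirSpan (zeroLocus ℂ v.2)) = 2 ∧ ¬ InSpan v.1 (zeroLocus ℂ v.2) ∧
      ∃ c ∈ D.C (spRe v.1), ∀ y ∈ zeroLocus ℂ v.2, c.Mem (y - v.1) := by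
    intro v hv
    rw [hV] at hv
    obtain ⟨z, hz, rfl⟩ := Finset.mem_image.1 hv
    have hz' := Finset.mem_product.1 (hΓ hz)
    obtain ⟨hpr, hdim, _, _⟩ := hcho z.2 hz'.2
    obtain ⟨_, hterm, hrk, hout⟩ := hT z hz
    refine ⟨hz'.1, ?_, hpr, hdim, hrk, hout, ?_⟩
    · rw [hI]; exact Finset.mem_image_of_mem _ hz'.2
    · exact geo_cone_one (D.C (spRe z.1)) z.1 _ ⟨cho z.2, hpr, rfl⟩ hdim hterm
  obtain ⟨c₀, -⟩ := (hfact (z₀.1, cho z₀.2) (by rw [hV]; exact Finset.mem_image_of_mem _ hz₀)).2.2.2.2.2.2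
  have hex : ∀ (x : SpC d) (𝔶 : Ideal (PrfPol d)), ∃ g : PCurve d, (x, 𝔶) ∈ V →
      g ∈ D.C (spRe x) ∧ ∀ y ∈ zeroLocus ℂ 𝔶, g.Mem (y - x) := by
    intro x 𝔶
    by_cases h : (x, 𝔶) ∈ V
    · obtain ⟨c, hc1, hc2⟩ := (hfact _ h).2.2.2.2.2.2
      exact ⟨c, fun _ => ⟨hc1, hc2⟩⟩
    · exact ⟨c₀, fun h' => absurd h' h⟩
  choose grp hgrp using hex
  have hirr : ∀ v ∈ V, Irreducible (grp v.1 v.2).F := fun v hv =>
    hD.irr _ (hre _ (hfact v hv).1) _ (hgrp v.1 v.2 hv).1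
  have hdeg : ∀ v ∈ V, vdeg (zeroLocus ℂ v.2) ≤ (grp v.1 v.2).deg ∧ 2 ≤ (grp v.1 v.2).deg := by
    intro v hv
    obtain ⟨_, _, hpr, hdim, hrk, hout, _⟩ := hfact v hv
    exact tm_plane_deg _ (hirr v hv) v.1 _ ⟨v.2, hpr, rfl⟩ hdim (hgrp v.1 v.2 hv).2 hout hrk
  have hcardpts : (D.pts.card : ℝ) ≤ D.N := by
    unfold SpData.N SpData.pts
    exact_mod_cast Finset.card_image_le
  have key := tm_pair_count D.pts I V
    (fun 𝔶 => ((Q.filter (fun y => cho y = 𝔶)).card : ℝ)) grp (fun _ g => (g.deg : ℝ))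
    D.N (2 * (dM D.P : ℝ)) D.E
    (fun v hv => Finset.mem_product.2 ⟨(hfact v hv).1, (hfact v hv).2.1⟩) hcardpts
    (fun _ _ => Nat.cast_nonneg _)
    (by
      have h1 : Q.card = ∑ 𝔶 ∈ I, (Q.filter (fun y => cho y = 𝔶)).card := by
        rw [hI]; exact Finset.card_eq_sum_card_image cho Q
      have h2 : (Q.card : ℝ) ≤ D.N :=
        le_trans (by exact_mod_cast Finset.card_le_card hQ) hcardpts
      rw [h1] at h2
      exact_mod_cast h2)
    (by positivity) hE0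
    (fun v hv => by
      have := (hdeg v hv).2
      have h2 : (2 : ℝ) ≤ ((grp v.1 v.2).deg : ℝ) := by exact_mod_cast this
      linarith)
    (by
      intro x hx G hG
      have h1 : ∑ g ∈ G, g.deg ≤ ((D.C (spRe x)).map PCurve.deg).sum :=
        tm_sum_le_list (D.C (spRe x)) PCurve.deg G (by
          intro g hg
          obtain ⟨i, hi, rfl⟩ := hG g hg
          exact (hgrp x i hi).1)
      have h2 := hD.deg _ (hre x hx)
      refine le_trans ?_ h2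
      exact_mod_cast h1)
    (by
      intro v hv
      obtain ⟨_, _, hpr, hdim, _, _, _⟩ := hfact v hv
      have h1 := sep_count_curve D.P (zeroLocus ℂ v.2) ⟨v.2, hpr, rfl⟩ hdim
        (Q.filter (fun y => cho y = v.2)) ((Finset.filter_subset _ _).trans hQ) (by
          intro y hy
          obtain ⟨hyQ, hyv⟩ := Finset.mem_filter.1 (Finset.mem_coe.1 hy)
          rw [← hyv]
          exact (hcho y hyQ).2.2.1)
      have h2 : 2 * dM D.P * vdeg (zeroLocus ℂ v.2) ≤ 2 * dM D.P * (grp v.1 v.2).deg :=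
        Nat.mul_le_mul_left _ (hdeg v hv).1
      exact_mod_cast h1.trans h2)
    (by
      intro i _ j _ hij
      refine (?_ : ∀ S : Finset (SpC d), (∀ x, x ∈ S ↔ x ∈ D.pts ∧
        ((x, i) ∈ V ∧ (x, j) ∈ V ∧ grp x i = grp x j)) →
          ∑ x ∈ S, 1 / ((grp x i).deg : ℝ) ≤ 1) _ (fun x => by simp only [Finset.mem_filter])
      intro S hS
      have hmem : ∀ x ∈ S, (x, i) ∈ V ∧ (x, j) ∈ V ∧ grp x i = grp x j :=
        fun x hx => ((hS x).1 hx).2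
      rcases S.eq_empty_or_nonempty with h0 | ⟨x₁, hx₁⟩
      · rw [h0]; simp
      obtain ⟨h1i, h1j, _⟩ := hmem x₁ hx₁
      obtain ⟨_, _, hpri, hdimi, hrki, _, _⟩ := hfact _ h1i
      obtain ⟨_, _, hprj, hdimj, hrkj, _, _⟩ := hfact _ h1j
      have hcen := tm_centres (zeroLocus ℂ i) (zeroLocus ℂ j) ⟨i, hpri, rfl⟩ ⟨j, hprj, rfl⟩
        hdimi hdimj hrki hrkj (fun h => hij (ph_zeroLocus_inj hpri hprj h)) S (fun x => grp x i)
        (fun x hx => hirr _ (hmem x hx).1)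
        (fun x hx => ⟨(hfact _ (hmem x hx).1).2.2.2.2.2.1, (hfact _ (hmem x hx).2.1).2.2.2.2.2.1⟩)
        (fun x hx => ⟨(hgrp x i (hmem x hx).1).2, by
          rw [(hmem x hx).2.2]; exact (hgrp x j (hmem x hx).2.1).2⟩)
      have hSpos : (0 : ℝ) < (S.card : ℝ) := by
        exact_mod_cast Finset.card_pos.2 ⟨x₁, hx₁⟩
      calc ∑ x ∈ S, 1 / ((grp x i).deg : ℝ) ≤ ∑ _x ∈ S, 1 / (S.card : ℝ) := by
            apply Finset.sum_le_sum
            intro x hx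
            apply one_div_le_one_div_of_le hSpos
            exact_mod_cast hcen x hx
        _ = 1 := by
            rw [Finset.sum_const, nsmul_eq_mul]
            field_simp)
  have hcount : (Γ.card : ℝ) ≤ ∑ v ∈ V, ((Q.filter (fun y => cho y = v.2)).card : ℝ) := by
    have h1 : Γ.card = ∑ v ∈ V, (Γ.filter (fun z => (z.1, cho z.2) = v)).card := by
      rw [hV]; exact Finset.card_eq_sum_card_image _ Γ
    have h2 : ∑ v ∈ V, (Γ.filter (fun z => (z.1, cho z.2) = v)).card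
        ≤ ∑ v ∈ V, (Q.filter (fun y => cho y = v.2)).card := by
      apply Finset.sum_le_sum
      intro v _
      apply Finset.card_le_card_of_injOn (fun z => z.2)
      · intro z hz
        obtain ⟨hzΓ, hzv⟩ := Finset.mem_filter.1 (Finset.mem_coe.1 hz)
        apply Finset.mem_coe.2
        apply Finset.mem_filter.2
        exact ⟨(Finset.mem_product.1 (hΓ hzΓ)).2, by rw [← hzv]⟩
      · intro z hz z' hz' hzz
        obtain ⟨_, hzv⟩ := Finset.mem_filter.1 (Finset.mem_coe.1 hz)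
        obtain ⟨_, hzv'⟩ := Finset.mem_filter.1 (Finset.mem_coe.1 hz')
        have h3 : z.1 = z'.1 := by
          have := hzv.trans hzv'.symm
          exact (Prod.ext_iff.1 this).1
        exact Prod.ext h3 hzz
    rw [h1]
    exact_mod_cast h2
  refine hcount.trans (key.trans ?_)
  exact tmp_num ε hε D.δ D.N (dA D.P) (dM D.P) D.E hD.pos hδ1 hδ2 hN1 hA1 hD.dist rfl

end Claimed.Agent.R273
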