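-- KEEP
import Claimed.Agent.R273.SpMain
import Claimed.Agent.R273.SpFac
import Claimed.Agent.R273.SpRegLab
import Claimed.Agent.R273.GdTop
import Claimed.Agent.R273.GeoExp
import Claimed.Agent.R273.PjExp
import Claimed.Agent.R273.GeoTL
import Claimed.Agent.R273.TmP
import Claimed.Agent.R273.Tm3

/-!
# Row 273, SPARSE: `sparse : ∀ d ≥ 3, SparseStmt d`, WITHOUT hypotheses (all units plugged in).  Chief architect helper37.
-/

set_option autoImplicit false

namespace Claimed.Agent.R273

theorem sp_term {d : ℕ} (hd : 3 ≤ d) : SpTermStmt d :=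
  geo_term_of_parts d hd (geo_TF d hd) (geo_TL d hd) (geo_TP d hd) (fun _ => geo_T3)

/-- **the sparse-cones assertion** -/
theorem sparse (d : ℕ) (hd : 3 ≤ d) : SparseStmt d :=
  sparse_main hd (sp_factor d) (sp_term hd) (gd_depth hd) (gd_tang hd) (sp_regLab d)
    (geo_scoSec d) (pj_scoProj d)

end Claimed.Agent.R273
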