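import Claimed.Agent.R273.SpSelDefs

/-!
# Row 273, SPARSE, unit SEL, part A: compactness, the bridge to `prf_partition`, basic identities.  Architect helper191.

LEAF SEL-A1 (`spsel_cover`, ~150 lines).  `Kc := Set.pi Set.univ (fun _ : Fin d => Set.Icc (-1 : ℝ) 1)` is compact (`isCompact_univ_pi`, `isCompact_Icc`).  For `f : Fin d → ℝ` let `ext f : ℕ → ℝ := fun i => if h : i < d then f ⟨i, h⟩ else 0`.
  `U f := Metric.ball f (Θ (ext f) / 2)` is a neighbourhood of `f`; `IsCompact.elim_nhds_subcover` gives a finite `t ⊆ Kc` with `Kc ⊆ ⋃_{f ∈ t} U f`; `bs := t.image ext`.  `Kc` is nonempty so `t` is nonempty.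
  `dist g f < r` in `Fin d → ℝ` gives `|g i - f i| < r` (`dist_pi_lt_iff` / `dist_le_pi_dist`).  `ext f (d-1) = f ⟨d-1, _⟩ ≤ 1`.
LEAF SEL-A2 (`spsel_basic`: the identities and `spsel_B_large`, ~200 lines): `Real.rpow` arithmetic.
  `spsel_B_large`: `δ₁ := min 1 (1 / (max B₀ 1)^d)`: `N ≥ 1/δ ≥ (max B₀ 1)^d`, `B = N^{1/d} ≥ max B₀ 1` (`Real.rpow_le_rpow`, `Real.pow_rpow_inv_natCast`).
`spsel_part` (bridge) is proved below.
-/

set_option autoImplicit false

namespace Claimed.Agent.R273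

open MvPolynomial Module

variable {d : ℕ}

/-- LEAF SEL-A1 -/
theorem spsel_cover (hd : 1 ≤ d) : SpSelCover d := by
  classical
  intro Θ hΘ
  set ext : (Fin d → ℝ) → ℕ → ℝ := fun f i => if h : i < d then f ⟨i, h⟩ else 0 with hext
  set Kc : Set (Fin d → ℝ) := Set.pi Set.univ (fun _ => Set.Icc (-1 : ℝ) 1) with hKc
  have hcomp : IsCompact Kc := isCompact_univ_pi fun _ => isCompact_Icc
  obtain ⟨t, htK, htc⟩ := hcomp.elim_nhds_subcover (fun f => Metric.ball f (Θ (ext f) / 2))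
    (fun f _ => Metric.ball_mem_nhds f (by have := hΘ (ext f); positivity))
  refine ⟨t.image ext, ?_, ?_, ?_⟩
  · have h0 : (0 : Fin d → ℝ) ∈ Kc := fun i _ => ⟨by simp, by simp⟩
    obtain ⟨f, hf, _⟩ := Set.mem_iUnion₂.1 (htc h0)
    exact ⟨ext f, Finset.mem_image_of_mem _ hf⟩
  · intro b hb
    obtain ⟨f, hf, rfl⟩ := Finset.mem_image.1 hb
    have hlt : d - 1 < d := by omega
    simp only [hext, dif_pos hlt]
    exact (htK f hf ⟨d - 1, hlt⟩ (Set.mem_univ _)).2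
  · intro τ hτ
    have hg : (fun i : Fin d => τ i) ∈ Kc := fun i _ => ⟨(hτ i i.2).1, (hτ i i.2).2⟩
    obtain ⟨f, hf, hfb⟩ := Set.mem_iUnion₂.1 (htc hg)
    refine ⟨ext f, Finset.mem_image_of_mem _ hf, fun i hi => ?_⟩
    have h1 : dist ((fun i : Fin d => τ i) ⟨i, hi⟩) (f ⟨i, hi⟩) ≤ dist (fun i : Fin d => τ i) f :=
      dist_le_pi_dist (fun i : Fin d => τ i) f ⟨i, hi⟩
    simp only [hext, dif_pos hi]
    rw [← Real.dist_eq]
    exact h1.trans (Metric.mem_ball.1 hfb).le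

/-! ### SEL-A2: basic identities -/

theorem spsel_card_pts (D : SpData d) : (D.pts.card : ℝ) = D.N := by
  unfold SpData.pts SpData.N
  rw [Finset.card_image_of_injective _ sp_pt_injective]

theorem spsel_real_pts (D : SpData d) : ∀ x ∈ D.pts, SpReal x := by
  intro x hx
  obtain ⟨p, _, rfl⟩ := Finset.mem_image.mp hx
  intro i
  simp [prfPt]

/-- `A = B²` -/
theorem spsel_A (hd : 1 ≤ d) (D : SpData d) : dA D.P = D.B ^ 2 := by
  unfold dA SpData.B SpData.N
  rw [← Real.rpow_natCast, ← Real.rpow_mul (by positivity)]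
  congr 1
  push_cast; ring

/-- `N = B^d` -/
theorem spsel_N (hd : 1 ≤ d) (D : SpData d) : D.N = D.B ^ d := by
  unfold SpData.B
  rw [one_div, Real.rpow_inv_natCast_pow (by unfold SpData.N; positivity) (by omega)]

/-- `A ≤ N` for `d ≥ 2`, `N ≥ 1` -/
theorem spsel_A_le_N (hd : 2 ≤ d) (D : SpData d) (hN : 1 ≤ D.N) : dA D.P ≤ D.N := by
  have h1 : dA D.P = D.N ^ ((2 : ℝ) / d) := rfl
  rw [h1]
  have hd' : (2 : ℝ) ≤ d := by exact_mod_cast hd
  calc D.N ^ ((2 : ℝ) / d) ≤ D.N ^ (1 : ℝ) :=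
        Real.rpow_le_rpow_of_exponent_le hN (by rw [div_le_one (by linarith)]; exact hd')
    _ = D.N := Real.rpow_one _

/-- in the regime, `B` is as large as we please -/
theorem spsel_B_large (hd : 1 ≤ d) (B₀ : ℝ) : ∃ δ₁ : ℝ, 0 < δ₁ ∧ δ₁ ≤ 1 ∧
    ∀ D : SpData d, D.Reg δ₁ → B₀ ≤ D.B := by
  set b : ℝ := max B₀ 1 with hb
  have hb1 : 1 ≤ b := le_max_right _ _
  have hb0 : 0 < b := by linarith
  refine ⟨min 1 (1 / b ^ d), by positivity, min_le_left _ _, ?_⟩
  intro D hD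
  have h1 : D.δ ≤ 1 / b ^ d := hD.le.trans (min_le_right _ _)
  have h2 := hD.big
  have h3 := hD.pos
  have hN0 : 0 ≤ D.N := by unfold SpData.N; positivity
  have h4 : b ^ d ≤ D.N := by
    have hbd : 0 < b ^ d := by positivity
    have : 1 ≤ 1 / b ^ d * D.N := h2.trans (mul_le_mul_of_nonneg_right h1 hN0)
    rw [one_div, inv_mul_eq_div, one_le_div hbd] at this
    exact this
  have h5 : (b ^ d) ^ ((1 : ℝ) / d) ≤ D.N ^ ((1 : ℝ) / d) :=
    Real.rpow_le_rpow (by positivity) h4 (by positivity)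
  rw [one_div, Real.pow_rpow_inv_natCast hb0.le (by omega)] at h5
  calc B₀ ≤ b := le_max_left _ _
    _ ≤ D.B := by unfold SpData.B; rw [one_div]; exact h5

theorem SpPart.Tame.mono {𝔭 : SpPart d} {D : SpData d} {θ θ' : ℝ} (h : 𝔭.Tame D θ) (h0 : 0 < θ)
    (hθ : θ ≤ θ') : 𝔭.Tame D θ' where
  sub := h.sub
  disj := h.disj
  w_ge := fun a ha => (one_div_le_one_div_of_le h0 hθ).trans (h.w_ge a ha)
  piece := fun a ha => (h.piece a ha).mono_kappa hθ
  grid := fun a ha => (h.grid a ha).mono_mu hθ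
  top_ge := h.top_ge
  top_le := fun a ha => by linarith [h.top_le a ha]
  size := fun a ha => by
    have hw : 0 ≤ 𝔭.w D.B a := le_trans (by positivity) (h.w_ge a ha)
    refine le_trans ?_ (h.size a ha)
    refine mul_le_mul_of_nonneg_left ?_ (by unfold SpData.N; positivity)
    exact Real.exp_le_exp.mpr (by nlinarith)
  imb := fun a ha => (h.imb a ha).imp (fun h' => by linarith) id

/-- the cardinality of the retained set -/
theorem spsel_card_R (𝔭 : SpPart d)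
    (hdisj : ∀ a ∈ 𝔭.I, ∀ a' ∈ 𝔭.I, a ≠ a' → Disjoint (𝔭.π a).S (𝔭.π a').S) :
    𝔭.R.card = ∑ a ∈ 𝔭.I, (𝔭.π a).S.card :=
  Finset.card_biUnion hdisj

/-- **the bridge**: `prf_partition` is `SpPartStmt`. -/
theorem spsel_part (hd : 1 ≤ d) : SpPartStmt d := by
  obtain ⟨κ, μ, ρ, ω, s₀, herr, h⟩ := prf_partition d hd
  refine ⟨κ, μ, ρ, ω, s₀, herr, ?_⟩
  intro P B sst hB hs hs' hM
  obtain ⟨K, I, π, m, top, grid, h1, h2, h3, h4, h5, h6, h7⟩ := h P B sst hB hs hs' hM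
  have hc : ((P.image prfPt).card : ℝ) = (P.card : ℝ) := by
    rw [Finset.card_image_of_injective _ sp_pt_injective]
  refine ⟨⟨K, I, π, m, top, grid⟩, ?_⟩
  exact
    { subK := h1
      sub := h2
      disjK := h3
      disj := h4
      most := by rw [hc]; exact h5
      sep := h6
      w_ge := fun a ha => (h7 a ha _ rfl).1
      piece := fun a ha => (h7 a ha _ rfl).2.1
      grid := fun a ha => (h7 a ha _ rfl).2.2.1
      top_ge := fun a ha => (h7 a ha _ rfl).2.2.2.1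
      top_le := fun a ha => (h7 a ha _ rfl).2.2.2.2.1
      size := fun a ha => by rw [hc]; exact (h7 a ha _ rfl).2.2.2.2.2.1
      imb := fun a ha => (h7 a ha _ rfl).2.2.2.2.2.2 }

end Claimed.Agent.R273
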