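-- KEEP
import Claimed.Agent.R273.SpTop
import Claimed.Agent.R273.DirGraph

/-!
# Row 273, SPARSE, unit SEL (prof:pair-selection in gauge form): definitions and the top glue.  Architect helper191.  Prefix `spsel_`.

`sp_sel : SpPartStmt d → SpTermStmt d → RichLinesStmt d → SpSelStmt d`  is PROVED here from three statements:

* `spsel_cover` (SpSelA)  compactness: a finite set `bs` of reference profiles such that every profile in `[-1,1]^d` is within `Θ(b)/2` of some `b ∈ bs`;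
* `spsel_prep`  (SpSelB)  preparation: for a fixed tolerance `θ` and a fixed number `Kb` of bins there is `δ₁` such that every `δ₁`-regular, `δ₁`-almost covered datum has
                 a `θ/2`-tame partition, a terminal assignment `cho`, a line threshold `H ≤ B^θ` and a set `Bad` of at most `|R|²/(16 Kb)` ordered pairs outside which every pair of retained points is GOOD in one of its two orientations;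
* `spsel_pick`  (SpSelC)  pigeonhole over the `Kb = |bs| · 2h` bins (reference profile, class of the dyadic index) and construction of the configuration.

NO sequences, NO limits: `sst` (the paper's `s_*`) is a CONSTANT depending on the gauge only.
-/

set_option autoImplicit false

namespace Claimed.Agent.R273

open MvPolynomial Module

variable {d : ℕ}

/-- The output of the multiscale partition for one datum: core `K`, pieces `π a` (`a ∈ I`), dyadic index `m a` of the window of the piece; time grid and its top are indexed by the DYADIC INDEX. -/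
structure SpPart (d : ℕ) where
  K : Finset (SpC d)
  I : Finset ℕ
  π : ℕ → PrfPiece d
  m : ℕ → ℕ
  top : ℕ → ℝ
  grid : ℕ → Finset ℝ

/-- the width of the piece `a` -/
noncomputable def SpPart.w (𝔭 : SpPart d) (B : ℝ) (a : ℕ) : ℝ := Real.log B / 2 ^ (𝔭.m a)

/-- the retained (non-core) points -/
noncomputable def SpPart.R (𝔭 : SpPart d) : Finset (SpC d) := 𝔭.I.biUnion fun a => (𝔭.π a).S

/-- the conclusions of prof:partition (finite form of helper161, `prf_partition`) -/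
structure SpPart.Ok (𝔭 : SpPart d) (pts : Finset (SpC d)) (B sst : ℝ) (κ μ ρ ω : ℝ → ℝ) : Prop where
  subK : 𝔭.K ⊆ pts
  sub : ∀ a ∈ 𝔭.I, (𝔭.π a).S ⊆ pts
  disjK : ∀ a ∈ 𝔭.I, Disjoint 𝔭.K (𝔭.π a).S
  disj : ∀ a ∈ 𝔭.I, ∀ a' ∈ 𝔭.I, a ≠ a' → Disjoint (𝔭.π a).S (𝔭.π a').S
  most : (pts.card : ℝ) - 𝔭.K.card - ∑ a ∈ 𝔭.I, ((𝔭.π a).S.card : ℝ) ≤ ω sst * pts.card
  sep : ∀ z ∈ 𝔭.K, ∃ σ : PrfPol d, (σ.totalDegree : ℝ) ≤ B * Real.exp (3 * sst) ∧ eval z σ = 1 ∧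
    ∀ y ∈ 𝔭.K, y ≠ z → eval y σ = 0
  w_ge : ∀ a ∈ 𝔭.I, sst ≤ 𝔭.w B a
  piece : ∀ a ∈ 𝔭.I, (𝔭.π a).Ok B (𝔭.w B a) (κ (𝔭.w B a)) (𝔭.grid (𝔭.m a))
  grid : ∀ a ∈ 𝔭.I, PrfGrid (𝔭.grid (𝔭.m a)) (μ (𝔭.w B a)) (𝔭.top (𝔭.m a))
  top_ge : ∀ a ∈ 𝔭.I, 1 ≤ 𝔭.top (𝔭.m a)
  top_le : ∀ a ∈ 𝔭.I, 𝔭.top (𝔭.m a) ≤ 1 + μ (𝔭.w B a)
  size : ∀ a ∈ 𝔭.I, (pts.card : ℝ) * Real.exp (-(ρ (𝔭.w B a))) ≤ ((𝔭.π a).S.card : ℝ)
  imb : ∀ a ∈ 𝔭.I, (𝔭.π a).τ 0 ≤ -1 / 2 + μ (𝔭.w B a) ∨ 1 / 2 < (𝔭.π a).τ (d - 1)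

/-- (PART) prof:partition in the form consumed by the selection (= `prf_partition` with grid and top indexed by the dyadic index). -/
def SpPartStmt (d : ℕ) : Prop :=
  ∃ (κ μ ρ ω : ℝ → ℝ) (s₀ : ℝ), PrfErr κ μ ρ ω ∧
    ∀ (P : Finset (Pt d)) (B sst : ℝ), B = (P.card : ℝ) ^ ((1 : ℝ) / d) →
      s₀ ≤ sst → sst ≤ Real.log B / 4 → 2 * (dM P : ℝ) + 1 ≤ B ^ 2 →
      ∃ 𝔭 : SpPart d, 𝔭.Ok (P.image prfPt) B sst κ μ ρ ω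

/-- a partition all of whose error terms are `≤ θ` -/
structure SpPart.Tame (𝔭 : SpPart d) (D : SpData d) (θ : ℝ) : Prop where
  sub : ∀ a ∈ 𝔭.I, (𝔭.π a).S ⊆ D.pts
  disj : ∀ a ∈ 𝔭.I, ∀ a' ∈ 𝔭.I, a ≠ a' → Disjoint (𝔭.π a).S (𝔭.π a').S
  w_ge : ∀ a ∈ 𝔭.I, 1 / θ ≤ 𝔭.w D.B a
  piece : ∀ a ∈ 𝔭.I, (𝔭.π a).Ok D.B (𝔭.w D.B a) θ (𝔭.grid (𝔭.m a))
  grid : ∀ a ∈ 𝔭.I, PrfGrid (𝔭.grid (𝔭.m a)) θ (𝔭.top (𝔭.m a))
  top_ge : ∀ a ∈ 𝔭.I, 1 ≤ 𝔭.top (𝔭.m a)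
  top_le : ∀ a ∈ 𝔭.I, 𝔭.top (𝔭.m a) ≤ 1 + θ
  size : ∀ a ∈ 𝔭.I, D.N * Real.exp (-(θ * 𝔭.w D.B a)) ≤ ((𝔭.π a).S.card : ℝ)
  imb : ∀ a ∈ 𝔭.I, (𝔭.π a).τ 0 ≤ -1 / 2 + θ ∨ 1 / 2 < (𝔭.π a).τ (d - 1)

/-- `cho` assigns to every retained point one of its carrier curves after `d - 1` cuts -/
def SpPart.Cho (𝔭 : SpPart d) (cho : SpC d → Ideal (PrfPol d)) : Prop :=
  ∀ a ∈ 𝔭.I, ∀ y ∈ (𝔭.π a).S, cho y ∈ prfCarr (prfSys (𝔭.π a).f (d - 1)) y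

/-- GOOD ordered pairs: covered from the first point, not terminal, target curve not a nonreal line, light line. -/
def SpGood (D : SpData d) (cho : SpC d → Ideal (PrfPol d)) (H : ℝ) (z : SpC d × SpC d) : Prop :=
  z.1 ≠ z.2 ∧ D.Cov z.1 z.2 ∧ ¬ SpTerm D z.1 (cho z.2) ∧ ¬ SpThin (cho z.2) ∧
    ∀ T ⊆ D.pts, (∀ w ∈ T, ∃ c : ℂ, w - z.1 = c • (z.2 - z.1)) → (T.card : ℝ) ≤ H

/-- outside `Bad` every pair of distinct retained points is good in one of its orientations -/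
def SpPart.BadOk (𝔭 : SpPart d) (D : SpData d) (cho : SpC d → Ideal (PrfPol d)) (H : ℝ)
    (Bad : Finset (SpC d × SpC d)) : Prop :=
  ∀ x ∈ 𝔭.R, ∀ y ∈ 𝔭.R, x ≠ y → (x, y) ∉ Bad → SpGood D cho H (x, y) ∨ SpGood D cho H (y, x)

/-- `U` contains all pairs covered in neither orientation -/
def SpData.AlmostCov (D : SpData d) (U : Finset (SpC d × SpC d)) : Prop :=
  ∀ x ∈ D.pts, ∀ y ∈ D.pts, x ≠ y → (x, y) ∈ U ∨ D.Cov x y ∨ D.Cov y x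

/-- (A) the finite cover of the profile cube by the gauge. -/
def SpSelCover (d : ℕ) : Prop :=
  ∀ Θ : (ℕ → ℝ) → ℝ, (∀ b, 0 < Θ b) → ∃ bs : Finset (ℕ → ℝ), bs.Nonempty ∧
    (∀ b ∈ bs, b (d - 1) ≤ 1) ∧
    ∀ τ : ℕ → ℝ, (∀ i < d, -1 ≤ τ i ∧ τ i ≤ 1) → ∃ b ∈ bs, ∀ i < d, |τ i - b i| ≤ Θ b / 2

/-- (B) the preparation. -/
def SpSelPrep (d : ℕ) : Prop :=
  ∀ (θ : ℝ), 0 < θ → θ ≤ 1 → ∀ Kb : ℕ, 1 ≤ Kb → ∃ δ₁ : ℝ, 0 < δ₁ ∧ δ₁ ≤ θ ∧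
    ∀ D : SpData d, D.Reg δ₁ → ∀ U : Finset (SpC d × SpC d), D.AlmostCov U →
      (U.card : ℝ) ≤ δ₁ * D.N ^ 2 →
      ∃ (𝔭 : SpPart d) (cho : SpC d → Ideal (PrfPol d)) (H : ℝ) (Bad : Finset (SpC d × SpC d)),
        𝔭.Tame D (θ / 2) ∧ 𝔭.Cho cho ∧ H ≤ D.B ^ θ ∧ 𝔭.BadOk D cho H Bad ∧
        16 * (Kb : ℝ) * (Bad.card : ℝ) ≤ (𝔭.R.card : ℝ) ^ 2 ∧ 0 < 𝔭.R.card ∧
        D.N * Real.sqrt D.δ * (2 * (Kb : ℝ)) ≤ (𝔭.R.card : ℝ) ∧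
        ∀ a ∈ 𝔭.I, 4 ≤ (𝔭.π a).S.card

/-- (C) the pigeonhole and the construction of the configuration. -/
def SpSelPick (d : ℕ) : Prop :=
  ∀ (Θ : (ℕ → ℝ) → ℝ) (bs : Finset (ℕ → ℝ)) (θ : ℝ) (h : ℕ), 0 < θ → θ ≤ 1 →
    (∀ b ∈ bs, θ ≤ Θ b) → (∀ b ∈ bs, b (d - 1) ≤ 1) →
    (∀ τ : ℕ → ℝ, (∀ i < d, -1 ≤ τ i ∧ τ i ≤ 1) → ∃ b ∈ bs, ∀ i < d, |τ i - b i| ≤ Θ b / 2) →
    1 ≤ h → (1 / 2 : ℝ) ^ h ≤ θ →
    ∀ (D : SpData d), D.Reg θ →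
    ∀ (𝔭 : SpPart d) (cho : SpC d → Ideal (PrfPol d)) (H : ℝ) (Bad : Finset (SpC d × SpC d)),
      𝔭.Tame D (θ / 2) → 𝔭.Cho cho → H ≤ D.B ^ θ → 𝔭.BadOk D cho H Bad →
      16 * ((bs.card * (2 * h) : ℕ) : ℝ) * (Bad.card : ℝ) ≤ (𝔭.R.card : ℝ) ^ 2 → 0 < 𝔭.R.card →
      D.N * Real.sqrt D.δ * (2 * ((bs.card * (2 * h) : ℕ) : ℝ)) ≤ (𝔭.R.card : ℝ) →
      (∀ a ∈ 𝔭.I, 4 ≤ (𝔭.π a).S.card) →
      ∃ (b : ℕ → ℝ) (𝔠 : SpCfg d), 𝔠.Ok b (1 / 4) (Θ b) ∧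
        (𝔠.Common b ∨ 𝔠.Outer b ∨ 𝔠.Sep (Θ b))

/-- **The selection from its three parts.** -/
theorem sp_sel_of_parts (hA : SpSelCover d) (hB : SpSelPrep d) (hC : SpSelPick d) : SpSelStmt d := by
  intro Θ hΘ
  obtain ⟨bs, hne, hb1, hcov⟩ := hA Θ hΘ
  -- the least tolerance
  obtain ⟨θ, hθ0, hθ1, hθ⟩ : ∃ θ : ℝ, 0 < θ ∧ θ ≤ 1 ∧ ∀ b ∈ bs, θ ≤ Θ b := by
    obtain ⟨b₀, hb₀, hmin⟩ := Finset.exists_min_image bs Θ hne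
    exact ⟨min (Θ b₀) 1, lt_min (hΘ b₀) one_pos, min_le_right _ _,
      fun b hb => (min_le_left _ _).trans (hmin b hb)⟩
  obtain ⟨h₀, hh₀⟩ : ∃ n : ℕ, (1 / 2 : ℝ) ^ n < θ :=
    exists_pow_lt_of_lt_one hθ0 (by norm_num)
  set h : ℕ := h₀ + 1 with hh
  have hh1 : 1 ≤ h := by omega
  have hh2 : (1 / 2 : ℝ) ^ h ≤ θ := by
    have : (1 / 2 : ℝ) ^ h ≤ (1 / 2 : ℝ) ^ h₀ :=
      pow_le_pow_of_le_one (by norm_num) (by norm_num) (by omega)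
    exact this.trans hh₀.le
  have hKb : 1 ≤ bs.card * (2 * h) := by
    have : 1 ≤ bs.card := Finset.card_pos.mpr hne
    nlinarith
  obtain ⟨δ₁, hδ₁, hδ₁θ, hprep⟩ := hB θ hθ0 hθ1 (bs.card * (2 * h)) hKb
  refine ⟨δ₁, hδ₁, ?_⟩
  intro D hreg U hU hUc
  obtain ⟨𝔭, cho, H, Bad, h1, h2, h3, h4, h5, h6, h7, h8⟩ := hprep D hreg U hU hUc
  exact hC Θ bs θ h hθ0 hθ1 hθ hb1 hcov hh1 hh2 D (hreg.mono hδ₁θ) 𝔭 cho H Bad h1 h2 h3 h4 h5 h6 h7 h8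

end Claimed.Agent.R273
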